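import Vale.Agent.Lib.P154.PChain.BH.R7_0

set_option linter.all false

namespace Vale.Agent.Lib.P154.PChain.BH.S8

open Vale.Agent.Lib.P154.Chain

noncomputable def pc0 : PT := (PT.nd (nat_lit 6250764) (PT.nd (nat_lit 6013410) (PT.nd (nat_lit 5835492) (PT.nd (nat_lit 5716854) (PT.nd (nat_lit 3640728) (PT.nd (nat_lit 3640650) PT.nil (PT.lf (nat_lit 76) (nat_lit 6) (nat_lit 1) (nat_lit 3) (nat_lit 254) (nat_lit 61) (nat_lit 255))) (PT.nd (nat_lit 59280) (PT.lf (nat_lit 76) (nat_lit 6) (nat_lit 1) (nat_lit 1) (nat_lit 255) (nat_lit 61) (nat_lit 254)) (PT.lf (nat_lit 152) (nat_lit 3) (nat_lit 2) (nat_lit 1) (nat_lit 254) (nat_lit 62) (nat_lit 254)))) (PT.nd (nat_lit 59358) (PT.nd (nat_lit 59280) (PT.lf (nat_lit 684) (nat_lit 3) (nat_lit 9) (nat_lit 1) (nat_lit 237) (nat_lit 96) (nat_lit 237)) (PT.lf (nat_lit 836) (nat_lit 6) (nat_lit 11) (nat_lit 3) (nat_lit 236) (nat_lit 97) (nat_lit 237))) (PT.nd (nat_lit 59202) (PT.lf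 (nat_lit 836) (nat_lit 6) (nat_lit 11) (nat_lit 1) (nat_lit 237) (nat_lit 97) (nat_lit 236)) (PT.lf (nat_lit 912) (nat_lit 6) (nat_lit 12) (nat_lit 3) (nat_lit 235) (nat_lit 98) (nat_lit 237))))) (PT.nd (nat_lit 118560) (PT.nd (nat_lit 59280) (PT.nd (nat_lit 78) (PT.lf (nat_lit 988) (nat_lit 3) (nat_lit 13) (nat_lit 1) (nat_lit 236) (nat_lit 98) (nat_lit 236)) (PT.lf (nat_lit 912) (nat_lit 6) (nat_lit 12) (nat_lit 1) (nat_lit 237) (nat_lit 98) (nat_lit 235))) (PT.nd (nat_lit 78) (PT.lf (nat_lit 1140) (nat_lit 6) (nat_lit 15) (nat_lit 3) (nat_lit 235) (nat_lit 99) (nat_lit 236)) (PT.lf (nat_lit 1140) (nat_lit 6) (nat_lit 15) (nat_lit 1) (nat_lit 236) (nat_lit 99) (nat_lit 235)))) (PT.nd (nat_lit 156) (PT.nd (nat_lit 78) (PT.lf (nat_lit 1216) (nat_lit 6) (nat_lit 16) (nat_lit 3) (nat_lit 234) (nat_lit 100) (nat_lit 236)) (PT.lf (nat_lit 1292) (nat_lit 3) (nat_lit 17) (nat_lit 1) (nat_lit 235) (nat_lit 100) (nat_lit 235)))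 (PT.nd (nat_lit 59124) (PT.lf (nat_lit 1216) (nat_lit 6) (nat_lit 16) (nat_lit 1) (nat_lit 236) (nat_lit 100) (nat_lit 234)) (PT.lf (nat_lit 1368) (nat_lit 6) (nat_lit 18) (nat_lit 3) (nat_lit 233) (nat_lit 101) (nat_lit 236)))))) (PT.nd (nat_lit 118638) (PT.nd (nat_lit 59280) (PT.nd (nat_lit 78) (PT.lf (nat_lit 1444) (nat_lit 6) (nat_lit 19) (nat_lit 3) (nat_lit 234) (nat_lit 101) (nat_lit 235)) (PT.nd (nat_lit 78) (PT.lf (nat_lit 1444) (nat_lit 6) (nat_lit 19) (nat_lit 1) (nat_lit 235) (nat_lit 101) (nat_lit 234)) (PT.lf (nat_lit 1368) (nat_lit 6) (nat_lit 18) (nat_lit 1) (nat_lit 236) (nat_lit 101) (nat_lit 233)))) (PT.nd (nat_lit 156) (PT.nd (nat_lit 78) (PT.lf (nat_lit 1520) (nat_lit 6) (nat_lit 20) (nat_lit 3) (nat_lit 233) (nat_lit 102) (nat_lit 235)) (PT.lf (nat_lit 1596) (nat_lit 3) (nat_lit 21) (nat_lit 1) (nat_lit 234) (nat_lit 102) (nat_lit 234))) (PT.nd (nat_lit 59124) (PT.lf (nat_lit 1520) (nat_lit 6) (nat_lit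 20) (nat_lit 1) (nat_lit 235) (nat_lit 102) (nat_lit 233)) (PT.lf (nat_lit 1672) (nat_lit 6) (nat_lit 22) (nat_lit 3) (nat_lit 232) (nat_lit 103) (nat_lit 235))))) (PT.nd (nat_lit 59358) (PT.nd (nat_lit 156) (PT.nd (nat_lit 78) (PT.lf (nat_lit 1748) (nat_lit 6) (nat_lit 23) (nat_lit 3) (nat_lit 233) (nat_lit 103) (nat_lit 234)) (PT.lf (nat_lit 1748) (nat_lit 6) (nat_lit 23) (nat_lit 1) (nat_lit 234) (nat_lit 103) (nat_lit 233))) (PT.nd (nat_lit 59124) (PT.lf (nat_lit 1672) (nat_lit 6) (nat_lit 22) (nat_lit 1) (nat_lit 235) (nat_lit 103) (nat_lit 232)) (PT.lf (nat_lit 1900) (nat_lit 6) (nat_lit 25) (nat_lit 3) (nat_lit 232) (nat_lit 104) (nat_lit 234)))) (PT.nd (nat_lit 59202) (PT.nd (nat_lit 78) (PT.lf (nat_lit 1976) (nat_lit 3) (nat_lit 26) (nat_lit 1) (nat_lit 233) (nat_lit 104) (nat_lit 233)) (PT.lf (nat_lit 1900) (nat_lit 6) (nat_lit 25) (nat_lit 1) (nat_lit 234) (nat_lit 104) (nat_lit 232))) (PT.nd (nat_lit 78)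 (PT.lf (nat_lit 2052) (nat_lit 6) (nat_lit 27) (nat_lit 3) (nat_lit 231) (nat_lit 105) (nat_lit 234)) (PT.lf (nat_lit 2128) (nat_lit 6) (nat_lit 28) (nat_lit 3) (nat_lit 232) (nat_lit 105) (nat_lit 233))))))) (PT.nd (nat_lit 178074) (PT.nd (nat_lit 118482) (PT.nd (nat_lit 59202) (PT.nd (nat_lit 78) (PT.lf (nat_lit 2128) (nat_lit 6) (nat_lit 28) (nat_lit 1) (nat_lit 233) (nat_lit 105) (nat_lit 232)) (PT.nd (nat_lit 59046) (PT.lf (nat_lit 2052) (nat_lit 6) (nat_lit 27) (nat_lit 1) (nat_lit 234) (nat_lit 105) (nat_lit 231)) (PT.lf (nat_lit 2204) (nat_lit 6) (nat_lit 29) (nat_lit 3) (nat_lit 230) (nat_lit 106) (nat_lit 234)))) (PT.nd (nat_lit 156) (PT.nd (nat_lit 78) (PT.lf (nat_lit 2280) (nat_lit 6) (nat_lit 30) (nat_lit 3) (nat_lit 231) (nat_lit 106) (nat_lit 233)) (PT.lf (nat_lit 2356) (nat_lit 3) (nat_lit 31) (nat_lit 1) (nat_lit 232) (nat_lit 106) (nat_lit 232))) (PT.nd (nat_lit 78) (PT.lf (nat_lit 2280) (nat_lit 6)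 (nat_lit 30) (nat_lit 1) (nat_lit 233) (nat_lit 106) (nat_lit 231)) (PT.lf (nat_lit 2204) (nat_lit 6) (nat_lit 29) (nat_lit 1) (nat_lit 234) (nat_lit 106) (nat_lit 230))))) (PT.nd (nat_lit 59280) (PT.nd (nat_lit 156) (PT.nd (nat_lit 78) (PT.lf (nat_lit 2432) (nat_lit 6) (nat_lit 32) (nat_lit 3) (nat_lit 230) (nat_lit 107) (nat_lit 233)) (PT.lf (nat_lit 2508) (nat_lit 6) (nat_lit 33) (nat_lit 3) (nat_lit 231) (nat_lit 107) (nat_lit 232))) (PT.nd (nat_lit 78) (PT.lf (nat_lit 2508) (nat_lit 6) (nat_lit 33) (nat_lit 1) (nat_lit 232) (nat_lit 107) (nat_lit 231)) (PT.lf (nat_lit 2432) (nat_lit 6) (nat_lit 32) (nat_lit 1) (nat_lit 233) (nat_lit 107) (nat_lit 230)))) (PT.nd (nat_lit 156) (PT.nd (nat_lit 78) (PT.lf (nat_lit 2584) (nat_lit 6) (nat_lit 34) (nat_lit 3) (nat_lit 229) (nat_lit 108) (nat_lit 233)) (PT.lf (nat_lit 2660) (nat_lit 6) (nat_lit 35) (nat_lit 3) (nat_lit 230) (nat_lit 108) (nat_lit 232))) (PT.nd (nat_lit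 78) (PT.lf (nat_lit 2736) (nat_lit 3) (nat_lit 36) (nat_lit 1) (nat_lit 231) (nat_lit 108) (nat_lit 231)) (PT.lf (nat_lit 2660) (nat_lit 6) (nat_lit 35) (nat_lit 1) (nat_lit 232) (nat_lit 108) (nat_lit 230)))))) (PT.nd (nat_lit 118560) (PT.nd (nat_lit 59280) (PT.nd (nat_lit 59124) (PT.nd (nat_lit 59046) (PT.lf (nat_lit 2584) (nat_lit 6) (nat_lit 34) (nat_lit 1) (nat_lit 233) (nat_lit 108) (nat_lit 229)) (PT.lf (nat_lit 2812) (nat_lit 6) (nat_lit 37) (nat_lit 3) (nat_lit 229) (nat_lit 109) (nat_lit 232))) (PT.nd (nat_lit 78) (PT.lf (nat_lit 2888) (nat_lit 6) (nat_lit 38) (nat_lit 3) (nat_lit 230) (nat_lit 109) (nat_lit 231)) (PT.lf (nat_lit 2888) (nat_lit 6) (nat_lit 38) (nat_lit 1) (nat_lit 231) (nat_lit 109) (nat_lit 230)))) (PT.nd (nat_lit 59124) (PT.nd (nat_lit 59046) (PT.lf (nat_lit 2812) (nat_lit 6) (nat_lit 37) (nat_lit 1) (nat_lit 232) (nat_lit 109) (nat_lit 229)) (PT.lf (nat_lit 2964) (nat_lit 6) (nat_lit 39)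 (nat_lit 3) (nat_lit 228) (nat_lit 110) (nat_lit 232))) (PT.nd (nat_lit 78) (PT.lf (nat_lit 3040) (nat_lit 6) (nat_lit 40) (nat_lit 3) (nat_lit 229) (nat_lit 110) (nat_lit 231)) (PT.lf (nat_lit 3116) (nat_lit 3) (nat_lit 41) (nat_lit 1) (nat_lit 230) (nat_lit 110) (nat_lit 230))))) (PT.nd (nat_lit 59280) (PT.nd (nat_lit 59124) (PT.nd (nat_lit 78) (PT.lf (nat_lit 3040) (nat_lit 6) (nat_lit 40) (nat_lit 1) (nat_lit 231) (nat_lit 110) (nat_lit 229)) (PT.lf (nat_lit 2964) (nat_lit 6) (nat_lit 39) (nat_lit 1) (nat_lit 232) (nat_lit 110) (nat_lit 228))) (PT.nd (nat_lit 78) (PT.lf (nat_lit 3268) (nat_lit 6) (nat_lit 43) (nat_lit 3) (nat_lit 228) (nat_lit 111) (nat_lit 231)) (PT.lf (nat_lit 3344) (nat_lit 6) (nat_lit 44) (nat_lit 3) (nat_lit 229) (nat_lit 111) (nat_lit 230)))) (PT.nd (nat_lit 59124) (PT.nd (nat_lit 78) (PT.lf (nat_lit 3344) (nat_lit 6) (nat_lit 44) (nat_lit 1) (nat_lit 230) (nat_lit 111) (nat_lit 229)) (PT.lf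 (nat_lit 3268) (nat_lit 6) (nat_lit 43) (nat_lit 1) (nat_lit 231) (nat_lit 111) (nat_lit 228))) (PT.nd (nat_lit 78) (PT.lf (nat_lit 3420) (nat_lit 6) (nat_lit 45) (nat_lit 3) (nat_lit 227) (nat_lit 112) (nat_lit 231)) (PT.lf (nat_lit 3496) (nat_lit 6) (nat_lit 46) (nat_lit 3) (nat_lit 228) (nat_lit 112) (nat_lit 230))))))))
noncomputable def pc1 : PT := (PT.nd (nat_lit 296790) (PT.nd (nat_lit 177840) (PT.nd (nat_lit 59436) (PT.nd (nat_lit 59124) (PT.nd (nat_lit 78) (PT.lf (nat_lit 3572) (nat_lit 3) (nat_lit 47) (nat_lit 1) (nat_lit 229) (nat_lit 112) (nat_lit 229)) (PT.nd (nat_lit 78) (PT.lf (nat_lit 3496) (nat_lit 6) (nat_lit 46) (nat_lit 1) (nat_lit 230) (nat_lit 112) (nat_lit 228)) (PT.lf (nat_lit 3420) (nat_lit 6) (nat_lit 45) (nat_lit 1) (nat_lit 231) (nat_lit 112) (nat_lit 227)))) (PT.nd (nat_lit 156) (PT.nd (nat_lit 78) (PT.lf (nat_lit 3648) (nat_lit 6) (nat_lit 48) (nat_lit 3) (nat_lit 226) (nat_lit 113) (nat_lit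 231)) (PT.lf (nat_lit 3724) (nat_lit 6) (nat_lit 49) (nat_lit 3) (nat_lit 227) (nat_lit 113) (nat_lit 230))) (PT.nd (nat_lit 78) (PT.lf (nat_lit 3800) (nat_lit 6) (nat_lit 50) (nat_lit 3) (nat_lit 228) (nat_lit 113) (nat_lit 229)) (PT.lf (nat_lit 3800) (nat_lit 6) (nat_lit 50) (nat_lit 1) (nat_lit 229) (nat_lit 113) (nat_lit 228))))) (PT.nd (nat_lit 59202) (PT.nd (nat_lit 59046) (PT.nd (nat_lit 78) (PT.lf (nat_lit 3724) (nat_lit 6) (nat_lit 49) (nat_lit 1) (nat_lit 230) (nat_lit 113) (nat_lit 227)) (PT.lf (nat_lit 3648) (nat_lit 6) (nat_lit 48) (nat_lit 1) (nat_lit 231) (nat_lit 113) (nat_lit 226))) (PT.nd (nat_lit 78) (PT.lf (nat_lit 3876) (nat_lit 6) (nat_lit 51) (nat_lit 3) (nat_lit 226) (nat_lit 114) (nat_lit 230)) (PT.lf (nat_lit 3952) (nat_lit 6) (nat_lit 52) (nat_lit 3) (nat_lit 227) (nat_lit 114) (nat_lit 229)))) (PT.nd (nat_lit 156) (PT.nd (nat_lit 78) (PT.lf (nat_lit 4028) (nat_lit 3) (nat_lit 53) (nat_lit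 1) (nat_lit 228) (nat_lit 114) (nat_lit 228)) (PT.lf (nat_lit 3952) (nat_lit 6) (nat_lit 52) (nat_lit 1) (nat_lit 229) (nat_lit 114) (nat_lit 227))) (PT.nd (nat_lit 58968) (PT.lf (nat_lit 3876) (nat_lit 6) (nat_lit 51) (nat_lit 1) (nat_lit 230) (nat_lit 114) (nat_lit 226)) (PT.lf (nat_lit 4104) (nat_lit 6) (nat_lit 54) (nat_lit 3) (nat_lit 225) (nat_lit 115) (nat_lit 230)))))) (PT.nd (nat_lit 59436) (PT.nd (nat_lit 234) (PT.nd (nat_lit 78) (PT.lf (nat_lit 4180) (nat_lit 6) (nat_lit 55) (nat_lit 3) (nat_lit 226) (nat_lit 115) (nat_lit 229)) (PT.nd (nat_lit 78) (PT.lf (nat_lit 4256) (nat_lit 6) (nat_lit 56) (nat_lit 3) (nat_lit 227) (nat_lit 115) (nat_lit 228)) (PT.lf (nat_lit 4256) (nat_lit 6) (nat_lit 56) (nat_lit 1) (nat_lit 228) (nat_lit 115) (nat_lit 227)))) (PT.nd (nat_lit 59046) (PT.nd (nat_lit 78) (PT.lf (nat_lit 4180) (nat_lit 6) (nat_lit 55) (nat_lit 1) (nat_lit 229) (nat_lit 115) (nat_lit 226)) (PT.lf (nat_lit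 4104) (nat_lit 6) (nat_lit 54) (nat_lit 1) (nat_lit 230) (nat_lit 115) (nat_lit 225))) (PT.nd (nat_lit 78) (PT.lf (nat_lit 4332) (nat_lit 6) (nat_lit 57) (nat_lit 3) (nat_lit 225) (nat_lit 116) (nat_lit 229)) (PT.lf (nat_lit 4408) (nat_lit 6) (nat_lit 58) (nat_lit 3) (nat_lit 226) (nat_lit 116) (nat_lit 228))))) (PT.nd (nat_lit 59202) (PT.nd (nat_lit 156) (PT.nd (nat_lit 78) (PT.lf (nat_lit 4484) (nat_lit 3) (nat_lit 59) (nat_lit 1) (nat_lit 227) (nat_lit 116) (nat_lit 227)) (PT.lf (nat_lit 4408) (nat_lit 6) (nat_lit 58) (nat_lit 1) (nat_lit 228) (nat_lit 116) (nat_lit 226))) (PT.nd (nat_lit 58968) (PT.lf (nat_lit 4332) (nat_lit 6) (nat_lit 57) (nat_lit 1) (nat_lit 229) (nat_lit 116) (nat_lit 225)) (PT.lf (nat_lit 4560) (nat_lit 6) (nat_lit 60) (nat_lit 3) (nat_lit 224) (nat_lit 117) (nat_lit 229)))) (PT.nd (nat_lit 156) (PT.nd (nat_lit 78) (PT.lf (nat_lit 4636) (nat_lit 6) (nat_lit 61) (nat_lit 3) (nat_lit 225) (nat_lit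 117) (nat_lit 228)) (PT.lf (nat_lit 4712) (nat_lit 6) (nat_lit 62) (nat_lit 3) (nat_lit 226) (nat_lit 117) (nat_lit 227))) (PT.nd (nat_lit 78) (PT.lf (nat_lit 4712) (nat_lit 6) (nat_lit 62) (nat_lit 1) (nat_lit 227) (nat_lit 117) (nat_lit 226)) (PT.lf (nat_lit 4636) (nat_lit 6) (nat_lit 61) (nat_lit 1) (nat_lit 228) (nat_lit 117) (nat_lit 225))))))) (PT.nd (nat_lit 177606) (PT.nd (nat_lit 59358) (PT.nd (nat_lit 59046) (PT.nd (nat_lit 58890) (PT.lf (nat_lit 4560) (nat_lit 6) (nat_lit 60) (nat_lit 1) (nat_lit 229) (nat_lit 117) (nat_lit 224)) (PT.nd (nat_lit 78) (PT.lf (nat_lit 4788) (nat_lit 6) (nat_lit 63) (nat_lit 3) (nat_lit 223) (nat_lit 118) (nat_lit 229)) (PT.lf (nat_lit 4864) (nat_lit 6) (nat_lit 64) (nat_lit 3) (nat_lit 224) (nat_lit 118) (nat_lit 228)))) (PT.nd (nat_lit 156) (PT.nd (nat_lit 78) (PT.lf (nat_lit 4940) (nat_lit 6) (nat_lit 65) (nat_lit 3) (nat_lit 225) (nat_lit 118) (nat_lit 227)) (PT.lf (nat_lit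 5016) (nat_lit 3) (nat_lit 66) (nat_lit 1) (nat_lit 226) (nat_lit 118) (nat_lit 226))) (PT.nd (nat_lit 78) (PT.lf (nat_lit 4940) (nat_lit 6) (nat_lit 65) (nat_lit 1) (nat_lit 227) (nat_lit 118) (nat_lit 225)) (PT.lf (nat_lit 4864) (nat_lit 6) (nat_lit 64) (nat_lit 1) (nat_lit 228) (nat_lit 118) (nat_lit 224))))) (PT.nd (nat_lit 59124) (PT.nd (nat_lit 58968) (PT.nd (nat_lit 58890) (PT.lf (nat_lit 4788) (nat_lit 6) (nat_lit 63) (nat_lit 1) (nat_lit 229) (nat_lit 118) (nat_lit 223)) (PT.lf (nat_lit 5092) (nat_lit 6) (nat_lit 67) (nat_lit 3) (nat_lit 223) (nat_lit 119) (nat_lit 228))) (PT.nd (nat_lit 78) (PT.lf (nat_lit 5168) (nat_lit 6) (nat_lit 68) (nat_lit 3) (nat_lit 224) (nat_lit 119) (nat_lit 227)) (PT.lf (nat_lit 5244) (nat_lit 6) (nat_lit 69) (nat_lit 3) (nat_lit 225) (nat_lit 119) (nat_lit 226)))) (PT.nd (nat_lit 156) (PT.nd (nat_lit 78) (PT.lf (nat_lit 5244) (nat_lit 6) (nat_lit 69) (nat_lit 1) (nat_lit 226) (nat_lit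 119) (nat_lit 225)) (PT.lf (nat_lit 5168) (nat_lit 6) (nat_lit 68) (nat_lit 1) (nat_lit 227) (nat_lit 119) (nat_lit 224))) (PT.nd (nat_lit 58890) (PT.lf (nat_lit 5092) (nat_lit 6) (nat_lit 67) (nat_lit 1) (nat_lit 228) (nat_lit 119) (nat_lit 223)) (PT.lf (nat_lit 5320) (nat_lit 6) (nat_lit 70) (nat_lit 3) (nat_lit 222) (nat_lit 120) (nat_lit 228)))))) (PT.nd (nat_lit 59436) (PT.nd (nat_lit 312) (PT.nd (nat_lit 156) (PT.nd (nat_lit 78) (PT.lf (nat_lit 5396) (nat_lit 6) (nat_lit 71) (nat_lit 3) (nat_lit 223) (nat_lit 120) (nat_lit 227)) (PT.lf (nat_lit 5472) (nat_lit 6) (nat_lit 72) (nat_lit 3) (nat_lit 224) (nat_lit 120) (nat_lit 226))) (PT.nd (nat_lit 78) (PT.lf (nat_lit 5548) (nat_lit 3) (nat_lit 73) (nat_lit 1) (nat_lit 225) (nat_lit 120) (nat_lit 225)) (PT.lf (nat_lit 5472) (nat_lit 6) (nat_lit 72) (nat_lit 1) (nat_lit 226) (nat_lit 120) (nat_lit 224)))) (PT.nd (nat_lit 58968) (PT.nd (nat_lit 78) (PT.lf (nat_lit 5396)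 (nat_lit 6) (nat_lit 71) (nat_lit 1) (nat_lit 227) (nat_lit 120) (nat_lit 223)) (PT.lf (nat_lit 5320) (nat_lit 6) (nat_lit 70) (nat_lit 1) (nat_lit 228) (nat_lit 120) (nat_lit 222))) (PT.nd (nat_lit 78) (PT.lf (nat_lit 5624) (nat_lit 6) (nat_lit 74) (nat_lit 3) (nat_lit 222) (nat_lit 121) (nat_lit 227)) (PT.lf (nat_lit 5700) (nat_lit 6) (nat_lit 75) (nat_lit 3) (nat_lit 223) (nat_lit 121) (nat_lit 226))))) (PT.nd (nat_lit 59124) (PT.nd (nat_lit 156) (PT.nd (nat_lit 78) (PT.lf (nat_lit 5776) (nat_lit 6) (nat_lit 76) (nat_lit 3) (nat_lit 224) (nat_lit 121) (nat_lit 225)) (PT.lf (nat_lit 5776) (nat_lit 6) (nat_lit 76) (nat_lit 1) (nat_lit 225) (nat_lit 121) (nat_lit 224))) (PT.nd (nat_lit 78) (PT.lf (nat_lit 5700) (nat_lit 6) (nat_lit 75) (nat_lit 1) (nat_lit 226) (nat_lit 121) (nat_lit 223)) (PT.lf (nat_lit 5624) (nat_lit 6) (nat_lit 74) (nat_lit 1) (nat_lit 227) (nat_lit 121) (nat_lit 222)))) (PT.nd (nat_lit 156) (PT.nd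 (nat_lit 78) (PT.lf (nat_lit 5852) (nat_lit 6) (nat_lit 77) (nat_lit 3) (nat_lit 221) (nat_lit 122) (nat_lit 227)) (PT.lf (nat_lit 5928) (nat_lit 6) (nat_lit 78) (nat_lit 3) (nat_lit 222) (nat_lit 122) (nat_lit 226))) (PT.nd (nat_lit 78) (PT.lf (nat_lit 6004) (nat_lit 6) (nat_lit 79) (nat_lit 3) (nat_lit 223) (nat_lit 122) (nat_lit 225)) (PT.lf (nat_lit 6080) (nat_lit 3) (nat_lit 80) (nat_lit 1) (nat_lit 224) (nat_lit 122) (nat_lit 224))))))))
noncomputable def pc2 : PT := (PT.nd (nat_lit 237276) (PT.nd (nat_lit 118638) (PT.nd (nat_lit 59280) (PT.nd (nat_lit 58968) (PT.nd (nat_lit 78) (PT.lf (nat_lit 6004) (nat_lit 6) (nat_lit 79) (nat_lit 1) (nat_lit 225) (nat_lit 122) (nat_lit 223)) (PT.nd (nat_lit 78) (PT.lf (nat_lit 5928) (nat_lit 6) (nat_lit 78) (nat_lit 1) (nat_lit 226) (nat_lit 122) (nat_lit 222)) (PT.lf (nat_lit 5852) (nat_lit 6) (nat_lit 77) (nat_lit 1) (nat_lit 227) (nat_lit 122) (nat_lit 221)))) (PT.nd (nat_lit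 156) (PT.nd (nat_lit 78) (PT.lf (nat_lit 6156) (nat_lit 6) (nat_lit 81) (nat_lit 3) (nat_lit 220) (nat_lit 123) (nat_lit 227)) (PT.lf (nat_lit 6232) (nat_lit 6) (nat_lit 82) (nat_lit 3) (nat_lit 221) (nat_lit 123) (nat_lit 226))) (PT.nd (nat_lit 78) (PT.lf (nat_lit 6308) (nat_lit 6) (nat_lit 83) (nat_lit 3) (nat_lit 222) (nat_lit 123) (nat_lit 225)) (PT.lf (nat_lit 6384) (nat_lit 6) (nat_lit 84) (nat_lit 3) (nat_lit 223) (nat_lit 123) (nat_lit 224))))) (PT.nd (nat_lit 59046) (PT.nd (nat_lit 156) (PT.nd (nat_lit 78) (PT.lf (nat_lit 6384) (nat_lit 6) (nat_lit 84) (nat_lit 1) (nat_lit 224) (nat_lit 123) (nat_lit 223)) (PT.lf (nat_lit 6308) (nat_lit 6) (nat_lit 83) (nat_lit 1) (nat_lit 225) (nat_lit 123) (nat_lit 222))) (PT.nd (nat_lit 78) (PT.lf (nat_lit 6232) (nat_lit 6) (nat_lit 82) (nat_lit 1) (nat_lit 226) (nat_lit 123) (nat_lit 221)) (PT.lf (nat_lit 6156) (nat_lit 6) (nat_lit 81) (nat_lit 1) (nat_lit 227) (nat_lit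 123) (nat_lit 220)))) (PT.nd (nat_lit 156) (PT.nd (nat_lit 78) (PT.lf (nat_lit 6460) (nat_lit 6) (nat_lit 85) (nat_lit 3) (nat_lit 220) (nat_lit 124) (nat_lit 226)) (PT.lf (nat_lit 6536) (nat_lit 6) (nat_lit 86) (nat_lit 3) (nat_lit 221) (nat_lit 124) (nat_lit 225))) (PT.nd (nat_lit 78) (PT.lf (nat_lit 6612) (nat_lit 6) (nat_lit 87) (nat_lit 3) (nat_lit 222) (nat_lit 124) (nat_lit 224)) (PT.lf (nat_lit 6688) (nat_lit 3) (nat_lit 88) (nat_lit 1) (nat_lit 223) (nat_lit 124) (nat_lit 223)))))) (PT.nd (nat_lit 59280) (PT.nd (nat_lit 58968) (PT.nd (nat_lit 78) (PT.lf (nat_lit 6612) (nat_lit 6) (nat_lit 87) (nat_lit 1) (nat_lit 224) (nat_lit 124) (nat_lit 222)) (PT.nd (nat_lit 78) (PT.lf (nat_lit 6536) (nat_lit 6) (nat_lit 86) (nat_lit 1) (nat_lit 225) (nat_lit 124) (nat_lit 221)) (PT.lf (nat_lit 6460) (nat_lit 6) (nat_lit 85) (nat_lit 1) (nat_lit 226) (nat_lit 124) (nat_lit 220)))) (PT.nd (nat_lit 156) (PT.nd (nat_lit 78)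 (PT.lf (nat_lit 6764) (nat_lit 6) (nat_lit 89) (nat_lit 3) (nat_lit 219) (nat_lit 125) (nat_lit 226)) (PT.lf (nat_lit 6840) (nat_lit 6) (nat_lit 90) (nat_lit 3) (nat_lit 220) (nat_lit 125) (nat_lit 225))) (PT.nd (nat_lit 78) (PT.lf (nat_lit 6916) (nat_lit 6) (nat_lit 91) (nat_lit 3) (nat_lit 221) (nat_lit 125) (nat_lit 224)) (PT.lf (nat_lit 6992) (nat_lit 6) (nat_lit 92) (nat_lit 3) (nat_lit 222) (nat_lit 125) (nat_lit 223))))) (PT.nd (nat_lit 59046) (PT.nd (nat_lit 156) (PT.nd (nat_lit 78) (PT.lf (nat_lit 6992) (nat_lit 6) (nat_lit 92) (nat_lit 1) (nat_lit 223) (nat_lit 125) (nat_lit 222)) (PT.lf (nat_lit 6916) (nat_lit 6) (nat_lit 91) (nat_lit 1) (nat_lit 224) (nat_lit 125) (nat_lit 221))) (PT.nd (nat_lit 78) (PT.lf (nat_lit 6840) (nat_lit 6) (nat_lit 90) (nat_lit 1) (nat_lit 225) (nat_lit 125) (nat_lit 220)) (PT.lf (nat_lit 6764) (nat_lit 6) (nat_lit 89) (nat_lit 1) (nat_lit 226) (nat_lit 125) (nat_lit 219)))) (PT.nd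 (nat_lit 156) (PT.nd (nat_lit 78) (PT.lf (nat_lit 7144) (nat_lit 6) (nat_lit 94) (nat_lit 3) (nat_lit 219) (nat_lit 126) (nat_lit 225)) (PT.lf (nat_lit 7220) (nat_lit 6) (nat_lit 95) (nat_lit 3) (nat_lit 220) (nat_lit 126) (nat_lit 224))) (PT.nd (nat_lit 78) (PT.lf (nat_lit 7296) (nat_lit 6) (nat_lit 96) (nat_lit 3) (nat_lit 221) (nat_lit 126) (nat_lit 223)) (PT.lf (nat_lit 7372) (nat_lit 3) (nat_lit 97) (nat_lit 1) (nat_lit 222) (nat_lit 126) (nat_lit 222))))))) (PT.nd (nat_lit 118560) (PT.nd (nat_lit 59280) (PT.nd (nat_lit 58968) (PT.nd (nat_lit 78) (PT.lf (nat_lit 7296) (nat_lit 6) (nat_lit 96) (nat_lit 1) (nat_lit 223) (nat_lit 126) (nat_lit 221)) (PT.nd (nat_lit 78) (PT.lf (nat_lit 7220) (nat_lit 6) (nat_lit 95) (nat_lit 1) (nat_lit 224) (nat_lit 126) (nat_lit 220)) (PT.lf (nat_lit 7144) (nat_lit 6) (nat_lit 94) (nat_lit 1) (nat_lit 225) (nat_lit 126) (nat_lit 219)))) (PT.nd (nat_lit 156) (PT.nd (nat_lit 78) (PT.lf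 (nat_lit 7448) (nat_lit 6) (nat_lit 98) (nat_lit 3) (nat_lit 218) (nat_lit 127) (nat_lit 225)) (PT.lf (nat_lit 7524) (nat_lit 6) (nat_lit 99) (nat_lit 3) (nat_lit 219) (nat_lit 127) (nat_lit 224))) (PT.nd (nat_lit 78) (PT.lf (nat_lit 7600) (nat_lit 6) (nat_lit 100) (nat_lit 3) (nat_lit 220) (nat_lit 127) (nat_lit 223)) (PT.lf (nat_lit 7676) (nat_lit 6) (nat_lit 101) (nat_lit 3) (nat_lit 221) (nat_lit 127) (nat_lit 222))))) (PT.nd (nat_lit 58968) (PT.nd (nat_lit 156) (PT.nd (nat_lit 78) (PT.lf (nat_lit 7676) (nat_lit 6) (nat_lit 101) (nat_lit 1) (nat_lit 222) (nat_lit 127) (nat_lit 221)) (PT.lf (nat_lit 7600) (nat_lit 6) (nat_lit 100) (nat_lit 1) (nat_lit 223) (nat_lit 127) (nat_lit 220))) (PT.nd (nat_lit 78) (PT.lf (nat_lit 7524) (nat_lit 6) (nat_lit 99) (nat_lit 1) (nat_lit 224) (nat_lit 127) (nat_lit 219)) (PT.lf (nat_lit 7448) (nat_lit 6) (nat_lit 98) (nat_lit 1) (nat_lit 225) (nat_lit 127) (nat_lit 218)))) (PT.nd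 (nat_lit 156) (PT.nd (nat_lit 78) (PT.lf (nat_lit 7752) (nat_lit 6) (nat_lit 102) (nat_lit 3) (nat_lit 217) (nat_lit 128) (nat_lit 225)) (PT.lf (nat_lit 7828) (nat_lit 6) (nat_lit 103) (nat_lit 3) (nat_lit 218) (nat_lit 128) (nat_lit 224))) (PT.nd (nat_lit 78) (PT.lf (nat_lit 7904) (nat_lit 6) (nat_lit 104) (nat_lit 3) (nat_lit 219) (nat_lit 128) (nat_lit 223)) (PT.lf (nat_lit 7980) (nat_lit 6) (nat_lit 105) (nat_lit 3) (nat_lit 220) (nat_lit 128) (nat_lit 222)))))) (PT.nd (nat_lit 59280) (PT.nd (nat_lit 312) (PT.nd (nat_lit 156) (PT.nd (nat_lit 78) (PT.lf (nat_lit 8056) (nat_lit 3) (nat_lit 106) (nat_lit 1) (nat_lit 221) (nat_lit 128) (nat_lit 221)) (PT.lf (nat_lit 7980) (nat_lit 6) (nat_lit 105) (nat_lit 1) (nat_lit 222) (nat_lit 128) (nat_lit 220))) (PT.nd (nat_lit 78) (PT.lf (nat_lit 7904) (nat_lit 6) (nat_lit 104) (nat_lit 1) (nat_lit 223) (nat_lit 128) (nat_lit 219)) (PT.lf (nat_lit 7828) (nat_lit 6) (nat_lit 103)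 (nat_lit 1) (nat_lit 224) (nat_lit 128) (nat_lit 218)))) (PT.nd (nat_lit 58812) (PT.nd (nat_lit 58734) (PT.lf (nat_lit 7752) (nat_lit 6) (nat_lit 102) (nat_lit 1) (nat_lit 225) (nat_lit 128) (nat_lit 217)) (PT.lf (nat_lit 8132) (nat_lit 6) (nat_lit 107) (nat_lit 3) (nat_lit 217) (nat_lit 129) (nat_lit 224))) (PT.nd (nat_lit 78) (PT.lf (nat_lit 8208) (nat_lit 6) (nat_lit 108) (nat_lit 3) (nat_lit 218) (nat_lit 129) (nat_lit 223)) (PT.lf (nat_lit 8284) (nat_lit 6) (nat_lit 109) (nat_lit 3) (nat_lit 219) (nat_lit 129) (nat_lit 222))))) (PT.nd (nat_lit 312) (PT.nd (nat_lit 156) (PT.nd (nat_lit 78) (PT.lf (nat_lit 8360) (nat_lit 6) (nat_lit 110) (nat_lit 3) (nat_lit 220) (nat_lit 129) (nat_lit 221)) (PT.lf (nat_lit 8360) (nat_lit 6) (nat_lit 110) (nat_lit 1) (nat_lit 221) (nat_lit 129) (nat_lit 220))) (PT.nd (nat_lit 78) (PT.lf (nat_lit 8284) (nat_lit 6) (nat_lit 109) (nat_lit 1) (nat_lit 222) (nat_lit 129) (nat_lit 219))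 (PT.lf (nat_lit 8208) (nat_lit 6) (nat_lit 108) (nat_lit 1) (nat_lit 223) (nat_lit 129) (nat_lit 218)))) (PT.nd (nat_lit 58812) (PT.nd (nat_lit 58734) (PT.lf (nat_lit 8132) (nat_lit 6) (nat_lit 107) (nat_lit 1) (nat_lit 224) (nat_lit 129) (nat_lit 217)) (PT.lf (nat_lit 8436) (nat_lit 6) (nat_lit 111) (nat_lit 3) (nat_lit 216) (nat_lit 130) (nat_lit 224))) (PT.nd (nat_lit 78) (PT.lf (nat_lit 8512) (nat_lit 6) (nat_lit 112) (nat_lit 3) (nat_lit 217) (nat_lit 130) (nat_lit 223)) (PT.lf (nat_lit 8588) (nat_lit 6) (nat_lit 113) (nat_lit 3) (nat_lit 218) (nat_lit 130) (nat_lit 222))))))))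
noncomputable def pc3 : PT := (PT.nd (nat_lit 178152) (PT.nd (nat_lit 59748) (PT.nd (nat_lit 59124) (PT.nd (nat_lit 234) (PT.nd (nat_lit 78) (PT.lf (nat_lit 8664) (nat_lit 6) (nat_lit 114) (nat_lit 3) (nat_lit 219) (nat_lit 130) (nat_lit 221)) (PT.nd (nat_lit 78) (PT.lf (nat_lit 8740) (nat_lit 3) (nat_lit 115) (nat_lit 1) (nat_lit 220) (nat_lit 130) (nat_lit 220)) (PT.lf (nat_lit 8664) (nat_lit 6) (nat_lit 114) (nat_lit 1) (nat_lit 221) (nat_lit 130) (nat_lit 219)))) (PT.nd (nat_lit 156) (PT.nd (nat_lit 78) (PT.lf (nat_lit 8588) (nat_lit 6) (nat_lit 113) (nat_lit 1) (nat_lit 222) (nat_lit 130) (nat_lit 218)) (PT.lf (nat_lit 8512) (nat_lit 6) (nat_lit 112) (nat_lit 1) (nat_lit 223) (nat_lit 130) (nat_lit 217))) (PT.nd (nat_lit 58656) (PT.lf (nat_lit 8436) (nat_lit 6) (nat_lit 111) (nat_lit 1) (nat_lit 224) (nat_lit 130) (nat_lit 216)) (PT.lf (nat_lit 8816) (nat_lit 6) (nat_lit 116) (nat_lit 3) (nat_lit 215) (nat_lit 131)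 (nat_lit 224))))) (PT.nd (nat_lit 312) (PT.nd (nat_lit 156) (PT.nd (nat_lit 78) (PT.lf (nat_lit 8892) (nat_lit 6) (nat_lit 117) (nat_lit 3) (nat_lit 216) (nat_lit 131) (nat_lit 223)) (PT.lf (nat_lit 8968) (nat_lit 6) (nat_lit 118) (nat_lit 3) (nat_lit 217) (nat_lit 131) (nat_lit 222))) (PT.nd (nat_lit 78) (PT.lf (nat_lit 9044) (nat_lit 6) (nat_lit 119) (nat_lit 3) (nat_lit 218) (nat_lit 131) (nat_lit 221)) (PT.lf (nat_lit 9120) (nat_lit 6) (nat_lit 120) (nat_lit 3) (nat_lit 219) (nat_lit 131) (nat_lit 220)))) (PT.nd (nat_lit 156) (PT.nd (nat_lit 78) (PT.lf (nat_lit 9120) (nat_lit 6) (nat_lit 120) (nat_lit 1) (nat_lit 220) (nat_lit 131) (nat_lit 219)) (PT.lf (nat_lit 9044) (nat_lit 6) (nat_lit 119) (nat_lit 1) (nat_lit 221) (nat_lit 131) (nat_lit 218))) (PT.nd (nat_lit 78) (PT.lf (nat_lit 8968) (nat_lit 6) (nat_lit 118) (nat_lit 1) (nat_lit 222) (nat_lit 131) (nat_lit 217)) (PT.lf (nat_lit 8892) (nat_lit 6) (nat_lit 117)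 (nat_lit 1) (nat_lit 223) (nat_lit 131) (nat_lit 216)))))) (PT.nd (nat_lit 59202) (PT.nd (nat_lit 58890) (PT.nd (nat_lit 58734) (PT.nd (nat_lit 58656) (PT.lf (nat_lit 8816) (nat_lit 6) (nat_lit 116) (nat_lit 1) (nat_lit 224) (nat_lit 131) (nat_lit 215)) (PT.lf (nat_lit 9196) (nat_lit 6) (nat_lit 121) (nat_lit 3) (nat_lit 215) (nat_lit 132) (nat_lit 223))) (PT.nd (nat_lit 78) (PT.lf (nat_lit 9272) (nat_lit 6) (nat_lit 122) (nat_lit 3) (nat_lit 216) (nat_lit 132) (nat_lit 222)) (PT.lf (nat_lit 9348) (nat_lit 6) (nat_lit 123) (nat_lit 3) (nat_lit 217) (nat_lit 132) (nat_lit 221)))) (PT.nd (nat_lit 156) (PT.nd (nat_lit 78) (PT.lf (nat_lit 9424) (nat_lit 6) (nat_lit 124) (nat_lit 3) (nat_lit 218) (nat_lit 132) (nat_lit 220)) (PT.lf (nat_lit 9500) (nat_lit 3) (nat_lit 125) (nat_lit 1) (nat_lit 219) (nat_lit 132) (nat_lit 219))) (PT.nd (nat_lit 78) (PT.lf (nat_lit 9424) (nat_lit 6) (nat_lit 124) (nat_lit 1) (nat_lit 220) (nat_lit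 132) (nat_lit 218)) (PT.lf (nat_lit 9348) (nat_lit 6) (nat_lit 123) (nat_lit 1) (nat_lit 221) (nat_lit 132) (nat_lit 217))))) (PT.nd (nat_lit 58890) (PT.nd (nat_lit 58734) (PT.nd (nat_lit 78) (PT.lf (nat_lit 9272) (nat_lit 6) (nat_lit 122) (nat_lit 1) (nat_lit 222) (nat_lit 132) (nat_lit 216)) (PT.lf (nat_lit 9196) (nat_lit 6) (nat_lit 121) (nat_lit 1) (nat_lit 223) (nat_lit 132) (nat_lit 215))) (PT.nd (nat_lit 78) (PT.lf (nat_lit 9576) (nat_lit 6) (nat_lit 126) (nat_lit 3) (nat_lit 214) (nat_lit 133) (nat_lit 223)) (PT.lf (nat_lit 9652) (nat_lit 6) (nat_lit 127) (nat_lit 3) (nat_lit 215) (nat_lit 133) (nat_lit 222)))) (PT.nd (nat_lit 156) (PT.nd (nat_lit 78) (PT.lf (nat_lit 9728) (nat_lit 6) (nat_lit 128) (nat_lit 3) (nat_lit 216) (nat_lit 133) (nat_lit 221)) (PT.lf (nat_lit 9804) (nat_lit 6) (nat_lit 129) (nat_lit 3) (nat_lit 217) (nat_lit 133) (nat_lit 220))) (PT.nd (nat_lit 78) (PT.lf (nat_lit 9880) (nat_lit 6) (nat_lit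 130) (nat_lit 3) (nat_lit 218) (nat_lit 133) (nat_lit 219)) (PT.lf (nat_lit 9880) (nat_lit 6) (nat_lit 130) (nat_lit 1) (nat_lit 219) (nat_lit 133) (nat_lit 218))))))) (PT.nd (nat_lit 118326) (PT.nd (nat_lit 59124) (PT.nd (nat_lit 234) (PT.nd (nat_lit 78) (PT.lf (nat_lit 9804) (nat_lit 6) (nat_lit 129) (nat_lit 1) (nat_lit 220) (nat_lit 133) (nat_lit 217)) (PT.nd (nat_lit 78) (PT.lf (nat_lit 9728) (nat_lit 6) (nat_lit 128) (nat_lit 1) (nat_lit 221) (nat_lit 133) (nat_lit 216)) (PT.lf (nat_lit 9652) (nat_lit 6) (nat_lit 127) (nat_lit 1) (nat_lit 222) (nat_lit 133) (nat_lit 215)))) (PT.nd (nat_lit 58734) (PT.nd (nat_lit 58656) (PT.lf (nat_lit 9576) (nat_lit 6) (nat_lit 126) (nat_lit 1) (nat_lit 223) (nat_lit 133) (nat_lit 214)) (PT.lf (nat_lit 10032) (nat_lit 6) (nat_lit 132) (nat_lit 3) (nat_lit 214) (nat_lit 134) (nat_lit 222))) (PT.nd (nat_lit 78) (PT.lf (nat_lit 10108) (nat_lit 6) (nat_lit 133) (nat_lit 3) (nat_lit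 215) (nat_lit 134) (nat_lit 221)) (PT.lf (nat_lit 10184) (nat_lit 6) (nat_lit 134) (nat_lit 3) (nat_lit 216) (nat_lit 134) (nat_lit 220))))) (PT.nd (nat_lit 312) (PT.nd (nat_lit 156) (PT.nd (nat_lit 78) (PT.lf (nat_lit 10260) (nat_lit 6) (nat_lit 135) (nat_lit 3) (nat_lit 217) (nat_lit 134) (nat_lit 219)) (PT.lf (nat_lit 10336) (nat_lit 3) (nat_lit 136) (nat_lit 1) (nat_lit 218) (nat_lit 134) (nat_lit 218))) (PT.nd (nat_lit 78) (PT.lf (nat_lit 10260) (nat_lit 6) (nat_lit 135) (nat_lit 1) (nat_lit 219) (nat_lit 134) (nat_lit 217)) (PT.lf (nat_lit 10184) (nat_lit 6) (nat_lit 134) (nat_lit 1) (nat_lit 220) (nat_lit 134) (nat_lit 216)))) (PT.nd (nat_lit 58734) (PT.nd (nat_lit 78) (PT.lf (nat_lit 10108) (nat_lit 6) (nat_lit 133) (nat_lit 1) (nat_lit 221) (nat_lit 134) (nat_lit 215)) (PT.lf (nat_lit 10032) (nat_lit 6) (nat_lit 132) (nat_lit 1) (nat_lit 222) (nat_lit 134) (nat_lit 214))) (PT.nd (nat_lit 78) (PT.lf (nat_lit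 10412) (nat_lit 6) (nat_lit 137) (nat_lit 3) (nat_lit 213) (nat_lit 135) (nat_lit 222)) (PT.lf (nat_lit 10488) (nat_lit 6) (nat_lit 138) (nat_lit 3) (nat_lit 214) (nat_lit 135) (nat_lit 221)))))) (PT.nd (nat_lit 59124) (PT.nd (nat_lit 312) (PT.nd (nat_lit 156) (PT.nd (nat_lit 78) (PT.lf (nat_lit 10564) (nat_lit 6) (nat_lit 139) (nat_lit 3) (nat_lit 215) (nat_lit 135) (nat_lit 220)) (PT.lf (nat_lit 10640) (nat_lit 6) (nat_lit 140) (nat_lit 3) (nat_lit 216) (nat_lit 135) (nat_lit 219))) (PT.nd (nat_lit 78) (PT.lf (nat_lit 10716) (nat_lit 6) (nat_lit 141) (nat_lit 3) (nat_lit 217) (nat_lit 135) (nat_lit 218)) (PT.lf (nat_lit 10716) (nat_lit 6) (nat_lit 141) (nat_lit 1) (nat_lit 218) (nat_lit 135) (nat_lit 217)))) (PT.nd (nat_lit 156) (PT.nd (nat_lit 78) (PT.lf (nat_lit 10640) (nat_lit 6) (nat_lit 140) (nat_lit 1) (nat_lit 219) (nat_lit 135) (nat_lit 216)) (PT.lf (nat_lit 10564) (nat_lit 6) (nat_lit 139) (nat_lit 1) (nat_lit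 220) (nat_lit 135) (nat_lit 215))) (PT.nd (nat_lit 78) (PT.lf (nat_lit 10488) (nat_lit 6) (nat_lit 138) (nat_lit 1) (nat_lit 221) (nat_lit 135) (nat_lit 214)) (PT.lf (nat_lit 10412) (nat_lit 6) (nat_lit 137) (nat_lit 1) (nat_lit 222) (nat_lit 135) (nat_lit 213))))) (PT.nd (nat_lit 312) (PT.nd (nat_lit 156) (PT.nd (nat_lit 78) (PT.lf (nat_lit 10792) (nat_lit 6) (nat_lit 142) (nat_lit 3) (nat_lit 212) (nat_lit 136) (nat_lit 222)) (PT.lf (nat_lit 10868) (nat_lit 6) (nat_lit 143) (nat_lit 3) (nat_lit 213) (nat_lit 136) (nat_lit 221))) (PT.nd (nat_lit 78) (PT.lf (nat_lit 10944) (nat_lit 6) (nat_lit 144) (nat_lit 3) (nat_lit 214) (nat_lit 136) (nat_lit 220)) (PT.lf (nat_lit 11020) (nat_lit 6) (nat_lit 145) (nat_lit 3) (nat_lit 215) (nat_lit 136) (nat_lit 219)))) (PT.nd (nat_lit 156) (PT.nd (nat_lit 78) (PT.lf (nat_lit 11096) (nat_lit 6) (nat_lit 146) (nat_lit 3) (nat_lit 216) (nat_lit 136) (nat_lit 218)) (PT.lf (nat_lit 11172)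 (nat_lit 3) (nat_lit 147) (nat_lit 1) (nat_lit 217) (nat_lit 136) (nat_lit 217))) (PT.nd (nat_lit 78) (PT.lf (nat_lit 11096) (nat_lit 6) (nat_lit 146) (nat_lit 1) (nat_lit 218) (nat_lit 136) (nat_lit 216)) (PT.lf (nat_lit 11020) (nat_lit 6) (nat_lit 145) (nat_lit 1) (nat_lit 219) (nat_lit 136) (nat_lit 215))))))))
noncomputable def pc4 : PT := (PT.nd (nat_lit 177762) (PT.nd (nat_lit 118170) (PT.nd (nat_lit 59046) (PT.nd (nat_lit 58734) (PT.nd (nat_lit 78) (PT.lf (nat_lit 10944) (nat_lit 6) (nat_lit 144) (nat_lit 1) (nat_lit 220) (nat_lit 136) (nat_lit 214)) (PT.nd (nat_lit 78) (PT.lf (nat_lit 10868) (nat_lit 6) (nat_lit 143) (nat_lit 1) (nat_lit 221) (nat_lit 136) (nat_lit 213)) (PT.lf (nat_lit 10792) (nat_lit 6) (nat_lit 142) (nat_lit 1) (nat_lit 222) (nat_lit 136) (nat_lit 212)))) (PT.nd (nat_lit 156) (PT.nd (nat_lit 78) (PT.lf (nat_lit 11248) (nat_lit 6) (nat_lit 148) (nat_lit 3) (nat_lit 212) (nat_lit 137) (nat_lit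 221)) (PT.lf (nat_lit 11324) (nat_lit 6) (nat_lit 149) (nat_lit 3) (nat_lit 213) (nat_lit 137) (nat_lit 220))) (PT.nd (nat_lit 78) (PT.lf (nat_lit 11400) (nat_lit 6) (nat_lit 150) (nat_lit 3) (nat_lit 214) (nat_lit 137) (nat_lit 219)) (PT.lf (nat_lit 11476) (nat_lit 6) (nat_lit 151) (nat_lit 3) (nat_lit 215) (nat_lit 137) (nat_lit 218))))) (PT.nd (nat_lit 312) (PT.nd (nat_lit 156) (PT.nd (nat_lit 78) (PT.lf (nat_lit 11552) (nat_lit 6) (nat_lit 152) (nat_lit 3) (nat_lit 216) (nat_lit 137) (nat_lit 217)) (PT.lf (nat_lit 11552) (nat_lit 6) (nat_lit 152) (nat_lit 1) (nat_lit 217) (nat_lit 137) (nat_lit 216))) (PT.nd (nat_lit 78) (PT.lf (nat_lit 11476) (nat_lit 6) (nat_lit 151) (nat_lit 1) (nat_lit 218) (nat_lit 137) (nat_lit 215)) (PT.lf (nat_lit 11400) (nat_lit 6) (nat_lit 150) (nat_lit 1) (nat_lit 219) (nat_lit 137) (nat_lit 214)))) (PT.nd (nat_lit 58656) (PT.nd (nat_lit 78) (PT.lf (nat_lit 11324) (nat_lit 6) (nat_lit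 149) (nat_lit 1) (nat_lit 220) (nat_lit 137) (nat_lit 213)) (PT.lf (nat_lit 11248) (nat_lit 6) (nat_lit 148) (nat_lit 1) (nat_lit 221) (nat_lit 137) (nat_lit 212))) (PT.nd (nat_lit 78) (PT.lf (nat_lit 11628) (nat_lit 6) (nat_lit 153) (nat_lit 3) (nat_lit 211) (nat_lit 138) (nat_lit 221)) (PT.lf (nat_lit 11704) (nat_lit 6) (nat_lit 154) (nat_lit 3) (nat_lit 212) (nat_lit 138) (nat_lit 220)))))) (PT.nd (nat_lit 546) (PT.nd (nat_lit 234) (PT.nd (nat_lit 78) (PT.lf (nat_lit 11780) (nat_lit 6) (nat_lit 155) (nat_lit 3) (nat_lit 213) (nat_lit 138) (nat_lit 219)) (PT.nd (nat_lit 78) (PT.lf (nat_lit 11856) (nat_lit 6) (nat_lit 156) (nat_lit 3) (nat_lit 214) (nat_lit 138) (nat_lit 218)) (PT.lf (nat_lit 11932) (nat_lit 6) (nat_lit 157) (nat_lit 3) (nat_lit 215) (nat_lit 138) (nat_lit 217)))) (PT.nd (nat_lit 156) (PT.nd (nat_lit 78) (PT.lf (nat_lit 12008) (nat_lit 3) (nat_lit 158) (nat_lit 1) (nat_lit 216) (nat_lit 138) (nat_lit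 216)) (PT.lf (nat_lit 11932) (nat_lit 6) (nat_lit 157) (nat_lit 1) (nat_lit 217) (nat_lit 138) (nat_lit 215))) (PT.nd (nat_lit 78) (PT.lf (nat_lit 11856) (nat_lit 6) (nat_lit 156) (nat_lit 1) (nat_lit 218) (nat_lit 138) (nat_lit 214)) (PT.lf (nat_lit 11780) (nat_lit 6) (nat_lit 155) (nat_lit 1) (nat_lit 219) (nat_lit 138) (nat_lit 213))))) (PT.nd (nat_lit 58734) (PT.nd (nat_lit 58578) (PT.nd (nat_lit 78) (PT.lf (nat_lit 11704) (nat_lit 6) (nat_lit 154) (nat_lit 1) (nat_lit 220) (nat_lit 138) (nat_lit 212)) (PT.lf (nat_lit 11628) (nat_lit 6) (nat_lit 153) (nat_lit 1) (nat_lit 221) (nat_lit 138) (nat_lit 211))) (PT.nd (nat_lit 78) (PT.lf (nat_lit 12084) (nat_lit 6) (nat_lit 159) (nat_lit 3) (nat_lit 210) (nat_lit 139) (nat_lit 221)) (PT.lf (nat_lit 12160) (nat_lit 6) (nat_lit 160) (nat_lit 3) (nat_lit 211) (nat_lit 139) (nat_lit 220)))) (PT.nd (nat_lit 156) (PT.nd (nat_lit 78) (PT.lf (nat_lit 12236) (nat_lit 6) (nat_lit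 161) (nat_lit 3) (nat_lit 212) (nat_lit 139) (nat_lit 219)) (PT.lf (nat_lit 12312) (nat_lit 6) (nat_lit 162) (nat_lit 3) (nat_lit 213) (nat_lit 139) (nat_lit 218))) (PT.nd (nat_lit 78) (PT.lf (nat_lit 12388) (nat_lit 6) (nat_lit 163) (nat_lit 3) (nat_lit 214) (nat_lit 139) (nat_lit 217)) (PT.lf (nat_lit 12464) (nat_lit 6) (nat_lit 164) (nat_lit 3) (nat_lit 215) (nat_lit 139) (nat_lit 216))))))) (PT.nd (nat_lit 59592) (PT.nd (nat_lit 58968) (PT.nd (nat_lit 234) (PT.nd (nat_lit 78) (PT.lf (nat_lit 12464) (nat_lit 6) (nat_lit 164) (nat_lit 1) (nat_lit 216) (nat_lit 139) (nat_lit 215)) (PT.nd (nat_lit 78) (PT.lf (nat_lit 12388) (nat_lit 6) (nat_lit 163) (nat_lit 1) (nat_lit 217) (nat_lit 139) (nat_lit 214)) (PT.lf (nat_lit 12312) (nat_lit 6) (nat_lit 162) (nat_lit 1) (nat_lit 218) (nat_lit 139) (nat_lit 213)))) (PT.nd (nat_lit 156) (PT.nd (nat_lit 78) (PT.lf (nat_lit 12236) (nat_lit 6) (nat_lit 161) (nat_lit 1) (nat_lit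 219) (nat_lit 139) (nat_lit 212)) (PT.lf (nat_lit 12160) (nat_lit 6) (nat_lit 160) (nat_lit 1) (nat_lit 220) (nat_lit 139) (nat_lit 211))) (PT.nd (nat_lit 58500) (PT.lf (nat_lit 12084) (nat_lit 6) (nat_lit 159) (nat_lit 1) (nat_lit 221) (nat_lit 139) (nat_lit 210)) (PT.lf (nat_lit 12540) (nat_lit 6) (nat_lit 165) (nat_lit 3) (nat_lit 210) (nat_lit 140) (nat_lit 220))))) (PT.nd (nat_lit 312) (PT.nd (nat_lit 156) (PT.nd (nat_lit 78) (PT.lf (nat_lit 12616) (nat_lit 6) (nat_lit 166) (nat_lit 3) (nat_lit 211) (nat_lit 140) (nat_lit 219)) (PT.lf (nat_lit 12692) (nat_lit 6) (nat_lit 167) (nat_lit 3) (nat_lit 212) (nat_lit 140) (nat_lit 218))) (PT.nd (nat_lit 78) (PT.lf (nat_lit 12768) (nat_lit 6) (nat_lit 168) (nat_lit 3) (nat_lit 213) (nat_lit 140) (nat_lit 217)) (PT.lf (nat_lit 12844) (nat_lit 6) (nat_lit 169) (nat_lit 3) (nat_lit 214) (nat_lit 140) (nat_lit 216)))) (PT.nd (nat_lit 156) (PT.nd (nat_lit 78) (PT.lf (nat_lit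 12920) (nat_lit 3) (nat_lit 170) (nat_lit 1) (nat_lit 215) (nat_lit 140) (nat_lit 215)) (PT.lf (nat_lit 12844) (nat_lit 6) (nat_lit 169) (nat_lit 1) (nat_lit 216) (nat_lit 140) (nat_lit 214))) (PT.nd (nat_lit 78) (PT.lf (nat_lit 12768) (nat_lit 6) (nat_lit 168) (nat_lit 1) (nat_lit 217) (nat_lit 140) (nat_lit 213)) (PT.lf (nat_lit 12692) (nat_lit 6) (nat_lit 167) (nat_lit 1) (nat_lit 218) (nat_lit 140) (nat_lit 212)))))) (PT.nd (nat_lit 59046) (PT.nd (nat_lit 58734) (PT.nd (nat_lit 58578) (PT.nd (nat_lit 78) (PT.lf (nat_lit 12616) (nat_lit 6) (nat_lit 166) (nat_lit 1) (nat_lit 219) (nat_lit 140) (nat_lit 211)) (PT.lf (nat_lit 12540) (nat_lit 6) (nat_lit 165) (nat_lit 1) (nat_lit 220) (nat_lit 140) (nat_lit 210))) (PT.nd (nat_lit 78) (PT.lf (nat_lit 12996) (nat_lit 6) (nat_lit 171) (nat_lit 3) (nat_lit 209) (nat_lit 141) (nat_lit 220)) (PT.lf (nat_lit 13072) (nat_lit 6) (nat_lit 172) (nat_lit 3) (nat_lit 210) (nat_lit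 141) (nat_lit 219)))) (PT.nd (nat_lit 156) (PT.nd (nat_lit 78) (PT.lf (nat_lit 13148) (nat_lit 6) (nat_lit 173) (nat_lit 3) (nat_lit 211) (nat_lit 141) (nat_lit 218)) (PT.lf (nat_lit 13224) (nat_lit 6) (nat_lit 174) (nat_lit 3) (nat_lit 212) (nat_lit 141) (nat_lit 217))) (PT.nd (nat_lit 78) (PT.lf (nat_lit 13300) (nat_lit 6) (nat_lit 175) (nat_lit 3) (nat_lit 213) (nat_lit 141) (nat_lit 216)) (PT.lf (nat_lit 13376) (nat_lit 6) (nat_lit 176) (nat_lit 3) (nat_lit 214) (nat_lit 141) (nat_lit 215))))) (PT.nd (nat_lit 312) (PT.nd (nat_lit 156) (PT.nd (nat_lit 78) (PT.lf (nat_lit 13376) (nat_lit 6) (nat_lit 176) (nat_lit 1) (nat_lit 215) (nat_lit 141) (nat_lit 214)) (PT.lf (nat_lit 13300) (nat_lit 6) (nat_lit 175) (nat_lit 1) (nat_lit 216) (nat_lit 141) (nat_lit 213))) (PT.nd (nat_lit 78) (PT.lf (nat_lit 13224) (nat_lit 6) (nat_lit 174) (nat_lit 1) (nat_lit 217) (nat_lit 141) (nat_lit 212)) (PT.lf (nat_lit 13148) (nat_lit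 6) (nat_lit 173) (nat_lit 1) (nat_lit 218) (nat_lit 141) (nat_lit 211)))) (PT.nd (nat_lit 58500) (PT.nd (nat_lit 78) (PT.lf (nat_lit 13072) (nat_lit 6) (nat_lit 172) (nat_lit 1) (nat_lit 219) (nat_lit 141) (nat_lit 210)) (PT.lf (nat_lit 12996) (nat_lit 6) (nat_lit 171) (nat_lit 1) (nat_lit 220) (nat_lit 141) (nat_lit 209))) (PT.nd (nat_lit 78) (PT.lf (nat_lit 13452) (nat_lit 6) (nat_lit 177) (nat_lit 3) (nat_lit 208) (nat_lit 142) (nat_lit 220)) (PT.lf (nat_lit 13528) (nat_lit 6) (nat_lit 178) (nat_lit 3) (nat_lit 209) (nat_lit 142) (nat_lit 219))))))))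
noncomputable def pc5 : PT := (PT.nd (nat_lit 119106) (PT.nd (nat_lit 59514) (PT.nd (nat_lit 546) (PT.nd (nat_lit 234) (PT.nd (nat_lit 78) (PT.lf (nat_lit 13604) (nat_lit 6) (nat_lit 179) (nat_lit 3) (nat_lit 210) (nat_lit 142) (nat_lit 218)) (PT.nd (nat_lit 78) (PT.lf (nat_lit 13680) (nat_lit 6) (nat_lit 180) (nat_lit 3) (nat_lit 211) (nat_lit 142) (nat_lit 217)) (PT.lf (nat_lit 13756) (nat_lit 6) (nat_lit 181) (nat_lit 3) (nat_lit 212) (nat_lit 142) (nat_lit 216)))) (PT.nd (nat_lit 156) (PT.nd (nat_lit 78) (PT.lf (nat_lit 13832) (nat_lit 6) (nat_lit 182) (nat_lit 3) (nat_lit 213) (nat_lit 142) (nat_lit 215)) (PT.lf (nat_lit 13908) (nat_lit 3) (nat_lit 183) (nat_lit 1) (nat_lit 214) (nat_lit 142) (nat_lit 214))) (PT.nd (nat_lit 78) (PT.lf (nat_lit 13832) (nat_lit 6) (nat_lit 182) (nat_lit 1) (nat_lit 215) (nat_lit 142) (nat_lit 213)) (PT.lf (nat_lit 13756) (nat_lit 6) (nat_lit 181) (nat_lit 1) (nat_lit 216) (nat_lit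 142) (nat_lit 212))))) (PT.nd (nat_lit 58656) (PT.nd (nat_lit 156) (PT.nd (nat_lit 78) (PT.lf (nat_lit 13680) (nat_lit 6) (nat_lit 180) (nat_lit 1) (nat_lit 217) (nat_lit 142) (nat_lit 211)) (PT.lf (nat_lit 13604) (nat_lit 6) (nat_lit 179) (nat_lit 1) (nat_lit 218) (nat_lit 142) (nat_lit 210))) (PT.nd (nat_lit 78) (PT.lf (nat_lit 13528) (nat_lit 6) (nat_lit 178) (nat_lit 1) (nat_lit 219) (nat_lit 142) (nat_lit 209)) (PT.lf (nat_lit 13452) (nat_lit 6) (nat_lit 177) (nat_lit 1) (nat_lit 220) (nat_lit 142) (nat_lit 208)))) (PT.nd (nat_lit 156) (PT.nd (nat_lit 78) (PT.lf (nat_lit 13984) (nat_lit 6) (nat_lit 184) (nat_lit 3) (nat_lit 208) (nat_lit 143) (nat_lit 219)) (PT.lf (nat_lit 14060) (nat_lit 6) (nat_lit 185) (nat_lit 3) (nat_lit 209) (nat_lit 143) (nat_lit 218))) (PT.nd (nat_lit 78) (PT.lf (nat_lit 14136) (nat_lit 6) (nat_lit 186) (nat_lit 3) (nat_lit 210) (nat_lit 143) (nat_lit 217)) (PT.lf (nat_lit 14212) (nat_lit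 6) (nat_lit 187) (nat_lit 3) (nat_lit 211) (nat_lit 143) (nat_lit 216)))))) (PT.nd (nat_lit 58968) (PT.nd (nat_lit 312) (PT.nd (nat_lit 156) (PT.nd (nat_lit 78) (PT.lf (nat_lit 14288) (nat_lit 6) (nat_lit 188) (nat_lit 3) (nat_lit 212) (nat_lit 143) (nat_lit 215)) (PT.lf (nat_lit 14364) (nat_lit 6) (nat_lit 189) (nat_lit 3) (nat_lit 213) (nat_lit 143) (nat_lit 214))) (PT.nd (nat_lit 78) (PT.lf (nat_lit 14364) (nat_lit 6) (nat_lit 189) (nat_lit 1) (nat_lit 214) (nat_lit 143) (nat_lit 213)) (PT.lf (nat_lit 14288) (nat_lit 6) (nat_lit 188) (nat_lit 1) (nat_lit 215) (nat_lit 143) (nat_lit 212)))) (PT.nd (nat_lit 156) (PT.nd (nat_lit 78) (PT.lf (nat_lit 14212) (nat_lit 6) (nat_lit 187) (nat_lit 1) (nat_lit 216) (nat_lit 143) (nat_lit 211)) (PT.lf (nat_lit 14136) (nat_lit 6) (nat_lit 186) (nat_lit 1) (nat_lit 217) (nat_lit 143) (nat_lit 210))) (PT.nd (nat_lit 78) (PT.lf (nat_lit 14060) (nat_lit 6) (nat_lit 185) (nat_lit 1)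 (nat_lit 218) (nat_lit 143) (nat_lit 209)) (PT.lf (nat_lit 13984) (nat_lit 6) (nat_lit 184) (nat_lit 1) (nat_lit 219) (nat_lit 143) (nat_lit 208))))) (PT.nd (nat_lit 312) (PT.nd (nat_lit 156) (PT.nd (nat_lit 78) (PT.lf (nat_lit 14440) (nat_lit 6) (nat_lit 190) (nat_lit 3) (nat_lit 207) (nat_lit 144) (nat_lit 219)) (PT.lf (nat_lit 14516) (nat_lit 6) (nat_lit 191) (nat_lit 3) (nat_lit 208) (nat_lit 144) (nat_lit 218))) (PT.nd (nat_lit 78) (PT.lf (nat_lit 14592) (nat_lit 6) (nat_lit 192) (nat_lit 3) (nat_lit 209) (nat_lit 144) (nat_lit 217)) (PT.lf (nat_lit 14668) (nat_lit 6) (nat_lit 193) (nat_lit 3) (nat_lit 210) (nat_lit 144) (nat_lit 216)))) (PT.nd (nat_lit 156) (PT.nd (nat_lit 78) (PT.lf (nat_lit 14744) (nat_lit 6) (nat_lit 194) (nat_lit 3) (nat_lit 211) (nat_lit 144) (nat_lit 215)) (PT.lf (nat_lit 14820) (nat_lit 6) (nat_lit 195) (nat_lit 3) (nat_lit 212) (nat_lit 144) (nat_lit 214))) (PT.nd (nat_lit 78) (PT.lf (nat_lit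 14896) (nat_lit 3) (nat_lit 196) (nat_lit 1) (nat_lit 213) (nat_lit 144) (nat_lit 213)) (PT.lf (nat_lit 14820) (nat_lit 6) (nat_lit 195) (nat_lit 1) (nat_lit 214) (nat_lit 144) (nat_lit 212))))))) (PT.nd (nat_lit 59436) (PT.nd (nat_lit 58812) (PT.nd (nat_lit 234) (PT.nd (nat_lit 78) (PT.lf (nat_lit 14744) (nat_lit 6) (nat_lit 194) (nat_lit 1) (nat_lit 215) (nat_lit 144) (nat_lit 211)) (PT.nd (nat_lit 78) (PT.lf (nat_lit 14668) (nat_lit 6) (nat_lit 193) (nat_lit 1) (nat_lit 216) (nat_lit 144) (nat_lit 210)) (PT.lf (nat_lit 14592) (nat_lit 6) (nat_lit 192) (nat_lit 1) (nat_lit 217) (nat_lit 144) (nat_lit 209)))) (PT.nd (nat_lit 58422) (PT.nd (nat_lit 78) (PT.lf (nat_lit 14516) (nat_lit 6) (nat_lit 191) (nat_lit 1) (nat_lit 218) (nat_lit 144) (nat_lit 208)) (PT.lf (nat_lit 14440) (nat_lit 6) (nat_lit 190) (nat_lit 1) (nat_lit 219) (nat_lit 144) (nat_lit 207))) (PT.nd (nat_lit 78) (PT.lf (nat_lit 14972) (nat_lit 6) (nat_lit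 197) (nat_lit 3) (nat_lit 206) (nat_lit 145) (nat_lit 219)) (PT.lf (nat_lit 15048) (nat_lit 6) (nat_lit 198) (nat_lit 3) (nat_lit 207) (nat_lit 145) (nat_lit 218))))) (PT.nd (nat_lit 312) (PT.nd (nat_lit 156) (PT.nd (nat_lit 78) (PT.lf (nat_lit 15124) (nat_lit 6) (nat_lit 199) (nat_lit 3) (nat_lit 208) (nat_lit 145) (nat_lit 217)) (PT.lf (nat_lit 15200) (nat_lit 6) (nat_lit 200) (nat_lit 3) (nat_lit 209) (nat_lit 145) (nat_lit 216))) (PT.nd (nat_lit 78) (PT.lf (nat_lit 15276) (nat_lit 6) (nat_lit 201) (nat_lit 3) (nat_lit 210) (nat_lit 145) (nat_lit 215)) (PT.lf (nat_lit 15352) (nat_lit 6) (nat_lit 202) (nat_lit 3) (nat_lit 211) (nat_lit 145) (nat_lit 214)))) (PT.nd (nat_lit 156) (PT.nd (nat_lit 78) (PT.lf (nat_lit 15428) (nat_lit 6) (nat_lit 203) (nat_lit 3) (nat_lit 212) (nat_lit 145) (nat_lit 213)) (PT.lf (nat_lit 15428) (nat_lit 6) (nat_lit 203) (nat_lit 1) (nat_lit 213) (nat_lit 145) (nat_lit 212))) (PT.nd (nat_lit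 78) (PT.lf (nat_lit 15352) (nat_lit 6) (nat_lit 202) (nat_lit 1) (nat_lit 214) (nat_lit 145) (nat_lit 211)) (PT.lf (nat_lit 15276) (nat_lit 6) (nat_lit 201) (nat_lit 1) (nat_lit 215) (nat_lit 145) (nat_lit 210)))))) (PT.nd (nat_lit 58890) (PT.nd (nat_lit 58578) (PT.nd (nat_lit 156) (PT.nd (nat_lit 78) (PT.lf (nat_lit 15200) (nat_lit 6) (nat_lit 200) (nat_lit 1) (nat_lit 216) (nat_lit 145) (nat_lit 209)) (PT.lf (nat_lit 15124) (nat_lit 6) (nat_lit 199) (nat_lit 1) (nat_lit 217) (nat_lit 145) (nat_lit 208))) (PT.nd (nat_lit 78) (PT.lf (nat_lit 15048) (nat_lit 6) (nat_lit 198) (nat_lit 1) (nat_lit 218) (nat_lit 145) (nat_lit 207)) (PT.lf (nat_lit 14972) (nat_lit 6) (nat_lit 197) (nat_lit 1) (nat_lit 219) (nat_lit 145) (nat_lit 206)))) (PT.nd (nat_lit 156) (PT.nd (nat_lit 78) (PT.lf (nat_lit 15580) (nat_lit 6) (nat_lit 205) (nat_lit 3) (nat_lit 206) (nat_lit 146) (nat_lit 218)) (PT.lf (nat_lit 15656) (nat_lit 6) (nat_lit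 206) (nat_lit 3) (nat_lit 207) (nat_lit 146) (nat_lit 217))) (PT.nd (nat_lit 78) (PT.lf (nat_lit 15732) (nat_lit 6) (nat_lit 207) (nat_lit 3) (nat_lit 208) (nat_lit 146) (nat_lit 216)) (PT.lf (nat_lit 15808) (nat_lit 6) (nat_lit 208) (nat_lit 3) (nat_lit 209) (nat_lit 146) (nat_lit 215))))) (PT.nd (nat_lit 312) (PT.nd (nat_lit 156) (PT.nd (nat_lit 78) (PT.lf (nat_lit 15884) (nat_lit 6) (nat_lit 209) (nat_lit 3) (nat_lit 210) (nat_lit 146) (nat_lit 214)) (PT.lf (nat_lit 15960) (nat_lit 6) (nat_lit 210) (nat_lit 3) (nat_lit 211) (nat_lit 146) (nat_lit 213))) (PT.nd (nat_lit 78) (PT.lf (nat_lit 16036) (nat_lit 3) (nat_lit 211) (nat_lit 1) (nat_lit 212) (nat_lit 146) (nat_lit 212)) (PT.lf (nat_lit 15960) (nat_lit 6) (nat_lit 210) (nat_lit 1) (nat_lit 213) (nat_lit 146) (nat_lit 211)))) (PT.nd (nat_lit 156) (PT.nd (nat_lit 78) (PT.lf (nat_lit 15884) (nat_lit 6) (nat_lit 209) (nat_lit 1) (nat_lit 214) (nat_lit 146) (nat_lit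 210)) (PT.lf (nat_lit 15808) (nat_lit 6) (nat_lit 208) (nat_lit 1) (nat_lit 215) (nat_lit 146) (nat_lit 209))) (PT.nd (nat_lit 78) (PT.lf (nat_lit 15732) (nat_lit 6) (nat_lit 207) (nat_lit 1) (nat_lit 216) (nat_lit 146) (nat_lit 208)) (PT.lf (nat_lit 15656) (nat_lit 6) (nat_lit 206) (nat_lit 1) (nat_lit 217) (nat_lit 146) (nat_lit 207))))))))
noncomputable def pc6 : PT := (PT.nd (nat_lit 176904) (PT.nd (nat_lit 117624) (PT.nd (nat_lit 58812) (PT.nd (nat_lit 58500) (PT.nd (nat_lit 58344) (PT.lf (nat_lit 15580) (nat_lit 6) (nat_lit 205) (nat_lit 1) (nat_lit 218) (nat_lit 146) (nat_lit 206)) (PT.nd (nat_lit 78) (PT.lf (nat_lit 16112) (nat_lit 6) (nat_lit 212) (nat_lit 3) (nat_lit 205) (nat_lit 147) (nat_lit 218)) (PT.lf (nat_lit 16188) (nat_lit 6) (nat_lit 213) (nat_lit 3) (nat_lit 206) (nat_lit 147) (nat_lit 217)))) (PT.nd (nat_lit 156) (PT.nd (nat_lit 78) (PT.lf (nat_lit 16264) (nat_lit 6) (nat_lit 214) (nat_lit 3) (nat_lit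 207) (nat_lit 147) (nat_lit 216)) (PT.lf (nat_lit 16340) (nat_lit 6) (nat_lit 215) (nat_lit 3) (nat_lit 208) (nat_lit 147) (nat_lit 215))) (PT.nd (nat_lit 78) (PT.lf (nat_lit 16416) (nat_lit 6) (nat_lit 216) (nat_lit 3) (nat_lit 209) (nat_lit 147) (nat_lit 214)) (PT.lf (nat_lit 16492) (nat_lit 6) (nat_lit 217) (nat_lit 3) (nat_lit 210) (nat_lit 147) (nat_lit 213))))) (PT.nd (nat_lit 312) (PT.nd (nat_lit 156) (PT.nd (nat_lit 78) (PT.lf (nat_lit 16568) (nat_lit 6) (nat_lit 218) (nat_lit 3) (nat_lit 211) (nat_lit 147) (nat_lit 212)) (PT.lf (nat_lit 16568) (nat_lit 6) (nat_lit 218) (nat_lit 1) (nat_lit 212) (nat_lit 147) (nat_lit 211))) (PT.nd (nat_lit 78) (PT.lf (nat_lit 16492) (nat_lit 6) (nat_lit 217) (nat_lit 1) (nat_lit 213) (nat_lit 147) (nat_lit 210)) (PT.lf (nat_lit 16416) (nat_lit 6) (nat_lit 216) (nat_lit 1) (nat_lit 214) (nat_lit 147) (nat_lit 209)))) (PT.nd (nat_lit 156) (PT.nd (nat_lit 78) (PT.lf (nat_lit 16340)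 (nat_lit 6) (nat_lit 215) (nat_lit 1) (nat_lit 215) (nat_lit 147) (nat_lit 208)) (PT.lf (nat_lit 16264) (nat_lit 6) (nat_lit 214) (nat_lit 1) (nat_lit 216) (nat_lit 147) (nat_lit 207))) (PT.nd (nat_lit 78) (PT.lf (nat_lit 16188) (nat_lit 6) (nat_lit 213) (nat_lit 1) (nat_lit 217) (nat_lit 147) (nat_lit 206)) (PT.lf (nat_lit 16112) (nat_lit 6) (nat_lit 212) (nat_lit 1) (nat_lit 218) (nat_lit 147) (nat_lit 205)))))) (PT.nd (nat_lit 546) (PT.nd (nat_lit 234) (PT.nd (nat_lit 78) (PT.lf (nat_lit 16644) (nat_lit 6) (nat_lit 219) (nat_lit 3) (nat_lit 204) (nat_lit 148) (nat_lit 218)) (PT.nd (nat_lit 78) (PT.lf (nat_lit 16720) (nat_lit 6) (nat_lit 220) (nat_lit 3) (nat_lit 205) (nat_lit 148) (nat_lit 217)) (PT.lf (nat_lit 16796) (nat_lit 6) (nat_lit 221) (nat_lit 3) (nat_lit 206) (nat_lit 148) (nat_lit 216)))) (PT.nd (nat_lit 156) (PT.nd (nat_lit 78) (PT.lf (nat_lit 16872) (nat_lit 6) (nat_lit 222) (nat_lit 3) (nat_lit 207)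 (nat_lit 148) (nat_lit 215)) (PT.lf (nat_lit 16948) (nat_lit 6) (nat_lit 223) (nat_lit 3) (nat_lit 208) (nat_lit 148) (nat_lit 214))) (PT.nd (nat_lit 78) (PT.lf (nat_lit 17024) (nat_lit 6) (nat_lit 224) (nat_lit 3) (nat_lit 209) (nat_lit 148) (nat_lit 213)) (PT.lf (nat_lit 17100) (nat_lit 6) (nat_lit 225) (nat_lit 3) (nat_lit 210) (nat_lit 148) (nat_lit 212))))) (PT.nd (nat_lit 312) (PT.nd (nat_lit 156) (PT.nd (nat_lit 78) (PT.lf (nat_lit 17176) (nat_lit 3) (nat_lit 226) (nat_lit 1) (nat_lit 211) (nat_lit 148) (nat_lit 211)) (PT.lf (nat_lit 17100) (nat_lit 6) (nat_lit 225) (nat_lit 1) (nat_lit 212) (nat_lit 148) (nat_lit 210))) (PT.nd (nat_lit 78) (PT.lf (nat_lit 17024) (nat_lit 6) (nat_lit 224) (nat_lit 1) (nat_lit 213) (nat_lit 148) (nat_lit 209)) (PT.lf (nat_lit 16948) (nat_lit 6) (nat_lit 223) (nat_lit 1) (nat_lit 214) (nat_lit 148) (nat_lit 208)))) (PT.nd (nat_lit 156) (PT.nd (nat_lit 78) (PT.lf (nat_lit 16872)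 (nat_lit 6) (nat_lit 222) (nat_lit 1) (nat_lit 215) (nat_lit 148) (nat_lit 207)) (PT.lf (nat_lit 16796) (nat_lit 6) (nat_lit 221) (nat_lit 1) (nat_lit 216) (nat_lit 148) (nat_lit 206))) (PT.nd (nat_lit 78) (PT.lf (nat_lit 16720) (nat_lit 6) (nat_lit 220) (nat_lit 1) (nat_lit 217) (nat_lit 148) (nat_lit 205)) (PT.lf (nat_lit 16644) (nat_lit 6) (nat_lit 219) (nat_lit 1) (nat_lit 218) (nat_lit 148) (nat_lit 204))))))) (PT.nd (nat_lit 1170) (PT.nd (nat_lit 546) (PT.nd (nat_lit 234) (PT.nd (nat_lit 78) (PT.lf (nat_lit 17252) (nat_lit 6) (nat_lit 227) (nat_lit 3) (nat_lit 203) (nat_lit 149) (nat_lit 218)) (PT.nd (nat_lit 78) (PT.lf (nat_lit 17328) (nat_lit 6) (nat_lit 228) (nat_lit 3) (nat_lit 204) (nat_lit 149) (nat_lit 217)) (PT.lf (nat_lit 17404) (nat_lit 6) (nat_lit 229) (nat_lit 3) (nat_lit 205) (nat_lit 149) (nat_lit 216)))) (PT.nd (nat_lit 156) (PT.nd (nat_lit 78) (PT.lf (nat_lit 17480) (nat_lit 6) (nat_lit 230) (nat_lit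 3) (nat_lit 206) (nat_lit 149) (nat_lit 215)) (PT.lf (nat_lit 17556) (nat_lit 6) (nat_lit 231) (nat_lit 3) (nat_lit 207) (nat_lit 149) (nat_lit 214))) (PT.nd (nat_lit 78) (PT.lf (nat_lit 17632) (nat_lit 6) (nat_lit 232) (nat_lit 3) (nat_lit 208) (nat_lit 149) (nat_lit 213)) (PT.lf (nat_lit 17708) (nat_lit 6) (nat_lit 233) (nat_lit 3) (nat_lit 209) (nat_lit 149) (nat_lit 212))))) (PT.nd (nat_lit 312) (PT.nd (nat_lit 156) (PT.nd (nat_lit 78) (PT.lf (nat_lit 17784) (nat_lit 6) (nat_lit 234) (nat_lit 3) (nat_lit 210) (nat_lit 149) (nat_lit 211)) (PT.lf (nat_lit 17784) (nat_lit 6) (nat_lit 234) (nat_lit 1) (nat_lit 211) (nat_lit 149) (nat_lit 210))) (PT.nd (nat_lit 78) (PT.lf (nat_lit 17708) (nat_lit 6) (nat_lit 233) (nat_lit 1) (nat_lit 212) (nat_lit 149) (nat_lit 209)) (PT.lf (nat_lit 17632) (nat_lit 6) (nat_lit 232) (nat_lit 1) (nat_lit 213) (nat_lit 149) (nat_lit 208)))) (PT.nd (nat_lit 156) (PT.nd (nat_lit 78) (PT.lf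 (nat_lit 17556) (nat_lit 6) (nat_lit 231) (nat_lit 1) (nat_lit 214) (nat_lit 149) (nat_lit 207)) (PT.lf (nat_lit 17480) (nat_lit 6) (nat_lit 230) (nat_lit 1) (nat_lit 215) (nat_lit 149) (nat_lit 206))) (PT.nd (nat_lit 78) (PT.lf (nat_lit 17404) (nat_lit 6) (nat_lit 229) (nat_lit 1) (nat_lit 216) (nat_lit 149) (nat_lit 205)) (PT.lf (nat_lit 17328) (nat_lit 6) (nat_lit 228) (nat_lit 1) (nat_lit 217) (nat_lit 149) (nat_lit 204)))))) (PT.nd (nat_lit 58734) (PT.nd (nat_lit 58422) (PT.nd (nat_lit 58266) (PT.nd (nat_lit 58188) (PT.lf (nat_lit 17252) (nat_lit 6) (nat_lit 227) (nat_lit 1) (nat_lit 218) (nat_lit 149) (nat_lit 203)) (PT.lf (nat_lit 17860) (nat_lit 6) (nat_lit 235) (nat_lit 3) (nat_lit 203) (nat_lit 150) (nat_lit 217))) (PT.nd (nat_lit 78) (PT.lf (nat_lit 17936) (nat_lit 6) (nat_lit 236) (nat_lit 3) (nat_lit 204) (nat_lit 150) (nat_lit 216)) (PT.lf (nat_lit 18012) (nat_lit 6) (nat_lit 237) (nat_lit 3) (nat_lit 205)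 (nat_lit 150) (nat_lit 215)))) (PT.nd (nat_lit 156) (PT.nd (nat_lit 78) (PT.lf (nat_lit 18088) (nat_lit 6) (nat_lit 238) (nat_lit 3) (nat_lit 206) (nat_lit 150) (nat_lit 214)) (PT.lf (nat_lit 18164) (nat_lit 6) (nat_lit 239) (nat_lit 3) (nat_lit 207) (nat_lit 150) (nat_lit 213))) (PT.nd (nat_lit 78) (PT.lf (nat_lit 18240) (nat_lit 6) (nat_lit 240) (nat_lit 3) (nat_lit 208) (nat_lit 150) (nat_lit 212)) (PT.lf (nat_lit 18316) (nat_lit 6) (nat_lit 241) (nat_lit 3) (nat_lit 209) (nat_lit 150) (nat_lit 211))))) (PT.nd (nat_lit 312) (PT.nd (nat_lit 156) (PT.nd (nat_lit 78) (PT.lf (nat_lit 18392) (nat_lit 3) (nat_lit 242) (nat_lit 1) (nat_lit 210) (nat_lit 150) (nat_lit 210)) (PT.lf (nat_lit 18316) (nat_lit 6) (nat_lit 241) (nat_lit 1) (nat_lit 211) (nat_lit 150) (nat_lit 209))) (PT.nd (nat_lit 78) (PT.lf (nat_lit 18240) (nat_lit 6) (nat_lit 240) (nat_lit 1) (nat_lit 212) (nat_lit 150) (nat_lit 208)) (PT.lf (nat_lit 18164)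 (nat_lit 6) (nat_lit 239) (nat_lit 1) (nat_lit 213) (nat_lit 150) (nat_lit 207)))) (PT.nd (nat_lit 156) (PT.nd (nat_lit 78) (PT.lf (nat_lit 18088) (nat_lit 6) (nat_lit 238) (nat_lit 1) (nat_lit 214) (nat_lit 150) (nat_lit 206)) (PT.lf (nat_lit 18012) (nat_lit 6) (nat_lit 237) (nat_lit 1) (nat_lit 215) (nat_lit 150) (nat_lit 205))) (PT.nd (nat_lit 78) (PT.lf (nat_lit 17936) (nat_lit 6) (nat_lit 236) (nat_lit 1) (nat_lit 216) (nat_lit 150) (nat_lit 204)) (PT.lf (nat_lit 17860) (nat_lit 6) (nat_lit 235) (nat_lit 1) (nat_lit 217) (nat_lit 150) (nat_lit 203))))))))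
noncomputable def pc7 : PT := (PT.nd (nat_lit 60450) (PT.nd (nat_lit 1170) (PT.nd (nat_lit 546) (PT.nd (nat_lit 234) (PT.nd (nat_lit 78) (PT.lf (nat_lit 18468) (nat_lit 6) (nat_lit 243) (nat_lit 3) (nat_lit 202) (nat_lit 151) (nat_lit 217)) (PT.nd (nat_lit 78) (PT.lf (nat_lit 18544) (nat_lit 6) (nat_lit 244) (nat_lit 3) (nat_lit 203) (nat_lit 151) (nat_lit 216)) (PT.lf (nat_lit 18620) (nat_lit 6) (nat_lit 245) (nat_lit 3) (nat_lit 204) (nat_lit 151) (nat_lit 215)))) (PT.nd (nat_lit 156) (PT.nd (nat_lit 78) (PT.lf (nat_lit 18696) (nat_lit 6) (nat_lit 246) (nat_lit 3) (nat_lit 205) (nat_lit 151) (nat_lit 214)) (PT.lf (nat_lit 18772) (nat_lit 6) (nat_lit 247) (nat_lit 3) (nat_lit 206) (nat_lit 151) (nat_lit 213))) (PT.nd (nat_lit 78) (PT.lf (nat_lit 18848) (nat_lit 6) (nat_lit 248) (nat_lit 3) (nat_lit 207) (nat_lit 151) (nat_lit 212)) (PT.lf (nat_lit 18924) (nat_lit 6) (nat_lit 249) (nat_lit 3) (nat_lit 208) (nat_lit 151)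 (nat_lit 211))))) (PT.nd (nat_lit 312) (PT.nd (nat_lit 156) (PT.nd (nat_lit 78) (PT.lf (nat_lit 19000) (nat_lit 6) (nat_lit 250) (nat_lit 3) (nat_lit 209) (nat_lit 151) (nat_lit 210)) (PT.lf (nat_lit 19000) (nat_lit 6) (nat_lit 250) (nat_lit 1) (nat_lit 210) (nat_lit 151) (nat_lit 209))) (PT.nd (nat_lit 78) (PT.lf (nat_lit 18924) (nat_lit 6) (nat_lit 249) (nat_lit 1) (nat_lit 211) (nat_lit 151) (nat_lit 208)) (PT.lf (nat_lit 18848) (nat_lit 6) (nat_lit 248) (nat_lit 1) (nat_lit 212) (nat_lit 151) (nat_lit 207)))) (PT.nd (nat_lit 156) (PT.nd (nat_lit 78) (PT.lf (nat_lit 18772) (nat_lit 6) (nat_lit 247) (nat_lit 1) (nat_lit 213) (nat_lit 151) (nat_lit 206)) (PT.lf (nat_lit 18696) (nat_lit 6) (nat_lit 246) (nat_lit 1) (nat_lit 214) (nat_lit 151) (nat_lit 205))) (PT.nd (nat_lit 78) (PT.lf (nat_lit 18620) (nat_lit 6) (nat_lit 245) (nat_lit 1) (nat_lit 215) (nat_lit 151) (nat_lit 204)) (PT.lf (nat_lit 18544) (nat_lit 6) (nat_lit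 244) (nat_lit 1) (nat_lit 216) (nat_lit 151) (nat_lit 203)))))) (PT.nd (nat_lit 58656) (PT.nd (nat_lit 58344) (PT.nd (nat_lit 58188) (PT.nd (nat_lit 58110) (PT.lf (nat_lit 18468) (nat_lit 6) (nat_lit 243) (nat_lit 1) (nat_lit 217) (nat_lit 151) (nat_lit 202)) (PT.lf (nat_lit 19076) (nat_lit 6) (nat_lit 251) (nat_lit 3) (nat_lit 201) (nat_lit 152) (nat_lit 217))) (PT.nd (nat_lit 78) (PT.lf (nat_lit 19152) (nat_lit 6) (nat_lit 252) (nat_lit 3) (nat_lit 202) (nat_lit 152) (nat_lit 216)) (PT.lf (nat_lit 19228) (nat_lit 6) (nat_lit 253) (nat_lit 3) (nat_lit 203) (nat_lit 152) (nat_lit 215)))) (PT.nd (nat_lit 156) (PT.nd (nat_lit 78) (PT.lf (nat_lit 19304) (nat_lit 6) (nat_lit 254) (nat_lit 3) (nat_lit 204) (nat_lit 152) (nat_lit 214)) (PT.lf (nat_lit 19380) (nat_lit 6) (nat_lit 255) (nat_lit 3) (nat_lit 205) (nat_lit 152) (nat_lit 213))) (PT.nd (nat_lit 78) (PT.lf (nat_lit 19456) (nat_lit 6) (nat_lit 256) (nat_lit 3) (nat_lit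 206) (nat_lit 152) (nat_lit 212)) (PT.lf (nat_lit 19532) (nat_lit 6) (nat_lit 257) (nat_lit 3) (nat_lit 207) (nat_lit 152) (nat_lit 211))))) (PT.nd (nat_lit 312) (PT.nd (nat_lit 156) (PT.nd (nat_lit 78) (PT.lf (nat_lit 19608) (nat_lit 6) (nat_lit 258) (nat_lit 3) (nat_lit 208) (nat_lit 152) (nat_lit 210)) (PT.lf (nat_lit 19684) (nat_lit 3) (nat_lit 259) (nat_lit 1) (nat_lit 209) (nat_lit 152) (nat_lit 209))) (PT.nd (nat_lit 78) (PT.lf (nat_lit 19608) (nat_lit 6) (nat_lit 258) (nat_lit 1) (nat_lit 210) (nat_lit 152) (nat_lit 208)) (PT.lf (nat_lit 19532) (nat_lit 6) (nat_lit 257) (nat_lit 1) (nat_lit 211) (nat_lit 152) (nat_lit 207)))) (PT.nd (nat_lit 156) (PT.nd (nat_lit 78) (PT.lf (nat_lit 19456) (nat_lit 6) (nat_lit 256) (nat_lit 1) (nat_lit 212) (nat_lit 152) (nat_lit 206)) (PT.lf (nat_lit 19380) (nat_lit 6) (nat_lit 255) (nat_lit 1) (nat_lit 213) (nat_lit 152) (nat_lit 205))) (PT.nd (nat_lit 78) (PT.lf (nat_lit 19304)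 (nat_lit 6) (nat_lit 254) (nat_lit 1) (nat_lit 214) (nat_lit 152) (nat_lit 204)) (PT.lf (nat_lit 19228) (nat_lit 6) (nat_lit 253) (nat_lit 1) (nat_lit 215) (nat_lit 152) (nat_lit 203))))))) (PT.nd (nat_lit 59124) (PT.nd (nat_lit 58500) (PT.nd (nat_lit 58188) (PT.nd (nat_lit 78) (PT.lf (nat_lit 19152) (nat_lit 6) (nat_lit 252) (nat_lit 1) (nat_lit 216) (nat_lit 152) (nat_lit 202)) (PT.nd (nat_lit 58032) (PT.lf (nat_lit 19076) (nat_lit 6) (nat_lit 251) (nat_lit 1) (nat_lit 217) (nat_lit 152) (nat_lit 201)) (PT.lf (nat_lit 19760) (nat_lit 6) (nat_lit 260) (nat_lit 3) (nat_lit 200) (nat_lit 153) (nat_lit 217)))) (PT.nd (nat_lit 156) (PT.nd (nat_lit 78) (PT.lf (nat_lit 19836) (nat_lit 6) (nat_lit 261) (nat_lit 3) (nat_lit 201) (nat_lit 153) (nat_lit 216)) (PT.lf (nat_lit 19912) (nat_lit 6) (nat_lit 262) (nat_lit 3) (nat_lit 202) (nat_lit 153) (nat_lit 215))) (PT.nd (nat_lit 78) (PT.lf (nat_lit 19988) (nat_lit 6) (nat_lit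 263) (nat_lit 3) (nat_lit 203) (nat_lit 153) (nat_lit 214)) (PT.lf (nat_lit 20064) (nat_lit 6) (nat_lit 264) (nat_lit 3) (nat_lit 204) (nat_lit 153) (nat_lit 213))))) (PT.nd (nat_lit 312) (PT.nd (nat_lit 156) (PT.nd (nat_lit 78) (PT.lf (nat_lit 20140) (nat_lit 6) (nat_lit 265) (nat_lit 3) (nat_lit 205) (nat_lit 153) (nat_lit 212)) (PT.lf (nat_lit 20216) (nat_lit 6) (nat_lit 266) (nat_lit 3) (nat_lit 206) (nat_lit 153) (nat_lit 211))) (PT.nd (nat_lit 78) (PT.lf (nat_lit 20292) (nat_lit 6) (nat_lit 267) (nat_lit 3) (nat_lit 207) (nat_lit 153) (nat_lit 210)) (PT.lf (nat_lit 20368) (nat_lit 6) (nat_lit 268) (nat_lit 3) (nat_lit 208) (nat_lit 153) (nat_lit 209)))) (PT.nd (nat_lit 156) (PT.nd (nat_lit 78) (PT.lf (nat_lit 20368) (nat_lit 6) (nat_lit 268) (nat_lit 1) (nat_lit 209) (nat_lit 153) (nat_lit 208)) (PT.lf (nat_lit 20292) (nat_lit 6) (nat_lit 267) (nat_lit 1) (nat_lit 210) (nat_lit 153) (nat_lit 207))) (PT.nd (nat_lit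 78) (PT.lf (nat_lit 20216) (nat_lit 6) (nat_lit 266) (nat_lit 1) (nat_lit 211) (nat_lit 153) (nat_lit 206)) (PT.lf (nat_lit 20140) (nat_lit 6) (nat_lit 265) (nat_lit 1) (nat_lit 212) (nat_lit 153) (nat_lit 205)))))) (PT.nd (nat_lit 58578) (PT.nd (nat_lit 312) (PT.nd (nat_lit 156) (PT.nd (nat_lit 78) (PT.lf (nat_lit 20064) (nat_lit 6) (nat_lit 264) (nat_lit 1) (nat_lit 213) (nat_lit 153) (nat_lit 204)) (PT.lf (nat_lit 19988) (nat_lit 6) (nat_lit 263) (nat_lit 1) (nat_lit 214) (nat_lit 153) (nat_lit 203))) (PT.nd (nat_lit 78) (PT.lf (nat_lit 19912) (nat_lit 6) (nat_lit 262) (nat_lit 1) (nat_lit 215) (nat_lit 153) (nat_lit 202)) (PT.lf (nat_lit 19836) (nat_lit 6) (nat_lit 261) (nat_lit 1) (nat_lit 216) (nat_lit 153) (nat_lit 201)))) (PT.nd (nat_lit 58110) (PT.nd (nat_lit 58032) (PT.lf (nat_lit 19760) (nat_lit 6) (nat_lit 260) (nat_lit 1) (nat_lit 217) (nat_lit 153) (nat_lit 200)) (PT.lf (nat_lit 20444) (nat_lit 6) (nat_lit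 269) (nat_lit 3) (nat_lit 200) (nat_lit 154) (nat_lit 216))) (PT.nd (nat_lit 78) (PT.lf (nat_lit 20520) (nat_lit 6) (nat_lit 270) (nat_lit 3) (nat_lit 201) (nat_lit 154) (nat_lit 215)) (PT.lf (nat_lit 20596) (nat_lit 6) (nat_lit 271) (nat_lit 3) (nat_lit 202) (nat_lit 154) (nat_lit 214))))) (PT.nd (nat_lit 312) (PT.nd (nat_lit 156) (PT.nd (nat_lit 78) (PT.lf (nat_lit 20672) (nat_lit 6) (nat_lit 272) (nat_lit 3) (nat_lit 203) (nat_lit 154) (nat_lit 213)) (PT.lf (nat_lit 20748) (nat_lit 6) (nat_lit 273) (nat_lit 3) (nat_lit 204) (nat_lit 154) (nat_lit 212))) (PT.nd (nat_lit 78) (PT.lf (nat_lit 20824) (nat_lit 6) (nat_lit 274) (nat_lit 3) (nat_lit 205) (nat_lit 154) (nat_lit 211)) (PT.lf (nat_lit 20900) (nat_lit 6) (nat_lit 275) (nat_lit 3) (nat_lit 206) (nat_lit 154) (nat_lit 210)))) (PT.nd (nat_lit 156) (PT.nd (nat_lit 78) (PT.lf (nat_lit 20976) (nat_lit 6) (nat_lit 276) (nat_lit 3) (nat_lit 207) (nat_lit 154) (nat_lit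 209)) (PT.lf (nat_lit 21052) (nat_lit 3) (nat_lit 277) (nat_lit 1) (nat_lit 208) (nat_lit 154) (nat_lit 208))) (PT.nd (nat_lit 78) (PT.lf (nat_lit 20976) (nat_lit 6) (nat_lit 276) (nat_lit 1) (nat_lit 209) (nat_lit 154) (nat_lit 207)) (PT.lf (nat_lit 20900) (nat_lit 6) (nat_lit 275) (nat_lit 1) (nat_lit 210) (nat_lit 154) (nat_lit 206))))))))
noncomputable def pc8 : PT := (PT.nd (nat_lit 118170) (PT.nd (nat_lit 59124) (PT.nd (nat_lit 58500) (PT.nd (nat_lit 234) (PT.nd (nat_lit 78) (PT.lf (nat_lit 20824) (nat_lit 6) (nat_lit 274) (nat_lit 1) (nat_lit 211) (nat_lit 154) (nat_lit 205)) (PT.nd (nat_lit 78) (PT.lf (nat_lit 20748) (nat_lit 6) (nat_lit 273) (nat_lit 1) (nat_lit 212) (nat_lit 154) (nat_lit 204)) (PT.lf (nat_lit 20672) (nat_lit 6) (nat_lit 272) (nat_lit 1) (nat_lit 213) (nat_lit 154) (nat_lit 203)))) (PT.nd (nat_lit 156) (PT.nd (nat_lit 78) (PT.lf (nat_lit 20596) (nat_lit 6) (nat_lit 271) (nat_lit 1) (nat_lit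 214) (nat_lit 154) (nat_lit 202)) (PT.lf (nat_lit 20520) (nat_lit 6) (nat_lit 270) (nat_lit 1) (nat_lit 215) (nat_lit 154) (nat_lit 201))) (PT.nd (nat_lit 58032) (PT.lf (nat_lit 20444) (nat_lit 6) (nat_lit 269) (nat_lit 1) (nat_lit 216) (nat_lit 154) (nat_lit 200)) (PT.lf (nat_lit 21128) (nat_lit 6) (nat_lit 278) (nat_lit 3) (nat_lit 199) (nat_lit 155) (nat_lit 216))))) (PT.nd (nat_lit 312) (PT.nd (nat_lit 156) (PT.nd (nat_lit 78) (PT.lf (nat_lit 21204) (nat_lit 6) (nat_lit 279) (nat_lit 3) (nat_lit 200) (nat_lit 155) (nat_lit 215)) (PT.lf (nat_lit 21280) (nat_lit 6) (nat_lit 280) (nat_lit 3) (nat_lit 201) (nat_lit 155) (nat_lit 214))) (PT.nd (nat_lit 78) (PT.lf (nat_lit 21356) (nat_lit 6) (nat_lit 281) (nat_lit 3) (nat_lit 202) (nat_lit 155) (nat_lit 213)) (PT.lf (nat_lit 21432) (nat_lit 6) (nat_lit 282) (nat_lit 3) (nat_lit 203) (nat_lit 155) (nat_lit 212)))) (PT.nd (nat_lit 156) (PT.nd (nat_lit 78) (PT.lf (nat_lit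 21508) (nat_lit 6) (nat_lit 283) (nat_lit 3) (nat_lit 204) (nat_lit 155) (nat_lit 211)) (PT.lf (nat_lit 21584) (nat_lit 6) (nat_lit 284) (nat_lit 3) (nat_lit 205) (nat_lit 155) (nat_lit 210))) (PT.nd (nat_lit 78) (PT.lf (nat_lit 21660) (nat_lit 6) (nat_lit 285) (nat_lit 3) (nat_lit 206) (nat_lit 155) (nat_lit 209)) (PT.lf (nat_lit 21736) (nat_lit 6) (nat_lit 286) (nat_lit 3) (nat_lit 207) (nat_lit 155) (nat_lit 208)))))) (PT.nd (nat_lit 546) (PT.nd (nat_lit 234) (PT.nd (nat_lit 78) (PT.lf (nat_lit 21736) (nat_lit 6) (nat_lit 286) (nat_lit 1) (nat_lit 208) (nat_lit 155) (nat_lit 207)) (PT.nd (nat_lit 78) (PT.lf (nat_lit 21660) (nat_lit 6) (nat_lit 285) (nat_lit 1) (nat_lit 209) (nat_lit 155) (nat_lit 206)) (PT.lf (nat_lit 21584) (nat_lit 6) (nat_lit 284) (nat_lit 1) (nat_lit 210) (nat_lit 155) (nat_lit 205)))) (PT.nd (nat_lit 156) (PT.nd (nat_lit 78) (PT.lf (nat_lit 21508) (nat_lit 6) (nat_lit 283) (nat_lit 1) (nat_lit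 211) (nat_lit 155) (nat_lit 204)) (PT.lf (nat_lit 21432) (nat_lit 6) (nat_lit 282) (nat_lit 1) (nat_lit 212) (nat_lit 155) (nat_lit 203))) (PT.nd (nat_lit 78) (PT.lf (nat_lit 21356) (nat_lit 6) (nat_lit 281) (nat_lit 1) (nat_lit 213) (nat_lit 155) (nat_lit 202)) (PT.lf (nat_lit 21280) (nat_lit 6) (nat_lit 280) (nat_lit 1) (nat_lit 214) (nat_lit 155) (nat_lit 201))))) (PT.nd (nat_lit 58188) (PT.nd (nat_lit 58032) (PT.nd (nat_lit 78) (PT.lf (nat_lit 21204) (nat_lit 6) (nat_lit 279) (nat_lit 1) (nat_lit 215) (nat_lit 155) (nat_lit 200)) (PT.lf (nat_lit 21128) (nat_lit 6) (nat_lit 278) (nat_lit 1) (nat_lit 216) (nat_lit 155) (nat_lit 199))) (PT.nd (nat_lit 78) (PT.lf (nat_lit 21812) (nat_lit 6) (nat_lit 287) (nat_lit 3) (nat_lit 198) (nat_lit 156) (nat_lit 216)) (PT.lf (nat_lit 21888) (nat_lit 6) (nat_lit 288) (nat_lit 3) (nat_lit 199) (nat_lit 156) (nat_lit 215)))) (PT.nd (nat_lit 156) (PT.nd (nat_lit 78) (PT.lf (nat_lit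 21964) (nat_lit 6) (nat_lit 289) (nat_lit 3) (nat_lit 200) (nat_lit 156) (nat_lit 214)) (PT.lf (nat_lit 22040) (nat_lit 6) (nat_lit 290) (nat_lit 3) (nat_lit 201) (nat_lit 156) (nat_lit 213))) (PT.nd (nat_lit 78) (PT.lf (nat_lit 22116) (nat_lit 6) (nat_lit 291) (nat_lit 3) (nat_lit 202) (nat_lit 156) (nat_lit 212)) (PT.lf (nat_lit 22192) (nat_lit 6) (nat_lit 292) (nat_lit 3) (nat_lit 203) (nat_lit 156) (nat_lit 211))))))) (PT.nd (nat_lit 58968) (PT.nd (nat_lit 546) (PT.nd (nat_lit 234) (PT.nd (nat_lit 78) (PT.lf (nat_lit 22268) (nat_lit 6) (nat_lit 293) (nat_lit 3) (nat_lit 204) (nat_lit 156) (nat_lit 210)) (PT.nd (nat_lit 78) (PT.lf (nat_lit 22344) (nat_lit 6) (nat_lit 294) (nat_lit 3) (nat_lit 205) (nat_lit 156) (nat_lit 209)) (PT.lf (nat_lit 22420) (nat_lit 6) (nat_lit 295) (nat_lit 3) (nat_lit 206) (nat_lit 156) (nat_lit 208)))) (PT.nd (nat_lit 156) (PT.nd (nat_lit 78) (PT.lf (nat_lit 22496) (nat_lit 3) (nat_lit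 296) (nat_lit 1) (nat_lit 207) (nat_lit 156) (nat_lit 207)) (PT.lf (nat_lit 22420) (nat_lit 6) (nat_lit 295) (nat_lit 1) (nat_lit 208) (nat_lit 156) (nat_lit 206))) (PT.nd (nat_lit 78) (PT.lf (nat_lit 22344) (nat_lit 6) (nat_lit 294) (nat_lit 1) (nat_lit 209) (nat_lit 156) (nat_lit 205)) (PT.lf (nat_lit 22268) (nat_lit 6) (nat_lit 293) (nat_lit 1) (nat_lit 210) (nat_lit 156) (nat_lit 204))))) (PT.nd (nat_lit 312) (PT.nd (nat_lit 156) (PT.nd (nat_lit 78) (PT.lf (nat_lit 22192) (nat_lit 6) (nat_lit 292) (nat_lit 1) (nat_lit 211) (nat_lit 156) (nat_lit 203)) (PT.lf (nat_lit 22116) (nat_lit 6) (nat_lit 291) (nat_lit 1) (nat_lit 212) (nat_lit 156) (nat_lit 202))) (PT.nd (nat_lit 78) (PT.lf (nat_lit 22040) (nat_lit 6) (nat_lit 290) (nat_lit 1) (nat_lit 213) (nat_lit 156) (nat_lit 201)) (PT.lf (nat_lit 21964) (nat_lit 6) (nat_lit 289) (nat_lit 1) (nat_lit 214) (nat_lit 156) (nat_lit 200)))) (PT.nd (nat_lit 57954) (PT.nd (nat_lit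 78) (PT.lf (nat_lit 21888) (nat_lit 6) (nat_lit 288) (nat_lit 1) (nat_lit 215) (nat_lit 156) (nat_lit 199)) (PT.lf (nat_lit 21812) (nat_lit 6) (nat_lit 287) (nat_lit 1) (nat_lit 216) (nat_lit 156) (nat_lit 198))) (PT.nd (nat_lit 78) (PT.lf (nat_lit 22572) (nat_lit 6) (nat_lit 297) (nat_lit 3) (nat_lit 197) (nat_lit 157) (nat_lit 216)) (PT.lf (nat_lit 22648) (nat_lit 6) (nat_lit 298) (nat_lit 3) (nat_lit 198) (nat_lit 157) (nat_lit 215)))))) (PT.nd (nat_lit 624) (PT.nd (nat_lit 312) (PT.nd (nat_lit 156) (PT.nd (nat_lit 78) (PT.lf (nat_lit 22724) (nat_lit 6) (nat_lit 299) (nat_lit 3) (nat_lit 199) (nat_lit 157) (nat_lit 214)) (PT.lf (nat_lit 22800) (nat_lit 6) (nat_lit 300) (nat_lit 3) (nat_lit 200) (nat_lit 157) (nat_lit 213))) (PT.nd (nat_lit 78) (PT.lf (nat_lit 22876) (nat_lit 6) (nat_lit 301) (nat_lit 3) (nat_lit 201) (nat_lit 157) (nat_lit 212)) (PT.lf (nat_lit 22952) (nat_lit 6) (nat_lit 302) (nat_lit 3) (nat_lit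 202) (nat_lit 157) (nat_lit 211)))) (PT.nd (nat_lit 156) (PT.nd (nat_lit 78) (PT.lf (nat_lit 23028) (nat_lit 6) (nat_lit 303) (nat_lit 3) (nat_lit 203) (nat_lit 157) (nat_lit 210)) (PT.lf (nat_lit 23104) (nat_lit 6) (nat_lit 304) (nat_lit 3) (nat_lit 204) (nat_lit 157) (nat_lit 209))) (PT.nd (nat_lit 78) (PT.lf (nat_lit 23180) (nat_lit 6) (nat_lit 305) (nat_lit 3) (nat_lit 205) (nat_lit 157) (nat_lit 208)) (PT.lf (nat_lit 23256) (nat_lit 6) (nat_lit 306) (nat_lit 3) (nat_lit 206) (nat_lit 157) (nat_lit 207))))) (PT.nd (nat_lit 312) (PT.nd (nat_lit 156) (PT.nd (nat_lit 78) (PT.lf (nat_lit 23256) (nat_lit 6) (nat_lit 306) (nat_lit 1) (nat_lit 207) (nat_lit 157) (nat_lit 206)) (PT.lf (nat_lit 23180) (nat_lit 6) (nat_lit 305) (nat_lit 1) (nat_lit 208) (nat_lit 157) (nat_lit 205))) (PT.nd (nat_lit 78) (PT.lf (nat_lit 23104) (nat_lit 6) (nat_lit 304) (nat_lit 1) (nat_lit 209) (nat_lit 157) (nat_lit 204)) (PT.lf (nat_lit 23028)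 (nat_lit 6) (nat_lit 303) (nat_lit 1) (nat_lit 210) (nat_lit 157) (nat_lit 203)))) (PT.nd (nat_lit 156) (PT.nd (nat_lit 78) (PT.lf (nat_lit 22952) (nat_lit 6) (nat_lit 302) (nat_lit 1) (nat_lit 211) (nat_lit 157) (nat_lit 202)) (PT.lf (nat_lit 22876) (nat_lit 6) (nat_lit 301) (nat_lit 1) (nat_lit 212) (nat_lit 157) (nat_lit 201))) (PT.nd (nat_lit 78) (PT.lf (nat_lit 22800) (nat_lit 6) (nat_lit 300) (nat_lit 1) (nat_lit 213) (nat_lit 157) (nat_lit 200)) (PT.lf (nat_lit 22724) (nat_lit 6) (nat_lit 299) (nat_lit 1) (nat_lit 214) (nat_lit 157) (nat_lit 199))))))))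
noncomputable def pc9 : PT := (PT.nd (nat_lit 118014) (PT.nd (nat_lit 58968) (PT.nd (nat_lit 58344) (PT.nd (nat_lit 58032) (PT.nd (nat_lit 78) (PT.lf (nat_lit 22648) (nat_lit 6) (nat_lit 298) (nat_lit 1) (nat_lit 215) (nat_lit 157) (nat_lit 198)) (PT.nd (nat_lit 57876) (PT.lf (nat_lit 22572) (nat_lit 6) (nat_lit 297) (nat_lit 1) (nat_lit 216) (nat_lit 157) (nat_lit 197)) (PT.lf (nat_lit 23332) (nat_lit 6) (nat_lit 307) (nat_lit 3) (nat_lit 197) (nat_lit 158) (nat_lit 215)))) (PT.nd (nat_lit 156) (PT.nd (nat_lit 78) (PT.lf (nat_lit 23408) (nat_lit 6) (nat_lit 308) (nat_lit 3) (nat_lit 198) (nat_lit 158) (nat_lit 214)) (PT.lf (nat_lit 23484) (nat_lit 6) (nat_lit 309) (nat_lit 3) (nat_lit 199) (nat_lit 158) (nat_lit 213))) (PT.nd (nat_lit 78) (PT.lf (nat_lit 23560) (nat_lit 6) (nat_lit 310) (nat_lit 3) (nat_lit 200) (nat_lit 158) (nat_lit 212)) (PT.lf (nat_lit 23636) (nat_lit 6) (nat_lit 311) (nat_lit 3) (nat_lit 201) (nat_lit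 158) (nat_lit 211))))) (PT.nd (nat_lit 312) (PT.nd (nat_lit 156) (PT.nd (nat_lit 78) (PT.lf (nat_lit 23712) (nat_lit 6) (nat_lit 312) (nat_lit 3) (nat_lit 202) (nat_lit 158) (nat_lit 210)) (PT.lf (nat_lit 23788) (nat_lit 6) (nat_lit 313) (nat_lit 3) (nat_lit 203) (nat_lit 158) (nat_lit 209))) (PT.nd (nat_lit 78) (PT.lf (nat_lit 23864) (nat_lit 6) (nat_lit 314) (nat_lit 3) (nat_lit 204) (nat_lit 158) (nat_lit 208)) (PT.lf (nat_lit 23940) (nat_lit 6) (nat_lit 315) (nat_lit 3) (nat_lit 205) (nat_lit 158) (nat_lit 207)))) (PT.nd (nat_lit 156) (PT.nd (nat_lit 78) (PT.lf (nat_lit 24016) (nat_lit 3) (nat_lit 316) (nat_lit 1) (nat_lit 206) (nat_lit 158) (nat_lit 206)) (PT.lf (nat_lit 23940) (nat_lit 6) (nat_lit 315) (nat_lit 1) (nat_lit 207) (nat_lit 158) (nat_lit 205))) (PT.nd (nat_lit 78) (PT.lf (nat_lit 23864) (nat_lit 6) (nat_lit 314) (nat_lit 1) (nat_lit 208) (nat_lit 158) (nat_lit 204)) (PT.lf (nat_lit 23788) (nat_lit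 6) (nat_lit 313) (nat_lit 1) (nat_lit 209) (nat_lit 158) (nat_lit 203)))))) (PT.nd (nat_lit 58422) (PT.nd (nat_lit 312) (PT.nd (nat_lit 156) (PT.nd (nat_lit 78) (PT.lf (nat_lit 23712) (nat_lit 6) (nat_lit 312) (nat_lit 1) (nat_lit 210) (nat_lit 158) (nat_lit 202)) (PT.lf (nat_lit 23636) (nat_lit 6) (nat_lit 311) (nat_lit 1) (nat_lit 211) (nat_lit 158) (nat_lit 201))) (PT.nd (nat_lit 78) (PT.lf (nat_lit 23560) (nat_lit 6) (nat_lit 310) (nat_lit 1) (nat_lit 212) (nat_lit 158) (nat_lit 200)) (PT.lf (nat_lit 23484) (nat_lit 6) (nat_lit 309) (nat_lit 1) (nat_lit 213) (nat_lit 158) (nat_lit 199)))) (PT.nd (nat_lit 57954) (PT.nd (nat_lit 78) (PT.lf (nat_lit 23408) (nat_lit 6) (nat_lit 308) (nat_lit 1) (nat_lit 214) (nat_lit 158) (nat_lit 198)) (PT.lf (nat_lit 23332) (nat_lit 6) (nat_lit 307) (nat_lit 1) (nat_lit 215) (nat_lit 158) (nat_lit 197))) (PT.nd (nat_lit 78) (PT.lf (nat_lit 24092) (nat_lit 6) (nat_lit 317) (nat_lit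 3) (nat_lit 196) (nat_lit 159) (nat_lit 215)) (PT.lf (nat_lit 24168) (nat_lit 6) (nat_lit 318) (nat_lit 3) (nat_lit 197) (nat_lit 159) (nat_lit 214))))) (PT.nd (nat_lit 312) (PT.nd (nat_lit 156) (PT.nd (nat_lit 78) (PT.lf (nat_lit 24244) (nat_lit 6) (nat_lit 319) (nat_lit 3) (nat_lit 198) (nat_lit 159) (nat_lit 213)) (PT.lf (nat_lit 24320) (nat_lit 6) (nat_lit 320) (nat_lit 3) (nat_lit 199) (nat_lit 159) (nat_lit 212))) (PT.nd (nat_lit 78) (PT.lf (nat_lit 24396) (nat_lit 6) (nat_lit 321) (nat_lit 3) (nat_lit 200) (nat_lit 159) (nat_lit 211)) (PT.lf (nat_lit 24472) (nat_lit 6) (nat_lit 322) (nat_lit 3) (nat_lit 201) (nat_lit 159) (nat_lit 210)))) (PT.nd (nat_lit 156) (PT.nd (nat_lit 78) (PT.lf (nat_lit 24548) (nat_lit 6) (nat_lit 323) (nat_lit 3) (nat_lit 202) (nat_lit 159) (nat_lit 209)) (PT.lf (nat_lit 24624) (nat_lit 6) (nat_lit 324) (nat_lit 3) (nat_lit 203) (nat_lit 159) (nat_lit 208))) (PT.nd (nat_lit 78) (PT.lf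 (nat_lit 24700) (nat_lit 6) (nat_lit 325) (nat_lit 3) (nat_lit 204) (nat_lit 159) (nat_lit 207)) (PT.lf (nat_lit 24776) (nat_lit 6) (nat_lit 326) (nat_lit 3) (nat_lit 205) (nat_lit 159) (nat_lit 206))))))) (PT.nd (nat_lit 58890) (PT.nd (nat_lit 546) (PT.nd (nat_lit 234) (PT.nd (nat_lit 78) (PT.lf (nat_lit 24776) (nat_lit 6) (nat_lit 326) (nat_lit 1) (nat_lit 206) (nat_lit 159) (nat_lit 205)) (PT.nd (nat_lit 78) (PT.lf (nat_lit 24700) (nat_lit 6) (nat_lit 325) (nat_lit 1) (nat_lit 207) (nat_lit 159) (nat_lit 204)) (PT.lf (nat_lit 24624) (nat_lit 6) (nat_lit 324) (nat_lit 1) (nat_lit 208) (nat_lit 159) (nat_lit 203)))) (PT.nd (nat_lit 156) (PT.nd (nat_lit 78) (PT.lf (nat_lit 24548) (nat_lit 6) (nat_lit 323) (nat_lit 1) (nat_lit 209) (nat_lit 159) (nat_lit 202)) (PT.lf (nat_lit 24472) (nat_lit 6) (nat_lit 322) (nat_lit 1) (nat_lit 210) (nat_lit 159) (nat_lit 201))) (PT.nd (nat_lit 78) (PT.lf (nat_lit 24396) (nat_lit 6)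 (nat_lit 321) (nat_lit 1) (nat_lit 211) (nat_lit 159) (nat_lit 200)) (PT.lf (nat_lit 24320) (nat_lit 6) (nat_lit 320) (nat_lit 1) (nat_lit 212) (nat_lit 159) (nat_lit 199))))) (PT.nd (nat_lit 58032) (PT.nd (nat_lit 156) (PT.nd (nat_lit 78) (PT.lf (nat_lit 24244) (nat_lit 6) (nat_lit 319) (nat_lit 1) (nat_lit 213) (nat_lit 159) (nat_lit 198)) (PT.lf (nat_lit 24168) (nat_lit 6) (nat_lit 318) (nat_lit 1) (nat_lit 214) (nat_lit 159) (nat_lit 197))) (PT.nd (nat_lit 57798) (PT.lf (nat_lit 24092) (nat_lit 6) (nat_lit 317) (nat_lit 1) (nat_lit 215) (nat_lit 159) (nat_lit 196)) (PT.lf (nat_lit 24852) (nat_lit 6) (nat_lit 327) (nat_lit 3) (nat_lit 195) (nat_lit 160) (nat_lit 215)))) (PT.nd (nat_lit 156) (PT.nd (nat_lit 78) (PT.lf (nat_lit 24928) (nat_lit 6) (nat_lit 328) (nat_lit 3) (nat_lit 196) (nat_lit 160) (nat_lit 214)) (PT.lf (nat_lit 25004) (nat_lit 6) (nat_lit 329) (nat_lit 3) (nat_lit 197) (nat_lit 160) (nat_lit 213)))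 (PT.nd (nat_lit 78) (PT.lf (nat_lit 25080) (nat_lit 6) (nat_lit 330) (nat_lit 3) (nat_lit 198) (nat_lit 160) (nat_lit 212)) (PT.lf (nat_lit 25156) (nat_lit 6) (nat_lit 331) (nat_lit 3) (nat_lit 199) (nat_lit 160) (nat_lit 211)))))) (PT.nd (nat_lit 624) (PT.nd (nat_lit 312) (PT.nd (nat_lit 156) (PT.nd (nat_lit 78) (PT.lf (nat_lit 25232) (nat_lit 6) (nat_lit 332) (nat_lit 3) (nat_lit 200) (nat_lit 160) (nat_lit 210)) (PT.lf (nat_lit 25308) (nat_lit 6) (nat_lit 333) (nat_lit 3) (nat_lit 201) (nat_lit 160) (nat_lit 209))) (PT.nd (nat_lit 78) (PT.lf (nat_lit 25384) (nat_lit 6) (nat_lit 334) (nat_lit 3) (nat_lit 202) (nat_lit 160) (nat_lit 208)) (PT.lf (nat_lit 25460) (nat_lit 6) (nat_lit 335) (nat_lit 3) (nat_lit 203) (nat_lit 160) (nat_lit 207)))) (PT.nd (nat_lit 156) (PT.nd (nat_lit 78) (PT.lf (nat_lit 25536) (nat_lit 6) (nat_lit 336) (nat_lit 3) (nat_lit 204) (nat_lit 160) (nat_lit 206)) (PT.lf (nat_lit 25612) (nat_lit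 3) (nat_lit 337) (nat_lit 1) (nat_lit 205) (nat_lit 160) (nat_lit 205))) (PT.nd (nat_lit 78) (PT.lf (nat_lit 25536) (nat_lit 6) (nat_lit 336) (nat_lit 1) (nat_lit 206) (nat_lit 160) (nat_lit 204)) (PT.lf (nat_lit 25460) (nat_lit 6) (nat_lit 335) (nat_lit 1) (nat_lit 207) (nat_lit 160) (nat_lit 203))))) (PT.nd (nat_lit 312) (PT.nd (nat_lit 156) (PT.nd (nat_lit 78) (PT.lf (nat_lit 25384) (nat_lit 6) (nat_lit 334) (nat_lit 1) (nat_lit 208) (nat_lit 160) (nat_lit 202)) (PT.lf (nat_lit 25308) (nat_lit 6) (nat_lit 333) (nat_lit 1) (nat_lit 209) (nat_lit 160) (nat_lit 201))) (PT.nd (nat_lit 78) (PT.lf (nat_lit 25232) (nat_lit 6) (nat_lit 332) (nat_lit 1) (nat_lit 210) (nat_lit 160) (nat_lit 200)) (PT.lf (nat_lit 25156) (nat_lit 6) (nat_lit 331) (nat_lit 1) (nat_lit 211) (nat_lit 160) (nat_lit 199)))) (PT.nd (nat_lit 156) (PT.nd (nat_lit 78) (PT.lf (nat_lit 25080) (nat_lit 6) (nat_lit 330) (nat_lit 1) (nat_lit 212) (nat_lit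 160) (nat_lit 198)) (PT.lf (nat_lit 25004) (nat_lit 6) (nat_lit 329) (nat_lit 1) (nat_lit 213) (nat_lit 160) (nat_lit 197))) (PT.nd (nat_lit 78) (PT.lf (nat_lit 24928) (nat_lit 6) (nat_lit 328) (nat_lit 1) (nat_lit 214) (nat_lit 160) (nat_lit 196)) (PT.lf (nat_lit 24852) (nat_lit 6) (nat_lit 327) (nat_lit 1) (nat_lit 215) (nat_lit 160) (nat_lit 195))))))))
noncomputable def pc10 : PT := (PT.nd (nat_lit 59904) (PT.nd (nat_lit 1170) (PT.nd (nat_lit 546) (PT.nd (nat_lit 234) (PT.nd (nat_lit 78) (PT.lf (nat_lit 25688) (nat_lit 6) (nat_lit 338) (nat_lit 3) (nat_lit 194) (nat_lit 161) (nat_lit 215)) (PT.nd (nat_lit 78) (PT.lf (nat_lit 25764) (nat_lit 6) (nat_lit 339) (nat_lit 3) (nat_lit 195) (nat_lit 161) (nat_lit 214)) (PT.lf (nat_lit 25840) (nat_lit 6) (nat_lit 340) (nat_lit 3) (nat_lit 196) (nat_lit 161) (nat_lit 213)))) (PT.nd (nat_lit 156) (PT.nd (nat_lit 78) (PT.lf (nat_lit 25916) (nat_lit 6) (nat_lit 341) (nat_lit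 3) (nat_lit 197) (nat_lit 161) (nat_lit 212)) (PT.lf (nat_lit 25992) (nat_lit 6) (nat_lit 342) (nat_lit 3) (nat_lit 198) (nat_lit 161) (nat_lit 211))) (PT.nd (nat_lit 78) (PT.lf (nat_lit 26068) (nat_lit 6) (nat_lit 343) (nat_lit 3) (nat_lit 199) (nat_lit 161) (nat_lit 210)) (PT.lf (nat_lit 26144) (nat_lit 6) (nat_lit 344) (nat_lit 3) (nat_lit 200) (nat_lit 161) (nat_lit 209))))) (PT.nd (nat_lit 312) (PT.nd (nat_lit 156) (PT.nd (nat_lit 78) (PT.lf (nat_lit 26220) (nat_lit 6) (nat_lit 345) (nat_lit 3) (nat_lit 201) (nat_lit 161) (nat_lit 208)) (PT.lf (nat_lit 26296) (nat_lit 6) (nat_lit 346) (nat_lit 3) (nat_lit 202) (nat_lit 161) (nat_lit 207))) (PT.nd (nat_lit 78) (PT.lf (nat_lit 26372) (nat_lit 6) (nat_lit 347) (nat_lit 3) (nat_lit 203) (nat_lit 161) (nat_lit 206)) (PT.lf (nat_lit 26448) (nat_lit 6) (nat_lit 348) (nat_lit 3) (nat_lit 204) (nat_lit 161) (nat_lit 205)))) (PT.nd (nat_lit 156) (PT.nd (nat_lit 78) (PT.lf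 (nat_lit 26448) (nat_lit 6) (nat_lit 348) (nat_lit 1) (nat_lit 205) (nat_lit 161) (nat_lit 204)) (PT.lf (nat_lit 26372) (nat_lit 6) (nat_lit 347) (nat_lit 1) (nat_lit 206) (nat_lit 161) (nat_lit 203))) (PT.nd (nat_lit 78) (PT.lf (nat_lit 26296) (nat_lit 6) (nat_lit 346) (nat_lit 1) (nat_lit 207) (nat_lit 161) (nat_lit 202)) (PT.lf (nat_lit 26220) (nat_lit 6) (nat_lit 345) (nat_lit 1) (nat_lit 208) (nat_lit 161) (nat_lit 201)))))) (PT.nd (nat_lit 58110) (PT.nd (nat_lit 234) (PT.nd (nat_lit 78) (PT.lf (nat_lit 26144) (nat_lit 6) (nat_lit 344) (nat_lit 1) (nat_lit 209) (nat_lit 161) (nat_lit 200)) (PT.nd (nat_lit 78) (PT.lf (nat_lit 26068) (nat_lit 6) (nat_lit 343) (nat_lit 1) (nat_lit 210) (nat_lit 161) (nat_lit 199)) (PT.lf (nat_lit 25992) (nat_lit 6) (nat_lit 342) (nat_lit 1) (nat_lit 211) (nat_lit 161) (nat_lit 198)))) (PT.nd (nat_lit 156) (PT.nd (nat_lit 78) (PT.lf (nat_lit 25916) (nat_lit 6) (nat_lit 341) (nat_lit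 1) (nat_lit 212) (nat_lit 161) (nat_lit 197)) (PT.lf (nat_lit 25840) (nat_lit 6) (nat_lit 340) (nat_lit 1) (nat_lit 213) (nat_lit 161) (nat_lit 196))) (PT.nd (nat_lit 78) (PT.lf (nat_lit 25764) (nat_lit 6) (nat_lit 339) (nat_lit 1) (nat_lit 214) (nat_lit 161) (nat_lit 195)) (PT.lf (nat_lit 25688) (nat_lit 6) (nat_lit 338) (nat_lit 1) (nat_lit 215) (nat_lit 161) (nat_lit 194))))) (PT.nd (nat_lit 312) (PT.nd (nat_lit 156) (PT.nd (nat_lit 78) (PT.lf (nat_lit 26524) (nat_lit 6) (nat_lit 349) (nat_lit 3) (nat_lit 193) (nat_lit 162) (nat_lit 215)) (PT.lf (nat_lit 26600) (nat_lit 6) (nat_lit 350) (nat_lit 3) (nat_lit 194) (nat_lit 162) (nat_lit 214))) (PT.nd (nat_lit 78) (PT.lf (nat_lit 26676) (nat_lit 6) (nat_lit 351) (nat_lit 3) (nat_lit 195) (nat_lit 162) (nat_lit 213)) (PT.lf (nat_lit 26752) (nat_lit 6) (nat_lit 352) (nat_lit 3) (nat_lit 196) (nat_lit 162) (nat_lit 212)))) (PT.nd (nat_lit 156) (PT.nd (nat_lit 78) (PT.lf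 (nat_lit 26828) (nat_lit 6) (nat_lit 353) (nat_lit 3) (nat_lit 197) (nat_lit 162) (nat_lit 211)) (PT.lf (nat_lit 26904) (nat_lit 6) (nat_lit 354) (nat_lit 3) (nat_lit 198) (nat_lit 162) (nat_lit 210))) (PT.nd (nat_lit 78) (PT.lf (nat_lit 26980) (nat_lit 6) (nat_lit 355) (nat_lit 3) (nat_lit 199) (nat_lit 162) (nat_lit 209)) (PT.lf (nat_lit 27056) (nat_lit 6) (nat_lit 356) (nat_lit 3) (nat_lit 200) (nat_lit 162) (nat_lit 208))))))) (PT.nd (nat_lit 58734) (PT.nd (nat_lit 546) (PT.nd (nat_lit 234) (PT.nd (nat_lit 78) (PT.lf (nat_lit 27132) (nat_lit 6) (nat_lit 357) (nat_lit 3) (nat_lit 201) (nat_lit 162) (nat_lit 207)) (PT.nd (nat_lit 78) (PT.lf (nat_lit 27208) (nat_lit 6) (nat_lit 358) (nat_lit 3) (nat_lit 202) (nat_lit 162) (nat_lit 206)) (PT.lf (nat_lit 27284) (nat_lit 6) (nat_lit 359) (nat_lit 3) (nat_lit 203) (nat_lit 162) (nat_lit 205)))) (PT.nd (nat_lit 156) (PT.nd (nat_lit 78) (PT.lf (nat_lit 27360) (nat_lit 3)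 (nat_lit 360) (nat_lit 1) (nat_lit 204) (nat_lit 162) (nat_lit 204)) (PT.lf (nat_lit 27284) (nat_lit 6) (nat_lit 359) (nat_lit 1) (nat_lit 205) (nat_lit 162) (nat_lit 203))) (PT.nd (nat_lit 78) (PT.lf (nat_lit 27208) (nat_lit 6) (nat_lit 358) (nat_lit 1) (nat_lit 206) (nat_lit 162) (nat_lit 202)) (PT.lf (nat_lit 27132) (nat_lit 6) (nat_lit 357) (nat_lit 1) (nat_lit 207) (nat_lit 162) (nat_lit 201))))) (PT.nd (nat_lit 312) (PT.nd (nat_lit 156) (PT.nd (nat_lit 78) (PT.lf (nat_lit 27056) (nat_lit 6) (nat_lit 356) (nat_lit 1) (nat_lit 208) (nat_lit 162) (nat_lit 200)) (PT.lf (nat_lit 26980) (nat_lit 6) (nat_lit 355) (nat_lit 1) (nat_lit 209) (nat_lit 162) (nat_lit 199))) (PT.nd (nat_lit 78) (PT.lf (nat_lit 26904) (nat_lit 6) (nat_lit 354) (nat_lit 1) (nat_lit 210) (nat_lit 162) (nat_lit 198)) (PT.lf (nat_lit 26828) (nat_lit 6) (nat_lit 353) (nat_lit 1) (nat_lit 211) (nat_lit 162) (nat_lit 197)))) (PT.nd (nat_lit 156) (PT.nd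 (nat_lit 78) (PT.lf (nat_lit 26752) (nat_lit 6) (nat_lit 352) (nat_lit 1) (nat_lit 212) (nat_lit 162) (nat_lit 196)) (PT.lf (nat_lit 26676) (nat_lit 6) (nat_lit 351) (nat_lit 1) (nat_lit 213) (nat_lit 162) (nat_lit 195))) (PT.nd (nat_lit 78) (PT.lf (nat_lit 26600) (nat_lit 6) (nat_lit 350) (nat_lit 1) (nat_lit 214) (nat_lit 162) (nat_lit 194)) (PT.lf (nat_lit 26524) (nat_lit 6) (nat_lit 349) (nat_lit 1) (nat_lit 215) (nat_lit 162) (nat_lit 193)))))) (PT.nd (nat_lit 624) (PT.nd (nat_lit 312) (PT.nd (nat_lit 156) (PT.nd (nat_lit 78) (PT.lf (nat_lit 27436) (nat_lit 6) (nat_lit 361) (nat_lit 3) (nat_lit 193) (nat_lit 163) (nat_lit 214)) (PT.lf (nat_lit 27512) (nat_lit 6) (nat_lit 362) (nat_lit 3) (nat_lit 194) (nat_lit 163) (nat_lit 213))) (PT.nd (nat_lit 78) (PT.lf (nat_lit 27588) (nat_lit 6) (nat_lit 363) (nat_lit 3) (nat_lit 195) (nat_lit 163) (nat_lit 212)) (PT.lf (nat_lit 27664) (nat_lit 6) (nat_lit 364) (nat_lit 3)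 (nat_lit 196) (nat_lit 163) (nat_lit 211)))) (PT.nd (nat_lit 156) (PT.nd (nat_lit 78) (PT.lf (nat_lit 27740) (nat_lit 6) (nat_lit 365) (nat_lit 3) (nat_lit 197) (nat_lit 163) (nat_lit 210)) (PT.lf (nat_lit 27816) (nat_lit 6) (nat_lit 366) (nat_lit 3) (nat_lit 198) (nat_lit 163) (nat_lit 209))) (PT.nd (nat_lit 78) (PT.lf (nat_lit 27892) (nat_lit 6) (nat_lit 367) (nat_lit 3) (nat_lit 199) (nat_lit 163) (nat_lit 208)) (PT.lf (nat_lit 27968) (nat_lit 6) (nat_lit 368) (nat_lit 3) (nat_lit 200) (nat_lit 163) (nat_lit 207))))) (PT.nd (nat_lit 312) (PT.nd (nat_lit 156) (PT.nd (nat_lit 78) (PT.lf (nat_lit 28044) (nat_lit 6) (nat_lit 369) (nat_lit 3) (nat_lit 201) (nat_lit 163) (nat_lit 206)) (PT.lf (nat_lit 28120) (nat_lit 6) (nat_lit 370) (nat_lit 3) (nat_lit 202) (nat_lit 163) (nat_lit 205))) (PT.nd (nat_lit 78) (PT.lf (nat_lit 28196) (nat_lit 6) (nat_lit 371) (nat_lit 3) (nat_lit 203) (nat_lit 163) (nat_lit 204)) (PT.lf (nat_lit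 28196) (nat_lit 6) (nat_lit 371) (nat_lit 1) (nat_lit 204) (nat_lit 163) (nat_lit 203)))) (PT.nd (nat_lit 156) (PT.nd (nat_lit 78) (PT.lf (nat_lit 28120) (nat_lit 6) (nat_lit 370) (nat_lit 1) (nat_lit 205) (nat_lit 163) (nat_lit 202)) (PT.lf (nat_lit 28044) (nat_lit 6) (nat_lit 369) (nat_lit 1) (nat_lit 206) (nat_lit 163) (nat_lit 201))) (PT.nd (nat_lit 78) (PT.lf (nat_lit 27968) (nat_lit 6) (nat_lit 368) (nat_lit 1) (nat_lit 207) (nat_lit 163) (nat_lit 200)) (PT.lf (nat_lit 27892) (nat_lit 6) (nat_lit 367) (nat_lit 1) (nat_lit 208) (nat_lit 163) (nat_lit 199))))))))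
noncomputable def pc11 : PT := (PT.nd (nat_lit 117468) (PT.nd (nat_lit 58734) (PT.nd (nat_lit 58110) (PT.nd (nat_lit 234) (PT.nd (nat_lit 78) (PT.lf (nat_lit 27816) (nat_lit 6) (nat_lit 366) (nat_lit 1) (nat_lit 209) (nat_lit 163) (nat_lit 198)) (PT.nd (nat_lit 78) (PT.lf (nat_lit 27740) (nat_lit 6) (nat_lit 365) (nat_lit 1) (nat_lit 210) (nat_lit 163) (nat_lit 197)) (PT.lf (nat_lit 27664) (nat_lit 6) (nat_lit 364) (nat_lit 1) (nat_lit 211) (nat_lit 163) (nat_lit 196)))) (PT.nd (nat_lit 156) (PT.nd (nat_lit 78) (PT.lf (nat_lit 27588) (nat_lit 6) (nat_lit 363) (nat_lit 1) (nat_lit 212) (nat_lit 163) (nat_lit 195)) (PT.lf (nat_lit 27512) (nat_lit 6) (nat_lit 362) (nat_lit 1) (nat_lit 213) (nat_lit 163) (nat_lit 194))) (PT.nd (nat_lit 57642) (PT.lf (nat_lit 27436) (nat_lit 6) (nat_lit 361) (nat_lit 1) (nat_lit 214) (nat_lit 163) (nat_lit 193)) (PT.lf (nat_lit 28272) (nat_lit 6) (nat_lit 372) (nat_lit 3) (nat_lit 192) (nat_lit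 164) (nat_lit 214))))) (PT.nd (nat_lit 312) (PT.nd (nat_lit 156) (PT.nd (nat_lit 78) (PT.lf (nat_lit 28348) (nat_lit 6) (nat_lit 373) (nat_lit 3) (nat_lit 193) (nat_lit 164) (nat_lit 213)) (PT.lf (nat_lit 28424) (nat_lit 6) (nat_lit 374) (nat_lit 3) (nat_lit 194) (nat_lit 164) (nat_lit 212))) (PT.nd (nat_lit 78) (PT.lf (nat_lit 28500) (nat_lit 6) (nat_lit 375) (nat_lit 3) (nat_lit 195) (nat_lit 164) (nat_lit 211)) (PT.lf (nat_lit 28576) (nat_lit 6) (nat_lit 376) (nat_lit 3) (nat_lit 196) (nat_lit 164) (nat_lit 210)))) (PT.nd (nat_lit 156) (PT.nd (nat_lit 78) (PT.lf (nat_lit 28652) (nat_lit 6) (nat_lit 377) (nat_lit 3) (nat_lit 197) (nat_lit 164) (nat_lit 209)) (PT.lf (nat_lit 28728) (nat_lit 6) (nat_lit 378) (nat_lit 3) (nat_lit 198) (nat_lit 164) (nat_lit 208))) (PT.nd (nat_lit 78) (PT.lf (nat_lit 28804) (nat_lit 6) (nat_lit 379) (nat_lit 3) (nat_lit 199) (nat_lit 164) (nat_lit 207)) (PT.lf (nat_lit 28880) (nat_lit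 6) (nat_lit 380) (nat_lit 3) (nat_lit 200) (nat_lit 164) (nat_lit 206)))))) (PT.nd (nat_lit 624) (PT.nd (nat_lit 312) (PT.nd (nat_lit 156) (PT.nd (nat_lit 78) (PT.lf (nat_lit 28956) (nat_lit 6) (nat_lit 381) (nat_lit 3) (nat_lit 201) (nat_lit 164) (nat_lit 205)) (PT.lf (nat_lit 29032) (nat_lit 6) (nat_lit 382) (nat_lit 3) (nat_lit 202) (nat_lit 164) (nat_lit 204))) (PT.nd (nat_lit 78) (PT.lf (nat_lit 29108) (nat_lit 3) (nat_lit 383) (nat_lit 1) (nat_lit 203) (nat_lit 164) (nat_lit 203)) (PT.lf (nat_lit 29032) (nat_lit 6) (nat_lit 382) (nat_lit 1) (nat_lit 204) (nat_lit 164) (nat_lit 202)))) (PT.nd (nat_lit 156) (PT.nd (nat_lit 78) (PT.lf (nat_lit 28956) (nat_lit 6) (nat_lit 381) (nat_lit 1) (nat_lit 205) (nat_lit 164) (nat_lit 201)) (PT.lf (nat_lit 28880) (nat_lit 6) (nat_lit 380) (nat_lit 1) (nat_lit 206) (nat_lit 164) (nat_lit 200))) (PT.nd (nat_lit 78) (PT.lf (nat_lit 28804) (nat_lit 6) (nat_lit 379) (nat_lit 1) (nat_lit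 207) (nat_lit 164) (nat_lit 199)) (PT.lf (nat_lit 28728) (nat_lit 6) (nat_lit 378) (nat_lit 1) (nat_lit 208) (nat_lit 164) (nat_lit 198))))) (PT.nd (nat_lit 312) (PT.nd (nat_lit 156) (PT.nd (nat_lit 78) (PT.lf (nat_lit 28652) (nat_lit 6) (nat_lit 377) (nat_lit 1) (nat_lit 209) (nat_lit 164) (nat_lit 197)) (PT.lf (nat_lit 28576) (nat_lit 6) (nat_lit 376) (nat_lit 1) (nat_lit 210) (nat_lit 164) (nat_lit 196))) (PT.nd (nat_lit 78) (PT.lf (nat_lit 28500) (nat_lit 6) (nat_lit 375) (nat_lit 1) (nat_lit 211) (nat_lit 164) (nat_lit 195)) (PT.lf (nat_lit 28424) (nat_lit 6) (nat_lit 374) (nat_lit 1) (nat_lit 212) (nat_lit 164) (nat_lit 194)))) (PT.nd (nat_lit 57642) (PT.nd (nat_lit 78) (PT.lf (nat_lit 28348) (nat_lit 6) (nat_lit 373) (nat_lit 1) (nat_lit 213) (nat_lit 164) (nat_lit 193)) (PT.lf (nat_lit 28272) (nat_lit 6) (nat_lit 372) (nat_lit 1) (nat_lit 214) (nat_lit 164) (nat_lit 192))) (PT.nd (nat_lit 78) (PT.lf (nat_lit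 29184) (nat_lit 6) (nat_lit 384) (nat_lit 3) (nat_lit 191) (nat_lit 165) (nat_lit 214)) (PT.lf (nat_lit 29260) (nat_lit 6) (nat_lit 385) (nat_lit 3) (nat_lit 192) (nat_lit 165) (nat_lit 213))))))) (PT.nd (nat_lit 1170) (PT.nd (nat_lit 546) (PT.nd (nat_lit 234) (PT.nd (nat_lit 78) (PT.lf (nat_lit 29336) (nat_lit 6) (nat_lit 386) (nat_lit 3) (nat_lit 193) (nat_lit 165) (nat_lit 212)) (PT.nd (nat_lit 78) (PT.lf (nat_lit 29412) (nat_lit 6) (nat_lit 387) (nat_lit 3) (nat_lit 194) (nat_lit 165) (nat_lit 211)) (PT.lf (nat_lit 29488) (nat_lit 6) (nat_lit 388) (nat_lit 3) (nat_lit 195) (nat_lit 165) (nat_lit 210)))) (PT.nd (nat_lit 156) (PT.nd (nat_lit 78) (PT.lf (nat_lit 29564) (nat_lit 6) (nat_lit 389) (nat_lit 3) (nat_lit 196) (nat_lit 165) (nat_lit 209)) (PT.lf (nat_lit 29640) (nat_lit 6) (nat_lit 390) (nat_lit 3) (nat_lit 197) (nat_lit 165) (nat_lit 208))) (PT.nd (nat_lit 78) (PT.lf (nat_lit 29716) (nat_lit 6) (nat_lit 391)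 (nat_lit 3) (nat_lit 198) (nat_lit 165) (nat_lit 207)) (PT.lf (nat_lit 29792) (nat_lit 6) (nat_lit 392) (nat_lit 3) (nat_lit 199) (nat_lit 165) (nat_lit 206))))) (PT.nd (nat_lit 312) (PT.nd (nat_lit 156) (PT.nd (nat_lit 78) (PT.lf (nat_lit 29868) (nat_lit 6) (nat_lit 393) (nat_lit 3) (nat_lit 200) (nat_lit 165) (nat_lit 205)) (PT.lf (nat_lit 29944) (nat_lit 6) (nat_lit 394) (nat_lit 3) (nat_lit 201) (nat_lit 165) (nat_lit 204))) (PT.nd (nat_lit 78) (PT.lf (nat_lit 30020) (nat_lit 6) (nat_lit 395) (nat_lit 3) (nat_lit 202) (nat_lit 165) (nat_lit 203)) (PT.lf (nat_lit 30020) (nat_lit 6) (nat_lit 395) (nat_lit 1) (nat_lit 203) (nat_lit 165) (nat_lit 202)))) (PT.nd (nat_lit 156) (PT.nd (nat_lit 78) (PT.lf (nat_lit 29944) (nat_lit 6) (nat_lit 394) (nat_lit 1) (nat_lit 204) (nat_lit 165) (nat_lit 201)) (PT.lf (nat_lit 29868) (nat_lit 6) (nat_lit 393) (nat_lit 1) (nat_lit 205) (nat_lit 165) (nat_lit 200))) (PT.nd (nat_lit 78)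 (PT.lf (nat_lit 29792) (nat_lit 6) (nat_lit 392) (nat_lit 1) (nat_lit 206) (nat_lit 165) (nat_lit 199)) (PT.lf (nat_lit 29716) (nat_lit 6) (nat_lit 391) (nat_lit 1) (nat_lit 207) (nat_lit 165) (nat_lit 198)))))) (PT.nd (nat_lit 58032) (PT.nd (nat_lit 312) (PT.nd (nat_lit 156) (PT.nd (nat_lit 78) (PT.lf (nat_lit 29640) (nat_lit 6) (nat_lit 390) (nat_lit 1) (nat_lit 208) (nat_lit 165) (nat_lit 197)) (PT.lf (nat_lit 29564) (nat_lit 6) (nat_lit 389) (nat_lit 1) (nat_lit 209) (nat_lit 165) (nat_lit 196))) (PT.nd (nat_lit 78) (PT.lf (nat_lit 29488) (nat_lit 6) (nat_lit 388) (nat_lit 1) (nat_lit 210) (nat_lit 165) (nat_lit 195)) (PT.lf (nat_lit 29412) (nat_lit 6) (nat_lit 387) (nat_lit 1) (nat_lit 211) (nat_lit 165) (nat_lit 194)))) (PT.nd (nat_lit 156) (PT.nd (nat_lit 78) (PT.lf (nat_lit 29336) (nat_lit 6) (nat_lit 386) (nat_lit 1) (nat_lit 212) (nat_lit 165) (nat_lit 193)) (PT.lf (nat_lit 29260) (nat_lit 6) (nat_lit 385)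 (nat_lit 1) (nat_lit 213) (nat_lit 165) (nat_lit 192))) (PT.nd (nat_lit 57486) (PT.lf (nat_lit 29184) (nat_lit 6) (nat_lit 384) (nat_lit 1) (nat_lit 214) (nat_lit 165) (nat_lit 191)) (PT.lf (nat_lit 30324) (nat_lit 6) (nat_lit 399) (nat_lit 3) (nat_lit 190) (nat_lit 166) (nat_lit 214))))) (PT.nd (nat_lit 312) (PT.nd (nat_lit 156) (PT.nd (nat_lit 78) (PT.lf (nat_lit 30400) (nat_lit 6) (nat_lit 400) (nat_lit 3) (nat_lit 191) (nat_lit 166) (nat_lit 213)) (PT.lf (nat_lit 30476) (nat_lit 6) (nat_lit 401) (nat_lit 3) (nat_lit 192) (nat_lit 166) (nat_lit 212))) (PT.nd (nat_lit 78) (PT.lf (nat_lit 30552) (nat_lit 6) (nat_lit 402) (nat_lit 3) (nat_lit 193) (nat_lit 166) (nat_lit 211)) (PT.lf (nat_lit 30628) (nat_lit 6) (nat_lit 403) (nat_lit 3) (nat_lit 194) (nat_lit 166) (nat_lit 210)))) (PT.nd (nat_lit 156) (PT.nd (nat_lit 78) (PT.lf (nat_lit 30704) (nat_lit 6) (nat_lit 404) (nat_lit 3) (nat_lit 195) (nat_lit 166) (nat_lit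 209)) (PT.lf (nat_lit 30780) (nat_lit 6) (nat_lit 405) (nat_lit 3) (nat_lit 196) (nat_lit 166) (nat_lit 208))) (PT.nd (nat_lit 78) (PT.lf (nat_lit 30856) (nat_lit 6) (nat_lit 406) (nat_lit 3) (nat_lit 197) (nat_lit 166) (nat_lit 207)) (PT.lf (nat_lit 30932) (nat_lit 6) (nat_lit 407) (nat_lit 3) (nat_lit 198) (nat_lit 166) (nat_lit 206))))))))
noncomputable def pc12 : PT := (PT.nd (nat_lit 59670) (PT.nd (nat_lit 1170) (PT.nd (nat_lit 546) (PT.nd (nat_lit 234) (PT.nd (nat_lit 78) (PT.lf (nat_lit 31008) (nat_lit 6) (nat_lit 408) (nat_lit 3) (nat_lit 199) (nat_lit 166) (nat_lit 205)) (PT.nd (nat_lit 78) (PT.lf (nat_lit 31084) (nat_lit 6) (nat_lit 409) (nat_lit 3) (nat_lit 200) (nat_lit 166) (nat_lit 204)) (PT.lf (nat_lit 31160) (nat_lit 6) (nat_lit 410) (nat_lit 3) (nat_lit 201) (nat_lit 166) (nat_lit 203)))) (PT.nd (nat_lit 156) (PT.nd (nat_lit 78) (PT.lf (nat_lit 31236) (nat_lit 3) (nat_lit 411) (nat_lit 1) (nat_lit 202)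 (nat_lit 166) (nat_lit 202)) (PT.lf (nat_lit 31160) (nat_lit 6) (nat_lit 410) (nat_lit 1) (nat_lit 203) (nat_lit 166) (nat_lit 201))) (PT.nd (nat_lit 78) (PT.lf (nat_lit 31084) (nat_lit 6) (nat_lit 409) (nat_lit 1) (nat_lit 204) (nat_lit 166) (nat_lit 200)) (PT.lf (nat_lit 31008) (nat_lit 6) (nat_lit 408) (nat_lit 1) (nat_lit 205) (nat_lit 166) (nat_lit 199))))) (PT.nd (nat_lit 312) (PT.nd (nat_lit 156) (PT.nd (nat_lit 78) (PT.lf (nat_lit 30932) (nat_lit 6) (nat_lit 407) (nat_lit 1) (nat_lit 206) (nat_lit 166) (nat_lit 198)) (PT.lf (nat_lit 30856) (nat_lit 6) (nat_lit 406) (nat_lit 1) (nat_lit 207) (nat_lit 166) (nat_lit 197))) (PT.nd (nat_lit 78) (PT.lf (nat_lit 30780) (nat_lit 6) (nat_lit 405) (nat_lit 1) (nat_lit 208) (nat_lit 166) (nat_lit 196)) (PT.lf (nat_lit 30704) (nat_lit 6) (nat_lit 404) (nat_lit 1) (nat_lit 209) (nat_lit 166) (nat_lit 195)))) (PT.nd (nat_lit 156) (PT.nd (nat_lit 78) (PT.lf (nat_lit 30628)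 (nat_lit 6) (nat_lit 403) (nat_lit 1) (nat_lit 210) (nat_lit 166) (nat_lit 194)) (PT.lf (nat_lit 30552) (nat_lit 6) (nat_lit 402) (nat_lit 1) (nat_lit 211) (nat_lit 166) (nat_lit 193))) (PT.nd (nat_lit 78) (PT.lf (nat_lit 30476) (nat_lit 6) (nat_lit 401) (nat_lit 1) (nat_lit 212) (nat_lit 166) (nat_lit 192)) (PT.lf (nat_lit 30400) (nat_lit 6) (nat_lit 400) (nat_lit 1) (nat_lit 213) (nat_lit 166) (nat_lit 191)))))) (PT.nd (nat_lit 57876) (PT.nd (nat_lit 57564) (PT.nd (nat_lit 57408) (PT.lf (nat_lit 30324) (nat_lit 6) (nat_lit 399) (nat_lit 1) (nat_lit 214) (nat_lit 166) (nat_lit 190)) (PT.nd (nat_lit 78) (PT.lf (nat_lit 30248) (nat_lit 6) (nat_lit 398) (nat_lit 3) (nat_lit 189) (nat_lit 167) (nat_lit 214)) (PT.lf (nat_lit 32148) (nat_lit 6) (nat_lit 423) (nat_lit 3) (nat_lit 190) (nat_lit 167) (nat_lit 213)))) (PT.nd (nat_lit 156) (PT.nd (nat_lit 78) (PT.lf (nat_lit 32224) (nat_lit 6) (nat_lit 424) (nat_lit 3) (nat_lit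 191) (nat_lit 167) (nat_lit 212)) (PT.lf (nat_lit 32300) (nat_lit 6) (nat_lit 425) (nat_lit 3) (nat_lit 192) (nat_lit 167) (nat_lit 211))) (PT.nd (nat_lit 78) (PT.lf (nat_lit 32376) (nat_lit 6) (nat_lit 426) (nat_lit 3) (nat_lit 193) (nat_lit 167) (nat_lit 210)) (PT.lf (nat_lit 32452) (nat_lit 6) (nat_lit 427) (nat_lit 3) (nat_lit 194) (nat_lit 167) (nat_lit 209))))) (PT.nd (nat_lit 312) (PT.nd (nat_lit 156) (PT.nd (nat_lit 78) (PT.lf (nat_lit 32528) (nat_lit 6) (nat_lit 428) (nat_lit 3) (nat_lit 195) (nat_lit 167) (nat_lit 208)) (PT.lf (nat_lit 32604) (nat_lit 6) (nat_lit 429) (nat_lit 3) (nat_lit 196) (nat_lit 167) (nat_lit 207))) (PT.nd (nat_lit 78) (PT.lf (nat_lit 32680) (nat_lit 6) (nat_lit 430) (nat_lit 3) (nat_lit 197) (nat_lit 167) (nat_lit 206)) (PT.lf (nat_lit 32756) (nat_lit 6) (nat_lit 431) (nat_lit 3) (nat_lit 198) (nat_lit 167) (nat_lit 205)))) (PT.nd (nat_lit 156) (PT.nd (nat_lit 78) (PT.lf (nat_lit 32832)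 (nat_lit 6) (nat_lit 432) (nat_lit 3) (nat_lit 199) (nat_lit 167) (nat_lit 204)) (PT.lf (nat_lit 32908) (nat_lit 6) (nat_lit 433) (nat_lit 3) (nat_lit 200) (nat_lit 167) (nat_lit 203))) (PT.nd (nat_lit 78) (PT.lf (nat_lit 32984) (nat_lit 6) (nat_lit 434) (nat_lit 3) (nat_lit 201) (nat_lit 167) (nat_lit 202)) (PT.lf (nat_lit 32984) (nat_lit 6) (nat_lit 434) (nat_lit 1) (nat_lit 202) (nat_lit 167) (nat_lit 201))))))) (PT.nd (nat_lit 58422) (PT.nd (nat_lit 546) (PT.nd (nat_lit 234) (PT.nd (nat_lit 78) (PT.lf (nat_lit 32908) (nat_lit 6) (nat_lit 433) (nat_lit 1) (nat_lit 203) (nat_lit 167) (nat_lit 200)) (PT.nd (nat_lit 78) (PT.lf (nat_lit 32832) (nat_lit 6) (nat_lit 432) (nat_lit 1) (nat_lit 204) (nat_lit 167) (nat_lit 199)) (PT.lf (nat_lit 32756) (nat_lit 6) (nat_lit 431) (nat_lit 1) (nat_lit 205) (nat_lit 167) (nat_lit 198)))) (PT.nd (nat_lit 156) (PT.nd (nat_lit 78) (PT.lf (nat_lit 32680) (nat_lit 6) (nat_lit 430) (nat_lit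 1) (nat_lit 206) (nat_lit 167) (nat_lit 197)) (PT.lf (nat_lit 32604) (nat_lit 6) (nat_lit 429) (nat_lit 1) (nat_lit 207) (nat_lit 167) (nat_lit 196))) (PT.nd (nat_lit 78) (PT.lf (nat_lit 32528) (nat_lit 6) (nat_lit 428) (nat_lit 1) (nat_lit 208) (nat_lit 167) (nat_lit 195)) (PT.lf (nat_lit 32452) (nat_lit 6) (nat_lit 427) (nat_lit 1) (nat_lit 209) (nat_lit 167) (nat_lit 194))))) (PT.nd (nat_lit 312) (PT.nd (nat_lit 156) (PT.nd (nat_lit 78) (PT.lf (nat_lit 32376) (nat_lit 6) (nat_lit 426) (nat_lit 1) (nat_lit 210) (nat_lit 167) (nat_lit 193)) (PT.lf (nat_lit 32300) (nat_lit 6) (nat_lit 425) (nat_lit 1) (nat_lit 211) (nat_lit 167) (nat_lit 192))) (PT.nd (nat_lit 78) (PT.lf (nat_lit 32224) (nat_lit 6) (nat_lit 424) (nat_lit 1) (nat_lit 212) (nat_lit 167) (nat_lit 191)) (PT.lf (nat_lit 32148) (nat_lit 6) (nat_lit 423) (nat_lit 1) (nat_lit 213) (nat_lit 167) (nat_lit 190)))) (PT.nd (nat_lit 57408) (PT.nd (nat_lit 57330) (PT.lf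 (nat_lit 30248) (nat_lit 6) (nat_lit 398) (nat_lit 1) (nat_lit 214) (nat_lit 167) (nat_lit 189)) (PT.lf (nat_lit 30172) (nat_lit 6) (nat_lit 397) (nat_lit 3) (nat_lit 188) (nat_lit 168) (nat_lit 214))) (PT.nd (nat_lit 78) (PT.lf (nat_lit 32072) (nat_lit 6) (nat_lit 422) (nat_lit 3) (nat_lit 189) (nat_lit 168) (nat_lit 213)) (PT.lf (nat_lit 33896) (nat_lit 6) (nat_lit 446) (nat_lit 3) (nat_lit 190) (nat_lit 168) (nat_lit 212)))))) (PT.nd (nat_lit 624) (PT.nd (nat_lit 312) (PT.nd (nat_lit 156) (PT.nd (nat_lit 78) (PT.lf (nat_lit 33972) (nat_lit 6) (nat_lit 447) (nat_lit 3) (nat_lit 191) (nat_lit 168) (nat_lit 211)) (PT.lf (nat_lit 34048) (nat_lit 6) (nat_lit 448) (nat_lit 3) (nat_lit 192) (nat_lit 168) (nat_lit 210))) (PT.nd (nat_lit 78) (PT.lf (nat_lit 34124) (nat_lit 6) (nat_lit 449) (nat_lit 3) (nat_lit 193) (nat_lit 168) (nat_lit 209)) (PT.lf (nat_lit 34200) (nat_lit 6) (nat_lit 450) (nat_lit 3) (nat_lit 194) (nat_lit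 168) (nat_lit 208)))) (PT.nd (nat_lit 156) (PT.nd (nat_lit 78) (PT.lf (nat_lit 34276) (nat_lit 6) (nat_lit 451) (nat_lit 3) (nat_lit 195) (nat_lit 168) (nat_lit 207)) (PT.lf (nat_lit 34352) (nat_lit 6) (nat_lit 452) (nat_lit 3) (nat_lit 196) (nat_lit 168) (nat_lit 206))) (PT.nd (nat_lit 78) (PT.lf (nat_lit 34428) (nat_lit 6) (nat_lit 453) (nat_lit 3) (nat_lit 197) (nat_lit 168) (nat_lit 205)) (PT.lf (nat_lit 34504) (nat_lit 6) (nat_lit 454) (nat_lit 3) (nat_lit 198) (nat_lit 168) (nat_lit 204))))) (PT.nd (nat_lit 312) (PT.nd (nat_lit 156) (PT.nd (nat_lit 78) (PT.lf (nat_lit 34580) (nat_lit 6) (nat_lit 455) (nat_lit 3) (nat_lit 199) (nat_lit 168) (nat_lit 203)) (PT.lf (nat_lit 34656) (nat_lit 6) (nat_lit 456) (nat_lit 3) (nat_lit 200) (nat_lit 168) (nat_lit 202))) (PT.nd (nat_lit 78) (PT.lf (nat_lit 34732) (nat_lit 3) (nat_lit 457) (nat_lit 1) (nat_lit 201) (nat_lit 168) (nat_lit 201)) (PT.lf (nat_lit 34656) (nat_lit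 6) (nat_lit 456) (nat_lit 1) (nat_lit 202) (nat_lit 168) (nat_lit 200)))) (PT.nd (nat_lit 156) (PT.nd (nat_lit 78) (PT.lf (nat_lit 34580) (nat_lit 6) (nat_lit 455) (nat_lit 1) (nat_lit 203) (nat_lit 168) (nat_lit 199)) (PT.lf (nat_lit 34504) (nat_lit 6) (nat_lit 454) (nat_lit 1) (nat_lit 204) (nat_lit 168) (nat_lit 198))) (PT.nd (nat_lit 78) (PT.lf (nat_lit 34428) (nat_lit 6) (nat_lit 453) (nat_lit 1) (nat_lit 205) (nat_lit 168) (nat_lit 197)) (PT.lf (nat_lit 34352) (nat_lit 6) (nat_lit 452) (nat_lit 1) (nat_lit 206) (nat_lit 168) (nat_lit 196))))))))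
noncomputable def pc13 : PT := (PT.nd (nat_lit 59592) (PT.nd (nat_lit 58344) (PT.nd (nat_lit 546) (PT.nd (nat_lit 234) (PT.nd (nat_lit 78) (PT.lf (nat_lit 34276) (nat_lit 6) (nat_lit 451) (nat_lit 1) (nat_lit 207) (nat_lit 168) (nat_lit 195)) (PT.nd (nat_lit 78) (PT.lf (nat_lit 34200) (nat_lit 6) (nat_lit 450) (nat_lit 1) (nat_lit 208) (nat_lit 168) (nat_lit 194)) (PT.lf (nat_lit 34124) (nat_lit 6) (nat_lit 449) (nat_lit 1) (nat_lit 209) (nat_lit 168) (nat_lit 193)))) (PT.nd (nat_lit 156) (PT.nd (nat_lit 78) (PT.lf (nat_lit 34048) (nat_lit 6) (nat_lit 448) (nat_lit 1) (nat_lit 210) (nat_lit 168) (nat_lit 192)) (PT.lf (nat_lit 33972) (nat_lit 6) (nat_lit 447) (nat_lit 1) (nat_lit 211) (nat_lit 168) (nat_lit 191))) (PT.nd (nat_lit 78) (PT.lf (nat_lit 33896) (nat_lit 6) (nat_lit 446) (nat_lit 1) (nat_lit 212) (nat_lit 168) (nat_lit 190)) (PT.lf (nat_lit 32072) (nat_lit 6) (nat_lit 422) (nat_lit 1) (nat_lit 213) (nat_lit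 168) (nat_lit 189))))) (PT.nd (nat_lit 57486) (PT.nd (nat_lit 57330) (PT.nd (nat_lit 57252) (PT.lf (nat_lit 30172) (nat_lit 6) (nat_lit 397) (nat_lit 1) (nat_lit 214) (nat_lit 168) (nat_lit 188)) (PT.lf (nat_lit 30096) (nat_lit 6) (nat_lit 396) (nat_lit 3) (nat_lit 187) (nat_lit 169) (nat_lit 214))) (PT.nd (nat_lit 78) (PT.lf (nat_lit 31996) (nat_lit 6) (nat_lit 421) (nat_lit 3) (nat_lit 188) (nat_lit 169) (nat_lit 213)) (PT.lf (nat_lit 33820) (nat_lit 6) (nat_lit 445) (nat_lit 3) (nat_lit 189) (nat_lit 169) (nat_lit 212)))) (PT.nd (nat_lit 156) (PT.nd (nat_lit 78) (PT.lf (nat_lit 35568) (nat_lit 6) (nat_lit 468) (nat_lit 3) (nat_lit 190) (nat_lit 169) (nat_lit 211)) (PT.lf (nat_lit 35644) (nat_lit 6) (nat_lit 469) (nat_lit 3) (nat_lit 191) (nat_lit 169) (nat_lit 210))) (PT.nd (nat_lit 78) (PT.lf (nat_lit 35720) (nat_lit 6) (nat_lit 470) (nat_lit 3) (nat_lit 192) (nat_lit 169) (nat_lit 209)) (PT.lf (nat_lit 35796) (nat_lit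 6) (nat_lit 471) (nat_lit 3) (nat_lit 193) (nat_lit 169) (nat_lit 208)))))) (PT.nd (nat_lit 624) (PT.nd (nat_lit 312) (PT.nd (nat_lit 156) (PT.nd (nat_lit 78) (PT.lf (nat_lit 35872) (nat_lit 6) (nat_lit 472) (nat_lit 3) (nat_lit 194) (nat_lit 169) (nat_lit 207)) (PT.lf (nat_lit 35948) (nat_lit 6) (nat_lit 473) (nat_lit 3) (nat_lit 195) (nat_lit 169) (nat_lit 206))) (PT.nd (nat_lit 78) (PT.lf (nat_lit 36024) (nat_lit 6) (nat_lit 474) (nat_lit 3) (nat_lit 196) (nat_lit 169) (nat_lit 205)) (PT.lf (nat_lit 36100) (nat_lit 6) (nat_lit 475) (nat_lit 3) (nat_lit 197) (nat_lit 169) (nat_lit 204)))) (PT.nd (nat_lit 156) (PT.nd (nat_lit 78) (PT.lf (nat_lit 36176) (nat_lit 6) (nat_lit 476) (nat_lit 3) (nat_lit 198) (nat_lit 169) (nat_lit 203)) (PT.lf (nat_lit 36252) (nat_lit 6) (nat_lit 477) (nat_lit 3) (nat_lit 199) (nat_lit 169) (nat_lit 202))) (PT.nd (nat_lit 78) (PT.lf (nat_lit 36328) (nat_lit 6) (nat_lit 478) (nat_lit 3) (nat_lit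 200) (nat_lit 169) (nat_lit 201)) (PT.lf (nat_lit 36328) (nat_lit 6) (nat_lit 478) (nat_lit 1) (nat_lit 201) (nat_lit 169) (nat_lit 200))))) (PT.nd (nat_lit 312) (PT.nd (nat_lit 156) (PT.nd (nat_lit 78) (PT.lf (nat_lit 36252) (nat_lit 6) (nat_lit 477) (nat_lit 1) (nat_lit 202) (nat_lit 169) (nat_lit 199)) (PT.lf (nat_lit 36176) (nat_lit 6) (nat_lit 476) (nat_lit 1) (nat_lit 203) (nat_lit 169) (nat_lit 198))) (PT.nd (nat_lit 78) (PT.lf (nat_lit 36100) (nat_lit 6) (nat_lit 475) (nat_lit 1) (nat_lit 204) (nat_lit 169) (nat_lit 197)) (PT.lf (nat_lit 36024) (nat_lit 6) (nat_lit 474) (nat_lit 1) (nat_lit 205) (nat_lit 169) (nat_lit 196)))) (PT.nd (nat_lit 156) (PT.nd (nat_lit 78) (PT.lf (nat_lit 35948) (nat_lit 6) (nat_lit 473) (nat_lit 1) (nat_lit 206) (nat_lit 169) (nat_lit 195)) (PT.lf (nat_lit 35872) (nat_lit 6) (nat_lit 472) (nat_lit 1) (nat_lit 207) (nat_lit 169) (nat_lit 194))) (PT.nd (nat_lit 78) (PT.lf (nat_lit 35796)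 (nat_lit 6) (nat_lit 471) (nat_lit 1) (nat_lit 208) (nat_lit 169) (nat_lit 193)) (PT.lf (nat_lit 35720) (nat_lit 6) (nat_lit 470) (nat_lit 1) (nat_lit 209) (nat_lit 169) (nat_lit 192))))))) (PT.nd (nat_lit 58344) (PT.nd (nat_lit 57720) (PT.nd (nat_lit 234) (PT.nd (nat_lit 78) (PT.lf (nat_lit 35644) (nat_lit 6) (nat_lit 469) (nat_lit 1) (nat_lit 210) (nat_lit 169) (nat_lit 191)) (PT.nd (nat_lit 78) (PT.lf (nat_lit 35568) (nat_lit 6) (nat_lit 468) (nat_lit 1) (nat_lit 211) (nat_lit 169) (nat_lit 190)) (PT.lf (nat_lit 33820) (nat_lit 6) (nat_lit 445) (nat_lit 1) (nat_lit 212) (nat_lit 169) (nat_lit 189)))) (PT.nd (nat_lit 57330) (PT.nd (nat_lit 78) (PT.lf (nat_lit 31996) (nat_lit 6) (nat_lit 421) (nat_lit 1) (nat_lit 213) (nat_lit 169) (nat_lit 188)) (PT.lf (nat_lit 30096) (nat_lit 6) (nat_lit 396) (nat_lit 1) (nat_lit 214) (nat_lit 169) (nat_lit 187))) (PT.nd (nat_lit 78) (PT.lf (nat_lit 31920) (nat_lit 6) (nat_lit 420)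 (nat_lit 3) (nat_lit 187) (nat_lit 170) (nat_lit 213)) (PT.lf (nat_lit 33744) (nat_lit 6) (nat_lit 444) (nat_lit 3) (nat_lit 188) (nat_lit 170) (nat_lit 212))))) (PT.nd (nat_lit 312) (PT.nd (nat_lit 156) (PT.nd (nat_lit 78) (PT.lf (nat_lit 35492) (nat_lit 6) (nat_lit 467) (nat_lit 3) (nat_lit 189) (nat_lit 170) (nat_lit 211)) (PT.lf (nat_lit 37164) (nat_lit 6) (nat_lit 489) (nat_lit 3) (nat_lit 190) (nat_lit 170) (nat_lit 210))) (PT.nd (nat_lit 78) (PT.lf (nat_lit 37240) (nat_lit 6) (nat_lit 490) (nat_lit 3) (nat_lit 191) (nat_lit 170) (nat_lit 209)) (PT.lf (nat_lit 37316) (nat_lit 6) (nat_lit 491) (nat_lit 3) (nat_lit 192) (nat_lit 170) (nat_lit 208)))) (PT.nd (nat_lit 156) (PT.nd (nat_lit 78) (PT.lf (nat_lit 37392) (nat_lit 6) (nat_lit 492) (nat_lit 3) (nat_lit 193) (nat_lit 170) (nat_lit 207)) (PT.lf (nat_lit 37468) (nat_lit 6) (nat_lit 493) (nat_lit 3) (nat_lit 194) (nat_lit 170) (nat_lit 206))) (PT.nd (nat_lit 78)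 (PT.lf (nat_lit 37544) (nat_lit 6) (nat_lit 494) (nat_lit 3) (nat_lit 195) (nat_lit 170) (nat_lit 205)) (PT.lf (nat_lit 37620) (nat_lit 6) (nat_lit 495) (nat_lit 3) (nat_lit 196) (nat_lit 170) (nat_lit 204)))))) (PT.nd (nat_lit 624) (PT.nd (nat_lit 312) (PT.nd (nat_lit 156) (PT.nd (nat_lit 78) (PT.lf (nat_lit 37696) (nat_lit 6) (nat_lit 496) (nat_lit 3) (nat_lit 197) (nat_lit 170) (nat_lit 203)) (PT.lf (nat_lit 37772) (nat_lit 6) (nat_lit 497) (nat_lit 3) (nat_lit 198) (nat_lit 170) (nat_lit 202))) (PT.nd (nat_lit 78) (PT.lf (nat_lit 37848) (nat_lit 6) (nat_lit 498) (nat_lit 3) (nat_lit 199) (nat_lit 170) (nat_lit 201)) (PT.lf (nat_lit 37924) (nat_lit 3) (nat_lit 499) (nat_lit 1) (nat_lit 200) (nat_lit 170) (nat_lit 200)))) (PT.nd (nat_lit 156) (PT.nd (nat_lit 78) (PT.lf (nat_lit 37848) (nat_lit 6) (nat_lit 498) (nat_lit 1) (nat_lit 201) (nat_lit 170) (nat_lit 199)) (PT.lf (nat_lit 37772) (nat_lit 6) (nat_lit 497) (nat_lit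 1) (nat_lit 202) (nat_lit 170) (nat_lit 198))) (PT.nd (nat_lit 78) (PT.lf (nat_lit 37696) (nat_lit 6) (nat_lit 496) (nat_lit 1) (nat_lit 203) (nat_lit 170) (nat_lit 197)) (PT.lf (nat_lit 37620) (nat_lit 6) (nat_lit 495) (nat_lit 1) (nat_lit 204) (nat_lit 170) (nat_lit 196))))) (PT.nd (nat_lit 312) (PT.nd (nat_lit 156) (PT.nd (nat_lit 78) (PT.lf (nat_lit 37544) (nat_lit 6) (nat_lit 494) (nat_lit 1) (nat_lit 205) (nat_lit 170) (nat_lit 195)) (PT.lf (nat_lit 37468) (nat_lit 6) (nat_lit 493) (nat_lit 1) (nat_lit 206) (nat_lit 170) (nat_lit 194))) (PT.nd (nat_lit 78) (PT.lf (nat_lit 37392) (nat_lit 6) (nat_lit 492) (nat_lit 1) (nat_lit 207) (nat_lit 170) (nat_lit 193)) (PT.lf (nat_lit 37316) (nat_lit 6) (nat_lit 491) (nat_lit 1) (nat_lit 208) (nat_lit 170) (nat_lit 192)))) (PT.nd (nat_lit 156) (PT.nd (nat_lit 78) (PT.lf (nat_lit 37240) (nat_lit 6) (nat_lit 490) (nat_lit 1) (nat_lit 209) (nat_lit 170) (nat_lit 191)) (PT.lf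 (nat_lit 37164) (nat_lit 6) (nat_lit 489) (nat_lit 1) (nat_lit 210) (nat_lit 170) (nat_lit 190))) (PT.nd (nat_lit 78) (PT.lf (nat_lit 35492) (nat_lit 6) (nat_lit 467) (nat_lit 1) (nat_lit 211) (nat_lit 170) (nat_lit 189)) (PT.lf (nat_lit 33744) (nat_lit 6) (nat_lit 444) (nat_lit 1) (nat_lit 212) (nat_lit 170) (nat_lit 188))))))))
noncomputable def pc14 : PT := (PT.nd (nat_lit 116610) (PT.nd (nat_lit 58344) (PT.nd (nat_lit 57720) (PT.nd (nat_lit 57408) (PT.nd (nat_lit 57252) (PT.lf (nat_lit 31920) (nat_lit 6) (nat_lit 420) (nat_lit 1) (nat_lit 213) (nat_lit 170) (nat_lit 187)) (PT.nd (nat_lit 78) (PT.lf (nat_lit 31844) (nat_lit 6) (nat_lit 419) (nat_lit 3) (nat_lit 186) (nat_lit 171) (nat_lit 213)) (PT.lf (nat_lit 33668) (nat_lit 6) (nat_lit 443) (nat_lit 3) (nat_lit 187) (nat_lit 171) (nat_lit 212)))) (PT.nd (nat_lit 156) (PT.nd (nat_lit 78) (PT.lf (nat_lit 35416) (nat_lit 6) (nat_lit 466) (nat_lit 3) (nat_lit 188) (nat_lit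 171) (nat_lit 211)) (PT.lf (nat_lit 37088) (nat_lit 6) (nat_lit 488) (nat_lit 3) (nat_lit 189) (nat_lit 171) (nat_lit 210))) (PT.nd (nat_lit 78) (PT.lf (nat_lit 38684) (nat_lit 6) (nat_lit 509) (nat_lit 3) (nat_lit 190) (nat_lit 171) (nat_lit 209)) (PT.lf (nat_lit 38760) (nat_lit 6) (nat_lit 510) (nat_lit 3) (nat_lit 191) (nat_lit 171) (nat_lit 208))))) (PT.nd (nat_lit 312) (PT.nd (nat_lit 156) (PT.nd (nat_lit 78) (PT.lf (nat_lit 38836) (nat_lit 6) (nat_lit 511) (nat_lit 3) (nat_lit 192) (nat_lit 171) (nat_lit 207)) (PT.lf (nat_lit 38912) (nat_lit 6) (nat_lit 512) (nat_lit 3) (nat_lit 193) (nat_lit 171) (nat_lit 206))) (PT.nd (nat_lit 78) (PT.lf (nat_lit 38988) (nat_lit 6) (nat_lit 513) (nat_lit 3) (nat_lit 194) (nat_lit 171) (nat_lit 205)) (PT.lf (nat_lit 39064) (nat_lit 6) (nat_lit 514) (nat_lit 3) (nat_lit 195) (nat_lit 171) (nat_lit 204)))) (PT.nd (nat_lit 156) (PT.nd (nat_lit 78) (PT.lf (nat_lit 39140) (nat_lit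 6) (nat_lit 515) (nat_lit 3) (nat_lit 196) (nat_lit 171) (nat_lit 203)) (PT.lf (nat_lit 39216) (nat_lit 6) (nat_lit 516) (nat_lit 3) (nat_lit 197) (nat_lit 171) (nat_lit 202))) (PT.nd (nat_lit 78) (PT.lf (nat_lit 39292) (nat_lit 6) (nat_lit 517) (nat_lit 3) (nat_lit 198) (nat_lit 171) (nat_lit 201)) (PT.lf (nat_lit 39368) (nat_lit 6) (nat_lit 518) (nat_lit 3) (nat_lit 199) (nat_lit 171) (nat_lit 200)))))) (PT.nd (nat_lit 546) (PT.nd (nat_lit 234) (PT.nd (nat_lit 78) (PT.lf (nat_lit 39368) (nat_lit 6) (nat_lit 518) (nat_lit 1) (nat_lit 200) (nat_lit 171) (nat_lit 199)) (PT.nd (nat_lit 78) (PT.lf (nat_lit 39292) (nat_lit 6) (nat_lit 517) (nat_lit 1) (nat_lit 201) (nat_lit 171) (nat_lit 198)) (PT.lf (nat_lit 39216) (nat_lit 6) (nat_lit 516) (nat_lit 1) (nat_lit 202) (nat_lit 171) (nat_lit 197)))) (PT.nd (nat_lit 156) (PT.nd (nat_lit 78) (PT.lf (nat_lit 39140) (nat_lit 6) (nat_lit 515) (nat_lit 1) (nat_lit 203) (nat_lit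 171) (nat_lit 196)) (PT.lf (nat_lit 39064) (nat_lit 6) (nat_lit 514) (nat_lit 1) (nat_lit 204) (nat_lit 171) (nat_lit 195))) (PT.nd (nat_lit 78) (PT.lf (nat_lit 38988) (nat_lit 6) (nat_lit 513) (nat_lit 1) (nat_lit 205) (nat_lit 171) (nat_lit 194)) (PT.lf (nat_lit 38912) (nat_lit 6) (nat_lit 512) (nat_lit 1) (nat_lit 206) (nat_lit 171) (nat_lit 193))))) (PT.nd (nat_lit 312) (PT.nd (nat_lit 156) (PT.nd (nat_lit 78) (PT.lf (nat_lit 38836) (nat_lit 6) (nat_lit 511) (nat_lit 1) (nat_lit 207) (nat_lit 171) (nat_lit 192)) (PT.lf (nat_lit 38760) (nat_lit 6) (nat_lit 510) (nat_lit 1) (nat_lit 208) (nat_lit 171) (nat_lit 191))) (PT.nd (nat_lit 78) (PT.lf (nat_lit 38684) (nat_lit 6) (nat_lit 509) (nat_lit 1) (nat_lit 209) (nat_lit 171) (nat_lit 190)) (PT.lf (nat_lit 37088) (nat_lit 6) (nat_lit 488) (nat_lit 1) (nat_lit 210) (nat_lit 171) (nat_lit 189)))) (PT.nd (nat_lit 156) (PT.nd (nat_lit 78) (PT.lf (nat_lit 35416) (nat_lit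 6) (nat_lit 466) (nat_lit 1) (nat_lit 211) (nat_lit 171) (nat_lit 188)) (PT.lf (nat_lit 33668) (nat_lit 6) (nat_lit 443) (nat_lit 1) (nat_lit 212) (nat_lit 171) (nat_lit 187))) (PT.nd (nat_lit 57174) (PT.lf (nat_lit 31844) (nat_lit 6) (nat_lit 419) (nat_lit 1) (nat_lit 213) (nat_lit 171) (nat_lit 186)) (PT.lf (nat_lit 31768) (nat_lit 6) (nat_lit 418) (nat_lit 3) (nat_lit 185) (nat_lit 172) (nat_lit 213))))))) (PT.nd (nat_lit 1170) (PT.nd (nat_lit 546) (PT.nd (nat_lit 234) (PT.nd (nat_lit 78) (PT.lf (nat_lit 33592) (nat_lit 6) (nat_lit 442) (nat_lit 3) (nat_lit 186) (nat_lit 172) (nat_lit 212)) (PT.nd (nat_lit 78) (PT.lf (nat_lit 35340) (nat_lit 6) (nat_lit 465) (nat_lit 3) (nat_lit 187) (nat_lit 172) (nat_lit 211)) (PT.lf (nat_lit 37012) (nat_lit 6) (nat_lit 487) (nat_lit 3) (nat_lit 188) (nat_lit 172) (nat_lit 210)))) (PT.nd (nat_lit 156) (PT.nd (nat_lit 78) (PT.lf (nat_lit 38608) (nat_lit 6) (nat_lit 508) (nat_lit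 3) (nat_lit 189) (nat_lit 172) (nat_lit 209)) (PT.lf (nat_lit 40128) (nat_lit 6) (nat_lit 528) (nat_lit 3) (nat_lit 190) (nat_lit 172) (nat_lit 208))) (PT.nd (nat_lit 78) (PT.lf (nat_lit 40204) (nat_lit 6) (nat_lit 529) (nat_lit 3) (nat_lit 191) (nat_lit 172) (nat_lit 207)) (PT.lf (nat_lit 40280) (nat_lit 6) (nat_lit 530) (nat_lit 3) (nat_lit 192) (nat_lit 172) (nat_lit 206))))) (PT.nd (nat_lit 312) (PT.nd (nat_lit 156) (PT.nd (nat_lit 78) (PT.lf (nat_lit 40356) (nat_lit 6) (nat_lit 531) (nat_lit 3) (nat_lit 193) (nat_lit 172) (nat_lit 205)) (PT.lf (nat_lit 40432) (nat_lit 6) (nat_lit 532) (nat_lit 3) (nat_lit 194) (nat_lit 172) (nat_lit 204))) (PT.nd (nat_lit 78) (PT.lf (nat_lit 40508) (nat_lit 6) (nat_lit 533) (nat_lit 3) (nat_lit 195) (nat_lit 172) (nat_lit 203)) (PT.lf (nat_lit 40584) (nat_lit 6) (nat_lit 534) (nat_lit 3) (nat_lit 196) (nat_lit 172) (nat_lit 202)))) (PT.nd (nat_lit 156) (PT.nd (nat_lit 78) (PT.lf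 (nat_lit 40660) (nat_lit 6) (nat_lit 535) (nat_lit 3) (nat_lit 197) (nat_lit 172) (nat_lit 201)) (PT.lf (nat_lit 40736) (nat_lit 6) (nat_lit 536) (nat_lit 3) (nat_lit 198) (nat_lit 172) (nat_lit 200))) (PT.nd (nat_lit 78) (PT.lf (nat_lit 40812) (nat_lit 3) (nat_lit 537) (nat_lit 1) (nat_lit 199) (nat_lit 172) (nat_lit 199)) (PT.lf (nat_lit 40736) (nat_lit 6) (nat_lit 536) (nat_lit 1) (nat_lit 200) (nat_lit 172) (nat_lit 198)))))) (PT.nd (nat_lit 624) (PT.nd (nat_lit 312) (PT.nd (nat_lit 156) (PT.nd (nat_lit 78) (PT.lf (nat_lit 40660) (nat_lit 6) (nat_lit 535) (nat_lit 1) (nat_lit 201) (nat_lit 172) (nat_lit 197)) (PT.lf (nat_lit 40584) (nat_lit 6) (nat_lit 534) (nat_lit 1) (nat_lit 202) (nat_lit 172) (nat_lit 196))) (PT.nd (nat_lit 78) (PT.lf (nat_lit 40508) (nat_lit 6) (nat_lit 533) (nat_lit 1) (nat_lit 203) (nat_lit 172) (nat_lit 195)) (PT.lf (nat_lit 40432) (nat_lit 6) (nat_lit 532) (nat_lit 1) (nat_lit 204) (nat_lit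 172) (nat_lit 194)))) (PT.nd (nat_lit 156) (PT.nd (nat_lit 78) (PT.lf (nat_lit 40356) (nat_lit 6) (nat_lit 531) (nat_lit 1) (nat_lit 205) (nat_lit 172) (nat_lit 193)) (PT.lf (nat_lit 40280) (nat_lit 6) (nat_lit 530) (nat_lit 1) (nat_lit 206) (nat_lit 172) (nat_lit 192))) (PT.nd (nat_lit 78) (PT.lf (nat_lit 40204) (nat_lit 6) (nat_lit 529) (nat_lit 1) (nat_lit 207) (nat_lit 172) (nat_lit 191)) (PT.lf (nat_lit 40128) (nat_lit 6) (nat_lit 528) (nat_lit 1) (nat_lit 208) (nat_lit 172) (nat_lit 190))))) (PT.nd (nat_lit 312) (PT.nd (nat_lit 156) (PT.nd (nat_lit 78) (PT.lf (nat_lit 38608) (nat_lit 6) (nat_lit 508) (nat_lit 1) (nat_lit 209) (nat_lit 172) (nat_lit 189)) (PT.lf (nat_lit 37012) (nat_lit 6) (nat_lit 487) (nat_lit 1) (nat_lit 210) (nat_lit 172) (nat_lit 188))) (PT.nd (nat_lit 78) (PT.lf (nat_lit 35340) (nat_lit 6) (nat_lit 465) (nat_lit 1) (nat_lit 211) (nat_lit 172) (nat_lit 187)) (PT.lf (nat_lit 33592) (nat_lit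 6) (nat_lit 442) (nat_lit 1) (nat_lit 212) (nat_lit 172) (nat_lit 186)))) (PT.nd (nat_lit 57174) (PT.nd (nat_lit 57096) (PT.lf (nat_lit 31768) (nat_lit 6) (nat_lit 418) (nat_lit 1) (nat_lit 213) (nat_lit 172) (nat_lit 185)) (PT.lf (nat_lit 31692) (nat_lit 6) (nat_lit 417) (nat_lit 3) (nat_lit 184) (nat_lit 173) (nat_lit 213))) (PT.nd (nat_lit 78) (PT.lf (nat_lit 33516) (nat_lit 6) (nat_lit 441) (nat_lit 3) (nat_lit 185) (nat_lit 173) (nat_lit 212)) (PT.lf (nat_lit 35264) (nat_lit 6) (nat_lit 464) (nat_lit 3) (nat_lit 186) (nat_lit 173) (nat_lit 211))))))))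
noncomputable def pc15 : PT := (PT.nd (nat_lit 59358) (PT.nd (nat_lit 1170) (PT.nd (nat_lit 546) (PT.nd (nat_lit 234) (PT.nd (nat_lit 78) (PT.lf (nat_lit 36936) (nat_lit 6) (nat_lit 486) (nat_lit 3) (nat_lit 187) (nat_lit 173) (nat_lit 210)) (PT.nd (nat_lit 78) (PT.lf (nat_lit 38532) (nat_lit 6) (nat_lit 507) (nat_lit 3) (nat_lit 188) (nat_lit 173) (nat_lit 209)) (PT.lf (nat_lit 40052) (nat_lit 6) (nat_lit 527) (nat_lit 3) (nat_lit 189) (nat_lit 173) (nat_lit 208)))) (PT.nd (nat_lit 156) (PT.nd (nat_lit 78) (PT.lf (nat_lit 41496) (nat_lit 6) (nat_lit 546) (nat_lit 3) (nat_lit 190) (nat_lit 173) (nat_lit 207)) (PT.lf (nat_lit 41572) (nat_lit 6) (nat_lit 547) (nat_lit 3) (nat_lit 191) (nat_lit 173) (nat_lit 206))) (PT.nd (nat_lit 78) (PT.lf (nat_lit 41648) (nat_lit 6) (nat_lit 548) (nat_lit 3) (nat_lit 192) (nat_lit 173) (nat_lit 205)) (PT.lf (nat_lit 41724) (nat_lit 6) (nat_lit 549) (nat_lit 3) (nat_lit 193) (nat_lit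 173) (nat_lit 204))))) (PT.nd (nat_lit 312) (PT.nd (nat_lit 156) (PT.nd (nat_lit 78) (PT.lf (nat_lit 41800) (nat_lit 6) (nat_lit 550) (nat_lit 3) (nat_lit 194) (nat_lit 173) (nat_lit 203)) (PT.lf (nat_lit 41876) (nat_lit 6) (nat_lit 551) (nat_lit 3) (nat_lit 195) (nat_lit 173) (nat_lit 202))) (PT.nd (nat_lit 78) (PT.lf (nat_lit 41952) (nat_lit 6) (nat_lit 552) (nat_lit 3) (nat_lit 196) (nat_lit 173) (nat_lit 201)) (PT.lf (nat_lit 42028) (nat_lit 6) (nat_lit 553) (nat_lit 3) (nat_lit 197) (nat_lit 173) (nat_lit 200)))) (PT.nd (nat_lit 156) (PT.nd (nat_lit 78) (PT.lf (nat_lit 42104) (nat_lit 6) (nat_lit 554) (nat_lit 3) (nat_lit 198) (nat_lit 173) (nat_lit 199)) (PT.lf (nat_lit 42104) (nat_lit 6) (nat_lit 554) (nat_lit 1) (nat_lit 199) (nat_lit 173) (nat_lit 198))) (PT.nd (nat_lit 78) (PT.lf (nat_lit 42028) (nat_lit 6) (nat_lit 553) (nat_lit 1) (nat_lit 200) (nat_lit 173) (nat_lit 197)) (PT.lf (nat_lit 41952) (nat_lit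 6) (nat_lit 552) (nat_lit 1) (nat_lit 201) (nat_lit 173) (nat_lit 196)))))) (PT.nd (nat_lit 624) (PT.nd (nat_lit 312) (PT.nd (nat_lit 156) (PT.nd (nat_lit 78) (PT.lf (nat_lit 41876) (nat_lit 6) (nat_lit 551) (nat_lit 1) (nat_lit 202) (nat_lit 173) (nat_lit 195)) (PT.lf (nat_lit 41800) (nat_lit 6) (nat_lit 550) (nat_lit 1) (nat_lit 203) (nat_lit 173) (nat_lit 194))) (PT.nd (nat_lit 78) (PT.lf (nat_lit 41724) (nat_lit 6) (nat_lit 549) (nat_lit 1) (nat_lit 204) (nat_lit 173) (nat_lit 193)) (PT.lf (nat_lit 41648) (nat_lit 6) (nat_lit 548) (nat_lit 1) (nat_lit 205) (nat_lit 173) (nat_lit 192)))) (PT.nd (nat_lit 156) (PT.nd (nat_lit 78) (PT.lf (nat_lit 41572) (nat_lit 6) (nat_lit 547) (nat_lit 1) (nat_lit 206) (nat_lit 173) (nat_lit 191)) (PT.lf (nat_lit 41496) (nat_lit 6) (nat_lit 546) (nat_lit 1) (nat_lit 207) (nat_lit 173) (nat_lit 190))) (PT.nd (nat_lit 78) (PT.lf (nat_lit 40052) (nat_lit 6) (nat_lit 527) (nat_lit 1) (nat_lit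 208) (nat_lit 173) (nat_lit 189)) (PT.lf (nat_lit 38532) (nat_lit 6) (nat_lit 507) (nat_lit 1) (nat_lit 209) (nat_lit 173) (nat_lit 188))))) (PT.nd (nat_lit 57252) (PT.nd (nat_lit 156) (PT.nd (nat_lit 78) (PT.lf (nat_lit 36936) (nat_lit 6) (nat_lit 486) (nat_lit 1) (nat_lit 210) (nat_lit 173) (nat_lit 187)) (PT.lf (nat_lit 35264) (nat_lit 6) (nat_lit 464) (nat_lit 1) (nat_lit 211) (nat_lit 173) (nat_lit 186))) (PT.nd (nat_lit 78) (PT.lf (nat_lit 33516) (nat_lit 6) (nat_lit 441) (nat_lit 1) (nat_lit 212) (nat_lit 173) (nat_lit 185)) (PT.lf (nat_lit 31692) (nat_lit 6) (nat_lit 417) (nat_lit 1) (nat_lit 213) (nat_lit 173) (nat_lit 184)))) (PT.nd (nat_lit 156) (PT.nd (nat_lit 78) (PT.lf (nat_lit 31616) (nat_lit 6) (nat_lit 416) (nat_lit 3) (nat_lit 183) (nat_lit 174) (nat_lit 213)) (PT.lf (nat_lit 33440) (nat_lit 6) (nat_lit 440) (nat_lit 3) (nat_lit 184) (nat_lit 174) (nat_lit 212))) (PT.nd (nat_lit 78) (PT.lf (nat_lit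 35188) (nat_lit 6) (nat_lit 463) (nat_lit 3) (nat_lit 185) (nat_lit 174) (nat_lit 211)) (PT.lf (nat_lit 36860) (nat_lit 6) (nat_lit 485) (nat_lit 3) (nat_lit 186) (nat_lit 174) (nat_lit 210))))))) (PT.nd (nat_lit 1170) (PT.nd (nat_lit 546) (PT.nd (nat_lit 234) (PT.nd (nat_lit 78) (PT.lf (nat_lit 38456) (nat_lit 6) (nat_lit 506) (nat_lit 3) (nat_lit 187) (nat_lit 174) (nat_lit 209)) (PT.nd (nat_lit 78) (PT.lf (nat_lit 39976) (nat_lit 6) (nat_lit 526) (nat_lit 3) (nat_lit 188) (nat_lit 174) (nat_lit 208)) (PT.lf (nat_lit 41420) (nat_lit 6) (nat_lit 545) (nat_lit 3) (nat_lit 189) (nat_lit 174) (nat_lit 207)))) (PT.nd (nat_lit 156) (PT.nd (nat_lit 78) (PT.lf (nat_lit 42788) (nat_lit 6) (nat_lit 563) (nat_lit 3) (nat_lit 190) (nat_lit 174) (nat_lit 206)) (PT.lf (nat_lit 42864) (nat_lit 6) (nat_lit 564) (nat_lit 3) (nat_lit 191) (nat_lit 174) (nat_lit 205))) (PT.nd (nat_lit 78) (PT.lf (nat_lit 42940) (nat_lit 6) (nat_lit 565)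 (nat_lit 3) (nat_lit 192) (nat_lit 174) (nat_lit 204)) (PT.lf (nat_lit 43016) (nat_lit 6) (nat_lit 566) (nat_lit 3) (nat_lit 193) (nat_lit 174) (nat_lit 203))))) (PT.nd (nat_lit 312) (PT.nd (nat_lit 156) (PT.nd (nat_lit 78) (PT.lf (nat_lit 43092) (nat_lit 6) (nat_lit 567) (nat_lit 3) (nat_lit 194) (nat_lit 174) (nat_lit 202)) (PT.lf (nat_lit 43168) (nat_lit 6) (nat_lit 568) (nat_lit 3) (nat_lit 195) (nat_lit 174) (nat_lit 201))) (PT.nd (nat_lit 78) (PT.lf (nat_lit 43244) (nat_lit 6) (nat_lit 569) (nat_lit 3) (nat_lit 196) (nat_lit 174) (nat_lit 200)) (PT.lf (nat_lit 43320) (nat_lit 6) (nat_lit 570) (nat_lit 3) (nat_lit 197) (nat_lit 174) (nat_lit 199)))) (PT.nd (nat_lit 156) (PT.nd (nat_lit 78) (PT.lf (nat_lit 43396) (nat_lit 3) (nat_lit 571) (nat_lit 1) (nat_lit 198) (nat_lit 174) (nat_lit 198)) (PT.lf (nat_lit 43320) (nat_lit 6) (nat_lit 570) (nat_lit 1) (nat_lit 199) (nat_lit 174) (nat_lit 197))) (PT.nd (nat_lit 78)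 (PT.lf (nat_lit 43244) (nat_lit 6) (nat_lit 569) (nat_lit 1) (nat_lit 200) (nat_lit 174) (nat_lit 196)) (PT.lf (nat_lit 43168) (nat_lit 6) (nat_lit 568) (nat_lit 1) (nat_lit 201) (nat_lit 174) (nat_lit 195)))))) (PT.nd (nat_lit 624) (PT.nd (nat_lit 312) (PT.nd (nat_lit 156) (PT.nd (nat_lit 78) (PT.lf (nat_lit 43092) (nat_lit 6) (nat_lit 567) (nat_lit 1) (nat_lit 202) (nat_lit 174) (nat_lit 194)) (PT.lf (nat_lit 43016) (nat_lit 6) (nat_lit 566) (nat_lit 1) (nat_lit 203) (nat_lit 174) (nat_lit 193))) (PT.nd (nat_lit 78) (PT.lf (nat_lit 42940) (nat_lit 6) (nat_lit 565) (nat_lit 1) (nat_lit 204) (nat_lit 174) (nat_lit 192)) (PT.lf (nat_lit 42864) (nat_lit 6) (nat_lit 564) (nat_lit 1) (nat_lit 205) (nat_lit 174) (nat_lit 191)))) (PT.nd (nat_lit 156) (PT.nd (nat_lit 78) (PT.lf (nat_lit 42788) (nat_lit 6) (nat_lit 563) (nat_lit 1) (nat_lit 206) (nat_lit 174) (nat_lit 190)) (PT.lf (nat_lit 41420) (nat_lit 6) (nat_lit 545) (nat_lit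 1) (nat_lit 207) (nat_lit 174) (nat_lit 189))) (PT.nd (nat_lit 78) (PT.lf (nat_lit 39976) (nat_lit 6) (nat_lit 526) (nat_lit 1) (nat_lit 208) (nat_lit 174) (nat_lit 188)) (PT.lf (nat_lit 38456) (nat_lit 6) (nat_lit 506) (nat_lit 1) (nat_lit 209) (nat_lit 174) (nat_lit 187))))) (PT.nd (nat_lit 57174) (PT.nd (nat_lit 156) (PT.nd (nat_lit 78) (PT.lf (nat_lit 36860) (nat_lit 6) (nat_lit 485) (nat_lit 1) (nat_lit 210) (nat_lit 174) (nat_lit 186)) (PT.lf (nat_lit 35188) (nat_lit 6) (nat_lit 463) (nat_lit 1) (nat_lit 211) (nat_lit 174) (nat_lit 185))) (PT.nd (nat_lit 78) (PT.lf (nat_lit 33440) (nat_lit 6) (nat_lit 440) (nat_lit 1) (nat_lit 212) (nat_lit 174) (nat_lit 184)) (PT.lf (nat_lit 31616) (nat_lit 6) (nat_lit 416) (nat_lit 1) (nat_lit 213) (nat_lit 174) (nat_lit 183)))) (PT.nd (nat_lit 156) (PT.nd (nat_lit 78) (PT.lf (nat_lit 31540) (nat_lit 6) (nat_lit 415) (nat_lit 3) (nat_lit 182) (nat_lit 175) (nat_lit 213)) (PT.lf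 (nat_lit 33364) (nat_lit 6) (nat_lit 439) (nat_lit 3) (nat_lit 183) (nat_lit 175) (nat_lit 212))) (PT.nd (nat_lit 78) (PT.lf (nat_lit 35112) (nat_lit 6) (nat_lit 462) (nat_lit 3) (nat_lit 184) (nat_lit 175) (nat_lit 211)) (PT.lf (nat_lit 36784) (nat_lit 6) (nat_lit 484) (nat_lit 3) (nat_lit 185) (nat_lit 175) (nat_lit 210))))))))
noncomputable def pc16 : PT := (PT.nd (nat_lit 59124) (PT.nd (nat_lit 1170) (PT.nd (nat_lit 546) (PT.nd (nat_lit 234) (PT.nd (nat_lit 78) (PT.lf (nat_lit 38380) (nat_lit 6) (nat_lit 505) (nat_lit 3) (nat_lit 186) (nat_lit 175) (nat_lit 209)) (PT.nd (nat_lit 78) (PT.lf (nat_lit 39900) (nat_lit 6) (nat_lit 525) (nat_lit 3) (nat_lit 187) (nat_lit 175) (nat_lit 208)) (PT.lf (nat_lit 41344) (nat_lit 6) (nat_lit 544) (nat_lit 3) (nat_lit 188) (nat_lit 175) (nat_lit 207)))) (PT.nd (nat_lit 156) (PT.nd (nat_lit 78) (PT.lf (nat_lit 42712) (nat_lit 6) (nat_lit 562) (nat_lit 3) (nat_lit 189) (nat_lit 175)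 (nat_lit 206)) (PT.lf (nat_lit 44004) (nat_lit 6) (nat_lit 579) (nat_lit 3) (nat_lit 190) (nat_lit 175) (nat_lit 205))) (PT.nd (nat_lit 78) (PT.lf (nat_lit 44080) (nat_lit 6) (nat_lit 580) (nat_lit 3) (nat_lit 191) (nat_lit 175) (nat_lit 204)) (PT.lf (nat_lit 44156) (nat_lit 6) (nat_lit 581) (nat_lit 3) (nat_lit 192) (nat_lit 175) (nat_lit 203))))) (PT.nd (nat_lit 312) (PT.nd (nat_lit 156) (PT.nd (nat_lit 78) (PT.lf (nat_lit 44232) (nat_lit 6) (nat_lit 582) (nat_lit 3) (nat_lit 193) (nat_lit 175) (nat_lit 202)) (PT.lf (nat_lit 44308) (nat_lit 6) (nat_lit 583) (nat_lit 3) (nat_lit 194) (nat_lit 175) (nat_lit 201))) (PT.nd (nat_lit 78) (PT.lf (nat_lit 44384) (nat_lit 6) (nat_lit 584) (nat_lit 3) (nat_lit 195) (nat_lit 175) (nat_lit 200)) (PT.lf (nat_lit 44460) (nat_lit 6) (nat_lit 585) (nat_lit 3) (nat_lit 196) (nat_lit 175) (nat_lit 199)))) (PT.nd (nat_lit 156) (PT.nd (nat_lit 78) (PT.lf (nat_lit 44536) (nat_lit 6) (nat_lit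 586) (nat_lit 3) (nat_lit 197) (nat_lit 175) (nat_lit 198)) (PT.lf (nat_lit 44536) (nat_lit 6) (nat_lit 586) (nat_lit 1) (nat_lit 198) (nat_lit 175) (nat_lit 197))) (PT.nd (nat_lit 78) (PT.lf (nat_lit 44460) (nat_lit 6) (nat_lit 585) (nat_lit 1) (nat_lit 199) (nat_lit 175) (nat_lit 196)) (PT.lf (nat_lit 44384) (nat_lit 6) (nat_lit 584) (nat_lit 1) (nat_lit 200) (nat_lit 175) (nat_lit 195)))))) (PT.nd (nat_lit 546) (PT.nd (nat_lit 234) (PT.nd (nat_lit 78) (PT.lf (nat_lit 44308) (nat_lit 6) (nat_lit 583) (nat_lit 1) (nat_lit 201) (nat_lit 175) (nat_lit 194)) (PT.nd (nat_lit 78) (PT.lf (nat_lit 44232) (nat_lit 6) (nat_lit 582) (nat_lit 1) (nat_lit 202) (nat_lit 175) (nat_lit 193)) (PT.lf (nat_lit 44156) (nat_lit 6) (nat_lit 581) (nat_lit 1) (nat_lit 203) (nat_lit 175) (nat_lit 192)))) (PT.nd (nat_lit 156) (PT.nd (nat_lit 78) (PT.lf (nat_lit 44080) (nat_lit 6) (nat_lit 580) (nat_lit 1) (nat_lit 204) (nat_lit 175) (nat_lit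 191)) (PT.lf (nat_lit 44004) (nat_lit 6) (nat_lit 579) (nat_lit 1) (nat_lit 205) (nat_lit 175) (nat_lit 190))) (PT.nd (nat_lit 78) (PT.lf (nat_lit 42712) (nat_lit 6) (nat_lit 562) (nat_lit 1) (nat_lit 206) (nat_lit 175) (nat_lit 189)) (PT.lf (nat_lit 41344) (nat_lit 6) (nat_lit 544) (nat_lit 1) (nat_lit 207) (nat_lit 175) (nat_lit 188))))) (PT.nd (nat_lit 312) (PT.nd (nat_lit 156) (PT.nd (nat_lit 78) (PT.lf (nat_lit 39900) (nat_lit 6) (nat_lit 525) (nat_lit 1) (nat_lit 208) (nat_lit 175) (nat_lit 187)) (PT.lf (nat_lit 38380) (nat_lit 6) (nat_lit 505) (nat_lit 1) (nat_lit 209) (nat_lit 175) (nat_lit 186))) (PT.nd (nat_lit 78) (PT.lf (nat_lit 36784) (nat_lit 6) (nat_lit 484) (nat_lit 1) (nat_lit 210) (nat_lit 175) (nat_lit 185)) (PT.lf (nat_lit 35112) (nat_lit 6) (nat_lit 462) (nat_lit 1) (nat_lit 211) (nat_lit 175) (nat_lit 184)))) (PT.nd (nat_lit 56940) (PT.nd (nat_lit 78) (PT.lf (nat_lit 33364) (nat_lit 6) (nat_lit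 439) (nat_lit 1) (nat_lit 212) (nat_lit 175) (nat_lit 183)) (PT.lf (nat_lit 31540) (nat_lit 6) (nat_lit 415) (nat_lit 1) (nat_lit 213) (nat_lit 175) (nat_lit 182))) (PT.nd (nat_lit 78) (PT.lf (nat_lit 31464) (nat_lit 6) (nat_lit 414) (nat_lit 3) (nat_lit 181) (nat_lit 176) (nat_lit 213)) (PT.lf (nat_lit 33288) (nat_lit 6) (nat_lit 438) (nat_lit 3) (nat_lit 182) (nat_lit 176) (nat_lit 212))))))) (PT.nd (nat_lit 1170) (PT.nd (nat_lit 546) (PT.nd (nat_lit 234) (PT.nd (nat_lit 78) (PT.lf (nat_lit 35036) (nat_lit 6) (nat_lit 461) (nat_lit 3) (nat_lit 183) (nat_lit 176) (nat_lit 211)) (PT.nd (nat_lit 78) (PT.lf (nat_lit 36708) (nat_lit 6) (nat_lit 483) (nat_lit 3) (nat_lit 184) (nat_lit 176) (nat_lit 210)) (PT.lf (nat_lit 38304) (nat_lit 6) (nat_lit 504) (nat_lit 3) (nat_lit 185) (nat_lit 176) (nat_lit 209)))) (PT.nd (nat_lit 156) (PT.nd (nat_lit 78) (PT.lf (nat_lit 39824) (nat_lit 6) (nat_lit 524) (nat_lit 3) (nat_lit 186)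 (nat_lit 176) (nat_lit 208)) (PT.lf (nat_lit 41268) (nat_lit 6) (nat_lit 543) (nat_lit 3) (nat_lit 187) (nat_lit 176) (nat_lit 207))) (PT.nd (nat_lit 78) (PT.lf (nat_lit 42636) (nat_lit 6) (nat_lit 561) (nat_lit 3) (nat_lit 188) (nat_lit 176) (nat_lit 206)) (PT.lf (nat_lit 43928) (nat_lit 6) (nat_lit 578) (nat_lit 3) (nat_lit 189) (nat_lit 176) (nat_lit 205))))) (PT.nd (nat_lit 312) (PT.nd (nat_lit 156) (PT.nd (nat_lit 78) (PT.lf (nat_lit 45144) (nat_lit 6) (nat_lit 594) (nat_lit 3) (nat_lit 190) (nat_lit 176) (nat_lit 204)) (PT.lf (nat_lit 45220) (nat_lit 6) (nat_lit 595) (nat_lit 3) (nat_lit 191) (nat_lit 176) (nat_lit 203))) (PT.nd (nat_lit 78) (PT.lf (nat_lit 45296) (nat_lit 6) (nat_lit 596) (nat_lit 3) (nat_lit 192) (nat_lit 176) (nat_lit 202)) (PT.lf (nat_lit 45372) (nat_lit 6) (nat_lit 597) (nat_lit 3) (nat_lit 193) (nat_lit 176) (nat_lit 201)))) (PT.nd (nat_lit 156) (PT.nd (nat_lit 78) (PT.lf (nat_lit 45448)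 (nat_lit 6) (nat_lit 598) (nat_lit 3) (nat_lit 194) (nat_lit 176) (nat_lit 200)) (PT.lf (nat_lit 45524) (nat_lit 6) (nat_lit 599) (nat_lit 3) (nat_lit 195) (nat_lit 176) (nat_lit 199))) (PT.nd (nat_lit 78) (PT.lf (nat_lit 45600) (nat_lit 6) (nat_lit 600) (nat_lit 3) (nat_lit 196) (nat_lit 176) (nat_lit 198)) (PT.lf (nat_lit 45676) (nat_lit 3) (nat_lit 601) (nat_lit 1) (nat_lit 197) (nat_lit 176) (nat_lit 197)))))) (PT.nd (nat_lit 624) (PT.nd (nat_lit 312) (PT.nd (nat_lit 156) (PT.nd (nat_lit 78) (PT.lf (nat_lit 45600) (nat_lit 6) (nat_lit 600) (nat_lit 1) (nat_lit 198) (nat_lit 176) (nat_lit 196)) (PT.lf (nat_lit 45524) (nat_lit 6) (nat_lit 599) (nat_lit 1) (nat_lit 199) (nat_lit 176) (nat_lit 195))) (PT.nd (nat_lit 78) (PT.lf (nat_lit 45448) (nat_lit 6) (nat_lit 598) (nat_lit 1) (nat_lit 200) (nat_lit 176) (nat_lit 194)) (PT.lf (nat_lit 45372) (nat_lit 6) (nat_lit 597) (nat_lit 1) (nat_lit 201) (nat_lit 176) (nat_lit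 193)))) (PT.nd (nat_lit 156) (PT.nd (nat_lit 78) (PT.lf (nat_lit 45296) (nat_lit 6) (nat_lit 596) (nat_lit 1) (nat_lit 202) (nat_lit 176) (nat_lit 192)) (PT.lf (nat_lit 45220) (nat_lit 6) (nat_lit 595) (nat_lit 1) (nat_lit 203) (nat_lit 176) (nat_lit 191))) (PT.nd (nat_lit 78) (PT.lf (nat_lit 45144) (nat_lit 6) (nat_lit 594) (nat_lit 1) (nat_lit 204) (nat_lit 176) (nat_lit 190)) (PT.lf (nat_lit 43928) (nat_lit 6) (nat_lit 578) (nat_lit 1) (nat_lit 205) (nat_lit 176) (nat_lit 189))))) (PT.nd (nat_lit 312) (PT.nd (nat_lit 156) (PT.nd (nat_lit 78) (PT.lf (nat_lit 42636) (nat_lit 6) (nat_lit 561) (nat_lit 1) (nat_lit 206) (nat_lit 176) (nat_lit 188)) (PT.lf (nat_lit 41268) (nat_lit 6) (nat_lit 543) (nat_lit 1) (nat_lit 207) (nat_lit 176) (nat_lit 187))) (PT.nd (nat_lit 78) (PT.lf (nat_lit 39824) (nat_lit 6) (nat_lit 524) (nat_lit 1) (nat_lit 208) (nat_lit 176) (nat_lit 186)) (PT.lf (nat_lit 38304) (nat_lit 6) (nat_lit 504)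 (nat_lit 1) (nat_lit 209) (nat_lit 176) (nat_lit 185)))) (PT.nd (nat_lit 156) (PT.nd (nat_lit 78) (PT.lf (nat_lit 36708) (nat_lit 6) (nat_lit 483) (nat_lit 1) (nat_lit 210) (nat_lit 176) (nat_lit 184)) (PT.lf (nat_lit 35036) (nat_lit 6) (nat_lit 461) (nat_lit 1) (nat_lit 211) (nat_lit 176) (nat_lit 183))) (PT.nd (nat_lit 78) (PT.lf (nat_lit 33288) (nat_lit 6) (nat_lit 438) (nat_lit 1) (nat_lit 212) (nat_lit 176) (nat_lit 182)) (PT.lf (nat_lit 31464) (nat_lit 6) (nat_lit 414) (nat_lit 1) (nat_lit 213) (nat_lit 176) (nat_lit 181))))))))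
noncomputable def pc17 : PT := (PT.nd (nat_lit 2418) (PT.nd (nat_lit 1170) (PT.nd (nat_lit 546) (PT.nd (nat_lit 234) (PT.nd (nat_lit 78) (PT.lf (nat_lit 31388) (nat_lit 6) (nat_lit 413) (nat_lit 3) (nat_lit 180) (nat_lit 177) (nat_lit 213)) (PT.nd (nat_lit 78) (PT.lf (nat_lit 33212) (nat_lit 6) (nat_lit 437) (nat_lit 3) (nat_lit 181) (nat_lit 177) (nat_lit 212)) (PT.lf (nat_lit 34960) (nat_lit 6) (nat_lit 460) (nat_lit 3) (nat_lit 182) (nat_lit 177) (nat_lit 211)))) (PT.nd (nat_lit 156) (PT.nd (nat_lit 78) (PT.lf (nat_lit 36632) (nat_lit 6) (nat_lit 482) (nat_lit 3) (nat_lit 183) (nat_lit 177) (nat_lit 210)) (PT.lf (nat_lit 38228) (nat_lit 6) (nat_lit 503) (nat_lit 3) (nat_lit 184) (nat_lit 177) (nat_lit 209))) (PT.nd (nat_lit 78) (PT.lf (nat_lit 39748) (nat_lit 6) (nat_lit 523) (nat_lit 3) (nat_lit 185) (nat_lit 177) (nat_lit 208)) (PT.lf (nat_lit 41192) (nat_lit 6) (nat_lit 542) (nat_lit 3) (nat_lit 186) (nat_lit 177)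 (nat_lit 207))))) (PT.nd (nat_lit 312) (PT.nd (nat_lit 156) (PT.nd (nat_lit 78) (PT.lf (nat_lit 42560) (nat_lit 6) (nat_lit 560) (nat_lit 3) (nat_lit 187) (nat_lit 177) (nat_lit 206)) (PT.lf (nat_lit 43852) (nat_lit 6) (nat_lit 577) (nat_lit 3) (nat_lit 188) (nat_lit 177) (nat_lit 205))) (PT.nd (nat_lit 78) (PT.lf (nat_lit 45068) (nat_lit 6) (nat_lit 593) (nat_lit 3) (nat_lit 189) (nat_lit 177) (nat_lit 204)) (PT.lf (nat_lit 46208) (nat_lit 6) (nat_lit 608) (nat_lit 3) (nat_lit 190) (nat_lit 177) (nat_lit 203)))) (PT.nd (nat_lit 156) (PT.nd (nat_lit 78) (PT.lf (nat_lit 46284) (nat_lit 6) (nat_lit 609) (nat_lit 3) (nat_lit 191) (nat_lit 177) (nat_lit 202)) (PT.lf (nat_lit 46360) (nat_lit 6) (nat_lit 610) (nat_lit 3) (nat_lit 192) (nat_lit 177) (nat_lit 201))) (PT.nd (nat_lit 78) (PT.lf (nat_lit 46436) (nat_lit 6) (nat_lit 611) (nat_lit 3) (nat_lit 193) (nat_lit 177) (nat_lit 200)) (PT.lf (nat_lit 46512) (nat_lit 6) (nat_lit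 612) (nat_lit 3) (nat_lit 194) (nat_lit 177) (nat_lit 199)))))) (PT.nd (nat_lit 624) (PT.nd (nat_lit 312) (PT.nd (nat_lit 156) (PT.nd (nat_lit 78) (PT.lf (nat_lit 46588) (nat_lit 6) (nat_lit 613) (nat_lit 3) (nat_lit 195) (nat_lit 177) (nat_lit 198)) (PT.lf (nat_lit 46664) (nat_lit 6) (nat_lit 614) (nat_lit 3) (nat_lit 196) (nat_lit 177) (nat_lit 197))) (PT.nd (nat_lit 78) (PT.lf (nat_lit 46664) (nat_lit 6) (nat_lit 614) (nat_lit 1) (nat_lit 197) (nat_lit 177) (nat_lit 196)) (PT.lf (nat_lit 46588) (nat_lit 6) (nat_lit 613) (nat_lit 1) (nat_lit 198) (nat_lit 177) (nat_lit 195)))) (PT.nd (nat_lit 156) (PT.nd (nat_lit 78) (PT.lf (nat_lit 46512) (nat_lit 6) (nat_lit 612) (nat_lit 1) (nat_lit 199) (nat_lit 177) (nat_lit 194)) (PT.lf (nat_lit 46436) (nat_lit 6) (nat_lit 611) (nat_lit 1) (nat_lit 200) (nat_lit 177) (nat_lit 193))) (PT.nd (nat_lit 78) (PT.lf (nat_lit 46360) (nat_lit 6) (nat_lit 610) (nat_lit 1) (nat_lit 201)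 (nat_lit 177) (nat_lit 192)) (PT.lf (nat_lit 46284) (nat_lit 6) (nat_lit 609) (nat_lit 1) (nat_lit 202) (nat_lit 177) (nat_lit 191))))) (PT.nd (nat_lit 312) (PT.nd (nat_lit 156) (PT.nd (nat_lit 78) (PT.lf (nat_lit 46208) (nat_lit 6) (nat_lit 608) (nat_lit 1) (nat_lit 203) (nat_lit 177) (nat_lit 190)) (PT.lf (nat_lit 45068) (nat_lit 6) (nat_lit 593) (nat_lit 1) (nat_lit 204) (nat_lit 177) (nat_lit 189))) (PT.nd (nat_lit 78) (PT.lf (nat_lit 43852) (nat_lit 6) (nat_lit 577) (nat_lit 1) (nat_lit 205) (nat_lit 177) (nat_lit 188)) (PT.lf (nat_lit 42560) (nat_lit 6) (nat_lit 560) (nat_lit 1) (nat_lit 206) (nat_lit 177) (nat_lit 187)))) (PT.nd (nat_lit 156) (PT.nd (nat_lit 78) (PT.lf (nat_lit 41192) (nat_lit 6) (nat_lit 542) (nat_lit 1) (nat_lit 207) (nat_lit 177) (nat_lit 186)) (PT.lf (nat_lit 39748) (nat_lit 6) (nat_lit 523) (nat_lit 1) (nat_lit 208) (nat_lit 177) (nat_lit 185))) (PT.nd (nat_lit 78) (PT.lf (nat_lit 38228)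 (nat_lit 6) (nat_lit 503) (nat_lit 1) (nat_lit 209) (nat_lit 177) (nat_lit 184)) (PT.lf (nat_lit 36632) (nat_lit 6) (nat_lit 482) (nat_lit 1) (nat_lit 210) (nat_lit 177) (nat_lit 183))))))) (PT.nd (nat_lit 57798) (PT.nd (nat_lit 57174) (PT.nd (nat_lit 56862) (PT.nd (nat_lit 78) (PT.lf (nat_lit 34960) (nat_lit 6) (nat_lit 460) (nat_lit 1) (nat_lit 211) (nat_lit 177) (nat_lit 182)) (PT.nd (nat_lit 78) (PT.lf (nat_lit 33212) (nat_lit 6) (nat_lit 437) (nat_lit 1) (nat_lit 212) (nat_lit 177) (nat_lit 181)) (PT.lf (nat_lit 31388) (nat_lit 6) (nat_lit 413) (nat_lit 1) (nat_lit 213) (nat_lit 177) (nat_lit 180)))) (PT.nd (nat_lit 156) (PT.nd (nat_lit 78) (PT.lf (nat_lit 31312) (nat_lit 6) (nat_lit 412) (nat_lit 3) (nat_lit 179) (nat_lit 178) (nat_lit 213)) (PT.lf (nat_lit 33136) (nat_lit 6) (nat_lit 436) (nat_lit 3) (nat_lit 180) (nat_lit 178) (nat_lit 212))) (PT.nd (nat_lit 78) (PT.lf (nat_lit 34884) (nat_lit 6) (nat_lit 459)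 (nat_lit 3) (nat_lit 181) (nat_lit 178) (nat_lit 211)) (PT.lf (nat_lit 36556) (nat_lit 6) (nat_lit 481) (nat_lit 3) (nat_lit 182) (nat_lit 178) (nat_lit 210))))) (PT.nd (nat_lit 312) (PT.nd (nat_lit 156) (PT.nd (nat_lit 78) (PT.lf (nat_lit 38152) (nat_lit 6) (nat_lit 502) (nat_lit 3) (nat_lit 183) (nat_lit 178) (nat_lit 209)) (PT.lf (nat_lit 39672) (nat_lit 6) (nat_lit 522) (nat_lit 3) (nat_lit 184) (nat_lit 178) (nat_lit 208))) (PT.nd (nat_lit 78) (PT.lf (nat_lit 41116) (nat_lit 6) (nat_lit 541) (nat_lit 3) (nat_lit 185) (nat_lit 178) (nat_lit 207)) (PT.lf (nat_lit 42484) (nat_lit 6) (nat_lit 559) (nat_lit 3) (nat_lit 186) (nat_lit 178) (nat_lit 206)))) (PT.nd (nat_lit 156) (PT.nd (nat_lit 78) (PT.lf (nat_lit 43776) (nat_lit 6) (nat_lit 576) (nat_lit 3) (nat_lit 187) (nat_lit 178) (nat_lit 205)) (PT.lf (nat_lit 44992) (nat_lit 6) (nat_lit 592) (nat_lit 3) (nat_lit 188) (nat_lit 178) (nat_lit 204))) (PT.nd (nat_lit 78)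 (PT.lf (nat_lit 46132) (nat_lit 6) (nat_lit 607) (nat_lit 3) (nat_lit 189) (nat_lit 178) (nat_lit 203)) (PT.lf (nat_lit 47196) (nat_lit 6) (nat_lit 621) (nat_lit 3) (nat_lit 190) (nat_lit 178) (nat_lit 202)))))) (PT.nd (nat_lit 624) (PT.nd (nat_lit 312) (PT.nd (nat_lit 156) (PT.nd (nat_lit 78) (PT.lf (nat_lit 47272) (nat_lit 6) (nat_lit 622) (nat_lit 3) (nat_lit 191) (nat_lit 178) (nat_lit 201)) (PT.lf (nat_lit 47348) (nat_lit 6) (nat_lit 623) (nat_lit 3) (nat_lit 192) (nat_lit 178) (nat_lit 200))) (PT.nd (nat_lit 78) (PT.lf (nat_lit 47424) (nat_lit 6) (nat_lit 624) (nat_lit 3) (nat_lit 193) (nat_lit 178) (nat_lit 199)) (PT.lf (nat_lit 47500) (nat_lit 6) (nat_lit 625) (nat_lit 3) (nat_lit 194) (nat_lit 178) (nat_lit 198)))) (PT.nd (nat_lit 156) (PT.nd (nat_lit 78) (PT.lf (nat_lit 47576) (nat_lit 6) (nat_lit 626) (nat_lit 3) (nat_lit 195) (nat_lit 178) (nat_lit 197)) (PT.lf (nat_lit 47652) (nat_lit 3) (nat_lit 627) (nat_lit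 1) (nat_lit 196) (nat_lit 178) (nat_lit 196))) (PT.nd (nat_lit 78) (PT.lf (nat_lit 47576) (nat_lit 6) (nat_lit 626) (nat_lit 1) (nat_lit 197) (nat_lit 178) (nat_lit 195)) (PT.lf (nat_lit 47500) (nat_lit 6) (nat_lit 625) (nat_lit 1) (nat_lit 198) (nat_lit 178) (nat_lit 194))))) (PT.nd (nat_lit 312) (PT.nd (nat_lit 156) (PT.nd (nat_lit 78) (PT.lf (nat_lit 47424) (nat_lit 6) (nat_lit 624) (nat_lit 1) (nat_lit 199) (nat_lit 178) (nat_lit 193)) (PT.lf (nat_lit 47348) (nat_lit 6) (nat_lit 623) (nat_lit 1) (nat_lit 200) (nat_lit 178) (nat_lit 192))) (PT.nd (nat_lit 78) (PT.lf (nat_lit 47272) (nat_lit 6) (nat_lit 622) (nat_lit 1) (nat_lit 201) (nat_lit 178) (nat_lit 191)) (PT.lf (nat_lit 47196) (nat_lit 6) (nat_lit 621) (nat_lit 1) (nat_lit 202) (nat_lit 178) (nat_lit 190)))) (PT.nd (nat_lit 156) (PT.nd (nat_lit 78) (PT.lf (nat_lit 46132) (nat_lit 6) (nat_lit 607) (nat_lit 1) (nat_lit 203) (nat_lit 178) (nat_lit 189)) (PT.lf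 (nat_lit 44992) (nat_lit 6) (nat_lit 592) (nat_lit 1) (nat_lit 204) (nat_lit 178) (nat_lit 188))) (PT.nd (nat_lit 78) (PT.lf (nat_lit 43776) (nat_lit 6) (nat_lit 576) (nat_lit 1) (nat_lit 205) (nat_lit 178) (nat_lit 187)) (PT.lf (nat_lit 42484) (nat_lit 6) (nat_lit 559) (nat_lit 1) (nat_lit 206) (nat_lit 178) (nat_lit 186))))))))
noncomputable def pc18 : PT := (PT.nd (nat_lit 58890) (PT.nd (nat_lit 57720) (PT.nd (nat_lit 57096) (PT.nd (nat_lit 234) (PT.nd (nat_lit 78) (PT.lf (nat_lit 41116) (nat_lit 6) (nat_lit 541) (nat_lit 1) (nat_lit 207) (nat_lit 178) (nat_lit 185)) (PT.nd (nat_lit 78) (PT.lf (nat_lit 39672) (nat_lit 6) (nat_lit 522) (nat_lit 1) (nat_lit 208) (nat_lit 178) (nat_lit 184)) (PT.lf (nat_lit 38152) (nat_lit 6) (nat_lit 502) (nat_lit 1) (nat_lit 209) (nat_lit 178) (nat_lit 183)))) (PT.nd (nat_lit 156) (PT.nd (nat_lit 78) (PT.lf (nat_lit 36556) (nat_lit 6) (nat_lit 481) (nat_lit 1) (nat_lit 210) (nat_lit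 178) (nat_lit 182)) (PT.lf (nat_lit 34884) (nat_lit 6) (nat_lit 459) (nat_lit 1) (nat_lit 211) (nat_lit 178) (nat_lit 181))) (PT.nd (nat_lit 78) (PT.lf (nat_lit 33136) (nat_lit 6) (nat_lit 436) (nat_lit 1) (nat_lit 212) (nat_lit 178) (nat_lit 180)) (PT.lf (nat_lit 31312) (nat_lit 6) (nat_lit 412) (nat_lit 1) (nat_lit 213) (nat_lit 178) (nat_lit 179))))) (PT.nd (nat_lit 312) (PT.nd (nat_lit 156) (PT.nd (nat_lit 78) (PT.lf (nat_lit 31312) (nat_lit 6) (nat_lit 412) (nat_lit 5) (nat_lit 178) (nat_lit 179) (nat_lit 213)) (PT.lf (nat_lit 33060) (nat_lit 3) (nat_lit 435) (nat_lit 3) (nat_lit 179) (nat_lit 179) (nat_lit 212))) (PT.nd (nat_lit 78) (PT.lf (nat_lit 34808) (nat_lit 6) (nat_lit 458) (nat_lit 3) (nat_lit 180) (nat_lit 179) (nat_lit 211)) (PT.lf (nat_lit 36480) (nat_lit 6) (nat_lit 480) (nat_lit 3) (nat_lit 181) (nat_lit 179) (nat_lit 210)))) (PT.nd (nat_lit 156) (PT.nd (nat_lit 78) (PT.lf (nat_lit 38076) (nat_lit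 6) (nat_lit 501) (nat_lit 3) (nat_lit 182) (nat_lit 179) (nat_lit 209)) (PT.lf (nat_lit 39596) (nat_lit 6) (nat_lit 521) (nat_lit 3) (nat_lit 183) (nat_lit 179) (nat_lit 208))) (PT.nd (nat_lit 78) (PT.lf (nat_lit 41040) (nat_lit 6) (nat_lit 540) (nat_lit 3) (nat_lit 184) (nat_lit 179) (nat_lit 207)) (PT.lf (nat_lit 42408) (nat_lit 6) (nat_lit 558) (nat_lit 3) (nat_lit 185) (nat_lit 179) (nat_lit 206)))))) (PT.nd (nat_lit 546) (PT.nd (nat_lit 234) (PT.nd (nat_lit 78) (PT.lf (nat_lit 43700) (nat_lit 6) (nat_lit 575) (nat_lit 3) (nat_lit 186) (nat_lit 179) (nat_lit 205)) (PT.nd (nat_lit 78) (PT.lf (nat_lit 44916) (nat_lit 6) (nat_lit 591) (nat_lit 3) (nat_lit 187) (nat_lit 179) (nat_lit 204)) (PT.lf (nat_lit 46056) (nat_lit 6) (nat_lit 606) (nat_lit 3) (nat_lit 188) (nat_lit 179) (nat_lit 203)))) (PT.nd (nat_lit 156) (PT.nd (nat_lit 78) (PT.lf (nat_lit 47120) (nat_lit 6) (nat_lit 620) (nat_lit 3) (nat_lit 189) (nat_lit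 179) (nat_lit 202)) (PT.lf (nat_lit 48108) (nat_lit 6) (nat_lit 633) (nat_lit 3) (nat_lit 190) (nat_lit 179) (nat_lit 201))) (PT.nd (nat_lit 78) (PT.lf (nat_lit 48184) (nat_lit 6) (nat_lit 634) (nat_lit 3) (nat_lit 191) (nat_lit 179) (nat_lit 200)) (PT.lf (nat_lit 48260) (nat_lit 6) (nat_lit 635) (nat_lit 3) (nat_lit 192) (nat_lit 179) (nat_lit 199))))) (PT.nd (nat_lit 312) (PT.nd (nat_lit 156) (PT.nd (nat_lit 78) (PT.lf (nat_lit 48336) (nat_lit 6) (nat_lit 636) (nat_lit 3) (nat_lit 193) (nat_lit 179) (nat_lit 198)) (PT.lf (nat_lit 48412) (nat_lit 6) (nat_lit 637) (nat_lit 3) (nat_lit 194) (nat_lit 179) (nat_lit 197))) (PT.nd (nat_lit 78) (PT.lf (nat_lit 48488) (nat_lit 6) (nat_lit 638) (nat_lit 3) (nat_lit 195) (nat_lit 179) (nat_lit 196)) (PT.lf (nat_lit 48488) (nat_lit 6) (nat_lit 638) (nat_lit 1) (nat_lit 196) (nat_lit 179) (nat_lit 195)))) (PT.nd (nat_lit 156) (PT.nd (nat_lit 78) (PT.lf (nat_lit 48412) (nat_lit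 6) (nat_lit 637) (nat_lit 1) (nat_lit 197) (nat_lit 179) (nat_lit 194)) (PT.lf (nat_lit 48336) (nat_lit 6) (nat_lit 636) (nat_lit 1) (nat_lit 198) (nat_lit 179) (nat_lit 193))) (PT.nd (nat_lit 78) (PT.lf (nat_lit 48260) (nat_lit 6) (nat_lit 635) (nat_lit 1) (nat_lit 199) (nat_lit 179) (nat_lit 192)) (PT.lf (nat_lit 48184) (nat_lit 6) (nat_lit 634) (nat_lit 1) (nat_lit 200) (nat_lit 179) (nat_lit 191))))))) (PT.nd (nat_lit 57642) (PT.nd (nat_lit 546) (PT.nd (nat_lit 234) (PT.nd (nat_lit 78) (PT.lf (nat_lit 48108) (nat_lit 6) (nat_lit 633) (nat_lit 1) (nat_lit 201) (nat_lit 179) (nat_lit 190)) (PT.nd (nat_lit 78) (PT.lf (nat_lit 47120) (nat_lit 6) (nat_lit 620) (nat_lit 1) (nat_lit 202) (nat_lit 179) (nat_lit 189)) (PT.lf (nat_lit 46056) (nat_lit 6) (nat_lit 606) (nat_lit 1) (nat_lit 203) (nat_lit 179) (nat_lit 188)))) (PT.nd (nat_lit 156) (PT.nd (nat_lit 78) (PT.lf (nat_lit 44916) (nat_lit 6) (nat_lit 591) (nat_lit 1)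 (nat_lit 204) (nat_lit 179) (nat_lit 187)) (PT.lf (nat_lit 43700) (nat_lit 6) (nat_lit 575) (nat_lit 1) (nat_lit 205) (nat_lit 179) (nat_lit 186))) (PT.nd (nat_lit 78) (PT.lf (nat_lit 42408) (nat_lit 6) (nat_lit 558) (nat_lit 1) (nat_lit 206) (nat_lit 179) (nat_lit 185)) (PT.lf (nat_lit 41040) (nat_lit 6) (nat_lit 540) (nat_lit 1) (nat_lit 207) (nat_lit 179) (nat_lit 184))))) (PT.nd (nat_lit 312) (PT.nd (nat_lit 156) (PT.nd (nat_lit 78) (PT.lf (nat_lit 39596) (nat_lit 6) (nat_lit 521) (nat_lit 1) (nat_lit 208) (nat_lit 179) (nat_lit 183)) (PT.lf (nat_lit 38076) (nat_lit 6) (nat_lit 501) (nat_lit 1) (nat_lit 209) (nat_lit 179) (nat_lit 182))) (PT.nd (nat_lit 78) (PT.lf (nat_lit 36480) (nat_lit 6) (nat_lit 480) (nat_lit 1) (nat_lit 210) (nat_lit 179) (nat_lit 181)) (PT.lf (nat_lit 34808) (nat_lit 6) (nat_lit 458) (nat_lit 1) (nat_lit 211) (nat_lit 179) (nat_lit 180)))) (PT.nd (nat_lit 56628) (PT.nd (nat_lit 78) (PT.lf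 (nat_lit 33060) (nat_lit 3) (nat_lit 435) (nat_lit 0) (nat_lit 212) (nat_lit 179) (nat_lit 179)) (PT.lf (nat_lit 31312) (nat_lit 6) (nat_lit 412) (nat_lit 0) (nat_lit 213) (nat_lit 179) (nat_lit 178))) (PT.nd (nat_lit 78) (PT.lf (nat_lit 31388) (nat_lit 6) (nat_lit 413) (nat_lit 5) (nat_lit 177) (nat_lit 180) (nat_lit 213)) (PT.lf (nat_lit 33136) (nat_lit 6) (nat_lit 436) (nat_lit 5) (nat_lit 178) (nat_lit 180) (nat_lit 212)))))) (PT.nd (nat_lit 624) (PT.nd (nat_lit 312) (PT.nd (nat_lit 156) (PT.nd (nat_lit 78) (PT.lf (nat_lit 34808) (nat_lit 6) (nat_lit 458) (nat_lit 5) (nat_lit 179) (nat_lit 180) (nat_lit 211)) (PT.lf (nat_lit 36404) (nat_lit 3) (nat_lit 479) (nat_lit 3) (nat_lit 180) (nat_lit 180) (nat_lit 210))) (PT.nd (nat_lit 78) (PT.lf (nat_lit 38000) (nat_lit 6) (nat_lit 500) (nat_lit 3) (nat_lit 181) (nat_lit 180) (nat_lit 209)) (PT.lf (nat_lit 39520) (nat_lit 6) (nat_lit 520) (nat_lit 3) (nat_lit 182) (nat_lit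 180) (nat_lit 208)))) (PT.nd (nat_lit 156) (PT.nd (nat_lit 78) (PT.lf (nat_lit 40964) (nat_lit 6) (nat_lit 539) (nat_lit 3) (nat_lit 183) (nat_lit 180) (nat_lit 207)) (PT.lf (nat_lit 42332) (nat_lit 6) (nat_lit 557) (nat_lit 3) (nat_lit 184) (nat_lit 180) (nat_lit 206))) (PT.nd (nat_lit 78) (PT.lf (nat_lit 43624) (nat_lit 6) (nat_lit 574) (nat_lit 3) (nat_lit 185) (nat_lit 180) (nat_lit 205)) (PT.lf (nat_lit 44840) (nat_lit 6) (nat_lit 590) (nat_lit 3) (nat_lit 186) (nat_lit 180) (nat_lit 204))))) (PT.nd (nat_lit 312) (PT.nd (nat_lit 156) (PT.nd (nat_lit 78) (PT.lf (nat_lit 45980) (nat_lit 6) (nat_lit 605) (nat_lit 3) (nat_lit 187) (nat_lit 180) (nat_lit 203)) (PT.lf (nat_lit 47044) (nat_lit 6) (nat_lit 619) (nat_lit 3) (nat_lit 188) (nat_lit 180) (nat_lit 202))) (PT.nd (nat_lit 78) (PT.lf (nat_lit 48032) (nat_lit 6) (nat_lit 632) (nat_lit 3) (nat_lit 189) (nat_lit 180) (nat_lit 201)) (PT.lf (nat_lit 48944) (nat_lit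 6) (nat_lit 644) (nat_lit 3) (nat_lit 190) (nat_lit 180) (nat_lit 200)))) (PT.nd (nat_lit 156) (PT.nd (nat_lit 78) (PT.lf (nat_lit 49020) (nat_lit 6) (nat_lit 645) (nat_lit 3) (nat_lit 191) (nat_lit 180) (nat_lit 199)) (PT.lf (nat_lit 49096) (nat_lit 6) (nat_lit 646) (nat_lit 3) (nat_lit 192) (nat_lit 180) (nat_lit 198))) (PT.nd (nat_lit 78) (PT.lf (nat_lit 49172) (nat_lit 6) (nat_lit 647) (nat_lit 3) (nat_lit 193) (nat_lit 180) (nat_lit 197)) (PT.lf (nat_lit 49248) (nat_lit 6) (nat_lit 648) (nat_lit 3) (nat_lit 194) (nat_lit 180) (nat_lit 196))))))))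
noncomputable def pc19 : PT := (PT.nd (nat_lit 58812) (PT.nd (nat_lit 1170) (PT.nd (nat_lit 546) (PT.nd (nat_lit 234) (PT.nd (nat_lit 78) (PT.lf (nat_lit 49324) (nat_lit 3) (nat_lit 649) (nat_lit 1) (nat_lit 195) (nat_lit 180) (nat_lit 195)) (PT.nd (nat_lit 78) (PT.lf (nat_lit 49248) (nat_lit 6) (nat_lit 648) (nat_lit 1) (nat_lit 196) (nat_lit 180) (nat_lit 194)) (PT.lf (nat_lit 49172) (nat_lit 6) (nat_lit 647) (nat_lit 1) (nat_lit 197) (nat_lit 180) (nat_lit 193)))) (PT.nd (nat_lit 156) (PT.nd (nat_lit 78) (PT.lf (nat_lit 49096) (nat_lit 6) (nat_lit 646) (nat_lit 1) (nat_lit 198) (nat_lit 180) (nat_lit 192)) (PT.lf (nat_lit 49020) (nat_lit 6) (nat_lit 645) (nat_lit 1) (nat_lit 199) (nat_lit 180) (nat_lit 191))) (PT.nd (nat_lit 78) (PT.lf (nat_lit 48944) (nat_lit 6) (nat_lit 644) (nat_lit 1) (nat_lit 200) (nat_lit 180) (nat_lit 190)) (PT.lf (nat_lit 48032) (nat_lit 6) (nat_lit 632) (nat_lit 1) (nat_lit 201) (nat_lit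 180) (nat_lit 189))))) (PT.nd (nat_lit 312) (PT.nd (nat_lit 156) (PT.nd (nat_lit 78) (PT.lf (nat_lit 47044) (nat_lit 6) (nat_lit 619) (nat_lit 1) (nat_lit 202) (nat_lit 180) (nat_lit 188)) (PT.lf (nat_lit 45980) (nat_lit 6) (nat_lit 605) (nat_lit 1) (nat_lit 203) (nat_lit 180) (nat_lit 187))) (PT.nd (nat_lit 78) (PT.lf (nat_lit 44840) (nat_lit 6) (nat_lit 590) (nat_lit 1) (nat_lit 204) (nat_lit 180) (nat_lit 186)) (PT.lf (nat_lit 43624) (nat_lit 6) (nat_lit 574) (nat_lit 1) (nat_lit 205) (nat_lit 180) (nat_lit 185)))) (PT.nd (nat_lit 156) (PT.nd (nat_lit 78) (PT.lf (nat_lit 42332) (nat_lit 6) (nat_lit 557) (nat_lit 1) (nat_lit 206) (nat_lit 180) (nat_lit 184)) (PT.lf (nat_lit 40964) (nat_lit 6) (nat_lit 539) (nat_lit 1) (nat_lit 207) (nat_lit 180) (nat_lit 183))) (PT.nd (nat_lit 78) (PT.lf (nat_lit 39520) (nat_lit 6) (nat_lit 520) (nat_lit 1) (nat_lit 208) (nat_lit 180) (nat_lit 182)) (PT.lf (nat_lit 38000) (nat_lit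 6) (nat_lit 500) (nat_lit 1) (nat_lit 209) (nat_lit 180) (nat_lit 181)))))) (PT.nd (nat_lit 57018) (PT.nd (nat_lit 56706) (PT.nd (nat_lit 156) (PT.nd (nat_lit 78) (PT.lf (nat_lit 36404) (nat_lit 3) (nat_lit 479) (nat_lit 0) (nat_lit 210) (nat_lit 180) (nat_lit 180)) (PT.lf (nat_lit 34808) (nat_lit 6) (nat_lit 458) (nat_lit 0) (nat_lit 211) (nat_lit 180) (nat_lit 179))) (PT.nd (nat_lit 78) (PT.lf (nat_lit 33136) (nat_lit 6) (nat_lit 436) (nat_lit 0) (nat_lit 212) (nat_lit 180) (nat_lit 178)) (PT.lf (nat_lit 31388) (nat_lit 6) (nat_lit 413) (nat_lit 0) (nat_lit 213) (nat_lit 180) (nat_lit 177)))) (PT.nd (nat_lit 156) (PT.nd (nat_lit 78) (PT.lf (nat_lit 31464) (nat_lit 6) (nat_lit 414) (nat_lit 5) (nat_lit 176) (nat_lit 181) (nat_lit 213)) (PT.lf (nat_lit 33212) (nat_lit 6) (nat_lit 437) (nat_lit 5) (nat_lit 177) (nat_lit 181) (nat_lit 212))) (PT.nd (nat_lit 78) (PT.lf (nat_lit 34884) (nat_lit 6) (nat_lit 459) (nat_lit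 5) (nat_lit 178) (nat_lit 181) (nat_lit 211)) (PT.lf (nat_lit 36480) (nat_lit 6) (nat_lit 480) (nat_lit 5) (nat_lit 179) (nat_lit 181) (nat_lit 210))))) (PT.nd (nat_lit 312) (PT.nd (nat_lit 156) (PT.nd (nat_lit 78) (PT.lf (nat_lit 38000) (nat_lit 6) (nat_lit 500) (nat_lit 5) (nat_lit 180) (nat_lit 181) (nat_lit 209)) (PT.lf (nat_lit 39444) (nat_lit 3) (nat_lit 519) (nat_lit 3) (nat_lit 181) (nat_lit 181) (nat_lit 208))) (PT.nd (nat_lit 78) (PT.lf (nat_lit 40888) (nat_lit 6) (nat_lit 538) (nat_lit 3) (nat_lit 182) (nat_lit 181) (nat_lit 207)) (PT.lf (nat_lit 42256) (nat_lit 6) (nat_lit 556) (nat_lit 3) (nat_lit 183) (nat_lit 181) (nat_lit 206)))) (PT.nd (nat_lit 156) (PT.nd (nat_lit 78) (PT.lf (nat_lit 43548) (nat_lit 6) (nat_lit 573) (nat_lit 3) (nat_lit 184) (nat_lit 181) (nat_lit 205)) (PT.lf (nat_lit 44764) (nat_lit 6) (nat_lit 589) (nat_lit 3) (nat_lit 185) (nat_lit 181) (nat_lit 204))) (PT.nd (nat_lit 78) (PT.lf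 (nat_lit 45904) (nat_lit 6) (nat_lit 604) (nat_lit 3) (nat_lit 186) (nat_lit 181) (nat_lit 203)) (PT.lf (nat_lit 46968) (nat_lit 6) (nat_lit 618) (nat_lit 3) (nat_lit 187) (nat_lit 181) (nat_lit 202))))))) (PT.nd (nat_lit 1170) (PT.nd (nat_lit 546) (PT.nd (nat_lit 234) (PT.nd (nat_lit 78) (PT.lf (nat_lit 47956) (nat_lit 6) (nat_lit 631) (nat_lit 3) (nat_lit 188) (nat_lit 181) (nat_lit 201)) (PT.nd (nat_lit 78) (PT.lf (nat_lit 48868) (nat_lit 6) (nat_lit 643) (nat_lit 3) (nat_lit 189) (nat_lit 181) (nat_lit 200)) (PT.lf (nat_lit 49704) (nat_lit 6) (nat_lit 654) (nat_lit 3) (nat_lit 190) (nat_lit 181) (nat_lit 199)))) (PT.nd (nat_lit 156) (PT.nd (nat_lit 78) (PT.lf (nat_lit 49780) (nat_lit 6) (nat_lit 655) (nat_lit 3) (nat_lit 191) (nat_lit 181) (nat_lit 198)) (PT.lf (nat_lit 49856) (nat_lit 6) (nat_lit 656) (nat_lit 3) (nat_lit 192) (nat_lit 181) (nat_lit 197))) (PT.nd (nat_lit 78) (PT.lf (nat_lit 49932) (nat_lit 6) (nat_lit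 657) (nat_lit 3) (nat_lit 193) (nat_lit 181) (nat_lit 196)) (PT.lf (nat_lit 50008) (nat_lit 6) (nat_lit 658) (nat_lit 3) (nat_lit 194) (nat_lit 181) (nat_lit 195))))) (PT.nd (nat_lit 312) (PT.nd (nat_lit 156) (PT.nd (nat_lit 78) (PT.lf (nat_lit 50008) (nat_lit 6) (nat_lit 658) (nat_lit 1) (nat_lit 195) (nat_lit 181) (nat_lit 194)) (PT.lf (nat_lit 49932) (nat_lit 6) (nat_lit 657) (nat_lit 1) (nat_lit 196) (nat_lit 181) (nat_lit 193))) (PT.nd (nat_lit 78) (PT.lf (nat_lit 49856) (nat_lit 6) (nat_lit 656) (nat_lit 1) (nat_lit 197) (nat_lit 181) (nat_lit 192)) (PT.lf (nat_lit 49780) (nat_lit 6) (nat_lit 655) (nat_lit 1) (nat_lit 198) (nat_lit 181) (nat_lit 191)))) (PT.nd (nat_lit 156) (PT.nd (nat_lit 78) (PT.lf (nat_lit 49704) (nat_lit 6) (nat_lit 654) (nat_lit 1) (nat_lit 199) (nat_lit 181) (nat_lit 190)) (PT.lf (nat_lit 48868) (nat_lit 6) (nat_lit 643) (nat_lit 1) (nat_lit 200) (nat_lit 181) (nat_lit 189))) (PT.nd (nat_lit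 78) (PT.lf (nat_lit 47956) (nat_lit 6) (nat_lit 631) (nat_lit 1) (nat_lit 201) (nat_lit 181) (nat_lit 188)) (PT.lf (nat_lit 46968) (nat_lit 6) (nat_lit 618) (nat_lit 1) (nat_lit 202) (nat_lit 181) (nat_lit 187)))))) (PT.nd (nat_lit 624) (PT.nd (nat_lit 312) (PT.nd (nat_lit 156) (PT.nd (nat_lit 78) (PT.lf (nat_lit 45904) (nat_lit 6) (nat_lit 604) (nat_lit 1) (nat_lit 203) (nat_lit 181) (nat_lit 186)) (PT.lf (nat_lit 44764) (nat_lit 6) (nat_lit 589) (nat_lit 1) (nat_lit 204) (nat_lit 181) (nat_lit 185))) (PT.nd (nat_lit 78) (PT.lf (nat_lit 43548) (nat_lit 6) (nat_lit 573) (nat_lit 1) (nat_lit 205) (nat_lit 181) (nat_lit 184)) (PT.lf (nat_lit 42256) (nat_lit 6) (nat_lit 556) (nat_lit 1) (nat_lit 206) (nat_lit 181) (nat_lit 183)))) (PT.nd (nat_lit 156) (PT.nd (nat_lit 78) (PT.lf (nat_lit 40888) (nat_lit 6) (nat_lit 538) (nat_lit 1) (nat_lit 207) (nat_lit 181) (nat_lit 182)) (PT.lf (nat_lit 39444) (nat_lit 3) (nat_lit 519)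 (nat_lit 0) (nat_lit 208) (nat_lit 181) (nat_lit 181))) (PT.nd (nat_lit 78) (PT.lf (nat_lit 38000) (nat_lit 6) (nat_lit 500) (nat_lit 0) (nat_lit 209) (nat_lit 181) (nat_lit 180)) (PT.lf (nat_lit 36480) (nat_lit 6) (nat_lit 480) (nat_lit 0) (nat_lit 210) (nat_lit 181) (nat_lit 179))))) (PT.nd (nat_lit 56628) (PT.nd (nat_lit 156) (PT.nd (nat_lit 78) (PT.lf (nat_lit 34884) (nat_lit 6) (nat_lit 459) (nat_lit 0) (nat_lit 211) (nat_lit 181) (nat_lit 178)) (PT.lf (nat_lit 33212) (nat_lit 6) (nat_lit 437) (nat_lit 0) (nat_lit 212) (nat_lit 181) (nat_lit 177))) (PT.nd (nat_lit 56394) (PT.lf (nat_lit 31464) (nat_lit 6) (nat_lit 414) (nat_lit 0) (nat_lit 213) (nat_lit 181) (nat_lit 176)) (PT.lf (nat_lit 31540) (nat_lit 6) (nat_lit 415) (nat_lit 5) (nat_lit 175) (nat_lit 182) (nat_lit 213)))) (PT.nd (nat_lit 156) (PT.nd (nat_lit 78) (PT.lf (nat_lit 33288) (nat_lit 6) (nat_lit 438) (nat_lit 5) (nat_lit 176) (nat_lit 182) (nat_lit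 212)) (PT.lf (nat_lit 34960) (nat_lit 6) (nat_lit 460) (nat_lit 5) (nat_lit 177) (nat_lit 182) (nat_lit 211))) (PT.nd (nat_lit 78) (PT.lf (nat_lit 36556) (nat_lit 6) (nat_lit 481) (nat_lit 5) (nat_lit 178) (nat_lit 182) (nat_lit 210)) (PT.lf (nat_lit 38076) (nat_lit 6) (nat_lit 501) (nat_lit 5) (nat_lit 179) (nat_lit 182) (nat_lit 209))))))))
noncomputable def pc20 : PT := (PT.nd (nat_lit 2340) (PT.nd (nat_lit 1170) (PT.nd (nat_lit 546) (PT.nd (nat_lit 234) (PT.nd (nat_lit 78) (PT.lf (nat_lit 39520) (nat_lit 6) (nat_lit 520) (nat_lit 5) (nat_lit 180) (nat_lit 182) (nat_lit 208)) (PT.nd (nat_lit 78) (PT.lf (nat_lit 40888) (nat_lit 6) (nat_lit 538) (nat_lit 5) (nat_lit 181) (nat_lit 182) (nat_lit 207)) (PT.lf (nat_lit 42180) (nat_lit 3) (nat_lit 555) (nat_lit 3) (nat_lit 182) (nat_lit 182) (nat_lit 206)))) (PT.nd (nat_lit 156) (PT.nd (nat_lit 78) (PT.lf (nat_lit 43472) (nat_lit 6) (nat_lit 572) (nat_lit 3) (nat_lit 183)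 (nat_lit 182) (nat_lit 205)) (PT.lf (nat_lit 44688) (nat_lit 6) (nat_lit 588) (nat_lit 3) (nat_lit 184) (nat_lit 182) (nat_lit 204))) (PT.nd (nat_lit 78) (PT.lf (nat_lit 45828) (nat_lit 6) (nat_lit 603) (nat_lit 3) (nat_lit 185) (nat_lit 182) (nat_lit 203)) (PT.lf (nat_lit 46892) (nat_lit 6) (nat_lit 617) (nat_lit 3) (nat_lit 186) (nat_lit 182) (nat_lit 202))))) (PT.nd (nat_lit 312) (PT.nd (nat_lit 156) (PT.nd (nat_lit 78) (PT.lf (nat_lit 47880) (nat_lit 6) (nat_lit 630) (nat_lit 3) (nat_lit 187) (nat_lit 182) (nat_lit 201)) (PT.lf (nat_lit 48792) (nat_lit 6) (nat_lit 642) (nat_lit 3) (nat_lit 188) (nat_lit 182) (nat_lit 200))) (PT.nd (nat_lit 78) (PT.lf (nat_lit 49628) (nat_lit 6) (nat_lit 653) (nat_lit 3) (nat_lit 189) (nat_lit 182) (nat_lit 199)) (PT.lf (nat_lit 50388) (nat_lit 6) (nat_lit 663) (nat_lit 3) (nat_lit 190) (nat_lit 182) (nat_lit 198)))) (PT.nd (nat_lit 156) (PT.nd (nat_lit 78) (PT.lf (nat_lit 50464)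 (nat_lit 6) (nat_lit 664) (nat_lit 3) (nat_lit 191) (nat_lit 182) (nat_lit 197)) (PT.lf (nat_lit 50540) (nat_lit 6) (nat_lit 665) (nat_lit 3) (nat_lit 192) (nat_lit 182) (nat_lit 196))) (PT.nd (nat_lit 78) (PT.lf (nat_lit 50616) (nat_lit 6) (nat_lit 666) (nat_lit 3) (nat_lit 193) (nat_lit 182) (nat_lit 195)) (PT.lf (nat_lit 50692) (nat_lit 3) (nat_lit 667) (nat_lit 1) (nat_lit 194) (nat_lit 182) (nat_lit 194)))))) (PT.nd (nat_lit 546) (PT.nd (nat_lit 234) (PT.nd (nat_lit 78) (PT.lf (nat_lit 50616) (nat_lit 6) (nat_lit 666) (nat_lit 1) (nat_lit 195) (nat_lit 182) (nat_lit 193)) (PT.nd (nat_lit 78) (PT.lf (nat_lit 50540) (nat_lit 6) (nat_lit 665) (nat_lit 1) (nat_lit 196) (nat_lit 182) (nat_lit 192)) (PT.lf (nat_lit 50464) (nat_lit 6) (nat_lit 664) (nat_lit 1) (nat_lit 197) (nat_lit 182) (nat_lit 191)))) (PT.nd (nat_lit 156) (PT.nd (nat_lit 78) (PT.lf (nat_lit 50388) (nat_lit 6) (nat_lit 663) (nat_lit 1) (nat_lit 198)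 (nat_lit 182) (nat_lit 190)) (PT.lf (nat_lit 49628) (nat_lit 6) (nat_lit 653) (nat_lit 1) (nat_lit 199) (nat_lit 182) (nat_lit 189))) (PT.nd (nat_lit 78) (PT.lf (nat_lit 48792) (nat_lit 6) (nat_lit 642) (nat_lit 1) (nat_lit 200) (nat_lit 182) (nat_lit 188)) (PT.lf (nat_lit 47880) (nat_lit 6) (nat_lit 630) (nat_lit 1) (nat_lit 201) (nat_lit 182) (nat_lit 187))))) (PT.nd (nat_lit 312) (PT.nd (nat_lit 156) (PT.nd (nat_lit 78) (PT.lf (nat_lit 46892) (nat_lit 6) (nat_lit 617) (nat_lit 1) (nat_lit 202) (nat_lit 182) (nat_lit 186)) (PT.lf (nat_lit 45828) (nat_lit 6) (nat_lit 603) (nat_lit 1) (nat_lit 203) (nat_lit 182) (nat_lit 185))) (PT.nd (nat_lit 78) (PT.lf (nat_lit 44688) (nat_lit 6) (nat_lit 588) (nat_lit 1) (nat_lit 204) (nat_lit 182) (nat_lit 184)) (PT.lf (nat_lit 43472) (nat_lit 6) (nat_lit 572) (nat_lit 1) (nat_lit 205) (nat_lit 182) (nat_lit 183)))) (PT.nd (nat_lit 156) (PT.nd (nat_lit 78) (PT.lf (nat_lit 42180)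 (nat_lit 3) (nat_lit 555) (nat_lit 0) (nat_lit 206) (nat_lit 182) (nat_lit 182)) (PT.lf (nat_lit 40888) (nat_lit 6) (nat_lit 538) (nat_lit 0) (nat_lit 207) (nat_lit 182) (nat_lit 181))) (PT.nd (nat_lit 78) (PT.lf (nat_lit 39520) (nat_lit 6) (nat_lit 520) (nat_lit 0) (nat_lit 208) (nat_lit 182) (nat_lit 180)) (PT.lf (nat_lit 38076) (nat_lit 6) (nat_lit 501) (nat_lit 0) (nat_lit 209) (nat_lit 182) (nat_lit 179))))))) (PT.nd (nat_lit 57408) (PT.nd (nat_lit 56784) (PT.nd (nat_lit 234) (PT.nd (nat_lit 78) (PT.lf (nat_lit 36556) (nat_lit 6) (nat_lit 481) (nat_lit 0) (nat_lit 210) (nat_lit 182) (nat_lit 178)) (PT.nd (nat_lit 78) (PT.lf (nat_lit 34960) (nat_lit 6) (nat_lit 460) (nat_lit 0) (nat_lit 211) (nat_lit 182) (nat_lit 177)) (PT.lf (nat_lit 33288) (nat_lit 6) (nat_lit 438) (nat_lit 0) (nat_lit 212) (nat_lit 182) (nat_lit 176)))) (PT.nd (nat_lit 56394) (PT.nd (nat_lit 56316) (PT.lf (nat_lit 31540) (nat_lit 6) (nat_lit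 415) (nat_lit 0) (nat_lit 213) (nat_lit 182) (nat_lit 175)) (PT.lf (nat_lit 31616) (nat_lit 6) (nat_lit 416) (nat_lit 5) (nat_lit 174) (nat_lit 183) (nat_lit 213))) (PT.nd (nat_lit 78) (PT.lf (nat_lit 33364) (nat_lit 6) (nat_lit 439) (nat_lit 5) (nat_lit 175) (nat_lit 183) (nat_lit 212)) (PT.lf (nat_lit 35036) (nat_lit 6) (nat_lit 461) (nat_lit 5) (nat_lit 176) (nat_lit 183) (nat_lit 211))))) (PT.nd (nat_lit 312) (PT.nd (nat_lit 156) (PT.nd (nat_lit 78) (PT.lf (nat_lit 36632) (nat_lit 6) (nat_lit 482) (nat_lit 5) (nat_lit 177) (nat_lit 183) (nat_lit 210)) (PT.lf (nat_lit 38152) (nat_lit 6) (nat_lit 502) (nat_lit 5) (nat_lit 178) (nat_lit 183) (nat_lit 209))) (PT.nd (nat_lit 78) (PT.lf (nat_lit 39596) (nat_lit 6) (nat_lit 521) (nat_lit 5) (nat_lit 179) (nat_lit 183) (nat_lit 208)) (PT.lf (nat_lit 40964) (nat_lit 6) (nat_lit 539) (nat_lit 5) (nat_lit 180) (nat_lit 183) (nat_lit 207)))) (PT.nd (nat_lit 156) (PT.nd (nat_lit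 78) (PT.lf (nat_lit 42256) (nat_lit 6) (nat_lit 556) (nat_lit 5) (nat_lit 181) (nat_lit 183) (nat_lit 206)) (PT.lf (nat_lit 43472) (nat_lit 6) (nat_lit 572) (nat_lit 5) (nat_lit 182) (nat_lit 183) (nat_lit 205))) (PT.nd (nat_lit 78) (PT.lf (nat_lit 44612) (nat_lit 3) (nat_lit 587) (nat_lit 3) (nat_lit 183) (nat_lit 183) (nat_lit 204)) (PT.lf (nat_lit 45752) (nat_lit 6) (nat_lit 602) (nat_lit 3) (nat_lit 184) (nat_lit 183) (nat_lit 203)))))) (PT.nd (nat_lit 624) (PT.nd (nat_lit 312) (PT.nd (nat_lit 156) (PT.nd (nat_lit 78) (PT.lf (nat_lit 46816) (nat_lit 6) (nat_lit 616) (nat_lit 3) (nat_lit 185) (nat_lit 183) (nat_lit 202)) (PT.lf (nat_lit 47804) (nat_lit 6) (nat_lit 629) (nat_lit 3) (nat_lit 186) (nat_lit 183) (nat_lit 201))) (PT.nd (nat_lit 78) (PT.lf (nat_lit 48716) (nat_lit 6) (nat_lit 641) (nat_lit 3) (nat_lit 187) (nat_lit 183) (nat_lit 200)) (PT.lf (nat_lit 49552) (nat_lit 6) (nat_lit 652) (nat_lit 3) (nat_lit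 188) (nat_lit 183) (nat_lit 199)))) (PT.nd (nat_lit 156) (PT.nd (nat_lit 78) (PT.lf (nat_lit 50312) (nat_lit 6) (nat_lit 662) (nat_lit 3) (nat_lit 189) (nat_lit 183) (nat_lit 198)) (PT.lf (nat_lit 50996) (nat_lit 6) (nat_lit 671) (nat_lit 3) (nat_lit 190) (nat_lit 183) (nat_lit 197))) (PT.nd (nat_lit 78) (PT.lf (nat_lit 51072) (nat_lit 6) (nat_lit 672) (nat_lit 3) (nat_lit 191) (nat_lit 183) (nat_lit 196)) (PT.lf (nat_lit 51148) (nat_lit 6) (nat_lit 673) (nat_lit 3) (nat_lit 192) (nat_lit 183) (nat_lit 195))))) (PT.nd (nat_lit 312) (PT.nd (nat_lit 156) (PT.nd (nat_lit 78) (PT.lf (nat_lit 51224) (nat_lit 6) (nat_lit 674) (nat_lit 3) (nat_lit 193) (nat_lit 183) (nat_lit 194)) (PT.lf (nat_lit 51224) (nat_lit 6) (nat_lit 674) (nat_lit 1) (nat_lit 194) (nat_lit 183) (nat_lit 193))) (PT.nd (nat_lit 78) (PT.lf (nat_lit 51148) (nat_lit 6) (nat_lit 673) (nat_lit 1) (nat_lit 195) (nat_lit 183) (nat_lit 192)) (PT.lf (nat_lit 51072)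 (nat_lit 6) (nat_lit 672) (nat_lit 1) (nat_lit 196) (nat_lit 183) (nat_lit 191)))) (PT.nd (nat_lit 156) (PT.nd (nat_lit 78) (PT.lf (nat_lit 50996) (nat_lit 6) (nat_lit 671) (nat_lit 1) (nat_lit 197) (nat_lit 183) (nat_lit 190)) (PT.lf (nat_lit 50312) (nat_lit 6) (nat_lit 662) (nat_lit 1) (nat_lit 198) (nat_lit 183) (nat_lit 189))) (PT.nd (nat_lit 78) (PT.lf (nat_lit 49552) (nat_lit 6) (nat_lit 652) (nat_lit 1) (nat_lit 199) (nat_lit 183) (nat_lit 188)) (PT.lf (nat_lit 48716) (nat_lit 6) (nat_lit 641) (nat_lit 1) (nat_lit 200) (nat_lit 183) (nat_lit 187))))))))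
noncomputable def pc21 : PT := (PT.nd (nat_lit 58578) (PT.nd (nat_lit 57330) (PT.nd (nat_lit 546) (PT.nd (nat_lit 234) (PT.nd (nat_lit 78) (PT.lf (nat_lit 47804) (nat_lit 6) (nat_lit 629) (nat_lit 1) (nat_lit 201) (nat_lit 183) (nat_lit 186)) (PT.nd (nat_lit 78) (PT.lf (nat_lit 46816) (nat_lit 6) (nat_lit 616) (nat_lit 1) (nat_lit 202) (nat_lit 183) (nat_lit 185)) (PT.lf (nat_lit 45752) (nat_lit 6) (nat_lit 602) (nat_lit 1) (nat_lit 203) (nat_lit 183) (nat_lit 184)))) (PT.nd (nat_lit 156) (PT.nd (nat_lit 78) (PT.lf (nat_lit 44612) (nat_lit 3) (nat_lit 587) (nat_lit 0) (nat_lit 204) (nat_lit 183) (nat_lit 183)) (PT.lf (nat_lit 43472) (nat_lit 6) (nat_lit 572) (nat_lit 0) (nat_lit 205) (nat_lit 183) (nat_lit 182))) (PT.nd (nat_lit 78) (PT.lf (nat_lit 42256) (nat_lit 6) (nat_lit 556) (nat_lit 0) (nat_lit 206) (nat_lit 183) (nat_lit 181)) (PT.lf (nat_lit 40964) (nat_lit 6) (nat_lit 539) (nat_lit 0) (nat_lit 207) (nat_lit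 183) (nat_lit 180))))) (PT.nd (nat_lit 312) (PT.nd (nat_lit 156) (PT.nd (nat_lit 78) (PT.lf (nat_lit 39596) (nat_lit 6) (nat_lit 521) (nat_lit 0) (nat_lit 208) (nat_lit 183) (nat_lit 179)) (PT.lf (nat_lit 38152) (nat_lit 6) (nat_lit 502) (nat_lit 0) (nat_lit 209) (nat_lit 183) (nat_lit 178))) (PT.nd (nat_lit 78) (PT.lf (nat_lit 36632) (nat_lit 6) (nat_lit 482) (nat_lit 0) (nat_lit 210) (nat_lit 183) (nat_lit 177)) (PT.lf (nat_lit 35036) (nat_lit 6) (nat_lit 461) (nat_lit 0) (nat_lit 211) (nat_lit 183) (nat_lit 176)))) (PT.nd (nat_lit 56316) (PT.nd (nat_lit 78) (PT.lf (nat_lit 33364) (nat_lit 6) (nat_lit 439) (nat_lit 0) (nat_lit 212) (nat_lit 183) (nat_lit 175)) (PT.lf (nat_lit 31616) (nat_lit 6) (nat_lit 416) (nat_lit 0) (nat_lit 213) (nat_lit 183) (nat_lit 174))) (PT.nd (nat_lit 78) (PT.lf (nat_lit 31692) (nat_lit 6) (nat_lit 417) (nat_lit 5) (nat_lit 173) (nat_lit 184) (nat_lit 213)) (PT.lf (nat_lit 33440) (nat_lit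 6) (nat_lit 440) (nat_lit 5) (nat_lit 174) (nat_lit 184) (nat_lit 212)))))) (PT.nd (nat_lit 624) (PT.nd (nat_lit 312) (PT.nd (nat_lit 156) (PT.nd (nat_lit 78) (PT.lf (nat_lit 35112) (nat_lit 6) (nat_lit 462) (nat_lit 5) (nat_lit 175) (nat_lit 184) (nat_lit 211)) (PT.lf (nat_lit 36708) (nat_lit 6) (nat_lit 483) (nat_lit 5) (nat_lit 176) (nat_lit 184) (nat_lit 210))) (PT.nd (nat_lit 78) (PT.lf (nat_lit 38228) (nat_lit 6) (nat_lit 503) (nat_lit 5) (nat_lit 177) (nat_lit 184) (nat_lit 209)) (PT.lf (nat_lit 39672) (nat_lit 6) (nat_lit 522) (nat_lit 5) (nat_lit 178) (nat_lit 184) (nat_lit 208)))) (PT.nd (nat_lit 156) (PT.nd (nat_lit 78) (PT.lf (nat_lit 41040) (nat_lit 6) (nat_lit 540) (nat_lit 5) (nat_lit 179) (nat_lit 184) (nat_lit 207)) (PT.lf (nat_lit 42332) (nat_lit 6) (nat_lit 557) (nat_lit 5) (nat_lit 180) (nat_lit 184) (nat_lit 206))) (PT.nd (nat_lit 78) (PT.lf (nat_lit 43548) (nat_lit 6) (nat_lit 573) (nat_lit 5) (nat_lit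 181) (nat_lit 184) (nat_lit 205)) (PT.lf (nat_lit 44688) (nat_lit 6) (nat_lit 588) (nat_lit 5) (nat_lit 182) (nat_lit 184) (nat_lit 204))))) (PT.nd (nat_lit 312) (PT.nd (nat_lit 156) (PT.nd (nat_lit 78) (PT.lf (nat_lit 45752) (nat_lit 6) (nat_lit 602) (nat_lit 5) (nat_lit 183) (nat_lit 184) (nat_lit 203)) (PT.lf (nat_lit 46740) (nat_lit 3) (nat_lit 615) (nat_lit 3) (nat_lit 184) (nat_lit 184) (nat_lit 202))) (PT.nd (nat_lit 78) (PT.lf (nat_lit 47728) (nat_lit 6) (nat_lit 628) (nat_lit 3) (nat_lit 185) (nat_lit 184) (nat_lit 201)) (PT.lf (nat_lit 48640) (nat_lit 6) (nat_lit 640) (nat_lit 3) (nat_lit 186) (nat_lit 184) (nat_lit 200)))) (PT.nd (nat_lit 156) (PT.nd (nat_lit 78) (PT.lf (nat_lit 49476) (nat_lit 6) (nat_lit 651) (nat_lit 3) (nat_lit 187) (nat_lit 184) (nat_lit 199)) (PT.lf (nat_lit 50236) (nat_lit 6) (nat_lit 661) (nat_lit 3) (nat_lit 188) (nat_lit 184) (nat_lit 198))) (PT.nd (nat_lit 78) (PT.lf (nat_lit 50920)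 (nat_lit 6) (nat_lit 670) (nat_lit 3) (nat_lit 189) (nat_lit 184) (nat_lit 197)) (PT.lf (nat_lit 51528) (nat_lit 6) (nat_lit 678) (nat_lit 3) (nat_lit 190) (nat_lit 184) (nat_lit 196))))))) (PT.nd (nat_lit 1170) (PT.nd (nat_lit 546) (PT.nd (nat_lit 234) (PT.nd (nat_lit 78) (PT.lf (nat_lit 51604) (nat_lit 6) (nat_lit 679) (nat_lit 3) (nat_lit 191) (nat_lit 184) (nat_lit 195)) (PT.nd (nat_lit 78) (PT.lf (nat_lit 51680) (nat_lit 6) (nat_lit 680) (nat_lit 3) (nat_lit 192) (nat_lit 184) (nat_lit 194)) (PT.lf (nat_lit 51756) (nat_lit 3) (nat_lit 681) (nat_lit 1) (nat_lit 193) (nat_lit 184) (nat_lit 193)))) (PT.nd (nat_lit 156) (PT.nd (nat_lit 78) (PT.lf (nat_lit 51680) (nat_lit 6) (nat_lit 680) (nat_lit 1) (nat_lit 194) (nat_lit 184) (nat_lit 192)) (PT.lf (nat_lit 51604) (nat_lit 6) (nat_lit 679) (nat_lit 1) (nat_lit 195) (nat_lit 184) (nat_lit 191))) (PT.nd (nat_lit 78) (PT.lf (nat_lit 51528) (nat_lit 6) (nat_lit 678) (nat_lit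 1) (nat_lit 196) (nat_lit 184) (nat_lit 190)) (PT.lf (nat_lit 50920) (nat_lit 6) (nat_lit 670) (nat_lit 1) (nat_lit 197) (nat_lit 184) (nat_lit 189))))) (PT.nd (nat_lit 312) (PT.nd (nat_lit 156) (PT.nd (nat_lit 78) (PT.lf (nat_lit 50236) (nat_lit 6) (nat_lit 661) (nat_lit 1) (nat_lit 198) (nat_lit 184) (nat_lit 188)) (PT.lf (nat_lit 49476) (nat_lit 6) (nat_lit 651) (nat_lit 1) (nat_lit 199) (nat_lit 184) (nat_lit 187))) (PT.nd (nat_lit 78) (PT.lf (nat_lit 48640) (nat_lit 6) (nat_lit 640) (nat_lit 1) (nat_lit 200) (nat_lit 184) (nat_lit 186)) (PT.lf (nat_lit 47728) (nat_lit 6) (nat_lit 628) (nat_lit 1) (nat_lit 201) (nat_lit 184) (nat_lit 185)))) (PT.nd (nat_lit 156) (PT.nd (nat_lit 78) (PT.lf (nat_lit 46740) (nat_lit 3) (nat_lit 615) (nat_lit 0) (nat_lit 202) (nat_lit 184) (nat_lit 184)) (PT.lf (nat_lit 45752) (nat_lit 6) (nat_lit 602) (nat_lit 0) (nat_lit 203) (nat_lit 184) (nat_lit 183))) (PT.nd (nat_lit 78) (PT.lf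 (nat_lit 44688) (nat_lit 6) (nat_lit 588) (nat_lit 0) (nat_lit 204) (nat_lit 184) (nat_lit 182)) (PT.lf (nat_lit 43548) (nat_lit 6) (nat_lit 573) (nat_lit 0) (nat_lit 205) (nat_lit 184) (nat_lit 181)))))) (PT.nd (nat_lit 56706) (PT.nd (nat_lit 312) (PT.nd (nat_lit 156) (PT.nd (nat_lit 78) (PT.lf (nat_lit 42332) (nat_lit 6) (nat_lit 557) (nat_lit 0) (nat_lit 206) (nat_lit 184) (nat_lit 180)) (PT.lf (nat_lit 41040) (nat_lit 6) (nat_lit 540) (nat_lit 0) (nat_lit 207) (nat_lit 184) (nat_lit 179))) (PT.nd (nat_lit 78) (PT.lf (nat_lit 39672) (nat_lit 6) (nat_lit 522) (nat_lit 0) (nat_lit 208) (nat_lit 184) (nat_lit 178)) (PT.lf (nat_lit 38228) (nat_lit 6) (nat_lit 503) (nat_lit 0) (nat_lit 209) (nat_lit 184) (nat_lit 177)))) (PT.nd (nat_lit 156) (PT.nd (nat_lit 78) (PT.lf (nat_lit 36708) (nat_lit 6) (nat_lit 483) (nat_lit 0) (nat_lit 210) (nat_lit 184) (nat_lit 176)) (PT.lf (nat_lit 35112) (nat_lit 6) (nat_lit 462) (nat_lit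 0) (nat_lit 211) (nat_lit 184) (nat_lit 175))) (PT.nd (nat_lit 78) (PT.lf (nat_lit 33440) (nat_lit 6) (nat_lit 440) (nat_lit 0) (nat_lit 212) (nat_lit 184) (nat_lit 174)) (PT.lf (nat_lit 31692) (nat_lit 6) (nat_lit 417) (nat_lit 0) (nat_lit 213) (nat_lit 184) (nat_lit 173))))) (PT.nd (nat_lit 312) (PT.nd (nat_lit 156) (PT.nd (nat_lit 78) (PT.lf (nat_lit 31768) (nat_lit 6) (nat_lit 418) (nat_lit 5) (nat_lit 172) (nat_lit 185) (nat_lit 213)) (PT.lf (nat_lit 33516) (nat_lit 6) (nat_lit 441) (nat_lit 5) (nat_lit 173) (nat_lit 185) (nat_lit 212))) (PT.nd (nat_lit 78) (PT.lf (nat_lit 35188) (nat_lit 6) (nat_lit 463) (nat_lit 5) (nat_lit 174) (nat_lit 185) (nat_lit 211)) (PT.lf (nat_lit 36784) (nat_lit 6) (nat_lit 484) (nat_lit 5) (nat_lit 175) (nat_lit 185) (nat_lit 210)))) (PT.nd (nat_lit 156) (PT.nd (nat_lit 78) (PT.lf (nat_lit 38304) (nat_lit 6) (nat_lit 504) (nat_lit 5) (nat_lit 176) (nat_lit 185) (nat_lit 209)) (PT.lf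 (nat_lit 39748) (nat_lit 6) (nat_lit 523) (nat_lit 5) (nat_lit 177) (nat_lit 185) (nat_lit 208))) (PT.nd (nat_lit 78) (PT.lf (nat_lit 41116) (nat_lit 6) (nat_lit 541) (nat_lit 5) (nat_lit 178) (nat_lit 185) (nat_lit 207)) (PT.lf (nat_lit 42408) (nat_lit 6) (nat_lit 558) (nat_lit 5) (nat_lit 179) (nat_lit 185) (nat_lit 206))))))))
noncomputable def pc22 : PT := (PT.nd (nat_lit 2340) (PT.nd (nat_lit 1170) (PT.nd (nat_lit 546) (PT.nd (nat_lit 234) (PT.nd (nat_lit 78) (PT.lf (nat_lit 43624) (nat_lit 6) (nat_lit 574) (nat_lit 5) (nat_lit 180) (nat_lit 185) (nat_lit 205)) (PT.nd (nat_lit 78) (PT.lf (nat_lit 44764) (nat_lit 6) (nat_lit 589) (nat_lit 5) (nat_lit 181) (nat_lit 185) (nat_lit 204)) (PT.lf (nat_lit 45828) (nat_lit 6) (nat_lit 603) (nat_lit 5) (nat_lit 182) (nat_lit 185) (nat_lit 203)))) (PT.nd (nat_lit 156) (PT.nd (nat_lit 78) (PT.lf (nat_lit 46816) (nat_lit 6) (nat_lit 616) (nat_lit 5) (nat_lit 183) (nat_lit 185)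 (nat_lit 202)) (PT.lf (nat_lit 47728) (nat_lit 6) (nat_lit 628) (nat_lit 5) (nat_lit 184) (nat_lit 185) (nat_lit 201))) (PT.nd (nat_lit 78) (PT.lf (nat_lit 48564) (nat_lit 3) (nat_lit 639) (nat_lit 3) (nat_lit 185) (nat_lit 185) (nat_lit 200)) (PT.lf (nat_lit 49400) (nat_lit 6) (nat_lit 650) (nat_lit 3) (nat_lit 186) (nat_lit 185) (nat_lit 199))))) (PT.nd (nat_lit 312) (PT.nd (nat_lit 156) (PT.nd (nat_lit 78) (PT.lf (nat_lit 50160) (nat_lit 6) (nat_lit 660) (nat_lit 3) (nat_lit 187) (nat_lit 185) (nat_lit 198)) (PT.lf (nat_lit 50844) (nat_lit 6) (nat_lit 669) (nat_lit 3) (nat_lit 188) (nat_lit 185) (nat_lit 197))) (PT.nd (nat_lit 78) (PT.lf (nat_lit 51452) (nat_lit 6) (nat_lit 677) (nat_lit 3) (nat_lit 189) (nat_lit 185) (nat_lit 196)) (PT.lf (nat_lit 51984) (nat_lit 6) (nat_lit 684) (nat_lit 3) (nat_lit 190) (nat_lit 185) (nat_lit 195)))) (PT.nd (nat_lit 156) (PT.nd (nat_lit 78) (PT.lf (nat_lit 52060) (nat_lit 6) (nat_lit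 685) (nat_lit 3) (nat_lit 191) (nat_lit 185) (nat_lit 194)) (PT.lf (nat_lit 52136) (nat_lit 6) (nat_lit 686) (nat_lit 3) (nat_lit 192) (nat_lit 185) (nat_lit 193))) (PT.nd (nat_lit 78) (PT.lf (nat_lit 52136) (nat_lit 6) (nat_lit 686) (nat_lit 1) (nat_lit 193) (nat_lit 185) (nat_lit 192)) (PT.lf (nat_lit 52060) (nat_lit 6) (nat_lit 685) (nat_lit 1) (nat_lit 194) (nat_lit 185) (nat_lit 191)))))) (PT.nd (nat_lit 546) (PT.nd (nat_lit 234) (PT.nd (nat_lit 78) (PT.lf (nat_lit 51984) (nat_lit 6) (nat_lit 684) (nat_lit 1) (nat_lit 195) (nat_lit 185) (nat_lit 190)) (PT.nd (nat_lit 78) (PT.lf (nat_lit 51452) (nat_lit 6) (nat_lit 677) (nat_lit 1) (nat_lit 196) (nat_lit 185) (nat_lit 189)) (PT.lf (nat_lit 50844) (nat_lit 6) (nat_lit 669) (nat_lit 1) (nat_lit 197) (nat_lit 185) (nat_lit 188)))) (PT.nd (nat_lit 156) (PT.nd (nat_lit 78) (PT.lf (nat_lit 50160) (nat_lit 6) (nat_lit 660) (nat_lit 1) (nat_lit 198) (nat_lit 185) (nat_lit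 187)) (PT.lf (nat_lit 49400) (nat_lit 6) (nat_lit 650) (nat_lit 1) (nat_lit 199) (nat_lit 185) (nat_lit 186))) (PT.nd (nat_lit 78) (PT.lf (nat_lit 48564) (nat_lit 3) (nat_lit 639) (nat_lit 0) (nat_lit 200) (nat_lit 185) (nat_lit 185)) (PT.lf (nat_lit 47728) (nat_lit 6) (nat_lit 628) (nat_lit 0) (nat_lit 201) (nat_lit 185) (nat_lit 184))))) (PT.nd (nat_lit 312) (PT.nd (nat_lit 156) (PT.nd (nat_lit 78) (PT.lf (nat_lit 46816) (nat_lit 6) (nat_lit 616) (nat_lit 0) (nat_lit 202) (nat_lit 185) (nat_lit 183)) (PT.lf (nat_lit 45828) (nat_lit 6) (nat_lit 603) (nat_lit 0) (nat_lit 203) (nat_lit 185) (nat_lit 182))) (PT.nd (nat_lit 78) (PT.lf (nat_lit 44764) (nat_lit 6) (nat_lit 589) (nat_lit 0) (nat_lit 204) (nat_lit 185) (nat_lit 181)) (PT.lf (nat_lit 43624) (nat_lit 6) (nat_lit 574) (nat_lit 0) (nat_lit 205) (nat_lit 185) (nat_lit 180)))) (PT.nd (nat_lit 156) (PT.nd (nat_lit 78) (PT.lf (nat_lit 42408) (nat_lit 6) (nat_lit 558)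 (nat_lit 0) (nat_lit 206) (nat_lit 185) (nat_lit 179)) (PT.lf (nat_lit 41116) (nat_lit 6) (nat_lit 541) (nat_lit 0) (nat_lit 207) (nat_lit 185) (nat_lit 178))) (PT.nd (nat_lit 78) (PT.lf (nat_lit 39748) (nat_lit 6) (nat_lit 523) (nat_lit 0) (nat_lit 208) (nat_lit 185) (nat_lit 177)) (PT.lf (nat_lit 38304) (nat_lit 6) (nat_lit 504) (nat_lit 0) (nat_lit 209) (nat_lit 185) (nat_lit 176))))))) (PT.nd (nat_lit 57174) (PT.nd (nat_lit 56550) (PT.nd (nat_lit 234) (PT.nd (nat_lit 78) (PT.lf (nat_lit 36784) (nat_lit 6) (nat_lit 484) (nat_lit 0) (nat_lit 210) (nat_lit 185) (nat_lit 175)) (PT.nd (nat_lit 78) (PT.lf (nat_lit 35188) (nat_lit 6) (nat_lit 463) (nat_lit 0) (nat_lit 211) (nat_lit 185) (nat_lit 174)) (PT.lf (nat_lit 33516) (nat_lit 6) (nat_lit 441) (nat_lit 0) (nat_lit 212) (nat_lit 185) (nat_lit 173)))) (PT.nd (nat_lit 56160) (PT.nd (nat_lit 56082) (PT.lf (nat_lit 31768) (nat_lit 6) (nat_lit 418) (nat_lit 0) (nat_lit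 213) (nat_lit 185) (nat_lit 172)) (PT.lf (nat_lit 31844) (nat_lit 6) (nat_lit 419) (nat_lit 5) (nat_lit 171) (nat_lit 186) (nat_lit 213))) (PT.nd (nat_lit 78) (PT.lf (nat_lit 33592) (nat_lit 6) (nat_lit 442) (nat_lit 5) (nat_lit 172) (nat_lit 186) (nat_lit 212)) (PT.lf (nat_lit 35264) (nat_lit 6) (nat_lit 464) (nat_lit 5) (nat_lit 173) (nat_lit 186) (nat_lit 211))))) (PT.nd (nat_lit 312) (PT.nd (nat_lit 156) (PT.nd (nat_lit 78) (PT.lf (nat_lit 36860) (nat_lit 6) (nat_lit 485) (nat_lit 5) (nat_lit 174) (nat_lit 186) (nat_lit 210)) (PT.lf (nat_lit 38380) (nat_lit 6) (nat_lit 505) (nat_lit 5) (nat_lit 175) (nat_lit 186) (nat_lit 209))) (PT.nd (nat_lit 78) (PT.lf (nat_lit 39824) (nat_lit 6) (nat_lit 524) (nat_lit 5) (nat_lit 176) (nat_lit 186) (nat_lit 208)) (PT.lf (nat_lit 41192) (nat_lit 6) (nat_lit 542) (nat_lit 5) (nat_lit 177) (nat_lit 186) (nat_lit 207)))) (PT.nd (nat_lit 156) (PT.nd (nat_lit 78) (PT.lf (nat_lit 42484)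 (nat_lit 6) (nat_lit 559) (nat_lit 5) (nat_lit 178) (nat_lit 186) (nat_lit 206)) (PT.lf (nat_lit 43700) (nat_lit 6) (nat_lit 575) (nat_lit 5) (nat_lit 179) (nat_lit 186) (nat_lit 205))) (PT.nd (nat_lit 78) (PT.lf (nat_lit 44840) (nat_lit 6) (nat_lit 590) (nat_lit 5) (nat_lit 180) (nat_lit 186) (nat_lit 204)) (PT.lf (nat_lit 45904) (nat_lit 6) (nat_lit 604) (nat_lit 5) (nat_lit 181) (nat_lit 186) (nat_lit 203)))))) (PT.nd (nat_lit 624) (PT.nd (nat_lit 312) (PT.nd (nat_lit 156) (PT.nd (nat_lit 78) (PT.lf (nat_lit 46892) (nat_lit 6) (nat_lit 617) (nat_lit 5) (nat_lit 182) (nat_lit 186) (nat_lit 202)) (PT.lf (nat_lit 47804) (nat_lit 6) (nat_lit 629) (nat_lit 5) (nat_lit 183) (nat_lit 186) (nat_lit 201))) (PT.nd (nat_lit 78) (PT.lf (nat_lit 48640) (nat_lit 6) (nat_lit 640) (nat_lit 5) (nat_lit 184) (nat_lit 186) (nat_lit 200)) (PT.lf (nat_lit 49400) (nat_lit 6) (nat_lit 650) (nat_lit 5) (nat_lit 185) (nat_lit 186) (nat_lit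 199)))) (PT.nd (nat_lit 156) (PT.nd (nat_lit 78) (PT.lf (nat_lit 50084) (nat_lit 3) (nat_lit 659) (nat_lit 3) (nat_lit 186) (nat_lit 186) (nat_lit 198)) (PT.lf (nat_lit 50768) (nat_lit 6) (nat_lit 668) (nat_lit 3) (nat_lit 187) (nat_lit 186) (nat_lit 197))) (PT.nd (nat_lit 78) (PT.lf (nat_lit 51376) (nat_lit 6) (nat_lit 676) (nat_lit 3) (nat_lit 188) (nat_lit 186) (nat_lit 196)) (PT.lf (nat_lit 51908) (nat_lit 6) (nat_lit 683) (nat_lit 3) (nat_lit 189) (nat_lit 186) (nat_lit 195))))) (PT.nd (nat_lit 312) (PT.nd (nat_lit 156) (PT.nd (nat_lit 78) (PT.lf (nat_lit 52364) (nat_lit 6) (nat_lit 689) (nat_lit 3) (nat_lit 190) (nat_lit 186) (nat_lit 194)) (PT.lf (nat_lit 52440) (nat_lit 6) (nat_lit 690) (nat_lit 3) (nat_lit 191) (nat_lit 186) (nat_lit 193))) (PT.nd (nat_lit 78) (PT.lf (nat_lit 52516) (nat_lit 3) (nat_lit 691) (nat_lit 1) (nat_lit 192) (nat_lit 186) (nat_lit 192)) (PT.lf (nat_lit 52440) (nat_lit 6) (nat_lit 690)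 (nat_lit 1) (nat_lit 193) (nat_lit 186) (nat_lit 191)))) (PT.nd (nat_lit 156) (PT.nd (nat_lit 78) (PT.lf (nat_lit 52364) (nat_lit 6) (nat_lit 689) (nat_lit 1) (nat_lit 194) (nat_lit 186) (nat_lit 190)) (PT.lf (nat_lit 51908) (nat_lit 6) (nat_lit 683) (nat_lit 1) (nat_lit 195) (nat_lit 186) (nat_lit 189))) (PT.nd (nat_lit 78) (PT.lf (nat_lit 51376) (nat_lit 6) (nat_lit 676) (nat_lit 1) (nat_lit 196) (nat_lit 186) (nat_lit 188)) (PT.lf (nat_lit 50768) (nat_lit 6) (nat_lit 668) (nat_lit 1) (nat_lit 197) (nat_lit 186) (nat_lit 187))))))))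
noncomputable def pc23 : PT := (PT.nd (nat_lit 58266) (PT.nd (nat_lit 1170) (PT.nd (nat_lit 546) (PT.nd (nat_lit 234) (PT.nd (nat_lit 78) (PT.lf (nat_lit 50084) (nat_lit 3) (nat_lit 659) (nat_lit 0) (nat_lit 198) (nat_lit 186) (nat_lit 186)) (PT.nd (nat_lit 78) (PT.lf (nat_lit 49400) (nat_lit 6) (nat_lit 650) (nat_lit 0) (nat_lit 199) (nat_lit 186) (nat_lit 185)) (PT.lf (nat_lit 48640) (nat_lit 6) (nat_lit 640) (nat_lit 0) (nat_lit 200) (nat_lit 186) (nat_lit 184)))) (PT.nd (nat_lit 156) (PT.nd (nat_lit 78) (PT.lf (nat_lit 47804) (nat_lit 6) (nat_lit 629) (nat_lit 0) (nat_lit 201) (nat_lit 186) (nat_lit 183)) (PT.lf (nat_lit 46892) (nat_lit 6) (nat_lit 617) (nat_lit 0) (nat_lit 202) (nat_lit 186) (nat_lit 182))) (PT.nd (nat_lit 78) (PT.lf (nat_lit 45904) (nat_lit 6) (nat_lit 604) (nat_lit 0) (nat_lit 203) (nat_lit 186) (nat_lit 181)) (PT.lf (nat_lit 44840) (nat_lit 6) (nat_lit 590) (nat_lit 0) (nat_lit 204) (nat_lit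 186) (nat_lit 180))))) (PT.nd (nat_lit 312) (PT.nd (nat_lit 156) (PT.nd (nat_lit 78) (PT.lf (nat_lit 43700) (nat_lit 6) (nat_lit 575) (nat_lit 0) (nat_lit 205) (nat_lit 186) (nat_lit 179)) (PT.lf (nat_lit 42484) (nat_lit 6) (nat_lit 559) (nat_lit 0) (nat_lit 206) (nat_lit 186) (nat_lit 178))) (PT.nd (nat_lit 78) (PT.lf (nat_lit 41192) (nat_lit 6) (nat_lit 542) (nat_lit 0) (nat_lit 207) (nat_lit 186) (nat_lit 177)) (PT.lf (nat_lit 39824) (nat_lit 6) (nat_lit 524) (nat_lit 0) (nat_lit 208) (nat_lit 186) (nat_lit 176)))) (PT.nd (nat_lit 156) (PT.nd (nat_lit 78) (PT.lf (nat_lit 38380) (nat_lit 6) (nat_lit 505) (nat_lit 0) (nat_lit 209) (nat_lit 186) (nat_lit 175)) (PT.lf (nat_lit 36860) (nat_lit 6) (nat_lit 485) (nat_lit 0) (nat_lit 210) (nat_lit 186) (nat_lit 174))) (PT.nd (nat_lit 78) (PT.lf (nat_lit 35264) (nat_lit 6) (nat_lit 464) (nat_lit 0) (nat_lit 211) (nat_lit 186) (nat_lit 173)) (PT.lf (nat_lit 33592) (nat_lit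 6) (nat_lit 442) (nat_lit 0) (nat_lit 212) (nat_lit 186) (nat_lit 172)))))) (PT.nd (nat_lit 56472) (PT.nd (nat_lit 56160) (PT.nd (nat_lit 56004) (PT.nd (nat_lit 55926) (PT.lf (nat_lit 31844) (nat_lit 6) (nat_lit 419) (nat_lit 0) (nat_lit 213) (nat_lit 186) (nat_lit 171)) (PT.lf (nat_lit 30096) (nat_lit 6) (nat_lit 396) (nat_lit 5) (nat_lit 169) (nat_lit 187) (nat_lit 214))) (PT.nd (nat_lit 78) (PT.lf (nat_lit 31920) (nat_lit 6) (nat_lit 420) (nat_lit 5) (nat_lit 170) (nat_lit 187) (nat_lit 213)) (PT.lf (nat_lit 33668) (nat_lit 6) (nat_lit 443) (nat_lit 5) (nat_lit 171) (nat_lit 187) (nat_lit 212)))) (PT.nd (nat_lit 156) (PT.nd (nat_lit 78) (PT.lf (nat_lit 35340) (nat_lit 6) (nat_lit 465) (nat_lit 5) (nat_lit 172) (nat_lit 187) (nat_lit 211)) (PT.lf (nat_lit 36936) (nat_lit 6) (nat_lit 486) (nat_lit 5) (nat_lit 173) (nat_lit 187) (nat_lit 210))) (PT.nd (nat_lit 78) (PT.lf (nat_lit 38456) (nat_lit 6) (nat_lit 506) (nat_lit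 5) (nat_lit 174) (nat_lit 187) (nat_lit 209)) (PT.lf (nat_lit 39900) (nat_lit 6) (nat_lit 525) (nat_lit 5) (nat_lit 175) (nat_lit 187) (nat_lit 208))))) (PT.nd (nat_lit 312) (PT.nd (nat_lit 156) (PT.nd (nat_lit 78) (PT.lf (nat_lit 41268) (nat_lit 6) (nat_lit 543) (nat_lit 5) (nat_lit 176) (nat_lit 187) (nat_lit 207)) (PT.lf (nat_lit 42560) (nat_lit 6) (nat_lit 560) (nat_lit 5) (nat_lit 177) (nat_lit 187) (nat_lit 206))) (PT.nd (nat_lit 78) (PT.lf (nat_lit 43776) (nat_lit 6) (nat_lit 576) (nat_lit 5) (nat_lit 178) (nat_lit 187) (nat_lit 205)) (PT.lf (nat_lit 44916) (nat_lit 6) (nat_lit 591) (nat_lit 5) (nat_lit 179) (nat_lit 187) (nat_lit 204)))) (PT.nd (nat_lit 156) (PT.nd (nat_lit 78) (PT.lf (nat_lit 45980) (nat_lit 6) (nat_lit 605) (nat_lit 5) (nat_lit 180) (nat_lit 187) (nat_lit 203)) (PT.lf (nat_lit 46968) (nat_lit 6) (nat_lit 618) (nat_lit 5) (nat_lit 181) (nat_lit 187) (nat_lit 202))) (PT.nd (nat_lit 78) (PT.lf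 (nat_lit 47880) (nat_lit 6) (nat_lit 630) (nat_lit 5) (nat_lit 182) (nat_lit 187) (nat_lit 201)) (PT.lf (nat_lit 48716) (nat_lit 6) (nat_lit 641) (nat_lit 5) (nat_lit 183) (nat_lit 187) (nat_lit 200))))))) (PT.nd (nat_lit 1170) (PT.nd (nat_lit 546) (PT.nd (nat_lit 234) (PT.nd (nat_lit 78) (PT.lf (nat_lit 49476) (nat_lit 6) (nat_lit 651) (nat_lit 5) (nat_lit 184) (nat_lit 187) (nat_lit 199)) (PT.nd (nat_lit 78) (PT.lf (nat_lit 50160) (nat_lit 6) (nat_lit 660) (nat_lit 5) (nat_lit 185) (nat_lit 187) (nat_lit 198)) (PT.lf (nat_lit 50768) (nat_lit 6) (nat_lit 668) (nat_lit 5) (nat_lit 186) (nat_lit 187) (nat_lit 197)))) (PT.nd (nat_lit 156) (PT.nd (nat_lit 78) (PT.lf (nat_lit 51300) (nat_lit 3) (nat_lit 675) (nat_lit 3) (nat_lit 187) (nat_lit 187) (nat_lit 196)) (PT.lf (nat_lit 51832) (nat_lit 6) (nat_lit 682) (nat_lit 3) (nat_lit 188) (nat_lit 187) (nat_lit 195))) (PT.nd (nat_lit 78) (PT.lf (nat_lit 52288) (nat_lit 6) (nat_lit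 688) (nat_lit 3) (nat_lit 189) (nat_lit 187) (nat_lit 194)) (PT.lf (nat_lit 52668) (nat_lit 6) (nat_lit 693) (nat_lit 3) (nat_lit 190) (nat_lit 187) (nat_lit 193))))) (PT.nd (nat_lit 312) (PT.nd (nat_lit 156) (PT.nd (nat_lit 78) (PT.lf (nat_lit 52744) (nat_lit 6) (nat_lit 694) (nat_lit 3) (nat_lit 191) (nat_lit 187) (nat_lit 192)) (PT.lf (nat_lit 52744) (nat_lit 6) (nat_lit 694) (nat_lit 1) (nat_lit 192) (nat_lit 187) (nat_lit 191))) (PT.nd (nat_lit 78) (PT.lf (nat_lit 52668) (nat_lit 6) (nat_lit 693) (nat_lit 1) (nat_lit 193) (nat_lit 187) (nat_lit 190)) (PT.lf (nat_lit 52288) (nat_lit 6) (nat_lit 688) (nat_lit 1) (nat_lit 194) (nat_lit 187) (nat_lit 189)))) (PT.nd (nat_lit 156) (PT.nd (nat_lit 78) (PT.lf (nat_lit 51832) (nat_lit 6) (nat_lit 682) (nat_lit 1) (nat_lit 195) (nat_lit 187) (nat_lit 188)) (PT.lf (nat_lit 51300) (nat_lit 3) (nat_lit 675) (nat_lit 0) (nat_lit 196) (nat_lit 187) (nat_lit 187))) (PT.nd (nat_lit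 78) (PT.lf (nat_lit 50768) (nat_lit 6) (nat_lit 668) (nat_lit 0) (nat_lit 197) (nat_lit 187) (nat_lit 186)) (PT.lf (nat_lit 50160) (nat_lit 6) (nat_lit 660) (nat_lit 0) (nat_lit 198) (nat_lit 187) (nat_lit 185)))))) (PT.nd (nat_lit 624) (PT.nd (nat_lit 312) (PT.nd (nat_lit 156) (PT.nd (nat_lit 78) (PT.lf (nat_lit 49476) (nat_lit 6) (nat_lit 651) (nat_lit 0) (nat_lit 199) (nat_lit 187) (nat_lit 184)) (PT.lf (nat_lit 48716) (nat_lit 6) (nat_lit 641) (nat_lit 0) (nat_lit 200) (nat_lit 187) (nat_lit 183))) (PT.nd (nat_lit 78) (PT.lf (nat_lit 47880) (nat_lit 6) (nat_lit 630) (nat_lit 0) (nat_lit 201) (nat_lit 187) (nat_lit 182)) (PT.lf (nat_lit 46968) (nat_lit 6) (nat_lit 618) (nat_lit 0) (nat_lit 202) (nat_lit 187) (nat_lit 181)))) (PT.nd (nat_lit 156) (PT.nd (nat_lit 78) (PT.lf (nat_lit 45980) (nat_lit 6) (nat_lit 605) (nat_lit 0) (nat_lit 203) (nat_lit 187) (nat_lit 180)) (PT.lf (nat_lit 44916) (nat_lit 6) (nat_lit 591)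 (nat_lit 0) (nat_lit 204) (nat_lit 187) (nat_lit 179))) (PT.nd (nat_lit 78) (PT.lf (nat_lit 43776) (nat_lit 6) (nat_lit 576) (nat_lit 0) (nat_lit 205) (nat_lit 187) (nat_lit 178)) (PT.lf (nat_lit 42560) (nat_lit 6) (nat_lit 560) (nat_lit 0) (nat_lit 206) (nat_lit 187) (nat_lit 177))))) (PT.nd (nat_lit 312) (PT.nd (nat_lit 156) (PT.nd (nat_lit 78) (PT.lf (nat_lit 41268) (nat_lit 6) (nat_lit 543) (nat_lit 0) (nat_lit 207) (nat_lit 187) (nat_lit 176)) (PT.lf (nat_lit 39900) (nat_lit 6) (nat_lit 525) (nat_lit 0) (nat_lit 208) (nat_lit 187) (nat_lit 175))) (PT.nd (nat_lit 78) (PT.lf (nat_lit 38456) (nat_lit 6) (nat_lit 506) (nat_lit 0) (nat_lit 209) (nat_lit 187) (nat_lit 174)) (PT.lf (nat_lit 36936) (nat_lit 6) (nat_lit 486) (nat_lit 0) (nat_lit 210) (nat_lit 187) (nat_lit 173)))) (PT.nd (nat_lit 156) (PT.nd (nat_lit 78) (PT.lf (nat_lit 35340) (nat_lit 6) (nat_lit 465) (nat_lit 0) (nat_lit 211) (nat_lit 187) (nat_lit 172))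 (PT.lf (nat_lit 33668) (nat_lit 6) (nat_lit 443) (nat_lit 0) (nat_lit 212) (nat_lit 187) (nat_lit 171))) (PT.nd (nat_lit 78) (PT.lf (nat_lit 31920) (nat_lit 6) (nat_lit 420) (nat_lit 0) (nat_lit 213) (nat_lit 187) (nat_lit 170)) (PT.lf (nat_lit 30096) (nat_lit 6) (nat_lit 396) (nat_lit 0) (nat_lit 214) (nat_lit 187) (nat_lit 169))))))))
noncomputable def pc24 : PT := (PT.nd (nat_lit 2340) (PT.nd (nat_lit 1170) (PT.nd (nat_lit 546) (PT.nd (nat_lit 234) (PT.nd (nat_lit 78) (PT.lf (nat_lit 30172) (nat_lit 6) (nat_lit 397) (nat_lit 5) (nat_lit 168) (nat_lit 188) (nat_lit 214)) (PT.nd (nat_lit 78) (PT.lf (nat_lit 31996) (nat_lit 6) (nat_lit 421) (nat_lit 5) (nat_lit 169) (nat_lit 188) (nat_lit 213)) (PT.lf (nat_lit 33744) (nat_lit 6) (nat_lit 444) (nat_lit 5) (nat_lit 170) (nat_lit 188) (nat_lit 212)))) (PT.nd (nat_lit 156) (PT.nd (nat_lit 78) (PT.lf (nat_lit 35416) (nat_lit 6) (nat_lit 466) (nat_lit 5) (nat_lit 171) (nat_lit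 188) (nat_lit 211)) (PT.lf (nat_lit 37012) (nat_lit 6) (nat_lit 487) (nat_lit 5) (nat_lit 172) (nat_lit 188) (nat_lit 210))) (PT.nd (nat_lit 78) (PT.lf (nat_lit 38532) (nat_lit 6) (nat_lit 507) (nat_lit 5) (nat_lit 173) (nat_lit 188) (nat_lit 209)) (PT.lf (nat_lit 39976) (nat_lit 6) (nat_lit 526) (nat_lit 5) (nat_lit 174) (nat_lit 188) (nat_lit 208))))) (PT.nd (nat_lit 312) (PT.nd (nat_lit 156) (PT.nd (nat_lit 78) (PT.lf (nat_lit 41344) (nat_lit 6) (nat_lit 544) (nat_lit 5) (nat_lit 175) (nat_lit 188) (nat_lit 207)) (PT.lf (nat_lit 42636) (nat_lit 6) (nat_lit 561) (nat_lit 5) (nat_lit 176) (nat_lit 188) (nat_lit 206))) (PT.nd (nat_lit 78) (PT.lf (nat_lit 43852) (nat_lit 6) (nat_lit 577) (nat_lit 5) (nat_lit 177) (nat_lit 188) (nat_lit 205)) (PT.lf (nat_lit 44992) (nat_lit 6) (nat_lit 592) (nat_lit 5) (nat_lit 178) (nat_lit 188) (nat_lit 204)))) (PT.nd (nat_lit 156) (PT.nd (nat_lit 78) (PT.lf (nat_lit 46056) (nat_lit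 6) (nat_lit 606) (nat_lit 5) (nat_lit 179) (nat_lit 188) (nat_lit 203)) (PT.lf (nat_lit 47044) (nat_lit 6) (nat_lit 619) (nat_lit 5) (nat_lit 180) (nat_lit 188) (nat_lit 202))) (PT.nd (nat_lit 78) (PT.lf (nat_lit 47956) (nat_lit 6) (nat_lit 631) (nat_lit 5) (nat_lit 181) (nat_lit 188) (nat_lit 201)) (PT.lf (nat_lit 48792) (nat_lit 6) (nat_lit 642) (nat_lit 5) (nat_lit 182) (nat_lit 188) (nat_lit 200)))))) (PT.nd (nat_lit 546) (PT.nd (nat_lit 234) (PT.nd (nat_lit 78) (PT.lf (nat_lit 49552) (nat_lit 6) (nat_lit 652) (nat_lit 5) (nat_lit 183) (nat_lit 188) (nat_lit 199)) (PT.nd (nat_lit 78) (PT.lf (nat_lit 50236) (nat_lit 6) (nat_lit 661) (nat_lit 5) (nat_lit 184) (nat_lit 188) (nat_lit 198)) (PT.lf (nat_lit 50844) (nat_lit 6) (nat_lit 669) (nat_lit 5) (nat_lit 185) (nat_lit 188) (nat_lit 197)))) (PT.nd (nat_lit 156) (PT.nd (nat_lit 78) (PT.lf (nat_lit 51376) (nat_lit 6) (nat_lit 676) (nat_lit 5) (nat_lit 186) (nat_lit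 188) (nat_lit 196)) (PT.lf (nat_lit 51832) (nat_lit 6) (nat_lit 682) (nat_lit 5) (nat_lit 187) (nat_lit 188) (nat_lit 195))) (PT.nd (nat_lit 78) (PT.lf (nat_lit 52212) (nat_lit 3) (nat_lit 687) (nat_lit 3) (nat_lit 188) (nat_lit 188) (nat_lit 194)) (PT.lf (nat_lit 52592) (nat_lit 6) (nat_lit 692) (nat_lit 3) (nat_lit 189) (nat_lit 188) (nat_lit 193))))) (PT.nd (nat_lit 312) (PT.nd (nat_lit 156) (PT.nd (nat_lit 78) (PT.lf (nat_lit 52896) (nat_lit 6) (nat_lit 696) (nat_lit 3) (nat_lit 190) (nat_lit 188) (nat_lit 192)) (PT.lf (nat_lit 52972) (nat_lit 3) (nat_lit 697) (nat_lit 1) (nat_lit 191) (nat_lit 188) (nat_lit 191))) (PT.nd (nat_lit 78) (PT.lf (nat_lit 52896) (nat_lit 6) (nat_lit 696) (nat_lit 1) (nat_lit 192) (nat_lit 188) (nat_lit 190)) (PT.lf (nat_lit 52592) (nat_lit 6) (nat_lit 692) (nat_lit 1) (nat_lit 193) (nat_lit 188) (nat_lit 189)))) (PT.nd (nat_lit 156) (PT.nd (nat_lit 78) (PT.lf (nat_lit 52212) (nat_lit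 3) (nat_lit 687) (nat_lit 0) (nat_lit 194) (nat_lit 188) (nat_lit 188)) (PT.lf (nat_lit 51832) (nat_lit 6) (nat_lit 682) (nat_lit 0) (nat_lit 195) (nat_lit 188) (nat_lit 187))) (PT.nd (nat_lit 78) (PT.lf (nat_lit 51376) (nat_lit 6) (nat_lit 676) (nat_lit 0) (nat_lit 196) (nat_lit 188) (nat_lit 186)) (PT.lf (nat_lit 50844) (nat_lit 6) (nat_lit 669) (nat_lit 0) (nat_lit 197) (nat_lit 188) (nat_lit 185))))))) (PT.nd (nat_lit 1170) (PT.nd (nat_lit 546) (PT.nd (nat_lit 234) (PT.nd (nat_lit 78) (PT.lf (nat_lit 50236) (nat_lit 6) (nat_lit 661) (nat_lit 0) (nat_lit 198) (nat_lit 188) (nat_lit 184)) (PT.nd (nat_lit 78) (PT.lf (nat_lit 49552) (nat_lit 6) (nat_lit 652) (nat_lit 0) (nat_lit 199) (nat_lit 188) (nat_lit 183)) (PT.lf (nat_lit 48792) (nat_lit 6) (nat_lit 642) (nat_lit 0) (nat_lit 200) (nat_lit 188) (nat_lit 182)))) (PT.nd (nat_lit 156) (PT.nd (nat_lit 78) (PT.lf (nat_lit 47956) (nat_lit 6) (nat_lit 631) (nat_lit 0)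 (nat_lit 201) (nat_lit 188) (nat_lit 181)) (PT.lf (nat_lit 47044) (nat_lit 6) (nat_lit 619) (nat_lit 0) (nat_lit 202) (nat_lit 188) (nat_lit 180))) (PT.nd (nat_lit 78) (PT.lf (nat_lit 46056) (nat_lit 6) (nat_lit 606) (nat_lit 0) (nat_lit 203) (nat_lit 188) (nat_lit 179)) (PT.lf (nat_lit 44992) (nat_lit 6) (nat_lit 592) (nat_lit 0) (nat_lit 204) (nat_lit 188) (nat_lit 178))))) (PT.nd (nat_lit 312) (PT.nd (nat_lit 156) (PT.nd (nat_lit 78) (PT.lf (nat_lit 43852) (nat_lit 6) (nat_lit 577) (nat_lit 0) (nat_lit 205) (nat_lit 188) (nat_lit 177)) (PT.lf (nat_lit 42636) (nat_lit 6) (nat_lit 561) (nat_lit 0) (nat_lit 206) (nat_lit 188) (nat_lit 176))) (PT.nd (nat_lit 78) (PT.lf (nat_lit 41344) (nat_lit 6) (nat_lit 544) (nat_lit 0) (nat_lit 207) (nat_lit 188) (nat_lit 175)) (PT.lf (nat_lit 39976) (nat_lit 6) (nat_lit 526) (nat_lit 0) (nat_lit 208) (nat_lit 188) (nat_lit 174)))) (PT.nd (nat_lit 156) (PT.nd (nat_lit 78) (PT.lf (nat_lit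 38532) (nat_lit 6) (nat_lit 507) (nat_lit 0) (nat_lit 209) (nat_lit 188) (nat_lit 173)) (PT.lf (nat_lit 37012) (nat_lit 6) (nat_lit 487) (nat_lit 0) (nat_lit 210) (nat_lit 188) (nat_lit 172))) (PT.nd (nat_lit 78) (PT.lf (nat_lit 35416) (nat_lit 6) (nat_lit 466) (nat_lit 0) (nat_lit 211) (nat_lit 188) (nat_lit 171)) (PT.lf (nat_lit 33744) (nat_lit 6) (nat_lit 444) (nat_lit 0) (nat_lit 212) (nat_lit 188) (nat_lit 170)))))) (PT.nd (nat_lit 56238) (PT.nd (nat_lit 55926) (PT.nd (nat_lit 55770) (PT.nd (nat_lit 78) (PT.lf (nat_lit 31996) (nat_lit 6) (nat_lit 421) (nat_lit 0) (nat_lit 213) (nat_lit 188) (nat_lit 169)) (PT.lf (nat_lit 30172) (nat_lit 6) (nat_lit 397) (nat_lit 0) (nat_lit 214) (nat_lit 188) (nat_lit 168))) (PT.nd (nat_lit 78) (PT.lf (nat_lit 30248) (nat_lit 6) (nat_lit 398) (nat_lit 5) (nat_lit 167) (nat_lit 189) (nat_lit 214)) (PT.lf (nat_lit 32072) (nat_lit 6) (nat_lit 422) (nat_lit 5) (nat_lit 168) (nat_lit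 189) (nat_lit 213)))) (PT.nd (nat_lit 156) (PT.nd (nat_lit 78) (PT.lf (nat_lit 33820) (nat_lit 6) (nat_lit 445) (nat_lit 5) (nat_lit 169) (nat_lit 189) (nat_lit 212)) (PT.lf (nat_lit 35492) (nat_lit 6) (nat_lit 467) (nat_lit 5) (nat_lit 170) (nat_lit 189) (nat_lit 211))) (PT.nd (nat_lit 78) (PT.lf (nat_lit 37088) (nat_lit 6) (nat_lit 488) (nat_lit 5) (nat_lit 171) (nat_lit 189) (nat_lit 210)) (PT.lf (nat_lit 38608) (nat_lit 6) (nat_lit 508) (nat_lit 5) (nat_lit 172) (nat_lit 189) (nat_lit 209))))) (PT.nd (nat_lit 312) (PT.nd (nat_lit 156) (PT.nd (nat_lit 78) (PT.lf (nat_lit 40052) (nat_lit 6) (nat_lit 527) (nat_lit 5) (nat_lit 173) (nat_lit 189) (nat_lit 208)) (PT.lf (nat_lit 41420) (nat_lit 6) (nat_lit 545) (nat_lit 5) (nat_lit 174) (nat_lit 189) (nat_lit 207))) (PT.nd (nat_lit 78) (PT.lf (nat_lit 42712) (nat_lit 6) (nat_lit 562) (nat_lit 5) (nat_lit 175) (nat_lit 189) (nat_lit 206)) (PT.lf (nat_lit 43928) (nat_lit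 6) (nat_lit 578) (nat_lit 5) (nat_lit 176) (nat_lit 189) (nat_lit 205)))) (PT.nd (nat_lit 156) (PT.nd (nat_lit 78) (PT.lf (nat_lit 45068) (nat_lit 6) (nat_lit 593) (nat_lit 5) (nat_lit 177) (nat_lit 189) (nat_lit 204)) (PT.lf (nat_lit 46132) (nat_lit 6) (nat_lit 607) (nat_lit 5) (nat_lit 178) (nat_lit 189) (nat_lit 203))) (PT.nd (nat_lit 78) (PT.lf (nat_lit 47120) (nat_lit 6) (nat_lit 620) (nat_lit 5) (nat_lit 179) (nat_lit 189) (nat_lit 202)) (PT.lf (nat_lit 48032) (nat_lit 6) (nat_lit 632) (nat_lit 5) (nat_lit 180) (nat_lit 189) (nat_lit 201))))))))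
noncomputable def pc25 : PT := (PT.nd (nat_lit 2418) (PT.nd (nat_lit 1170) (PT.nd (nat_lit 546) (PT.nd (nat_lit 234) (PT.nd (nat_lit 78) (PT.lf (nat_lit 48868) (nat_lit 6) (nat_lit 643) (nat_lit 5) (nat_lit 181) (nat_lit 189) (nat_lit 200)) (PT.nd (nat_lit 78) (PT.lf (nat_lit 49628) (nat_lit 6) (nat_lit 653) (nat_lit 5) (nat_lit 182) (nat_lit 189) (nat_lit 199)) (PT.lf (nat_lit 50312) (nat_lit 6) (nat_lit 662) (nat_lit 5) (nat_lit 183) (nat_lit 189) (nat_lit 198)))) (PT.nd (nat_lit 156) (PT.nd (nat_lit 78) (PT.lf (nat_lit 50920) (nat_lit 6) (nat_lit 670) (nat_lit 5) (nat_lit 184) (nat_lit 189) (nat_lit 197)) (PT.lf (nat_lit 51452) (nat_lit 6) (nat_lit 677) (nat_lit 5) (nat_lit 185) (nat_lit 189) (nat_lit 196))) (PT.nd (nat_lit 78) (PT.lf (nat_lit 51908) (nat_lit 6) (nat_lit 683) (nat_lit 5) (nat_lit 186) (nat_lit 189) (nat_lit 195)) (PT.lf (nat_lit 52288) (nat_lit 6) (nat_lit 688) (nat_lit 5) (nat_lit 187) (nat_lit 189)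 (nat_lit 194))))) (PT.nd (nat_lit 312) (PT.nd (nat_lit 156) (PT.nd (nat_lit 78) (PT.lf (nat_lit 52592) (nat_lit 6) (nat_lit 692) (nat_lit 5) (nat_lit 188) (nat_lit 189) (nat_lit 193)) (PT.lf (nat_lit 52820) (nat_lit 3) (nat_lit 695) (nat_lit 3) (nat_lit 189) (nat_lit 189) (nat_lit 192))) (PT.nd (nat_lit 78) (PT.lf (nat_lit 53048) (nat_lit 6) (nat_lit 698) (nat_lit 3) (nat_lit 190) (nat_lit 189) (nat_lit 191)) (PT.lf (nat_lit 53048) (nat_lit 6) (nat_lit 698) (nat_lit 1) (nat_lit 191) (nat_lit 189) (nat_lit 190)))) (PT.nd (nat_lit 156) (PT.nd (nat_lit 78) (PT.lf (nat_lit 52820) (nat_lit 3) (nat_lit 695) (nat_lit 0) (nat_lit 192) (nat_lit 189) (nat_lit 189)) (PT.lf (nat_lit 52592) (nat_lit 6) (nat_lit 692) (nat_lit 0) (nat_lit 193) (nat_lit 189) (nat_lit 188))) (PT.nd (nat_lit 78) (PT.lf (nat_lit 52288) (nat_lit 6) (nat_lit 688) (nat_lit 0) (nat_lit 194) (nat_lit 189) (nat_lit 187)) (PT.lf (nat_lit 51908) (nat_lit 6) (nat_lit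 683) (nat_lit 0) (nat_lit 195) (nat_lit 189) (nat_lit 186)))))) (PT.nd (nat_lit 624) (PT.nd (nat_lit 312) (PT.nd (nat_lit 156) (PT.nd (nat_lit 78) (PT.lf (nat_lit 51452) (nat_lit 6) (nat_lit 677) (nat_lit 0) (nat_lit 196) (nat_lit 189) (nat_lit 185)) (PT.lf (nat_lit 50920) (nat_lit 6) (nat_lit 670) (nat_lit 0) (nat_lit 197) (nat_lit 189) (nat_lit 184))) (PT.nd (nat_lit 78) (PT.lf (nat_lit 50312) (nat_lit 6) (nat_lit 662) (nat_lit 0) (nat_lit 198) (nat_lit 189) (nat_lit 183)) (PT.lf (nat_lit 49628) (nat_lit 6) (nat_lit 653) (nat_lit 0) (nat_lit 199) (nat_lit 189) (nat_lit 182)))) (PT.nd (nat_lit 156) (PT.nd (nat_lit 78) (PT.lf (nat_lit 48868) (nat_lit 6) (nat_lit 643) (nat_lit 0) (nat_lit 200) (nat_lit 189) (nat_lit 181)) (PT.lf (nat_lit 48032) (nat_lit 6) (nat_lit 632) (nat_lit 0) (nat_lit 201) (nat_lit 189) (nat_lit 180))) (PT.nd (nat_lit 78) (PT.lf (nat_lit 47120) (nat_lit 6) (nat_lit 620) (nat_lit 0) (nat_lit 202)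 (nat_lit 189) (nat_lit 179)) (PT.lf (nat_lit 46132) (nat_lit 6) (nat_lit 607) (nat_lit 0) (nat_lit 203) (nat_lit 189) (nat_lit 178))))) (PT.nd (nat_lit 312) (PT.nd (nat_lit 156) (PT.nd (nat_lit 78) (PT.lf (nat_lit 45068) (nat_lit 6) (nat_lit 593) (nat_lit 0) (nat_lit 204) (nat_lit 189) (nat_lit 177)) (PT.lf (nat_lit 43928) (nat_lit 6) (nat_lit 578) (nat_lit 0) (nat_lit 205) (nat_lit 189) (nat_lit 176))) (PT.nd (nat_lit 78) (PT.lf (nat_lit 42712) (nat_lit 6) (nat_lit 562) (nat_lit 0) (nat_lit 206) (nat_lit 189) (nat_lit 175)) (PT.lf (nat_lit 41420) (nat_lit 6) (nat_lit 545) (nat_lit 0) (nat_lit 207) (nat_lit 189) (nat_lit 174)))) (PT.nd (nat_lit 156) (PT.nd (nat_lit 78) (PT.lf (nat_lit 40052) (nat_lit 6) (nat_lit 527) (nat_lit 0) (nat_lit 208) (nat_lit 189) (nat_lit 173)) (PT.lf (nat_lit 38608) (nat_lit 6) (nat_lit 508) (nat_lit 0) (nat_lit 209) (nat_lit 189) (nat_lit 172))) (PT.nd (nat_lit 78) (PT.lf (nat_lit 37088)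 (nat_lit 6) (nat_lit 488) (nat_lit 0) (nat_lit 210) (nat_lit 189) (nat_lit 171)) (PT.lf (nat_lit 35492) (nat_lit 6) (nat_lit 467) (nat_lit 0) (nat_lit 211) (nat_lit 189) (nat_lit 170))))))) (PT.nd (nat_lit 56706) (PT.nd (nat_lit 56082) (PT.nd (nat_lit 55770) (PT.nd (nat_lit 78) (PT.lf (nat_lit 33820) (nat_lit 6) (nat_lit 445) (nat_lit 0) (nat_lit 212) (nat_lit 189) (nat_lit 169)) (PT.nd (nat_lit 78) (PT.lf (nat_lit 32072) (nat_lit 6) (nat_lit 422) (nat_lit 0) (nat_lit 213) (nat_lit 189) (nat_lit 168)) (PT.lf (nat_lit 30248) (nat_lit 6) (nat_lit 398) (nat_lit 0) (nat_lit 214) (nat_lit 189) (nat_lit 167)))) (PT.nd (nat_lit 156) (PT.nd (nat_lit 78) (PT.lf (nat_lit 30324) (nat_lit 6) (nat_lit 399) (nat_lit 5) (nat_lit 166) (nat_lit 190) (nat_lit 214)) (PT.lf (nat_lit 32148) (nat_lit 6) (nat_lit 423) (nat_lit 5) (nat_lit 167) (nat_lit 190) (nat_lit 213))) (PT.nd (nat_lit 78) (PT.lf (nat_lit 33896) (nat_lit 6) (nat_lit 446)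 (nat_lit 5) (nat_lit 168) (nat_lit 190) (nat_lit 212)) (PT.lf (nat_lit 35568) (nat_lit 6) (nat_lit 468) (nat_lit 5) (nat_lit 169) (nat_lit 190) (nat_lit 211))))) (PT.nd (nat_lit 312) (PT.nd (nat_lit 156) (PT.nd (nat_lit 78) (PT.lf (nat_lit 37164) (nat_lit 6) (nat_lit 489) (nat_lit 5) (nat_lit 170) (nat_lit 190) (nat_lit 210)) (PT.lf (nat_lit 38684) (nat_lit 6) (nat_lit 509) (nat_lit 5) (nat_lit 171) (nat_lit 190) (nat_lit 209))) (PT.nd (nat_lit 78) (PT.lf (nat_lit 40128) (nat_lit 6) (nat_lit 528) (nat_lit 5) (nat_lit 172) (nat_lit 190) (nat_lit 208)) (PT.lf (nat_lit 41496) (nat_lit 6) (nat_lit 546) (nat_lit 5) (nat_lit 173) (nat_lit 190) (nat_lit 207)))) (PT.nd (nat_lit 156) (PT.nd (nat_lit 78) (PT.lf (nat_lit 42788) (nat_lit 6) (nat_lit 563) (nat_lit 5) (nat_lit 174) (nat_lit 190) (nat_lit 206)) (PT.lf (nat_lit 44004) (nat_lit 6) (nat_lit 579) (nat_lit 5) (nat_lit 175) (nat_lit 190) (nat_lit 205))) (PT.nd (nat_lit 78)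 (PT.lf (nat_lit 45144) (nat_lit 6) (nat_lit 594) (nat_lit 5) (nat_lit 176) (nat_lit 190) (nat_lit 204)) (PT.lf (nat_lit 46208) (nat_lit 6) (nat_lit 608) (nat_lit 5) (nat_lit 177) (nat_lit 190) (nat_lit 203)))))) (PT.nd (nat_lit 624) (PT.nd (nat_lit 312) (PT.nd (nat_lit 156) (PT.nd (nat_lit 78) (PT.lf (nat_lit 47196) (nat_lit 6) (nat_lit 621) (nat_lit 5) (nat_lit 178) (nat_lit 190) (nat_lit 202)) (PT.lf (nat_lit 48108) (nat_lit 6) (nat_lit 633) (nat_lit 5) (nat_lit 179) (nat_lit 190) (nat_lit 201))) (PT.nd (nat_lit 78) (PT.lf (nat_lit 48944) (nat_lit 6) (nat_lit 644) (nat_lit 5) (nat_lit 180) (nat_lit 190) (nat_lit 200)) (PT.lf (nat_lit 49704) (nat_lit 6) (nat_lit 654) (nat_lit 5) (nat_lit 181) (nat_lit 190) (nat_lit 199)))) (PT.nd (nat_lit 156) (PT.nd (nat_lit 78) (PT.lf (nat_lit 50388) (nat_lit 6) (nat_lit 663) (nat_lit 5) (nat_lit 182) (nat_lit 190) (nat_lit 198)) (PT.lf (nat_lit 50996) (nat_lit 6) (nat_lit 671) (nat_lit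 5) (nat_lit 183) (nat_lit 190) (nat_lit 197))) (PT.nd (nat_lit 78) (PT.lf (nat_lit 51528) (nat_lit 6) (nat_lit 678) (nat_lit 5) (nat_lit 184) (nat_lit 190) (nat_lit 196)) (PT.lf (nat_lit 51984) (nat_lit 6) (nat_lit 684) (nat_lit 5) (nat_lit 185) (nat_lit 190) (nat_lit 195))))) (PT.nd (nat_lit 312) (PT.nd (nat_lit 156) (PT.nd (nat_lit 78) (PT.lf (nat_lit 52364) (nat_lit 6) (nat_lit 689) (nat_lit 5) (nat_lit 186) (nat_lit 190) (nat_lit 194)) (PT.lf (nat_lit 52668) (nat_lit 6) (nat_lit 693) (nat_lit 5) (nat_lit 187) (nat_lit 190) (nat_lit 193))) (PT.nd (nat_lit 78) (PT.lf (nat_lit 52896) (nat_lit 6) (nat_lit 696) (nat_lit 5) (nat_lit 188) (nat_lit 190) (nat_lit 192)) (PT.lf (nat_lit 53048) (nat_lit 6) (nat_lit 698) (nat_lit 5) (nat_lit 189) (nat_lit 190) (nat_lit 191)))) (PT.nd (nat_lit 156) (PT.nd (nat_lit 78) (PT.lf (nat_lit 53124) (nat_lit 1) (nat_lit 699) (nat_lit 0) (nat_lit 190) (nat_lit 190) (nat_lit 190)) (PT.lf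 (nat_lit 53048) (nat_lit 6) (nat_lit 698) (nat_lit 0) (nat_lit 191) (nat_lit 190) (nat_lit 189))) (PT.nd (nat_lit 78) (PT.lf (nat_lit 52896) (nat_lit 6) (nat_lit 696) (nat_lit 0) (nat_lit 192) (nat_lit 190) (nat_lit 188)) (PT.lf (nat_lit 52668) (nat_lit 6) (nat_lit 693) (nat_lit 0) (nat_lit 193) (nat_lit 190) (nat_lit 187))))))))
noncomputable def pc26 : PT := (PT.nd (nat_lit 57798) (PT.nd (nat_lit 1170) (PT.nd (nat_lit 546) (PT.nd (nat_lit 234) (PT.nd (nat_lit 78) (PT.lf (nat_lit 52364) (nat_lit 6) (nat_lit 689) (nat_lit 0) (nat_lit 194) (nat_lit 190) (nat_lit 186)) (PT.nd (nat_lit 78) (PT.lf (nat_lit 51984) (nat_lit 6) (nat_lit 684) (nat_lit 0) (nat_lit 195) (nat_lit 190) (nat_lit 185)) (PT.lf (nat_lit 51528) (nat_lit 6) (nat_lit 678) (nat_lit 0) (nat_lit 196) (nat_lit 190) (nat_lit 184)))) (PT.nd (nat_lit 156) (PT.nd (nat_lit 78) (PT.lf (nat_lit 50996) (nat_lit 6) (nat_lit 671) (nat_lit 0) (nat_lit 197) (nat_lit 190)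 (nat_lit 183)) (PT.lf (nat_lit 50388) (nat_lit 6) (nat_lit 663) (nat_lit 0) (nat_lit 198) (nat_lit 190) (nat_lit 182))) (PT.nd (nat_lit 78) (PT.lf (nat_lit 49704) (nat_lit 6) (nat_lit 654) (nat_lit 0) (nat_lit 199) (nat_lit 190) (nat_lit 181)) (PT.lf (nat_lit 48944) (nat_lit 6) (nat_lit 644) (nat_lit 0) (nat_lit 200) (nat_lit 190) (nat_lit 180))))) (PT.nd (nat_lit 312) (PT.nd (nat_lit 156) (PT.nd (nat_lit 78) (PT.lf (nat_lit 48108) (nat_lit 6) (nat_lit 633) (nat_lit 0) (nat_lit 201) (nat_lit 190) (nat_lit 179)) (PT.lf (nat_lit 47196) (nat_lit 6) (nat_lit 621) (nat_lit 0) (nat_lit 202) (nat_lit 190) (nat_lit 178))) (PT.nd (nat_lit 78) (PT.lf (nat_lit 46208) (nat_lit 6) (nat_lit 608) (nat_lit 0) (nat_lit 203) (nat_lit 190) (nat_lit 177)) (PT.lf (nat_lit 45144) (nat_lit 6) (nat_lit 594) (nat_lit 0) (nat_lit 204) (nat_lit 190) (nat_lit 176)))) (PT.nd (nat_lit 156) (PT.nd (nat_lit 78) (PT.lf (nat_lit 44004) (nat_lit 6) (nat_lit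 579) (nat_lit 0) (nat_lit 205) (nat_lit 190) (nat_lit 175)) (PT.lf (nat_lit 42788) (nat_lit 6) (nat_lit 563) (nat_lit 0) (nat_lit 206) (nat_lit 190) (nat_lit 174))) (PT.nd (nat_lit 78) (PT.lf (nat_lit 41496) (nat_lit 6) (nat_lit 546) (nat_lit 0) (nat_lit 207) (nat_lit 190) (nat_lit 173)) (PT.lf (nat_lit 40128) (nat_lit 6) (nat_lit 528) (nat_lit 0) (nat_lit 208) (nat_lit 190) (nat_lit 172)))))) (PT.nd (nat_lit 56004) (PT.nd (nat_lit 234) (PT.nd (nat_lit 78) (PT.lf (nat_lit 38684) (nat_lit 6) (nat_lit 509) (nat_lit 0) (nat_lit 209) (nat_lit 190) (nat_lit 171)) (PT.nd (nat_lit 78) (PT.lf (nat_lit 37164) (nat_lit 6) (nat_lit 489) (nat_lit 0) (nat_lit 210) (nat_lit 190) (nat_lit 170)) (PT.lf (nat_lit 35568) (nat_lit 6) (nat_lit 468) (nat_lit 0) (nat_lit 211) (nat_lit 190) (nat_lit 169)))) (PT.nd (nat_lit 156) (PT.nd (nat_lit 78) (PT.lf (nat_lit 33896) (nat_lit 6) (nat_lit 446) (nat_lit 0) (nat_lit 212) (nat_lit 190) (nat_lit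 168)) (PT.lf (nat_lit 32148) (nat_lit 6) (nat_lit 423) (nat_lit 0) (nat_lit 213) (nat_lit 190) (nat_lit 167))) (PT.nd (nat_lit 55536) (PT.lf (nat_lit 30324) (nat_lit 6) (nat_lit 399) (nat_lit 0) (nat_lit 214) (nat_lit 190) (nat_lit 166)) (PT.lf (nat_lit 29184) (nat_lit 6) (nat_lit 384) (nat_lit 5) (nat_lit 165) (nat_lit 191) (nat_lit 214))))) (PT.nd (nat_lit 312) (PT.nd (nat_lit 156) (PT.nd (nat_lit 78) (PT.lf (nat_lit 30400) (nat_lit 6) (nat_lit 400) (nat_lit 5) (nat_lit 166) (nat_lit 191) (nat_lit 213)) (PT.lf (nat_lit 32224) (nat_lit 6) (nat_lit 424) (nat_lit 5) (nat_lit 167) (nat_lit 191) (nat_lit 212))) (PT.nd (nat_lit 78) (PT.lf (nat_lit 33972) (nat_lit 6) (nat_lit 447) (nat_lit 5) (nat_lit 168) (nat_lit 191) (nat_lit 211)) (PT.lf (nat_lit 35644) (nat_lit 6) (nat_lit 469) (nat_lit 5) (nat_lit 169) (nat_lit 191) (nat_lit 210)))) (PT.nd (nat_lit 156) (PT.nd (nat_lit 78) (PT.lf (nat_lit 37240) (nat_lit 6) (nat_lit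 490) (nat_lit 5) (nat_lit 170) (nat_lit 191) (nat_lit 209)) (PT.lf (nat_lit 38760) (nat_lit 6) (nat_lit 510) (nat_lit 5) (nat_lit 171) (nat_lit 191) (nat_lit 208))) (PT.nd (nat_lit 78) (PT.lf (nat_lit 40204) (nat_lit 6) (nat_lit 529) (nat_lit 5) (nat_lit 172) (nat_lit 191) (nat_lit 207)) (PT.lf (nat_lit 41572) (nat_lit 6) (nat_lit 547) (nat_lit 5) (nat_lit 173) (nat_lit 191) (nat_lit 206))))))) (PT.nd (nat_lit 1170) (PT.nd (nat_lit 546) (PT.nd (nat_lit 234) (PT.nd (nat_lit 78) (PT.lf (nat_lit 42864) (nat_lit 6) (nat_lit 564) (nat_lit 5) (nat_lit 174) (nat_lit 191) (nat_lit 205)) (PT.nd (nat_lit 78) (PT.lf (nat_lit 44080) (nat_lit 6) (nat_lit 580) (nat_lit 5) (nat_lit 175) (nat_lit 191) (nat_lit 204)) (PT.lf (nat_lit 45220) (nat_lit 6) (nat_lit 595) (nat_lit 5) (nat_lit 176) (nat_lit 191) (nat_lit 203)))) (PT.nd (nat_lit 156) (PT.nd (nat_lit 78) (PT.lf (nat_lit 46284) (nat_lit 6) (nat_lit 609) (nat_lit 5) (nat_lit 177)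 (nat_lit 191) (nat_lit 202)) (PT.lf (nat_lit 47272) (nat_lit 6) (nat_lit 622) (nat_lit 5) (nat_lit 178) (nat_lit 191) (nat_lit 201))) (PT.nd (nat_lit 78) (PT.lf (nat_lit 48184) (nat_lit 6) (nat_lit 634) (nat_lit 5) (nat_lit 179) (nat_lit 191) (nat_lit 200)) (PT.lf (nat_lit 49020) (nat_lit 6) (nat_lit 645) (nat_lit 5) (nat_lit 180) (nat_lit 191) (nat_lit 199))))) (PT.nd (nat_lit 312) (PT.nd (nat_lit 156) (PT.nd (nat_lit 78) (PT.lf (nat_lit 49780) (nat_lit 6) (nat_lit 655) (nat_lit 5) (nat_lit 181) (nat_lit 191) (nat_lit 198)) (PT.lf (nat_lit 50464) (nat_lit 6) (nat_lit 664) (nat_lit 5) (nat_lit 182) (nat_lit 191) (nat_lit 197))) (PT.nd (nat_lit 78) (PT.lf (nat_lit 51072) (nat_lit 6) (nat_lit 672) (nat_lit 5) (nat_lit 183) (nat_lit 191) (nat_lit 196)) (PT.lf (nat_lit 51604) (nat_lit 6) (nat_lit 679) (nat_lit 5) (nat_lit 184) (nat_lit 191) (nat_lit 195)))) (PT.nd (nat_lit 156) (PT.nd (nat_lit 78) (PT.lf (nat_lit 52060)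 (nat_lit 6) (nat_lit 685) (nat_lit 5) (nat_lit 185) (nat_lit 191) (nat_lit 194)) (PT.lf (nat_lit 52440) (nat_lit 6) (nat_lit 690) (nat_lit 5) (nat_lit 186) (nat_lit 191) (nat_lit 193))) (PT.nd (nat_lit 78) (PT.lf (nat_lit 52744) (nat_lit 6) (nat_lit 694) (nat_lit 5) (nat_lit 187) (nat_lit 191) (nat_lit 192)) (PT.lf (nat_lit 52972) (nat_lit 3) (nat_lit 697) (nat_lit 4) (nat_lit 188) (nat_lit 191) (nat_lit 191)))))) (PT.nd (nat_lit 624) (PT.nd (nat_lit 312) (PT.nd (nat_lit 156) (PT.nd (nat_lit 78) (PT.lf (nat_lit 53048) (nat_lit 6) (nat_lit 698) (nat_lit 4) (nat_lit 189) (nat_lit 191) (nat_lit 190)) (PT.lf (nat_lit 53048) (nat_lit 6) (nat_lit 698) (nat_lit 2) (nat_lit 190) (nat_lit 191) (nat_lit 189))) (PT.nd (nat_lit 78) (PT.lf (nat_lit 52972) (nat_lit 3) (nat_lit 697) (nat_lit 0) (nat_lit 191) (nat_lit 191) (nat_lit 188)) (PT.lf (nat_lit 52744) (nat_lit 6) (nat_lit 694) (nat_lit 0) (nat_lit 192) (nat_lit 191) (nat_lit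 187)))) (PT.nd (nat_lit 156) (PT.nd (nat_lit 78) (PT.lf (nat_lit 52440) (nat_lit 6) (nat_lit 690) (nat_lit 0) (nat_lit 193) (nat_lit 191) (nat_lit 186)) (PT.lf (nat_lit 52060) (nat_lit 6) (nat_lit 685) (nat_lit 0) (nat_lit 194) (nat_lit 191) (nat_lit 185))) (PT.nd (nat_lit 78) (PT.lf (nat_lit 51604) (nat_lit 6) (nat_lit 679) (nat_lit 0) (nat_lit 195) (nat_lit 191) (nat_lit 184)) (PT.lf (nat_lit 51072) (nat_lit 6) (nat_lit 672) (nat_lit 0) (nat_lit 196) (nat_lit 191) (nat_lit 183))))) (PT.nd (nat_lit 312) (PT.nd (nat_lit 156) (PT.nd (nat_lit 78) (PT.lf (nat_lit 50464) (nat_lit 6) (nat_lit 664) (nat_lit 0) (nat_lit 197) (nat_lit 191) (nat_lit 182)) (PT.lf (nat_lit 49780) (nat_lit 6) (nat_lit 655) (nat_lit 0) (nat_lit 198) (nat_lit 191) (nat_lit 181))) (PT.nd (nat_lit 78) (PT.lf (nat_lit 49020) (nat_lit 6) (nat_lit 645) (nat_lit 0) (nat_lit 199) (nat_lit 191) (nat_lit 180)) (PT.lf (nat_lit 48184) (nat_lit 6) (nat_lit 634)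 (nat_lit 0) (nat_lit 200) (nat_lit 191) (nat_lit 179)))) (PT.nd (nat_lit 156) (PT.nd (nat_lit 78) (PT.lf (nat_lit 47272) (nat_lit 6) (nat_lit 622) (nat_lit 0) (nat_lit 201) (nat_lit 191) (nat_lit 178)) (PT.lf (nat_lit 46284) (nat_lit 6) (nat_lit 609) (nat_lit 0) (nat_lit 202) (nat_lit 191) (nat_lit 177))) (PT.nd (nat_lit 78) (PT.lf (nat_lit 45220) (nat_lit 6) (nat_lit 595) (nat_lit 0) (nat_lit 203) (nat_lit 191) (nat_lit 176)) (PT.lf (nat_lit 44080) (nat_lit 6) (nat_lit 580) (nat_lit 0) (nat_lit 204) (nat_lit 191) (nat_lit 175))))))))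
noncomputable def pc27 : PT := (PT.nd (nat_lit 57798) (PT.nd (nat_lit 56550) (PT.nd (nat_lit 546) (PT.nd (nat_lit 234) (PT.nd (nat_lit 78) (PT.lf (nat_lit 42864) (nat_lit 6) (nat_lit 564) (nat_lit 0) (nat_lit 205) (nat_lit 191) (nat_lit 174)) (PT.nd (nat_lit 78) (PT.lf (nat_lit 41572) (nat_lit 6) (nat_lit 547) (nat_lit 0) (nat_lit 206) (nat_lit 191) (nat_lit 173)) (PT.lf (nat_lit 40204) (nat_lit 6) (nat_lit 529) (nat_lit 0) (nat_lit 207) (nat_lit 191) (nat_lit 172)))) (PT.nd (nat_lit 156) (PT.nd (nat_lit 78) (PT.lf (nat_lit 38760) (nat_lit 6) (nat_lit 510) (nat_lit 0) (nat_lit 208) (nat_lit 191) (nat_lit 171)) (PT.lf (nat_lit 37240) (nat_lit 6) (nat_lit 490) (nat_lit 0) (nat_lit 209) (nat_lit 191) (nat_lit 170))) (PT.nd (nat_lit 78) (PT.lf (nat_lit 35644) (nat_lit 6) (nat_lit 469) (nat_lit 0) (nat_lit 210) (nat_lit 191) (nat_lit 169)) (PT.lf (nat_lit 33972) (nat_lit 6) (nat_lit 447) (nat_lit 0) (nat_lit 211) (nat_lit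 191) (nat_lit 168))))) (PT.nd (nat_lit 55692) (PT.nd (nat_lit 156) (PT.nd (nat_lit 78) (PT.lf (nat_lit 32224) (nat_lit 6) (nat_lit 424) (nat_lit 0) (nat_lit 212) (nat_lit 191) (nat_lit 167)) (PT.lf (nat_lit 30400) (nat_lit 6) (nat_lit 400) (nat_lit 0) (nat_lit 213) (nat_lit 191) (nat_lit 166))) (PT.nd (nat_lit 55458) (PT.lf (nat_lit 29184) (nat_lit 6) (nat_lit 384) (nat_lit 0) (nat_lit 214) (nat_lit 191) (nat_lit 165)) (PT.lf (nat_lit 28272) (nat_lit 6) (nat_lit 372) (nat_lit 5) (nat_lit 164) (nat_lit 192) (nat_lit 214)))) (PT.nd (nat_lit 156) (PT.nd (nat_lit 78) (PT.lf (nat_lit 29260) (nat_lit 6) (nat_lit 385) (nat_lit 5) (nat_lit 165) (nat_lit 192) (nat_lit 213)) (PT.lf (nat_lit 30476) (nat_lit 6) (nat_lit 401) (nat_lit 5) (nat_lit 166) (nat_lit 192) (nat_lit 212))) (PT.nd (nat_lit 78) (PT.lf (nat_lit 32300) (nat_lit 6) (nat_lit 425) (nat_lit 5) (nat_lit 167) (nat_lit 192) (nat_lit 211)) (PT.lf (nat_lit 34048) (nat_lit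 6) (nat_lit 448) (nat_lit 5) (nat_lit 168) (nat_lit 192) (nat_lit 210)))))) (PT.nd (nat_lit 624) (PT.nd (nat_lit 312) (PT.nd (nat_lit 156) (PT.nd (nat_lit 78) (PT.lf (nat_lit 35720) (nat_lit 6) (nat_lit 470) (nat_lit 5) (nat_lit 169) (nat_lit 192) (nat_lit 209)) (PT.lf (nat_lit 37316) (nat_lit 6) (nat_lit 491) (nat_lit 5) (nat_lit 170) (nat_lit 192) (nat_lit 208))) (PT.nd (nat_lit 78) (PT.lf (nat_lit 38836) (nat_lit 6) (nat_lit 511) (nat_lit 5) (nat_lit 171) (nat_lit 192) (nat_lit 207)) (PT.lf (nat_lit 40280) (nat_lit 6) (nat_lit 530) (nat_lit 5) (nat_lit 172) (nat_lit 192) (nat_lit 206)))) (PT.nd (nat_lit 156) (PT.nd (nat_lit 78) (PT.lf (nat_lit 41648) (nat_lit 6) (nat_lit 548) (nat_lit 5) (nat_lit 173) (nat_lit 192) (nat_lit 205)) (PT.lf (nat_lit 42940) (nat_lit 6) (nat_lit 565) (nat_lit 5) (nat_lit 174) (nat_lit 192) (nat_lit 204))) (PT.nd (nat_lit 78) (PT.lf (nat_lit 44156) (nat_lit 6) (nat_lit 581) (nat_lit 5) (nat_lit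 175) (nat_lit 192) (nat_lit 203)) (PT.lf (nat_lit 45296) (nat_lit 6) (nat_lit 596) (nat_lit 5) (nat_lit 176) (nat_lit 192) (nat_lit 202))))) (PT.nd (nat_lit 312) (PT.nd (nat_lit 156) (PT.nd (nat_lit 78) (PT.lf (nat_lit 46360) (nat_lit 6) (nat_lit 610) (nat_lit 5) (nat_lit 177) (nat_lit 192) (nat_lit 201)) (PT.lf (nat_lit 47348) (nat_lit 6) (nat_lit 623) (nat_lit 5) (nat_lit 178) (nat_lit 192) (nat_lit 200))) (PT.nd (nat_lit 78) (PT.lf (nat_lit 48260) (nat_lit 6) (nat_lit 635) (nat_lit 5) (nat_lit 179) (nat_lit 192) (nat_lit 199)) (PT.lf (nat_lit 49096) (nat_lit 6) (nat_lit 646) (nat_lit 5) (nat_lit 180) (nat_lit 192) (nat_lit 198)))) (PT.nd (nat_lit 156) (PT.nd (nat_lit 78) (PT.lf (nat_lit 49856) (nat_lit 6) (nat_lit 656) (nat_lit 5) (nat_lit 181) (nat_lit 192) (nat_lit 197)) (PT.lf (nat_lit 50540) (nat_lit 6) (nat_lit 665) (nat_lit 5) (nat_lit 182) (nat_lit 192) (nat_lit 196))) (PT.nd (nat_lit 78) (PT.lf (nat_lit 51148)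 (nat_lit 6) (nat_lit 673) (nat_lit 5) (nat_lit 183) (nat_lit 192) (nat_lit 195)) (PT.lf (nat_lit 51680) (nat_lit 6) (nat_lit 680) (nat_lit 5) (nat_lit 184) (nat_lit 192) (nat_lit 194))))))) (PT.nd (nat_lit 1170) (PT.nd (nat_lit 546) (PT.nd (nat_lit 234) (PT.nd (nat_lit 78) (PT.lf (nat_lit 52136) (nat_lit 6) (nat_lit 686) (nat_lit 5) (nat_lit 185) (nat_lit 192) (nat_lit 193)) (PT.nd (nat_lit 78) (PT.lf (nat_lit 52516) (nat_lit 3) (nat_lit 691) (nat_lit 4) (nat_lit 186) (nat_lit 192) (nat_lit 192)) (PT.lf (nat_lit 52744) (nat_lit 6) (nat_lit 694) (nat_lit 4) (nat_lit 187) (nat_lit 192) (nat_lit 191)))) (PT.nd (nat_lit 156) (PT.nd (nat_lit 78) (PT.lf (nat_lit 52896) (nat_lit 6) (nat_lit 696) (nat_lit 4) (nat_lit 188) (nat_lit 192) (nat_lit 190)) (PT.lf (nat_lit 52820) (nat_lit 3) (nat_lit 695) (nat_lit 2) (nat_lit 189) (nat_lit 192) (nat_lit 189))) (PT.nd (nat_lit 78) (PT.lf (nat_lit 52896) (nat_lit 6) (nat_lit 696) (nat_lit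 2) (nat_lit 190) (nat_lit 192) (nat_lit 188)) (PT.lf (nat_lit 52744) (nat_lit 6) (nat_lit 694) (nat_lit 2) (nat_lit 191) (nat_lit 192) (nat_lit 187))))) (PT.nd (nat_lit 312) (PT.nd (nat_lit 156) (PT.nd (nat_lit 78) (PT.lf (nat_lit 52516) (nat_lit 3) (nat_lit 691) (nat_lit 0) (nat_lit 192) (nat_lit 192) (nat_lit 186)) (PT.lf (nat_lit 52136) (nat_lit 6) (nat_lit 686) (nat_lit 0) (nat_lit 193) (nat_lit 192) (nat_lit 185))) (PT.nd (nat_lit 78) (PT.lf (nat_lit 51680) (nat_lit 6) (nat_lit 680) (nat_lit 0) (nat_lit 194) (nat_lit 192) (nat_lit 184)) (PT.lf (nat_lit 51148) (nat_lit 6) (nat_lit 673) (nat_lit 0) (nat_lit 195) (nat_lit 192) (nat_lit 183)))) (PT.nd (nat_lit 156) (PT.nd (nat_lit 78) (PT.lf (nat_lit 50540) (nat_lit 6) (nat_lit 665) (nat_lit 0) (nat_lit 196) (nat_lit 192) (nat_lit 182)) (PT.lf (nat_lit 49856) (nat_lit 6) (nat_lit 656) (nat_lit 0) (nat_lit 197) (nat_lit 192) (nat_lit 181))) (PT.nd (nat_lit 78) (PT.lf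 (nat_lit 49096) (nat_lit 6) (nat_lit 646) (nat_lit 0) (nat_lit 198) (nat_lit 192) (nat_lit 180)) (PT.lf (nat_lit 48260) (nat_lit 6) (nat_lit 635) (nat_lit 0) (nat_lit 199) (nat_lit 192) (nat_lit 179)))))) (PT.nd (nat_lit 624) (PT.nd (nat_lit 312) (PT.nd (nat_lit 156) (PT.nd (nat_lit 78) (PT.lf (nat_lit 47348) (nat_lit 6) (nat_lit 623) (nat_lit 0) (nat_lit 200) (nat_lit 192) (nat_lit 178)) (PT.lf (nat_lit 46360) (nat_lit 6) (nat_lit 610) (nat_lit 0) (nat_lit 201) (nat_lit 192) (nat_lit 177))) (PT.nd (nat_lit 78) (PT.lf (nat_lit 45296) (nat_lit 6) (nat_lit 596) (nat_lit 0) (nat_lit 202) (nat_lit 192) (nat_lit 176)) (PT.lf (nat_lit 44156) (nat_lit 6) (nat_lit 581) (nat_lit 0) (nat_lit 203) (nat_lit 192) (nat_lit 175)))) (PT.nd (nat_lit 156) (PT.nd (nat_lit 78) (PT.lf (nat_lit 42940) (nat_lit 6) (nat_lit 565) (nat_lit 0) (nat_lit 204) (nat_lit 192) (nat_lit 174)) (PT.lf (nat_lit 41648) (nat_lit 6) (nat_lit 548) (nat_lit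 0) (nat_lit 205) (nat_lit 192) (nat_lit 173))) (PT.nd (nat_lit 78) (PT.lf (nat_lit 40280) (nat_lit 6) (nat_lit 530) (nat_lit 0) (nat_lit 206) (nat_lit 192) (nat_lit 172)) (PT.lf (nat_lit 38836) (nat_lit 6) (nat_lit 511) (nat_lit 0) (nat_lit 207) (nat_lit 192) (nat_lit 171))))) (PT.nd (nat_lit 312) (PT.nd (nat_lit 156) (PT.nd (nat_lit 78) (PT.lf (nat_lit 37316) (nat_lit 6) (nat_lit 491) (nat_lit 0) (nat_lit 208) (nat_lit 192) (nat_lit 170)) (PT.lf (nat_lit 35720) (nat_lit 6) (nat_lit 470) (nat_lit 0) (nat_lit 209) (nat_lit 192) (nat_lit 169))) (PT.nd (nat_lit 78) (PT.lf (nat_lit 34048) (nat_lit 6) (nat_lit 448) (nat_lit 0) (nat_lit 210) (nat_lit 192) (nat_lit 168)) (PT.lf (nat_lit 32300) (nat_lit 6) (nat_lit 425) (nat_lit 0) (nat_lit 211) (nat_lit 192) (nat_lit 167)))) (PT.nd (nat_lit 156) (PT.nd (nat_lit 78) (PT.lf (nat_lit 30476) (nat_lit 6) (nat_lit 401) (nat_lit 0) (nat_lit 212) (nat_lit 192) (nat_lit 166)) (PT.lf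 (nat_lit 29260) (nat_lit 6) (nat_lit 385) (nat_lit 0) (nat_lit 213) (nat_lit 192) (nat_lit 165))) (PT.nd (nat_lit 55302) (PT.lf (nat_lit 28272) (nat_lit 6) (nat_lit 372) (nat_lit 0) (nat_lit 214) (nat_lit 192) (nat_lit 164)) (PT.lf (nat_lit 26524) (nat_lit 6) (nat_lit 349) (nat_lit 5) (nat_lit 162) (nat_lit 193) (nat_lit 215))))))))
noncomputable def pc28 : PT := (PT.nd (nat_lit 2340) (PT.nd (nat_lit 1170) (PT.nd (nat_lit 546) (PT.nd (nat_lit 234) (PT.nd (nat_lit 78) (PT.lf (nat_lit 27436) (nat_lit 6) (nat_lit 361) (nat_lit 5) (nat_lit 163) (nat_lit 193) (nat_lit 214)) (PT.nd (nat_lit 78) (PT.lf (nat_lit 28348) (nat_lit 6) (nat_lit 373) (nat_lit 5) (nat_lit 164) (nat_lit 193) (nat_lit 213)) (PT.lf (nat_lit 29336) (nat_lit 6) (nat_lit 386) (nat_lit 5) (nat_lit 165) (nat_lit 193) (nat_lit 212)))) (PT.nd (nat_lit 156) (PT.nd (nat_lit 78) (PT.lf (nat_lit 30552) (nat_lit 6) (nat_lit 402) (nat_lit 5) (nat_lit 166) (nat_lit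 193) (nat_lit 211)) (PT.lf (nat_lit 32376) (nat_lit 6) (nat_lit 426) (nat_lit 5) (nat_lit 167) (nat_lit 193) (nat_lit 210))) (PT.nd (nat_lit 78) (PT.lf (nat_lit 34124) (nat_lit 6) (nat_lit 449) (nat_lit 5) (nat_lit 168) (nat_lit 193) (nat_lit 209)) (PT.lf (nat_lit 35796) (nat_lit 6) (nat_lit 471) (nat_lit 5) (nat_lit 169) (nat_lit 193) (nat_lit 208))))) (PT.nd (nat_lit 312) (PT.nd (nat_lit 156) (PT.nd (nat_lit 78) (PT.lf (nat_lit 37392) (nat_lit 6) (nat_lit 492) (nat_lit 5) (nat_lit 170) (nat_lit 193) (nat_lit 207)) (PT.lf (nat_lit 38912) (nat_lit 6) (nat_lit 512) (nat_lit 5) (nat_lit 171) (nat_lit 193) (nat_lit 206))) (PT.nd (nat_lit 78) (PT.lf (nat_lit 40356) (nat_lit 6) (nat_lit 531) (nat_lit 5) (nat_lit 172) (nat_lit 193) (nat_lit 205)) (PT.lf (nat_lit 41724) (nat_lit 6) (nat_lit 549) (nat_lit 5) (nat_lit 173) (nat_lit 193) (nat_lit 204)))) (PT.nd (nat_lit 156) (PT.nd (nat_lit 78) (PT.lf (nat_lit 43016) (nat_lit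 6) (nat_lit 566) (nat_lit 5) (nat_lit 174) (nat_lit 193) (nat_lit 203)) (PT.lf (nat_lit 44232) (nat_lit 6) (nat_lit 582) (nat_lit 5) (nat_lit 175) (nat_lit 193) (nat_lit 202))) (PT.nd (nat_lit 78) (PT.lf (nat_lit 45372) (nat_lit 6) (nat_lit 597) (nat_lit 5) (nat_lit 176) (nat_lit 193) (nat_lit 201)) (PT.lf (nat_lit 46436) (nat_lit 6) (nat_lit 611) (nat_lit 5) (nat_lit 177) (nat_lit 193) (nat_lit 200)))))) (PT.nd (nat_lit 546) (PT.nd (nat_lit 234) (PT.nd (nat_lit 78) (PT.lf (nat_lit 47424) (nat_lit 6) (nat_lit 624) (nat_lit 5) (nat_lit 178) (nat_lit 193) (nat_lit 199)) (PT.nd (nat_lit 78) (PT.lf (nat_lit 48336) (nat_lit 6) (nat_lit 636) (nat_lit 5) (nat_lit 179) (nat_lit 193) (nat_lit 198)) (PT.lf (nat_lit 49172) (nat_lit 6) (nat_lit 647) (nat_lit 5) (nat_lit 180) (nat_lit 193) (nat_lit 197)))) (PT.nd (nat_lit 156) (PT.nd (nat_lit 78) (PT.lf (nat_lit 49932) (nat_lit 6) (nat_lit 657) (nat_lit 5) (nat_lit 181) (nat_lit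 193) (nat_lit 196)) (PT.lf (nat_lit 50616) (nat_lit 6) (nat_lit 666) (nat_lit 5) (nat_lit 182) (nat_lit 193) (nat_lit 195))) (PT.nd (nat_lit 78) (PT.lf (nat_lit 51224) (nat_lit 6) (nat_lit 674) (nat_lit 5) (nat_lit 183) (nat_lit 193) (nat_lit 194)) (PT.lf (nat_lit 51756) (nat_lit 3) (nat_lit 681) (nat_lit 4) (nat_lit 184) (nat_lit 193) (nat_lit 193))))) (PT.nd (nat_lit 312) (PT.nd (nat_lit 156) (PT.nd (nat_lit 78) (PT.lf (nat_lit 52136) (nat_lit 6) (nat_lit 686) (nat_lit 4) (nat_lit 185) (nat_lit 193) (nat_lit 192)) (PT.lf (nat_lit 52440) (nat_lit 6) (nat_lit 690) (nat_lit 4) (nat_lit 186) (nat_lit 193) (nat_lit 191))) (PT.nd (nat_lit 78) (PT.lf (nat_lit 52668) (nat_lit 6) (nat_lit 693) (nat_lit 4) (nat_lit 187) (nat_lit 193) (nat_lit 190)) (PT.lf (nat_lit 52592) (nat_lit 6) (nat_lit 692) (nat_lit 4) (nat_lit 188) (nat_lit 193) (nat_lit 189)))) (PT.nd (nat_lit 156) (PT.nd (nat_lit 78) (PT.lf (nat_lit 52592) (nat_lit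 6) (nat_lit 692) (nat_lit 2) (nat_lit 189) (nat_lit 193) (nat_lit 188)) (PT.lf (nat_lit 52668) (nat_lit 6) (nat_lit 693) (nat_lit 2) (nat_lit 190) (nat_lit 193) (nat_lit 187))) (PT.nd (nat_lit 78) (PT.lf (nat_lit 52440) (nat_lit 6) (nat_lit 690) (nat_lit 2) (nat_lit 191) (nat_lit 193) (nat_lit 186)) (PT.lf (nat_lit 52136) (nat_lit 6) (nat_lit 686) (nat_lit 2) (nat_lit 192) (nat_lit 193) (nat_lit 185))))))) (PT.nd (nat_lit 1170) (PT.nd (nat_lit 546) (PT.nd (nat_lit 234) (PT.nd (nat_lit 78) (PT.lf (nat_lit 51756) (nat_lit 3) (nat_lit 681) (nat_lit 0) (nat_lit 193) (nat_lit 193) (nat_lit 184)) (PT.nd (nat_lit 78) (PT.lf (nat_lit 51224) (nat_lit 6) (nat_lit 674) (nat_lit 0) (nat_lit 194) (nat_lit 193) (nat_lit 183)) (PT.lf (nat_lit 50616) (nat_lit 6) (nat_lit 666) (nat_lit 0) (nat_lit 195) (nat_lit 193) (nat_lit 182)))) (PT.nd (nat_lit 156) (PT.nd (nat_lit 78) (PT.lf (nat_lit 49932) (nat_lit 6) (nat_lit 657) (nat_lit 0)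 (nat_lit 196) (nat_lit 193) (nat_lit 181)) (PT.lf (nat_lit 49172) (nat_lit 6) (nat_lit 647) (nat_lit 0) (nat_lit 197) (nat_lit 193) (nat_lit 180))) (PT.nd (nat_lit 78) (PT.lf (nat_lit 48336) (nat_lit 6) (nat_lit 636) (nat_lit 0) (nat_lit 198) (nat_lit 193) (nat_lit 179)) (PT.lf (nat_lit 47424) (nat_lit 6) (nat_lit 624) (nat_lit 0) (nat_lit 199) (nat_lit 193) (nat_lit 178))))) (PT.nd (nat_lit 312) (PT.nd (nat_lit 156) (PT.nd (nat_lit 78) (PT.lf (nat_lit 46436) (nat_lit 6) (nat_lit 611) (nat_lit 0) (nat_lit 200) (nat_lit 193) (nat_lit 177)) (PT.lf (nat_lit 45372) (nat_lit 6) (nat_lit 597) (nat_lit 0) (nat_lit 201) (nat_lit 193) (nat_lit 176))) (PT.nd (nat_lit 78) (PT.lf (nat_lit 44232) (nat_lit 6) (nat_lit 582) (nat_lit 0) (nat_lit 202) (nat_lit 193) (nat_lit 175)) (PT.lf (nat_lit 43016) (nat_lit 6) (nat_lit 566) (nat_lit 0) (nat_lit 203) (nat_lit 193) (nat_lit 174)))) (PT.nd (nat_lit 156) (PT.nd (nat_lit 78) (PT.lf (nat_lit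 41724) (nat_lit 6) (nat_lit 549) (nat_lit 0) (nat_lit 204) (nat_lit 193) (nat_lit 173)) (PT.lf (nat_lit 40356) (nat_lit 6) (nat_lit 531) (nat_lit 0) (nat_lit 205) (nat_lit 193) (nat_lit 172))) (PT.nd (nat_lit 78) (PT.lf (nat_lit 38912) (nat_lit 6) (nat_lit 512) (nat_lit 0) (nat_lit 206) (nat_lit 193) (nat_lit 171)) (PT.lf (nat_lit 37392) (nat_lit 6) (nat_lit 492) (nat_lit 0) (nat_lit 207) (nat_lit 193) (nat_lit 170)))))) (PT.nd (nat_lit 55692) (PT.nd (nat_lit 312) (PT.nd (nat_lit 156) (PT.nd (nat_lit 78) (PT.lf (nat_lit 35796) (nat_lit 6) (nat_lit 471) (nat_lit 0) (nat_lit 208) (nat_lit 193) (nat_lit 169)) (PT.lf (nat_lit 34124) (nat_lit 6) (nat_lit 449) (nat_lit 0) (nat_lit 209) (nat_lit 193) (nat_lit 168))) (PT.nd (nat_lit 78) (PT.lf (nat_lit 32376) (nat_lit 6) (nat_lit 426) (nat_lit 0) (nat_lit 210) (nat_lit 193) (nat_lit 167)) (PT.lf (nat_lit 30552) (nat_lit 6) (nat_lit 402) (nat_lit 0) (nat_lit 211) (nat_lit 193)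 (nat_lit 166)))) (PT.nd (nat_lit 156) (PT.nd (nat_lit 78) (PT.lf (nat_lit 29336) (nat_lit 6) (nat_lit 386) (nat_lit 0) (nat_lit 212) (nat_lit 193) (nat_lit 165)) (PT.lf (nat_lit 28348) (nat_lit 6) (nat_lit 373) (nat_lit 0) (nat_lit 213) (nat_lit 193) (nat_lit 164))) (PT.nd (nat_lit 78) (PT.lf (nat_lit 27436) (nat_lit 6) (nat_lit 361) (nat_lit 0) (nat_lit 214) (nat_lit 193) (nat_lit 163)) (PT.lf (nat_lit 26524) (nat_lit 6) (nat_lit 349) (nat_lit 0) (nat_lit 215) (nat_lit 193) (nat_lit 162))))) (PT.nd (nat_lit 312) (PT.nd (nat_lit 156) (PT.nd (nat_lit 78) (PT.lf (nat_lit 25688) (nat_lit 6) (nat_lit 338) (nat_lit 5) (nat_lit 161) (nat_lit 194) (nat_lit 215)) (PT.lf (nat_lit 26600) (nat_lit 6) (nat_lit 350) (nat_lit 5) (nat_lit 162) (nat_lit 194) (nat_lit 214))) (PT.nd (nat_lit 78) (PT.lf (nat_lit 27512) (nat_lit 6) (nat_lit 362) (nat_lit 5) (nat_lit 163) (nat_lit 194) (nat_lit 213)) (PT.lf (nat_lit 28424) (nat_lit 6) (nat_lit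 374) (nat_lit 5) (nat_lit 164) (nat_lit 194) (nat_lit 212)))) (PT.nd (nat_lit 156) (PT.nd (nat_lit 78) (PT.lf (nat_lit 29412) (nat_lit 6) (nat_lit 387) (nat_lit 5) (nat_lit 165) (nat_lit 194) (nat_lit 211)) (PT.lf (nat_lit 30628) (nat_lit 6) (nat_lit 403) (nat_lit 5) (nat_lit 166) (nat_lit 194) (nat_lit 210))) (PT.nd (nat_lit 78) (PT.lf (nat_lit 32452) (nat_lit 6) (nat_lit 427) (nat_lit 5) (nat_lit 167) (nat_lit 194) (nat_lit 209)) (PT.lf (nat_lit 34200) (nat_lit 6) (nat_lit 450) (nat_lit 5) (nat_lit 168) (nat_lit 194) (nat_lit 208))))))))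
noncomputable def pc29 : PT := (PT.nd (nat_lit 2418) (PT.nd (nat_lit 1170) (PT.nd (nat_lit 546) (PT.nd (nat_lit 234) (PT.nd (nat_lit 78) (PT.lf (nat_lit 35872) (nat_lit 6) (nat_lit 472) (nat_lit 5) (nat_lit 169) (nat_lit 194) (nat_lit 207)) (PT.nd (nat_lit 78) (PT.lf (nat_lit 37468) (nat_lit 6) (nat_lit 493) (nat_lit 5) (nat_lit 170) (nat_lit 194) (nat_lit 206)) (PT.lf (nat_lit 38988) (nat_lit 6) (nat_lit 513) (nat_lit 5) (nat_lit 171) (nat_lit 194) (nat_lit 205)))) (PT.nd (nat_lit 156) (PT.nd (nat_lit 78) (PT.lf (nat_lit 40432) (nat_lit 6) (nat_lit 532) (nat_lit 5) (nat_lit 172) (nat_lit 194) (nat_lit 204)) (PT.lf (nat_lit 41800) (nat_lit 6) (nat_lit 550) (nat_lit 5) (nat_lit 173) (nat_lit 194) (nat_lit 203))) (PT.nd (nat_lit 78) (PT.lf (nat_lit 43092) (nat_lit 6) (nat_lit 567) (nat_lit 5) (nat_lit 174) (nat_lit 194) (nat_lit 202)) (PT.lf (nat_lit 44308) (nat_lit 6) (nat_lit 583) (nat_lit 5) (nat_lit 175) (nat_lit 194)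 (nat_lit 201))))) (PT.nd (nat_lit 312) (PT.nd (nat_lit 156) (PT.nd (nat_lit 78) (PT.lf (nat_lit 45448) (nat_lit 6) (nat_lit 598) (nat_lit 5) (nat_lit 176) (nat_lit 194) (nat_lit 200)) (PT.lf (nat_lit 46512) (nat_lit 6) (nat_lit 612) (nat_lit 5) (nat_lit 177) (nat_lit 194) (nat_lit 199))) (PT.nd (nat_lit 78) (PT.lf (nat_lit 47500) (nat_lit 6) (nat_lit 625) (nat_lit 5) (nat_lit 178) (nat_lit 194) (nat_lit 198)) (PT.lf (nat_lit 48412) (nat_lit 6) (nat_lit 637) (nat_lit 5) (nat_lit 179) (nat_lit 194) (nat_lit 197)))) (PT.nd (nat_lit 156) (PT.nd (nat_lit 78) (PT.lf (nat_lit 49248) (nat_lit 6) (nat_lit 648) (nat_lit 5) (nat_lit 180) (nat_lit 194) (nat_lit 196)) (PT.lf (nat_lit 50008) (nat_lit 6) (nat_lit 658) (nat_lit 5) (nat_lit 181) (nat_lit 194) (nat_lit 195))) (PT.nd (nat_lit 78) (PT.lf (nat_lit 50692) (nat_lit 3) (nat_lit 667) (nat_lit 4) (nat_lit 182) (nat_lit 194) (nat_lit 194)) (PT.lf (nat_lit 51224) (nat_lit 6) (nat_lit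 674) (nat_lit 4) (nat_lit 183) (nat_lit 194) (nat_lit 193)))))) (PT.nd (nat_lit 624) (PT.nd (nat_lit 312) (PT.nd (nat_lit 156) (PT.nd (nat_lit 78) (PT.lf (nat_lit 51680) (nat_lit 6) (nat_lit 680) (nat_lit 4) (nat_lit 184) (nat_lit 194) (nat_lit 192)) (PT.lf (nat_lit 52060) (nat_lit 6) (nat_lit 685) (nat_lit 4) (nat_lit 185) (nat_lit 194) (nat_lit 191))) (PT.nd (nat_lit 78) (PT.lf (nat_lit 52364) (nat_lit 6) (nat_lit 689) (nat_lit 4) (nat_lit 186) (nat_lit 194) (nat_lit 190)) (PT.lf (nat_lit 52288) (nat_lit 6) (nat_lit 688) (nat_lit 4) (nat_lit 187) (nat_lit 194) (nat_lit 189)))) (PT.nd (nat_lit 156) (PT.nd (nat_lit 78) (PT.lf (nat_lit 52212) (nat_lit 3) (nat_lit 687) (nat_lit 2) (nat_lit 188) (nat_lit 194) (nat_lit 188)) (PT.lf (nat_lit 52288) (nat_lit 6) (nat_lit 688) (nat_lit 2) (nat_lit 189) (nat_lit 194) (nat_lit 187))) (PT.nd (nat_lit 78) (PT.lf (nat_lit 52364) (nat_lit 6) (nat_lit 689) (nat_lit 2) (nat_lit 190)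 (nat_lit 194) (nat_lit 186)) (PT.lf (nat_lit 52060) (nat_lit 6) (nat_lit 685) (nat_lit 2) (nat_lit 191) (nat_lit 194) (nat_lit 185))))) (PT.nd (nat_lit 312) (PT.nd (nat_lit 156) (PT.nd (nat_lit 78) (PT.lf (nat_lit 51680) (nat_lit 6) (nat_lit 680) (nat_lit 2) (nat_lit 192) (nat_lit 194) (nat_lit 184)) (PT.lf (nat_lit 51224) (nat_lit 6) (nat_lit 674) (nat_lit 2) (nat_lit 193) (nat_lit 194) (nat_lit 183))) (PT.nd (nat_lit 78) (PT.lf (nat_lit 50692) (nat_lit 3) (nat_lit 667) (nat_lit 0) (nat_lit 194) (nat_lit 194) (nat_lit 182)) (PT.lf (nat_lit 50008) (nat_lit 6) (nat_lit 658) (nat_lit 0) (nat_lit 195) (nat_lit 194) (nat_lit 181)))) (PT.nd (nat_lit 156) (PT.nd (nat_lit 78) (PT.lf (nat_lit 49248) (nat_lit 6) (nat_lit 648) (nat_lit 0) (nat_lit 196) (nat_lit 194) (nat_lit 180)) (PT.lf (nat_lit 48412) (nat_lit 6) (nat_lit 637) (nat_lit 0) (nat_lit 197) (nat_lit 194) (nat_lit 179))) (PT.nd (nat_lit 78) (PT.lf (nat_lit 47500)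 (nat_lit 6) (nat_lit 625) (nat_lit 0) (nat_lit 198) (nat_lit 194) (nat_lit 178)) (PT.lf (nat_lit 46512) (nat_lit 6) (nat_lit 612) (nat_lit 0) (nat_lit 199) (nat_lit 194) (nat_lit 177))))))) (PT.nd (nat_lit 1170) (PT.nd (nat_lit 546) (PT.nd (nat_lit 234) (PT.nd (nat_lit 78) (PT.lf (nat_lit 45448) (nat_lit 6) (nat_lit 598) (nat_lit 0) (nat_lit 200) (nat_lit 194) (nat_lit 176)) (PT.nd (nat_lit 78) (PT.lf (nat_lit 44308) (nat_lit 6) (nat_lit 583) (nat_lit 0) (nat_lit 201) (nat_lit 194) (nat_lit 175)) (PT.lf (nat_lit 43092) (nat_lit 6) (nat_lit 567) (nat_lit 0) (nat_lit 202) (nat_lit 194) (nat_lit 174)))) (PT.nd (nat_lit 156) (PT.nd (nat_lit 78) (PT.lf (nat_lit 41800) (nat_lit 6) (nat_lit 550) (nat_lit 0) (nat_lit 203) (nat_lit 194) (nat_lit 173)) (PT.lf (nat_lit 40432) (nat_lit 6) (nat_lit 532) (nat_lit 0) (nat_lit 204) (nat_lit 194) (nat_lit 172))) (PT.nd (nat_lit 78) (PT.lf (nat_lit 38988) (nat_lit 6) (nat_lit 513) (nat_lit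 0) (nat_lit 205) (nat_lit 194) (nat_lit 171)) (PT.lf (nat_lit 37468) (nat_lit 6) (nat_lit 493) (nat_lit 0) (nat_lit 206) (nat_lit 194) (nat_lit 170))))) (PT.nd (nat_lit 312) (PT.nd (nat_lit 156) (PT.nd (nat_lit 78) (PT.lf (nat_lit 35872) (nat_lit 6) (nat_lit 472) (nat_lit 0) (nat_lit 207) (nat_lit 194) (nat_lit 169)) (PT.lf (nat_lit 34200) (nat_lit 6) (nat_lit 450) (nat_lit 0) (nat_lit 208) (nat_lit 194) (nat_lit 168))) (PT.nd (nat_lit 78) (PT.lf (nat_lit 32452) (nat_lit 6) (nat_lit 427) (nat_lit 0) (nat_lit 209) (nat_lit 194) (nat_lit 167)) (PT.lf (nat_lit 30628) (nat_lit 6) (nat_lit 403) (nat_lit 0) (nat_lit 210) (nat_lit 194) (nat_lit 166)))) (PT.nd (nat_lit 156) (PT.nd (nat_lit 78) (PT.lf (nat_lit 29412) (nat_lit 6) (nat_lit 387) (nat_lit 0) (nat_lit 211) (nat_lit 194) (nat_lit 165)) (PT.lf (nat_lit 28424) (nat_lit 6) (nat_lit 374) (nat_lit 0) (nat_lit 212) (nat_lit 194) (nat_lit 164))) (PT.nd (nat_lit 78) (PT.lf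 (nat_lit 27512) (nat_lit 6) (nat_lit 362) (nat_lit 0) (nat_lit 213) (nat_lit 194) (nat_lit 163)) (PT.lf (nat_lit 26600) (nat_lit 6) (nat_lit 350) (nat_lit 0) (nat_lit 214) (nat_lit 194) (nat_lit 162)))))) (PT.nd (nat_lit 55614) (PT.nd (nat_lit 55302) (PT.nd (nat_lit 55146) (PT.nd (nat_lit 55068) (PT.lf (nat_lit 25688) (nat_lit 6) (nat_lit 338) (nat_lit 0) (nat_lit 215) (nat_lit 194) (nat_lit 161)) (PT.lf (nat_lit 24852) (nat_lit 6) (nat_lit 327) (nat_lit 5) (nat_lit 160) (nat_lit 195) (nat_lit 215))) (PT.nd (nat_lit 78) (PT.lf (nat_lit 25764) (nat_lit 6) (nat_lit 339) (nat_lit 5) (nat_lit 161) (nat_lit 195) (nat_lit 214)) (PT.lf (nat_lit 26676) (nat_lit 6) (nat_lit 351) (nat_lit 5) (nat_lit 162) (nat_lit 195) (nat_lit 213)))) (PT.nd (nat_lit 156) (PT.nd (nat_lit 78) (PT.lf (nat_lit 27588) (nat_lit 6) (nat_lit 363) (nat_lit 5) (nat_lit 163) (nat_lit 195) (nat_lit 212)) (PT.lf (nat_lit 28500) (nat_lit 6) (nat_lit 375)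 (nat_lit 5) (nat_lit 164) (nat_lit 195) (nat_lit 211))) (PT.nd (nat_lit 78) (PT.lf (nat_lit 29488) (nat_lit 6) (nat_lit 388) (nat_lit 5) (nat_lit 165) (nat_lit 195) (nat_lit 210)) (PT.lf (nat_lit 30704) (nat_lit 6) (nat_lit 404) (nat_lit 5) (nat_lit 166) (nat_lit 195) (nat_lit 209))))) (PT.nd (nat_lit 312) (PT.nd (nat_lit 156) (PT.nd (nat_lit 78) (PT.lf (nat_lit 32528) (nat_lit 6) (nat_lit 428) (nat_lit 5) (nat_lit 167) (nat_lit 195) (nat_lit 208)) (PT.lf (nat_lit 34276) (nat_lit 6) (nat_lit 451) (nat_lit 5) (nat_lit 168) (nat_lit 195) (nat_lit 207))) (PT.nd (nat_lit 78) (PT.lf (nat_lit 35948) (nat_lit 6) (nat_lit 473) (nat_lit 5) (nat_lit 169) (nat_lit 195) (nat_lit 206)) (PT.lf (nat_lit 37544) (nat_lit 6) (nat_lit 494) (nat_lit 5) (nat_lit 170) (nat_lit 195) (nat_lit 205)))) (PT.nd (nat_lit 156) (PT.nd (nat_lit 78) (PT.lf (nat_lit 39064) (nat_lit 6) (nat_lit 514) (nat_lit 5) (nat_lit 171) (nat_lit 195) (nat_lit 204))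 (PT.lf (nat_lit 40508) (nat_lit 6) (nat_lit 533) (nat_lit 5) (nat_lit 172) (nat_lit 195) (nat_lit 203))) (PT.nd (nat_lit 78) (PT.lf (nat_lit 41876) (nat_lit 6) (nat_lit 551) (nat_lit 5) (nat_lit 173) (nat_lit 195) (nat_lit 202)) (PT.lf (nat_lit 43168) (nat_lit 6) (nat_lit 568) (nat_lit 5) (nat_lit 174) (nat_lit 195) (nat_lit 201))))))))
noncomputable def pc30 : PT := (PT.nd (nat_lit 2340) (PT.nd (nat_lit 1170) (PT.nd (nat_lit 546) (PT.nd (nat_lit 234) (PT.nd (nat_lit 78) (PT.lf (nat_lit 44384) (nat_lit 6) (nat_lit 584) (nat_lit 5) (nat_lit 175) (nat_lit 195) (nat_lit 200)) (PT.nd (nat_lit 78) (PT.lf (nat_lit 45524) (nat_lit 6) (nat_lit 599) (nat_lit 5) (nat_lit 176) (nat_lit 195) (nat_lit 199)) (PT.lf (nat_lit 46588) (nat_lit 6) (nat_lit 613) (nat_lit 5) (nat_lit 177) (nat_lit 195) (nat_lit 198)))) (PT.nd (nat_lit 156) (PT.nd (nat_lit 78) (PT.lf (nat_lit 47576) (nat_lit 6) (nat_lit 626) (nat_lit 5) (nat_lit 178) (nat_lit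 195) (nat_lit 197)) (PT.lf (nat_lit 48488) (nat_lit 6) (nat_lit 638) (nat_lit 5) (nat_lit 179) (nat_lit 195) (nat_lit 196))) (PT.nd (nat_lit 78) (PT.lf (nat_lit 49324) (nat_lit 3) (nat_lit 649) (nat_lit 4) (nat_lit 180) (nat_lit 195) (nat_lit 195)) (PT.lf (nat_lit 50008) (nat_lit 6) (nat_lit 658) (nat_lit 4) (nat_lit 181) (nat_lit 195) (nat_lit 194))))) (PT.nd (nat_lit 312) (PT.nd (nat_lit 156) (PT.nd (nat_lit 78) (PT.lf (nat_lit 50616) (nat_lit 6) (nat_lit 666) (nat_lit 4) (nat_lit 182) (nat_lit 195) (nat_lit 193)) (PT.lf (nat_lit 51148) (nat_lit 6) (nat_lit 673) (nat_lit 4) (nat_lit 183) (nat_lit 195) (nat_lit 192))) (PT.nd (nat_lit 78) (PT.lf (nat_lit 51604) (nat_lit 6) (nat_lit 679) (nat_lit 4) (nat_lit 184) (nat_lit 195) (nat_lit 191)) (PT.lf (nat_lit 51984) (nat_lit 6) (nat_lit 684) (nat_lit 4) (nat_lit 185) (nat_lit 195) (nat_lit 190)))) (PT.nd (nat_lit 156) (PT.nd (nat_lit 78) (PT.lf (nat_lit 51908) (nat_lit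 6) (nat_lit 683) (nat_lit 4) (nat_lit 186) (nat_lit 195) (nat_lit 189)) (PT.lf (nat_lit 51832) (nat_lit 6) (nat_lit 682) (nat_lit 4) (nat_lit 187) (nat_lit 195) (nat_lit 188))) (PT.nd (nat_lit 78) (PT.lf (nat_lit 51832) (nat_lit 6) (nat_lit 682) (nat_lit 2) (nat_lit 188) (nat_lit 195) (nat_lit 187)) (PT.lf (nat_lit 51908) (nat_lit 6) (nat_lit 683) (nat_lit 2) (nat_lit 189) (nat_lit 195) (nat_lit 186)))))) (PT.nd (nat_lit 546) (PT.nd (nat_lit 234) (PT.nd (nat_lit 78) (PT.lf (nat_lit 51984) (nat_lit 6) (nat_lit 684) (nat_lit 2) (nat_lit 190) (nat_lit 195) (nat_lit 185)) (PT.nd (nat_lit 78) (PT.lf (nat_lit 51604) (nat_lit 6) (nat_lit 679) (nat_lit 2) (nat_lit 191) (nat_lit 195) (nat_lit 184)) (PT.lf (nat_lit 51148) (nat_lit 6) (nat_lit 673) (nat_lit 2) (nat_lit 192) (nat_lit 195) (nat_lit 183)))) (PT.nd (nat_lit 156) (PT.nd (nat_lit 78) (PT.lf (nat_lit 50616) (nat_lit 6) (nat_lit 666) (nat_lit 2) (nat_lit 193) (nat_lit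 195) (nat_lit 182)) (PT.lf (nat_lit 50008) (nat_lit 6) (nat_lit 658) (nat_lit 2) (nat_lit 194) (nat_lit 195) (nat_lit 181))) (PT.nd (nat_lit 78) (PT.lf (nat_lit 49324) (nat_lit 3) (nat_lit 649) (nat_lit 0) (nat_lit 195) (nat_lit 195) (nat_lit 180)) (PT.lf (nat_lit 48488) (nat_lit 6) (nat_lit 638) (nat_lit 0) (nat_lit 196) (nat_lit 195) (nat_lit 179))))) (PT.nd (nat_lit 312) (PT.nd (nat_lit 156) (PT.nd (nat_lit 78) (PT.lf (nat_lit 47576) (nat_lit 6) (nat_lit 626) (nat_lit 0) (nat_lit 197) (nat_lit 195) (nat_lit 178)) (PT.lf (nat_lit 46588) (nat_lit 6) (nat_lit 613) (nat_lit 0) (nat_lit 198) (nat_lit 195) (nat_lit 177))) (PT.nd (nat_lit 78) (PT.lf (nat_lit 45524) (nat_lit 6) (nat_lit 599) (nat_lit 0) (nat_lit 199) (nat_lit 195) (nat_lit 176)) (PT.lf (nat_lit 44384) (nat_lit 6) (nat_lit 584) (nat_lit 0) (nat_lit 200) (nat_lit 195) (nat_lit 175)))) (PT.nd (nat_lit 156) (PT.nd (nat_lit 78) (PT.lf (nat_lit 43168) (nat_lit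 6) (nat_lit 568) (nat_lit 0) (nat_lit 201) (nat_lit 195) (nat_lit 174)) (PT.lf (nat_lit 41876) (nat_lit 6) (nat_lit 551) (nat_lit 0) (nat_lit 202) (nat_lit 195) (nat_lit 173))) (PT.nd (nat_lit 78) (PT.lf (nat_lit 40508) (nat_lit 6) (nat_lit 533) (nat_lit 0) (nat_lit 203) (nat_lit 195) (nat_lit 172)) (PT.lf (nat_lit 39064) (nat_lit 6) (nat_lit 514) (nat_lit 0) (nat_lit 204) (nat_lit 195) (nat_lit 171))))))) (PT.nd (nat_lit 56082) (PT.nd (nat_lit 546) (PT.nd (nat_lit 234) (PT.nd (nat_lit 78) (PT.lf (nat_lit 37544) (nat_lit 6) (nat_lit 494) (nat_lit 0) (nat_lit 205) (nat_lit 195) (nat_lit 170)) (PT.nd (nat_lit 78) (PT.lf (nat_lit 35948) (nat_lit 6) (nat_lit 473) (nat_lit 0) (nat_lit 206) (nat_lit 195) (nat_lit 169)) (PT.lf (nat_lit 34276) (nat_lit 6) (nat_lit 451) (nat_lit 0) (nat_lit 207) (nat_lit 195) (nat_lit 168)))) (PT.nd (nat_lit 156) (PT.nd (nat_lit 78) (PT.lf (nat_lit 32528) (nat_lit 6) (nat_lit 428) (nat_lit 0)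 (nat_lit 208) (nat_lit 195) (nat_lit 167)) (PT.lf (nat_lit 30704) (nat_lit 6) (nat_lit 404) (nat_lit 0) (nat_lit 209) (nat_lit 195) (nat_lit 166))) (PT.nd (nat_lit 78) (PT.lf (nat_lit 29488) (nat_lit 6) (nat_lit 388) (nat_lit 0) (nat_lit 210) (nat_lit 195) (nat_lit 165)) (PT.lf (nat_lit 28500) (nat_lit 6) (nat_lit 375) (nat_lit 0) (nat_lit 211) (nat_lit 195) (nat_lit 164))))) (PT.nd (nat_lit 55224) (PT.nd (nat_lit 156) (PT.nd (nat_lit 78) (PT.lf (nat_lit 27588) (nat_lit 6) (nat_lit 363) (nat_lit 0) (nat_lit 212) (nat_lit 195) (nat_lit 163)) (PT.lf (nat_lit 26676) (nat_lit 6) (nat_lit 351) (nat_lit 0) (nat_lit 213) (nat_lit 195) (nat_lit 162))) (PT.nd (nat_lit 78) (PT.lf (nat_lit 25764) (nat_lit 6) (nat_lit 339) (nat_lit 0) (nat_lit 214) (nat_lit 195) (nat_lit 161)) (PT.lf (nat_lit 24852) (nat_lit 6) (nat_lit 327) (nat_lit 0) (nat_lit 215) (nat_lit 195) (nat_lit 160)))) (PT.nd (nat_lit 156) (PT.nd (nat_lit 78) (PT.lf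 (nat_lit 24092) (nat_lit 6) (nat_lit 317) (nat_lit 5) (nat_lit 159) (nat_lit 196) (nat_lit 215)) (PT.lf (nat_lit 24928) (nat_lit 6) (nat_lit 328) (nat_lit 5) (nat_lit 160) (nat_lit 196) (nat_lit 214))) (PT.nd (nat_lit 78) (PT.lf (nat_lit 25840) (nat_lit 6) (nat_lit 340) (nat_lit 5) (nat_lit 161) (nat_lit 196) (nat_lit 213)) (PT.lf (nat_lit 26752) (nat_lit 6) (nat_lit 352) (nat_lit 5) (nat_lit 162) (nat_lit 196) (nat_lit 212)))))) (PT.nd (nat_lit 624) (PT.nd (nat_lit 312) (PT.nd (nat_lit 156) (PT.nd (nat_lit 78) (PT.lf (nat_lit 27664) (nat_lit 6) (nat_lit 364) (nat_lit 5) (nat_lit 163) (nat_lit 196) (nat_lit 211)) (PT.lf (nat_lit 28576) (nat_lit 6) (nat_lit 376) (nat_lit 5) (nat_lit 164) (nat_lit 196) (nat_lit 210))) (PT.nd (nat_lit 78) (PT.lf (nat_lit 29564) (nat_lit 6) (nat_lit 389) (nat_lit 5) (nat_lit 165) (nat_lit 196) (nat_lit 209)) (PT.lf (nat_lit 30780) (nat_lit 6) (nat_lit 405) (nat_lit 5) (nat_lit 166) (nat_lit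 196) (nat_lit 208)))) (PT.nd (nat_lit 156) (PT.nd (nat_lit 78) (PT.lf (nat_lit 32604) (nat_lit 6) (nat_lit 429) (nat_lit 5) (nat_lit 167) (nat_lit 196) (nat_lit 207)) (PT.lf (nat_lit 34352) (nat_lit 6) (nat_lit 452) (nat_lit 5) (nat_lit 168) (nat_lit 196) (nat_lit 206))) (PT.nd (nat_lit 78) (PT.lf (nat_lit 36024) (nat_lit 6) (nat_lit 474) (nat_lit 5) (nat_lit 169) (nat_lit 196) (nat_lit 205)) (PT.lf (nat_lit 37620) (nat_lit 6) (nat_lit 495) (nat_lit 5) (nat_lit 170) (nat_lit 196) (nat_lit 204))))) (PT.nd (nat_lit 312) (PT.nd (nat_lit 156) (PT.nd (nat_lit 78) (PT.lf (nat_lit 39140) (nat_lit 6) (nat_lit 515) (nat_lit 5) (nat_lit 171) (nat_lit 196) (nat_lit 203)) (PT.lf (nat_lit 40584) (nat_lit 6) (nat_lit 534) (nat_lit 5) (nat_lit 172) (nat_lit 196) (nat_lit 202))) (PT.nd (nat_lit 78) (PT.lf (nat_lit 41952) (nat_lit 6) (nat_lit 552) (nat_lit 5) (nat_lit 173) (nat_lit 196) (nat_lit 201)) (PT.lf (nat_lit 43244) (nat_lit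 6) (nat_lit 569) (nat_lit 5) (nat_lit 174) (nat_lit 196) (nat_lit 200)))) (PT.nd (nat_lit 156) (PT.nd (nat_lit 78) (PT.lf (nat_lit 44460) (nat_lit 6) (nat_lit 585) (nat_lit 5) (nat_lit 175) (nat_lit 196) (nat_lit 199)) (PT.lf (nat_lit 45600) (nat_lit 6) (nat_lit 600) (nat_lit 5) (nat_lit 176) (nat_lit 196) (nat_lit 198))) (PT.nd (nat_lit 78) (PT.lf (nat_lit 46664) (nat_lit 6) (nat_lit 614) (nat_lit 5) (nat_lit 177) (nat_lit 196) (nat_lit 197)) (PT.lf (nat_lit 47652) (nat_lit 3) (nat_lit 627) (nat_lit 4) (nat_lit 178) (nat_lit 196) (nat_lit 196))))))))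
noncomputable def pc31 : PT := (PT.nd (nat_lit 2418) (PT.nd (nat_lit 1170) (PT.nd (nat_lit 546) (PT.nd (nat_lit 234) (PT.nd (nat_lit 78) (PT.lf (nat_lit 48488) (nat_lit 6) (nat_lit 638) (nat_lit 4) (nat_lit 179) (nat_lit 196) (nat_lit 195)) (PT.nd (nat_lit 78) (PT.lf (nat_lit 49248) (nat_lit 6) (nat_lit 648) (nat_lit 4) (nat_lit 180) (nat_lit 196) (nat_lit 194)) (PT.lf (nat_lit 49932) (nat_lit 6) (nat_lit 657) (nat_lit 4) (nat_lit 181) (nat_lit 196) (nat_lit 193)))) (PT.nd (nat_lit 156) (PT.nd (nat_lit 78) (PT.lf (nat_lit 50540) (nat_lit 6) (nat_lit 665) (nat_lit 4) (nat_lit 182) (nat_lit 196) (nat_lit 192)) (PT.lf (nat_lit 51072) (nat_lit 6) (nat_lit 672) (nat_lit 4) (nat_lit 183) (nat_lit 196) (nat_lit 191))) (PT.nd (nat_lit 78) (PT.lf (nat_lit 51528) (nat_lit 6) (nat_lit 678) (nat_lit 4) (nat_lit 184) (nat_lit 196) (nat_lit 190)) (PT.lf (nat_lit 51452) (nat_lit 6) (nat_lit 677) (nat_lit 4) (nat_lit 185) (nat_lit 196)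 (nat_lit 189))))) (PT.nd (nat_lit 312) (PT.nd (nat_lit 156) (PT.nd (nat_lit 78) (PT.lf (nat_lit 51376) (nat_lit 6) (nat_lit 676) (nat_lit 4) (nat_lit 186) (nat_lit 196) (nat_lit 188)) (PT.lf (nat_lit 51300) (nat_lit 3) (nat_lit 675) (nat_lit 2) (nat_lit 187) (nat_lit 196) (nat_lit 187))) (PT.nd (nat_lit 78) (PT.lf (nat_lit 51376) (nat_lit 6) (nat_lit 676) (nat_lit 2) (nat_lit 188) (nat_lit 196) (nat_lit 186)) (PT.lf (nat_lit 51452) (nat_lit 6) (nat_lit 677) (nat_lit 2) (nat_lit 189) (nat_lit 196) (nat_lit 185)))) (PT.nd (nat_lit 156) (PT.nd (nat_lit 78) (PT.lf (nat_lit 51528) (nat_lit 6) (nat_lit 678) (nat_lit 2) (nat_lit 190) (nat_lit 196) (nat_lit 184)) (PT.lf (nat_lit 51072) (nat_lit 6) (nat_lit 672) (nat_lit 2) (nat_lit 191) (nat_lit 196) (nat_lit 183))) (PT.nd (nat_lit 78) (PT.lf (nat_lit 50540) (nat_lit 6) (nat_lit 665) (nat_lit 2) (nat_lit 192) (nat_lit 196) (nat_lit 182)) (PT.lf (nat_lit 49932) (nat_lit 6) (nat_lit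 657) (nat_lit 2) (nat_lit 193) (nat_lit 196) (nat_lit 181)))))) (PT.nd (nat_lit 624) (PT.nd (nat_lit 312) (PT.nd (nat_lit 156) (PT.nd (nat_lit 78) (PT.lf (nat_lit 49248) (nat_lit 6) (nat_lit 648) (nat_lit 2) (nat_lit 194) (nat_lit 196) (nat_lit 180)) (PT.lf (nat_lit 48488) (nat_lit 6) (nat_lit 638) (nat_lit 2) (nat_lit 195) (nat_lit 196) (nat_lit 179))) (PT.nd (nat_lit 78) (PT.lf (nat_lit 47652) (nat_lit 3) (nat_lit 627) (nat_lit 0) (nat_lit 196) (nat_lit 196) (nat_lit 178)) (PT.lf (nat_lit 46664) (nat_lit 6) (nat_lit 614) (nat_lit 0) (nat_lit 197) (nat_lit 196) (nat_lit 177)))) (PT.nd (nat_lit 156) (PT.nd (nat_lit 78) (PT.lf (nat_lit 45600) (nat_lit 6) (nat_lit 600) (nat_lit 0) (nat_lit 198) (nat_lit 196) (nat_lit 176)) (PT.lf (nat_lit 44460) (nat_lit 6) (nat_lit 585) (nat_lit 0) (nat_lit 199) (nat_lit 196) (nat_lit 175))) (PT.nd (nat_lit 78) (PT.lf (nat_lit 43244) (nat_lit 6) (nat_lit 569) (nat_lit 0) (nat_lit 200)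 (nat_lit 196) (nat_lit 174)) (PT.lf (nat_lit 41952) (nat_lit 6) (nat_lit 552) (nat_lit 0) (nat_lit 201) (nat_lit 196) (nat_lit 173))))) (PT.nd (nat_lit 312) (PT.nd (nat_lit 156) (PT.nd (nat_lit 78) (PT.lf (nat_lit 40584) (nat_lit 6) (nat_lit 534) (nat_lit 0) (nat_lit 202) (nat_lit 196) (nat_lit 172)) (PT.lf (nat_lit 39140) (nat_lit 6) (nat_lit 515) (nat_lit 0) (nat_lit 203) (nat_lit 196) (nat_lit 171))) (PT.nd (nat_lit 78) (PT.lf (nat_lit 37620) (nat_lit 6) (nat_lit 495) (nat_lit 0) (nat_lit 204) (nat_lit 196) (nat_lit 170)) (PT.lf (nat_lit 36024) (nat_lit 6) (nat_lit 474) (nat_lit 0) (nat_lit 205) (nat_lit 196) (nat_lit 169)))) (PT.nd (nat_lit 156) (PT.nd (nat_lit 78) (PT.lf (nat_lit 34352) (nat_lit 6) (nat_lit 452) (nat_lit 0) (nat_lit 206) (nat_lit 196) (nat_lit 168)) (PT.lf (nat_lit 32604) (nat_lit 6) (nat_lit 429) (nat_lit 0) (nat_lit 207) (nat_lit 196) (nat_lit 167))) (PT.nd (nat_lit 78) (PT.lf (nat_lit 30780)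 (nat_lit 6) (nat_lit 405) (nat_lit 0) (nat_lit 208) (nat_lit 196) (nat_lit 166)) (PT.lf (nat_lit 29564) (nat_lit 6) (nat_lit 389) (nat_lit 0) (nat_lit 209) (nat_lit 196) (nat_lit 165))))))) (PT.nd (nat_lit 55926) (PT.nd (nat_lit 55302) (PT.nd (nat_lit 234) (PT.nd (nat_lit 78) (PT.lf (nat_lit 28576) (nat_lit 6) (nat_lit 376) (nat_lit 0) (nat_lit 210) (nat_lit 196) (nat_lit 164)) (PT.nd (nat_lit 78) (PT.lf (nat_lit 27664) (nat_lit 6) (nat_lit 364) (nat_lit 0) (nat_lit 211) (nat_lit 196) (nat_lit 163)) (PT.lf (nat_lit 26752) (nat_lit 6) (nat_lit 352) (nat_lit 0) (nat_lit 212) (nat_lit 196) (nat_lit 162)))) (PT.nd (nat_lit 156) (PT.nd (nat_lit 78) (PT.lf (nat_lit 25840) (nat_lit 6) (nat_lit 340) (nat_lit 0) (nat_lit 213) (nat_lit 196) (nat_lit 161)) (PT.lf (nat_lit 24928) (nat_lit 6) (nat_lit 328) (nat_lit 0) (nat_lit 214) (nat_lit 196) (nat_lit 160))) (PT.nd (nat_lit 54834) (PT.lf (nat_lit 24092) (nat_lit 6) (nat_lit 317)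 (nat_lit 0) (nat_lit 215) (nat_lit 196) (nat_lit 159)) (PT.lf (nat_lit 22572) (nat_lit 6) (nat_lit 297) (nat_lit 5) (nat_lit 157) (nat_lit 197) (nat_lit 216))))) (PT.nd (nat_lit 312) (PT.nd (nat_lit 156) (PT.nd (nat_lit 78) (PT.lf (nat_lit 23332) (nat_lit 6) (nat_lit 307) (nat_lit 5) (nat_lit 158) (nat_lit 197) (nat_lit 215)) (PT.lf (nat_lit 24168) (nat_lit 6) (nat_lit 318) (nat_lit 5) (nat_lit 159) (nat_lit 197) (nat_lit 214))) (PT.nd (nat_lit 78) (PT.lf (nat_lit 25004) (nat_lit 6) (nat_lit 329) (nat_lit 5) (nat_lit 160) (nat_lit 197) (nat_lit 213)) (PT.lf (nat_lit 25916) (nat_lit 6) (nat_lit 341) (nat_lit 5) (nat_lit 161) (nat_lit 197) (nat_lit 212)))) (PT.nd (nat_lit 156) (PT.nd (nat_lit 78) (PT.lf (nat_lit 26828) (nat_lit 6) (nat_lit 353) (nat_lit 5) (nat_lit 162) (nat_lit 197) (nat_lit 211)) (PT.lf (nat_lit 27740) (nat_lit 6) (nat_lit 365) (nat_lit 5) (nat_lit 163) (nat_lit 197) (nat_lit 210))) (PT.nd (nat_lit 78)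 (PT.lf (nat_lit 28652) (nat_lit 6) (nat_lit 377) (nat_lit 5) (nat_lit 164) (nat_lit 197) (nat_lit 209)) (PT.lf (nat_lit 29640) (nat_lit 6) (nat_lit 390) (nat_lit 5) (nat_lit 165) (nat_lit 197) (nat_lit 208)))))) (PT.nd (nat_lit 624) (PT.nd (nat_lit 312) (PT.nd (nat_lit 156) (PT.nd (nat_lit 78) (PT.lf (nat_lit 30856) (nat_lit 6) (nat_lit 406) (nat_lit 5) (nat_lit 166) (nat_lit 197) (nat_lit 207)) (PT.lf (nat_lit 32680) (nat_lit 6) (nat_lit 430) (nat_lit 5) (nat_lit 167) (nat_lit 197) (nat_lit 206))) (PT.nd (nat_lit 78) (PT.lf (nat_lit 34428) (nat_lit 6) (nat_lit 453) (nat_lit 5) (nat_lit 168) (nat_lit 197) (nat_lit 205)) (PT.lf (nat_lit 36100) (nat_lit 6) (nat_lit 475) (nat_lit 5) (nat_lit 169) (nat_lit 197) (nat_lit 204)))) (PT.nd (nat_lit 156) (PT.nd (nat_lit 78) (PT.lf (nat_lit 37696) (nat_lit 6) (nat_lit 496) (nat_lit 5) (nat_lit 170) (nat_lit 197) (nat_lit 203)) (PT.lf (nat_lit 39216) (nat_lit 6) (nat_lit 516) (nat_lit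 5) (nat_lit 171) (nat_lit 197) (nat_lit 202))) (PT.nd (nat_lit 78) (PT.lf (nat_lit 40660) (nat_lit 6) (nat_lit 535) (nat_lit 5) (nat_lit 172) (nat_lit 197) (nat_lit 201)) (PT.lf (nat_lit 42028) (nat_lit 6) (nat_lit 553) (nat_lit 5) (nat_lit 173) (nat_lit 197) (nat_lit 200))))) (PT.nd (nat_lit 312) (PT.nd (nat_lit 156) (PT.nd (nat_lit 78) (PT.lf (nat_lit 43320) (nat_lit 6) (nat_lit 570) (nat_lit 5) (nat_lit 174) (nat_lit 197) (nat_lit 199)) (PT.lf (nat_lit 44536) (nat_lit 6) (nat_lit 586) (nat_lit 5) (nat_lit 175) (nat_lit 197) (nat_lit 198))) (PT.nd (nat_lit 78) (PT.lf (nat_lit 45676) (nat_lit 3) (nat_lit 601) (nat_lit 4) (nat_lit 176) (nat_lit 197) (nat_lit 197)) (PT.lf (nat_lit 46664) (nat_lit 6) (nat_lit 614) (nat_lit 4) (nat_lit 177) (nat_lit 197) (nat_lit 196)))) (PT.nd (nat_lit 156) (PT.nd (nat_lit 78) (PT.lf (nat_lit 47576) (nat_lit 6) (nat_lit 626) (nat_lit 4) (nat_lit 178) (nat_lit 197) (nat_lit 195)) (PT.lf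 (nat_lit 48412) (nat_lit 6) (nat_lit 637) (nat_lit 4) (nat_lit 179) (nat_lit 197) (nat_lit 194))) (PT.nd (nat_lit 78) (PT.lf (nat_lit 49172) (nat_lit 6) (nat_lit 647) (nat_lit 4) (nat_lit 180) (nat_lit 197) (nat_lit 193)) (PT.lf (nat_lit 49856) (nat_lit 6) (nat_lit 656) (nat_lit 4) (nat_lit 181) (nat_lit 197) (nat_lit 192))))))))
noncomputable def pc32 : PT := (PT.nd (nat_lit 2340) (PT.nd (nat_lit 1170) (PT.nd (nat_lit 546) (PT.nd (nat_lit 234) (PT.nd (nat_lit 78) (PT.lf (nat_lit 50464) (nat_lit 6) (nat_lit 664) (nat_lit 4) (nat_lit 182) (nat_lit 197) (nat_lit 191)) (PT.nd (nat_lit 78) (PT.lf (nat_lit 50996) (nat_lit 6) (nat_lit 671) (nat_lit 4) (nat_lit 183) (nat_lit 197) (nat_lit 190)) (PT.lf (nat_lit 50920) (nat_lit 6) (nat_lit 670) (nat_lit 4) (nat_lit 184) (nat_lit 197) (nat_lit 189)))) (PT.nd (nat_lit 156) (PT.nd (nat_lit 78) (PT.lf (nat_lit 50844) (nat_lit 6) (nat_lit 669) (nat_lit 4) (nat_lit 185) (nat_lit 197)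 (nat_lit 188)) (PT.lf (nat_lit 50768) (nat_lit 6) (nat_lit 668) (nat_lit 4) (nat_lit 186) (nat_lit 197) (nat_lit 187))) (PT.nd (nat_lit 78) (PT.lf (nat_lit 50768) (nat_lit 6) (nat_lit 668) (nat_lit 2) (nat_lit 187) (nat_lit 197) (nat_lit 186)) (PT.lf (nat_lit 50844) (nat_lit 6) (nat_lit 669) (nat_lit 2) (nat_lit 188) (nat_lit 197) (nat_lit 185))))) (PT.nd (nat_lit 312) (PT.nd (nat_lit 156) (PT.nd (nat_lit 78) (PT.lf (nat_lit 50920) (nat_lit 6) (nat_lit 670) (nat_lit 2) (nat_lit 189) (nat_lit 197) (nat_lit 184)) (PT.lf (nat_lit 50996) (nat_lit 6) (nat_lit 671) (nat_lit 2) (nat_lit 190) (nat_lit 197) (nat_lit 183))) (PT.nd (nat_lit 78) (PT.lf (nat_lit 50464) (nat_lit 6) (nat_lit 664) (nat_lit 2) (nat_lit 191) (nat_lit 197) (nat_lit 182)) (PT.lf (nat_lit 49856) (nat_lit 6) (nat_lit 656) (nat_lit 2) (nat_lit 192) (nat_lit 197) (nat_lit 181)))) (PT.nd (nat_lit 156) (PT.nd (nat_lit 78) (PT.lf (nat_lit 49172) (nat_lit 6) (nat_lit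 647) (nat_lit 2) (nat_lit 193) (nat_lit 197) (nat_lit 180)) (PT.lf (nat_lit 48412) (nat_lit 6) (nat_lit 637) (nat_lit 2) (nat_lit 194) (nat_lit 197) (nat_lit 179))) (PT.nd (nat_lit 78) (PT.lf (nat_lit 47576) (nat_lit 6) (nat_lit 626) (nat_lit 2) (nat_lit 195) (nat_lit 197) (nat_lit 178)) (PT.lf (nat_lit 46664) (nat_lit 6) (nat_lit 614) (nat_lit 2) (nat_lit 196) (nat_lit 197) (nat_lit 177)))))) (PT.nd (nat_lit 546) (PT.nd (nat_lit 234) (PT.nd (nat_lit 78) (PT.lf (nat_lit 45676) (nat_lit 3) (nat_lit 601) (nat_lit 0) (nat_lit 197) (nat_lit 197) (nat_lit 176)) (PT.nd (nat_lit 78) (PT.lf (nat_lit 44536) (nat_lit 6) (nat_lit 586) (nat_lit 0) (nat_lit 198) (nat_lit 197) (nat_lit 175)) (PT.lf (nat_lit 43320) (nat_lit 6) (nat_lit 570) (nat_lit 0) (nat_lit 199) (nat_lit 197) (nat_lit 174)))) (PT.nd (nat_lit 156) (PT.nd (nat_lit 78) (PT.lf (nat_lit 42028) (nat_lit 6) (nat_lit 553) (nat_lit 0) (nat_lit 200) (nat_lit 197) (nat_lit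 173)) (PT.lf (nat_lit 40660) (nat_lit 6) (nat_lit 535) (nat_lit 0) (nat_lit 201) (nat_lit 197) (nat_lit 172))) (PT.nd (nat_lit 78) (PT.lf (nat_lit 39216) (nat_lit 6) (nat_lit 516) (nat_lit 0) (nat_lit 202) (nat_lit 197) (nat_lit 171)) (PT.lf (nat_lit 37696) (nat_lit 6) (nat_lit 496) (nat_lit 0) (nat_lit 203) (nat_lit 197) (nat_lit 170))))) (PT.nd (nat_lit 312) (PT.nd (nat_lit 156) (PT.nd (nat_lit 78) (PT.lf (nat_lit 36100) (nat_lit 6) (nat_lit 475) (nat_lit 0) (nat_lit 204) (nat_lit 197) (nat_lit 169)) (PT.lf (nat_lit 34428) (nat_lit 6) (nat_lit 453) (nat_lit 0) (nat_lit 205) (nat_lit 197) (nat_lit 168))) (PT.nd (nat_lit 78) (PT.lf (nat_lit 32680) (nat_lit 6) (nat_lit 430) (nat_lit 0) (nat_lit 206) (nat_lit 197) (nat_lit 167)) (PT.lf (nat_lit 30856) (nat_lit 6) (nat_lit 406) (nat_lit 0) (nat_lit 207) (nat_lit 197) (nat_lit 166)))) (PT.nd (nat_lit 156) (PT.nd (nat_lit 78) (PT.lf (nat_lit 29640) (nat_lit 6) (nat_lit 390)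 (nat_lit 0) (nat_lit 208) (nat_lit 197) (nat_lit 165)) (PT.lf (nat_lit 28652) (nat_lit 6) (nat_lit 377) (nat_lit 0) (nat_lit 209) (nat_lit 197) (nat_lit 164))) (PT.nd (nat_lit 78) (PT.lf (nat_lit 27740) (nat_lit 6) (nat_lit 365) (nat_lit 0) (nat_lit 210) (nat_lit 197) (nat_lit 163)) (PT.lf (nat_lit 26828) (nat_lit 6) (nat_lit 353) (nat_lit 0) (nat_lit 211) (nat_lit 197) (nat_lit 162))))))) (PT.nd (nat_lit 55770) (PT.nd (nat_lit 55146) (PT.nd (nat_lit 234) (PT.nd (nat_lit 78) (PT.lf (nat_lit 25916) (nat_lit 6) (nat_lit 341) (nat_lit 0) (nat_lit 212) (nat_lit 197) (nat_lit 161)) (PT.nd (nat_lit 78) (PT.lf (nat_lit 25004) (nat_lit 6) (nat_lit 329) (nat_lit 0) (nat_lit 213) (nat_lit 197) (nat_lit 160)) (PT.lf (nat_lit 24168) (nat_lit 6) (nat_lit 318) (nat_lit 0) (nat_lit 214) (nat_lit 197) (nat_lit 159)))) (PT.nd (nat_lit 54756) (PT.nd (nat_lit 78) (PT.lf (nat_lit 23332) (nat_lit 6) (nat_lit 307) (nat_lit 0) (nat_lit 215)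 (nat_lit 197) (nat_lit 158)) (PT.lf (nat_lit 22572) (nat_lit 6) (nat_lit 297) (nat_lit 0) (nat_lit 216) (nat_lit 197) (nat_lit 157))) (PT.nd (nat_lit 78) (PT.lf (nat_lit 21812) (nat_lit 6) (nat_lit 287) (nat_lit 5) (nat_lit 156) (nat_lit 198) (nat_lit 216)) (PT.lf (nat_lit 22648) (nat_lit 6) (nat_lit 298) (nat_lit 5) (nat_lit 157) (nat_lit 198) (nat_lit 215))))) (PT.nd (nat_lit 312) (PT.nd (nat_lit 156) (PT.nd (nat_lit 78) (PT.lf (nat_lit 23408) (nat_lit 6) (nat_lit 308) (nat_lit 5) (nat_lit 158) (nat_lit 198) (nat_lit 214)) (PT.lf (nat_lit 24244) (nat_lit 6) (nat_lit 319) (nat_lit 5) (nat_lit 159) (nat_lit 198) (nat_lit 213))) (PT.nd (nat_lit 78) (PT.lf (nat_lit 25080) (nat_lit 6) (nat_lit 330) (nat_lit 5) (nat_lit 160) (nat_lit 198) (nat_lit 212)) (PT.lf (nat_lit 25992) (nat_lit 6) (nat_lit 342) (nat_lit 5) (nat_lit 161) (nat_lit 198) (nat_lit 211)))) (PT.nd (nat_lit 156) (PT.nd (nat_lit 78) (PT.lf (nat_lit 26904)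 (nat_lit 6) (nat_lit 354) (nat_lit 5) (nat_lit 162) (nat_lit 198) (nat_lit 210)) (PT.lf (nat_lit 27816) (nat_lit 6) (nat_lit 366) (nat_lit 5) (nat_lit 163) (nat_lit 198) (nat_lit 209))) (PT.nd (nat_lit 78) (PT.lf (nat_lit 28728) (nat_lit 6) (nat_lit 378) (nat_lit 5) (nat_lit 164) (nat_lit 198) (nat_lit 208)) (PT.lf (nat_lit 29716) (nat_lit 6) (nat_lit 391) (nat_lit 5) (nat_lit 165) (nat_lit 198) (nat_lit 207)))))) (PT.nd (nat_lit 624) (PT.nd (nat_lit 312) (PT.nd (nat_lit 156) (PT.nd (nat_lit 78) (PT.lf (nat_lit 30932) (nat_lit 6) (nat_lit 407) (nat_lit 5) (nat_lit 166) (nat_lit 198) (nat_lit 206)) (PT.lf (nat_lit 32756) (nat_lit 6) (nat_lit 431) (nat_lit 5) (nat_lit 167) (nat_lit 198) (nat_lit 205))) (PT.nd (nat_lit 78) (PT.lf (nat_lit 34504) (nat_lit 6) (nat_lit 454) (nat_lit 5) (nat_lit 168) (nat_lit 198) (nat_lit 204)) (PT.lf (nat_lit 36176) (nat_lit 6) (nat_lit 476) (nat_lit 5) (nat_lit 169) (nat_lit 198) (nat_lit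 203)))) (PT.nd (nat_lit 156) (PT.nd (nat_lit 78) (PT.lf (nat_lit 37772) (nat_lit 6) (nat_lit 497) (nat_lit 5) (nat_lit 170) (nat_lit 198) (nat_lit 202)) (PT.lf (nat_lit 39292) (nat_lit 6) (nat_lit 517) (nat_lit 5) (nat_lit 171) (nat_lit 198) (nat_lit 201))) (PT.nd (nat_lit 78) (PT.lf (nat_lit 40736) (nat_lit 6) (nat_lit 536) (nat_lit 5) (nat_lit 172) (nat_lit 198) (nat_lit 200)) (PT.lf (nat_lit 42104) (nat_lit 6) (nat_lit 554) (nat_lit 5) (nat_lit 173) (nat_lit 198) (nat_lit 199))))) (PT.nd (nat_lit 312) (PT.nd (nat_lit 156) (PT.nd (nat_lit 78) (PT.lf (nat_lit 43396) (nat_lit 3) (nat_lit 571) (nat_lit 4) (nat_lit 174) (nat_lit 198) (nat_lit 198)) (PT.lf (nat_lit 44536) (nat_lit 6) (nat_lit 586) (nat_lit 4) (nat_lit 175) (nat_lit 198) (nat_lit 197))) (PT.nd (nat_lit 78) (PT.lf (nat_lit 45600) (nat_lit 6) (nat_lit 600) (nat_lit 4) (nat_lit 176) (nat_lit 198) (nat_lit 196)) (PT.lf (nat_lit 46588) (nat_lit 6) (nat_lit 613)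 (nat_lit 4) (nat_lit 177) (nat_lit 198) (nat_lit 195)))) (PT.nd (nat_lit 156) (PT.nd (nat_lit 78) (PT.lf (nat_lit 47500) (nat_lit 6) (nat_lit 625) (nat_lit 4) (nat_lit 178) (nat_lit 198) (nat_lit 194)) (PT.lf (nat_lit 48336) (nat_lit 6) (nat_lit 636) (nat_lit 4) (nat_lit 179) (nat_lit 198) (nat_lit 193))) (PT.nd (nat_lit 78) (PT.lf (nat_lit 49096) (nat_lit 6) (nat_lit 646) (nat_lit 4) (nat_lit 180) (nat_lit 198) (nat_lit 192)) (PT.lf (nat_lit 49780) (nat_lit 6) (nat_lit 655) (nat_lit 4) (nat_lit 181) (nat_lit 198) (nat_lit 191))))))))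
noncomputable def pc33 : PT := (PT.nd (nat_lit 2340) (PT.nd (nat_lit 1170) (PT.nd (nat_lit 546) (PT.nd (nat_lit 234) (PT.nd (nat_lit 78) (PT.lf (nat_lit 50388) (nat_lit 6) (nat_lit 663) (nat_lit 4) (nat_lit 182) (nat_lit 198) (nat_lit 190)) (PT.nd (nat_lit 78) (PT.lf (nat_lit 50312) (nat_lit 6) (nat_lit 662) (nat_lit 4) (nat_lit 183) (nat_lit 198) (nat_lit 189)) (PT.lf (nat_lit 50236) (nat_lit 6) (nat_lit 661) (nat_lit 4) (nat_lit 184) (nat_lit 198) (nat_lit 188)))) (PT.nd (nat_lit 156) (PT.nd (nat_lit 78) (PT.lf (nat_lit 50160) (nat_lit 6) (nat_lit 660) (nat_lit 4) (nat_lit 185) (nat_lit 198) (nat_lit 187)) (PT.lf (nat_lit 50084) (nat_lit 3) (nat_lit 659) (nat_lit 2) (nat_lit 186) (nat_lit 198) (nat_lit 186))) (PT.nd (nat_lit 78) (PT.lf (nat_lit 50160) (nat_lit 6) (nat_lit 660) (nat_lit 2) (nat_lit 187) (nat_lit 198) (nat_lit 185)) (PT.lf (nat_lit 50236) (nat_lit 6) (nat_lit 661) (nat_lit 2) (nat_lit 188) (nat_lit 198)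 (nat_lit 184))))) (PT.nd (nat_lit 312) (PT.nd (nat_lit 156) (PT.nd (nat_lit 78) (PT.lf (nat_lit 50312) (nat_lit 6) (nat_lit 662) (nat_lit 2) (nat_lit 189) (nat_lit 198) (nat_lit 183)) (PT.lf (nat_lit 50388) (nat_lit 6) (nat_lit 663) (nat_lit 2) (nat_lit 190) (nat_lit 198) (nat_lit 182))) (PT.nd (nat_lit 78) (PT.lf (nat_lit 49780) (nat_lit 6) (nat_lit 655) (nat_lit 2) (nat_lit 191) (nat_lit 198) (nat_lit 181)) (PT.lf (nat_lit 49096) (nat_lit 6) (nat_lit 646) (nat_lit 2) (nat_lit 192) (nat_lit 198) (nat_lit 180)))) (PT.nd (nat_lit 156) (PT.nd (nat_lit 78) (PT.lf (nat_lit 48336) (nat_lit 6) (nat_lit 636) (nat_lit 2) (nat_lit 193) (nat_lit 198) (nat_lit 179)) (PT.lf (nat_lit 47500) (nat_lit 6) (nat_lit 625) (nat_lit 2) (nat_lit 194) (nat_lit 198) (nat_lit 178))) (PT.nd (nat_lit 78) (PT.lf (nat_lit 46588) (nat_lit 6) (nat_lit 613) (nat_lit 2) (nat_lit 195) (nat_lit 198) (nat_lit 177)) (PT.lf (nat_lit 45600) (nat_lit 6) (nat_lit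 600) (nat_lit 2) (nat_lit 196) (nat_lit 198) (nat_lit 176)))))) (PT.nd (nat_lit 546) (PT.nd (nat_lit 234) (PT.nd (nat_lit 78) (PT.lf (nat_lit 44536) (nat_lit 6) (nat_lit 586) (nat_lit 2) (nat_lit 197) (nat_lit 198) (nat_lit 175)) (PT.nd (nat_lit 78) (PT.lf (nat_lit 43396) (nat_lit 3) (nat_lit 571) (nat_lit 0) (nat_lit 198) (nat_lit 198) (nat_lit 174)) (PT.lf (nat_lit 42104) (nat_lit 6) (nat_lit 554) (nat_lit 0) (nat_lit 199) (nat_lit 198) (nat_lit 173)))) (PT.nd (nat_lit 156) (PT.nd (nat_lit 78) (PT.lf (nat_lit 40736) (nat_lit 6) (nat_lit 536) (nat_lit 0) (nat_lit 200) (nat_lit 198) (nat_lit 172)) (PT.lf (nat_lit 39292) (nat_lit 6) (nat_lit 517) (nat_lit 0) (nat_lit 201) (nat_lit 198) (nat_lit 171))) (PT.nd (nat_lit 78) (PT.lf (nat_lit 37772) (nat_lit 6) (nat_lit 497) (nat_lit 0) (nat_lit 202) (nat_lit 198) (nat_lit 170)) (PT.lf (nat_lit 36176) (nat_lit 6) (nat_lit 476) (nat_lit 0) (nat_lit 203) (nat_lit 198) (nat_lit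 169))))) (PT.nd (nat_lit 312) (PT.nd (nat_lit 156) (PT.nd (nat_lit 78) (PT.lf (nat_lit 34504) (nat_lit 6) (nat_lit 454) (nat_lit 0) (nat_lit 204) (nat_lit 198) (nat_lit 168)) (PT.lf (nat_lit 32756) (nat_lit 6) (nat_lit 431) (nat_lit 0) (nat_lit 205) (nat_lit 198) (nat_lit 167))) (PT.nd (nat_lit 78) (PT.lf (nat_lit 30932) (nat_lit 6) (nat_lit 407) (nat_lit 0) (nat_lit 206) (nat_lit 198) (nat_lit 166)) (PT.lf (nat_lit 29716) (nat_lit 6) (nat_lit 391) (nat_lit 0) (nat_lit 207) (nat_lit 198) (nat_lit 165)))) (PT.nd (nat_lit 156) (PT.nd (nat_lit 78) (PT.lf (nat_lit 28728) (nat_lit 6) (nat_lit 378) (nat_lit 0) (nat_lit 208) (nat_lit 198) (nat_lit 164)) (PT.lf (nat_lit 27816) (nat_lit 6) (nat_lit 366) (nat_lit 0) (nat_lit 209) (nat_lit 198) (nat_lit 163))) (PT.nd (nat_lit 78) (PT.lf (nat_lit 26904) (nat_lit 6) (nat_lit 354) (nat_lit 0) (nat_lit 210) (nat_lit 198) (nat_lit 162)) (PT.lf (nat_lit 25992) (nat_lit 6) (nat_lit 342)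 (nat_lit 0) (nat_lit 211) (nat_lit 198) (nat_lit 161))))))) (PT.nd (nat_lit 55692) (PT.nd (nat_lit 55068) (PT.nd (nat_lit 234) (PT.nd (nat_lit 78) (PT.lf (nat_lit 25080) (nat_lit 6) (nat_lit 330) (nat_lit 0) (nat_lit 212) (nat_lit 198) (nat_lit 160)) (PT.nd (nat_lit 78) (PT.lf (nat_lit 24244) (nat_lit 6) (nat_lit 319) (nat_lit 0) (nat_lit 213) (nat_lit 198) (nat_lit 159)) (PT.lf (nat_lit 23408) (nat_lit 6) (nat_lit 308) (nat_lit 0) (nat_lit 214) (nat_lit 198) (nat_lit 158)))) (PT.nd (nat_lit 54678) (PT.nd (nat_lit 78) (PT.lf (nat_lit 22648) (nat_lit 6) (nat_lit 298) (nat_lit 0) (nat_lit 215) (nat_lit 198) (nat_lit 157)) (PT.lf (nat_lit 21812) (nat_lit 6) (nat_lit 287) (nat_lit 0) (nat_lit 216) (nat_lit 198) (nat_lit 156))) (PT.nd (nat_lit 78) (PT.lf (nat_lit 21128) (nat_lit 6) (nat_lit 278) (nat_lit 5) (nat_lit 155) (nat_lit 199) (nat_lit 216)) (PT.lf (nat_lit 21888) (nat_lit 6) (nat_lit 288) (nat_lit 5) (nat_lit 156)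 (nat_lit 199) (nat_lit 215))))) (PT.nd (nat_lit 312) (PT.nd (nat_lit 156) (PT.nd (nat_lit 78) (PT.lf (nat_lit 22724) (nat_lit 6) (nat_lit 299) (nat_lit 5) (nat_lit 157) (nat_lit 199) (nat_lit 214)) (PT.lf (nat_lit 23484) (nat_lit 6) (nat_lit 309) (nat_lit 5) (nat_lit 158) (nat_lit 199) (nat_lit 213))) (PT.nd (nat_lit 78) (PT.lf (nat_lit 24320) (nat_lit 6) (nat_lit 320) (nat_lit 5) (nat_lit 159) (nat_lit 199) (nat_lit 212)) (PT.lf (nat_lit 25156) (nat_lit 6) (nat_lit 331) (nat_lit 5) (nat_lit 160) (nat_lit 199) (nat_lit 211)))) (PT.nd (nat_lit 156) (PT.nd (nat_lit 78) (PT.lf (nat_lit 26068) (nat_lit 6) (nat_lit 343) (nat_lit 5) (nat_lit 161) (nat_lit 199) (nat_lit 210)) (PT.lf (nat_lit 26980) (nat_lit 6) (nat_lit 355) (nat_lit 5) (nat_lit 162) (nat_lit 199) (nat_lit 209))) (PT.nd (nat_lit 78) (PT.lf (nat_lit 27892) (nat_lit 6) (nat_lit 367) (nat_lit 5) (nat_lit 163) (nat_lit 199) (nat_lit 208)) (PT.lf (nat_lit 28804)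 (nat_lit 6) (nat_lit 379) (nat_lit 5) (nat_lit 164) (nat_lit 199) (nat_lit 207)))))) (PT.nd (nat_lit 624) (PT.nd (nat_lit 312) (PT.nd (nat_lit 156) (PT.nd (nat_lit 78) (PT.lf (nat_lit 29792) (nat_lit 6) (nat_lit 392) (nat_lit 5) (nat_lit 165) (nat_lit 199) (nat_lit 206)) (PT.lf (nat_lit 31008) (nat_lit 6) (nat_lit 408) (nat_lit 5) (nat_lit 166) (nat_lit 199) (nat_lit 205))) (PT.nd (nat_lit 78) (PT.lf (nat_lit 32832) (nat_lit 6) (nat_lit 432) (nat_lit 5) (nat_lit 167) (nat_lit 199) (nat_lit 204)) (PT.lf (nat_lit 34580) (nat_lit 6) (nat_lit 455) (nat_lit 5) (nat_lit 168) (nat_lit 199) (nat_lit 203)))) (PT.nd (nat_lit 156) (PT.nd (nat_lit 78) (PT.lf (nat_lit 36252) (nat_lit 6) (nat_lit 477) (nat_lit 5) (nat_lit 169) (nat_lit 199) (nat_lit 202)) (PT.lf (nat_lit 37848) (nat_lit 6) (nat_lit 498) (nat_lit 5) (nat_lit 170) (nat_lit 199) (nat_lit 201))) (PT.nd (nat_lit 78) (PT.lf (nat_lit 39368) (nat_lit 6) (nat_lit 518) (nat_lit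 5) (nat_lit 171) (nat_lit 199) (nat_lit 200)) (PT.lf (nat_lit 40812) (nat_lit 3) (nat_lit 537) (nat_lit 4) (nat_lit 172) (nat_lit 199) (nat_lit 199))))) (PT.nd (nat_lit 312) (PT.nd (nat_lit 156) (PT.nd (nat_lit 78) (PT.lf (nat_lit 42104) (nat_lit 6) (nat_lit 554) (nat_lit 4) (nat_lit 173) (nat_lit 199) (nat_lit 198)) (PT.lf (nat_lit 43320) (nat_lit 6) (nat_lit 570) (nat_lit 4) (nat_lit 174) (nat_lit 199) (nat_lit 197))) (PT.nd (nat_lit 78) (PT.lf (nat_lit 44460) (nat_lit 6) (nat_lit 585) (nat_lit 4) (nat_lit 175) (nat_lit 199) (nat_lit 196)) (PT.lf (nat_lit 45524) (nat_lit 6) (nat_lit 599) (nat_lit 4) (nat_lit 176) (nat_lit 199) (nat_lit 195)))) (PT.nd (nat_lit 156) (PT.nd (nat_lit 78) (PT.lf (nat_lit 46512) (nat_lit 6) (nat_lit 612) (nat_lit 4) (nat_lit 177) (nat_lit 199) (nat_lit 194)) (PT.lf (nat_lit 47424) (nat_lit 6) (nat_lit 624) (nat_lit 4) (nat_lit 178) (nat_lit 199) (nat_lit 193))) (PT.nd (nat_lit 78) (PT.lf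 (nat_lit 48260) (nat_lit 6) (nat_lit 635) (nat_lit 4) (nat_lit 179) (nat_lit 199) (nat_lit 192)) (PT.lf (nat_lit 49020) (nat_lit 6) (nat_lit 645) (nat_lit 4) (nat_lit 180) (nat_lit 199) (nat_lit 191))))))))
noncomputable def pc34 : PT := (PT.nd (nat_lit 2340) (PT.nd (nat_lit 1170) (PT.nd (nat_lit 546) (PT.nd (nat_lit 234) (PT.nd (nat_lit 78) (PT.lf (nat_lit 49704) (nat_lit 6) (nat_lit 654) (nat_lit 4) (nat_lit 181) (nat_lit 199) (nat_lit 190)) (PT.nd (nat_lit 78) (PT.lf (nat_lit 49628) (nat_lit 6) (nat_lit 653) (nat_lit 4) (nat_lit 182) (nat_lit 199) (nat_lit 189)) (PT.lf (nat_lit 49552) (nat_lit 6) (nat_lit 652) (nat_lit 4) (nat_lit 183) (nat_lit 199) (nat_lit 188)))) (PT.nd (nat_lit 156) (PT.nd (nat_lit 78) (PT.lf (nat_lit 49476) (nat_lit 6) (nat_lit 651) (nat_lit 4) (nat_lit 184) (nat_lit 199) (nat_lit 187)) (PT.lf (nat_lit 49400) (nat_lit 6) (nat_lit 650) (nat_lit 4) (nat_lit 185) (nat_lit 199) (nat_lit 186))) (PT.nd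 (nat_lit 78) (PT.lf (nat_lit 49400) (nat_lit 6) (nat_lit 650) (nat_lit 2) (nat_lit 186) (nat_lit 199) (nat_lit 185)) (PT.lf (nat_lit 49476) (nat_lit 6) (nat_lit 651) (nat_lit 2) (nat_lit 187) (nat_lit 199) (nat_lit 184))))) (PT.nd (nat_lit 312) (PT.nd (nat_lit 156) (PT.nd (nat_lit 78) (PT.lf (nat_lit 49552) (nat_lit 6) (nat_lit 652) (nat_lit 2) (nat_lit 188) (nat_lit 199) (nat_lit 183)) (PT.lf (nat_lit 49628) (nat_lit 6) (nat_lit 653) (nat_lit 2) (nat_lit 189) (nat_lit 199) (nat_lit 182))) (PT.nd (nat_lit 78) (PT.lf (nat_lit 49704) (nat_lit 6) (nat_lit 654) (nat_lit 2) (nat_lit 190) (nat_lit 199) (nat_lit 181)) (PT.lf (nat_lit 49020) (nat_lit 6) (nat_lit 645) (nat_lit 2) (nat_lit 191) (nat_lit 199) (nat_lit 180)))) (PT.nd (nat_lit 156) (PT.nd (nat_lit 78) (PT.lf (nat_lit 48260) (nat_lit 6) (nat_lit 635) (nat_lit 2) (nat_lit 192) (nat_lit 199) (nat_lit 179)) (PT.lf (nat_lit 47424) (nat_lit 6) (nat_lit 624) (nat_lit 2)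 (nat_lit 193) (nat_lit 199) (nat_lit 178))) (PT.nd (nat_lit 78) (PT.lf (nat_lit 46512) (nat_lit 6) (nat_lit 612) (nat_lit 2) (nat_lit 194) (nat_lit 199) (nat_lit 177)) (PT.lf (nat_lit 45524) (nat_lit 6) (nat_lit 599) (nat_lit 2) (nat_lit 195) (nat_lit 199) (nat_lit 176)))))) (PT.nd (nat_lit 546) (PT.nd (nat_lit 234) (PT.nd (nat_lit 78) (PT.lf (nat_lit 44460) (nat_lit 6) (nat_lit 585) (nat_lit 2) (nat_lit 196) (nat_lit 199) (nat_lit 175)) (PT.nd (nat_lit 78) (PT.lf (nat_lit 43320) (nat_lit 6) (nat_lit 570) (nat_lit 2) (nat_lit 197) (nat_lit 199) (nat_lit 174)) (PT.lf (nat_lit 42104) (nat_lit 6) (nat_lit 554) (nat_lit 2) (nat_lit 198) (nat_lit 199) (nat_lit 173)))) (PT.nd (nat_lit 156) (PT.nd (nat_lit 78) (PT.lf (nat_lit 40812) (nat_lit 3) (nat_lit 537) (nat_lit 0) (nat_lit 199) (nat_lit 199) (nat_lit 172)) (PT.lf (nat_lit 39368) (nat_lit 6) (nat_lit 518) (nat_lit 0) (nat_lit 200) (nat_lit 199) (nat_lit 171))) (PT.nd (nat_lit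 78) (PT.lf (nat_lit 37848) (nat_lit 6) (nat_lit 498) (nat_lit 0) (nat_lit 201) (nat_lit 199) (nat_lit 170)) (PT.lf (nat_lit 36252) (nat_lit 6) (nat_lit 477) (nat_lit 0) (nat_lit 202) (nat_lit 199) (nat_lit 169))))) (PT.nd (nat_lit 312) (PT.nd (nat_lit 156) (PT.nd (nat_lit 78) (PT.lf (nat_lit 34580) (nat_lit 6) (nat_lit 455) (nat_lit 0) (nat_lit 203) (nat_lit 199) (nat_lit 168)) (PT.lf (nat_lit 32832) (nat_lit 6) (nat_lit 432) (nat_lit 0) (nat_lit 204) (nat_lit 199) (nat_lit 167))) (PT.nd (nat_lit 78) (PT.lf (nat_lit 31008) (nat_lit 6) (nat_lit 408) (nat_lit 0) (nat_lit 205) (nat_lit 199) (nat_lit 166)) (PT.lf (nat_lit 29792) (nat_lit 6) (nat_lit 392) (nat_lit 0) (nat_lit 206) (nat_lit 199) (nat_lit 165)))) (PT.nd (nat_lit 156) (PT.nd (nat_lit 78) (PT.lf (nat_lit 28804) (nat_lit 6) (nat_lit 379) (nat_lit 0) (nat_lit 207) (nat_lit 199) (nat_lit 164)) (PT.lf (nat_lit 27892) (nat_lit 6) (nat_lit 367) (nat_lit 0) (nat_lit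 208) (nat_lit 199) (nat_lit 163))) (PT.nd (nat_lit 78) (PT.lf (nat_lit 26980) (nat_lit 6) (nat_lit 355) (nat_lit 0) (nat_lit 209) (nat_lit 199) (nat_lit 162)) (PT.lf (nat_lit 26068) (nat_lit 6) (nat_lit 343) (nat_lit 0) (nat_lit 210) (nat_lit 199) (nat_lit 161))))))) (PT.nd (nat_lit 55536) (PT.nd (nat_lit 54912) (PT.nd (nat_lit 234) (PT.nd (nat_lit 78) (PT.lf (nat_lit 25156) (nat_lit 6) (nat_lit 331) (nat_lit 0) (nat_lit 211) (nat_lit 199) (nat_lit 160)) (PT.nd (nat_lit 78) (PT.lf (nat_lit 24320) (nat_lit 6) (nat_lit 320) (nat_lit 0) (nat_lit 212) (nat_lit 199) (nat_lit 159)) (PT.lf (nat_lit 23484) (nat_lit 6) (nat_lit 309) (nat_lit 0) (nat_lit 213) (nat_lit 199) (nat_lit 158)))) (PT.nd (nat_lit 156) (PT.nd (nat_lit 78) (PT.lf (nat_lit 22724) (nat_lit 6) (nat_lit 299) (nat_lit 0) (nat_lit 214) (nat_lit 199) (nat_lit 157)) (PT.lf (nat_lit 21888) (nat_lit 6) (nat_lit 288) (nat_lit 0) (nat_lit 215) (nat_lit 199) (nat_lit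 156))) (PT.nd (nat_lit 54444) (PT.lf (nat_lit 21128) (nat_lit 6) (nat_lit 278) (nat_lit 0) (nat_lit 216) (nat_lit 199) (nat_lit 155)) (PT.lf (nat_lit 19760) (nat_lit 6) (nat_lit 260) (nat_lit 5) (nat_lit 153) (nat_lit 200) (nat_lit 217))))) (PT.nd (nat_lit 312) (PT.nd (nat_lit 156) (PT.nd (nat_lit 78) (PT.lf (nat_lit 20444) (nat_lit 6) (nat_lit 269) (nat_lit 5) (nat_lit 154) (nat_lit 200) (nat_lit 216)) (PT.lf (nat_lit 21204) (nat_lit 6) (nat_lit 279) (nat_lit 5) (nat_lit 155) (nat_lit 200) (nat_lit 215))) (PT.nd (nat_lit 78) (PT.lf (nat_lit 21964) (nat_lit 6) (nat_lit 289) (nat_lit 5) (nat_lit 156) (nat_lit 200) (nat_lit 214)) (PT.lf (nat_lit 22800) (nat_lit 6) (nat_lit 300) (nat_lit 5) (nat_lit 157) (nat_lit 200) (nat_lit 213)))) (PT.nd (nat_lit 156) (PT.nd (nat_lit 78) (PT.lf (nat_lit 23560) (nat_lit 6) (nat_lit 310) (nat_lit 5) (nat_lit 158) (nat_lit 200) (nat_lit 212)) (PT.lf (nat_lit 24396) (nat_lit 6) (nat_lit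 321) (nat_lit 5) (nat_lit 159) (nat_lit 200) (nat_lit 211))) (PT.nd (nat_lit 78) (PT.lf (nat_lit 25232) (nat_lit 6) (nat_lit 332) (nat_lit 5) (nat_lit 160) (nat_lit 200) (nat_lit 210)) (PT.lf (nat_lit 26144) (nat_lit 6) (nat_lit 344) (nat_lit 5) (nat_lit 161) (nat_lit 200) (nat_lit 209)))))) (PT.nd (nat_lit 624) (PT.nd (nat_lit 312) (PT.nd (nat_lit 156) (PT.nd (nat_lit 78) (PT.lf (nat_lit 27056) (nat_lit 6) (nat_lit 356) (nat_lit 5) (nat_lit 162) (nat_lit 200) (nat_lit 208)) (PT.lf (nat_lit 27968) (nat_lit 6) (nat_lit 368) (nat_lit 5) (nat_lit 163) (nat_lit 200) (nat_lit 207))) (PT.nd (nat_lit 78) (PT.lf (nat_lit 28880) (nat_lit 6) (nat_lit 380) (nat_lit 5) (nat_lit 164) (nat_lit 200) (nat_lit 206)) (PT.lf (nat_lit 29868) (nat_lit 6) (nat_lit 393) (nat_lit 5) (nat_lit 165) (nat_lit 200) (nat_lit 205)))) (PT.nd (nat_lit 156) (PT.nd (nat_lit 78) (PT.lf (nat_lit 31084) (nat_lit 6) (nat_lit 409) (nat_lit 5) (nat_lit 166)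 (nat_lit 200) (nat_lit 204)) (PT.lf (nat_lit 32908) (nat_lit 6) (nat_lit 433) (nat_lit 5) (nat_lit 167) (nat_lit 200) (nat_lit 203))) (PT.nd (nat_lit 78) (PT.lf (nat_lit 34656) (nat_lit 6) (nat_lit 456) (nat_lit 5) (nat_lit 168) (nat_lit 200) (nat_lit 202)) (PT.lf (nat_lit 36328) (nat_lit 6) (nat_lit 478) (nat_lit 5) (nat_lit 169) (nat_lit 200) (nat_lit 201))))) (PT.nd (nat_lit 312) (PT.nd (nat_lit 156) (PT.nd (nat_lit 78) (PT.lf (nat_lit 37924) (nat_lit 3) (nat_lit 499) (nat_lit 4) (nat_lit 170) (nat_lit 200) (nat_lit 200)) (PT.lf (nat_lit 39368) (nat_lit 6) (nat_lit 518) (nat_lit 4) (nat_lit 171) (nat_lit 200) (nat_lit 199))) (PT.nd (nat_lit 78) (PT.lf (nat_lit 40736) (nat_lit 6) (nat_lit 536) (nat_lit 4) (nat_lit 172) (nat_lit 200) (nat_lit 198)) (PT.lf (nat_lit 42028) (nat_lit 6) (nat_lit 553) (nat_lit 4) (nat_lit 173) (nat_lit 200) (nat_lit 197)))) (PT.nd (nat_lit 156) (PT.nd (nat_lit 78) (PT.lf (nat_lit 43244)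 (nat_lit 6) (nat_lit 569) (nat_lit 4) (nat_lit 174) (nat_lit 200) (nat_lit 196)) (PT.lf (nat_lit 44384) (nat_lit 6) (nat_lit 584) (nat_lit 4) (nat_lit 175) (nat_lit 200) (nat_lit 195))) (PT.nd (nat_lit 78) (PT.lf (nat_lit 45448) (nat_lit 6) (nat_lit 598) (nat_lit 4) (nat_lit 176) (nat_lit 200) (nat_lit 194)) (PT.lf (nat_lit 46436) (nat_lit 6) (nat_lit 611) (nat_lit 4) (nat_lit 177) (nat_lit 200) (nat_lit 193))))))))
noncomputable def pc35 : PT := (PT.nd (nat_lit 2418) (PT.nd (nat_lit 1170) (PT.nd (nat_lit 546) (PT.nd (nat_lit 234) (PT.nd (nat_lit 78) (PT.lf (nat_lit 47348) (nat_lit 6) (nat_lit 623) (nat_lit 4) (nat_lit 178) (nat_lit 200) (nat_lit 192)) (PT.nd (nat_lit 78) (PT.lf (nat_lit 48184) (nat_lit 6) (nat_lit 634) (nat_lit 4) (nat_lit 179) (nat_lit 200) (nat_lit 191)) (PT.lf (nat_lit 48944) (nat_lit 6) (nat_lit 644) (nat_lit 4) (nat_lit 180) (nat_lit 200) (nat_lit 190)))) (PT.nd (nat_lit 156) (PT.nd (nat_lit 78)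 (PT.lf (nat_lit 48868) (nat_lit 6) (nat_lit 643) (nat_lit 4) (nat_lit 181) (nat_lit 200) (nat_lit 189)) (PT.lf (nat_lit 48792) (nat_lit 6) (nat_lit 642) (nat_lit 4) (nat_lit 182) (nat_lit 200) (nat_lit 188))) (PT.nd (nat_lit 78) (PT.lf (nat_lit 48716) (nat_lit 6) (nat_lit 641) (nat_lit 4) (nat_lit 183) (nat_lit 200) (nat_lit 187)) (PT.lf (nat_lit 48640) (nat_lit 6) (nat_lit 640) (nat_lit 4) (nat_lit 184) (nat_lit 200) (nat_lit 186))))) (PT.nd (nat_lit 312) (PT.nd (nat_lit 156) (PT.nd (nat_lit 78) (PT.lf (nat_lit 48564) (nat_lit 3) (nat_lit 639) (nat_lit 2) (nat_lit 185) (nat_lit 200) (nat_lit 185)) (PT.lf (nat_lit 48640) (nat_lit 6) (nat_lit 640) (nat_lit 2) (nat_lit 186) (nat_lit 200) (nat_lit 184))) (PT.nd (nat_lit 78) (PT.lf (nat_lit 48716) (nat_lit 6) (nat_lit 641) (nat_lit 2) (nat_lit 187) (nat_lit 200) (nat_lit 183)) (PT.lf (nat_lit 48792) (nat_lit 6) (nat_lit 642) (nat_lit 2) (nat_lit 188) (nat_lit 200) (nat_lit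 182)))) (PT.nd (nat_lit 156) (PT.nd (nat_lit 78) (PT.lf (nat_lit 48868) (nat_lit 6) (nat_lit 643) (nat_lit 2) (nat_lit 189) (nat_lit 200) (nat_lit 181)) (PT.lf (nat_lit 48944) (nat_lit 6) (nat_lit 644) (nat_lit 2) (nat_lit 190) (nat_lit 200) (nat_lit 180))) (PT.nd (nat_lit 78) (PT.lf (nat_lit 48184) (nat_lit 6) (nat_lit 634) (nat_lit 2) (nat_lit 191) (nat_lit 200) (nat_lit 179)) (PT.lf (nat_lit 47348) (nat_lit 6) (nat_lit 623) (nat_lit 2) (nat_lit 192) (nat_lit 200) (nat_lit 178)))))) (PT.nd (nat_lit 624) (PT.nd (nat_lit 312) (PT.nd (nat_lit 156) (PT.nd (nat_lit 78) (PT.lf (nat_lit 46436) (nat_lit 6) (nat_lit 611) (nat_lit 2) (nat_lit 193) (nat_lit 200) (nat_lit 177)) (PT.lf (nat_lit 45448) (nat_lit 6) (nat_lit 598) (nat_lit 2) (nat_lit 194) (nat_lit 200) (nat_lit 176))) (PT.nd (nat_lit 78) (PT.lf (nat_lit 44384) (nat_lit 6) (nat_lit 584) (nat_lit 2) (nat_lit 195) (nat_lit 200) (nat_lit 175)) (PT.lf (nat_lit 43244) (nat_lit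 6) (nat_lit 569) (nat_lit 2) (nat_lit 196) (nat_lit 200) (nat_lit 174)))) (PT.nd (nat_lit 156) (PT.nd (nat_lit 78) (PT.lf (nat_lit 42028) (nat_lit 6) (nat_lit 553) (nat_lit 2) (nat_lit 197) (nat_lit 200) (nat_lit 173)) (PT.lf (nat_lit 40736) (nat_lit 6) (nat_lit 536) (nat_lit 2) (nat_lit 198) (nat_lit 200) (nat_lit 172))) (PT.nd (nat_lit 78) (PT.lf (nat_lit 39368) (nat_lit 6) (nat_lit 518) (nat_lit 2) (nat_lit 199) (nat_lit 200) (nat_lit 171)) (PT.lf (nat_lit 37924) (nat_lit 3) (nat_lit 499) (nat_lit 0) (nat_lit 200) (nat_lit 200) (nat_lit 170))))) (PT.nd (nat_lit 312) (PT.nd (nat_lit 156) (PT.nd (nat_lit 78) (PT.lf (nat_lit 36328) (nat_lit 6) (nat_lit 478) (nat_lit 0) (nat_lit 201) (nat_lit 200) (nat_lit 169)) (PT.lf (nat_lit 34656) (nat_lit 6) (nat_lit 456) (nat_lit 0) (nat_lit 202) (nat_lit 200) (nat_lit 168))) (PT.nd (nat_lit 78) (PT.lf (nat_lit 32908) (nat_lit 6) (nat_lit 433) (nat_lit 0) (nat_lit 203) (nat_lit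 200) (nat_lit 167)) (PT.lf (nat_lit 31084) (nat_lit 6) (nat_lit 409) (nat_lit 0) (nat_lit 204) (nat_lit 200) (nat_lit 166)))) (PT.nd (nat_lit 156) (PT.nd (nat_lit 78) (PT.lf (nat_lit 29868) (nat_lit 6) (nat_lit 393) (nat_lit 0) (nat_lit 205) (nat_lit 200) (nat_lit 165)) (PT.lf (nat_lit 28880) (nat_lit 6) (nat_lit 380) (nat_lit 0) (nat_lit 206) (nat_lit 200) (nat_lit 164))) (PT.nd (nat_lit 78) (PT.lf (nat_lit 27968) (nat_lit 6) (nat_lit 368) (nat_lit 0) (nat_lit 207) (nat_lit 200) (nat_lit 163)) (PT.lf (nat_lit 27056) (nat_lit 6) (nat_lit 356) (nat_lit 0) (nat_lit 208) (nat_lit 200) (nat_lit 162))))))) (PT.nd (nat_lit 55380) (PT.nd (nat_lit 546) (PT.nd (nat_lit 234) (PT.nd (nat_lit 78) (PT.lf (nat_lit 26144) (nat_lit 6) (nat_lit 344) (nat_lit 0) (nat_lit 209) (nat_lit 200) (nat_lit 161)) (PT.nd (nat_lit 78) (PT.lf (nat_lit 25232) (nat_lit 6) (nat_lit 332) (nat_lit 0) (nat_lit 210) (nat_lit 200) (nat_lit 160)) (PT.lf (nat_lit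 24396) (nat_lit 6) (nat_lit 321) (nat_lit 0) (nat_lit 211) (nat_lit 200) (nat_lit 159)))) (PT.nd (nat_lit 156) (PT.nd (nat_lit 78) (PT.lf (nat_lit 23560) (nat_lit 6) (nat_lit 310) (nat_lit 0) (nat_lit 212) (nat_lit 200) (nat_lit 158)) (PT.lf (nat_lit 22800) (nat_lit 6) (nat_lit 300) (nat_lit 0) (nat_lit 213) (nat_lit 200) (nat_lit 157))) (PT.nd (nat_lit 78) (PT.lf (nat_lit 21964) (nat_lit 6) (nat_lit 289) (nat_lit 0) (nat_lit 214) (nat_lit 200) (nat_lit 156)) (PT.lf (nat_lit 21204) (nat_lit 6) (nat_lit 279) (nat_lit 0) (nat_lit 215) (nat_lit 200) (nat_lit 155))))) (PT.nd (nat_lit 54522) (PT.nd (nat_lit 54366) (PT.nd (nat_lit 78) (PT.lf (nat_lit 20444) (nat_lit 6) (nat_lit 269) (nat_lit 0) (nat_lit 216) (nat_lit 200) (nat_lit 154)) (PT.lf (nat_lit 19760) (nat_lit 6) (nat_lit 260) (nat_lit 0) (nat_lit 217) (nat_lit 200) (nat_lit 153))) (PT.nd (nat_lit 78) (PT.lf (nat_lit 19076) (nat_lit 6) (nat_lit 251) (nat_lit 5) (nat_lit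 152) (nat_lit 201) (nat_lit 217)) (PT.lf (nat_lit 19836) (nat_lit 6) (nat_lit 261) (nat_lit 5) (nat_lit 153) (nat_lit 201) (nat_lit 216)))) (PT.nd (nat_lit 156) (PT.nd (nat_lit 78) (PT.lf (nat_lit 20520) (nat_lit 6) (nat_lit 270) (nat_lit 5) (nat_lit 154) (nat_lit 201) (nat_lit 215)) (PT.lf (nat_lit 21280) (nat_lit 6) (nat_lit 280) (nat_lit 5) (nat_lit 155) (nat_lit 201) (nat_lit 214))) (PT.nd (nat_lit 78) (PT.lf (nat_lit 22040) (nat_lit 6) (nat_lit 290) (nat_lit 5) (nat_lit 156) (nat_lit 201) (nat_lit 213)) (PT.lf (nat_lit 22876) (nat_lit 6) (nat_lit 301) (nat_lit 5) (nat_lit 157) (nat_lit 201) (nat_lit 212)))))) (PT.nd (nat_lit 624) (PT.nd (nat_lit 312) (PT.nd (nat_lit 156) (PT.nd (nat_lit 78) (PT.lf (nat_lit 23636) (nat_lit 6) (nat_lit 311) (nat_lit 5) (nat_lit 158) (nat_lit 201) (nat_lit 211)) (PT.lf (nat_lit 24472) (nat_lit 6) (nat_lit 322) (nat_lit 5) (nat_lit 159) (nat_lit 201) (nat_lit 210))) (PT.nd (nat_lit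 78) (PT.lf (nat_lit 25308) (nat_lit 6) (nat_lit 333) (nat_lit 5) (nat_lit 160) (nat_lit 201) (nat_lit 209)) (PT.lf (nat_lit 26220) (nat_lit 6) (nat_lit 345) (nat_lit 5) (nat_lit 161) (nat_lit 201) (nat_lit 208)))) (PT.nd (nat_lit 156) (PT.nd (nat_lit 78) (PT.lf (nat_lit 27132) (nat_lit 6) (nat_lit 357) (nat_lit 5) (nat_lit 162) (nat_lit 201) (nat_lit 207)) (PT.lf (nat_lit 28044) (nat_lit 6) (nat_lit 369) (nat_lit 5) (nat_lit 163) (nat_lit 201) (nat_lit 206))) (PT.nd (nat_lit 78) (PT.lf (nat_lit 28956) (nat_lit 6) (nat_lit 381) (nat_lit 5) (nat_lit 164) (nat_lit 201) (nat_lit 205)) (PT.lf (nat_lit 29944) (nat_lit 6) (nat_lit 394) (nat_lit 5) (nat_lit 165) (nat_lit 201) (nat_lit 204))))) (PT.nd (nat_lit 312) (PT.nd (nat_lit 156) (PT.nd (nat_lit 78) (PT.lf (nat_lit 31160) (nat_lit 6) (nat_lit 410) (nat_lit 5) (nat_lit 166) (nat_lit 201) (nat_lit 203)) (PT.lf (nat_lit 32984) (nat_lit 6) (nat_lit 434) (nat_lit 5) (nat_lit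 167) (nat_lit 201) (nat_lit 202))) (PT.nd (nat_lit 78) (PT.lf (nat_lit 34732) (nat_lit 3) (nat_lit 457) (nat_lit 4) (nat_lit 168) (nat_lit 201) (nat_lit 201)) (PT.lf (nat_lit 36328) (nat_lit 6) (nat_lit 478) (nat_lit 4) (nat_lit 169) (nat_lit 201) (nat_lit 200)))) (PT.nd (nat_lit 156) (PT.nd (nat_lit 78) (PT.lf (nat_lit 37848) (nat_lit 6) (nat_lit 498) (nat_lit 4) (nat_lit 170) (nat_lit 201) (nat_lit 199)) (PT.lf (nat_lit 39292) (nat_lit 6) (nat_lit 517) (nat_lit 4) (nat_lit 171) (nat_lit 201) (nat_lit 198))) (PT.nd (nat_lit 78) (PT.lf (nat_lit 40660) (nat_lit 6) (nat_lit 535) (nat_lit 4) (nat_lit 172) (nat_lit 201) (nat_lit 197)) (PT.lf (nat_lit 41952) (nat_lit 6) (nat_lit 552) (nat_lit 4) (nat_lit 173) (nat_lit 201) (nat_lit 196))))))))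
noncomputable def pc36 : PT := (PT.nd (nat_lit 2340) (PT.nd (nat_lit 1170) (PT.nd (nat_lit 546) (PT.nd (nat_lit 234) (PT.nd (nat_lit 78) (PT.lf (nat_lit 43168) (nat_lit 6) (nat_lit 568) (nat_lit 4) (nat_lit 174) (nat_lit 201) (nat_lit 195)) (PT.nd (nat_lit 78) (PT.lf (nat_lit 44308) (nat_lit 6) (nat_lit 583) (nat_lit 4) (nat_lit 175) (nat_lit 201) (nat_lit 194)) (PT.lf (nat_lit 45372) (nat_lit 6) (nat_lit 597) (nat_lit 4) (nat_lit 176) (nat_lit 201) (nat_lit 193)))) (PT.nd (nat_lit 156) (PT.nd (nat_lit 78) (PT.lf (nat_lit 46360) (nat_lit 6) (nat_lit 610) (nat_lit 4) (nat_lit 177) (nat_lit 201) (nat_lit 192)) (PT.lf (nat_lit 47272) (nat_lit 6) (nat_lit 622) (nat_lit 4) (nat_lit 178) (nat_lit 201) (nat_lit 191))) (PT.nd (nat_lit 78) (PT.lf (nat_lit 48108) (nat_lit 6) (nat_lit 633) (nat_lit 4) (nat_lit 179) (nat_lit 201) (nat_lit 190)) (PT.lf (nat_lit 48032) (nat_lit 6) (nat_lit 632) (nat_lit 4) (nat_lit 180) (nat_lit 201)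 (nat_lit 189))))) (PT.nd (nat_lit 312) (PT.nd (nat_lit 156) (PT.nd (nat_lit 78) (PT.lf (nat_lit 47956) (nat_lit 6) (nat_lit 631) (nat_lit 4) (nat_lit 181) (nat_lit 201) (nat_lit 188)) (PT.lf (nat_lit 47880) (nat_lit 6) (nat_lit 630) (nat_lit 4) (nat_lit 182) (nat_lit 201) (nat_lit 187))) (PT.nd (nat_lit 78) (PT.lf (nat_lit 47804) (nat_lit 6) (nat_lit 629) (nat_lit 4) (nat_lit 183) (nat_lit 201) (nat_lit 186)) (PT.lf (nat_lit 47728) (nat_lit 6) (nat_lit 628) (nat_lit 4) (nat_lit 184) (nat_lit 201) (nat_lit 185)))) (PT.nd (nat_lit 156) (PT.nd (nat_lit 78) (PT.lf (nat_lit 47728) (nat_lit 6) (nat_lit 628) (nat_lit 2) (nat_lit 185) (nat_lit 201) (nat_lit 184)) (PT.lf (nat_lit 47804) (nat_lit 6) (nat_lit 629) (nat_lit 2) (nat_lit 186) (nat_lit 201) (nat_lit 183))) (PT.nd (nat_lit 78) (PT.lf (nat_lit 47880) (nat_lit 6) (nat_lit 630) (nat_lit 2) (nat_lit 187) (nat_lit 201) (nat_lit 182)) (PT.lf (nat_lit 47956) (nat_lit 6) (nat_lit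 631) (nat_lit 2) (nat_lit 188) (nat_lit 201) (nat_lit 181)))))) (PT.nd (nat_lit 546) (PT.nd (nat_lit 234) (PT.nd (nat_lit 78) (PT.lf (nat_lit 48032) (nat_lit 6) (nat_lit 632) (nat_lit 2) (nat_lit 189) (nat_lit 201) (nat_lit 180)) (PT.nd (nat_lit 78) (PT.lf (nat_lit 48108) (nat_lit 6) (nat_lit 633) (nat_lit 2) (nat_lit 190) (nat_lit 201) (nat_lit 179)) (PT.lf (nat_lit 47272) (nat_lit 6) (nat_lit 622) (nat_lit 2) (nat_lit 191) (nat_lit 201) (nat_lit 178)))) (PT.nd (nat_lit 156) (PT.nd (nat_lit 78) (PT.lf (nat_lit 46360) (nat_lit 6) (nat_lit 610) (nat_lit 2) (nat_lit 192) (nat_lit 201) (nat_lit 177)) (PT.lf (nat_lit 45372) (nat_lit 6) (nat_lit 597) (nat_lit 2) (nat_lit 193) (nat_lit 201) (nat_lit 176))) (PT.nd (nat_lit 78) (PT.lf (nat_lit 44308) (nat_lit 6) (nat_lit 583) (nat_lit 2) (nat_lit 194) (nat_lit 201) (nat_lit 175)) (PT.lf (nat_lit 43168) (nat_lit 6) (nat_lit 568) (nat_lit 2) (nat_lit 195) (nat_lit 201) (nat_lit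 174))))) (PT.nd (nat_lit 312) (PT.nd (nat_lit 156) (PT.nd (nat_lit 78) (PT.lf (nat_lit 41952) (nat_lit 6) (nat_lit 552) (nat_lit 2) (nat_lit 196) (nat_lit 201) (nat_lit 173)) (PT.lf (nat_lit 40660) (nat_lit 6) (nat_lit 535) (nat_lit 2) (nat_lit 197) (nat_lit 201) (nat_lit 172))) (PT.nd (nat_lit 78) (PT.lf (nat_lit 39292) (nat_lit 6) (nat_lit 517) (nat_lit 2) (nat_lit 198) (nat_lit 201) (nat_lit 171)) (PT.lf (nat_lit 37848) (nat_lit 6) (nat_lit 498) (nat_lit 2) (nat_lit 199) (nat_lit 201) (nat_lit 170)))) (PT.nd (nat_lit 156) (PT.nd (nat_lit 78) (PT.lf (nat_lit 36328) (nat_lit 6) (nat_lit 478) (nat_lit 2) (nat_lit 200) (nat_lit 201) (nat_lit 169)) (PT.lf (nat_lit 34732) (nat_lit 3) (nat_lit 457) (nat_lit 0) (nat_lit 201) (nat_lit 201) (nat_lit 168))) (PT.nd (nat_lit 78) (PT.lf (nat_lit 32984) (nat_lit 6) (nat_lit 434) (nat_lit 0) (nat_lit 202) (nat_lit 201) (nat_lit 167)) (PT.lf (nat_lit 31160) (nat_lit 6) (nat_lit 410)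 (nat_lit 0) (nat_lit 203) (nat_lit 201) (nat_lit 166))))))) (PT.nd (nat_lit 55302) (PT.nd (nat_lit 546) (PT.nd (nat_lit 234) (PT.nd (nat_lit 78) (PT.lf (nat_lit 29944) (nat_lit 6) (nat_lit 394) (nat_lit 0) (nat_lit 204) (nat_lit 201) (nat_lit 165)) (PT.nd (nat_lit 78) (PT.lf (nat_lit 28956) (nat_lit 6) (nat_lit 381) (nat_lit 0) (nat_lit 205) (nat_lit 201) (nat_lit 164)) (PT.lf (nat_lit 28044) (nat_lit 6) (nat_lit 369) (nat_lit 0) (nat_lit 206) (nat_lit 201) (nat_lit 163)))) (PT.nd (nat_lit 156) (PT.nd (nat_lit 78) (PT.lf (nat_lit 27132) (nat_lit 6) (nat_lit 357) (nat_lit 0) (nat_lit 207) (nat_lit 201) (nat_lit 162)) (PT.lf (nat_lit 26220) (nat_lit 6) (nat_lit 345) (nat_lit 0) (nat_lit 208) (nat_lit 201) (nat_lit 161))) (PT.nd (nat_lit 78) (PT.lf (nat_lit 25308) (nat_lit 6) (nat_lit 333) (nat_lit 0) (nat_lit 209) (nat_lit 201) (nat_lit 160)) (PT.lf (nat_lit 24472) (nat_lit 6) (nat_lit 322) (nat_lit 0) (nat_lit 210) (nat_lit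 201) (nat_lit 159))))) (PT.nd (nat_lit 312) (PT.nd (nat_lit 156) (PT.nd (nat_lit 78) (PT.lf (nat_lit 23636) (nat_lit 6) (nat_lit 311) (nat_lit 0) (nat_lit 211) (nat_lit 201) (nat_lit 158)) (PT.lf (nat_lit 22876) (nat_lit 6) (nat_lit 301) (nat_lit 0) (nat_lit 212) (nat_lit 201) (nat_lit 157))) (PT.nd (nat_lit 78) (PT.lf (nat_lit 22040) (nat_lit 6) (nat_lit 290) (nat_lit 0) (nat_lit 213) (nat_lit 201) (nat_lit 156)) (PT.lf (nat_lit 21280) (nat_lit 6) (nat_lit 280) (nat_lit 0) (nat_lit 214) (nat_lit 201) (nat_lit 155)))) (PT.nd (nat_lit 156) (PT.nd (nat_lit 78) (PT.lf (nat_lit 20520) (nat_lit 6) (nat_lit 270) (nat_lit 0) (nat_lit 215) (nat_lit 201) (nat_lit 154)) (PT.lf (nat_lit 19836) (nat_lit 6) (nat_lit 261) (nat_lit 0) (nat_lit 216) (nat_lit 201) (nat_lit 153))) (PT.nd (nat_lit 54210) (PT.lf (nat_lit 19076) (nat_lit 6) (nat_lit 251) (nat_lit 0) (nat_lit 217) (nat_lit 201) (nat_lit 152)) (PT.lf (nat_lit 18468) (nat_lit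 6) (nat_lit 243) (nat_lit 5) (nat_lit 151) (nat_lit 202) (nat_lit 217)))))) (PT.nd (nat_lit 624) (PT.nd (nat_lit 312) (PT.nd (nat_lit 156) (PT.nd (nat_lit 78) (PT.lf (nat_lit 19152) (nat_lit 6) (nat_lit 252) (nat_lit 5) (nat_lit 152) (nat_lit 202) (nat_lit 216)) (PT.lf (nat_lit 19912) (nat_lit 6) (nat_lit 262) (nat_lit 5) (nat_lit 153) (nat_lit 202) (nat_lit 215))) (PT.nd (nat_lit 78) (PT.lf (nat_lit 20596) (nat_lit 6) (nat_lit 271) (nat_lit 5) (nat_lit 154) (nat_lit 202) (nat_lit 214)) (PT.lf (nat_lit 21356) (nat_lit 6) (nat_lit 281) (nat_lit 5) (nat_lit 155) (nat_lit 202) (nat_lit 213)))) (PT.nd (nat_lit 156) (PT.nd (nat_lit 78) (PT.lf (nat_lit 22116) (nat_lit 6) (nat_lit 291) (nat_lit 5) (nat_lit 156) (nat_lit 202) (nat_lit 212)) (PT.lf (nat_lit 22952) (nat_lit 6) (nat_lit 302) (nat_lit 5) (nat_lit 157) (nat_lit 202) (nat_lit 211))) (PT.nd (nat_lit 78) (PT.lf (nat_lit 23712) (nat_lit 6) (nat_lit 312) (nat_lit 5) (nat_lit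 158) (nat_lit 202) (nat_lit 210)) (PT.lf (nat_lit 24548) (nat_lit 6) (nat_lit 323) (nat_lit 5) (nat_lit 159) (nat_lit 202) (nat_lit 209))))) (PT.nd (nat_lit 312) (PT.nd (nat_lit 156) (PT.nd (nat_lit 78) (PT.lf (nat_lit 25384) (nat_lit 6) (nat_lit 334) (nat_lit 5) (nat_lit 160) (nat_lit 202) (nat_lit 208)) (PT.lf (nat_lit 26296) (nat_lit 6) (nat_lit 346) (nat_lit 5) (nat_lit 161) (nat_lit 202) (nat_lit 207))) (PT.nd (nat_lit 78) (PT.lf (nat_lit 27208) (nat_lit 6) (nat_lit 358) (nat_lit 5) (nat_lit 162) (nat_lit 202) (nat_lit 206)) (PT.lf (nat_lit 28120) (nat_lit 6) (nat_lit 370) (nat_lit 5) (nat_lit 163) (nat_lit 202) (nat_lit 205)))) (PT.nd (nat_lit 156) (PT.nd (nat_lit 78) (PT.lf (nat_lit 29032) (nat_lit 6) (nat_lit 382) (nat_lit 5) (nat_lit 164) (nat_lit 202) (nat_lit 204)) (PT.lf (nat_lit 30020) (nat_lit 6) (nat_lit 395) (nat_lit 5) (nat_lit 165) (nat_lit 202) (nat_lit 203))) (PT.nd (nat_lit 78) (PT.lf (nat_lit 31236)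 (nat_lit 3) (nat_lit 411) (nat_lit 4) (nat_lit 166) (nat_lit 202) (nat_lit 202)) (PT.lf (nat_lit 32984) (nat_lit 6) (nat_lit 434) (nat_lit 4) (nat_lit 167) (nat_lit 202) (nat_lit 201))))))))
noncomputable def pc37 : PT := (PT.nd (nat_lit 2418) (PT.nd (nat_lit 1170) (PT.nd (nat_lit 546) (PT.nd (nat_lit 234) (PT.nd (nat_lit 78) (PT.lf (nat_lit 34656) (nat_lit 6) (nat_lit 456) (nat_lit 4) (nat_lit 168) (nat_lit 202) (nat_lit 200)) (PT.nd (nat_lit 78) (PT.lf (nat_lit 36252) (nat_lit 6) (nat_lit 477) (nat_lit 4) (nat_lit 169) (nat_lit 202) (nat_lit 199)) (PT.lf (nat_lit 37772) (nat_lit 6) (nat_lit 497) (nat_lit 4) (nat_lit 170) (nat_lit 202) (nat_lit 198)))) (PT.nd (nat_lit 156) (PT.nd (nat_lit 78) (PT.lf (nat_lit 39216) (nat_lit 6) (nat_lit 516) (nat_lit 4) (nat_lit 171) (nat_lit 202) (nat_lit 197)) (PT.lf (nat_lit 40584) (nat_lit 6) (nat_lit 534) (nat_lit 4) (nat_lit 172) (nat_lit 202) (nat_lit 196))) (PT.nd (nat_lit 78)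 (PT.lf (nat_lit 41876) (nat_lit 6) (nat_lit 551) (nat_lit 4) (nat_lit 173) (nat_lit 202) (nat_lit 195)) (PT.lf (nat_lit 43092) (nat_lit 6) (nat_lit 567) (nat_lit 4) (nat_lit 174) (nat_lit 202) (nat_lit 194))))) (PT.nd (nat_lit 312) (PT.nd (nat_lit 156) (PT.nd (nat_lit 78) (PT.lf (nat_lit 44232) (nat_lit 6) (nat_lit 582) (nat_lit 4) (nat_lit 175) (nat_lit 202) (nat_lit 193)) (PT.lf (nat_lit 45296) (nat_lit 6) (nat_lit 596) (nat_lit 4) (nat_lit 176) (nat_lit 202) (nat_lit 192))) (PT.nd (nat_lit 78) (PT.lf (nat_lit 46284) (nat_lit 6) (nat_lit 609) (nat_lit 4) (nat_lit 177) (nat_lit 202) (nat_lit 191)) (PT.lf (nat_lit 47196) (nat_lit 6) (nat_lit 621) (nat_lit 4) (nat_lit 178) (nat_lit 202) (nat_lit 190)))) (PT.nd (nat_lit 156) (PT.nd (nat_lit 78) (PT.lf (nat_lit 47120) (nat_lit 6) (nat_lit 620) (nat_lit 4) (nat_lit 179) (nat_lit 202) (nat_lit 189)) (PT.lf (nat_lit 47044) (nat_lit 6) (nat_lit 619) (nat_lit 4) (nat_lit 180)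 (nat_lit 202) (nat_lit 188))) (PT.nd (nat_lit 78) (PT.lf (nat_lit 46968) (nat_lit 6) (nat_lit 618) (nat_lit 4) (nat_lit 181) (nat_lit 202) (nat_lit 187)) (PT.lf (nat_lit 46892) (nat_lit 6) (nat_lit 617) (nat_lit 4) (nat_lit 182) (nat_lit 202) (nat_lit 186)))))) (PT.nd (nat_lit 624) (PT.nd (nat_lit 312) (PT.nd (nat_lit 156) (PT.nd (nat_lit 78) (PT.lf (nat_lit 46816) (nat_lit 6) (nat_lit 616) (nat_lit 4) (nat_lit 183) (nat_lit 202) (nat_lit 185)) (PT.lf (nat_lit 46740) (nat_lit 3) (nat_lit 615) (nat_lit 2) (nat_lit 184) (nat_lit 202) (nat_lit 184))) (PT.nd (nat_lit 78) (PT.lf (nat_lit 46816) (nat_lit 6) (nat_lit 616) (nat_lit 2) (nat_lit 185) (nat_lit 202) (nat_lit 183)) (PT.lf (nat_lit 46892) (nat_lit 6) (nat_lit 617) (nat_lit 2) (nat_lit 186) (nat_lit 202) (nat_lit 182)))) (PT.nd (nat_lit 156) (PT.nd (nat_lit 78) (PT.lf (nat_lit 46968) (nat_lit 6) (nat_lit 618) (nat_lit 2) (nat_lit 187) (nat_lit 202) (nat_lit 181)) (PT.lf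 (nat_lit 47044) (nat_lit 6) (nat_lit 619) (nat_lit 2) (nat_lit 188) (nat_lit 202) (nat_lit 180))) (PT.nd (nat_lit 78) (PT.lf (nat_lit 47120) (nat_lit 6) (nat_lit 620) (nat_lit 2) (nat_lit 189) (nat_lit 202) (nat_lit 179)) (PT.lf (nat_lit 47196) (nat_lit 6) (nat_lit 621) (nat_lit 2) (nat_lit 190) (nat_lit 202) (nat_lit 178))))) (PT.nd (nat_lit 312) (PT.nd (nat_lit 156) (PT.nd (nat_lit 78) (PT.lf (nat_lit 46284) (nat_lit 6) (nat_lit 609) (nat_lit 2) (nat_lit 191) (nat_lit 202) (nat_lit 177)) (PT.lf (nat_lit 45296) (nat_lit 6) (nat_lit 596) (nat_lit 2) (nat_lit 192) (nat_lit 202) (nat_lit 176))) (PT.nd (nat_lit 78) (PT.lf (nat_lit 44232) (nat_lit 6) (nat_lit 582) (nat_lit 2) (nat_lit 193) (nat_lit 202) (nat_lit 175)) (PT.lf (nat_lit 43092) (nat_lit 6) (nat_lit 567) (nat_lit 2) (nat_lit 194) (nat_lit 202) (nat_lit 174)))) (PT.nd (nat_lit 156) (PT.nd (nat_lit 78) (PT.lf (nat_lit 41876) (nat_lit 6) (nat_lit 551) (nat_lit 2)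 (nat_lit 195) (nat_lit 202) (nat_lit 173)) (PT.lf (nat_lit 40584) (nat_lit 6) (nat_lit 534) (nat_lit 2) (nat_lit 196) (nat_lit 202) (nat_lit 172))) (PT.nd (nat_lit 78) (PT.lf (nat_lit 39216) (nat_lit 6) (nat_lit 516) (nat_lit 2) (nat_lit 197) (nat_lit 202) (nat_lit 171)) (PT.lf (nat_lit 37772) (nat_lit 6) (nat_lit 497) (nat_lit 2) (nat_lit 198) (nat_lit 202) (nat_lit 170))))))) (PT.nd (nat_lit 1170) (PT.nd (nat_lit 546) (PT.nd (nat_lit 234) (PT.nd (nat_lit 78) (PT.lf (nat_lit 36252) (nat_lit 6) (nat_lit 477) (nat_lit 2) (nat_lit 199) (nat_lit 202) (nat_lit 169)) (PT.nd (nat_lit 78) (PT.lf (nat_lit 34656) (nat_lit 6) (nat_lit 456) (nat_lit 2) (nat_lit 200) (nat_lit 202) (nat_lit 168)) (PT.lf (nat_lit 32984) (nat_lit 6) (nat_lit 434) (nat_lit 2) (nat_lit 201) (nat_lit 202) (nat_lit 167)))) (PT.nd (nat_lit 156) (PT.nd (nat_lit 78) (PT.lf (nat_lit 31236) (nat_lit 3) (nat_lit 411) (nat_lit 0) (nat_lit 202) (nat_lit 202) (nat_lit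 166)) (PT.lf (nat_lit 30020) (nat_lit 6) (nat_lit 395) (nat_lit 0) (nat_lit 203) (nat_lit 202) (nat_lit 165))) (PT.nd (nat_lit 78) (PT.lf (nat_lit 29032) (nat_lit 6) (nat_lit 382) (nat_lit 0) (nat_lit 204) (nat_lit 202) (nat_lit 164)) (PT.lf (nat_lit 28120) (nat_lit 6) (nat_lit 370) (nat_lit 0) (nat_lit 205) (nat_lit 202) (nat_lit 163))))) (PT.nd (nat_lit 312) (PT.nd (nat_lit 156) (PT.nd (nat_lit 78) (PT.lf (nat_lit 27208) (nat_lit 6) (nat_lit 358) (nat_lit 0) (nat_lit 206) (nat_lit 202) (nat_lit 162)) (PT.lf (nat_lit 26296) (nat_lit 6) (nat_lit 346) (nat_lit 0) (nat_lit 207) (nat_lit 202) (nat_lit 161))) (PT.nd (nat_lit 78) (PT.lf (nat_lit 25384) (nat_lit 6) (nat_lit 334) (nat_lit 0) (nat_lit 208) (nat_lit 202) (nat_lit 160)) (PT.lf (nat_lit 24548) (nat_lit 6) (nat_lit 323) (nat_lit 0) (nat_lit 209) (nat_lit 202) (nat_lit 159)))) (PT.nd (nat_lit 156) (PT.nd (nat_lit 78) (PT.lf (nat_lit 23712) (nat_lit 6) (nat_lit 312)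 (nat_lit 0) (nat_lit 210) (nat_lit 202) (nat_lit 158)) (PT.lf (nat_lit 22952) (nat_lit 6) (nat_lit 302) (nat_lit 0) (nat_lit 211) (nat_lit 202) (nat_lit 157))) (PT.nd (nat_lit 78) (PT.lf (nat_lit 22116) (nat_lit 6) (nat_lit 291) (nat_lit 0) (nat_lit 212) (nat_lit 202) (nat_lit 156)) (PT.lf (nat_lit 21356) (nat_lit 6) (nat_lit 281) (nat_lit 0) (nat_lit 213) (nat_lit 202) (nat_lit 155)))))) (PT.nd (nat_lit 54600) (PT.nd (nat_lit 54288) (PT.nd (nat_lit 156) (PT.nd (nat_lit 78) (PT.lf (nat_lit 20596) (nat_lit 6) (nat_lit 271) (nat_lit 0) (nat_lit 214) (nat_lit 202) (nat_lit 154)) (PT.lf (nat_lit 19912) (nat_lit 6) (nat_lit 262) (nat_lit 0) (nat_lit 215) (nat_lit 202) (nat_lit 153))) (PT.nd (nat_lit 78) (PT.lf (nat_lit 19152) (nat_lit 6) (nat_lit 252) (nat_lit 0) (nat_lit 216) (nat_lit 202) (nat_lit 152)) (PT.lf (nat_lit 18468) (nat_lit 6) (nat_lit 243) (nat_lit 0) (nat_lit 217) (nat_lit 202) (nat_lit 151)))) (PT.nd (nat_lit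 156) (PT.nd (nat_lit 78) (PT.lf (nat_lit 17252) (nat_lit 6) (nat_lit 227) (nat_lit 5) (nat_lit 149) (nat_lit 203) (nat_lit 218)) (PT.lf (nat_lit 17860) (nat_lit 6) (nat_lit 235) (nat_lit 5) (nat_lit 150) (nat_lit 203) (nat_lit 217))) (PT.nd (nat_lit 78) (PT.lf (nat_lit 18544) (nat_lit 6) (nat_lit 244) (nat_lit 5) (nat_lit 151) (nat_lit 203) (nat_lit 216)) (PT.lf (nat_lit 19228) (nat_lit 6) (nat_lit 253) (nat_lit 5) (nat_lit 152) (nat_lit 203) (nat_lit 215))))) (PT.nd (nat_lit 312) (PT.nd (nat_lit 156) (PT.nd (nat_lit 78) (PT.lf (nat_lit 19988) (nat_lit 6) (nat_lit 263) (nat_lit 5) (nat_lit 153) (nat_lit 203) (nat_lit 214)) (PT.lf (nat_lit 20672) (nat_lit 6) (nat_lit 272) (nat_lit 5) (nat_lit 154) (nat_lit 203) (nat_lit 213))) (PT.nd (nat_lit 78) (PT.lf (nat_lit 21432) (nat_lit 6) (nat_lit 282) (nat_lit 5) (nat_lit 155) (nat_lit 203) (nat_lit 212)) (PT.lf (nat_lit 22192) (nat_lit 6) (nat_lit 292) (nat_lit 5) (nat_lit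 156) (nat_lit 203) (nat_lit 211)))) (PT.nd (nat_lit 156) (PT.nd (nat_lit 78) (PT.lf (nat_lit 23028) (nat_lit 6) (nat_lit 303) (nat_lit 5) (nat_lit 157) (nat_lit 203) (nat_lit 210)) (PT.lf (nat_lit 23788) (nat_lit 6) (nat_lit 313) (nat_lit 5) (nat_lit 158) (nat_lit 203) (nat_lit 209))) (PT.nd (nat_lit 78) (PT.lf (nat_lit 24624) (nat_lit 6) (nat_lit 324) (nat_lit 5) (nat_lit 159) (nat_lit 203) (nat_lit 208)) (PT.lf (nat_lit 25460) (nat_lit 6) (nat_lit 335) (nat_lit 5) (nat_lit 160) (nat_lit 203) (nat_lit 207))))))))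
noncomputable def pc38 : PT := (PT.nd (nat_lit 2340) (PT.nd (nat_lit 1170) (PT.nd (nat_lit 546) (PT.nd (nat_lit 234) (PT.nd (nat_lit 78) (PT.lf (nat_lit 26372) (nat_lit 6) (nat_lit 347) (nat_lit 5) (nat_lit 161) (nat_lit 203) (nat_lit 206)) (PT.nd (nat_lit 78) (PT.lf (nat_lit 27284) (nat_lit 6) (nat_lit 359) (nat_lit 5) (nat_lit 162) (nat_lit 203) (nat_lit 205)) (PT.lf (nat_lit 28196) (nat_lit 6) (nat_lit 371) (nat_lit 5) (nat_lit 163) (nat_lit 203) (nat_lit 204)))) (PT.nd (nat_lit 156) (PT.nd (nat_lit 78) (PT.lf (nat_lit 29108) (nat_lit 3) (nat_lit 383) (nat_lit 4) (nat_lit 164) (nat_lit 203) (nat_lit 203)) (PT.lf (nat_lit 30020) (nat_lit 6) (nat_lit 395) (nat_lit 4) (nat_lit 165) (nat_lit 203) (nat_lit 202))) (PT.nd (nat_lit 78) (PT.lf (nat_lit 31160) (nat_lit 6) (nat_lit 410) (nat_lit 4) (nat_lit 166) (nat_lit 203) (nat_lit 201)) (PT.lf (nat_lit 32908) (nat_lit 6) (nat_lit 433) (nat_lit 4) (nat_lit 167) (nat_lit 203)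 (nat_lit 200))))) (PT.nd (nat_lit 312) (PT.nd (nat_lit 156) (PT.nd (nat_lit 78) (PT.lf (nat_lit 34580) (nat_lit 6) (nat_lit 455) (nat_lit 4) (nat_lit 168) (nat_lit 203) (nat_lit 199)) (PT.lf (nat_lit 36176) (nat_lit 6) (nat_lit 476) (nat_lit 4) (nat_lit 169) (nat_lit 203) (nat_lit 198))) (PT.nd (nat_lit 78) (PT.lf (nat_lit 37696) (nat_lit 6) (nat_lit 496) (nat_lit 4) (nat_lit 170) (nat_lit 203) (nat_lit 197)) (PT.lf (nat_lit 39140) (nat_lit 6) (nat_lit 515) (nat_lit 4) (nat_lit 171) (nat_lit 203) (nat_lit 196)))) (PT.nd (nat_lit 156) (PT.nd (nat_lit 78) (PT.lf (nat_lit 40508) (nat_lit 6) (nat_lit 533) (nat_lit 4) (nat_lit 172) (nat_lit 203) (nat_lit 195)) (PT.lf (nat_lit 41800) (nat_lit 6) (nat_lit 550) (nat_lit 4) (nat_lit 173) (nat_lit 203) (nat_lit 194))) (PT.nd (nat_lit 78) (PT.lf (nat_lit 43016) (nat_lit 6) (nat_lit 566) (nat_lit 4) (nat_lit 174) (nat_lit 203) (nat_lit 193)) (PT.lf (nat_lit 44156) (nat_lit 6) (nat_lit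 581) (nat_lit 4) (nat_lit 175) (nat_lit 203) (nat_lit 192)))))) (PT.nd (nat_lit 546) (PT.nd (nat_lit 234) (PT.nd (nat_lit 78) (PT.lf (nat_lit 45220) (nat_lit 6) (nat_lit 595) (nat_lit 4) (nat_lit 176) (nat_lit 203) (nat_lit 191)) (PT.nd (nat_lit 78) (PT.lf (nat_lit 46208) (nat_lit 6) (nat_lit 608) (nat_lit 4) (nat_lit 177) (nat_lit 203) (nat_lit 190)) (PT.lf (nat_lit 46132) (nat_lit 6) (nat_lit 607) (nat_lit 4) (nat_lit 178) (nat_lit 203) (nat_lit 189)))) (PT.nd (nat_lit 156) (PT.nd (nat_lit 78) (PT.lf (nat_lit 46056) (nat_lit 6) (nat_lit 606) (nat_lit 4) (nat_lit 179) (nat_lit 203) (nat_lit 188)) (PT.lf (nat_lit 45980) (nat_lit 6) (nat_lit 605) (nat_lit 4) (nat_lit 180) (nat_lit 203) (nat_lit 187))) (PT.nd (nat_lit 78) (PT.lf (nat_lit 45904) (nat_lit 6) (nat_lit 604) (nat_lit 4) (nat_lit 181) (nat_lit 203) (nat_lit 186)) (PT.lf (nat_lit 45828) (nat_lit 6) (nat_lit 603) (nat_lit 4) (nat_lit 182) (nat_lit 203) (nat_lit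 185))))) (PT.nd (nat_lit 312) (PT.nd (nat_lit 156) (PT.nd (nat_lit 78) (PT.lf (nat_lit 45752) (nat_lit 6) (nat_lit 602) (nat_lit 4) (nat_lit 183) (nat_lit 203) (nat_lit 184)) (PT.lf (nat_lit 45752) (nat_lit 6) (nat_lit 602) (nat_lit 2) (nat_lit 184) (nat_lit 203) (nat_lit 183))) (PT.nd (nat_lit 78) (PT.lf (nat_lit 45828) (nat_lit 6) (nat_lit 603) (nat_lit 2) (nat_lit 185) (nat_lit 203) (nat_lit 182)) (PT.lf (nat_lit 45904) (nat_lit 6) (nat_lit 604) (nat_lit 2) (nat_lit 186) (nat_lit 203) (nat_lit 181)))) (PT.nd (nat_lit 156) (PT.nd (nat_lit 78) (PT.lf (nat_lit 45980) (nat_lit 6) (nat_lit 605) (nat_lit 2) (nat_lit 187) (nat_lit 203) (nat_lit 180)) (PT.lf (nat_lit 46056) (nat_lit 6) (nat_lit 606) (nat_lit 2) (nat_lit 188) (nat_lit 203) (nat_lit 179))) (PT.nd (nat_lit 78) (PT.lf (nat_lit 46132) (nat_lit 6) (nat_lit 607) (nat_lit 2) (nat_lit 189) (nat_lit 203) (nat_lit 178)) (PT.lf (nat_lit 46208) (nat_lit 6) (nat_lit 608)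 (nat_lit 2) (nat_lit 190) (nat_lit 203) (nat_lit 177))))))) (PT.nd (nat_lit 1170) (PT.nd (nat_lit 546) (PT.nd (nat_lit 234) (PT.nd (nat_lit 78) (PT.lf (nat_lit 45220) (nat_lit 6) (nat_lit 595) (nat_lit 2) (nat_lit 191) (nat_lit 203) (nat_lit 176)) (PT.nd (nat_lit 78) (PT.lf (nat_lit 44156) (nat_lit 6) (nat_lit 581) (nat_lit 2) (nat_lit 192) (nat_lit 203) (nat_lit 175)) (PT.lf (nat_lit 43016) (nat_lit 6) (nat_lit 566) (nat_lit 2) (nat_lit 193) (nat_lit 203) (nat_lit 174)))) (PT.nd (nat_lit 156) (PT.nd (nat_lit 78) (PT.lf (nat_lit 41800) (nat_lit 6) (nat_lit 550) (nat_lit 2) (nat_lit 194) (nat_lit 203) (nat_lit 173)) (PT.lf (nat_lit 40508) (nat_lit 6) (nat_lit 533) (nat_lit 2) (nat_lit 195) (nat_lit 203) (nat_lit 172))) (PT.nd (nat_lit 78) (PT.lf (nat_lit 39140) (nat_lit 6) (nat_lit 515) (nat_lit 2) (nat_lit 196) (nat_lit 203) (nat_lit 171)) (PT.lf (nat_lit 37696) (nat_lit 6) (nat_lit 496) (nat_lit 2) (nat_lit 197) (nat_lit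 203) (nat_lit 170))))) (PT.nd (nat_lit 312) (PT.nd (nat_lit 156) (PT.nd (nat_lit 78) (PT.lf (nat_lit 36176) (nat_lit 6) (nat_lit 476) (nat_lit 2) (nat_lit 198) (nat_lit 203) (nat_lit 169)) (PT.lf (nat_lit 34580) (nat_lit 6) (nat_lit 455) (nat_lit 2) (nat_lit 199) (nat_lit 203) (nat_lit 168))) (PT.nd (nat_lit 78) (PT.lf (nat_lit 32908) (nat_lit 6) (nat_lit 433) (nat_lit 2) (nat_lit 200) (nat_lit 203) (nat_lit 167)) (PT.lf (nat_lit 31160) (nat_lit 6) (nat_lit 410) (nat_lit 2) (nat_lit 201) (nat_lit 203) (nat_lit 166)))) (PT.nd (nat_lit 156) (PT.nd (nat_lit 78) (PT.lf (nat_lit 30020) (nat_lit 6) (nat_lit 395) (nat_lit 2) (nat_lit 202) (nat_lit 203) (nat_lit 165)) (PT.lf (nat_lit 29108) (nat_lit 3) (nat_lit 383) (nat_lit 0) (nat_lit 203) (nat_lit 203) (nat_lit 164))) (PT.nd (nat_lit 78) (PT.lf (nat_lit 28196) (nat_lit 6) (nat_lit 371) (nat_lit 0) (nat_lit 204) (nat_lit 203) (nat_lit 163)) (PT.lf (nat_lit 27284) (nat_lit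 6) (nat_lit 359) (nat_lit 0) (nat_lit 205) (nat_lit 203) (nat_lit 162)))))) (PT.nd (nat_lit 624) (PT.nd (nat_lit 312) (PT.nd (nat_lit 156) (PT.nd (nat_lit 78) (PT.lf (nat_lit 26372) (nat_lit 6) (nat_lit 347) (nat_lit 0) (nat_lit 206) (nat_lit 203) (nat_lit 161)) (PT.lf (nat_lit 25460) (nat_lit 6) (nat_lit 335) (nat_lit 0) (nat_lit 207) (nat_lit 203) (nat_lit 160))) (PT.nd (nat_lit 78) (PT.lf (nat_lit 24624) (nat_lit 6) (nat_lit 324) (nat_lit 0) (nat_lit 208) (nat_lit 203) (nat_lit 159)) (PT.lf (nat_lit 23788) (nat_lit 6) (nat_lit 313) (nat_lit 0) (nat_lit 209) (nat_lit 203) (nat_lit 158)))) (PT.nd (nat_lit 156) (PT.nd (nat_lit 78) (PT.lf (nat_lit 23028) (nat_lit 6) (nat_lit 303) (nat_lit 0) (nat_lit 210) (nat_lit 203) (nat_lit 157)) (PT.lf (nat_lit 22192) (nat_lit 6) (nat_lit 292) (nat_lit 0) (nat_lit 211) (nat_lit 203) (nat_lit 156))) (PT.nd (nat_lit 78) (PT.lf (nat_lit 21432) (nat_lit 6) (nat_lit 282) (nat_lit 0) (nat_lit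 212) (nat_lit 203) (nat_lit 155)) (PT.lf (nat_lit 20672) (nat_lit 6) (nat_lit 272) (nat_lit 0) (nat_lit 213) (nat_lit 203) (nat_lit 154))))) (PT.nd (nat_lit 312) (PT.nd (nat_lit 156) (PT.nd (nat_lit 78) (PT.lf (nat_lit 19988) (nat_lit 6) (nat_lit 263) (nat_lit 0) (nat_lit 214) (nat_lit 203) (nat_lit 153)) (PT.lf (nat_lit 19228) (nat_lit 6) (nat_lit 253) (nat_lit 0) (nat_lit 215) (nat_lit 203) (nat_lit 152))) (PT.nd (nat_lit 78) (PT.lf (nat_lit 18544) (nat_lit 6) (nat_lit 244) (nat_lit 0) (nat_lit 216) (nat_lit 203) (nat_lit 151)) (PT.lf (nat_lit 17860) (nat_lit 6) (nat_lit 235) (nat_lit 0) (nat_lit 217) (nat_lit 203) (nat_lit 150)))) (PT.nd (nat_lit 53976) (PT.nd (nat_lit 53898) (PT.lf (nat_lit 17252) (nat_lit 6) (nat_lit 227) (nat_lit 0) (nat_lit 218) (nat_lit 203) (nat_lit 149)) (PT.lf (nat_lit 16644) (nat_lit 6) (nat_lit 219) (nat_lit 5) (nat_lit 148) (nat_lit 204) (nat_lit 218))) (PT.nd (nat_lit 78) (PT.lf (nat_lit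 17328) (nat_lit 6) (nat_lit 228) (nat_lit 5) (nat_lit 149) (nat_lit 204) (nat_lit 217)) (PT.lf (nat_lit 17936) (nat_lit 6) (nat_lit 236) (nat_lit 5) (nat_lit 150) (nat_lit 204) (nat_lit 216))))))))
noncomputable def pc39 : PT := (PT.nd (nat_lit 2418) (PT.nd (nat_lit 1170) (PT.nd (nat_lit 546) (PT.nd (nat_lit 234) (PT.nd (nat_lit 78) (PT.lf (nat_lit 18620) (nat_lit 6) (nat_lit 245) (nat_lit 5) (nat_lit 151) (nat_lit 204) (nat_lit 215)) (PT.nd (nat_lit 78) (PT.lf (nat_lit 19304) (nat_lit 6) (nat_lit 254) (nat_lit 5) (nat_lit 152) (nat_lit 204) (nat_lit 214)) (PT.lf (nat_lit 20064) (nat_lit 6) (nat_lit 264) (nat_lit 5) (nat_lit 153) (nat_lit 204) (nat_lit 213)))) (PT.nd (nat_lit 156) (PT.nd (nat_lit 78) (PT.lf (nat_lit 20748) (nat_lit 6) (nat_lit 273) (nat_lit 5) (nat_lit 154) (nat_lit 204) (nat_lit 212)) (PT.lf (nat_lit 21508) (nat_lit 6) (nat_lit 283) (nat_lit 5) (nat_lit 155) (nat_lit 204) (nat_lit 211))) (PT.nd (nat_lit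 78) (PT.lf (nat_lit 22268) (nat_lit 6) (nat_lit 293) (nat_lit 5) (nat_lit 156) (nat_lit 204) (nat_lit 210)) (PT.lf (nat_lit 23104) (nat_lit 6) (nat_lit 304) (nat_lit 5) (nat_lit 157) (nat_lit 204) (nat_lit 209))))) (PT.nd (nat_lit 312) (PT.nd (nat_lit 156) (PT.nd (nat_lit 78) (PT.lf (nat_lit 23864) (nat_lit 6) (nat_lit 314) (nat_lit 5) (nat_lit 158) (nat_lit 204) (nat_lit 208)) (PT.lf (nat_lit 24700) (nat_lit 6) (nat_lit 325) (nat_lit 5) (nat_lit 159) (nat_lit 204) (nat_lit 207))) (PT.nd (nat_lit 78) (PT.lf (nat_lit 25536) (nat_lit 6) (nat_lit 336) (nat_lit 5) (nat_lit 160) (nat_lit 204) (nat_lit 206)) (PT.lf (nat_lit 26448) (nat_lit 6) (nat_lit 348) (nat_lit 5) (nat_lit 161) (nat_lit 204) (nat_lit 205)))) (PT.nd (nat_lit 156) (PT.nd (nat_lit 78) (PT.lf (nat_lit 27360) (nat_lit 3) (nat_lit 360) (nat_lit 4) (nat_lit 162) (nat_lit 204) (nat_lit 204)) (PT.lf (nat_lit 28196) (nat_lit 6) (nat_lit 371) (nat_lit 4) (nat_lit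 163) (nat_lit 204) (nat_lit 203))) (PT.nd (nat_lit 78) (PT.lf (nat_lit 29032) (nat_lit 6) (nat_lit 382) (nat_lit 4) (nat_lit 164) (nat_lit 204) (nat_lit 202)) (PT.lf (nat_lit 29944) (nat_lit 6) (nat_lit 394) (nat_lit 4) (nat_lit 165) (nat_lit 204) (nat_lit 201)))))) (PT.nd (nat_lit 624) (PT.nd (nat_lit 312) (PT.nd (nat_lit 156) (PT.nd (nat_lit 78) (PT.lf (nat_lit 31084) (nat_lit 6) (nat_lit 409) (nat_lit 4) (nat_lit 166) (nat_lit 204) (nat_lit 200)) (PT.lf (nat_lit 32832) (nat_lit 6) (nat_lit 432) (nat_lit 4) (nat_lit 167) (nat_lit 204) (nat_lit 199))) (PT.nd (nat_lit 78) (PT.lf (nat_lit 34504) (nat_lit 6) (nat_lit 454) (nat_lit 4) (nat_lit 168) (nat_lit 204) (nat_lit 198)) (PT.lf (nat_lit 36100) (nat_lit 6) (nat_lit 475) (nat_lit 4) (nat_lit 169) (nat_lit 204) (nat_lit 197)))) (PT.nd (nat_lit 156) (PT.nd (nat_lit 78) (PT.lf (nat_lit 37620) (nat_lit 6) (nat_lit 495) (nat_lit 4) (nat_lit 170) (nat_lit 204) (nat_lit 196))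 (PT.lf (nat_lit 39064) (nat_lit 6) (nat_lit 514) (nat_lit 4) (nat_lit 171) (nat_lit 204) (nat_lit 195))) (PT.nd (nat_lit 78) (PT.lf (nat_lit 40432) (nat_lit 6) (nat_lit 532) (nat_lit 4) (nat_lit 172) (nat_lit 204) (nat_lit 194)) (PT.lf (nat_lit 41724) (nat_lit 6) (nat_lit 549) (nat_lit 4) (nat_lit 173) (nat_lit 204) (nat_lit 193))))) (PT.nd (nat_lit 312) (PT.nd (nat_lit 156) (PT.nd (nat_lit 78) (PT.lf (nat_lit 42940) (nat_lit 6) (nat_lit 565) (nat_lit 4) (nat_lit 174) (nat_lit 204) (nat_lit 192)) (PT.lf (nat_lit 44080) (nat_lit 6) (nat_lit 580) (nat_lit 4) (nat_lit 175) (nat_lit 204) (nat_lit 191))) (PT.nd (nat_lit 78) (PT.lf (nat_lit 45144) (nat_lit 6) (nat_lit 594) (nat_lit 4) (nat_lit 176) (nat_lit 204) (nat_lit 190)) (PT.lf (nat_lit 45068) (nat_lit 6) (nat_lit 593) (nat_lit 4) (nat_lit 177) (nat_lit 204) (nat_lit 189)))) (PT.nd (nat_lit 156) (PT.nd (nat_lit 78) (PT.lf (nat_lit 44992) (nat_lit 6) (nat_lit 592) (nat_lit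 4) (nat_lit 178) (nat_lit 204) (nat_lit 188)) (PT.lf (nat_lit 44916) (nat_lit 6) (nat_lit 591) (nat_lit 4) (nat_lit 179) (nat_lit 204) (nat_lit 187))) (PT.nd (nat_lit 78) (PT.lf (nat_lit 44840) (nat_lit 6) (nat_lit 590) (nat_lit 4) (nat_lit 180) (nat_lit 204) (nat_lit 186)) (PT.lf (nat_lit 44764) (nat_lit 6) (nat_lit 589) (nat_lit 4) (nat_lit 181) (nat_lit 204) (nat_lit 185))))))) (PT.nd (nat_lit 1170) (PT.nd (nat_lit 546) (PT.nd (nat_lit 234) (PT.nd (nat_lit 78) (PT.lf (nat_lit 44688) (nat_lit 6) (nat_lit 588) (nat_lit 4) (nat_lit 182) (nat_lit 204) (nat_lit 184)) (PT.nd (nat_lit 78) (PT.lf (nat_lit 44612) (nat_lit 3) (nat_lit 587) (nat_lit 2) (nat_lit 183) (nat_lit 204) (nat_lit 183)) (PT.lf (nat_lit 44688) (nat_lit 6) (nat_lit 588) (nat_lit 2) (nat_lit 184) (nat_lit 204) (nat_lit 182)))) (PT.nd (nat_lit 156) (PT.nd (nat_lit 78) (PT.lf (nat_lit 44764) (nat_lit 6) (nat_lit 589) (nat_lit 2) (nat_lit 185) (nat_lit 204)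 (nat_lit 181)) (PT.lf (nat_lit 44840) (nat_lit 6) (nat_lit 590) (nat_lit 2) (nat_lit 186) (nat_lit 204) (nat_lit 180))) (PT.nd (nat_lit 78) (PT.lf (nat_lit 44916) (nat_lit 6) (nat_lit 591) (nat_lit 2) (nat_lit 187) (nat_lit 204) (nat_lit 179)) (PT.lf (nat_lit 44992) (nat_lit 6) (nat_lit 592) (nat_lit 2) (nat_lit 188) (nat_lit 204) (nat_lit 178))))) (PT.nd (nat_lit 312) (PT.nd (nat_lit 156) (PT.nd (nat_lit 78) (PT.lf (nat_lit 45068) (nat_lit 6) (nat_lit 593) (nat_lit 2) (nat_lit 189) (nat_lit 204) (nat_lit 177)) (PT.lf (nat_lit 45144) (nat_lit 6) (nat_lit 594) (nat_lit 2) (nat_lit 190) (nat_lit 204) (nat_lit 176))) (PT.nd (nat_lit 78) (PT.lf (nat_lit 44080) (nat_lit 6) (nat_lit 580) (nat_lit 2) (nat_lit 191) (nat_lit 204) (nat_lit 175)) (PT.lf (nat_lit 42940) (nat_lit 6) (nat_lit 565) (nat_lit 2) (nat_lit 192) (nat_lit 204) (nat_lit 174)))) (PT.nd (nat_lit 156) (PT.nd (nat_lit 78) (PT.lf (nat_lit 41724) (nat_lit 6) (nat_lit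 549) (nat_lit 2) (nat_lit 193) (nat_lit 204) (nat_lit 173)) (PT.lf (nat_lit 40432) (nat_lit 6) (nat_lit 532) (nat_lit 2) (nat_lit 194) (nat_lit 204) (nat_lit 172))) (PT.nd (nat_lit 78) (PT.lf (nat_lit 39064) (nat_lit 6) (nat_lit 514) (nat_lit 2) (nat_lit 195) (nat_lit 204) (nat_lit 171)) (PT.lf (nat_lit 37620) (nat_lit 6) (nat_lit 495) (nat_lit 2) (nat_lit 196) (nat_lit 204) (nat_lit 170)))))) (PT.nd (nat_lit 624) (PT.nd (nat_lit 312) (PT.nd (nat_lit 156) (PT.nd (nat_lit 78) (PT.lf (nat_lit 36100) (nat_lit 6) (nat_lit 475) (nat_lit 2) (nat_lit 197) (nat_lit 204) (nat_lit 169)) (PT.lf (nat_lit 34504) (nat_lit 6) (nat_lit 454) (nat_lit 2) (nat_lit 198) (nat_lit 204) (nat_lit 168))) (PT.nd (nat_lit 78) (PT.lf (nat_lit 32832) (nat_lit 6) (nat_lit 432) (nat_lit 2) (nat_lit 199) (nat_lit 204) (nat_lit 167)) (PT.lf (nat_lit 31084) (nat_lit 6) (nat_lit 409) (nat_lit 2) (nat_lit 200) (nat_lit 204) (nat_lit 166)))) (PT.nd (nat_lit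 156) (PT.nd (nat_lit 78) (PT.lf (nat_lit 29944) (nat_lit 6) (nat_lit 394) (nat_lit 2) (nat_lit 201) (nat_lit 204) (nat_lit 165)) (PT.lf (nat_lit 29032) (nat_lit 6) (nat_lit 382) (nat_lit 2) (nat_lit 202) (nat_lit 204) (nat_lit 164))) (PT.nd (nat_lit 78) (PT.lf (nat_lit 28196) (nat_lit 6) (nat_lit 371) (nat_lit 2) (nat_lit 203) (nat_lit 204) (nat_lit 163)) (PT.lf (nat_lit 27360) (nat_lit 3) (nat_lit 360) (nat_lit 0) (nat_lit 204) (nat_lit 204) (nat_lit 162))))) (PT.nd (nat_lit 312) (PT.nd (nat_lit 156) (PT.nd (nat_lit 78) (PT.lf (nat_lit 26448) (nat_lit 6) (nat_lit 348) (nat_lit 0) (nat_lit 205) (nat_lit 204) (nat_lit 161)) (PT.lf (nat_lit 25536) (nat_lit 6) (nat_lit 336) (nat_lit 0) (nat_lit 206) (nat_lit 204) (nat_lit 160))) (PT.nd (nat_lit 78) (PT.lf (nat_lit 24700) (nat_lit 6) (nat_lit 325) (nat_lit 0) (nat_lit 207) (nat_lit 204) (nat_lit 159)) (PT.lf (nat_lit 23864) (nat_lit 6) (nat_lit 314) (nat_lit 0) (nat_lit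 208) (nat_lit 204) (nat_lit 158)))) (PT.nd (nat_lit 156) (PT.nd (nat_lit 78) (PT.lf (nat_lit 23104) (nat_lit 6) (nat_lit 304) (nat_lit 0) (nat_lit 209) (nat_lit 204) (nat_lit 157)) (PT.lf (nat_lit 22268) (nat_lit 6) (nat_lit 293) (nat_lit 0) (nat_lit 210) (nat_lit 204) (nat_lit 156))) (PT.nd (nat_lit 78) (PT.lf (nat_lit 21508) (nat_lit 6) (nat_lit 283) (nat_lit 0) (nat_lit 211) (nat_lit 204) (nat_lit 155)) (PT.lf (nat_lit 20748) (nat_lit 6) (nat_lit 273) (nat_lit 0) (nat_lit 212) (nat_lit 204) (nat_lit 154))))))))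
noncomputable def pc40 : PT := (PT.nd (nat_lit 56082) (PT.nd (nat_lit 54912) (PT.nd (nat_lit 54288) (PT.nd (nat_lit 234) (PT.nd (nat_lit 78) (PT.lf (nat_lit 20064) (nat_lit 6) (nat_lit 264) (nat_lit 0) (nat_lit 213) (nat_lit 204) (nat_lit 153)) (PT.nd (nat_lit 78) (PT.lf (nat_lit 19304) (nat_lit 6) (nat_lit 254) (nat_lit 0) (nat_lit 214) (nat_lit 204) (nat_lit 152)) (PT.lf (nat_lit 18620) (nat_lit 6) (nat_lit 245) (nat_lit 0) (nat_lit 215) (nat_lit 204) (nat_lit 151)))) (PT.nd (nat_lit 156) (PT.nd (nat_lit 78) (PT.lf (nat_lit 17936) (nat_lit 6) (nat_lit 236) (nat_lit 0) (nat_lit 216) (nat_lit 204) (nat_lit 150)) (PT.lf (nat_lit 17328) (nat_lit 6) (nat_lit 228) (nat_lit 0) (nat_lit 217) (nat_lit 204) (nat_lit 149))) (PT.nd (nat_lit 53820) (PT.lf (nat_lit 16644) (nat_lit 6) (nat_lit 219) (nat_lit 0) (nat_lit 218) (nat_lit 204) (nat_lit 148)) (PT.lf (nat_lit 16112) (nat_lit 6) (nat_lit 212) (nat_lit 5) (nat_lit 147) (nat_lit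 205) (nat_lit 218))))) (PT.nd (nat_lit 312) (PT.nd (nat_lit 156) (PT.nd (nat_lit 78) (PT.lf (nat_lit 16720) (nat_lit 6) (nat_lit 220) (nat_lit 5) (nat_lit 148) (nat_lit 205) (nat_lit 217)) (PT.lf (nat_lit 17404) (nat_lit 6) (nat_lit 229) (nat_lit 5) (nat_lit 149) (nat_lit 205) (nat_lit 216))) (PT.nd (nat_lit 78) (PT.lf (nat_lit 18012) (nat_lit 6) (nat_lit 237) (nat_lit 5) (nat_lit 150) (nat_lit 205) (nat_lit 215)) (PT.lf (nat_lit 18696) (nat_lit 6) (nat_lit 246) (nat_lit 5) (nat_lit 151) (nat_lit 205) (nat_lit 214)))) (PT.nd (nat_lit 156) (PT.nd (nat_lit 78) (PT.lf (nat_lit 19380) (nat_lit 6) (nat_lit 255) (nat_lit 5) (nat_lit 152) (nat_lit 205) (nat_lit 213)) (PT.lf (nat_lit 20140) (nat_lit 6) (nat_lit 265) (nat_lit 5) (nat_lit 153) (nat_lit 205) (nat_lit 212))) (PT.nd (nat_lit 78) (PT.lf (nat_lit 20824) (nat_lit 6) (nat_lit 274) (nat_lit 5) (nat_lit 154) (nat_lit 205) (nat_lit 211)) (PT.lf (nat_lit 21584) (nat_lit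 6) (nat_lit 284) (nat_lit 5) (nat_lit 155) (nat_lit 205) (nat_lit 210)))))) (PT.nd (nat_lit 546) (PT.nd (nat_lit 234) (PT.nd (nat_lit 78) (PT.lf (nat_lit 22344) (nat_lit 6) (nat_lit 294) (nat_lit 5) (nat_lit 156) (nat_lit 205) (nat_lit 209)) (PT.nd (nat_lit 78) (PT.lf (nat_lit 23180) (nat_lit 6) (nat_lit 305) (nat_lit 5) (nat_lit 157) (nat_lit 205) (nat_lit 208)) (PT.lf (nat_lit 23940) (nat_lit 6) (nat_lit 315) (nat_lit 5) (nat_lit 158) (nat_lit 205) (nat_lit 207)))) (PT.nd (nat_lit 156) (PT.nd (nat_lit 78) (PT.lf (nat_lit 24776) (nat_lit 6) (nat_lit 326) (nat_lit 5) (nat_lit 159) (nat_lit 205) (nat_lit 206)) (PT.lf (nat_lit 25612) (nat_lit 3) (nat_lit 337) (nat_lit 4) (nat_lit 160) (nat_lit 205) (nat_lit 205))) (PT.nd (nat_lit 78) (PT.lf (nat_lit 26448) (nat_lit 6) (nat_lit 348) (nat_lit 4) (nat_lit 161) (nat_lit 205) (nat_lit 204)) (PT.lf (nat_lit 27284) (nat_lit 6) (nat_lit 359) (nat_lit 4) (nat_lit 162) (nat_lit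 205) (nat_lit 203))))) (PT.nd (nat_lit 312) (PT.nd (nat_lit 156) (PT.nd (nat_lit 78) (PT.lf (nat_lit 28120) (nat_lit 6) (nat_lit 370) (nat_lit 4) (nat_lit 163) (nat_lit 205) (nat_lit 202)) (PT.lf (nat_lit 28956) (nat_lit 6) (nat_lit 381) (nat_lit 4) (nat_lit 164) (nat_lit 205) (nat_lit 201))) (PT.nd (nat_lit 78) (PT.lf (nat_lit 29868) (nat_lit 6) (nat_lit 393) (nat_lit 4) (nat_lit 165) (nat_lit 205) (nat_lit 200)) (PT.lf (nat_lit 31008) (nat_lit 6) (nat_lit 408) (nat_lit 4) (nat_lit 166) (nat_lit 205) (nat_lit 199)))) (PT.nd (nat_lit 156) (PT.nd (nat_lit 78) (PT.lf (nat_lit 32756) (nat_lit 6) (nat_lit 431) (nat_lit 4) (nat_lit 167) (nat_lit 205) (nat_lit 198)) (PT.lf (nat_lit 34428) (nat_lit 6) (nat_lit 453) (nat_lit 4) (nat_lit 168) (nat_lit 205) (nat_lit 197))) (PT.nd (nat_lit 78) (PT.lf (nat_lit 36024) (nat_lit 6) (nat_lit 474) (nat_lit 4) (nat_lit 169) (nat_lit 205) (nat_lit 196)) (PT.lf (nat_lit 37544) (nat_lit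 6) (nat_lit 494) (nat_lit 4) (nat_lit 170) (nat_lit 205) (nat_lit 195))))))) (PT.nd (nat_lit 1170) (PT.nd (nat_lit 546) (PT.nd (nat_lit 234) (PT.nd (nat_lit 78) (PT.lf (nat_lit 38988) (nat_lit 6) (nat_lit 513) (nat_lit 4) (nat_lit 171) (nat_lit 205) (nat_lit 194)) (PT.nd (nat_lit 78) (PT.lf (nat_lit 40356) (nat_lit 6) (nat_lit 531) (nat_lit 4) (nat_lit 172) (nat_lit 205) (nat_lit 193)) (PT.lf (nat_lit 41648) (nat_lit 6) (nat_lit 548) (nat_lit 4) (nat_lit 173) (nat_lit 205) (nat_lit 192)))) (PT.nd (nat_lit 156) (PT.nd (nat_lit 78) (PT.lf (nat_lit 42864) (nat_lit 6) (nat_lit 564) (nat_lit 4) (nat_lit 174) (nat_lit 205) (nat_lit 191)) (PT.lf (nat_lit 44004) (nat_lit 6) (nat_lit 579) (nat_lit 4) (nat_lit 175) (nat_lit 205) (nat_lit 190))) (PT.nd (nat_lit 78) (PT.lf (nat_lit 43928) (nat_lit 6) (nat_lit 578) (nat_lit 4) (nat_lit 176) (nat_lit 205) (nat_lit 189)) (PT.lf (nat_lit 43852) (nat_lit 6) (nat_lit 577) (nat_lit 4)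 (nat_lit 177) (nat_lit 205) (nat_lit 188))))) (PT.nd (nat_lit 312) (PT.nd (nat_lit 156) (PT.nd (nat_lit 78) (PT.lf (nat_lit 43776) (nat_lit 6) (nat_lit 576) (nat_lit 4) (nat_lit 178) (nat_lit 205) (nat_lit 187)) (PT.lf (nat_lit 43700) (nat_lit 6) (nat_lit 575) (nat_lit 4) (nat_lit 179) (nat_lit 205) (nat_lit 186))) (PT.nd (nat_lit 78) (PT.lf (nat_lit 43624) (nat_lit 6) (nat_lit 574) (nat_lit 4) (nat_lit 180) (nat_lit 205) (nat_lit 185)) (PT.lf (nat_lit 43548) (nat_lit 6) (nat_lit 573) (nat_lit 4) (nat_lit 181) (nat_lit 205) (nat_lit 184)))) (PT.nd (nat_lit 156) (PT.nd (nat_lit 78) (PT.lf (nat_lit 43472) (nat_lit 6) (nat_lit 572) (nat_lit 4) (nat_lit 182) (nat_lit 205) (nat_lit 183)) (PT.lf (nat_lit 43472) (nat_lit 6) (nat_lit 572) (nat_lit 2) (nat_lit 183) (nat_lit 205) (nat_lit 182))) (PT.nd (nat_lit 78) (PT.lf (nat_lit 43548) (nat_lit 6) (nat_lit 573) (nat_lit 2) (nat_lit 184) (nat_lit 205) (nat_lit 181)) (PT.lf (nat_lit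 43624) (nat_lit 6) (nat_lit 574) (nat_lit 2) (nat_lit 185) (nat_lit 205) (nat_lit 180)))))) (PT.nd (nat_lit 624) (PT.nd (nat_lit 312) (PT.nd (nat_lit 156) (PT.nd (nat_lit 78) (PT.lf (nat_lit 43700) (nat_lit 6) (nat_lit 575) (nat_lit 2) (nat_lit 186) (nat_lit 205) (nat_lit 179)) (PT.lf (nat_lit 43776) (nat_lit 6) (nat_lit 576) (nat_lit 2) (nat_lit 187) (nat_lit 205) (nat_lit 178))) (PT.nd (nat_lit 78) (PT.lf (nat_lit 43852) (nat_lit 6) (nat_lit 577) (nat_lit 2) (nat_lit 188) (nat_lit 205) (nat_lit 177)) (PT.lf (nat_lit 43928) (nat_lit 6) (nat_lit 578) (nat_lit 2) (nat_lit 189) (nat_lit 205) (nat_lit 176)))) (PT.nd (nat_lit 156) (PT.nd (nat_lit 78) (PT.lf (nat_lit 44004) (nat_lit 6) (nat_lit 579) (nat_lit 2) (nat_lit 190) (nat_lit 205) (nat_lit 175)) (PT.lf (nat_lit 42864) (nat_lit 6) (nat_lit 564) (nat_lit 2) (nat_lit 191) (nat_lit 205) (nat_lit 174))) (PT.nd (nat_lit 78) (PT.lf (nat_lit 41648) (nat_lit 6) (nat_lit 548)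 (nat_lit 2) (nat_lit 192) (nat_lit 205) (nat_lit 173)) (PT.lf (nat_lit 40356) (nat_lit 6) (nat_lit 531) (nat_lit 2) (nat_lit 193) (nat_lit 205) (nat_lit 172))))) (PT.nd (nat_lit 312) (PT.nd (nat_lit 156) (PT.nd (nat_lit 78) (PT.lf (nat_lit 38988) (nat_lit 6) (nat_lit 513) (nat_lit 2) (nat_lit 194) (nat_lit 205) (nat_lit 171)) (PT.lf (nat_lit 37544) (nat_lit 6) (nat_lit 494) (nat_lit 2) (nat_lit 195) (nat_lit 205) (nat_lit 170))) (PT.nd (nat_lit 78) (PT.lf (nat_lit 36024) (nat_lit 6) (nat_lit 474) (nat_lit 2) (nat_lit 196) (nat_lit 205) (nat_lit 169)) (PT.lf (nat_lit 34428) (nat_lit 6) (nat_lit 453) (nat_lit 2) (nat_lit 197) (nat_lit 205) (nat_lit 168)))) (PT.nd (nat_lit 156) (PT.nd (nat_lit 78) (PT.lf (nat_lit 32756) (nat_lit 6) (nat_lit 431) (nat_lit 2) (nat_lit 198) (nat_lit 205) (nat_lit 167)) (PT.lf (nat_lit 31008) (nat_lit 6) (nat_lit 408) (nat_lit 2) (nat_lit 199) (nat_lit 205) (nat_lit 166))) (PT.nd (nat_lit 78)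 (PT.lf (nat_lit 29868) (nat_lit 6) (nat_lit 393) (nat_lit 2) (nat_lit 200) (nat_lit 205) (nat_lit 165)) (PT.lf (nat_lit 28956) (nat_lit 6) (nat_lit 381) (nat_lit 2) (nat_lit 201) (nat_lit 205) (nat_lit 164))))))))
noncomputable def pc41 : PT := (PT.nd (nat_lit 56004) (PT.nd (nat_lit 1170) (PT.nd (nat_lit 546) (PT.nd (nat_lit 234) (PT.nd (nat_lit 78) (PT.lf (nat_lit 28120) (nat_lit 6) (nat_lit 370) (nat_lit 2) (nat_lit 202) (nat_lit 205) (nat_lit 163)) (PT.nd (nat_lit 78) (PT.lf (nat_lit 27284) (nat_lit 6) (nat_lit 359) (nat_lit 2) (nat_lit 203) (nat_lit 205) (nat_lit 162)) (PT.lf (nat_lit 26448) (nat_lit 6) (nat_lit 348) (nat_lit 2) (nat_lit 204) (nat_lit 205) (nat_lit 161)))) (PT.nd (nat_lit 156) (PT.nd (nat_lit 78) (PT.lf (nat_lit 25612) (nat_lit 3) (nat_lit 337) (nat_lit 0) (nat_lit 205) (nat_lit 205) (nat_lit 160)) (PT.lf (nat_lit 24776) (nat_lit 6) (nat_lit 326) (nat_lit 0) (nat_lit 206) (nat_lit 205) (nat_lit 159)))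 (PT.nd (nat_lit 78) (PT.lf (nat_lit 23940) (nat_lit 6) (nat_lit 315) (nat_lit 0) (nat_lit 207) (nat_lit 205) (nat_lit 158)) (PT.lf (nat_lit 23180) (nat_lit 6) (nat_lit 305) (nat_lit 0) (nat_lit 208) (nat_lit 205) (nat_lit 157))))) (PT.nd (nat_lit 312) (PT.nd (nat_lit 156) (PT.nd (nat_lit 78) (PT.lf (nat_lit 22344) (nat_lit 6) (nat_lit 294) (nat_lit 0) (nat_lit 209) (nat_lit 205) (nat_lit 156)) (PT.lf (nat_lit 21584) (nat_lit 6) (nat_lit 284) (nat_lit 0) (nat_lit 210) (nat_lit 205) (nat_lit 155))) (PT.nd (nat_lit 78) (PT.lf (nat_lit 20824) (nat_lit 6) (nat_lit 274) (nat_lit 0) (nat_lit 211) (nat_lit 205) (nat_lit 154)) (PT.lf (nat_lit 20140) (nat_lit 6) (nat_lit 265) (nat_lit 0) (nat_lit 212) (nat_lit 205) (nat_lit 153)))) (PT.nd (nat_lit 156) (PT.nd (nat_lit 78) (PT.lf (nat_lit 19380) (nat_lit 6) (nat_lit 255) (nat_lit 0) (nat_lit 213) (nat_lit 205) (nat_lit 152)) (PT.lf (nat_lit 18696) (nat_lit 6) (nat_lit 246) (nat_lit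 0) (nat_lit 214) (nat_lit 205) (nat_lit 151))) (PT.nd (nat_lit 78) (PT.lf (nat_lit 18012) (nat_lit 6) (nat_lit 237) (nat_lit 0) (nat_lit 215) (nat_lit 205) (nat_lit 150)) (PT.lf (nat_lit 17404) (nat_lit 6) (nat_lit 229) (nat_lit 0) (nat_lit 216) (nat_lit 205) (nat_lit 149)))))) (PT.nd (nat_lit 54210) (PT.nd (nat_lit 53898) (PT.nd (nat_lit 53742) (PT.nd (nat_lit 78) (PT.lf (nat_lit 16720) (nat_lit 6) (nat_lit 220) (nat_lit 0) (nat_lit 217) (nat_lit 205) (nat_lit 148)) (PT.lf (nat_lit 16112) (nat_lit 6) (nat_lit 212) (nat_lit 0) (nat_lit 218) (nat_lit 205) (nat_lit 147))) (PT.nd (nat_lit 78) (PT.lf (nat_lit 14972) (nat_lit 6) (nat_lit 197) (nat_lit 5) (nat_lit 145) (nat_lit 206) (nat_lit 219)) (PT.lf (nat_lit 15580) (nat_lit 6) (nat_lit 205) (nat_lit 5) (nat_lit 146) (nat_lit 206) (nat_lit 218)))) (PT.nd (nat_lit 156) (PT.nd (nat_lit 78) (PT.lf (nat_lit 16188) (nat_lit 6) (nat_lit 213) (nat_lit 5) (nat_lit 147) (nat_lit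 206) (nat_lit 217)) (PT.lf (nat_lit 16796) (nat_lit 6) (nat_lit 221) (nat_lit 5) (nat_lit 148) (nat_lit 206) (nat_lit 216))) (PT.nd (nat_lit 78) (PT.lf (nat_lit 17480) (nat_lit 6) (nat_lit 230) (nat_lit 5) (nat_lit 149) (nat_lit 206) (nat_lit 215)) (PT.lf (nat_lit 18088) (nat_lit 6) (nat_lit 238) (nat_lit 5) (nat_lit 150) (nat_lit 206) (nat_lit 214))))) (PT.nd (nat_lit 312) (PT.nd (nat_lit 156) (PT.nd (nat_lit 78) (PT.lf (nat_lit 18772) (nat_lit 6) (nat_lit 247) (nat_lit 5) (nat_lit 151) (nat_lit 206) (nat_lit 213)) (PT.lf (nat_lit 19456) (nat_lit 6) (nat_lit 256) (nat_lit 5) (nat_lit 152) (nat_lit 206) (nat_lit 212))) (PT.nd (nat_lit 78) (PT.lf (nat_lit 20216) (nat_lit 6) (nat_lit 266) (nat_lit 5) (nat_lit 153) (nat_lit 206) (nat_lit 211)) (PT.lf (nat_lit 20900) (nat_lit 6) (nat_lit 275) (nat_lit 5) (nat_lit 154) (nat_lit 206) (nat_lit 210)))) (PT.nd (nat_lit 156) (PT.nd (nat_lit 78) (PT.lf (nat_lit 21660) (nat_lit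 6) (nat_lit 285) (nat_lit 5) (nat_lit 155) (nat_lit 206) (nat_lit 209)) (PT.lf (nat_lit 22420) (nat_lit 6) (nat_lit 295) (nat_lit 5) (nat_lit 156) (nat_lit 206) (nat_lit 208))) (PT.nd (nat_lit 78) (PT.lf (nat_lit 23256) (nat_lit 6) (nat_lit 306) (nat_lit 5) (nat_lit 157) (nat_lit 206) (nat_lit 207)) (PT.lf (nat_lit 24016) (nat_lit 3) (nat_lit 316) (nat_lit 4) (nat_lit 158) (nat_lit 206) (nat_lit 206))))))) (PT.nd (nat_lit 1170) (PT.nd (nat_lit 546) (PT.nd (nat_lit 234) (PT.nd (nat_lit 78) (PT.lf (nat_lit 24776) (nat_lit 6) (nat_lit 326) (nat_lit 4) (nat_lit 159) (nat_lit 206) (nat_lit 205)) (PT.nd (nat_lit 78) (PT.lf (nat_lit 25536) (nat_lit 6) (nat_lit 336) (nat_lit 4) (nat_lit 160) (nat_lit 206) (nat_lit 204)) (PT.lf (nat_lit 26372) (nat_lit 6) (nat_lit 347) (nat_lit 4) (nat_lit 161) (nat_lit 206) (nat_lit 203)))) (PT.nd (nat_lit 156) (PT.nd (nat_lit 78) (PT.lf (nat_lit 27208) (nat_lit 6) (nat_lit 358) (nat_lit 4)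 (nat_lit 162) (nat_lit 206) (nat_lit 202)) (PT.lf (nat_lit 28044) (nat_lit 6) (nat_lit 369) (nat_lit 4) (nat_lit 163) (nat_lit 206) (nat_lit 201))) (PT.nd (nat_lit 78) (PT.lf (nat_lit 28880) (nat_lit 6) (nat_lit 380) (nat_lit 4) (nat_lit 164) (nat_lit 206) (nat_lit 200)) (PT.lf (nat_lit 29792) (nat_lit 6) (nat_lit 392) (nat_lit 4) (nat_lit 165) (nat_lit 206) (nat_lit 199))))) (PT.nd (nat_lit 312) (PT.nd (nat_lit 156) (PT.nd (nat_lit 78) (PT.lf (nat_lit 30932) (nat_lit 6) (nat_lit 407) (nat_lit 4) (nat_lit 166) (nat_lit 206) (nat_lit 198)) (PT.lf (nat_lit 32680) (nat_lit 6) (nat_lit 430) (nat_lit 4) (nat_lit 167) (nat_lit 206) (nat_lit 197))) (PT.nd (nat_lit 78) (PT.lf (nat_lit 34352) (nat_lit 6) (nat_lit 452) (nat_lit 4) (nat_lit 168) (nat_lit 206) (nat_lit 196)) (PT.lf (nat_lit 35948) (nat_lit 6) (nat_lit 473) (nat_lit 4) (nat_lit 169) (nat_lit 206) (nat_lit 195)))) (PT.nd (nat_lit 156) (PT.nd (nat_lit 78) (PT.lf (nat_lit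 37468) (nat_lit 6) (nat_lit 493) (nat_lit 4) (nat_lit 170) (nat_lit 206) (nat_lit 194)) (PT.lf (nat_lit 38912) (nat_lit 6) (nat_lit 512) (nat_lit 4) (nat_lit 171) (nat_lit 206) (nat_lit 193))) (PT.nd (nat_lit 78) (PT.lf (nat_lit 40280) (nat_lit 6) (nat_lit 530) (nat_lit 4) (nat_lit 172) (nat_lit 206) (nat_lit 192)) (PT.lf (nat_lit 41572) (nat_lit 6) (nat_lit 547) (nat_lit 4) (nat_lit 173) (nat_lit 206) (nat_lit 191)))))) (PT.nd (nat_lit 624) (PT.nd (nat_lit 312) (PT.nd (nat_lit 156) (PT.nd (nat_lit 78) (PT.lf (nat_lit 42788) (nat_lit 6) (nat_lit 563) (nat_lit 4) (nat_lit 174) (nat_lit 206) (nat_lit 190)) (PT.lf (nat_lit 42712) (nat_lit 6) (nat_lit 562) (nat_lit 4) (nat_lit 175) (nat_lit 206) (nat_lit 189))) (PT.nd (nat_lit 78) (PT.lf (nat_lit 42636) (nat_lit 6) (nat_lit 561) (nat_lit 4) (nat_lit 176) (nat_lit 206) (nat_lit 188)) (PT.lf (nat_lit 42560) (nat_lit 6) (nat_lit 560) (nat_lit 4) (nat_lit 177) (nat_lit 206)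 (nat_lit 187)))) (PT.nd (nat_lit 156) (PT.nd (nat_lit 78) (PT.lf (nat_lit 42484) (nat_lit 6) (nat_lit 559) (nat_lit 4) (nat_lit 178) (nat_lit 206) (nat_lit 186)) (PT.lf (nat_lit 42408) (nat_lit 6) (nat_lit 558) (nat_lit 4) (nat_lit 179) (nat_lit 206) (nat_lit 185))) (PT.nd (nat_lit 78) (PT.lf (nat_lit 42332) (nat_lit 6) (nat_lit 557) (nat_lit 4) (nat_lit 180) (nat_lit 206) (nat_lit 184)) (PT.lf (nat_lit 42256) (nat_lit 6) (nat_lit 556) (nat_lit 4) (nat_lit 181) (nat_lit 206) (nat_lit 183))))) (PT.nd (nat_lit 312) (PT.nd (nat_lit 156) (PT.nd (nat_lit 78) (PT.lf (nat_lit 42180) (nat_lit 3) (nat_lit 555) (nat_lit 2) (nat_lit 182) (nat_lit 206) (nat_lit 182)) (PT.lf (nat_lit 42256) (nat_lit 6) (nat_lit 556) (nat_lit 2) (nat_lit 183) (nat_lit 206) (nat_lit 181))) (PT.nd (nat_lit 78) (PT.lf (nat_lit 42332) (nat_lit 6) (nat_lit 557) (nat_lit 2) (nat_lit 184) (nat_lit 206) (nat_lit 180)) (PT.lf (nat_lit 42408) (nat_lit 6) (nat_lit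 558) (nat_lit 2) (nat_lit 185) (nat_lit 206) (nat_lit 179)))) (PT.nd (nat_lit 156) (PT.nd (nat_lit 78) (PT.lf (nat_lit 42484) (nat_lit 6) (nat_lit 559) (nat_lit 2) (nat_lit 186) (nat_lit 206) (nat_lit 178)) (PT.lf (nat_lit 42560) (nat_lit 6) (nat_lit 560) (nat_lit 2) (nat_lit 187) (nat_lit 206) (nat_lit 177))) (PT.nd (nat_lit 78) (PT.lf (nat_lit 42636) (nat_lit 6) (nat_lit 561) (nat_lit 2) (nat_lit 188) (nat_lit 206) (nat_lit 176)) (PT.lf (nat_lit 42712) (nat_lit 6) (nat_lit 562) (nat_lit 2) (nat_lit 189) (nat_lit 206) (nat_lit 175))))))))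
noncomputable def pc42 : PT := (PT.nd (nat_lit 55770) (PT.nd (nat_lit 1170) (PT.nd (nat_lit 546) (PT.nd (nat_lit 234) (PT.nd (nat_lit 78) (PT.lf (nat_lit 42788) (nat_lit 6) (nat_lit 563) (nat_lit 2) (nat_lit 190) (nat_lit 206) (nat_lit 174)) (PT.nd (nat_lit 78) (PT.lf (nat_lit 41572) (nat_lit 6) (nat_lit 547) (nat_lit 2) (nat_lit 191) (nat_lit 206) (nat_lit 173)) (PT.lf (nat_lit 40280) (nat_lit 6) (nat_lit 530) (nat_lit 2) (nat_lit 192) (nat_lit 206) (nat_lit 172)))) (PT.nd (nat_lit 156) (PT.nd (nat_lit 78) (PT.lf (nat_lit 38912) (nat_lit 6) (nat_lit 512) (nat_lit 2) (nat_lit 193) (nat_lit 206) (nat_lit 171)) (PT.lf (nat_lit 37468) (nat_lit 6) (nat_lit 493) (nat_lit 2) (nat_lit 194) (nat_lit 206) (nat_lit 170))) (PT.nd (nat_lit 78) (PT.lf (nat_lit 35948) (nat_lit 6) (nat_lit 473) (nat_lit 2) (nat_lit 195) (nat_lit 206) (nat_lit 169)) (PT.lf (nat_lit 34352) (nat_lit 6) (nat_lit 452) (nat_lit 2) (nat_lit 196) (nat_lit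 206) (nat_lit 168))))) (PT.nd (nat_lit 312) (PT.nd (nat_lit 156) (PT.nd (nat_lit 78) (PT.lf (nat_lit 32680) (nat_lit 6) (nat_lit 430) (nat_lit 2) (nat_lit 197) (nat_lit 206) (nat_lit 167)) (PT.lf (nat_lit 30932) (nat_lit 6) (nat_lit 407) (nat_lit 2) (nat_lit 198) (nat_lit 206) (nat_lit 166))) (PT.nd (nat_lit 78) (PT.lf (nat_lit 29792) (nat_lit 6) (nat_lit 392) (nat_lit 2) (nat_lit 199) (nat_lit 206) (nat_lit 165)) (PT.lf (nat_lit 28880) (nat_lit 6) (nat_lit 380) (nat_lit 2) (nat_lit 200) (nat_lit 206) (nat_lit 164)))) (PT.nd (nat_lit 156) (PT.nd (nat_lit 78) (PT.lf (nat_lit 28044) (nat_lit 6) (nat_lit 369) (nat_lit 2) (nat_lit 201) (nat_lit 206) (nat_lit 163)) (PT.lf (nat_lit 27208) (nat_lit 6) (nat_lit 358) (nat_lit 2) (nat_lit 202) (nat_lit 206) (nat_lit 162))) (PT.nd (nat_lit 78) (PT.lf (nat_lit 26372) (nat_lit 6) (nat_lit 347) (nat_lit 2) (nat_lit 203) (nat_lit 206) (nat_lit 161)) (PT.lf (nat_lit 25536) (nat_lit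 6) (nat_lit 336) (nat_lit 2) (nat_lit 204) (nat_lit 206) (nat_lit 160)))))) (PT.nd (nat_lit 546) (PT.nd (nat_lit 234) (PT.nd (nat_lit 78) (PT.lf (nat_lit 24776) (nat_lit 6) (nat_lit 326) (nat_lit 2) (nat_lit 205) (nat_lit 206) (nat_lit 159)) (PT.nd (nat_lit 78) (PT.lf (nat_lit 24016) (nat_lit 3) (nat_lit 316) (nat_lit 0) (nat_lit 206) (nat_lit 206) (nat_lit 158)) (PT.lf (nat_lit 23256) (nat_lit 6) (nat_lit 306) (nat_lit 0) (nat_lit 207) (nat_lit 206) (nat_lit 157)))) (PT.nd (nat_lit 156) (PT.nd (nat_lit 78) (PT.lf (nat_lit 22420) (nat_lit 6) (nat_lit 295) (nat_lit 0) (nat_lit 208) (nat_lit 206) (nat_lit 156)) (PT.lf (nat_lit 21660) (nat_lit 6) (nat_lit 285) (nat_lit 0) (nat_lit 209) (nat_lit 206) (nat_lit 155))) (PT.nd (nat_lit 78) (PT.lf (nat_lit 20900) (nat_lit 6) (nat_lit 275) (nat_lit 0) (nat_lit 210) (nat_lit 206) (nat_lit 154)) (PT.lf (nat_lit 20216) (nat_lit 6) (nat_lit 266) (nat_lit 0) (nat_lit 211) (nat_lit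 206) (nat_lit 153))))) (PT.nd (nat_lit 312) (PT.nd (nat_lit 156) (PT.nd (nat_lit 78) (PT.lf (nat_lit 19456) (nat_lit 6) (nat_lit 256) (nat_lit 0) (nat_lit 212) (nat_lit 206) (nat_lit 152)) (PT.lf (nat_lit 18772) (nat_lit 6) (nat_lit 247) (nat_lit 0) (nat_lit 213) (nat_lit 206) (nat_lit 151))) (PT.nd (nat_lit 78) (PT.lf (nat_lit 18088) (nat_lit 6) (nat_lit 238) (nat_lit 0) (nat_lit 214) (nat_lit 206) (nat_lit 150)) (PT.lf (nat_lit 17480) (nat_lit 6) (nat_lit 230) (nat_lit 0) (nat_lit 215) (nat_lit 206) (nat_lit 149)))) (PT.nd (nat_lit 156) (PT.nd (nat_lit 78) (PT.lf (nat_lit 16796) (nat_lit 6) (nat_lit 221) (nat_lit 0) (nat_lit 216) (nat_lit 206) (nat_lit 148)) (PT.lf (nat_lit 16188) (nat_lit 6) (nat_lit 213) (nat_lit 0) (nat_lit 217) (nat_lit 206) (nat_lit 147))) (PT.nd (nat_lit 78) (PT.lf (nat_lit 15580) (nat_lit 6) (nat_lit 205) (nat_lit 0) (nat_lit 218) (nat_lit 206) (nat_lit 146)) (PT.lf (nat_lit 14972) (nat_lit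 6) (nat_lit 197) (nat_lit 0) (nat_lit 219) (nat_lit 206) (nat_lit 145))))))) (PT.nd (nat_lit 1170) (PT.nd (nat_lit 546) (PT.nd (nat_lit 234) (PT.nd (nat_lit 78) (PT.lf (nat_lit 14440) (nat_lit 6) (nat_lit 190) (nat_lit 5) (nat_lit 144) (nat_lit 207) (nat_lit 219)) (PT.nd (nat_lit 78) (PT.lf (nat_lit 15048) (nat_lit 6) (nat_lit 198) (nat_lit 5) (nat_lit 145) (nat_lit 207) (nat_lit 218)) (PT.lf (nat_lit 15656) (nat_lit 6) (nat_lit 206) (nat_lit 5) (nat_lit 146) (nat_lit 207) (nat_lit 217)))) (PT.nd (nat_lit 156) (PT.nd (nat_lit 78) (PT.lf (nat_lit 16264) (nat_lit 6) (nat_lit 214) (nat_lit 5) (nat_lit 147) (nat_lit 207) (nat_lit 216)) (PT.lf (nat_lit 16872) (nat_lit 6) (nat_lit 222) (nat_lit 5) (nat_lit 148) (nat_lit 207) (nat_lit 215))) (PT.nd (nat_lit 78) (PT.lf (nat_lit 17556) (nat_lit 6) (nat_lit 231) (nat_lit 5) (nat_lit 149) (nat_lit 207) (nat_lit 214)) (PT.lf (nat_lit 18164) (nat_lit 6) (nat_lit 239) (nat_lit 5)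 (nat_lit 150) (nat_lit 207) (nat_lit 213))))) (PT.nd (nat_lit 312) (PT.nd (nat_lit 156) (PT.nd (nat_lit 78) (PT.lf (nat_lit 18848) (nat_lit 6) (nat_lit 248) (nat_lit 5) (nat_lit 151) (nat_lit 207) (nat_lit 212)) (PT.lf (nat_lit 19532) (nat_lit 6) (nat_lit 257) (nat_lit 5) (nat_lit 152) (nat_lit 207) (nat_lit 211))) (PT.nd (nat_lit 78) (PT.lf (nat_lit 20292) (nat_lit 6) (nat_lit 267) (nat_lit 5) (nat_lit 153) (nat_lit 207) (nat_lit 210)) (PT.lf (nat_lit 20976) (nat_lit 6) (nat_lit 276) (nat_lit 5) (nat_lit 154) (nat_lit 207) (nat_lit 209)))) (PT.nd (nat_lit 156) (PT.nd (nat_lit 78) (PT.lf (nat_lit 21736) (nat_lit 6) (nat_lit 286) (nat_lit 5) (nat_lit 155) (nat_lit 207) (nat_lit 208)) (PT.lf (nat_lit 22496) (nat_lit 3) (nat_lit 296) (nat_lit 4) (nat_lit 156) (nat_lit 207) (nat_lit 207))) (PT.nd (nat_lit 78) (PT.lf (nat_lit 23256) (nat_lit 6) (nat_lit 306) (nat_lit 4) (nat_lit 157) (nat_lit 207) (nat_lit 206)) (PT.lf (nat_lit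 23940) (nat_lit 6) (nat_lit 315) (nat_lit 4) (nat_lit 158) (nat_lit 207) (nat_lit 205)))))) (PT.nd (nat_lit 624) (PT.nd (nat_lit 312) (PT.nd (nat_lit 156) (PT.nd (nat_lit 78) (PT.lf (nat_lit 24700) (nat_lit 6) (nat_lit 325) (nat_lit 4) (nat_lit 159) (nat_lit 207) (nat_lit 204)) (PT.lf (nat_lit 25460) (nat_lit 6) (nat_lit 335) (nat_lit 4) (nat_lit 160) (nat_lit 207) (nat_lit 203))) (PT.nd (nat_lit 78) (PT.lf (nat_lit 26296) (nat_lit 6) (nat_lit 346) (nat_lit 4) (nat_lit 161) (nat_lit 207) (nat_lit 202)) (PT.lf (nat_lit 27132) (nat_lit 6) (nat_lit 357) (nat_lit 4) (nat_lit 162) (nat_lit 207) (nat_lit 201)))) (PT.nd (nat_lit 156) (PT.nd (nat_lit 78) (PT.lf (nat_lit 27968) (nat_lit 6) (nat_lit 368) (nat_lit 4) (nat_lit 163) (nat_lit 207) (nat_lit 200)) (PT.lf (nat_lit 28804) (nat_lit 6) (nat_lit 379) (nat_lit 4) (nat_lit 164) (nat_lit 207) (nat_lit 199))) (PT.nd (nat_lit 78) (PT.lf (nat_lit 29716) (nat_lit 6) (nat_lit 391)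 (nat_lit 4) (nat_lit 165) (nat_lit 207) (nat_lit 198)) (PT.lf (nat_lit 30856) (nat_lit 6) (nat_lit 406) (nat_lit 4) (nat_lit 166) (nat_lit 207) (nat_lit 197))))) (PT.nd (nat_lit 312) (PT.nd (nat_lit 156) (PT.nd (nat_lit 78) (PT.lf (nat_lit 32604) (nat_lit 6) (nat_lit 429) (nat_lit 4) (nat_lit 167) (nat_lit 207) (nat_lit 196)) (PT.lf (nat_lit 34276) (nat_lit 6) (nat_lit 451) (nat_lit 4) (nat_lit 168) (nat_lit 207) (nat_lit 195))) (PT.nd (nat_lit 78) (PT.lf (nat_lit 35872) (nat_lit 6) (nat_lit 472) (nat_lit 4) (nat_lit 169) (nat_lit 207) (nat_lit 194)) (PT.lf (nat_lit 37392) (nat_lit 6) (nat_lit 492) (nat_lit 4) (nat_lit 170) (nat_lit 207) (nat_lit 193)))) (PT.nd (nat_lit 156) (PT.nd (nat_lit 78) (PT.lf (nat_lit 38836) (nat_lit 6) (nat_lit 511) (nat_lit 4) (nat_lit 171) (nat_lit 207) (nat_lit 192)) (PT.lf (nat_lit 40204) (nat_lit 6) (nat_lit 529) (nat_lit 4) (nat_lit 172) (nat_lit 207) (nat_lit 191))) (PT.nd (nat_lit 78)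 (PT.lf (nat_lit 41496) (nat_lit 6) (nat_lit 546) (nat_lit 4) (nat_lit 173) (nat_lit 207) (nat_lit 190)) (PT.lf (nat_lit 41420) (nat_lit 6) (nat_lit 545) (nat_lit 4) (nat_lit 174) (nat_lit 207) (nat_lit 189))))))))
noncomputable def pc43 : PT := (PT.nd (nat_lit 2418) (PT.nd (nat_lit 1170) (PT.nd (nat_lit 546) (PT.nd (nat_lit 234) (PT.nd (nat_lit 78) (PT.lf (nat_lit 41344) (nat_lit 6) (nat_lit 544) (nat_lit 4) (nat_lit 175) (nat_lit 207) (nat_lit 188)) (PT.nd (nat_lit 78) (PT.lf (nat_lit 41268) (nat_lit 6) (nat_lit 543) (nat_lit 4) (nat_lit 176) (nat_lit 207) (nat_lit 187)) (PT.lf (nat_lit 41192) (nat_lit 6) (nat_lit 542) (nat_lit 4) (nat_lit 177) (nat_lit 207) (nat_lit 186)))) (PT.nd (nat_lit 156) (PT.nd (nat_lit 78) (PT.lf (nat_lit 41116) (nat_lit 6) (nat_lit 541) (nat_lit 4) (nat_lit 178) (nat_lit 207) (nat_lit 185)) (PT.lf (nat_lit 41040) (nat_lit 6) (nat_lit 540) (nat_lit 4) (nat_lit 179) (nat_lit 207) (nat_lit 184)))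 (PT.nd (nat_lit 78) (PT.lf (nat_lit 40964) (nat_lit 6) (nat_lit 539) (nat_lit 4) (nat_lit 180) (nat_lit 207) (nat_lit 183)) (PT.lf (nat_lit 40888) (nat_lit 6) (nat_lit 538) (nat_lit 4) (nat_lit 181) (nat_lit 207) (nat_lit 182))))) (PT.nd (nat_lit 312) (PT.nd (nat_lit 156) (PT.nd (nat_lit 78) (PT.lf (nat_lit 40888) (nat_lit 6) (nat_lit 538) (nat_lit 2) (nat_lit 182) (nat_lit 207) (nat_lit 181)) (PT.lf (nat_lit 40964) (nat_lit 6) (nat_lit 539) (nat_lit 2) (nat_lit 183) (nat_lit 207) (nat_lit 180))) (PT.nd (nat_lit 78) (PT.lf (nat_lit 41040) (nat_lit 6) (nat_lit 540) (nat_lit 2) (nat_lit 184) (nat_lit 207) (nat_lit 179)) (PT.lf (nat_lit 41116) (nat_lit 6) (nat_lit 541) (nat_lit 2) (nat_lit 185) (nat_lit 207) (nat_lit 178)))) (PT.nd (nat_lit 156) (PT.nd (nat_lit 78) (PT.lf (nat_lit 41192) (nat_lit 6) (nat_lit 542) (nat_lit 2) (nat_lit 186) (nat_lit 207) (nat_lit 177)) (PT.lf (nat_lit 41268) (nat_lit 6) (nat_lit 543) (nat_lit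 2) (nat_lit 187) (nat_lit 207) (nat_lit 176))) (PT.nd (nat_lit 78) (PT.lf (nat_lit 41344) (nat_lit 6) (nat_lit 544) (nat_lit 2) (nat_lit 188) (nat_lit 207) (nat_lit 175)) (PT.lf (nat_lit 41420) (nat_lit 6) (nat_lit 545) (nat_lit 2) (nat_lit 189) (nat_lit 207) (nat_lit 174)))))) (PT.nd (nat_lit 624) (PT.nd (nat_lit 312) (PT.nd (nat_lit 156) (PT.nd (nat_lit 78) (PT.lf (nat_lit 41496) (nat_lit 6) (nat_lit 546) (nat_lit 2) (nat_lit 190) (nat_lit 207) (nat_lit 173)) (PT.lf (nat_lit 40204) (nat_lit 6) (nat_lit 529) (nat_lit 2) (nat_lit 191) (nat_lit 207) (nat_lit 172))) (PT.nd (nat_lit 78) (PT.lf (nat_lit 38836) (nat_lit 6) (nat_lit 511) (nat_lit 2) (nat_lit 192) (nat_lit 207) (nat_lit 171)) (PT.lf (nat_lit 37392) (nat_lit 6) (nat_lit 492) (nat_lit 2) (nat_lit 193) (nat_lit 207) (nat_lit 170)))) (PT.nd (nat_lit 156) (PT.nd (nat_lit 78) (PT.lf (nat_lit 35872) (nat_lit 6) (nat_lit 472) (nat_lit 2) (nat_lit 194) (nat_lit 207)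 (nat_lit 169)) (PT.lf (nat_lit 34276) (nat_lit 6) (nat_lit 451) (nat_lit 2) (nat_lit 195) (nat_lit 207) (nat_lit 168))) (PT.nd (nat_lit 78) (PT.lf (nat_lit 32604) (nat_lit 6) (nat_lit 429) (nat_lit 2) (nat_lit 196) (nat_lit 207) (nat_lit 167)) (PT.lf (nat_lit 30856) (nat_lit 6) (nat_lit 406) (nat_lit 2) (nat_lit 197) (nat_lit 207) (nat_lit 166))))) (PT.nd (nat_lit 312) (PT.nd (nat_lit 156) (PT.nd (nat_lit 78) (PT.lf (nat_lit 29716) (nat_lit 6) (nat_lit 391) (nat_lit 2) (nat_lit 198) (nat_lit 207) (nat_lit 165)) (PT.lf (nat_lit 28804) (nat_lit 6) (nat_lit 379) (nat_lit 2) (nat_lit 199) (nat_lit 207) (nat_lit 164))) (PT.nd (nat_lit 78) (PT.lf (nat_lit 27968) (nat_lit 6) (nat_lit 368) (nat_lit 2) (nat_lit 200) (nat_lit 207) (nat_lit 163)) (PT.lf (nat_lit 27132) (nat_lit 6) (nat_lit 357) (nat_lit 2) (nat_lit 201) (nat_lit 207) (nat_lit 162)))) (PT.nd (nat_lit 156) (PT.nd (nat_lit 78) (PT.lf (nat_lit 26296) (nat_lit 6) (nat_lit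 346) (nat_lit 2) (nat_lit 202) (nat_lit 207) (nat_lit 161)) (PT.lf (nat_lit 25460) (nat_lit 6) (nat_lit 335) (nat_lit 2) (nat_lit 203) (nat_lit 207) (nat_lit 160))) (PT.nd (nat_lit 78) (PT.lf (nat_lit 24700) (nat_lit 6) (nat_lit 325) (nat_lit 2) (nat_lit 204) (nat_lit 207) (nat_lit 159)) (PT.lf (nat_lit 23940) (nat_lit 6) (nat_lit 315) (nat_lit 2) (nat_lit 205) (nat_lit 207) (nat_lit 158))))))) (PT.nd (nat_lit 54444) (PT.nd (nat_lit 546) (PT.nd (nat_lit 234) (PT.nd (nat_lit 78) (PT.lf (nat_lit 23256) (nat_lit 6) (nat_lit 306) (nat_lit 2) (nat_lit 206) (nat_lit 207) (nat_lit 157)) (PT.nd (nat_lit 78) (PT.lf (nat_lit 22496) (nat_lit 3) (nat_lit 296) (nat_lit 0) (nat_lit 207) (nat_lit 207) (nat_lit 156)) (PT.lf (nat_lit 21736) (nat_lit 6) (nat_lit 286) (nat_lit 0) (nat_lit 208) (nat_lit 207) (nat_lit 155)))) (PT.nd (nat_lit 156) (PT.nd (nat_lit 78) (PT.lf (nat_lit 20976) (nat_lit 6) (nat_lit 276) (nat_lit 0) (nat_lit 209)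 (nat_lit 207) (nat_lit 154)) (PT.lf (nat_lit 20292) (nat_lit 6) (nat_lit 267) (nat_lit 0) (nat_lit 210) (nat_lit 207) (nat_lit 153))) (PT.nd (nat_lit 78) (PT.lf (nat_lit 19532) (nat_lit 6) (nat_lit 257) (nat_lit 0) (nat_lit 211) (nat_lit 207) (nat_lit 152)) (PT.lf (nat_lit 18848) (nat_lit 6) (nat_lit 248) (nat_lit 0) (nat_lit 212) (nat_lit 207) (nat_lit 151))))) (PT.nd (nat_lit 312) (PT.nd (nat_lit 156) (PT.nd (nat_lit 78) (PT.lf (nat_lit 18164) (nat_lit 6) (nat_lit 239) (nat_lit 0) (nat_lit 213) (nat_lit 207) (nat_lit 150)) (PT.lf (nat_lit 17556) (nat_lit 6) (nat_lit 231) (nat_lit 0) (nat_lit 214) (nat_lit 207) (nat_lit 149))) (PT.nd (nat_lit 78) (PT.lf (nat_lit 16872) (nat_lit 6) (nat_lit 222) (nat_lit 0) (nat_lit 215) (nat_lit 207) (nat_lit 148)) (PT.lf (nat_lit 16264) (nat_lit 6) (nat_lit 214) (nat_lit 0) (nat_lit 216) (nat_lit 207) (nat_lit 147)))) (PT.nd (nat_lit 156) (PT.nd (nat_lit 78) (PT.lf (nat_lit 15656)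 (nat_lit 6) (nat_lit 206) (nat_lit 0) (nat_lit 217) (nat_lit 207) (nat_lit 146)) (PT.lf (nat_lit 15048) (nat_lit 6) (nat_lit 198) (nat_lit 0) (nat_lit 218) (nat_lit 207) (nat_lit 145))) (PT.nd (nat_lit 53352) (PT.lf (nat_lit 14440) (nat_lit 6) (nat_lit 190) (nat_lit 0) (nat_lit 219) (nat_lit 207) (nat_lit 144)) (PT.lf (nat_lit 13452) (nat_lit 6) (nat_lit 177) (nat_lit 5) (nat_lit 142) (nat_lit 208) (nat_lit 220)))))) (PT.nd (nat_lit 624) (PT.nd (nat_lit 312) (PT.nd (nat_lit 156) (PT.nd (nat_lit 78) (PT.lf (nat_lit 13984) (nat_lit 6) (nat_lit 184) (nat_lit 5) (nat_lit 143) (nat_lit 208) (nat_lit 219)) (PT.lf (nat_lit 14516) (nat_lit 6) (nat_lit 191) (nat_lit 5) (nat_lit 144) (nat_lit 208) (nat_lit 218))) (PT.nd (nat_lit 78) (PT.lf (nat_lit 15124) (nat_lit 6) (nat_lit 199) (nat_lit 5) (nat_lit 145) (nat_lit 208) (nat_lit 217)) (PT.lf (nat_lit 15732) (nat_lit 6) (nat_lit 207) (nat_lit 5) (nat_lit 146) (nat_lit 208) (nat_lit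 216)))) (PT.nd (nat_lit 156) (PT.nd (nat_lit 78) (PT.lf (nat_lit 16340) (nat_lit 6) (nat_lit 215) (nat_lit 5) (nat_lit 147) (nat_lit 208) (nat_lit 215)) (PT.lf (nat_lit 16948) (nat_lit 6) (nat_lit 223) (nat_lit 5) (nat_lit 148) (nat_lit 208) (nat_lit 214))) (PT.nd (nat_lit 78) (PT.lf (nat_lit 17632) (nat_lit 6) (nat_lit 232) (nat_lit 5) (nat_lit 149) (nat_lit 208) (nat_lit 213)) (PT.lf (nat_lit 18240) (nat_lit 6) (nat_lit 240) (nat_lit 5) (nat_lit 150) (nat_lit 208) (nat_lit 212))))) (PT.nd (nat_lit 312) (PT.nd (nat_lit 156) (PT.nd (nat_lit 78) (PT.lf (nat_lit 18924) (nat_lit 6) (nat_lit 249) (nat_lit 5) (nat_lit 151) (nat_lit 208) (nat_lit 211)) (PT.lf (nat_lit 19608) (nat_lit 6) (nat_lit 258) (nat_lit 5) (nat_lit 152) (nat_lit 208) (nat_lit 210))) (PT.nd (nat_lit 78) (PT.lf (nat_lit 20368) (nat_lit 6) (nat_lit 268) (nat_lit 5) (nat_lit 153) (nat_lit 208) (nat_lit 209)) (PT.lf (nat_lit 21052) (nat_lit 3) (nat_lit 277)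 (nat_lit 4) (nat_lit 154) (nat_lit 208) (nat_lit 208)))) (PT.nd (nat_lit 156) (PT.nd (nat_lit 78) (PT.lf (nat_lit 21736) (nat_lit 6) (nat_lit 286) (nat_lit 4) (nat_lit 155) (nat_lit 208) (nat_lit 207)) (PT.lf (nat_lit 22420) (nat_lit 6) (nat_lit 295) (nat_lit 4) (nat_lit 156) (nat_lit 208) (nat_lit 206))) (PT.nd (nat_lit 78) (PT.lf (nat_lit 23180) (nat_lit 6) (nat_lit 305) (nat_lit 4) (nat_lit 157) (nat_lit 208) (nat_lit 205)) (PT.lf (nat_lit 23864) (nat_lit 6) (nat_lit 314) (nat_lit 4) (nat_lit 158) (nat_lit 208) (nat_lit 204))))))))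
noncomputable def pc44 : PT := (PT.nd (nat_lit 2340) (PT.nd (nat_lit 1170) (PT.nd (nat_lit 546) (PT.nd (nat_lit 234) (PT.nd (nat_lit 78) (PT.lf (nat_lit 24624) (nat_lit 6) (nat_lit 324) (nat_lit 4) (nat_lit 159) (nat_lit 208) (nat_lit 203)) (PT.nd (nat_lit 78) (PT.lf (nat_lit 25384) (nat_lit 6) (nat_lit 334) (nat_lit 4) (nat_lit 160) (nat_lit 208) (nat_lit 202)) (PT.lf (nat_lit 26220) (nat_lit 6) (nat_lit 345) (nat_lit 4) (nat_lit 161) (nat_lit 208) (nat_lit 201)))) (PT.nd (nat_lit 156) (PT.nd (nat_lit 78) (PT.lf (nat_lit 27056) (nat_lit 6) (nat_lit 356) (nat_lit 4) (nat_lit 162) (nat_lit 208) (nat_lit 200)) (PT.lf (nat_lit 27892) (nat_lit 6) (nat_lit 367) (nat_lit 4) (nat_lit 163) (nat_lit 208) (nat_lit 199))) (PT.nd (nat_lit 78) (PT.lf (nat_lit 28728) (nat_lit 6) (nat_lit 378) (nat_lit 4) (nat_lit 164) (nat_lit 208) (nat_lit 198)) (PT.lf (nat_lit 29640) (nat_lit 6) (nat_lit 390) (nat_lit 4) (nat_lit 165) (nat_lit 208)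 (nat_lit 197))))) (PT.nd (nat_lit 312) (PT.nd (nat_lit 156) (PT.nd (nat_lit 78) (PT.lf (nat_lit 30780) (nat_lit 6) (nat_lit 405) (nat_lit 4) (nat_lit 166) (nat_lit 208) (nat_lit 196)) (PT.lf (nat_lit 32528) (nat_lit 6) (nat_lit 428) (nat_lit 4) (nat_lit 167) (nat_lit 208) (nat_lit 195))) (PT.nd (nat_lit 78) (PT.lf (nat_lit 34200) (nat_lit 6) (nat_lit 450) (nat_lit 4) (nat_lit 168) (nat_lit 208) (nat_lit 194)) (PT.lf (nat_lit 35796) (nat_lit 6) (nat_lit 471) (nat_lit 4) (nat_lit 169) (nat_lit 208) (nat_lit 193)))) (PT.nd (nat_lit 156) (PT.nd (nat_lit 78) (PT.lf (nat_lit 37316) (nat_lit 6) (nat_lit 491) (nat_lit 4) (nat_lit 170) (nat_lit 208) (nat_lit 192)) (PT.lf (nat_lit 38760) (nat_lit 6) (nat_lit 510) (nat_lit 4) (nat_lit 171) (nat_lit 208) (nat_lit 191))) (PT.nd (nat_lit 78) (PT.lf (nat_lit 40128) (nat_lit 6) (nat_lit 528) (nat_lit 4) (nat_lit 172) (nat_lit 208) (nat_lit 190)) (PT.lf (nat_lit 40052) (nat_lit 6) (nat_lit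 527) (nat_lit 4) (nat_lit 173) (nat_lit 208) (nat_lit 189)))))) (PT.nd (nat_lit 546) (PT.nd (nat_lit 234) (PT.nd (nat_lit 78) (PT.lf (nat_lit 39976) (nat_lit 6) (nat_lit 526) (nat_lit 4) (nat_lit 174) (nat_lit 208) (nat_lit 188)) (PT.nd (nat_lit 78) (PT.lf (nat_lit 39900) (nat_lit 6) (nat_lit 525) (nat_lit 4) (nat_lit 175) (nat_lit 208) (nat_lit 187)) (PT.lf (nat_lit 39824) (nat_lit 6) (nat_lit 524) (nat_lit 4) (nat_lit 176) (nat_lit 208) (nat_lit 186)))) (PT.nd (nat_lit 156) (PT.nd (nat_lit 78) (PT.lf (nat_lit 39748) (nat_lit 6) (nat_lit 523) (nat_lit 4) (nat_lit 177) (nat_lit 208) (nat_lit 185)) (PT.lf (nat_lit 39672) (nat_lit 6) (nat_lit 522) (nat_lit 4) (nat_lit 178) (nat_lit 208) (nat_lit 184))) (PT.nd (nat_lit 78) (PT.lf (nat_lit 39596) (nat_lit 6) (nat_lit 521) (nat_lit 4) (nat_lit 179) (nat_lit 208) (nat_lit 183)) (PT.lf (nat_lit 39520) (nat_lit 6) (nat_lit 520) (nat_lit 4) (nat_lit 180) (nat_lit 208) (nat_lit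 182))))) (PT.nd (nat_lit 312) (PT.nd (nat_lit 156) (PT.nd (nat_lit 78) (PT.lf (nat_lit 39444) (nat_lit 3) (nat_lit 519) (nat_lit 2) (nat_lit 181) (nat_lit 208) (nat_lit 181)) (PT.lf (nat_lit 39520) (nat_lit 6) (nat_lit 520) (nat_lit 2) (nat_lit 182) (nat_lit 208) (nat_lit 180))) (PT.nd (nat_lit 78) (PT.lf (nat_lit 39596) (nat_lit 6) (nat_lit 521) (nat_lit 2) (nat_lit 183) (nat_lit 208) (nat_lit 179)) (PT.lf (nat_lit 39672) (nat_lit 6) (nat_lit 522) (nat_lit 2) (nat_lit 184) (nat_lit 208) (nat_lit 178)))) (PT.nd (nat_lit 156) (PT.nd (nat_lit 78) (PT.lf (nat_lit 39748) (nat_lit 6) (nat_lit 523) (nat_lit 2) (nat_lit 185) (nat_lit 208) (nat_lit 177)) (PT.lf (nat_lit 39824) (nat_lit 6) (nat_lit 524) (nat_lit 2) (nat_lit 186) (nat_lit 208) (nat_lit 176))) (PT.nd (nat_lit 78) (PT.lf (nat_lit 39900) (nat_lit 6) (nat_lit 525) (nat_lit 2) (nat_lit 187) (nat_lit 208) (nat_lit 175)) (PT.lf (nat_lit 39976) (nat_lit 6) (nat_lit 526)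 (nat_lit 2) (nat_lit 188) (nat_lit 208) (nat_lit 174))))))) (PT.nd (nat_lit 1170) (PT.nd (nat_lit 546) (PT.nd (nat_lit 234) (PT.nd (nat_lit 78) (PT.lf (nat_lit 40052) (nat_lit 6) (nat_lit 527) (nat_lit 2) (nat_lit 189) (nat_lit 208) (nat_lit 173)) (PT.nd (nat_lit 78) (PT.lf (nat_lit 40128) (nat_lit 6) (nat_lit 528) (nat_lit 2) (nat_lit 190) (nat_lit 208) (nat_lit 172)) (PT.lf (nat_lit 38760) (nat_lit 6) (nat_lit 510) (nat_lit 2) (nat_lit 191) (nat_lit 208) (nat_lit 171)))) (PT.nd (nat_lit 156) (PT.nd (nat_lit 78) (PT.lf (nat_lit 37316) (nat_lit 6) (nat_lit 491) (nat_lit 2) (nat_lit 192) (nat_lit 208) (nat_lit 170)) (PT.lf (nat_lit 35796) (nat_lit 6) (nat_lit 471) (nat_lit 2) (nat_lit 193) (nat_lit 208) (nat_lit 169))) (PT.nd (nat_lit 78) (PT.lf (nat_lit 34200) (nat_lit 6) (nat_lit 450) (nat_lit 2) (nat_lit 194) (nat_lit 208) (nat_lit 168)) (PT.lf (nat_lit 32528) (nat_lit 6) (nat_lit 428) (nat_lit 2) (nat_lit 195) (nat_lit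 208) (nat_lit 167))))) (PT.nd (nat_lit 312) (PT.nd (nat_lit 156) (PT.nd (nat_lit 78) (PT.lf (nat_lit 30780) (nat_lit 6) (nat_lit 405) (nat_lit 2) (nat_lit 196) (nat_lit 208) (nat_lit 166)) (PT.lf (nat_lit 29640) (nat_lit 6) (nat_lit 390) (nat_lit 2) (nat_lit 197) (nat_lit 208) (nat_lit 165))) (PT.nd (nat_lit 78) (PT.lf (nat_lit 28728) (nat_lit 6) (nat_lit 378) (nat_lit 2) (nat_lit 198) (nat_lit 208) (nat_lit 164)) (PT.lf (nat_lit 27892) (nat_lit 6) (nat_lit 367) (nat_lit 2) (nat_lit 199) (nat_lit 208) (nat_lit 163)))) (PT.nd (nat_lit 156) (PT.nd (nat_lit 78) (PT.lf (nat_lit 27056) (nat_lit 6) (nat_lit 356) (nat_lit 2) (nat_lit 200) (nat_lit 208) (nat_lit 162)) (PT.lf (nat_lit 26220) (nat_lit 6) (nat_lit 345) (nat_lit 2) (nat_lit 201) (nat_lit 208) (nat_lit 161))) (PT.nd (nat_lit 78) (PT.lf (nat_lit 25384) (nat_lit 6) (nat_lit 334) (nat_lit 2) (nat_lit 202) (nat_lit 208) (nat_lit 160)) (PT.lf (nat_lit 24624) (nat_lit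 6) (nat_lit 324) (nat_lit 2) (nat_lit 203) (nat_lit 208) (nat_lit 159)))))) (PT.nd (nat_lit 624) (PT.nd (nat_lit 312) (PT.nd (nat_lit 156) (PT.nd (nat_lit 78) (PT.lf (nat_lit 23864) (nat_lit 6) (nat_lit 314) (nat_lit 2) (nat_lit 204) (nat_lit 208) (nat_lit 158)) (PT.lf (nat_lit 23180) (nat_lit 6) (nat_lit 305) (nat_lit 2) (nat_lit 205) (nat_lit 208) (nat_lit 157))) (PT.nd (nat_lit 78) (PT.lf (nat_lit 22420) (nat_lit 6) (nat_lit 295) (nat_lit 2) (nat_lit 206) (nat_lit 208) (nat_lit 156)) (PT.lf (nat_lit 21736) (nat_lit 6) (nat_lit 286) (nat_lit 2) (nat_lit 207) (nat_lit 208) (nat_lit 155)))) (PT.nd (nat_lit 156) (PT.nd (nat_lit 78) (PT.lf (nat_lit 21052) (nat_lit 3) (nat_lit 277) (nat_lit 0) (nat_lit 208) (nat_lit 208) (nat_lit 154)) (PT.lf (nat_lit 20368) (nat_lit 6) (nat_lit 268) (nat_lit 0) (nat_lit 209) (nat_lit 208) (nat_lit 153))) (PT.nd (nat_lit 78) (PT.lf (nat_lit 19608) (nat_lit 6) (nat_lit 258) (nat_lit 0) (nat_lit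 210) (nat_lit 208) (nat_lit 152)) (PT.lf (nat_lit 18924) (nat_lit 6) (nat_lit 249) (nat_lit 0) (nat_lit 211) (nat_lit 208) (nat_lit 151))))) (PT.nd (nat_lit 312) (PT.nd (nat_lit 156) (PT.nd (nat_lit 78) (PT.lf (nat_lit 18240) (nat_lit 6) (nat_lit 240) (nat_lit 0) (nat_lit 212) (nat_lit 208) (nat_lit 150)) (PT.lf (nat_lit 17632) (nat_lit 6) (nat_lit 232) (nat_lit 0) (nat_lit 213) (nat_lit 208) (nat_lit 149))) (PT.nd (nat_lit 78) (PT.lf (nat_lit 16948) (nat_lit 6) (nat_lit 223) (nat_lit 0) (nat_lit 214) (nat_lit 208) (nat_lit 148)) (PT.lf (nat_lit 16340) (nat_lit 6) (nat_lit 215) (nat_lit 0) (nat_lit 215) (nat_lit 208) (nat_lit 147)))) (PT.nd (nat_lit 156) (PT.nd (nat_lit 78) (PT.lf (nat_lit 15732) (nat_lit 6) (nat_lit 207) (nat_lit 0) (nat_lit 216) (nat_lit 208) (nat_lit 146)) (PT.lf (nat_lit 15124) (nat_lit 6) (nat_lit 199) (nat_lit 0) (nat_lit 217) (nat_lit 208) (nat_lit 145))) (PT.nd (nat_lit 78) (PT.lf (nat_lit 14516)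 (nat_lit 6) (nat_lit 191) (nat_lit 0) (nat_lit 218) (nat_lit 208) (nat_lit 144)) (PT.lf (nat_lit 13984) (nat_lit 6) (nat_lit 184) (nat_lit 0) (nat_lit 219) (nat_lit 208) (nat_lit 143))))))))
noncomputable def pc45 : PT := (PT.nd (nat_lit 55536) (PT.nd (nat_lit 54288) (PT.nd (nat_lit 53664) (PT.nd (nat_lit 53352) (PT.nd (nat_lit 53196) (PT.lf (nat_lit 13452) (nat_lit 6) (nat_lit 177) (nat_lit 0) (nat_lit 220) (nat_lit 208) (nat_lit 142)) (PT.nd (nat_lit 78) (PT.lf (nat_lit 12996) (nat_lit 6) (nat_lit 171) (nat_lit 5) (nat_lit 141) (nat_lit 209) (nat_lit 220)) (PT.lf (nat_lit 13528) (nat_lit 6) (nat_lit 178) (nat_lit 5) (nat_lit 142) (nat_lit 209) (nat_lit 219)))) (PT.nd (nat_lit 156) (PT.nd (nat_lit 78) (PT.lf (nat_lit 14060) (nat_lit 6) (nat_lit 185) (nat_lit 5) (nat_lit 143) (nat_lit 209) (nat_lit 218)) (PT.lf (nat_lit 14592) (nat_lit 6) (nat_lit 192) (nat_lit 5) (nat_lit 144) (nat_lit 209) (nat_lit 217))) (PT.nd (nat_lit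 78) (PT.lf (nat_lit 15200) (nat_lit 6) (nat_lit 200) (nat_lit 5) (nat_lit 145) (nat_lit 209) (nat_lit 216)) (PT.lf (nat_lit 15808) (nat_lit 6) (nat_lit 208) (nat_lit 5) (nat_lit 146) (nat_lit 209) (nat_lit 215))))) (PT.nd (nat_lit 312) (PT.nd (nat_lit 156) (PT.nd (nat_lit 78) (PT.lf (nat_lit 16416) (nat_lit 6) (nat_lit 216) (nat_lit 5) (nat_lit 147) (nat_lit 209) (nat_lit 214)) (PT.lf (nat_lit 17024) (nat_lit 6) (nat_lit 224) (nat_lit 5) (nat_lit 148) (nat_lit 209) (nat_lit 213))) (PT.nd (nat_lit 78) (PT.lf (nat_lit 17708) (nat_lit 6) (nat_lit 233) (nat_lit 5) (nat_lit 149) (nat_lit 209) (nat_lit 212)) (PT.lf (nat_lit 18316) (nat_lit 6) (nat_lit 241) (nat_lit 5) (nat_lit 150) (nat_lit 209) (nat_lit 211)))) (PT.nd (nat_lit 156) (PT.nd (nat_lit 78) (PT.lf (nat_lit 19000) (nat_lit 6) (nat_lit 250) (nat_lit 5) (nat_lit 151) (nat_lit 209) (nat_lit 210)) (PT.lf (nat_lit 19684) (nat_lit 3) (nat_lit 259) (nat_lit 4) (nat_lit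 152) (nat_lit 209) (nat_lit 209))) (PT.nd (nat_lit 78) (PT.lf (nat_lit 20368) (nat_lit 6) (nat_lit 268) (nat_lit 4) (nat_lit 153) (nat_lit 209) (nat_lit 208)) (PT.lf (nat_lit 20976) (nat_lit 6) (nat_lit 276) (nat_lit 4) (nat_lit 154) (nat_lit 209) (nat_lit 207)))))) (PT.nd (nat_lit 624) (PT.nd (nat_lit 312) (PT.nd (nat_lit 156) (PT.nd (nat_lit 78) (PT.lf (nat_lit 21660) (nat_lit 6) (nat_lit 285) (nat_lit 4) (nat_lit 155) (nat_lit 209) (nat_lit 206)) (PT.lf (nat_lit 22344) (nat_lit 6) (nat_lit 294) (nat_lit 4) (nat_lit 156) (nat_lit 209) (nat_lit 205))) (PT.nd (nat_lit 78) (PT.lf (nat_lit 23104) (nat_lit 6) (nat_lit 304) (nat_lit 4) (nat_lit 157) (nat_lit 209) (nat_lit 204)) (PT.lf (nat_lit 23788) (nat_lit 6) (nat_lit 313) (nat_lit 4) (nat_lit 158) (nat_lit 209) (nat_lit 203)))) (PT.nd (nat_lit 156) (PT.nd (nat_lit 78) (PT.lf (nat_lit 24548) (nat_lit 6) (nat_lit 323) (nat_lit 4) (nat_lit 159) (nat_lit 209) (nat_lit 202))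 (PT.lf (nat_lit 25308) (nat_lit 6) (nat_lit 333) (nat_lit 4) (nat_lit 160) (nat_lit 209) (nat_lit 201))) (PT.nd (nat_lit 78) (PT.lf (nat_lit 26144) (nat_lit 6) (nat_lit 344) (nat_lit 4) (nat_lit 161) (nat_lit 209) (nat_lit 200)) (PT.lf (nat_lit 26980) (nat_lit 6) (nat_lit 355) (nat_lit 4) (nat_lit 162) (nat_lit 209) (nat_lit 199))))) (PT.nd (nat_lit 312) (PT.nd (nat_lit 156) (PT.nd (nat_lit 78) (PT.lf (nat_lit 27816) (nat_lit 6) (nat_lit 366) (nat_lit 4) (nat_lit 163) (nat_lit 209) (nat_lit 198)) (PT.lf (nat_lit 28652) (nat_lit 6) (nat_lit 377) (nat_lit 4) (nat_lit 164) (nat_lit 209) (nat_lit 197))) (PT.nd (nat_lit 78) (PT.lf (nat_lit 29564) (nat_lit 6) (nat_lit 389) (nat_lit 4) (nat_lit 165) (nat_lit 209) (nat_lit 196)) (PT.lf (nat_lit 30704) (nat_lit 6) (nat_lit 404) (nat_lit 4) (nat_lit 166) (nat_lit 209) (nat_lit 195)))) (PT.nd (nat_lit 156) (PT.nd (nat_lit 78) (PT.lf (nat_lit 32452) (nat_lit 6) (nat_lit 427) (nat_lit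 4) (nat_lit 167) (nat_lit 209) (nat_lit 194)) (PT.lf (nat_lit 34124) (nat_lit 6) (nat_lit 449) (nat_lit 4) (nat_lit 168) (nat_lit 209) (nat_lit 193))) (PT.nd (nat_lit 78) (PT.lf (nat_lit 35720) (nat_lit 6) (nat_lit 470) (nat_lit 4) (nat_lit 169) (nat_lit 209) (nat_lit 192)) (PT.lf (nat_lit 37240) (nat_lit 6) (nat_lit 490) (nat_lit 4) (nat_lit 170) (nat_lit 209) (nat_lit 191))))))) (PT.nd (nat_lit 1170) (PT.nd (nat_lit 546) (PT.nd (nat_lit 234) (PT.nd (nat_lit 78) (PT.lf (nat_lit 38684) (nat_lit 6) (nat_lit 509) (nat_lit 4) (nat_lit 171) (nat_lit 209) (nat_lit 190)) (PT.nd (nat_lit 78) (PT.lf (nat_lit 38608) (nat_lit 6) (nat_lit 508) (nat_lit 4) (nat_lit 172) (nat_lit 209) (nat_lit 189)) (PT.lf (nat_lit 38532) (nat_lit 6) (nat_lit 507) (nat_lit 4) (nat_lit 173) (nat_lit 209) (nat_lit 188)))) (PT.nd (nat_lit 156) (PT.nd (nat_lit 78) (PT.lf (nat_lit 38456) (nat_lit 6) (nat_lit 506) (nat_lit 4) (nat_lit 174) (nat_lit 209)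 (nat_lit 187)) (PT.lf (nat_lit 38380) (nat_lit 6) (nat_lit 505) (nat_lit 4) (nat_lit 175) (nat_lit 209) (nat_lit 186))) (PT.nd (nat_lit 78) (PT.lf (nat_lit 38304) (nat_lit 6) (nat_lit 504) (nat_lit 4) (nat_lit 176) (nat_lit 209) (nat_lit 185)) (PT.lf (nat_lit 38228) (nat_lit 6) (nat_lit 503) (nat_lit 4) (nat_lit 177) (nat_lit 209) (nat_lit 184))))) (PT.nd (nat_lit 312) (PT.nd (nat_lit 156) (PT.nd (nat_lit 78) (PT.lf (nat_lit 38152) (nat_lit 6) (nat_lit 502) (nat_lit 4) (nat_lit 178) (nat_lit 209) (nat_lit 183)) (PT.lf (nat_lit 38076) (nat_lit 6) (nat_lit 501) (nat_lit 4) (nat_lit 179) (nat_lit 209) (nat_lit 182))) (PT.nd (nat_lit 78) (PT.lf (nat_lit 38000) (nat_lit 6) (nat_lit 500) (nat_lit 4) (nat_lit 180) (nat_lit 209) (nat_lit 181)) (PT.lf (nat_lit 38000) (nat_lit 6) (nat_lit 500) (nat_lit 2) (nat_lit 181) (nat_lit 209) (nat_lit 180)))) (PT.nd (nat_lit 156) (PT.nd (nat_lit 78) (PT.lf (nat_lit 38076) (nat_lit 6) (nat_lit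 501) (nat_lit 2) (nat_lit 182) (nat_lit 209) (nat_lit 179)) (PT.lf (nat_lit 38152) (nat_lit 6) (nat_lit 502) (nat_lit 2) (nat_lit 183) (nat_lit 209) (nat_lit 178))) (PT.nd (nat_lit 78) (PT.lf (nat_lit 38228) (nat_lit 6) (nat_lit 503) (nat_lit 2) (nat_lit 184) (nat_lit 209) (nat_lit 177)) (PT.lf (nat_lit 38304) (nat_lit 6) (nat_lit 504) (nat_lit 2) (nat_lit 185) (nat_lit 209) (nat_lit 176)))))) (PT.nd (nat_lit 624) (PT.nd (nat_lit 312) (PT.nd (nat_lit 156) (PT.nd (nat_lit 78) (PT.lf (nat_lit 38380) (nat_lit 6) (nat_lit 505) (nat_lit 2) (nat_lit 186) (nat_lit 209) (nat_lit 175)) (PT.lf (nat_lit 38456) (nat_lit 6) (nat_lit 506) (nat_lit 2) (nat_lit 187) (nat_lit 209) (nat_lit 174))) (PT.nd (nat_lit 78) (PT.lf (nat_lit 38532) (nat_lit 6) (nat_lit 507) (nat_lit 2) (nat_lit 188) (nat_lit 209) (nat_lit 173)) (PT.lf (nat_lit 38608) (nat_lit 6) (nat_lit 508) (nat_lit 2) (nat_lit 189) (nat_lit 209) (nat_lit 172)))) (PT.nd (nat_lit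 156) (PT.nd (nat_lit 78) (PT.lf (nat_lit 38684) (nat_lit 6) (nat_lit 509) (nat_lit 2) (nat_lit 190) (nat_lit 209) (nat_lit 171)) (PT.lf (nat_lit 37240) (nat_lit 6) (nat_lit 490) (nat_lit 2) (nat_lit 191) (nat_lit 209) (nat_lit 170))) (PT.nd (nat_lit 78) (PT.lf (nat_lit 35720) (nat_lit 6) (nat_lit 470) (nat_lit 2) (nat_lit 192) (nat_lit 209) (nat_lit 169)) (PT.lf (nat_lit 34124) (nat_lit 6) (nat_lit 449) (nat_lit 2) (nat_lit 193) (nat_lit 209) (nat_lit 168))))) (PT.nd (nat_lit 312) (PT.nd (nat_lit 156) (PT.nd (nat_lit 78) (PT.lf (nat_lit 32452) (nat_lit 6) (nat_lit 427) (nat_lit 2) (nat_lit 194) (nat_lit 209) (nat_lit 167)) (PT.lf (nat_lit 30704) (nat_lit 6) (nat_lit 404) (nat_lit 2) (nat_lit 195) (nat_lit 209) (nat_lit 166))) (PT.nd (nat_lit 78) (PT.lf (nat_lit 29564) (nat_lit 6) (nat_lit 389) (nat_lit 2) (nat_lit 196) (nat_lit 209) (nat_lit 165)) (PT.lf (nat_lit 28652) (nat_lit 6) (nat_lit 377) (nat_lit 2) (nat_lit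 197) (nat_lit 209) (nat_lit 164)))) (PT.nd (nat_lit 156) (PT.nd (nat_lit 78) (PT.lf (nat_lit 27816) (nat_lit 6) (nat_lit 366) (nat_lit 2) (nat_lit 198) (nat_lit 209) (nat_lit 163)) (PT.lf (nat_lit 26980) (nat_lit 6) (nat_lit 355) (nat_lit 2) (nat_lit 199) (nat_lit 209) (nat_lit 162))) (PT.nd (nat_lit 78) (PT.lf (nat_lit 26144) (nat_lit 6) (nat_lit 344) (nat_lit 2) (nat_lit 200) (nat_lit 209) (nat_lit 161)) (PT.lf (nat_lit 25308) (nat_lit 6) (nat_lit 333) (nat_lit 2) (nat_lit 201) (nat_lit 209) (nat_lit 160))))))))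
noncomputable def pc46 : PT := (PT.nd (nat_lit 55302) (PT.nd (nat_lit 1170) (PT.nd (nat_lit 546) (PT.nd (nat_lit 234) (PT.nd (nat_lit 78) (PT.lf (nat_lit 24548) (nat_lit 6) (nat_lit 323) (nat_lit 2) (nat_lit 202) (nat_lit 209) (nat_lit 159)) (PT.nd (nat_lit 78) (PT.lf (nat_lit 23788) (nat_lit 6) (nat_lit 313) (nat_lit 2) (nat_lit 203) (nat_lit 209) (nat_lit 158)) (PT.lf (nat_lit 23104) (nat_lit 6) (nat_lit 304) (nat_lit 2) (nat_lit 204) (nat_lit 209) (nat_lit 157)))) (PT.nd (nat_lit 156) (PT.nd (nat_lit 78) (PT.lf (nat_lit 22344) (nat_lit 6) (nat_lit 294) (nat_lit 2) (nat_lit 205) (nat_lit 209) (nat_lit 156)) (PT.lf (nat_lit 21660) (nat_lit 6) (nat_lit 285) (nat_lit 2) (nat_lit 206) (nat_lit 209) (nat_lit 155))) (PT.nd (nat_lit 78) (PT.lf (nat_lit 20976) (nat_lit 6) (nat_lit 276) (nat_lit 2) (nat_lit 207) (nat_lit 209) (nat_lit 154)) (PT.lf (nat_lit 20368) (nat_lit 6) (nat_lit 268) (nat_lit 2) (nat_lit 208) (nat_lit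 209) (nat_lit 153))))) (PT.nd (nat_lit 312) (PT.nd (nat_lit 156) (PT.nd (nat_lit 78) (PT.lf (nat_lit 19684) (nat_lit 3) (nat_lit 259) (nat_lit 0) (nat_lit 209) (nat_lit 209) (nat_lit 152)) (PT.lf (nat_lit 19000) (nat_lit 6) (nat_lit 250) (nat_lit 0) (nat_lit 210) (nat_lit 209) (nat_lit 151))) (PT.nd (nat_lit 78) (PT.lf (nat_lit 18316) (nat_lit 6) (nat_lit 241) (nat_lit 0) (nat_lit 211) (nat_lit 209) (nat_lit 150)) (PT.lf (nat_lit 17708) (nat_lit 6) (nat_lit 233) (nat_lit 0) (nat_lit 212) (nat_lit 209) (nat_lit 149)))) (PT.nd (nat_lit 156) (PT.nd (nat_lit 78) (PT.lf (nat_lit 17024) (nat_lit 6) (nat_lit 224) (nat_lit 0) (nat_lit 213) (nat_lit 209) (nat_lit 148)) (PT.lf (nat_lit 16416) (nat_lit 6) (nat_lit 216) (nat_lit 0) (nat_lit 214) (nat_lit 209) (nat_lit 147))) (PT.nd (nat_lit 78) (PT.lf (nat_lit 15808) (nat_lit 6) (nat_lit 208) (nat_lit 0) (nat_lit 215) (nat_lit 209) (nat_lit 146)) (PT.lf (nat_lit 15200) (nat_lit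 6) (nat_lit 200) (nat_lit 0) (nat_lit 216) (nat_lit 209) (nat_lit 145)))))) (PT.nd (nat_lit 53508) (PT.nd (nat_lit 234) (PT.nd (nat_lit 78) (PT.lf (nat_lit 14592) (nat_lit 6) (nat_lit 192) (nat_lit 0) (nat_lit 217) (nat_lit 209) (nat_lit 144)) (PT.nd (nat_lit 78) (PT.lf (nat_lit 14060) (nat_lit 6) (nat_lit 185) (nat_lit 0) (nat_lit 218) (nat_lit 209) (nat_lit 143)) (PT.lf (nat_lit 13528) (nat_lit 6) (nat_lit 178) (nat_lit 0) (nat_lit 219) (nat_lit 209) (nat_lit 142)))) (PT.nd (nat_lit 53118) (PT.nd (nat_lit 53040) (PT.lf (nat_lit 12996) (nat_lit 6) (nat_lit 171) (nat_lit 0) (nat_lit 220) (nat_lit 209) (nat_lit 141)) (PT.lf (nat_lit 12084) (nat_lit 6) (nat_lit 159) (nat_lit 5) (nat_lit 139) (nat_lit 210) (nat_lit 221))) (PT.nd (nat_lit 78) (PT.lf (nat_lit 12540) (nat_lit 6) (nat_lit 165) (nat_lit 5) (nat_lit 140) (nat_lit 210) (nat_lit 220)) (PT.lf (nat_lit 13072) (nat_lit 6) (nat_lit 172) (nat_lit 5) (nat_lit 141) (nat_lit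 210) (nat_lit 219))))) (PT.nd (nat_lit 312) (PT.nd (nat_lit 156) (PT.nd (nat_lit 78) (PT.lf (nat_lit 13604) (nat_lit 6) (nat_lit 179) (nat_lit 5) (nat_lit 142) (nat_lit 210) (nat_lit 218)) (PT.lf (nat_lit 14136) (nat_lit 6) (nat_lit 186) (nat_lit 5) (nat_lit 143) (nat_lit 210) (nat_lit 217))) (PT.nd (nat_lit 78) (PT.lf (nat_lit 14668) (nat_lit 6) (nat_lit 193) (nat_lit 5) (nat_lit 144) (nat_lit 210) (nat_lit 216)) (PT.lf (nat_lit 15276) (nat_lit 6) (nat_lit 201) (nat_lit 5) (nat_lit 145) (nat_lit 210) (nat_lit 215)))) (PT.nd (nat_lit 156) (PT.nd (nat_lit 78) (PT.lf (nat_lit 15884) (nat_lit 6) (nat_lit 209) (nat_lit 5) (nat_lit 146) (nat_lit 210) (nat_lit 214)) (PT.lf (nat_lit 16492) (nat_lit 6) (nat_lit 217) (nat_lit 5) (nat_lit 147) (nat_lit 210) (nat_lit 213))) (PT.nd (nat_lit 78) (PT.lf (nat_lit 17100) (nat_lit 6) (nat_lit 225) (nat_lit 5) (nat_lit 148) (nat_lit 210) (nat_lit 212)) (PT.lf (nat_lit 17784) (nat_lit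 6) (nat_lit 234) (nat_lit 5) (nat_lit 149) (nat_lit 210) (nat_lit 211))))))) (PT.nd (nat_lit 1170) (PT.nd (nat_lit 546) (PT.nd (nat_lit 234) (PT.nd (nat_lit 78) (PT.lf (nat_lit 18392) (nat_lit 3) (nat_lit 242) (nat_lit 4) (nat_lit 150) (nat_lit 210) (nat_lit 210)) (PT.nd (nat_lit 78) (PT.lf (nat_lit 19000) (nat_lit 6) (nat_lit 250) (nat_lit 4) (nat_lit 151) (nat_lit 210) (nat_lit 209)) (PT.lf (nat_lit 19608) (nat_lit 6) (nat_lit 258) (nat_lit 4) (nat_lit 152) (nat_lit 210) (nat_lit 208)))) (PT.nd (nat_lit 156) (PT.nd (nat_lit 78) (PT.lf (nat_lit 20292) (nat_lit 6) (nat_lit 267) (nat_lit 4) (nat_lit 153) (nat_lit 210) (nat_lit 207)) (PT.lf (nat_lit 20900) (nat_lit 6) (nat_lit 275) (nat_lit 4) (nat_lit 154) (nat_lit 210) (nat_lit 206))) (PT.nd (nat_lit 78) (PT.lf (nat_lit 21584) (nat_lit 6) (nat_lit 284) (nat_lit 4) (nat_lit 155) (nat_lit 210) (nat_lit 205)) (PT.lf (nat_lit 22268) (nat_lit 6) (nat_lit 293) (nat_lit 4)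 (nat_lit 156) (nat_lit 210) (nat_lit 204))))) (PT.nd (nat_lit 312) (PT.nd (nat_lit 156) (PT.nd (nat_lit 78) (PT.lf (nat_lit 23028) (nat_lit 6) (nat_lit 303) (nat_lit 4) (nat_lit 157) (nat_lit 210) (nat_lit 203)) (PT.lf (nat_lit 23712) (nat_lit 6) (nat_lit 312) (nat_lit 4) (nat_lit 158) (nat_lit 210) (nat_lit 202))) (PT.nd (nat_lit 78) (PT.lf (nat_lit 24472) (nat_lit 6) (nat_lit 322) (nat_lit 4) (nat_lit 159) (nat_lit 210) (nat_lit 201)) (PT.lf (nat_lit 25232) (nat_lit 6) (nat_lit 332) (nat_lit 4) (nat_lit 160) (nat_lit 210) (nat_lit 200)))) (PT.nd (nat_lit 156) (PT.nd (nat_lit 78) (PT.lf (nat_lit 26068) (nat_lit 6) (nat_lit 343) (nat_lit 4) (nat_lit 161) (nat_lit 210) (nat_lit 199)) (PT.lf (nat_lit 26904) (nat_lit 6) (nat_lit 354) (nat_lit 4) (nat_lit 162) (nat_lit 210) (nat_lit 198))) (PT.nd (nat_lit 78) (PT.lf (nat_lit 27740) (nat_lit 6) (nat_lit 365) (nat_lit 4) (nat_lit 163) (nat_lit 210) (nat_lit 197)) (PT.lf (nat_lit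 28576) (nat_lit 6) (nat_lit 376) (nat_lit 4) (nat_lit 164) (nat_lit 210) (nat_lit 196)))))) (PT.nd (nat_lit 624) (PT.nd (nat_lit 312) (PT.nd (nat_lit 156) (PT.nd (nat_lit 78) (PT.lf (nat_lit 29488) (nat_lit 6) (nat_lit 388) (nat_lit 4) (nat_lit 165) (nat_lit 210) (nat_lit 195)) (PT.lf (nat_lit 30628) (nat_lit 6) (nat_lit 403) (nat_lit 4) (nat_lit 166) (nat_lit 210) (nat_lit 194))) (PT.nd (nat_lit 78) (PT.lf (nat_lit 32376) (nat_lit 6) (nat_lit 426) (nat_lit 4) (nat_lit 167) (nat_lit 210) (nat_lit 193)) (PT.lf (nat_lit 34048) (nat_lit 6) (nat_lit 448) (nat_lit 4) (nat_lit 168) (nat_lit 210) (nat_lit 192)))) (PT.nd (nat_lit 156) (PT.nd (nat_lit 78) (PT.lf (nat_lit 35644) (nat_lit 6) (nat_lit 469) (nat_lit 4) (nat_lit 169) (nat_lit 210) (nat_lit 191)) (PT.lf (nat_lit 37164) (nat_lit 6) (nat_lit 489) (nat_lit 4) (nat_lit 170) (nat_lit 210) (nat_lit 190))) (PT.nd (nat_lit 78) (PT.lf (nat_lit 37088) (nat_lit 6) (nat_lit 488)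 (nat_lit 4) (nat_lit 171) (nat_lit 210) (nat_lit 189)) (PT.lf (nat_lit 37012) (nat_lit 6) (nat_lit 487) (nat_lit 4) (nat_lit 172) (nat_lit 210) (nat_lit 188))))) (PT.nd (nat_lit 312) (PT.nd (nat_lit 156) (PT.nd (nat_lit 78) (PT.lf (nat_lit 36936) (nat_lit 6) (nat_lit 486) (nat_lit 4) (nat_lit 173) (nat_lit 210) (nat_lit 187)) (PT.lf (nat_lit 36860) (nat_lit 6) (nat_lit 485) (nat_lit 4) (nat_lit 174) (nat_lit 210) (nat_lit 186))) (PT.nd (nat_lit 78) (PT.lf (nat_lit 36784) (nat_lit 6) (nat_lit 484) (nat_lit 4) (nat_lit 175) (nat_lit 210) (nat_lit 185)) (PT.lf (nat_lit 36708) (nat_lit 6) (nat_lit 483) (nat_lit 4) (nat_lit 176) (nat_lit 210) (nat_lit 184)))) (PT.nd (nat_lit 156) (PT.nd (nat_lit 78) (PT.lf (nat_lit 36632) (nat_lit 6) (nat_lit 482) (nat_lit 4) (nat_lit 177) (nat_lit 210) (nat_lit 183)) (PT.lf (nat_lit 36556) (nat_lit 6) (nat_lit 481) (nat_lit 4) (nat_lit 178) (nat_lit 210) (nat_lit 182))) (PT.nd (nat_lit 78)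 (PT.lf (nat_lit 36480) (nat_lit 6) (nat_lit 480) (nat_lit 4) (nat_lit 179) (nat_lit 210) (nat_lit 181)) (PT.lf (nat_lit 36404) (nat_lit 3) (nat_lit 479) (nat_lit 2) (nat_lit 180) (nat_lit 210) (nat_lit 180))))))))
noncomputable def pc47 : PT := (PT.nd (nat_lit 2418) (PT.nd (nat_lit 1170) (PT.nd (nat_lit 546) (PT.nd (nat_lit 234) (PT.nd (nat_lit 78) (PT.lf (nat_lit 36480) (nat_lit 6) (nat_lit 480) (nat_lit 2) (nat_lit 181) (nat_lit 210) (nat_lit 179)) (PT.nd (nat_lit 78) (PT.lf (nat_lit 36556) (nat_lit 6) (nat_lit 481) (nat_lit 2) (nat_lit 182) (nat_lit 210) (nat_lit 178)) (PT.lf (nat_lit 36632) (nat_lit 6) (nat_lit 482) (nat_lit 2) (nat_lit 183) (nat_lit 210) (nat_lit 177)))) (PT.nd (nat_lit 156) (PT.nd (nat_lit 78) (PT.lf (nat_lit 36708) (nat_lit 6) (nat_lit 483) (nat_lit 2) (nat_lit 184) (nat_lit 210) (nat_lit 176)) (PT.lf (nat_lit 36784) (nat_lit 6) (nat_lit 484) (nat_lit 2) (nat_lit 185) (nat_lit 210) (nat_lit 175)))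 (PT.nd (nat_lit 78) (PT.lf (nat_lit 36860) (nat_lit 6) (nat_lit 485) (nat_lit 2) (nat_lit 186) (nat_lit 210) (nat_lit 174)) (PT.lf (nat_lit 36936) (nat_lit 6) (nat_lit 486) (nat_lit 2) (nat_lit 187) (nat_lit 210) (nat_lit 173))))) (PT.nd (nat_lit 312) (PT.nd (nat_lit 156) (PT.nd (nat_lit 78) (PT.lf (nat_lit 37012) (nat_lit 6) (nat_lit 487) (nat_lit 2) (nat_lit 188) (nat_lit 210) (nat_lit 172)) (PT.lf (nat_lit 37088) (nat_lit 6) (nat_lit 488) (nat_lit 2) (nat_lit 189) (nat_lit 210) (nat_lit 171))) (PT.nd (nat_lit 78) (PT.lf (nat_lit 37164) (nat_lit 6) (nat_lit 489) (nat_lit 2) (nat_lit 190) (nat_lit 210) (nat_lit 170)) (PT.lf (nat_lit 35644) (nat_lit 6) (nat_lit 469) (nat_lit 2) (nat_lit 191) (nat_lit 210) (nat_lit 169)))) (PT.nd (nat_lit 156) (PT.nd (nat_lit 78) (PT.lf (nat_lit 34048) (nat_lit 6) (nat_lit 448) (nat_lit 2) (nat_lit 192) (nat_lit 210) (nat_lit 168)) (PT.lf (nat_lit 32376) (nat_lit 6) (nat_lit 426) (nat_lit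 2) (nat_lit 193) (nat_lit 210) (nat_lit 167))) (PT.nd (nat_lit 78) (PT.lf (nat_lit 30628) (nat_lit 6) (nat_lit 403) (nat_lit 2) (nat_lit 194) (nat_lit 210) (nat_lit 166)) (PT.lf (nat_lit 29488) (nat_lit 6) (nat_lit 388) (nat_lit 2) (nat_lit 195) (nat_lit 210) (nat_lit 165)))))) (PT.nd (nat_lit 624) (PT.nd (nat_lit 312) (PT.nd (nat_lit 156) (PT.nd (nat_lit 78) (PT.lf (nat_lit 28576) (nat_lit 6) (nat_lit 376) (nat_lit 2) (nat_lit 196) (nat_lit 210) (nat_lit 164)) (PT.lf (nat_lit 27740) (nat_lit 6) (nat_lit 365) (nat_lit 2) (nat_lit 197) (nat_lit 210) (nat_lit 163))) (PT.nd (nat_lit 78) (PT.lf (nat_lit 26904) (nat_lit 6) (nat_lit 354) (nat_lit 2) (nat_lit 198) (nat_lit 210) (nat_lit 162)) (PT.lf (nat_lit 26068) (nat_lit 6) (nat_lit 343) (nat_lit 2) (nat_lit 199) (nat_lit 210) (nat_lit 161)))) (PT.nd (nat_lit 156) (PT.nd (nat_lit 78) (PT.lf (nat_lit 25232) (nat_lit 6) (nat_lit 332) (nat_lit 2) (nat_lit 200) (nat_lit 210)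 (nat_lit 160)) (PT.lf (nat_lit 24472) (nat_lit 6) (nat_lit 322) (nat_lit 2) (nat_lit 201) (nat_lit 210) (nat_lit 159))) (PT.nd (nat_lit 78) (PT.lf (nat_lit 23712) (nat_lit 6) (nat_lit 312) (nat_lit 2) (nat_lit 202) (nat_lit 210) (nat_lit 158)) (PT.lf (nat_lit 23028) (nat_lit 6) (nat_lit 303) (nat_lit 2) (nat_lit 203) (nat_lit 210) (nat_lit 157))))) (PT.nd (nat_lit 312) (PT.nd (nat_lit 156) (PT.nd (nat_lit 78) (PT.lf (nat_lit 22268) (nat_lit 6) (nat_lit 293) (nat_lit 2) (nat_lit 204) (nat_lit 210) (nat_lit 156)) (PT.lf (nat_lit 21584) (nat_lit 6) (nat_lit 284) (nat_lit 2) (nat_lit 205) (nat_lit 210) (nat_lit 155))) (PT.nd (nat_lit 78) (PT.lf (nat_lit 20900) (nat_lit 6) (nat_lit 275) (nat_lit 2) (nat_lit 206) (nat_lit 210) (nat_lit 154)) (PT.lf (nat_lit 20292) (nat_lit 6) (nat_lit 267) (nat_lit 2) (nat_lit 207) (nat_lit 210) (nat_lit 153)))) (PT.nd (nat_lit 156) (PT.nd (nat_lit 78) (PT.lf (nat_lit 19608) (nat_lit 6) (nat_lit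 258) (nat_lit 2) (nat_lit 208) (nat_lit 210) (nat_lit 152)) (PT.lf (nat_lit 19000) (nat_lit 6) (nat_lit 250) (nat_lit 2) (nat_lit 209) (nat_lit 210) (nat_lit 151))) (PT.nd (nat_lit 78) (PT.lf (nat_lit 18392) (nat_lit 3) (nat_lit 242) (nat_lit 0) (nat_lit 210) (nat_lit 210) (nat_lit 150)) (PT.lf (nat_lit 17784) (nat_lit 6) (nat_lit 234) (nat_lit 0) (nat_lit 211) (nat_lit 210) (nat_lit 149))))))) (PT.nd (nat_lit 53976) (PT.nd (nat_lit 546) (PT.nd (nat_lit 234) (PT.nd (nat_lit 78) (PT.lf (nat_lit 17100) (nat_lit 6) (nat_lit 225) (nat_lit 0) (nat_lit 212) (nat_lit 210) (nat_lit 148)) (PT.nd (nat_lit 78) (PT.lf (nat_lit 16492) (nat_lit 6) (nat_lit 217) (nat_lit 0) (nat_lit 213) (nat_lit 210) (nat_lit 147)) (PT.lf (nat_lit 15884) (nat_lit 6) (nat_lit 209) (nat_lit 0) (nat_lit 214) (nat_lit 210) (nat_lit 146)))) (PT.nd (nat_lit 156) (PT.nd (nat_lit 78) (PT.lf (nat_lit 15276) (nat_lit 6) (nat_lit 201) (nat_lit 0) (nat_lit 215)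 (nat_lit 210) (nat_lit 145)) (PT.lf (nat_lit 14668) (nat_lit 6) (nat_lit 193) (nat_lit 0) (nat_lit 216) (nat_lit 210) (nat_lit 144))) (PT.nd (nat_lit 78) (PT.lf (nat_lit 14136) (nat_lit 6) (nat_lit 186) (nat_lit 0) (nat_lit 217) (nat_lit 210) (nat_lit 143)) (PT.lf (nat_lit 13604) (nat_lit 6) (nat_lit 179) (nat_lit 0) (nat_lit 218) (nat_lit 210) (nat_lit 142))))) (PT.nd (nat_lit 53118) (PT.nd (nat_lit 156) (PT.nd (nat_lit 78) (PT.lf (nat_lit 13072) (nat_lit 6) (nat_lit 172) (nat_lit 0) (nat_lit 219) (nat_lit 210) (nat_lit 141)) (PT.lf (nat_lit 12540) (nat_lit 6) (nat_lit 165) (nat_lit 0) (nat_lit 220) (nat_lit 210) (nat_lit 140))) (PT.nd (nat_lit 52884) (PT.lf (nat_lit 12084) (nat_lit 6) (nat_lit 159) (nat_lit 0) (nat_lit 221) (nat_lit 210) (nat_lit 139)) (PT.lf (nat_lit 11628) (nat_lit 6) (nat_lit 153) (nat_lit 5) (nat_lit 138) (nat_lit 211) (nat_lit 221)))) (PT.nd (nat_lit 156) (PT.nd (nat_lit 78) (PT.lf (nat_lit 12160)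 (nat_lit 6) (nat_lit 160) (nat_lit 5) (nat_lit 139) (nat_lit 211) (nat_lit 220)) (PT.lf (nat_lit 12616) (nat_lit 6) (nat_lit 166) (nat_lit 5) (nat_lit 140) (nat_lit 211) (nat_lit 219))) (PT.nd (nat_lit 78) (PT.lf (nat_lit 13148) (nat_lit 6) (nat_lit 173) (nat_lit 5) (nat_lit 141) (nat_lit 211) (nat_lit 218)) (PT.lf (nat_lit 13680) (nat_lit 6) (nat_lit 180) (nat_lit 5) (nat_lit 142) (nat_lit 211) (nat_lit 217)))))) (PT.nd (nat_lit 624) (PT.nd (nat_lit 312) (PT.nd (nat_lit 156) (PT.nd (nat_lit 78) (PT.lf (nat_lit 14212) (nat_lit 6) (nat_lit 187) (nat_lit 5) (nat_lit 143) (nat_lit 211) (nat_lit 216)) (PT.lf (nat_lit 14744) (nat_lit 6) (nat_lit 194) (nat_lit 5) (nat_lit 144) (nat_lit 211) (nat_lit 215))) (PT.nd (nat_lit 78) (PT.lf (nat_lit 15352) (nat_lit 6) (nat_lit 202) (nat_lit 5) (nat_lit 145) (nat_lit 211) (nat_lit 214)) (PT.lf (nat_lit 15960) (nat_lit 6) (nat_lit 210) (nat_lit 5) (nat_lit 146) (nat_lit 211) (nat_lit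 213)))) (PT.nd (nat_lit 156) (PT.nd (nat_lit 78) (PT.lf (nat_lit 16568) (nat_lit 6) (nat_lit 218) (nat_lit 5) (nat_lit 147) (nat_lit 211) (nat_lit 212)) (PT.lf (nat_lit 17176) (nat_lit 3) (nat_lit 226) (nat_lit 4) (nat_lit 148) (nat_lit 211) (nat_lit 211))) (PT.nd (nat_lit 78) (PT.lf (nat_lit 17784) (nat_lit 6) (nat_lit 234) (nat_lit 4) (nat_lit 149) (nat_lit 211) (nat_lit 210)) (PT.lf (nat_lit 18316) (nat_lit 6) (nat_lit 241) (nat_lit 4) (nat_lit 150) (nat_lit 211) (nat_lit 209))))) (PT.nd (nat_lit 312) (PT.nd (nat_lit 156) (PT.nd (nat_lit 78) (PT.lf (nat_lit 18924) (nat_lit 6) (nat_lit 249) (nat_lit 4) (nat_lit 151) (nat_lit 211) (nat_lit 208)) (PT.lf (nat_lit 19532) (nat_lit 6) (nat_lit 257) (nat_lit 4) (nat_lit 152) (nat_lit 211) (nat_lit 207))) (PT.nd (nat_lit 78) (PT.lf (nat_lit 20216) (nat_lit 6) (nat_lit 266) (nat_lit 4) (nat_lit 153) (nat_lit 211) (nat_lit 206)) (PT.lf (nat_lit 20824) (nat_lit 6) (nat_lit 274)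 (nat_lit 4) (nat_lit 154) (nat_lit 211) (nat_lit 205)))) (PT.nd (nat_lit 156) (PT.nd (nat_lit 78) (PT.lf (nat_lit 21508) (nat_lit 6) (nat_lit 283) (nat_lit 4) (nat_lit 155) (nat_lit 211) (nat_lit 204)) (PT.lf (nat_lit 22192) (nat_lit 6) (nat_lit 292) (nat_lit 4) (nat_lit 156) (nat_lit 211) (nat_lit 203))) (PT.nd (nat_lit 78) (PT.lf (nat_lit 22952) (nat_lit 6) (nat_lit 302) (nat_lit 4) (nat_lit 157) (nat_lit 211) (nat_lit 202)) (PT.lf (nat_lit 23636) (nat_lit 6) (nat_lit 311) (nat_lit 4) (nat_lit 158) (nat_lit 211) (nat_lit 201))))))))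
noncomputable def pc48 : PT := (PT.nd (nat_lit 2340) (PT.nd (nat_lit 1170) (PT.nd (nat_lit 546) (PT.nd (nat_lit 234) (PT.nd (nat_lit 78) (PT.lf (nat_lit 24396) (nat_lit 6) (nat_lit 321) (nat_lit 4) (nat_lit 159) (nat_lit 211) (nat_lit 200)) (PT.nd (nat_lit 78) (PT.lf (nat_lit 25156) (nat_lit 6) (nat_lit 331) (nat_lit 4) (nat_lit 160) (nat_lit 211) (nat_lit 199)) (PT.lf (nat_lit 25992) (nat_lit 6) (nat_lit 342) (nat_lit 4) (nat_lit 161) (nat_lit 211) (nat_lit 198)))) (PT.nd (nat_lit 156) (PT.nd (nat_lit 78) (PT.lf (nat_lit 26828) (nat_lit 6) (nat_lit 353) (nat_lit 4) (nat_lit 162) (nat_lit 211) (nat_lit 197)) (PT.lf (nat_lit 27664) (nat_lit 6) (nat_lit 364) (nat_lit 4) (nat_lit 163) (nat_lit 211) (nat_lit 196))) (PT.nd (nat_lit 78) (PT.lf (nat_lit 28500) (nat_lit 6) (nat_lit 375) (nat_lit 4) (nat_lit 164) (nat_lit 211) (nat_lit 195)) (PT.lf (nat_lit 29412) (nat_lit 6) (nat_lit 387) (nat_lit 4) (nat_lit 165) (nat_lit 211)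 (nat_lit 194))))) (PT.nd (nat_lit 312) (PT.nd (nat_lit 156) (PT.nd (nat_lit 78) (PT.lf (nat_lit 30552) (nat_lit 6) (nat_lit 402) (nat_lit 4) (nat_lit 166) (nat_lit 211) (nat_lit 193)) (PT.lf (nat_lit 32300) (nat_lit 6) (nat_lit 425) (nat_lit 4) (nat_lit 167) (nat_lit 211) (nat_lit 192))) (PT.nd (nat_lit 78) (PT.lf (nat_lit 33972) (nat_lit 6) (nat_lit 447) (nat_lit 4) (nat_lit 168) (nat_lit 211) (nat_lit 191)) (PT.lf (nat_lit 35568) (nat_lit 6) (nat_lit 468) (nat_lit 4) (nat_lit 169) (nat_lit 211) (nat_lit 190)))) (PT.nd (nat_lit 156) (PT.nd (nat_lit 78) (PT.lf (nat_lit 35492) (nat_lit 6) (nat_lit 467) (nat_lit 4) (nat_lit 170) (nat_lit 211) (nat_lit 189)) (PT.lf (nat_lit 35416) (nat_lit 6) (nat_lit 466) (nat_lit 4) (nat_lit 171) (nat_lit 211) (nat_lit 188))) (PT.nd (nat_lit 78) (PT.lf (nat_lit 35340) (nat_lit 6) (nat_lit 465) (nat_lit 4) (nat_lit 172) (nat_lit 211) (nat_lit 187)) (PT.lf (nat_lit 35264) (nat_lit 6) (nat_lit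 464) (nat_lit 4) (nat_lit 173) (nat_lit 211) (nat_lit 186)))))) (PT.nd (nat_lit 546) (PT.nd (nat_lit 234) (PT.nd (nat_lit 78) (PT.lf (nat_lit 35188) (nat_lit 6) (nat_lit 463) (nat_lit 4) (nat_lit 174) (nat_lit 211) (nat_lit 185)) (PT.nd (nat_lit 78) (PT.lf (nat_lit 35112) (nat_lit 6) (nat_lit 462) (nat_lit 4) (nat_lit 175) (nat_lit 211) (nat_lit 184)) (PT.lf (nat_lit 35036) (nat_lit 6) (nat_lit 461) (nat_lit 4) (nat_lit 176) (nat_lit 211) (nat_lit 183)))) (PT.nd (nat_lit 156) (PT.nd (nat_lit 78) (PT.lf (nat_lit 34960) (nat_lit 6) (nat_lit 460) (nat_lit 4) (nat_lit 177) (nat_lit 211) (nat_lit 182)) (PT.lf (nat_lit 34884) (nat_lit 6) (nat_lit 459) (nat_lit 4) (nat_lit 178) (nat_lit 211) (nat_lit 181))) (PT.nd (nat_lit 78) (PT.lf (nat_lit 34808) (nat_lit 6) (nat_lit 458) (nat_lit 4) (nat_lit 179) (nat_lit 211) (nat_lit 180)) (PT.lf (nat_lit 34808) (nat_lit 6) (nat_lit 458) (nat_lit 2) (nat_lit 180) (nat_lit 211) (nat_lit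 179))))) (PT.nd (nat_lit 312) (PT.nd (nat_lit 156) (PT.nd (nat_lit 78) (PT.lf (nat_lit 34884) (nat_lit 6) (nat_lit 459) (nat_lit 2) (nat_lit 181) (nat_lit 211) (nat_lit 178)) (PT.lf (nat_lit 34960) (nat_lit 6) (nat_lit 460) (nat_lit 2) (nat_lit 182) (nat_lit 211) (nat_lit 177))) (PT.nd (nat_lit 78) (PT.lf (nat_lit 35036) (nat_lit 6) (nat_lit 461) (nat_lit 2) (nat_lit 183) (nat_lit 211) (nat_lit 176)) (PT.lf (nat_lit 35112) (nat_lit 6) (nat_lit 462) (nat_lit 2) (nat_lit 184) (nat_lit 211) (nat_lit 175)))) (PT.nd (nat_lit 156) (PT.nd (nat_lit 78) (PT.lf (nat_lit 35188) (nat_lit 6) (nat_lit 463) (nat_lit 2) (nat_lit 185) (nat_lit 211) (nat_lit 174)) (PT.lf (nat_lit 35264) (nat_lit 6) (nat_lit 464) (nat_lit 2) (nat_lit 186) (nat_lit 211) (nat_lit 173))) (PT.nd (nat_lit 78) (PT.lf (nat_lit 35340) (nat_lit 6) (nat_lit 465) (nat_lit 2) (nat_lit 187) (nat_lit 211) (nat_lit 172)) (PT.lf (nat_lit 35416) (nat_lit 6) (nat_lit 466)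 (nat_lit 2) (nat_lit 188) (nat_lit 211) (nat_lit 171))))))) (PT.nd (nat_lit 1170) (PT.nd (nat_lit 546) (PT.nd (nat_lit 234) (PT.nd (nat_lit 78) (PT.lf (nat_lit 35492) (nat_lit 6) (nat_lit 467) (nat_lit 2) (nat_lit 189) (nat_lit 211) (nat_lit 170)) (PT.nd (nat_lit 78) (PT.lf (nat_lit 35568) (nat_lit 6) (nat_lit 468) (nat_lit 2) (nat_lit 190) (nat_lit 211) (nat_lit 169)) (PT.lf (nat_lit 33972) (nat_lit 6) (nat_lit 447) (nat_lit 2) (nat_lit 191) (nat_lit 211) (nat_lit 168)))) (PT.nd (nat_lit 156) (PT.nd (nat_lit 78) (PT.lf (nat_lit 32300) (nat_lit 6) (nat_lit 425) (nat_lit 2) (nat_lit 192) (nat_lit 211) (nat_lit 167)) (PT.lf (nat_lit 30552) (nat_lit 6) (nat_lit 402) (nat_lit 2) (nat_lit 193) (nat_lit 211) (nat_lit 166))) (PT.nd (nat_lit 78) (PT.lf (nat_lit 29412) (nat_lit 6) (nat_lit 387) (nat_lit 2) (nat_lit 194) (nat_lit 211) (nat_lit 165)) (PT.lf (nat_lit 28500) (nat_lit 6) (nat_lit 375) (nat_lit 2) (nat_lit 195) (nat_lit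 211) (nat_lit 164))))) (PT.nd (nat_lit 312) (PT.nd (nat_lit 156) (PT.nd (nat_lit 78) (PT.lf (nat_lit 27664) (nat_lit 6) (nat_lit 364) (nat_lit 2) (nat_lit 196) (nat_lit 211) (nat_lit 163)) (PT.lf (nat_lit 26828) (nat_lit 6) (nat_lit 353) (nat_lit 2) (nat_lit 197) (nat_lit 211) (nat_lit 162))) (PT.nd (nat_lit 78) (PT.lf (nat_lit 25992) (nat_lit 6) (nat_lit 342) (nat_lit 2) (nat_lit 198) (nat_lit 211) (nat_lit 161)) (PT.lf (nat_lit 25156) (nat_lit 6) (nat_lit 331) (nat_lit 2) (nat_lit 199) (nat_lit 211) (nat_lit 160)))) (PT.nd (nat_lit 156) (PT.nd (nat_lit 78) (PT.lf (nat_lit 24396) (nat_lit 6) (nat_lit 321) (nat_lit 2) (nat_lit 200) (nat_lit 211) (nat_lit 159)) (PT.lf (nat_lit 23636) (nat_lit 6) (nat_lit 311) (nat_lit 2) (nat_lit 201) (nat_lit 211) (nat_lit 158))) (PT.nd (nat_lit 78) (PT.lf (nat_lit 22952) (nat_lit 6) (nat_lit 302) (nat_lit 2) (nat_lit 202) (nat_lit 211) (nat_lit 157)) (PT.lf (nat_lit 22192) (nat_lit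 6) (nat_lit 292) (nat_lit 2) (nat_lit 203) (nat_lit 211) (nat_lit 156)))))) (PT.nd (nat_lit 624) (PT.nd (nat_lit 312) (PT.nd (nat_lit 156) (PT.nd (nat_lit 78) (PT.lf (nat_lit 21508) (nat_lit 6) (nat_lit 283) (nat_lit 2) (nat_lit 204) (nat_lit 211) (nat_lit 155)) (PT.lf (nat_lit 20824) (nat_lit 6) (nat_lit 274) (nat_lit 2) (nat_lit 205) (nat_lit 211) (nat_lit 154))) (PT.nd (nat_lit 78) (PT.lf (nat_lit 20216) (nat_lit 6) (nat_lit 266) (nat_lit 2) (nat_lit 206) (nat_lit 211) (nat_lit 153)) (PT.lf (nat_lit 19532) (nat_lit 6) (nat_lit 257) (nat_lit 2) (nat_lit 207) (nat_lit 211) (nat_lit 152)))) (PT.nd (nat_lit 156) (PT.nd (nat_lit 78) (PT.lf (nat_lit 18924) (nat_lit 6) (nat_lit 249) (nat_lit 2) (nat_lit 208) (nat_lit 211) (nat_lit 151)) (PT.lf (nat_lit 18316) (nat_lit 6) (nat_lit 241) (nat_lit 2) (nat_lit 209) (nat_lit 211) (nat_lit 150))) (PT.nd (nat_lit 78) (PT.lf (nat_lit 17784) (nat_lit 6) (nat_lit 234) (nat_lit 2) (nat_lit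 210) (nat_lit 211) (nat_lit 149)) (PT.lf (nat_lit 17176) (nat_lit 3) (nat_lit 226) (nat_lit 0) (nat_lit 211) (nat_lit 211) (nat_lit 148))))) (PT.nd (nat_lit 312) (PT.nd (nat_lit 156) (PT.nd (nat_lit 78) (PT.lf (nat_lit 16568) (nat_lit 6) (nat_lit 218) (nat_lit 0) (nat_lit 212) (nat_lit 211) (nat_lit 147)) (PT.lf (nat_lit 15960) (nat_lit 6) (nat_lit 210) (nat_lit 0) (nat_lit 213) (nat_lit 211) (nat_lit 146))) (PT.nd (nat_lit 78) (PT.lf (nat_lit 15352) (nat_lit 6) (nat_lit 202) (nat_lit 0) (nat_lit 214) (nat_lit 211) (nat_lit 145)) (PT.lf (nat_lit 14744) (nat_lit 6) (nat_lit 194) (nat_lit 0) (nat_lit 215) (nat_lit 211) (nat_lit 144)))) (PT.nd (nat_lit 156) (PT.nd (nat_lit 78) (PT.lf (nat_lit 14212) (nat_lit 6) (nat_lit 187) (nat_lit 0) (nat_lit 216) (nat_lit 211) (nat_lit 143)) (PT.lf (nat_lit 13680) (nat_lit 6) (nat_lit 180) (nat_lit 0) (nat_lit 217) (nat_lit 211) (nat_lit 142))) (PT.nd (nat_lit 78) (PT.lf (nat_lit 13148)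 (nat_lit 6) (nat_lit 173) (nat_lit 0) (nat_lit 218) (nat_lit 211) (nat_lit 141)) (PT.lf (nat_lit 12616) (nat_lit 6) (nat_lit 166) (nat_lit 0) (nat_lit 219) (nat_lit 211) (nat_lit 140))))))))
noncomputable def pc49 : PT := (PT.nd (nat_lit 55068) (PT.nd (nat_lit 53820) (PT.nd (nat_lit 53196) (PT.nd (nat_lit 52884) (PT.nd (nat_lit 78) (PT.lf (nat_lit 12160) (nat_lit 6) (nat_lit 160) (nat_lit 0) (nat_lit 220) (nat_lit 211) (nat_lit 139)) (PT.nd (nat_lit 52728) (PT.lf (nat_lit 11628) (nat_lit 6) (nat_lit 153) (nat_lit 0) (nat_lit 221) (nat_lit 211) (nat_lit 138)) (PT.lf (nat_lit 10792) (nat_lit 6) (nat_lit 142) (nat_lit 5) (nat_lit 136) (nat_lit 212) (nat_lit 222)))) (PT.nd (nat_lit 156) (PT.nd (nat_lit 78) (PT.lf (nat_lit 11248) (nat_lit 6) (nat_lit 148) (nat_lit 5) (nat_lit 137) (nat_lit 212) (nat_lit 221)) (PT.lf (nat_lit 11704) (nat_lit 6) (nat_lit 154) (nat_lit 5) (nat_lit 138) (nat_lit 212) (nat_lit 220))) (PT.nd (nat_lit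 78) (PT.lf (nat_lit 12236) (nat_lit 6) (nat_lit 161) (nat_lit 5) (nat_lit 139) (nat_lit 212) (nat_lit 219)) (PT.lf (nat_lit 12692) (nat_lit 6) (nat_lit 167) (nat_lit 5) (nat_lit 140) (nat_lit 212) (nat_lit 218))))) (PT.nd (nat_lit 312) (PT.nd (nat_lit 156) (PT.nd (nat_lit 78) (PT.lf (nat_lit 13224) (nat_lit 6) (nat_lit 174) (nat_lit 5) (nat_lit 141) (nat_lit 212) (nat_lit 217)) (PT.lf (nat_lit 13756) (nat_lit 6) (nat_lit 181) (nat_lit 5) (nat_lit 142) (nat_lit 212) (nat_lit 216))) (PT.nd (nat_lit 78) (PT.lf (nat_lit 14288) (nat_lit 6) (nat_lit 188) (nat_lit 5) (nat_lit 143) (nat_lit 212) (nat_lit 215)) (PT.lf (nat_lit 14820) (nat_lit 6) (nat_lit 195) (nat_lit 5) (nat_lit 144) (nat_lit 212) (nat_lit 214)))) (PT.nd (nat_lit 156) (PT.nd (nat_lit 78) (PT.lf (nat_lit 15428) (nat_lit 6) (nat_lit 203) (nat_lit 5) (nat_lit 145) (nat_lit 212) (nat_lit 213)) (PT.lf (nat_lit 16036) (nat_lit 3) (nat_lit 211) (nat_lit 4) (nat_lit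 146) (nat_lit 212) (nat_lit 212))) (PT.nd (nat_lit 78) (PT.lf (nat_lit 16568) (nat_lit 6) (nat_lit 218) (nat_lit 4) (nat_lit 147) (nat_lit 212) (nat_lit 211)) (PT.lf (nat_lit 17100) (nat_lit 6) (nat_lit 225) (nat_lit 4) (nat_lit 148) (nat_lit 212) (nat_lit 210)))))) (PT.nd (nat_lit 624) (PT.nd (nat_lit 312) (PT.nd (nat_lit 156) (PT.nd (nat_lit 78) (PT.lf (nat_lit 17708) (nat_lit 6) (nat_lit 233) (nat_lit 4) (nat_lit 149) (nat_lit 212) (nat_lit 209)) (PT.lf (nat_lit 18240) (nat_lit 6) (nat_lit 240) (nat_lit 4) (nat_lit 150) (nat_lit 212) (nat_lit 208))) (PT.nd (nat_lit 78) (PT.lf (nat_lit 18848) (nat_lit 6) (nat_lit 248) (nat_lit 4) (nat_lit 151) (nat_lit 212) (nat_lit 207)) (PT.lf (nat_lit 19456) (nat_lit 6) (nat_lit 256) (nat_lit 4) (nat_lit 152) (nat_lit 212) (nat_lit 206)))) (PT.nd (nat_lit 156) (PT.nd (nat_lit 78) (PT.lf (nat_lit 20140) (nat_lit 6) (nat_lit 265) (nat_lit 4) (nat_lit 153) (nat_lit 212) (nat_lit 205))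 (PT.lf (nat_lit 20748) (nat_lit 6) (nat_lit 273) (nat_lit 4) (nat_lit 154) (nat_lit 212) (nat_lit 204))) (PT.nd (nat_lit 78) (PT.lf (nat_lit 21432) (nat_lit 6) (nat_lit 282) (nat_lit 4) (nat_lit 155) (nat_lit 212) (nat_lit 203)) (PT.lf (nat_lit 22116) (nat_lit 6) (nat_lit 291) (nat_lit 4) (nat_lit 156) (nat_lit 212) (nat_lit 202))))) (PT.nd (nat_lit 312) (PT.nd (nat_lit 156) (PT.nd (nat_lit 78) (PT.lf (nat_lit 22876) (nat_lit 6) (nat_lit 301) (nat_lit 4) (nat_lit 157) (nat_lit 212) (nat_lit 201)) (PT.lf (nat_lit 23560) (nat_lit 6) (nat_lit 310) (nat_lit 4) (nat_lit 158) (nat_lit 212) (nat_lit 200))) (PT.nd (nat_lit 78) (PT.lf (nat_lit 24320) (nat_lit 6) (nat_lit 320) (nat_lit 4) (nat_lit 159) (nat_lit 212) (nat_lit 199)) (PT.lf (nat_lit 25080) (nat_lit 6) (nat_lit 330) (nat_lit 4) (nat_lit 160) (nat_lit 212) (nat_lit 198)))) (PT.nd (nat_lit 156) (PT.nd (nat_lit 78) (PT.lf (nat_lit 25916) (nat_lit 6) (nat_lit 341) (nat_lit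 4) (nat_lit 161) (nat_lit 212) (nat_lit 197)) (PT.lf (nat_lit 26752) (nat_lit 6) (nat_lit 352) (nat_lit 4) (nat_lit 162) (nat_lit 212) (nat_lit 196))) (PT.nd (nat_lit 78) (PT.lf (nat_lit 27588) (nat_lit 6) (nat_lit 363) (nat_lit 4) (nat_lit 163) (nat_lit 212) (nat_lit 195)) (PT.lf (nat_lit 28424) (nat_lit 6) (nat_lit 374) (nat_lit 4) (nat_lit 164) (nat_lit 212) (nat_lit 194))))))) (PT.nd (nat_lit 1170) (PT.nd (nat_lit 546) (PT.nd (nat_lit 234) (PT.nd (nat_lit 78) (PT.lf (nat_lit 29336) (nat_lit 6) (nat_lit 386) (nat_lit 4) (nat_lit 165) (nat_lit 212) (nat_lit 193)) (PT.nd (nat_lit 78) (PT.lf (nat_lit 30476) (nat_lit 6) (nat_lit 401) (nat_lit 4) (nat_lit 166) (nat_lit 212) (nat_lit 192)) (PT.lf (nat_lit 32224) (nat_lit 6) (nat_lit 424) (nat_lit 4) (nat_lit 167) (nat_lit 212) (nat_lit 191)))) (PT.nd (nat_lit 156) (PT.nd (nat_lit 78) (PT.lf (nat_lit 33896) (nat_lit 6) (nat_lit 446) (nat_lit 4) (nat_lit 168) (nat_lit 212)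 (nat_lit 190)) (PT.lf (nat_lit 33820) (nat_lit 6) (nat_lit 445) (nat_lit 4) (nat_lit 169) (nat_lit 212) (nat_lit 189))) (PT.nd (nat_lit 78) (PT.lf (nat_lit 33744) (nat_lit 6) (nat_lit 444) (nat_lit 4) (nat_lit 170) (nat_lit 212) (nat_lit 188)) (PT.lf (nat_lit 33668) (nat_lit 6) (nat_lit 443) (nat_lit 4) (nat_lit 171) (nat_lit 212) (nat_lit 187))))) (PT.nd (nat_lit 312) (PT.nd (nat_lit 156) (PT.nd (nat_lit 78) (PT.lf (nat_lit 33592) (nat_lit 6) (nat_lit 442) (nat_lit 4) (nat_lit 172) (nat_lit 212) (nat_lit 186)) (PT.lf (nat_lit 33516) (nat_lit 6) (nat_lit 441) (nat_lit 4) (nat_lit 173) (nat_lit 212) (nat_lit 185))) (PT.nd (nat_lit 78) (PT.lf (nat_lit 33440) (nat_lit 6) (nat_lit 440) (nat_lit 4) (nat_lit 174) (nat_lit 212) (nat_lit 184)) (PT.lf (nat_lit 33364) (nat_lit 6) (nat_lit 439) (nat_lit 4) (nat_lit 175) (nat_lit 212) (nat_lit 183)))) (PT.nd (nat_lit 156) (PT.nd (nat_lit 78) (PT.lf (nat_lit 33288) (nat_lit 6) (nat_lit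 438) (nat_lit 4) (nat_lit 176) (nat_lit 212) (nat_lit 182)) (PT.lf (nat_lit 33212) (nat_lit 6) (nat_lit 437) (nat_lit 4) (nat_lit 177) (nat_lit 212) (nat_lit 181))) (PT.nd (nat_lit 78) (PT.lf (nat_lit 33136) (nat_lit 6) (nat_lit 436) (nat_lit 4) (nat_lit 178) (nat_lit 212) (nat_lit 180)) (PT.lf (nat_lit 33060) (nat_lit 3) (nat_lit 435) (nat_lit 2) (nat_lit 179) (nat_lit 212) (nat_lit 179)))))) (PT.nd (nat_lit 624) (PT.nd (nat_lit 312) (PT.nd (nat_lit 156) (PT.nd (nat_lit 78) (PT.lf (nat_lit 33136) (nat_lit 6) (nat_lit 436) (nat_lit 2) (nat_lit 180) (nat_lit 212) (nat_lit 178)) (PT.lf (nat_lit 33212) (nat_lit 6) (nat_lit 437) (nat_lit 2) (nat_lit 181) (nat_lit 212) (nat_lit 177))) (PT.nd (nat_lit 78) (PT.lf (nat_lit 33288) (nat_lit 6) (nat_lit 438) (nat_lit 2) (nat_lit 182) (nat_lit 212) (nat_lit 176)) (PT.lf (nat_lit 33364) (nat_lit 6) (nat_lit 439) (nat_lit 2) (nat_lit 183) (nat_lit 212) (nat_lit 175)))) (PT.nd (nat_lit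 156) (PT.nd (nat_lit 78) (PT.lf (nat_lit 33440) (nat_lit 6) (nat_lit 440) (nat_lit 2) (nat_lit 184) (nat_lit 212) (nat_lit 174)) (PT.lf (nat_lit 33516) (nat_lit 6) (nat_lit 441) (nat_lit 2) (nat_lit 185) (nat_lit 212) (nat_lit 173))) (PT.nd (nat_lit 78) (PT.lf (nat_lit 33592) (nat_lit 6) (nat_lit 442) (nat_lit 2) (nat_lit 186) (nat_lit 212) (nat_lit 172)) (PT.lf (nat_lit 33668) (nat_lit 6) (nat_lit 443) (nat_lit 2) (nat_lit 187) (nat_lit 212) (nat_lit 171))))) (PT.nd (nat_lit 312) (PT.nd (nat_lit 156) (PT.nd (nat_lit 78) (PT.lf (nat_lit 33744) (nat_lit 6) (nat_lit 444) (nat_lit 2) (nat_lit 188) (nat_lit 212) (nat_lit 170)) (PT.lf (nat_lit 33820) (nat_lit 6) (nat_lit 445) (nat_lit 2) (nat_lit 189) (nat_lit 212) (nat_lit 169))) (PT.nd (nat_lit 78) (PT.lf (nat_lit 33896) (nat_lit 6) (nat_lit 446) (nat_lit 2) (nat_lit 190) (nat_lit 212) (nat_lit 168)) (PT.lf (nat_lit 32224) (nat_lit 6) (nat_lit 424) (nat_lit 2) (nat_lit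 191) (nat_lit 212) (nat_lit 167)))) (PT.nd (nat_lit 156) (PT.nd (nat_lit 78) (PT.lf (nat_lit 30476) (nat_lit 6) (nat_lit 401) (nat_lit 2) (nat_lit 192) (nat_lit 212) (nat_lit 166)) (PT.lf (nat_lit 29336) (nat_lit 6) (nat_lit 386) (nat_lit 2) (nat_lit 193) (nat_lit 212) (nat_lit 165))) (PT.nd (nat_lit 78) (PT.lf (nat_lit 28424) (nat_lit 6) (nat_lit 374) (nat_lit 2) (nat_lit 194) (nat_lit 212) (nat_lit 164)) (PT.lf (nat_lit 27588) (nat_lit 6) (nat_lit 363) (nat_lit 2) (nat_lit 195) (nat_lit 212) (nat_lit 163))))))))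
noncomputable def pc50 : PT := (PT.nd (nat_lit 54834) (PT.nd (nat_lit 1170) (PT.nd (nat_lit 546) (PT.nd (nat_lit 234) (PT.nd (nat_lit 78) (PT.lf (nat_lit 26752) (nat_lit 6) (nat_lit 352) (nat_lit 2) (nat_lit 196) (nat_lit 212) (nat_lit 162)) (PT.nd (nat_lit 78) (PT.lf (nat_lit 25916) (nat_lit 6) (nat_lit 341) (nat_lit 2) (nat_lit 197) (nat_lit 212) (nat_lit 161)) (PT.lf (nat_lit 25080) (nat_lit 6) (nat_lit 330) (nat_lit 2) (nat_lit 198) (nat_lit 212) (nat_lit 160)))) (PT.nd (nat_lit 156) (PT.nd (nat_lit 78) (PT.lf (nat_lit 24320) (nat_lit 6) (nat_lit 320) (nat_lit 2) (nat_lit 199) (nat_lit 212) (nat_lit 159)) (PT.lf (nat_lit 23560) (nat_lit 6) (nat_lit 310) (nat_lit 2) (nat_lit 200) (nat_lit 212) (nat_lit 158))) (PT.nd (nat_lit 78) (PT.lf (nat_lit 22876) (nat_lit 6) (nat_lit 301) (nat_lit 2) (nat_lit 201) (nat_lit 212) (nat_lit 157)) (PT.lf (nat_lit 22116) (nat_lit 6) (nat_lit 291) (nat_lit 2) (nat_lit 202) (nat_lit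 212) (nat_lit 156))))) (PT.nd (nat_lit 312) (PT.nd (nat_lit 156) (PT.nd (nat_lit 78) (PT.lf (nat_lit 21432) (nat_lit 6) (nat_lit 282) (nat_lit 2) (nat_lit 203) (nat_lit 212) (nat_lit 155)) (PT.lf (nat_lit 20748) (nat_lit 6) (nat_lit 273) (nat_lit 2) (nat_lit 204) (nat_lit 212) (nat_lit 154))) (PT.nd (nat_lit 78) (PT.lf (nat_lit 20140) (nat_lit 6) (nat_lit 265) (nat_lit 2) (nat_lit 205) (nat_lit 212) (nat_lit 153)) (PT.lf (nat_lit 19456) (nat_lit 6) (nat_lit 256) (nat_lit 2) (nat_lit 206) (nat_lit 212) (nat_lit 152)))) (PT.nd (nat_lit 156) (PT.nd (nat_lit 78) (PT.lf (nat_lit 18848) (nat_lit 6) (nat_lit 248) (nat_lit 2) (nat_lit 207) (nat_lit 212) (nat_lit 151)) (PT.lf (nat_lit 18240) (nat_lit 6) (nat_lit 240) (nat_lit 2) (nat_lit 208) (nat_lit 212) (nat_lit 150))) (PT.nd (nat_lit 78) (PT.lf (nat_lit 17708) (nat_lit 6) (nat_lit 233) (nat_lit 2) (nat_lit 209) (nat_lit 212) (nat_lit 149)) (PT.lf (nat_lit 17100) (nat_lit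 6) (nat_lit 225) (nat_lit 2) (nat_lit 210) (nat_lit 212) (nat_lit 148)))))) (PT.nd (nat_lit 546) (PT.nd (nat_lit 234) (PT.nd (nat_lit 78) (PT.lf (nat_lit 16568) (nat_lit 6) (nat_lit 218) (nat_lit 2) (nat_lit 211) (nat_lit 212) (nat_lit 147)) (PT.nd (nat_lit 78) (PT.lf (nat_lit 16036) (nat_lit 3) (nat_lit 211) (nat_lit 0) (nat_lit 212) (nat_lit 212) (nat_lit 146)) (PT.lf (nat_lit 15428) (nat_lit 6) (nat_lit 203) (nat_lit 0) (nat_lit 213) (nat_lit 212) (nat_lit 145)))) (PT.nd (nat_lit 156) (PT.nd (nat_lit 78) (PT.lf (nat_lit 14820) (nat_lit 6) (nat_lit 195) (nat_lit 0) (nat_lit 214) (nat_lit 212) (nat_lit 144)) (PT.lf (nat_lit 14288) (nat_lit 6) (nat_lit 188) (nat_lit 0) (nat_lit 215) (nat_lit 212) (nat_lit 143))) (PT.nd (nat_lit 78) (PT.lf (nat_lit 13756) (nat_lit 6) (nat_lit 181) (nat_lit 0) (nat_lit 216) (nat_lit 212) (nat_lit 142)) (PT.lf (nat_lit 13224) (nat_lit 6) (nat_lit 174) (nat_lit 0) (nat_lit 217) (nat_lit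 212) (nat_lit 141))))) (PT.nd (nat_lit 312) (PT.nd (nat_lit 156) (PT.nd (nat_lit 78) (PT.lf (nat_lit 12692) (nat_lit 6) (nat_lit 167) (nat_lit 0) (nat_lit 218) (nat_lit 212) (nat_lit 140)) (PT.lf (nat_lit 12236) (nat_lit 6) (nat_lit 161) (nat_lit 0) (nat_lit 219) (nat_lit 212) (nat_lit 139))) (PT.nd (nat_lit 78) (PT.lf (nat_lit 11704) (nat_lit 6) (nat_lit 154) (nat_lit 0) (nat_lit 220) (nat_lit 212) (nat_lit 138)) (PT.lf (nat_lit 11248) (nat_lit 6) (nat_lit 148) (nat_lit 0) (nat_lit 221) (nat_lit 212) (nat_lit 137)))) (PT.nd (nat_lit 52650) (PT.nd (nat_lit 52572) (PT.lf (nat_lit 10792) (nat_lit 6) (nat_lit 142) (nat_lit 0) (nat_lit 222) (nat_lit 212) (nat_lit 136)) (PT.lf (nat_lit 10412) (nat_lit 6) (nat_lit 137) (nat_lit 5) (nat_lit 135) (nat_lit 213) (nat_lit 222))) (PT.nd (nat_lit 78) (PT.lf (nat_lit 10868) (nat_lit 6) (nat_lit 143) (nat_lit 5) (nat_lit 136) (nat_lit 213) (nat_lit 221)) (PT.lf (nat_lit 11324) (nat_lit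 6) (nat_lit 149) (nat_lit 5) (nat_lit 137) (nat_lit 213) (nat_lit 220))))))) (PT.nd (nat_lit 1170) (PT.nd (nat_lit 546) (PT.nd (nat_lit 234) (PT.nd (nat_lit 78) (PT.lf (nat_lit 11780) (nat_lit 6) (nat_lit 155) (nat_lit 5) (nat_lit 138) (nat_lit 213) (nat_lit 219)) (PT.nd (nat_lit 78) (PT.lf (nat_lit 12312) (nat_lit 6) (nat_lit 162) (nat_lit 5) (nat_lit 139) (nat_lit 213) (nat_lit 218)) (PT.lf (nat_lit 12768) (nat_lit 6) (nat_lit 168) (nat_lit 5) (nat_lit 140) (nat_lit 213) (nat_lit 217)))) (PT.nd (nat_lit 156) (PT.nd (nat_lit 78) (PT.lf (nat_lit 13300) (nat_lit 6) (nat_lit 175) (nat_lit 5) (nat_lit 141) (nat_lit 213) (nat_lit 216)) (PT.lf (nat_lit 13832) (nat_lit 6) (nat_lit 182) (nat_lit 5) (nat_lit 142) (nat_lit 213) (nat_lit 215))) (PT.nd (nat_lit 78) (PT.lf (nat_lit 14364) (nat_lit 6) (nat_lit 189) (nat_lit 5) (nat_lit 143) (nat_lit 213) (nat_lit 214)) (PT.lf (nat_lit 14896) (nat_lit 3) (nat_lit 196) (nat_lit 4)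 (nat_lit 144) (nat_lit 213) (nat_lit 213))))) (PT.nd (nat_lit 312) (PT.nd (nat_lit 156) (PT.nd (nat_lit 78) (PT.lf (nat_lit 15428) (nat_lit 6) (nat_lit 203) (nat_lit 4) (nat_lit 145) (nat_lit 213) (nat_lit 212)) (PT.lf (nat_lit 15960) (nat_lit 6) (nat_lit 210) (nat_lit 4) (nat_lit 146) (nat_lit 213) (nat_lit 211))) (PT.nd (nat_lit 78) (PT.lf (nat_lit 16492) (nat_lit 6) (nat_lit 217) (nat_lit 4) (nat_lit 147) (nat_lit 213) (nat_lit 210)) (PT.lf (nat_lit 17024) (nat_lit 6) (nat_lit 224) (nat_lit 4) (nat_lit 148) (nat_lit 213) (nat_lit 209)))) (PT.nd (nat_lit 156) (PT.nd (nat_lit 78) (PT.lf (nat_lit 17632) (nat_lit 6) (nat_lit 232) (nat_lit 4) (nat_lit 149) (nat_lit 213) (nat_lit 208)) (PT.lf (nat_lit 18164) (nat_lit 6) (nat_lit 239) (nat_lit 4) (nat_lit 150) (nat_lit 213) (nat_lit 207))) (PT.nd (nat_lit 78) (PT.lf (nat_lit 18772) (nat_lit 6) (nat_lit 247) (nat_lit 4) (nat_lit 151) (nat_lit 213) (nat_lit 206)) (PT.lf (nat_lit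 19380) (nat_lit 6) (nat_lit 255) (nat_lit 4) (nat_lit 152) (nat_lit 213) (nat_lit 205)))))) (PT.nd (nat_lit 624) (PT.nd (nat_lit 312) (PT.nd (nat_lit 156) (PT.nd (nat_lit 78) (PT.lf (nat_lit 20064) (nat_lit 6) (nat_lit 264) (nat_lit 4) (nat_lit 153) (nat_lit 213) (nat_lit 204)) (PT.lf (nat_lit 20672) (nat_lit 6) (nat_lit 272) (nat_lit 4) (nat_lit 154) (nat_lit 213) (nat_lit 203))) (PT.nd (nat_lit 78) (PT.lf (nat_lit 21356) (nat_lit 6) (nat_lit 281) (nat_lit 4) (nat_lit 155) (nat_lit 213) (nat_lit 202)) (PT.lf (nat_lit 22040) (nat_lit 6) (nat_lit 290) (nat_lit 4) (nat_lit 156) (nat_lit 213) (nat_lit 201)))) (PT.nd (nat_lit 156) (PT.nd (nat_lit 78) (PT.lf (nat_lit 22800) (nat_lit 6) (nat_lit 300) (nat_lit 4) (nat_lit 157) (nat_lit 213) (nat_lit 200)) (PT.lf (nat_lit 23484) (nat_lit 6) (nat_lit 309) (nat_lit 4) (nat_lit 158) (nat_lit 213) (nat_lit 199))) (PT.nd (nat_lit 78) (PT.lf (nat_lit 24244) (nat_lit 6) (nat_lit 319)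 (nat_lit 4) (nat_lit 159) (nat_lit 213) (nat_lit 198)) (PT.lf (nat_lit 25004) (nat_lit 6) (nat_lit 329) (nat_lit 4) (nat_lit 160) (nat_lit 213) (nat_lit 197))))) (PT.nd (nat_lit 312) (PT.nd (nat_lit 156) (PT.nd (nat_lit 78) (PT.lf (nat_lit 25840) (nat_lit 6) (nat_lit 340) (nat_lit 4) (nat_lit 161) (nat_lit 213) (nat_lit 196)) (PT.lf (nat_lit 26676) (nat_lit 6) (nat_lit 351) (nat_lit 4) (nat_lit 162) (nat_lit 213) (nat_lit 195))) (PT.nd (nat_lit 78) (PT.lf (nat_lit 27512) (nat_lit 6) (nat_lit 362) (nat_lit 4) (nat_lit 163) (nat_lit 213) (nat_lit 194)) (PT.lf (nat_lit 28348) (nat_lit 6) (nat_lit 373) (nat_lit 4) (nat_lit 164) (nat_lit 213) (nat_lit 193)))) (PT.nd (nat_lit 156) (PT.nd (nat_lit 78) (PT.lf (nat_lit 29260) (nat_lit 6) (nat_lit 385) (nat_lit 4) (nat_lit 165) (nat_lit 213) (nat_lit 192)) (PT.lf (nat_lit 30400) (nat_lit 6) (nat_lit 400) (nat_lit 4) (nat_lit 166) (nat_lit 213) (nat_lit 191))) (PT.nd (nat_lit 78)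 (PT.lf (nat_lit 32148) (nat_lit 6) (nat_lit 423) (nat_lit 4) (nat_lit 167) (nat_lit 213) (nat_lit 190)) (PT.lf (nat_lit 32072) (nat_lit 6) (nat_lit 422) (nat_lit 4) (nat_lit 168) (nat_lit 213) (nat_lit 189))))))))
noncomputable def pc51 : PT := (PT.nd (nat_lit 2418) (PT.nd (nat_lit 1170) (PT.nd (nat_lit 546) (PT.nd (nat_lit 234) (PT.nd (nat_lit 78) (PT.lf (nat_lit 31996) (nat_lit 6) (nat_lit 421) (nat_lit 4) (nat_lit 169) (nat_lit 213) (nat_lit 188)) (PT.nd (nat_lit 78) (PT.lf (nat_lit 31920) (nat_lit 6) (nat_lit 420) (nat_lit 4) (nat_lit 170) (nat_lit 213) (nat_lit 187)) (PT.lf (nat_lit 31844) (nat_lit 6) (nat_lit 419) (nat_lit 4) (nat_lit 171) (nat_lit 213) (nat_lit 186)))) (PT.nd (nat_lit 156) (PT.nd (nat_lit 78) (PT.lf (nat_lit 31768) (nat_lit 6) (nat_lit 418) (nat_lit 4) (nat_lit 172) (nat_lit 213) (nat_lit 185)) (PT.lf (nat_lit 31692) (nat_lit 6) (nat_lit 417) (nat_lit 4) (nat_lit 173) (nat_lit 213) (nat_lit 184)))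 (PT.nd (nat_lit 78) (PT.lf (nat_lit 31616) (nat_lit 6) (nat_lit 416) (nat_lit 4) (nat_lit 174) (nat_lit 213) (nat_lit 183)) (PT.lf (nat_lit 31540) (nat_lit 6) (nat_lit 415) (nat_lit 4) (nat_lit 175) (nat_lit 213) (nat_lit 182))))) (PT.nd (nat_lit 312) (PT.nd (nat_lit 156) (PT.nd (nat_lit 78) (PT.lf (nat_lit 31464) (nat_lit 6) (nat_lit 414) (nat_lit 4) (nat_lit 176) (nat_lit 213) (nat_lit 181)) (PT.lf (nat_lit 31388) (nat_lit 6) (nat_lit 413) (nat_lit 4) (nat_lit 177) (nat_lit 213) (nat_lit 180))) (PT.nd (nat_lit 78) (PT.lf (nat_lit 31312) (nat_lit 6) (nat_lit 412) (nat_lit 4) (nat_lit 178) (nat_lit 213) (nat_lit 179)) (PT.lf (nat_lit 31312) (nat_lit 6) (nat_lit 412) (nat_lit 2) (nat_lit 179) (nat_lit 213) (nat_lit 178)))) (PT.nd (nat_lit 156) (PT.nd (nat_lit 78) (PT.lf (nat_lit 31388) (nat_lit 6) (nat_lit 413) (nat_lit 2) (nat_lit 180) (nat_lit 213) (nat_lit 177)) (PT.lf (nat_lit 31464) (nat_lit 6) (nat_lit 414) (nat_lit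 2) (nat_lit 181) (nat_lit 213) (nat_lit 176))) (PT.nd (nat_lit 78) (PT.lf (nat_lit 31540) (nat_lit 6) (nat_lit 415) (nat_lit 2) (nat_lit 182) (nat_lit 213) (nat_lit 175)) (PT.lf (nat_lit 31616) (nat_lit 6) (nat_lit 416) (nat_lit 2) (nat_lit 183) (nat_lit 213) (nat_lit 174)))))) (PT.nd (nat_lit 624) (PT.nd (nat_lit 312) (PT.nd (nat_lit 156) (PT.nd (nat_lit 78) (PT.lf (nat_lit 31692) (nat_lit 6) (nat_lit 417) (nat_lit 2) (nat_lit 184) (nat_lit 213) (nat_lit 173)) (PT.lf (nat_lit 31768) (nat_lit 6) (nat_lit 418) (nat_lit 2) (nat_lit 185) (nat_lit 213) (nat_lit 172))) (PT.nd (nat_lit 78) (PT.lf (nat_lit 31844) (nat_lit 6) (nat_lit 419) (nat_lit 2) (nat_lit 186) (nat_lit 213) (nat_lit 171)) (PT.lf (nat_lit 31920) (nat_lit 6) (nat_lit 420) (nat_lit 2) (nat_lit 187) (nat_lit 213) (nat_lit 170)))) (PT.nd (nat_lit 156) (PT.nd (nat_lit 78) (PT.lf (nat_lit 31996) (nat_lit 6) (nat_lit 421) (nat_lit 2) (nat_lit 188) (nat_lit 213)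 (nat_lit 169)) (PT.lf (nat_lit 32072) (nat_lit 6) (nat_lit 422) (nat_lit 2) (nat_lit 189) (nat_lit 213) (nat_lit 168))) (PT.nd (nat_lit 78) (PT.lf (nat_lit 32148) (nat_lit 6) (nat_lit 423) (nat_lit 2) (nat_lit 190) (nat_lit 213) (nat_lit 167)) (PT.lf (nat_lit 30400) (nat_lit 6) (nat_lit 400) (nat_lit 2) (nat_lit 191) (nat_lit 213) (nat_lit 166))))) (PT.nd (nat_lit 312) (PT.nd (nat_lit 156) (PT.nd (nat_lit 78) (PT.lf (nat_lit 29260) (nat_lit 6) (nat_lit 385) (nat_lit 2) (nat_lit 192) (nat_lit 213) (nat_lit 165)) (PT.lf (nat_lit 28348) (nat_lit 6) (nat_lit 373) (nat_lit 2) (nat_lit 193) (nat_lit 213) (nat_lit 164))) (PT.nd (nat_lit 78) (PT.lf (nat_lit 27512) (nat_lit 6) (nat_lit 362) (nat_lit 2) (nat_lit 194) (nat_lit 213) (nat_lit 163)) (PT.lf (nat_lit 26676) (nat_lit 6) (nat_lit 351) (nat_lit 2) (nat_lit 195) (nat_lit 213) (nat_lit 162)))) (PT.nd (nat_lit 156) (PT.nd (nat_lit 78) (PT.lf (nat_lit 25840) (nat_lit 6) (nat_lit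 340) (nat_lit 2) (nat_lit 196) (nat_lit 213) (nat_lit 161)) (PT.lf (nat_lit 25004) (nat_lit 6) (nat_lit 329) (nat_lit 2) (nat_lit 197) (nat_lit 213) (nat_lit 160))) (PT.nd (nat_lit 78) (PT.lf (nat_lit 24244) (nat_lit 6) (nat_lit 319) (nat_lit 2) (nat_lit 198) (nat_lit 213) (nat_lit 159)) (PT.lf (nat_lit 23484) (nat_lit 6) (nat_lit 309) (nat_lit 2) (nat_lit 199) (nat_lit 213) (nat_lit 158))))))) (PT.nd (nat_lit 1170) (PT.nd (nat_lit 546) (PT.nd (nat_lit 234) (PT.nd (nat_lit 78) (PT.lf (nat_lit 22800) (nat_lit 6) (nat_lit 300) (nat_lit 2) (nat_lit 200) (nat_lit 213) (nat_lit 157)) (PT.nd (nat_lit 78) (PT.lf (nat_lit 22040) (nat_lit 6) (nat_lit 290) (nat_lit 2) (nat_lit 201) (nat_lit 213) (nat_lit 156)) (PT.lf (nat_lit 21356) (nat_lit 6) (nat_lit 281) (nat_lit 2) (nat_lit 202) (nat_lit 213) (nat_lit 155)))) (PT.nd (nat_lit 156) (PT.nd (nat_lit 78) (PT.lf (nat_lit 20672) (nat_lit 6) (nat_lit 272) (nat_lit 2) (nat_lit 203)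 (nat_lit 213) (nat_lit 154)) (PT.lf (nat_lit 20064) (nat_lit 6) (nat_lit 264) (nat_lit 2) (nat_lit 204) (nat_lit 213) (nat_lit 153))) (PT.nd (nat_lit 78) (PT.lf (nat_lit 19380) (nat_lit 6) (nat_lit 255) (nat_lit 2) (nat_lit 205) (nat_lit 213) (nat_lit 152)) (PT.lf (nat_lit 18772) (nat_lit 6) (nat_lit 247) (nat_lit 2) (nat_lit 206) (nat_lit 213) (nat_lit 151))))) (PT.nd (nat_lit 312) (PT.nd (nat_lit 156) (PT.nd (nat_lit 78) (PT.lf (nat_lit 18164) (nat_lit 6) (nat_lit 239) (nat_lit 2) (nat_lit 207) (nat_lit 213) (nat_lit 150)) (PT.lf (nat_lit 17632) (nat_lit 6) (nat_lit 232) (nat_lit 2) (nat_lit 208) (nat_lit 213) (nat_lit 149))) (PT.nd (nat_lit 78) (PT.lf (nat_lit 17024) (nat_lit 6) (nat_lit 224) (nat_lit 2) (nat_lit 209) (nat_lit 213) (nat_lit 148)) (PT.lf (nat_lit 16492) (nat_lit 6) (nat_lit 217) (nat_lit 2) (nat_lit 210) (nat_lit 213) (nat_lit 147)))) (PT.nd (nat_lit 156) (PT.nd (nat_lit 78) (PT.lf (nat_lit 15960)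 (nat_lit 6) (nat_lit 210) (nat_lit 2) (nat_lit 211) (nat_lit 213) (nat_lit 146)) (PT.lf (nat_lit 15428) (nat_lit 6) (nat_lit 203) (nat_lit 2) (nat_lit 212) (nat_lit 213) (nat_lit 145))) (PT.nd (nat_lit 78) (PT.lf (nat_lit 14896) (nat_lit 3) (nat_lit 196) (nat_lit 0) (nat_lit 213) (nat_lit 213) (nat_lit 144)) (PT.lf (nat_lit 14364) (nat_lit 6) (nat_lit 189) (nat_lit 0) (nat_lit 214) (nat_lit 213) (nat_lit 143)))))) (PT.nd (nat_lit 52962) (PT.nd (nat_lit 312) (PT.nd (nat_lit 156) (PT.nd (nat_lit 78) (PT.lf (nat_lit 13832) (nat_lit 6) (nat_lit 182) (nat_lit 0) (nat_lit 215) (nat_lit 213) (nat_lit 142)) (PT.lf (nat_lit 13300) (nat_lit 6) (nat_lit 175) (nat_lit 0) (nat_lit 216) (nat_lit 213) (nat_lit 141))) (PT.nd (nat_lit 78) (PT.lf (nat_lit 12768) (nat_lit 6) (nat_lit 168) (nat_lit 0) (nat_lit 217) (nat_lit 213) (nat_lit 140)) (PT.lf (nat_lit 12312) (nat_lit 6) (nat_lit 162) (nat_lit 0) (nat_lit 218) (nat_lit 213) (nat_lit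 139)))) (PT.nd (nat_lit 156) (PT.nd (nat_lit 78) (PT.lf (nat_lit 11780) (nat_lit 6) (nat_lit 155) (nat_lit 0) (nat_lit 219) (nat_lit 213) (nat_lit 138)) (PT.lf (nat_lit 11324) (nat_lit 6) (nat_lit 149) (nat_lit 0) (nat_lit 220) (nat_lit 213) (nat_lit 137))) (PT.nd (nat_lit 78) (PT.lf (nat_lit 10868) (nat_lit 6) (nat_lit 143) (nat_lit 0) (nat_lit 221) (nat_lit 213) (nat_lit 136)) (PT.lf (nat_lit 10412) (nat_lit 6) (nat_lit 137) (nat_lit 0) (nat_lit 222) (nat_lit 213) (nat_lit 135))))) (PT.nd (nat_lit 312) (PT.nd (nat_lit 156) (PT.nd (nat_lit 78) (PT.lf (nat_lit 9576) (nat_lit 6) (nat_lit 126) (nat_lit 5) (nat_lit 133) (nat_lit 214) (nat_lit 223)) (PT.lf (nat_lit 10032) (nat_lit 6) (nat_lit 132) (nat_lit 5) (nat_lit 134) (nat_lit 214) (nat_lit 222))) (PT.nd (nat_lit 78) (PT.lf (nat_lit 10488) (nat_lit 6) (nat_lit 138) (nat_lit 5) (nat_lit 135) (nat_lit 214) (nat_lit 221)) (PT.lf (nat_lit 10944) (nat_lit 6) (nat_lit 144)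 (nat_lit 5) (nat_lit 136) (nat_lit 214) (nat_lit 220)))) (PT.nd (nat_lit 156) (PT.nd (nat_lit 78) (PT.lf (nat_lit 11400) (nat_lit 6) (nat_lit 150) (nat_lit 5) (nat_lit 137) (nat_lit 214) (nat_lit 219)) (PT.lf (nat_lit 11856) (nat_lit 6) (nat_lit 156) (nat_lit 5) (nat_lit 138) (nat_lit 214) (nat_lit 218))) (PT.nd (nat_lit 78) (PT.lf (nat_lit 12388) (nat_lit 6) (nat_lit 163) (nat_lit 5) (nat_lit 139) (nat_lit 214) (nat_lit 217)) (PT.lf (nat_lit 12844) (nat_lit 6) (nat_lit 169) (nat_lit 5) (nat_lit 140) (nat_lit 214) (nat_lit 216))))))))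
noncomputable def pc52 : PT := (PT.nd (nat_lit 3666) (PT.nd (nat_lit 1170) (PT.nd (nat_lit 546) (PT.nd (nat_lit 234) (PT.nd (nat_lit 78) (PT.lf (nat_lit 13376) (nat_lit 6) (nat_lit 176) (nat_lit 5) (nat_lit 141) (nat_lit 214) (nat_lit 215)) (PT.nd (nat_lit 78) (PT.lf (nat_lit 13908) (nat_lit 3) (nat_lit 183) (nat_lit 4) (nat_lit 142) (nat_lit 214) (nat_lit 214)) (PT.lf (nat_lit 14364) (nat_lit 6) (nat_lit 189) (nat_lit 4) (nat_lit 143) (nat_lit 214) (nat_lit 213)))) (PT.nd (nat_lit 156) (PT.nd (nat_lit 78) (PT.lf (nat_lit 14820) (nat_lit 6) (nat_lit 195) (nat_lit 4) (nat_lit 144) (nat_lit 214) (nat_lit 212)) (PT.lf (nat_lit 15352) (nat_lit 6) (nat_lit 202) (nat_lit 4) (nat_lit 145) (nat_lit 214) (nat_lit 211))) (PT.nd (nat_lit 78) (PT.lf (nat_lit 15884) (nat_lit 6) (nat_lit 209) (nat_lit 4) (nat_lit 146) (nat_lit 214) (nat_lit 210)) (PT.lf (nat_lit 16416) (nat_lit 6) (nat_lit 216) (nat_lit 4) (nat_lit 147) (nat_lit 214)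 (nat_lit 209))))) (PT.nd (nat_lit 312) (PT.nd (nat_lit 156) (PT.nd (nat_lit 78) (PT.lf (nat_lit 16948) (nat_lit 6) (nat_lit 223) (nat_lit 4) (nat_lit 148) (nat_lit 214) (nat_lit 208)) (PT.lf (nat_lit 17556) (nat_lit 6) (nat_lit 231) (nat_lit 4) (nat_lit 149) (nat_lit 214) (nat_lit 207))) (PT.nd (nat_lit 78) (PT.lf (nat_lit 18088) (nat_lit 6) (nat_lit 238) (nat_lit 4) (nat_lit 150) (nat_lit 214) (nat_lit 206)) (PT.lf (nat_lit 18696) (nat_lit 6) (nat_lit 246) (nat_lit 4) (nat_lit 151) (nat_lit 214) (nat_lit 205)))) (PT.nd (nat_lit 156) (PT.nd (nat_lit 78) (PT.lf (nat_lit 19304) (nat_lit 6) (nat_lit 254) (nat_lit 4) (nat_lit 152) (nat_lit 214) (nat_lit 204)) (PT.lf (nat_lit 19988) (nat_lit 6) (nat_lit 263) (nat_lit 4) (nat_lit 153) (nat_lit 214) (nat_lit 203))) (PT.nd (nat_lit 78) (PT.lf (nat_lit 20596) (nat_lit 6) (nat_lit 271) (nat_lit 4) (nat_lit 154) (nat_lit 214) (nat_lit 202)) (PT.lf (nat_lit 21280) (nat_lit 6) (nat_lit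 280) (nat_lit 4) (nat_lit 155) (nat_lit 214) (nat_lit 201)))))) (PT.nd (nat_lit 546) (PT.nd (nat_lit 234) (PT.nd (nat_lit 78) (PT.lf (nat_lit 21964) (nat_lit 6) (nat_lit 289) (nat_lit 4) (nat_lit 156) (nat_lit 214) (nat_lit 200)) (PT.nd (nat_lit 78) (PT.lf (nat_lit 22724) (nat_lit 6) (nat_lit 299) (nat_lit 4) (nat_lit 157) (nat_lit 214) (nat_lit 199)) (PT.lf (nat_lit 23408) (nat_lit 6) (nat_lit 308) (nat_lit 4) (nat_lit 158) (nat_lit 214) (nat_lit 198)))) (PT.nd (nat_lit 156) (PT.nd (nat_lit 78) (PT.lf (nat_lit 24168) (nat_lit 6) (nat_lit 318) (nat_lit 4) (nat_lit 159) (nat_lit 214) (nat_lit 197)) (PT.lf (nat_lit 24928) (nat_lit 6) (nat_lit 328) (nat_lit 4) (nat_lit 160) (nat_lit 214) (nat_lit 196))) (PT.nd (nat_lit 78) (PT.lf (nat_lit 25764) (nat_lit 6) (nat_lit 339) (nat_lit 4) (nat_lit 161) (nat_lit 214) (nat_lit 195)) (PT.lf (nat_lit 26600) (nat_lit 6) (nat_lit 350) (nat_lit 4) (nat_lit 162) (nat_lit 214) (nat_lit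 194))))) (PT.nd (nat_lit 312) (PT.nd (nat_lit 156) (PT.nd (nat_lit 78) (PT.lf (nat_lit 27436) (nat_lit 6) (nat_lit 361) (nat_lit 4) (nat_lit 163) (nat_lit 214) (nat_lit 193)) (PT.lf (nat_lit 28272) (nat_lit 6) (nat_lit 372) (nat_lit 4) (nat_lit 164) (nat_lit 214) (nat_lit 192))) (PT.nd (nat_lit 78) (PT.lf (nat_lit 29184) (nat_lit 6) (nat_lit 384) (nat_lit 4) (nat_lit 165) (nat_lit 214) (nat_lit 191)) (PT.lf (nat_lit 30324) (nat_lit 6) (nat_lit 399) (nat_lit 4) (nat_lit 166) (nat_lit 214) (nat_lit 190)))) (PT.nd (nat_lit 156) (PT.nd (nat_lit 78) (PT.lf (nat_lit 30248) (nat_lit 6) (nat_lit 398) (nat_lit 4) (nat_lit 167) (nat_lit 214) (nat_lit 189)) (PT.lf (nat_lit 30172) (nat_lit 6) (nat_lit 397) (nat_lit 4) (nat_lit 168) (nat_lit 214) (nat_lit 188))) (PT.nd (nat_lit 1404) (PT.lf (nat_lit 30096) (nat_lit 6) (nat_lit 396) (nat_lit 4) (nat_lit 169) (nat_lit 214) (nat_lit 187)) (PT.lf (nat_lit 30096) (nat_lit 6) (nat_lit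 396) (nat_lit 2) (nat_lit 187) (nat_lit 214) (nat_lit 169))))))) (PT.nd (nat_lit 1170) (PT.nd (nat_lit 546) (PT.nd (nat_lit 234) (PT.nd (nat_lit 78) (PT.lf (nat_lit 30172) (nat_lit 6) (nat_lit 397) (nat_lit 2) (nat_lit 188) (nat_lit 214) (nat_lit 168)) (PT.nd (nat_lit 78) (PT.lf (nat_lit 30248) (nat_lit 6) (nat_lit 398) (nat_lit 2) (nat_lit 189) (nat_lit 214) (nat_lit 167)) (PT.lf (nat_lit 30324) (nat_lit 6) (nat_lit 399) (nat_lit 2) (nat_lit 190) (nat_lit 214) (nat_lit 166)))) (PT.nd (nat_lit 156) (PT.nd (nat_lit 78) (PT.lf (nat_lit 29184) (nat_lit 6) (nat_lit 384) (nat_lit 2) (nat_lit 191) (nat_lit 214) (nat_lit 165)) (PT.lf (nat_lit 28272) (nat_lit 6) (nat_lit 372) (nat_lit 2) (nat_lit 192) (nat_lit 214) (nat_lit 164))) (PT.nd (nat_lit 78) (PT.lf (nat_lit 27436) (nat_lit 6) (nat_lit 361) (nat_lit 2) (nat_lit 193) (nat_lit 214) (nat_lit 163)) (PT.lf (nat_lit 26600) (nat_lit 6) (nat_lit 350) (nat_lit 2) (nat_lit 194)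 (nat_lit 214) (nat_lit 162))))) (PT.nd (nat_lit 312) (PT.nd (nat_lit 156) (PT.nd (nat_lit 78) (PT.lf (nat_lit 25764) (nat_lit 6) (nat_lit 339) (nat_lit 2) (nat_lit 195) (nat_lit 214) (nat_lit 161)) (PT.lf (nat_lit 24928) (nat_lit 6) (nat_lit 328) (nat_lit 2) (nat_lit 196) (nat_lit 214) (nat_lit 160))) (PT.nd (nat_lit 78) (PT.lf (nat_lit 24168) (nat_lit 6) (nat_lit 318) (nat_lit 2) (nat_lit 197) (nat_lit 214) (nat_lit 159)) (PT.lf (nat_lit 23408) (nat_lit 6) (nat_lit 308) (nat_lit 2) (nat_lit 198) (nat_lit 214) (nat_lit 158)))) (PT.nd (nat_lit 156) (PT.nd (nat_lit 78) (PT.lf (nat_lit 22724) (nat_lit 6) (nat_lit 299) (nat_lit 2) (nat_lit 199) (nat_lit 214) (nat_lit 157)) (PT.lf (nat_lit 21964) (nat_lit 6) (nat_lit 289) (nat_lit 2) (nat_lit 200) (nat_lit 214) (nat_lit 156))) (PT.nd (nat_lit 78) (PT.lf (nat_lit 21280) (nat_lit 6) (nat_lit 280) (nat_lit 2) (nat_lit 201) (nat_lit 214) (nat_lit 155)) (PT.lf (nat_lit 20596)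 (nat_lit 6) (nat_lit 271) (nat_lit 2) (nat_lit 202) (nat_lit 214) (nat_lit 154)))))) (PT.nd (nat_lit 624) (PT.nd (nat_lit 312) (PT.nd (nat_lit 156) (PT.nd (nat_lit 78) (PT.lf (nat_lit 19988) (nat_lit 6) (nat_lit 263) (nat_lit 2) (nat_lit 203) (nat_lit 214) (nat_lit 153)) (PT.lf (nat_lit 19304) (nat_lit 6) (nat_lit 254) (nat_lit 2) (nat_lit 204) (nat_lit 214) (nat_lit 152))) (PT.nd (nat_lit 78) (PT.lf (nat_lit 18696) (nat_lit 6) (nat_lit 246) (nat_lit 2) (nat_lit 205) (nat_lit 214) (nat_lit 151)) (PT.lf (nat_lit 18088) (nat_lit 6) (nat_lit 238) (nat_lit 2) (nat_lit 206) (nat_lit 214) (nat_lit 150)))) (PT.nd (nat_lit 156) (PT.nd (nat_lit 78) (PT.lf (nat_lit 17556) (nat_lit 6) (nat_lit 231) (nat_lit 2) (nat_lit 207) (nat_lit 214) (nat_lit 149)) (PT.lf (nat_lit 16948) (nat_lit 6) (nat_lit 223) (nat_lit 2) (nat_lit 208) (nat_lit 214) (nat_lit 148))) (PT.nd (nat_lit 78) (PT.lf (nat_lit 16416) (nat_lit 6) (nat_lit 216) (nat_lit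 2) (nat_lit 209) (nat_lit 214) (nat_lit 147)) (PT.lf (nat_lit 15884) (nat_lit 6) (nat_lit 209) (nat_lit 2) (nat_lit 210) (nat_lit 214) (nat_lit 146))))) (PT.nd (nat_lit 312) (PT.nd (nat_lit 156) (PT.nd (nat_lit 78) (PT.lf (nat_lit 15352) (nat_lit 6) (nat_lit 202) (nat_lit 2) (nat_lit 211) (nat_lit 214) (nat_lit 145)) (PT.lf (nat_lit 14820) (nat_lit 6) (nat_lit 195) (nat_lit 2) (nat_lit 212) (nat_lit 214) (nat_lit 144))) (PT.nd (nat_lit 78) (PT.lf (nat_lit 14364) (nat_lit 6) (nat_lit 189) (nat_lit 2) (nat_lit 213) (nat_lit 214) (nat_lit 143)) (PT.lf (nat_lit 13908) (nat_lit 3) (nat_lit 183) (nat_lit 0) (nat_lit 214) (nat_lit 214) (nat_lit 142)))) (PT.nd (nat_lit 156) (PT.nd (nat_lit 78) (PT.lf (nat_lit 13376) (nat_lit 6) (nat_lit 176) (nat_lit 0) (nat_lit 215) (nat_lit 214) (nat_lit 141)) (PT.lf (nat_lit 12844) (nat_lit 6) (nat_lit 169) (nat_lit 0) (nat_lit 216) (nat_lit 214) (nat_lit 140))) (PT.nd (nat_lit 78) (PT.lf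 (nat_lit 12388) (nat_lit 6) (nat_lit 163) (nat_lit 0) (nat_lit 217) (nat_lit 214) (nat_lit 139)) (PT.lf (nat_lit 11856) (nat_lit 6) (nat_lit 156) (nat_lit 0) (nat_lit 218) (nat_lit 214) (nat_lit 138))))))))
noncomputable def pc53 : PT := (PT.nd (nat_lit 54522) (PT.nd (nat_lit 53274) (PT.nd (nat_lit 52650) (PT.nd (nat_lit 234) (PT.nd (nat_lit 78) (PT.lf (nat_lit 11400) (nat_lit 6) (nat_lit 150) (nat_lit 0) (nat_lit 219) (nat_lit 214) (nat_lit 137)) (PT.nd (nat_lit 78) (PT.lf (nat_lit 10944) (nat_lit 6) (nat_lit 144) (nat_lit 0) (nat_lit 220) (nat_lit 214) (nat_lit 136)) (PT.lf (nat_lit 10488) (nat_lit 6) (nat_lit 138) (nat_lit 0) (nat_lit 221) (nat_lit 214) (nat_lit 135)))) (PT.nd (nat_lit 52260) (PT.nd (nat_lit 78) (PT.lf (nat_lit 10032) (nat_lit 6) (nat_lit 132) (nat_lit 0) (nat_lit 222) (nat_lit 214) (nat_lit 134)) (PT.lf (nat_lit 9576) (nat_lit 6) (nat_lit 126) (nat_lit 0) (nat_lit 223) (nat_lit 214) (nat_lit 133)))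 (PT.nd (nat_lit 78) (PT.lf (nat_lit 8816) (nat_lit 6) (nat_lit 116) (nat_lit 5) (nat_lit 131) (nat_lit 215) (nat_lit 224)) (PT.lf (nat_lit 9196) (nat_lit 6) (nat_lit 121) (nat_lit 5) (nat_lit 132) (nat_lit 215) (nat_lit 223))))) (PT.nd (nat_lit 312) (PT.nd (nat_lit 156) (PT.nd (nat_lit 78) (PT.lf (nat_lit 9652) (nat_lit 6) (nat_lit 127) (nat_lit 5) (nat_lit 133) (nat_lit 215) (nat_lit 222)) (PT.lf (nat_lit 10108) (nat_lit 6) (nat_lit 133) (nat_lit 5) (nat_lit 134) (nat_lit 215) (nat_lit 221))) (PT.nd (nat_lit 78) (PT.lf (nat_lit 10564) (nat_lit 6) (nat_lit 139) (nat_lit 5) (nat_lit 135) (nat_lit 215) (nat_lit 220)) (PT.lf (nat_lit 11020) (nat_lit 6) (nat_lit 145) (nat_lit 5) (nat_lit 136) (nat_lit 215) (nat_lit 219)))) (PT.nd (nat_lit 156) (PT.nd (nat_lit 78) (PT.lf (nat_lit 11476) (nat_lit 6) (nat_lit 151) (nat_lit 5) (nat_lit 137) (nat_lit 215) (nat_lit 218)) (PT.lf (nat_lit 11932) (nat_lit 6) (nat_lit 157) (nat_lit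 5) (nat_lit 138) (nat_lit 215) (nat_lit 217))) (PT.nd (nat_lit 78) (PT.lf (nat_lit 12464) (nat_lit 6) (nat_lit 164) (nat_lit 5) (nat_lit 139) (nat_lit 215) (nat_lit 216)) (PT.lf (nat_lit 12920) (nat_lit 3) (nat_lit 170) (nat_lit 4) (nat_lit 140) (nat_lit 215) (nat_lit 215)))))) (PT.nd (nat_lit 624) (PT.nd (nat_lit 312) (PT.nd (nat_lit 156) (PT.nd (nat_lit 78) (PT.lf (nat_lit 13376) (nat_lit 6) (nat_lit 176) (nat_lit 4) (nat_lit 141) (nat_lit 215) (nat_lit 214)) (PT.lf (nat_lit 13832) (nat_lit 6) (nat_lit 182) (nat_lit 4) (nat_lit 142) (nat_lit 215) (nat_lit 213))) (PT.nd (nat_lit 78) (PT.lf (nat_lit 14288) (nat_lit 6) (nat_lit 188) (nat_lit 4) (nat_lit 143) (nat_lit 215) (nat_lit 212)) (PT.lf (nat_lit 14744) (nat_lit 6) (nat_lit 194) (nat_lit 4) (nat_lit 144) (nat_lit 215) (nat_lit 211)))) (PT.nd (nat_lit 156) (PT.nd (nat_lit 78) (PT.lf (nat_lit 15276) (nat_lit 6) (nat_lit 201) (nat_lit 4) (nat_lit 145) (nat_lit 215)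 (nat_lit 210)) (PT.lf (nat_lit 15808) (nat_lit 6) (nat_lit 208) (nat_lit 4) (nat_lit 146) (nat_lit 215) (nat_lit 209))) (PT.nd (nat_lit 78) (PT.lf (nat_lit 16340) (nat_lit 6) (nat_lit 215) (nat_lit 4) (nat_lit 147) (nat_lit 215) (nat_lit 208)) (PT.lf (nat_lit 16872) (nat_lit 6) (nat_lit 222) (nat_lit 4) (nat_lit 148) (nat_lit 215) (nat_lit 207))))) (PT.nd (nat_lit 312) (PT.nd (nat_lit 156) (PT.nd (nat_lit 78) (PT.lf (nat_lit 17480) (nat_lit 6) (nat_lit 230) (nat_lit 4) (nat_lit 149) (nat_lit 215) (nat_lit 206)) (PT.lf (nat_lit 18012) (nat_lit 6) (nat_lit 237) (nat_lit 4) (nat_lit 150) (nat_lit 215) (nat_lit 205))) (PT.nd (nat_lit 78) (PT.lf (nat_lit 18620) (nat_lit 6) (nat_lit 245) (nat_lit 4) (nat_lit 151) (nat_lit 215) (nat_lit 204)) (PT.lf (nat_lit 19228) (nat_lit 6) (nat_lit 253) (nat_lit 4) (nat_lit 152) (nat_lit 215) (nat_lit 203)))) (PT.nd (nat_lit 156) (PT.nd (nat_lit 78) (PT.lf (nat_lit 19912) (nat_lit 6) (nat_lit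 262) (nat_lit 4) (nat_lit 153) (nat_lit 215) (nat_lit 202)) (PT.lf (nat_lit 20520) (nat_lit 6) (nat_lit 270) (nat_lit 4) (nat_lit 154) (nat_lit 215) (nat_lit 201))) (PT.nd (nat_lit 78) (PT.lf (nat_lit 21204) (nat_lit 6) (nat_lit 279) (nat_lit 4) (nat_lit 155) (nat_lit 215) (nat_lit 200)) (PT.lf (nat_lit 21888) (nat_lit 6) (nat_lit 288) (nat_lit 4) (nat_lit 156) (nat_lit 215) (nat_lit 199))))))) (PT.nd (nat_lit 3510) (PT.nd (nat_lit 2886) (PT.nd (nat_lit 234) (PT.nd (nat_lit 78) (PT.lf (nat_lit 22648) (nat_lit 6) (nat_lit 298) (nat_lit 4) (nat_lit 157) (nat_lit 215) (nat_lit 198)) (PT.nd (nat_lit 78) (PT.lf (nat_lit 23332) (nat_lit 6) (nat_lit 307) (nat_lit 4) (nat_lit 158) (nat_lit 215) (nat_lit 197)) (PT.lf (nat_lit 24092) (nat_lit 6) (nat_lit 317) (nat_lit 4) (nat_lit 159) (nat_lit 215) (nat_lit 196)))) (PT.nd (nat_lit 156) (PT.nd (nat_lit 78) (PT.lf (nat_lit 24852) (nat_lit 6) (nat_lit 327) (nat_lit 4) (nat_lit 160)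 (nat_lit 215) (nat_lit 195)) (PT.lf (nat_lit 25688) (nat_lit 6) (nat_lit 338) (nat_lit 4) (nat_lit 161) (nat_lit 215) (nat_lit 194))) (PT.nd (nat_lit 2418) (PT.lf (nat_lit 26524) (nat_lit 6) (nat_lit 349) (nat_lit 4) (nat_lit 162) (nat_lit 215) (nat_lit 193)) (PT.lf (nat_lit 26524) (nat_lit 6) (nat_lit 349) (nat_lit 2) (nat_lit 193) (nat_lit 215) (nat_lit 162))))) (PT.nd (nat_lit 312) (PT.nd (nat_lit 156) (PT.nd (nat_lit 78) (PT.lf (nat_lit 25688) (nat_lit 6) (nat_lit 338) (nat_lit 2) (nat_lit 194) (nat_lit 215) (nat_lit 161)) (PT.lf (nat_lit 24852) (nat_lit 6) (nat_lit 327) (nat_lit 2) (nat_lit 195) (nat_lit 215) (nat_lit 160))) (PT.nd (nat_lit 78) (PT.lf (nat_lit 24092) (nat_lit 6) (nat_lit 317) (nat_lit 2) (nat_lit 196) (nat_lit 215) (nat_lit 159)) (PT.lf (nat_lit 23332) (nat_lit 6) (nat_lit 307) (nat_lit 2) (nat_lit 197) (nat_lit 215) (nat_lit 158)))) (PT.nd (nat_lit 156) (PT.nd (nat_lit 78) (PT.lf (nat_lit 22648)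 (nat_lit 6) (nat_lit 298) (nat_lit 2) (nat_lit 198) (nat_lit 215) (nat_lit 157)) (PT.lf (nat_lit 21888) (nat_lit 6) (nat_lit 288) (nat_lit 2) (nat_lit 199) (nat_lit 215) (nat_lit 156))) (PT.nd (nat_lit 78) (PT.lf (nat_lit 21204) (nat_lit 6) (nat_lit 279) (nat_lit 2) (nat_lit 200) (nat_lit 215) (nat_lit 155)) (PT.lf (nat_lit 20520) (nat_lit 6) (nat_lit 270) (nat_lit 2) (nat_lit 201) (nat_lit 215) (nat_lit 154)))))) (PT.nd (nat_lit 624) (PT.nd (nat_lit 312) (PT.nd (nat_lit 156) (PT.nd (nat_lit 78) (PT.lf (nat_lit 19912) (nat_lit 6) (nat_lit 262) (nat_lit 2) (nat_lit 202) (nat_lit 215) (nat_lit 153)) (PT.lf (nat_lit 19228) (nat_lit 6) (nat_lit 253) (nat_lit 2) (nat_lit 203) (nat_lit 215) (nat_lit 152))) (PT.nd (nat_lit 78) (PT.lf (nat_lit 18620) (nat_lit 6) (nat_lit 245) (nat_lit 2) (nat_lit 204) (nat_lit 215) (nat_lit 151)) (PT.lf (nat_lit 18012) (nat_lit 6) (nat_lit 237) (nat_lit 2) (nat_lit 205) (nat_lit 215) (nat_lit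 150)))) (PT.nd (nat_lit 156) (PT.nd (nat_lit 78) (PT.lf (nat_lit 17480) (nat_lit 6) (nat_lit 230) (nat_lit 2) (nat_lit 206) (nat_lit 215) (nat_lit 149)) (PT.lf (nat_lit 16872) (nat_lit 6) (nat_lit 222) (nat_lit 2) (nat_lit 207) (nat_lit 215) (nat_lit 148))) (PT.nd (nat_lit 78) (PT.lf (nat_lit 16340) (nat_lit 6) (nat_lit 215) (nat_lit 2) (nat_lit 208) (nat_lit 215) (nat_lit 147)) (PT.lf (nat_lit 15808) (nat_lit 6) (nat_lit 208) (nat_lit 2) (nat_lit 209) (nat_lit 215) (nat_lit 146))))) (PT.nd (nat_lit 312) (PT.nd (nat_lit 156) (PT.nd (nat_lit 78) (PT.lf (nat_lit 15276) (nat_lit 6) (nat_lit 201) (nat_lit 2) (nat_lit 210) (nat_lit 215) (nat_lit 145)) (PT.lf (nat_lit 14744) (nat_lit 6) (nat_lit 194) (nat_lit 2) (nat_lit 211) (nat_lit 215) (nat_lit 144))) (PT.nd (nat_lit 78) (PT.lf (nat_lit 14288) (nat_lit 6) (nat_lit 188) (nat_lit 2) (nat_lit 212) (nat_lit 215) (nat_lit 143)) (PT.lf (nat_lit 13832) (nat_lit 6) (nat_lit 182)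 (nat_lit 2) (nat_lit 213) (nat_lit 215) (nat_lit 142)))) (PT.nd (nat_lit 156) (PT.nd (nat_lit 78) (PT.lf (nat_lit 13376) (nat_lit 6) (nat_lit 176) (nat_lit 2) (nat_lit 214) (nat_lit 215) (nat_lit 141)) (PT.lf (nat_lit 12920) (nat_lit 3) (nat_lit 170) (nat_lit 0) (nat_lit 215) (nat_lit 215) (nat_lit 140))) (PT.nd (nat_lit 78) (PT.lf (nat_lit 12464) (nat_lit 6) (nat_lit 164) (nat_lit 0) (nat_lit 216) (nat_lit 215) (nat_lit 139)) (PT.lf (nat_lit 11932) (nat_lit 6) (nat_lit 157) (nat_lit 0) (nat_lit 217) (nat_lit 215) (nat_lit 138))))))))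
noncomputable def pc54 : PT := (PT.nd (nat_lit 54288) (PT.nd (nat_lit 53118) (PT.nd (nat_lit 52494) (PT.nd (nat_lit 234) (PT.nd (nat_lit 78) (PT.lf (nat_lit 11476) (nat_lit 6) (nat_lit 151) (nat_lit 0) (nat_lit 218) (nat_lit 215) (nat_lit 137)) (PT.nd (nat_lit 78) (PT.lf (nat_lit 11020) (nat_lit 6) (nat_lit 145) (nat_lit 0) (nat_lit 219) (nat_lit 215) (nat_lit 136)) (PT.lf (nat_lit 10564) (nat_lit 6) (nat_lit 139) (nat_lit 0) (nat_lit 220) (nat_lit 215) (nat_lit 135)))) (PT.nd (nat_lit 156) (PT.nd (nat_lit 78) (PT.lf (nat_lit 10108) (nat_lit 6) (nat_lit 133) (nat_lit 0) (nat_lit 221) (nat_lit 215) (nat_lit 134)) (PT.lf (nat_lit 9652) (nat_lit 6) (nat_lit 127) (nat_lit 0) (nat_lit 222) (nat_lit 215) (nat_lit 133))) (PT.nd (nat_lit 78) (PT.lf (nat_lit 9196) (nat_lit 6) (nat_lit 121) (nat_lit 0) (nat_lit 223) (nat_lit 215) (nat_lit 132)) (PT.lf (nat_lit 8816) (nat_lit 6) (nat_lit 116) (nat_lit 0) (nat_lit 224) (nat_lit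 215) (nat_lit 131))))) (PT.nd (nat_lit 312) (PT.nd (nat_lit 156) (PT.nd (nat_lit 78) (PT.lf (nat_lit 8436) (nat_lit 6) (nat_lit 111) (nat_lit 5) (nat_lit 130) (nat_lit 216) (nat_lit 224)) (PT.lf (nat_lit 8892) (nat_lit 6) (nat_lit 117) (nat_lit 5) (nat_lit 131) (nat_lit 216) (nat_lit 223))) (PT.nd (nat_lit 78) (PT.lf (nat_lit 9272) (nat_lit 6) (nat_lit 122) (nat_lit 5) (nat_lit 132) (nat_lit 216) (nat_lit 222)) (PT.lf (nat_lit 9728) (nat_lit 6) (nat_lit 128) (nat_lit 5) (nat_lit 133) (nat_lit 216) (nat_lit 221)))) (PT.nd (nat_lit 156) (PT.nd (nat_lit 78) (PT.lf (nat_lit 10184) (nat_lit 6) (nat_lit 134) (nat_lit 5) (nat_lit 134) (nat_lit 216) (nat_lit 220)) (PT.lf (nat_lit 10640) (nat_lit 6) (nat_lit 140) (nat_lit 5) (nat_lit 135) (nat_lit 216) (nat_lit 219))) (PT.nd (nat_lit 78) (PT.lf (nat_lit 11096) (nat_lit 6) (nat_lit 146) (nat_lit 5) (nat_lit 136) (nat_lit 216) (nat_lit 218)) (PT.lf (nat_lit 11552) (nat_lit 6) (nat_lit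 152) (nat_lit 5) (nat_lit 137) (nat_lit 216) (nat_lit 217)))))) (PT.nd (nat_lit 546) (PT.nd (nat_lit 234) (PT.nd (nat_lit 78) (PT.lf (nat_lit 12008) (nat_lit 3) (nat_lit 158) (nat_lit 4) (nat_lit 138) (nat_lit 216) (nat_lit 216)) (PT.nd (nat_lit 78) (PT.lf (nat_lit 12464) (nat_lit 6) (nat_lit 164) (nat_lit 4) (nat_lit 139) (nat_lit 216) (nat_lit 215)) (PT.lf (nat_lit 12844) (nat_lit 6) (nat_lit 169) (nat_lit 4) (nat_lit 140) (nat_lit 216) (nat_lit 214)))) (PT.nd (nat_lit 156) (PT.nd (nat_lit 78) (PT.lf (nat_lit 13300) (nat_lit 6) (nat_lit 175) (nat_lit 4) (nat_lit 141) (nat_lit 216) (nat_lit 213)) (PT.lf (nat_lit 13756) (nat_lit 6) (nat_lit 181) (nat_lit 4) (nat_lit 142) (nat_lit 216) (nat_lit 212))) (PT.nd (nat_lit 78) (PT.lf (nat_lit 14212) (nat_lit 6) (nat_lit 187) (nat_lit 4) (nat_lit 143) (nat_lit 216) (nat_lit 211)) (PT.lf (nat_lit 14668) (nat_lit 6) (nat_lit 193) (nat_lit 4) (nat_lit 144) (nat_lit 216) (nat_lit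 210))))) (PT.nd (nat_lit 312) (PT.nd (nat_lit 156) (PT.nd (nat_lit 78) (PT.lf (nat_lit 15200) (nat_lit 6) (nat_lit 200) (nat_lit 4) (nat_lit 145) (nat_lit 216) (nat_lit 209)) (PT.lf (nat_lit 15732) (nat_lit 6) (nat_lit 207) (nat_lit 4) (nat_lit 146) (nat_lit 216) (nat_lit 208))) (PT.nd (nat_lit 78) (PT.lf (nat_lit 16264) (nat_lit 6) (nat_lit 214) (nat_lit 4) (nat_lit 147) (nat_lit 216) (nat_lit 207)) (PT.lf (nat_lit 16796) (nat_lit 6) (nat_lit 221) (nat_lit 4) (nat_lit 148) (nat_lit 216) (nat_lit 206)))) (PT.nd (nat_lit 156) (PT.nd (nat_lit 78) (PT.lf (nat_lit 17404) (nat_lit 6) (nat_lit 229) (nat_lit 4) (nat_lit 149) (nat_lit 216) (nat_lit 205)) (PT.lf (nat_lit 17936) (nat_lit 6) (nat_lit 236) (nat_lit 4) (nat_lit 150) (nat_lit 216) (nat_lit 204))) (PT.nd (nat_lit 78) (PT.lf (nat_lit 18544) (nat_lit 6) (nat_lit 244) (nat_lit 4) (nat_lit 151) (nat_lit 216) (nat_lit 203)) (PT.lf (nat_lit 19152) (nat_lit 6) (nat_lit 252)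 (nat_lit 4) (nat_lit 152) (nat_lit 216) (nat_lit 202))))))) (PT.nd (nat_lit 4212) (PT.nd (nat_lit 3588) (PT.nd (nat_lit 234) (PT.nd (nat_lit 78) (PT.lf (nat_lit 19836) (nat_lit 6) (nat_lit 261) (nat_lit 4) (nat_lit 153) (nat_lit 216) (nat_lit 201)) (PT.nd (nat_lit 78) (PT.lf (nat_lit 20444) (nat_lit 6) (nat_lit 269) (nat_lit 4) (nat_lit 154) (nat_lit 216) (nat_lit 200)) (PT.lf (nat_lit 21128) (nat_lit 6) (nat_lit 278) (nat_lit 4) (nat_lit 155) (nat_lit 216) (nat_lit 199)))) (PT.nd (nat_lit 3198) (PT.nd (nat_lit 78) (PT.lf (nat_lit 21812) (nat_lit 6) (nat_lit 287) (nat_lit 4) (nat_lit 156) (nat_lit 216) (nat_lit 198)) (PT.lf (nat_lit 22572) (nat_lit 6) (nat_lit 297) (nat_lit 4) (nat_lit 157) (nat_lit 216) (nat_lit 197))) (PT.nd (nat_lit 78) (PT.lf (nat_lit 22572) (nat_lit 6) (nat_lit 297) (nat_lit 2) (nat_lit 197) (nat_lit 216) (nat_lit 157)) (PT.lf (nat_lit 21812) (nat_lit 6) (nat_lit 287) (nat_lit 2) (nat_lit 198) (nat_lit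 216) (nat_lit 156))))) (PT.nd (nat_lit 312) (PT.nd (nat_lit 156) (PT.nd (nat_lit 78) (PT.lf (nat_lit 21128) (nat_lit 6) (nat_lit 278) (nat_lit 2) (nat_lit 199) (nat_lit 216) (nat_lit 155)) (PT.lf (nat_lit 20444) (nat_lit 6) (nat_lit 269) (nat_lit 2) (nat_lit 200) (nat_lit 216) (nat_lit 154))) (PT.nd (nat_lit 78) (PT.lf (nat_lit 19836) (nat_lit 6) (nat_lit 261) (nat_lit 2) (nat_lit 201) (nat_lit 216) (nat_lit 153)) (PT.lf (nat_lit 19152) (nat_lit 6) (nat_lit 252) (nat_lit 2) (nat_lit 202) (nat_lit 216) (nat_lit 152)))) (PT.nd (nat_lit 156) (PT.nd (nat_lit 78) (PT.lf (nat_lit 18544) (nat_lit 6) (nat_lit 244) (nat_lit 2) (nat_lit 203) (nat_lit 216) (nat_lit 151)) (PT.lf (nat_lit 17936) (nat_lit 6) (nat_lit 236) (nat_lit 2) (nat_lit 204) (nat_lit 216) (nat_lit 150))) (PT.nd (nat_lit 78) (PT.lf (nat_lit 17404) (nat_lit 6) (nat_lit 229) (nat_lit 2) (nat_lit 205) (nat_lit 216) (nat_lit 149)) (PT.lf (nat_lit 16796) (nat_lit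 6) (nat_lit 221) (nat_lit 2) (nat_lit 206) (nat_lit 216) (nat_lit 148)))))) (PT.nd (nat_lit 624) (PT.nd (nat_lit 312) (PT.nd (nat_lit 156) (PT.nd (nat_lit 78) (PT.lf (nat_lit 16264) (nat_lit 6) (nat_lit 214) (nat_lit 2) (nat_lit 207) (nat_lit 216) (nat_lit 147)) (PT.lf (nat_lit 15732) (nat_lit 6) (nat_lit 207) (nat_lit 2) (nat_lit 208) (nat_lit 216) (nat_lit 146))) (PT.nd (nat_lit 78) (PT.lf (nat_lit 15200) (nat_lit 6) (nat_lit 200) (nat_lit 2) (nat_lit 209) (nat_lit 216) (nat_lit 145)) (PT.lf (nat_lit 14668) (nat_lit 6) (nat_lit 193) (nat_lit 2) (nat_lit 210) (nat_lit 216) (nat_lit 144)))) (PT.nd (nat_lit 156) (PT.nd (nat_lit 78) (PT.lf (nat_lit 14212) (nat_lit 6) (nat_lit 187) (nat_lit 2) (nat_lit 211) (nat_lit 216) (nat_lit 143)) (PT.lf (nat_lit 13756) (nat_lit 6) (nat_lit 181) (nat_lit 2) (nat_lit 212) (nat_lit 216) (nat_lit 142))) (PT.nd (nat_lit 78) (PT.lf (nat_lit 13300) (nat_lit 6) (nat_lit 175) (nat_lit 2) (nat_lit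 213) (nat_lit 216) (nat_lit 141)) (PT.lf (nat_lit 12844) (nat_lit 6) (nat_lit 169) (nat_lit 2) (nat_lit 214) (nat_lit 216) (nat_lit 140))))) (PT.nd (nat_lit 312) (PT.nd (nat_lit 156) (PT.nd (nat_lit 78) (PT.lf (nat_lit 12464) (nat_lit 6) (nat_lit 164) (nat_lit 2) (nat_lit 215) (nat_lit 216) (nat_lit 139)) (PT.lf (nat_lit 12008) (nat_lit 3) (nat_lit 158) (nat_lit 0) (nat_lit 216) (nat_lit 216) (nat_lit 138))) (PT.nd (nat_lit 78) (PT.lf (nat_lit 11552) (nat_lit 6) (nat_lit 152) (nat_lit 0) (nat_lit 217) (nat_lit 216) (nat_lit 137)) (PT.lf (nat_lit 11096) (nat_lit 6) (nat_lit 146) (nat_lit 0) (nat_lit 218) (nat_lit 216) (nat_lit 136)))) (PT.nd (nat_lit 156) (PT.nd (nat_lit 78) (PT.lf (nat_lit 10640) (nat_lit 6) (nat_lit 140) (nat_lit 0) (nat_lit 219) (nat_lit 216) (nat_lit 135)) (PT.lf (nat_lit 10184) (nat_lit 6) (nat_lit 134) (nat_lit 0) (nat_lit 220) (nat_lit 216) (nat_lit 134))) (PT.nd (nat_lit 78) (PT.lf (nat_lit 9728)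 (nat_lit 6) (nat_lit 128) (nat_lit 0) (nat_lit 221) (nat_lit 216) (nat_lit 133)) (PT.lf (nat_lit 9272) (nat_lit 6) (nat_lit 122) (nat_lit 0) (nat_lit 222) (nat_lit 216) (nat_lit 132))))))))
noncomputable def pc55 : PT := (PT.nd (nat_lit 57798) (PT.nd (nat_lit 52962) (PT.nd (nat_lit 52338) (PT.nd (nat_lit 52026) (PT.nd (nat_lit 78) (PT.lf (nat_lit 8892) (nat_lit 6) (nat_lit 117) (nat_lit 0) (nat_lit 223) (nat_lit 216) (nat_lit 131)) (PT.nd (nat_lit 51870) (PT.lf (nat_lit 8436) (nat_lit 6) (nat_lit 111) (nat_lit 0) (nat_lit 224) (nat_lit 216) (nat_lit 130)) (PT.lf (nat_lit 7752) (nat_lit 6) (nat_lit 102) (nat_lit 5) (nat_lit 128) (nat_lit 217) (nat_lit 225)))) (PT.nd (nat_lit 156) (PT.nd (nat_lit 78) (PT.lf (nat_lit 8132) (nat_lit 6) (nat_lit 107) (nat_lit 5) (nat_lit 129) (nat_lit 217) (nat_lit 224)) (PT.lf (nat_lit 8512) (nat_lit 6) (nat_lit 112) (nat_lit 5) (nat_lit 130) (nat_lit 217) (nat_lit 223))) (PT.nd (nat_lit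 78) (PT.lf (nat_lit 8968) (nat_lit 6) (nat_lit 118) (nat_lit 5) (nat_lit 131) (nat_lit 217) (nat_lit 222)) (PT.lf (nat_lit 9348) (nat_lit 6) (nat_lit 123) (nat_lit 5) (nat_lit 132) (nat_lit 217) (nat_lit 221))))) (PT.nd (nat_lit 312) (PT.nd (nat_lit 156) (PT.nd (nat_lit 78) (PT.lf (nat_lit 9804) (nat_lit 6) (nat_lit 129) (nat_lit 5) (nat_lit 133) (nat_lit 217) (nat_lit 220)) (PT.lf (nat_lit 10260) (nat_lit 6) (nat_lit 135) (nat_lit 5) (nat_lit 134) (nat_lit 217) (nat_lit 219))) (PT.nd (nat_lit 78) (PT.lf (nat_lit 10716) (nat_lit 6) (nat_lit 141) (nat_lit 5) (nat_lit 135) (nat_lit 217) (nat_lit 218)) (PT.lf (nat_lit 11172) (nat_lit 3) (nat_lit 147) (nat_lit 4) (nat_lit 136) (nat_lit 217) (nat_lit 217)))) (PT.nd (nat_lit 156) (PT.nd (nat_lit 78) (PT.lf (nat_lit 11552) (nat_lit 6) (nat_lit 152) (nat_lit 4) (nat_lit 137) (nat_lit 217) (nat_lit 216)) (PT.lf (nat_lit 11932) (nat_lit 6) (nat_lit 157) (nat_lit 4) (nat_lit 138)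 (nat_lit 217) (nat_lit 215))) (PT.nd (nat_lit 78) (PT.lf (nat_lit 12388) (nat_lit 6) (nat_lit 163) (nat_lit 4) (nat_lit 139) (nat_lit 217) (nat_lit 214)) (PT.lf (nat_lit 12768) (nat_lit 6) (nat_lit 168) (nat_lit 4) (nat_lit 140) (nat_lit 217) (nat_lit 213)))))) (PT.nd (nat_lit 624) (PT.nd (nat_lit 312) (PT.nd (nat_lit 156) (PT.nd (nat_lit 78) (PT.lf (nat_lit 13224) (nat_lit 6) (nat_lit 174) (nat_lit 4) (nat_lit 141) (nat_lit 217) (nat_lit 212)) (PT.lf (nat_lit 13680) (nat_lit 6) (nat_lit 180) (nat_lit 4) (nat_lit 142) (nat_lit 217) (nat_lit 211))) (PT.nd (nat_lit 78) (PT.lf (nat_lit 14136) (nat_lit 6) (nat_lit 186) (nat_lit 4) (nat_lit 143) (nat_lit 217) (nat_lit 210)) (PT.lf (nat_lit 14592) (nat_lit 6) (nat_lit 192) (nat_lit 4) (nat_lit 144) (nat_lit 217) (nat_lit 209)))) (PT.nd (nat_lit 156) (PT.nd (nat_lit 78) (PT.lf (nat_lit 15124) (nat_lit 6) (nat_lit 199) (nat_lit 4) (nat_lit 145) (nat_lit 217) (nat_lit 208)) (PT.lf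 (nat_lit 15656) (nat_lit 6) (nat_lit 206) (nat_lit 4) (nat_lit 146) (nat_lit 217) (nat_lit 207))) (PT.nd (nat_lit 78) (PT.lf (nat_lit 16188) (nat_lit 6) (nat_lit 213) (nat_lit 4) (nat_lit 147) (nat_lit 217) (nat_lit 206)) (PT.lf (nat_lit 16720) (nat_lit 6) (nat_lit 220) (nat_lit 4) (nat_lit 148) (nat_lit 217) (nat_lit 205))))) (PT.nd (nat_lit 312) (PT.nd (nat_lit 156) (PT.nd (nat_lit 78) (PT.lf (nat_lit 17328) (nat_lit 6) (nat_lit 228) (nat_lit 4) (nat_lit 149) (nat_lit 217) (nat_lit 204)) (PT.lf (nat_lit 17860) (nat_lit 6) (nat_lit 235) (nat_lit 4) (nat_lit 150) (nat_lit 217) (nat_lit 203))) (PT.nd (nat_lit 78) (PT.lf (nat_lit 18468) (nat_lit 6) (nat_lit 243) (nat_lit 4) (nat_lit 151) (nat_lit 217) (nat_lit 202)) (PT.lf (nat_lit 19076) (nat_lit 6) (nat_lit 251) (nat_lit 4) (nat_lit 152) (nat_lit 217) (nat_lit 201)))) (PT.nd (nat_lit 3744) (PT.nd (nat_lit 3666) (PT.lf (nat_lit 19760) (nat_lit 6) (nat_lit 260) (nat_lit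 4) (nat_lit 153) (nat_lit 217) (nat_lit 200)) (PT.lf (nat_lit 19760) (nat_lit 6) (nat_lit 260) (nat_lit 2) (nat_lit 200) (nat_lit 217) (nat_lit 153))) (PT.nd (nat_lit 78) (PT.lf (nat_lit 19076) (nat_lit 6) (nat_lit 251) (nat_lit 2) (nat_lit 201) (nat_lit 217) (nat_lit 152)) (PT.lf (nat_lit 18468) (nat_lit 6) (nat_lit 243) (nat_lit 2) (nat_lit 202) (nat_lit 217) (nat_lit 151))))))) (PT.nd (nat_lit 1170) (PT.nd (nat_lit 546) (PT.nd (nat_lit 234) (PT.nd (nat_lit 78) (PT.lf (nat_lit 17860) (nat_lit 6) (nat_lit 235) (nat_lit 2) (nat_lit 203) (nat_lit 217) (nat_lit 150)) (PT.nd (nat_lit 78) (PT.lf (nat_lit 17328) (nat_lit 6) (nat_lit 228) (nat_lit 2) (nat_lit 204) (nat_lit 217) (nat_lit 149)) (PT.lf (nat_lit 16720) (nat_lit 6) (nat_lit 220) (nat_lit 2) (nat_lit 205) (nat_lit 217) (nat_lit 148)))) (PT.nd (nat_lit 156) (PT.nd (nat_lit 78) (PT.lf (nat_lit 16188) (nat_lit 6) (nat_lit 213) (nat_lit 2) (nat_lit 206) (nat_lit 217)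 (nat_lit 147)) (PT.lf (nat_lit 15656) (nat_lit 6) (nat_lit 206) (nat_lit 2) (nat_lit 207) (nat_lit 217) (nat_lit 146))) (PT.nd (nat_lit 78) (PT.lf (nat_lit 15124) (nat_lit 6) (nat_lit 199) (nat_lit 2) (nat_lit 208) (nat_lit 217) (nat_lit 145)) (PT.lf (nat_lit 14592) (nat_lit 6) (nat_lit 192) (nat_lit 2) (nat_lit 209) (nat_lit 217) (nat_lit 144))))) (PT.nd (nat_lit 312) (PT.nd (nat_lit 156) (PT.nd (nat_lit 78) (PT.lf (nat_lit 14136) (nat_lit 6) (nat_lit 186) (nat_lit 2) (nat_lit 210) (nat_lit 217) (nat_lit 143)) (PT.lf (nat_lit 13680) (nat_lit 6) (nat_lit 180) (nat_lit 2) (nat_lit 211) (nat_lit 217) (nat_lit 142))) (PT.nd (nat_lit 78) (PT.lf (nat_lit 13224) (nat_lit 6) (nat_lit 174) (nat_lit 2) (nat_lit 212) (nat_lit 217) (nat_lit 141)) (PT.lf (nat_lit 12768) (nat_lit 6) (nat_lit 168) (nat_lit 2) (nat_lit 213) (nat_lit 217) (nat_lit 140)))) (PT.nd (nat_lit 156) (PT.nd (nat_lit 78) (PT.lf (nat_lit 12388) (nat_lit 6) (nat_lit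 163) (nat_lit 2) (nat_lit 214) (nat_lit 217) (nat_lit 139)) (PT.lf (nat_lit 11932) (nat_lit 6) (nat_lit 157) (nat_lit 2) (nat_lit 215) (nat_lit 217) (nat_lit 138))) (PT.nd (nat_lit 78) (PT.lf (nat_lit 11552) (nat_lit 6) (nat_lit 152) (nat_lit 2) (nat_lit 216) (nat_lit 217) (nat_lit 137)) (PT.lf (nat_lit 11172) (nat_lit 3) (nat_lit 147) (nat_lit 0) (nat_lit 217) (nat_lit 217) (nat_lit 136)))))) (PT.nd (nat_lit 52260) (PT.nd (nat_lit 312) (PT.nd (nat_lit 156) (PT.nd (nat_lit 78) (PT.lf (nat_lit 10716) (nat_lit 6) (nat_lit 141) (nat_lit 0) (nat_lit 218) (nat_lit 217) (nat_lit 135)) (PT.lf (nat_lit 10260) (nat_lit 6) (nat_lit 135) (nat_lit 0) (nat_lit 219) (nat_lit 217) (nat_lit 134))) (PT.nd (nat_lit 78) (PT.lf (nat_lit 9804) (nat_lit 6) (nat_lit 129) (nat_lit 0) (nat_lit 220) (nat_lit 217) (nat_lit 133)) (PT.lf (nat_lit 9348) (nat_lit 6) (nat_lit 123) (nat_lit 0) (nat_lit 221) (nat_lit 217) (nat_lit 132)))) (PT.nd (nat_lit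 156) (PT.nd (nat_lit 78) (PT.lf (nat_lit 8968) (nat_lit 6) (nat_lit 118) (nat_lit 0) (nat_lit 222) (nat_lit 217) (nat_lit 131)) (PT.lf (nat_lit 8512) (nat_lit 6) (nat_lit 112) (nat_lit 0) (nat_lit 223) (nat_lit 217) (nat_lit 130))) (PT.nd (nat_lit 78) (PT.lf (nat_lit 8132) (nat_lit 6) (nat_lit 107) (nat_lit 0) (nat_lit 224) (nat_lit 217) (nat_lit 129)) (PT.lf (nat_lit 7752) (nat_lit 6) (nat_lit 102) (nat_lit 0) (nat_lit 225) (nat_lit 217) (nat_lit 128))))) (PT.nd (nat_lit 312) (PT.nd (nat_lit 156) (PT.nd (nat_lit 78) (PT.lf (nat_lit 7448) (nat_lit 6) (nat_lit 98) (nat_lit 5) (nat_lit 127) (nat_lit 218) (nat_lit 225)) (PT.lf (nat_lit 7828) (nat_lit 6) (nat_lit 103) (nat_lit 5) (nat_lit 128) (nat_lit 218) (nat_lit 224))) (PT.nd (nat_lit 78) (PT.lf (nat_lit 8208) (nat_lit 6) (nat_lit 108) (nat_lit 5) (nat_lit 129) (nat_lit 218) (nat_lit 223)) (PT.lf (nat_lit 8588) (nat_lit 6) (nat_lit 113) (nat_lit 5) (nat_lit 130) (nat_lit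 218) (nat_lit 222)))) (PT.nd (nat_lit 156) (PT.nd (nat_lit 78) (PT.lf (nat_lit 9044) (nat_lit 6) (nat_lit 119) (nat_lit 5) (nat_lit 131) (nat_lit 218) (nat_lit 221)) (PT.lf (nat_lit 9424) (nat_lit 6) (nat_lit 124) (nat_lit 5) (nat_lit 132) (nat_lit 218) (nat_lit 220))) (PT.nd (nat_lit 78) (PT.lf (nat_lit 9880) (nat_lit 6) (nat_lit 130) (nat_lit 5) (nat_lit 133) (nat_lit 218) (nat_lit 219)) (PT.lf (nat_lit 10336) (nat_lit 3) (nat_lit 136) (nat_lit 4) (nat_lit 134) (nat_lit 218) (nat_lit 218))))))))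
noncomputable def pc56 : PT := (PT.nd (nat_lit 6474) (PT.nd (nat_lit 5304) (PT.nd (nat_lit 546) (PT.nd (nat_lit 234) (PT.nd (nat_lit 78) (PT.lf (nat_lit 10716) (nat_lit 6) (nat_lit 141) (nat_lit 4) (nat_lit 135) (nat_lit 218) (nat_lit 217)) (PT.nd (nat_lit 78) (PT.lf (nat_lit 11096) (nat_lit 6) (nat_lit 146) (nat_lit 4) (nat_lit 136) (nat_lit 218) (nat_lit 216)) (PT.lf (nat_lit 11476) (nat_lit 6) (nat_lit 151) (nat_lit 4) (nat_lit 137) (nat_lit 218) (nat_lit 215)))) (PT.nd (nat_lit 156) (PT.nd (nat_lit 78) (PT.lf (nat_lit 11856) (nat_lit 6) (nat_lit 156) (nat_lit 4) (nat_lit 138) (nat_lit 218) (nat_lit 214)) (PT.lf (nat_lit 12312) (nat_lit 6) (nat_lit 162) (nat_lit 4) (nat_lit 139) (nat_lit 218) (nat_lit 213))) (PT.nd (nat_lit 78) (PT.lf (nat_lit 12692) (nat_lit 6) (nat_lit 167) (nat_lit 4) (nat_lit 140) (nat_lit 218) (nat_lit 212)) (PT.lf (nat_lit 13148) (nat_lit 6) (nat_lit 173) (nat_lit 4) (nat_lit 141) (nat_lit 218)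 (nat_lit 211))))) (PT.nd (nat_lit 312) (PT.nd (nat_lit 156) (PT.nd (nat_lit 78) (PT.lf (nat_lit 13604) (nat_lit 6) (nat_lit 179) (nat_lit 4) (nat_lit 142) (nat_lit 218) (nat_lit 210)) (PT.lf (nat_lit 14060) (nat_lit 6) (nat_lit 185) (nat_lit 4) (nat_lit 143) (nat_lit 218) (nat_lit 209))) (PT.nd (nat_lit 78) (PT.lf (nat_lit 14516) (nat_lit 6) (nat_lit 191) (nat_lit 4) (nat_lit 144) (nat_lit 218) (nat_lit 208)) (PT.lf (nat_lit 15048) (nat_lit 6) (nat_lit 198) (nat_lit 4) (nat_lit 145) (nat_lit 218) (nat_lit 207)))) (PT.nd (nat_lit 156) (PT.nd (nat_lit 78) (PT.lf (nat_lit 15580) (nat_lit 6) (nat_lit 205) (nat_lit 4) (nat_lit 146) (nat_lit 218) (nat_lit 206)) (PT.lf (nat_lit 16112) (nat_lit 6) (nat_lit 212) (nat_lit 4) (nat_lit 147) (nat_lit 218) (nat_lit 205))) (PT.nd (nat_lit 78) (PT.lf (nat_lit 16644) (nat_lit 6) (nat_lit 219) (nat_lit 4) (nat_lit 148) (nat_lit 218) (nat_lit 204)) (PT.lf (nat_lit 17252) (nat_lit 6) (nat_lit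 227) (nat_lit 4) (nat_lit 149) (nat_lit 218) (nat_lit 203)))))) (PT.nd (nat_lit 546) (PT.nd (nat_lit 234) (PT.nd (nat_lit 78) (PT.lf (nat_lit 17252) (nat_lit 6) (nat_lit 227) (nat_lit 2) (nat_lit 203) (nat_lit 218) (nat_lit 149)) (PT.nd (nat_lit 78) (PT.lf (nat_lit 16644) (nat_lit 6) (nat_lit 219) (nat_lit 2) (nat_lit 204) (nat_lit 218) (nat_lit 148)) (PT.lf (nat_lit 16112) (nat_lit 6) (nat_lit 212) (nat_lit 2) (nat_lit 205) (nat_lit 218) (nat_lit 147)))) (PT.nd (nat_lit 156) (PT.nd (nat_lit 78) (PT.lf (nat_lit 15580) (nat_lit 6) (nat_lit 205) (nat_lit 2) (nat_lit 206) (nat_lit 218) (nat_lit 146)) (PT.lf (nat_lit 15048) (nat_lit 6) (nat_lit 198) (nat_lit 2) (nat_lit 207) (nat_lit 218) (nat_lit 145))) (PT.nd (nat_lit 78) (PT.lf (nat_lit 14516) (nat_lit 6) (nat_lit 191) (nat_lit 2) (nat_lit 208) (nat_lit 218) (nat_lit 144)) (PT.lf (nat_lit 14060) (nat_lit 6) (nat_lit 185) (nat_lit 2) (nat_lit 209) (nat_lit 218) (nat_lit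 143))))) (PT.nd (nat_lit 312) (PT.nd (nat_lit 156) (PT.nd (nat_lit 78) (PT.lf (nat_lit 13604) (nat_lit 6) (nat_lit 179) (nat_lit 2) (nat_lit 210) (nat_lit 218) (nat_lit 142)) (PT.lf (nat_lit 13148) (nat_lit 6) (nat_lit 173) (nat_lit 2) (nat_lit 211) (nat_lit 218) (nat_lit 141))) (PT.nd (nat_lit 78) (PT.lf (nat_lit 12692) (nat_lit 6) (nat_lit 167) (nat_lit 2) (nat_lit 212) (nat_lit 218) (nat_lit 140)) (PT.lf (nat_lit 12312) (nat_lit 6) (nat_lit 162) (nat_lit 2) (nat_lit 213) (nat_lit 218) (nat_lit 139)))) (PT.nd (nat_lit 156) (PT.nd (nat_lit 78) (PT.lf (nat_lit 11856) (nat_lit 6) (nat_lit 156) (nat_lit 2) (nat_lit 214) (nat_lit 218) (nat_lit 138)) (PT.lf (nat_lit 11476) (nat_lit 6) (nat_lit 151) (nat_lit 2) (nat_lit 215) (nat_lit 218) (nat_lit 137))) (PT.nd (nat_lit 78) (PT.lf (nat_lit 11096) (nat_lit 6) (nat_lit 146) (nat_lit 2) (nat_lit 216) (nat_lit 218) (nat_lit 136)) (PT.lf (nat_lit 10716) (nat_lit 6) (nat_lit 141)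 (nat_lit 2) (nat_lit 217) (nat_lit 218) (nat_lit 135))))))) (PT.nd (nat_lit 52650) (PT.nd (nat_lit 546) (PT.nd (nat_lit 234) (PT.nd (nat_lit 78) (PT.lf (nat_lit 10336) (nat_lit 3) (nat_lit 136) (nat_lit 0) (nat_lit 218) (nat_lit 218) (nat_lit 134)) (PT.nd (nat_lit 78) (PT.lf (nat_lit 9880) (nat_lit 6) (nat_lit 130) (nat_lit 0) (nat_lit 219) (nat_lit 218) (nat_lit 133)) (PT.lf (nat_lit 9424) (nat_lit 6) (nat_lit 124) (nat_lit 0) (nat_lit 220) (nat_lit 218) (nat_lit 132)))) (PT.nd (nat_lit 156) (PT.nd (nat_lit 78) (PT.lf (nat_lit 9044) (nat_lit 6) (nat_lit 119) (nat_lit 0) (nat_lit 221) (nat_lit 218) (nat_lit 131)) (PT.lf (nat_lit 8588) (nat_lit 6) (nat_lit 113) (nat_lit 0) (nat_lit 222) (nat_lit 218) (nat_lit 130))) (PT.nd (nat_lit 78) (PT.lf (nat_lit 8208) (nat_lit 6) (nat_lit 108) (nat_lit 0) (nat_lit 223) (nat_lit 218) (nat_lit 129)) (PT.lf (nat_lit 7828) (nat_lit 6) (nat_lit 103) (nat_lit 0) (nat_lit 224) (nat_lit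 218) (nat_lit 128))))) (PT.nd (nat_lit 51792) (PT.nd (nat_lit 51636) (PT.nd (nat_lit 51558) (PT.lf (nat_lit 7448) (nat_lit 6) (nat_lit 98) (nat_lit 0) (nat_lit 225) (nat_lit 218) (nat_lit 127)) (PT.lf (nat_lit 6764) (nat_lit 6) (nat_lit 89) (nat_lit 5) (nat_lit 125) (nat_lit 219) (nat_lit 226))) (PT.nd (nat_lit 78) (PT.lf (nat_lit 7144) (nat_lit 6) (nat_lit 94) (nat_lit 5) (nat_lit 126) (nat_lit 219) (nat_lit 225)) (PT.lf (nat_lit 7524) (nat_lit 6) (nat_lit 99) (nat_lit 5) (nat_lit 127) (nat_lit 219) (nat_lit 224)))) (PT.nd (nat_lit 156) (PT.nd (nat_lit 78) (PT.lf (nat_lit 7904) (nat_lit 6) (nat_lit 104) (nat_lit 5) (nat_lit 128) (nat_lit 219) (nat_lit 223)) (PT.lf (nat_lit 8284) (nat_lit 6) (nat_lit 109) (nat_lit 5) (nat_lit 129) (nat_lit 219) (nat_lit 222))) (PT.nd (nat_lit 78) (PT.lf (nat_lit 8664) (nat_lit 6) (nat_lit 114) (nat_lit 5) (nat_lit 130) (nat_lit 219) (nat_lit 221)) (PT.lf (nat_lit 9120) (nat_lit 6) (nat_lit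 120) (nat_lit 5) (nat_lit 131) (nat_lit 219) (nat_lit 220)))))) (PT.nd (nat_lit 624) (PT.nd (nat_lit 312) (PT.nd (nat_lit 156) (PT.nd (nat_lit 78) (PT.lf (nat_lit 9500) (nat_lit 3) (nat_lit 125) (nat_lit 4) (nat_lit 132) (nat_lit 219) (nat_lit 219)) (PT.lf (nat_lit 9880) (nat_lit 6) (nat_lit 130) (nat_lit 4) (nat_lit 133) (nat_lit 219) (nat_lit 218))) (PT.nd (nat_lit 78) (PT.lf (nat_lit 10260) (nat_lit 6) (nat_lit 135) (nat_lit 4) (nat_lit 134) (nat_lit 219) (nat_lit 217)) (PT.lf (nat_lit 10640) (nat_lit 6) (nat_lit 140) (nat_lit 4) (nat_lit 135) (nat_lit 219) (nat_lit 216)))) (PT.nd (nat_lit 156) (PT.nd (nat_lit 78) (PT.lf (nat_lit 11020) (nat_lit 6) (nat_lit 145) (nat_lit 4) (nat_lit 136) (nat_lit 219) (nat_lit 215)) (PT.lf (nat_lit 11400) (nat_lit 6) (nat_lit 150) (nat_lit 4) (nat_lit 137) (nat_lit 219) (nat_lit 214))) (PT.nd (nat_lit 78) (PT.lf (nat_lit 11780) (nat_lit 6) (nat_lit 155) (nat_lit 4) (nat_lit 138) (nat_lit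 219) (nat_lit 213)) (PT.lf (nat_lit 12236) (nat_lit 6) (nat_lit 161) (nat_lit 4) (nat_lit 139) (nat_lit 219) (nat_lit 212))))) (PT.nd (nat_lit 312) (PT.nd (nat_lit 156) (PT.nd (nat_lit 78) (PT.lf (nat_lit 12616) (nat_lit 6) (nat_lit 166) (nat_lit 4) (nat_lit 140) (nat_lit 219) (nat_lit 211)) (PT.lf (nat_lit 13072) (nat_lit 6) (nat_lit 172) (nat_lit 4) (nat_lit 141) (nat_lit 219) (nat_lit 210))) (PT.nd (nat_lit 78) (PT.lf (nat_lit 13528) (nat_lit 6) (nat_lit 178) (nat_lit 4) (nat_lit 142) (nat_lit 219) (nat_lit 209)) (PT.lf (nat_lit 13984) (nat_lit 6) (nat_lit 184) (nat_lit 4) (nat_lit 143) (nat_lit 219) (nat_lit 208)))) (PT.nd (nat_lit 4836) (PT.nd (nat_lit 78) (PT.lf (nat_lit 14440) (nat_lit 6) (nat_lit 190) (nat_lit 4) (nat_lit 144) (nat_lit 219) (nat_lit 207)) (PT.lf (nat_lit 14972) (nat_lit 6) (nat_lit 197) (nat_lit 4) (nat_lit 145) (nat_lit 219) (nat_lit 206))) (PT.nd (nat_lit 78) (PT.lf (nat_lit 14972) (nat_lit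 6) (nat_lit 197) (nat_lit 2) (nat_lit 206) (nat_lit 219) (nat_lit 145)) (PT.lf (nat_lit 14440) (nat_lit 6) (nat_lit 190) (nat_lit 2) (nat_lit 207) (nat_lit 219) (nat_lit 144))))))))
noncomputable def pc57 : PT := (PT.nd (nat_lit 53664) (PT.nd (nat_lit 1170) (PT.nd (nat_lit 546) (PT.nd (nat_lit 234) (PT.nd (nat_lit 78) (PT.lf (nat_lit 13984) (nat_lit 6) (nat_lit 184) (nat_lit 2) (nat_lit 208) (nat_lit 219) (nat_lit 143)) (PT.nd (nat_lit 78) (PT.lf (nat_lit 13528) (nat_lit 6) (nat_lit 178) (nat_lit 2) (nat_lit 209) (nat_lit 219) (nat_lit 142)) (PT.lf (nat_lit 13072) (nat_lit 6) (nat_lit 172) (nat_lit 2) (nat_lit 210) (nat_lit 219) (nat_lit 141)))) (PT.nd (nat_lit 156) (PT.nd (nat_lit 78) (PT.lf (nat_lit 12616) (nat_lit 6) (nat_lit 166) (nat_lit 2) (nat_lit 211) (nat_lit 219) (nat_lit 140)) (PT.lf (nat_lit 12236) (nat_lit 6) (nat_lit 161) (nat_lit 2) (nat_lit 212) (nat_lit 219) (nat_lit 139))) (PT.nd (nat_lit 78) (PT.lf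 (nat_lit 11780) (nat_lit 6) (nat_lit 155) (nat_lit 2) (nat_lit 213) (nat_lit 219) (nat_lit 138)) (PT.lf (nat_lit 11400) (nat_lit 6) (nat_lit 150) (nat_lit 2) (nat_lit 214) (nat_lit 219) (nat_lit 137))))) (PT.nd (nat_lit 312) (PT.nd (nat_lit 156) (PT.nd (nat_lit 78) (PT.lf (nat_lit 11020) (nat_lit 6) (nat_lit 145) (nat_lit 2) (nat_lit 215) (nat_lit 219) (nat_lit 136)) (PT.lf (nat_lit 10640) (nat_lit 6) (nat_lit 140) (nat_lit 2) (nat_lit 216) (nat_lit 219) (nat_lit 135))) (PT.nd (nat_lit 78) (PT.lf (nat_lit 10260) (nat_lit 6) (nat_lit 135) (nat_lit 2) (nat_lit 217) (nat_lit 219) (nat_lit 134)) (PT.lf (nat_lit 9880) (nat_lit 6) (nat_lit 130) (nat_lit 2) (nat_lit 218) (nat_lit 219) (nat_lit 133)))) (PT.nd (nat_lit 156) (PT.nd (nat_lit 78) (PT.lf (nat_lit 9500) (nat_lit 3) (nat_lit 125) (nat_lit 0) (nat_lit 219) (nat_lit 219) (nat_lit 132)) (PT.lf (nat_lit 9120) (nat_lit 6) (nat_lit 120) (nat_lit 0) (nat_lit 220) (nat_lit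 219) (nat_lit 131))) (PT.nd (nat_lit 78) (PT.lf (nat_lit 8664) (nat_lit 6) (nat_lit 114) (nat_lit 0) (nat_lit 221) (nat_lit 219) (nat_lit 130)) (PT.lf (nat_lit 8284) (nat_lit 6) (nat_lit 109) (nat_lit 0) (nat_lit 222) (nat_lit 219) (nat_lit 129)))))) (PT.nd (nat_lit 51870) (PT.nd (nat_lit 51558) (PT.nd (nat_lit 156) (PT.nd (nat_lit 78) (PT.lf (nat_lit 7904) (nat_lit 6) (nat_lit 104) (nat_lit 0) (nat_lit 223) (nat_lit 219) (nat_lit 128)) (PT.lf (nat_lit 7524) (nat_lit 6) (nat_lit 99) (nat_lit 0) (nat_lit 224) (nat_lit 219) (nat_lit 127))) (PT.nd (nat_lit 78) (PT.lf (nat_lit 7144) (nat_lit 6) (nat_lit 94) (nat_lit 0) (nat_lit 225) (nat_lit 219) (nat_lit 126)) (PT.lf (nat_lit 6764) (nat_lit 6) (nat_lit 89) (nat_lit 0) (nat_lit 226) (nat_lit 219) (nat_lit 125)))) (PT.nd (nat_lit 156) (PT.nd (nat_lit 78) (PT.lf (nat_lit 6156) (nat_lit 6) (nat_lit 81) (nat_lit 5) (nat_lit 123) (nat_lit 220) (nat_lit 227)) (PT.lf (nat_lit 6460)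 (nat_lit 6) (nat_lit 85) (nat_lit 5) (nat_lit 124) (nat_lit 220) (nat_lit 226))) (PT.nd (nat_lit 78) (PT.lf (nat_lit 6840) (nat_lit 6) (nat_lit 90) (nat_lit 5) (nat_lit 125) (nat_lit 220) (nat_lit 225)) (PT.lf (nat_lit 7220) (nat_lit 6) (nat_lit 95) (nat_lit 5) (nat_lit 126) (nat_lit 220) (nat_lit 224))))) (PT.nd (nat_lit 312) (PT.nd (nat_lit 156) (PT.nd (nat_lit 78) (PT.lf (nat_lit 7600) (nat_lit 6) (nat_lit 100) (nat_lit 5) (nat_lit 127) (nat_lit 220) (nat_lit 223)) (PT.lf (nat_lit 7980) (nat_lit 6) (nat_lit 105) (nat_lit 5) (nat_lit 128) (nat_lit 220) (nat_lit 222))) (PT.nd (nat_lit 78) (PT.lf (nat_lit 8360) (nat_lit 6) (nat_lit 110) (nat_lit 5) (nat_lit 129) (nat_lit 220) (nat_lit 221)) (PT.lf (nat_lit 8740) (nat_lit 3) (nat_lit 115) (nat_lit 4) (nat_lit 130) (nat_lit 220) (nat_lit 220)))) (PT.nd (nat_lit 156) (PT.nd (nat_lit 78) (PT.lf (nat_lit 9120) (nat_lit 6) (nat_lit 120) (nat_lit 4) (nat_lit 131) (nat_lit 220)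 (nat_lit 219)) (PT.lf (nat_lit 9424) (nat_lit 6) (nat_lit 124) (nat_lit 4) (nat_lit 132) (nat_lit 220) (nat_lit 218))) (PT.nd (nat_lit 78) (PT.lf (nat_lit 9804) (nat_lit 6) (nat_lit 129) (nat_lit 4) (nat_lit 133) (nat_lit 220) (nat_lit 217)) (PT.lf (nat_lit 10184) (nat_lit 6) (nat_lit 134) (nat_lit 4) (nat_lit 134) (nat_lit 220) (nat_lit 216))))))) (PT.nd (nat_lit 6240) (PT.nd (nat_lit 546) (PT.nd (nat_lit 234) (PT.nd (nat_lit 78) (PT.lf (nat_lit 10564) (nat_lit 6) (nat_lit 139) (nat_lit 4) (nat_lit 135) (nat_lit 220) (nat_lit 215)) (PT.nd (nat_lit 78) (PT.lf (nat_lit 10944) (nat_lit 6) (nat_lit 144) (nat_lit 4) (nat_lit 136) (nat_lit 220) (nat_lit 214)) (PT.lf (nat_lit 11324) (nat_lit 6) (nat_lit 149) (nat_lit 4) (nat_lit 137) (nat_lit 220) (nat_lit 213)))) (PT.nd (nat_lit 156) (PT.nd (nat_lit 78) (PT.lf (nat_lit 11704) (nat_lit 6) (nat_lit 154) (nat_lit 4) (nat_lit 138) (nat_lit 220) (nat_lit 212)) (PT.lf (nat_lit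 12160) (nat_lit 6) (nat_lit 160) (nat_lit 4) (nat_lit 139) (nat_lit 220) (nat_lit 211))) (PT.nd (nat_lit 78) (PT.lf (nat_lit 12540) (nat_lit 6) (nat_lit 165) (nat_lit 4) (nat_lit 140) (nat_lit 220) (nat_lit 210)) (PT.lf (nat_lit 12996) (nat_lit 6) (nat_lit 171) (nat_lit 4) (nat_lit 141) (nat_lit 220) (nat_lit 209))))) (PT.nd (nat_lit 5382) (PT.nd (nat_lit 5226) (PT.nd (nat_lit 5148) (PT.lf (nat_lit 13452) (nat_lit 6) (nat_lit 177) (nat_lit 4) (nat_lit 142) (nat_lit 220) (nat_lit 208)) (PT.lf (nat_lit 13452) (nat_lit 6) (nat_lit 177) (nat_lit 2) (nat_lit 208) (nat_lit 220) (nat_lit 142))) (PT.nd (nat_lit 78) (PT.lf (nat_lit 12996) (nat_lit 6) (nat_lit 171) (nat_lit 2) (nat_lit 209) (nat_lit 220) (nat_lit 141)) (PT.lf (nat_lit 12540) (nat_lit 6) (nat_lit 165) (nat_lit 2) (nat_lit 210) (nat_lit 220) (nat_lit 140)))) (PT.nd (nat_lit 156) (PT.nd (nat_lit 78) (PT.lf (nat_lit 12160) (nat_lit 6) (nat_lit 160) (nat_lit 2) (nat_lit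 211) (nat_lit 220) (nat_lit 139)) (PT.lf (nat_lit 11704) (nat_lit 6) (nat_lit 154) (nat_lit 2) (nat_lit 212) (nat_lit 220) (nat_lit 138))) (PT.nd (nat_lit 78) (PT.lf (nat_lit 11324) (nat_lit 6) (nat_lit 149) (nat_lit 2) (nat_lit 213) (nat_lit 220) (nat_lit 137)) (PT.lf (nat_lit 10944) (nat_lit 6) (nat_lit 144) (nat_lit 2) (nat_lit 214) (nat_lit 220) (nat_lit 136)))))) (PT.nd (nat_lit 624) (PT.nd (nat_lit 312) (PT.nd (nat_lit 156) (PT.nd (nat_lit 78) (PT.lf (nat_lit 10564) (nat_lit 6) (nat_lit 139) (nat_lit 2) (nat_lit 215) (nat_lit 220) (nat_lit 135)) (PT.lf (nat_lit 10184) (nat_lit 6) (nat_lit 134) (nat_lit 2) (nat_lit 216) (nat_lit 220) (nat_lit 134))) (PT.nd (nat_lit 78) (PT.lf (nat_lit 9804) (nat_lit 6) (nat_lit 129) (nat_lit 2) (nat_lit 217) (nat_lit 220) (nat_lit 133)) (PT.lf (nat_lit 9424) (nat_lit 6) (nat_lit 124) (nat_lit 2) (nat_lit 218) (nat_lit 220) (nat_lit 132)))) (PT.nd (nat_lit 156) (PT.nd (nat_lit 78)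 (PT.lf (nat_lit 9120) (nat_lit 6) (nat_lit 120) (nat_lit 2) (nat_lit 219) (nat_lit 220) (nat_lit 131)) (PT.lf (nat_lit 8740) (nat_lit 3) (nat_lit 115) (nat_lit 0) (nat_lit 220) (nat_lit 220) (nat_lit 130))) (PT.nd (nat_lit 78) (PT.lf (nat_lit 8360) (nat_lit 6) (nat_lit 110) (nat_lit 0) (nat_lit 221) (nat_lit 220) (nat_lit 129)) (PT.lf (nat_lit 7980) (nat_lit 6) (nat_lit 105) (nat_lit 0) (nat_lit 222) (nat_lit 220) (nat_lit 128))))) (PT.nd (nat_lit 312) (PT.nd (nat_lit 156) (PT.nd (nat_lit 78) (PT.lf (nat_lit 7600) (nat_lit 6) (nat_lit 100) (nat_lit 0) (nat_lit 223) (nat_lit 220) (nat_lit 127)) (PT.lf (nat_lit 7220) (nat_lit 6) (nat_lit 95) (nat_lit 0) (nat_lit 224) (nat_lit 220) (nat_lit 126))) (PT.nd (nat_lit 78) (PT.lf (nat_lit 6840) (nat_lit 6) (nat_lit 90) (nat_lit 0) (nat_lit 225) (nat_lit 220) (nat_lit 125)) (PT.lf (nat_lit 6460) (nat_lit 6) (nat_lit 85) (nat_lit 0) (nat_lit 226) (nat_lit 220) (nat_lit 124))))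 (PT.nd (nat_lit 51246) (PT.nd (nat_lit 51168) (PT.lf (nat_lit 6156) (nat_lit 6) (nat_lit 81) (nat_lit 0) (nat_lit 227) (nat_lit 220) (nat_lit 123)) (PT.lf (nat_lit 5852) (nat_lit 6) (nat_lit 77) (nat_lit 5) (nat_lit 122) (nat_lit 221) (nat_lit 227))) (PT.nd (nat_lit 78) (PT.lf (nat_lit 6232) (nat_lit 6) (nat_lit 82) (nat_lit 5) (nat_lit 123) (nat_lit 221) (nat_lit 226)) (PT.lf (nat_lit 6536) (nat_lit 6) (nat_lit 86) (nat_lit 5) (nat_lit 124) (nat_lit 221) (nat_lit 225))))))))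
noncomputable def pc58 : PT := (PT.nd (nat_lit 7800) (PT.nd (nat_lit 6630) (PT.nd (nat_lit 546) (PT.nd (nat_lit 234) (PT.nd (nat_lit 78) (PT.lf (nat_lit 6916) (nat_lit 6) (nat_lit 91) (nat_lit 5) (nat_lit 125) (nat_lit 221) (nat_lit 224)) (PT.nd (nat_lit 78) (PT.lf (nat_lit 7296) (nat_lit 6) (nat_lit 96) (nat_lit 5) (nat_lit 126) (nat_lit 221) (nat_lit 223)) (PT.lf (nat_lit 7676) (nat_lit 6) (nat_lit 101) (nat_lit 5) (nat_lit 127) (nat_lit 221) (nat_lit 222)))) (PT.nd (nat_lit 156) (PT.nd (nat_lit 78) (PT.lf (nat_lit 8056) (nat_lit 3) (nat_lit 106) (nat_lit 4) (nat_lit 128) (nat_lit 221) (nat_lit 221)) (PT.lf (nat_lit 8360) (nat_lit 6) (nat_lit 110) (nat_lit 4) (nat_lit 129) (nat_lit 221) (nat_lit 220))) (PT.nd (nat_lit 78) (PT.lf (nat_lit 8664) (nat_lit 6) (nat_lit 114) (nat_lit 4) (nat_lit 130) (nat_lit 221) (nat_lit 219)) (PT.lf (nat_lit 9044) (nat_lit 6) (nat_lit 119) (nat_lit 4) (nat_lit 131) (nat_lit 221) (nat_lit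 218))))) (PT.nd (nat_lit 312) (PT.nd (nat_lit 156) (PT.nd (nat_lit 78) (PT.lf (nat_lit 9348) (nat_lit 6) (nat_lit 123) (nat_lit 4) (nat_lit 132) (nat_lit 221) (nat_lit 217)) (PT.lf (nat_lit 9728) (nat_lit 6) (nat_lit 128) (nat_lit 4) (nat_lit 133) (nat_lit 221) (nat_lit 216))) (PT.nd (nat_lit 78) (PT.lf (nat_lit 10108) (nat_lit 6) (nat_lit 133) (nat_lit 4) (nat_lit 134) (nat_lit 221) (nat_lit 215)) (PT.lf (nat_lit 10488) (nat_lit 6) (nat_lit 138) (nat_lit 4) (nat_lit 135) (nat_lit 221) (nat_lit 214)))) (PT.nd (nat_lit 156) (PT.nd (nat_lit 78) (PT.lf (nat_lit 10868) (nat_lit 6) (nat_lit 143) (nat_lit 4) (nat_lit 136) (nat_lit 221) (nat_lit 213)) (PT.lf (nat_lit 11248) (nat_lit 6) (nat_lit 148) (nat_lit 4) (nat_lit 137) (nat_lit 221) (nat_lit 212))) (PT.nd (nat_lit 78) (PT.lf (nat_lit 11628) (nat_lit 6) (nat_lit 153) (nat_lit 4) (nat_lit 138) (nat_lit 221) (nat_lit 211)) (PT.lf (nat_lit 12084) (nat_lit 6) (nat_lit 159)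 (nat_lit 4) (nat_lit 139) (nat_lit 221) (nat_lit 210)))))) (PT.nd (nat_lit 546) (PT.nd (nat_lit 234) (PT.nd (nat_lit 78) (PT.lf (nat_lit 12084) (nat_lit 6) (nat_lit 159) (nat_lit 2) (nat_lit 210) (nat_lit 221) (nat_lit 139)) (PT.nd (nat_lit 78) (PT.lf (nat_lit 11628) (nat_lit 6) (nat_lit 153) (nat_lit 2) (nat_lit 211) (nat_lit 221) (nat_lit 138)) (PT.lf (nat_lit 11248) (nat_lit 6) (nat_lit 148) (nat_lit 2) (nat_lit 212) (nat_lit 221) (nat_lit 137)))) (PT.nd (nat_lit 156) (PT.nd (nat_lit 78) (PT.lf (nat_lit 10868) (nat_lit 6) (nat_lit 143) (nat_lit 2) (nat_lit 213) (nat_lit 221) (nat_lit 136)) (PT.lf (nat_lit 10488) (nat_lit 6) (nat_lit 138) (nat_lit 2) (nat_lit 214) (nat_lit 221) (nat_lit 135))) (PT.nd (nat_lit 78) (PT.lf (nat_lit 10108) (nat_lit 6) (nat_lit 133) (nat_lit 2) (nat_lit 215) (nat_lit 221) (nat_lit 134)) (PT.lf (nat_lit 9728) (nat_lit 6) (nat_lit 128) (nat_lit 2) (nat_lit 216) (nat_lit 221) (nat_lit 133)))))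 (PT.nd (nat_lit 312) (PT.nd (nat_lit 156) (PT.nd (nat_lit 78) (PT.lf (nat_lit 9348) (nat_lit 6) (nat_lit 123) (nat_lit 2) (nat_lit 217) (nat_lit 221) (nat_lit 132)) (PT.lf (nat_lit 9044) (nat_lit 6) (nat_lit 119) (nat_lit 2) (nat_lit 218) (nat_lit 221) (nat_lit 131))) (PT.nd (nat_lit 78) (PT.lf (nat_lit 8664) (nat_lit 6) (nat_lit 114) (nat_lit 2) (nat_lit 219) (nat_lit 221) (nat_lit 130)) (PT.lf (nat_lit 8360) (nat_lit 6) (nat_lit 110) (nat_lit 2) (nat_lit 220) (nat_lit 221) (nat_lit 129)))) (PT.nd (nat_lit 156) (PT.nd (nat_lit 78) (PT.lf (nat_lit 8056) (nat_lit 3) (nat_lit 106) (nat_lit 0) (nat_lit 221) (nat_lit 221) (nat_lit 128)) (PT.lf (nat_lit 7676) (nat_lit 6) (nat_lit 101) (nat_lit 0) (nat_lit 222) (nat_lit 221) (nat_lit 127))) (PT.nd (nat_lit 78) (PT.lf (nat_lit 7296) (nat_lit 6) (nat_lit 96) (nat_lit 0) (nat_lit 223) (nat_lit 221) (nat_lit 126)) (PT.lf (nat_lit 6916) (nat_lit 6) (nat_lit 91) (nat_lit 0) (nat_lit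 224) (nat_lit 221) (nat_lit 125))))))) (PT.nd (nat_lit 52104) (PT.nd (nat_lit 51480) (PT.nd (nat_lit 51168) (PT.nd (nat_lit 78) (PT.lf (nat_lit 6536) (nat_lit 6) (nat_lit 86) (nat_lit 0) (nat_lit 225) (nat_lit 221) (nat_lit 124)) (PT.nd (nat_lit 78) (PT.lf (nat_lit 6232) (nat_lit 6) (nat_lit 82) (nat_lit 0) (nat_lit 226) (nat_lit 221) (nat_lit 123)) (PT.lf (nat_lit 5852) (nat_lit 6) (nat_lit 77) (nat_lit 0) (nat_lit 227) (nat_lit 221) (nat_lit 122)))) (PT.nd (nat_lit 156) (PT.nd (nat_lit 78) (PT.lf (nat_lit 5320) (nat_lit 6) (nat_lit 70) (nat_lit 5) (nat_lit 120) (nat_lit 222) (nat_lit 228)) (PT.lf (nat_lit 5624) (nat_lit 6) (nat_lit 74) (nat_lit 5) (nat_lit 121) (nat_lit 222) (nat_lit 227))) (PT.nd (nat_lit 78) (PT.lf (nat_lit 5928) (nat_lit 6) (nat_lit 78) (nat_lit 5) (nat_lit 122) (nat_lit 222) (nat_lit 226)) (PT.lf (nat_lit 6308) (nat_lit 6) (nat_lit 83) (nat_lit 5) (nat_lit 123) (nat_lit 222) (nat_lit 225))))) (PT.nd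 (nat_lit 312) (PT.nd (nat_lit 156) (PT.nd (nat_lit 78) (PT.lf (nat_lit 6612) (nat_lit 6) (nat_lit 87) (nat_lit 5) (nat_lit 124) (nat_lit 222) (nat_lit 224)) (PT.lf (nat_lit 6992) (nat_lit 6) (nat_lit 92) (nat_lit 5) (nat_lit 125) (nat_lit 222) (nat_lit 223))) (PT.nd (nat_lit 78) (PT.lf (nat_lit 7372) (nat_lit 3) (nat_lit 97) (nat_lit 4) (nat_lit 126) (nat_lit 222) (nat_lit 222)) (PT.lf (nat_lit 7676) (nat_lit 6) (nat_lit 101) (nat_lit 4) (nat_lit 127) (nat_lit 222) (nat_lit 221)))) (PT.nd (nat_lit 156) (PT.nd (nat_lit 78) (PT.lf (nat_lit 7980) (nat_lit 6) (nat_lit 105) (nat_lit 4) (nat_lit 128) (nat_lit 222) (nat_lit 220)) (PT.lf (nat_lit 8284) (nat_lit 6) (nat_lit 109) (nat_lit 4) (nat_lit 129) (nat_lit 222) (nat_lit 219))) (PT.nd (nat_lit 78) (PT.lf (nat_lit 8588) (nat_lit 6) (nat_lit 113) (nat_lit 4) (nat_lit 130) (nat_lit 222) (nat_lit 218)) (PT.lf (nat_lit 8968) (nat_lit 6) (nat_lit 118) (nat_lit 4) (nat_lit 131)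 (nat_lit 222) (nat_lit 217)))))) (PT.nd (nat_lit 6474) (PT.nd (nat_lit 312) (PT.nd (nat_lit 156) (PT.nd (nat_lit 78) (PT.lf (nat_lit 9272) (nat_lit 6) (nat_lit 122) (nat_lit 4) (nat_lit 132) (nat_lit 222) (nat_lit 216)) (PT.lf (nat_lit 9652) (nat_lit 6) (nat_lit 127) (nat_lit 4) (nat_lit 133) (nat_lit 222) (nat_lit 215))) (PT.nd (nat_lit 78) (PT.lf (nat_lit 10032) (nat_lit 6) (nat_lit 132) (nat_lit 4) (nat_lit 134) (nat_lit 222) (nat_lit 214)) (PT.lf (nat_lit 10412) (nat_lit 6) (nat_lit 137) (nat_lit 4) (nat_lit 135) (nat_lit 222) (nat_lit 213)))) (PT.nd (nat_lit 6006) (PT.nd (nat_lit 5928) (PT.lf (nat_lit 10792) (nat_lit 6) (nat_lit 142) (nat_lit 4) (nat_lit 136) (nat_lit 222) (nat_lit 212)) (PT.lf (nat_lit 10792) (nat_lit 6) (nat_lit 142) (nat_lit 2) (nat_lit 212) (nat_lit 222) (nat_lit 136))) (PT.nd (nat_lit 78) (PT.lf (nat_lit 10412) (nat_lit 6) (nat_lit 137) (nat_lit 2) (nat_lit 213) (nat_lit 222) (nat_lit 135))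 (PT.lf (nat_lit 10032) (nat_lit 6) (nat_lit 132) (nat_lit 2) (nat_lit 214) (nat_lit 222) (nat_lit 134))))) (PT.nd (nat_lit 312) (PT.nd (nat_lit 156) (PT.nd (nat_lit 78) (PT.lf (nat_lit 9652) (nat_lit 6) (nat_lit 127) (nat_lit 2) (nat_lit 215) (nat_lit 222) (nat_lit 133)) (PT.lf (nat_lit 9272) (nat_lit 6) (nat_lit 122) (nat_lit 2) (nat_lit 216) (nat_lit 222) (nat_lit 132))) (PT.nd (nat_lit 78) (PT.lf (nat_lit 8968) (nat_lit 6) (nat_lit 118) (nat_lit 2) (nat_lit 217) (nat_lit 222) (nat_lit 131)) (PT.lf (nat_lit 8588) (nat_lit 6) (nat_lit 113) (nat_lit 2) (nat_lit 218) (nat_lit 222) (nat_lit 130)))) (PT.nd (nat_lit 156) (PT.nd (nat_lit 78) (PT.lf (nat_lit 8284) (nat_lit 6) (nat_lit 109) (nat_lit 2) (nat_lit 219) (nat_lit 222) (nat_lit 129)) (PT.lf (nat_lit 7980) (nat_lit 6) (nat_lit 105) (nat_lit 2) (nat_lit 220) (nat_lit 222) (nat_lit 128))) (PT.nd (nat_lit 78) (PT.lf (nat_lit 7676) (nat_lit 6) (nat_lit 101) (nat_lit 2)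 (nat_lit 221) (nat_lit 222) (nat_lit 127)) (PT.lf (nat_lit 7372) (nat_lit 3) (nat_lit 97) (nat_lit 0) (nat_lit 222) (nat_lit 222) (nat_lit 126))))))))
noncomputable def pc59 : PT := (PT.nd (nat_lit 59358) (PT.nd (nat_lit 51870) (PT.nd (nat_lit 51246) (PT.nd (nat_lit 234) (PT.nd (nat_lit 78) (PT.lf (nat_lit 6992) (nat_lit 6) (nat_lit 92) (nat_lit 0) (nat_lit 223) (nat_lit 222) (nat_lit 125)) (PT.nd (nat_lit 78) (PT.lf (nat_lit 6612) (nat_lit 6) (nat_lit 87) (nat_lit 0) (nat_lit 224) (nat_lit 222) (nat_lit 124)) (PT.lf (nat_lit 6308) (nat_lit 6) (nat_lit 83) (nat_lit 0) (nat_lit 225) (nat_lit 222) (nat_lit 123)))) (PT.nd (nat_lit 156) (PT.nd (nat_lit 78) (PT.lf (nat_lit 5928) (nat_lit 6) (nat_lit 78) (nat_lit 0) (nat_lit 226) (nat_lit 222) (nat_lit 122)) (PT.lf (nat_lit 5624) (nat_lit 6) (nat_lit 74) (nat_lit 0) (nat_lit 227) (nat_lit 222) (nat_lit 121))) (PT.nd (nat_lit 50778) (PT.lf (nat_lit 5320) (nat_lit 6) (nat_lit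 70) (nat_lit 0) (nat_lit 228) (nat_lit 222) (nat_lit 120)) (PT.lf (nat_lit 4788) (nat_lit 6) (nat_lit 63) (nat_lit 5) (nat_lit 118) (nat_lit 223) (nat_lit 229))))) (PT.nd (nat_lit 312) (PT.nd (nat_lit 156) (PT.nd (nat_lit 78) (PT.lf (nat_lit 5092) (nat_lit 6) (nat_lit 67) (nat_lit 5) (nat_lit 119) (nat_lit 223) (nat_lit 228)) (PT.lf (nat_lit 5396) (nat_lit 6) (nat_lit 71) (nat_lit 5) (nat_lit 120) (nat_lit 223) (nat_lit 227))) (PT.nd (nat_lit 78) (PT.lf (nat_lit 5700) (nat_lit 6) (nat_lit 75) (nat_lit 5) (nat_lit 121) (nat_lit 223) (nat_lit 226)) (PT.lf (nat_lit 6004) (nat_lit 6) (nat_lit 79) (nat_lit 5) (nat_lit 122) (nat_lit 223) (nat_lit 225)))) (PT.nd (nat_lit 156) (PT.nd (nat_lit 78) (PT.lf (nat_lit 6384) (nat_lit 6) (nat_lit 84) (nat_lit 5) (nat_lit 123) (nat_lit 223) (nat_lit 224)) (PT.lf (nat_lit 6688) (nat_lit 3) (nat_lit 88) (nat_lit 4) (nat_lit 124) (nat_lit 223) (nat_lit 223))) (PT.nd (nat_lit 78) (PT.lf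 (nat_lit 6992) (nat_lit 6) (nat_lit 92) (nat_lit 4) (nat_lit 125) (nat_lit 223) (nat_lit 222)) (PT.lf (nat_lit 7296) (nat_lit 6) (nat_lit 96) (nat_lit 4) (nat_lit 126) (nat_lit 223) (nat_lit 221)))))) (PT.nd (nat_lit 6864) (PT.nd (nat_lit 312) (PT.nd (nat_lit 156) (PT.nd (nat_lit 78) (PT.lf (nat_lit 7600) (nat_lit 6) (nat_lit 100) (nat_lit 4) (nat_lit 127) (nat_lit 223) (nat_lit 220)) (PT.lf (nat_lit 7904) (nat_lit 6) (nat_lit 104) (nat_lit 4) (nat_lit 128) (nat_lit 223) (nat_lit 219))) (PT.nd (nat_lit 78) (PT.lf (nat_lit 8208) (nat_lit 6) (nat_lit 108) (nat_lit 4) (nat_lit 129) (nat_lit 223) (nat_lit 218)) (PT.lf (nat_lit 8512) (nat_lit 6) (nat_lit 112) (nat_lit 4) (nat_lit 130) (nat_lit 223) (nat_lit 217)))) (PT.nd (nat_lit 156) (PT.nd (nat_lit 78) (PT.lf (nat_lit 8892) (nat_lit 6) (nat_lit 117) (nat_lit 4) (nat_lit 131) (nat_lit 223) (nat_lit 216)) (PT.lf (nat_lit 9196) (nat_lit 6) (nat_lit 121) (nat_lit 4) (nat_lit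 132) (nat_lit 223) (nat_lit 215))) (PT.nd (nat_lit 6318) (PT.lf (nat_lit 9576) (nat_lit 6) (nat_lit 126) (nat_lit 4) (nat_lit 133) (nat_lit 223) (nat_lit 214)) (PT.lf (nat_lit 9576) (nat_lit 6) (nat_lit 126) (nat_lit 2) (nat_lit 214) (nat_lit 223) (nat_lit 133))))) (PT.nd (nat_lit 312) (PT.nd (nat_lit 156) (PT.nd (nat_lit 78) (PT.lf (nat_lit 9196) (nat_lit 6) (nat_lit 121) (nat_lit 2) (nat_lit 215) (nat_lit 223) (nat_lit 132)) (PT.lf (nat_lit 8892) (nat_lit 6) (nat_lit 117) (nat_lit 2) (nat_lit 216) (nat_lit 223) (nat_lit 131))) (PT.nd (nat_lit 78) (PT.lf (nat_lit 8512) (nat_lit 6) (nat_lit 112) (nat_lit 2) (nat_lit 217) (nat_lit 223) (nat_lit 130)) (PT.lf (nat_lit 8208) (nat_lit 6) (nat_lit 108) (nat_lit 2) (nat_lit 218) (nat_lit 223) (nat_lit 129)))) (PT.nd (nat_lit 156) (PT.nd (nat_lit 78) (PT.lf (nat_lit 7904) (nat_lit 6) (nat_lit 104) (nat_lit 2) (nat_lit 219) (nat_lit 223) (nat_lit 128)) (PT.lf (nat_lit 7600) (nat_lit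 6) (nat_lit 100) (nat_lit 2) (nat_lit 220) (nat_lit 223) (nat_lit 127))) (PT.nd (nat_lit 78) (PT.lf (nat_lit 7296) (nat_lit 6) (nat_lit 96) (nat_lit 2) (nat_lit 221) (nat_lit 223) (nat_lit 126)) (PT.lf (nat_lit 6992) (nat_lit 6) (nat_lit 92) (nat_lit 2) (nat_lit 222) (nat_lit 223) (nat_lit 125))))))) (PT.nd (nat_lit 51714) (PT.nd (nat_lit 51090) (PT.nd (nat_lit 234) (PT.nd (nat_lit 78) (PT.lf (nat_lit 6688) (nat_lit 3) (nat_lit 88) (nat_lit 0) (nat_lit 223) (nat_lit 223) (nat_lit 124)) (PT.nd (nat_lit 78) (PT.lf (nat_lit 6384) (nat_lit 6) (nat_lit 84) (nat_lit 0) (nat_lit 224) (nat_lit 223) (nat_lit 123)) (PT.lf (nat_lit 6004) (nat_lit 6) (nat_lit 79) (nat_lit 0) (nat_lit 225) (nat_lit 223) (nat_lit 122)))) (PT.nd (nat_lit 156) (PT.nd (nat_lit 78) (PT.lf (nat_lit 5700) (nat_lit 6) (nat_lit 75) (nat_lit 0) (nat_lit 226) (nat_lit 223) (nat_lit 121)) (PT.lf (nat_lit 5396) (nat_lit 6) (nat_lit 71) (nat_lit 0) (nat_lit 227)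 (nat_lit 223) (nat_lit 120))) (PT.nd (nat_lit 78) (PT.lf (nat_lit 5092) (nat_lit 6) (nat_lit 67) (nat_lit 0) (nat_lit 228) (nat_lit 223) (nat_lit 119)) (PT.lf (nat_lit 4788) (nat_lit 6) (nat_lit 63) (nat_lit 0) (nat_lit 229) (nat_lit 223) (nat_lit 118))))) (PT.nd (nat_lit 312) (PT.nd (nat_lit 156) (PT.nd (nat_lit 78) (PT.lf (nat_lit 4560) (nat_lit 6) (nat_lit 60) (nat_lit 5) (nat_lit 117) (nat_lit 224) (nat_lit 229)) (PT.lf (nat_lit 4864) (nat_lit 6) (nat_lit 64) (nat_lit 5) (nat_lit 118) (nat_lit 224) (nat_lit 228))) (PT.nd (nat_lit 78) (PT.lf (nat_lit 5168) (nat_lit 6) (nat_lit 68) (nat_lit 5) (nat_lit 119) (nat_lit 224) (nat_lit 227)) (PT.lf (nat_lit 5472) (nat_lit 6) (nat_lit 72) (nat_lit 5) (nat_lit 120) (nat_lit 224) (nat_lit 226)))) (PT.nd (nat_lit 156) (PT.nd (nat_lit 78) (PT.lf (nat_lit 5776) (nat_lit 6) (nat_lit 76) (nat_lit 5) (nat_lit 121) (nat_lit 224) (nat_lit 225)) (PT.lf (nat_lit 6080) (nat_lit 3) (nat_lit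 80) (nat_lit 4) (nat_lit 122) (nat_lit 224) (nat_lit 224))) (PT.nd (nat_lit 78) (PT.lf (nat_lit 6384) (nat_lit 6) (nat_lit 84) (nat_lit 4) (nat_lit 123) (nat_lit 224) (nat_lit 223)) (PT.lf (nat_lit 6612) (nat_lit 6) (nat_lit 87) (nat_lit 4) (nat_lit 124) (nat_lit 224) (nat_lit 222)))))) (PT.nd (nat_lit 7098) (PT.nd (nat_lit 312) (PT.nd (nat_lit 156) (PT.nd (nat_lit 78) (PT.lf (nat_lit 6916) (nat_lit 6) (nat_lit 91) (nat_lit 4) (nat_lit 125) (nat_lit 224) (nat_lit 221)) (PT.lf (nat_lit 7220) (nat_lit 6) (nat_lit 95) (nat_lit 4) (nat_lit 126) (nat_lit 224) (nat_lit 220))) (PT.nd (nat_lit 78) (PT.lf (nat_lit 7524) (nat_lit 6) (nat_lit 99) (nat_lit 4) (nat_lit 127) (nat_lit 224) (nat_lit 219)) (PT.lf (nat_lit 7828) (nat_lit 6) (nat_lit 103) (nat_lit 4) (nat_lit 128) (nat_lit 224) (nat_lit 218)))) (PT.nd (nat_lit 156) (PT.nd (nat_lit 78) (PT.lf (nat_lit 8132) (nat_lit 6) (nat_lit 107) (nat_lit 4) (nat_lit 129) (nat_lit 224)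 (nat_lit 217)) (PT.lf (nat_lit 8436) (nat_lit 6) (nat_lit 111) (nat_lit 4) (nat_lit 130) (nat_lit 224) (nat_lit 216))) (PT.nd (nat_lit 6552) (PT.lf (nat_lit 8816) (nat_lit 6) (nat_lit 116) (nat_lit 4) (nat_lit 131) (nat_lit 224) (nat_lit 215)) (PT.lf (nat_lit 8816) (nat_lit 6) (nat_lit 116) (nat_lit 2) (nat_lit 215) (nat_lit 224) (nat_lit 131))))) (PT.nd (nat_lit 312) (PT.nd (nat_lit 156) (PT.nd (nat_lit 78) (PT.lf (nat_lit 8436) (nat_lit 6) (nat_lit 111) (nat_lit 2) (nat_lit 216) (nat_lit 224) (nat_lit 130)) (PT.lf (nat_lit 8132) (nat_lit 6) (nat_lit 107) (nat_lit 2) (nat_lit 217) (nat_lit 224) (nat_lit 129))) (PT.nd (nat_lit 78) (PT.lf (nat_lit 7828) (nat_lit 6) (nat_lit 103) (nat_lit 2) (nat_lit 218) (nat_lit 224) (nat_lit 128)) (PT.lf (nat_lit 7524) (nat_lit 6) (nat_lit 99) (nat_lit 2) (nat_lit 219) (nat_lit 224) (nat_lit 127)))) (PT.nd (nat_lit 156) (PT.nd (nat_lit 78) (PT.lf (nat_lit 7220) (nat_lit 6) (nat_lit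 95) (nat_lit 2) (nat_lit 220) (nat_lit 224) (nat_lit 126)) (PT.lf (nat_lit 6916) (nat_lit 6) (nat_lit 91) (nat_lit 2) (nat_lit 221) (nat_lit 224) (nat_lit 125))) (PT.nd (nat_lit 78) (PT.lf (nat_lit 6612) (nat_lit 6) (nat_lit 87) (nat_lit 2) (nat_lit 222) (nat_lit 224) (nat_lit 124)) (PT.lf (nat_lit 6384) (nat_lit 6) (nat_lit 84) (nat_lit 2) (nat_lit 223) (nat_lit 224) (nat_lit 123))))))))
noncomputable def pc60 : PT := (PT.nd (nat_lit 59592) (PT.nd (nat_lit 51558) (PT.nd (nat_lit 50934) (PT.nd (nat_lit 234) (PT.nd (nat_lit 78) (PT.lf (nat_lit 6080) (nat_lit 3) (nat_lit 80) (nat_lit 0) (nat_lit 224) (nat_lit 224) (nat_lit 122)) (PT.nd (nat_lit 78) (PT.lf (nat_lit 5776) (nat_lit 6) (nat_lit 76) (nat_lit 0) (nat_lit 225) (nat_lit 224) (nat_lit 121)) (PT.lf (nat_lit 5472) (nat_lit 6) (nat_lit 72) (nat_lit 0) (nat_lit 226) (nat_lit 224) (nat_lit 120)))) (PT.nd (nat_lit 156) (PT.nd (nat_lit 78) (PT.lf (nat_lit 5168) (nat_lit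 6) (nat_lit 68) (nat_lit 0) (nat_lit 227) (nat_lit 224) (nat_lit 119)) (PT.lf (nat_lit 4864) (nat_lit 6) (nat_lit 64) (nat_lit 0) (nat_lit 228) (nat_lit 224) (nat_lit 118))) (PT.nd (nat_lit 50466) (PT.lf (nat_lit 4560) (nat_lit 6) (nat_lit 60) (nat_lit 0) (nat_lit 229) (nat_lit 224) (nat_lit 117)) (PT.lf (nat_lit 4104) (nat_lit 6) (nat_lit 54) (nat_lit 5) (nat_lit 115) (nat_lit 225) (nat_lit 230))))) (PT.nd (nat_lit 312) (PT.nd (nat_lit 156) (PT.nd (nat_lit 78) (PT.lf (nat_lit 4332) (nat_lit 6) (nat_lit 57) (nat_lit 5) (nat_lit 116) (nat_lit 225) (nat_lit 229)) (PT.lf (nat_lit 4636) (nat_lit 6) (nat_lit 61) (nat_lit 5) (nat_lit 117) (nat_lit 225) (nat_lit 228))) (PT.nd (nat_lit 78) (PT.lf (nat_lit 4940) (nat_lit 6) (nat_lit 65) (nat_lit 5) (nat_lit 118) (nat_lit 225) (nat_lit 227)) (PT.lf (nat_lit 5244) (nat_lit 6) (nat_lit 69) (nat_lit 5) (nat_lit 119) (nat_lit 225) (nat_lit 226)))) (PT.nd (nat_lit 156) (PT.nd (nat_lit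 78) (PT.lf (nat_lit 5548) (nat_lit 3) (nat_lit 73) (nat_lit 4) (nat_lit 120) (nat_lit 225) (nat_lit 225)) (PT.lf (nat_lit 5776) (nat_lit 6) (nat_lit 76) (nat_lit 4) (nat_lit 121) (nat_lit 225) (nat_lit 224))) (PT.nd (nat_lit 78) (PT.lf (nat_lit 6004) (nat_lit 6) (nat_lit 79) (nat_lit 4) (nat_lit 122) (nat_lit 225) (nat_lit 223)) (PT.lf (nat_lit 6308) (nat_lit 6) (nat_lit 83) (nat_lit 4) (nat_lit 123) (nat_lit 225) (nat_lit 222)))))) (PT.nd (nat_lit 7410) (PT.nd (nat_lit 234) (PT.nd (nat_lit 78) (PT.lf (nat_lit 6536) (nat_lit 6) (nat_lit 86) (nat_lit 4) (nat_lit 124) (nat_lit 225) (nat_lit 221)) (PT.nd (nat_lit 78) (PT.lf (nat_lit 6840) (nat_lit 6) (nat_lit 90) (nat_lit 4) (nat_lit 125) (nat_lit 225) (nat_lit 220)) (PT.lf (nat_lit 7144) (nat_lit 6) (nat_lit 94) (nat_lit 4) (nat_lit 126) (nat_lit 225) (nat_lit 219)))) (PT.nd (nat_lit 7020) (PT.nd (nat_lit 78) (PT.lf (nat_lit 7448) (nat_lit 6) (nat_lit 98) (nat_lit 4) (nat_lit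 127) (nat_lit 225) (nat_lit 218)) (PT.lf (nat_lit 7752) (nat_lit 6) (nat_lit 102) (nat_lit 4) (nat_lit 128) (nat_lit 225) (nat_lit 217))) (PT.nd (nat_lit 78) (PT.lf (nat_lit 7752) (nat_lit 6) (nat_lit 102) (nat_lit 2) (nat_lit 217) (nat_lit 225) (nat_lit 128)) (PT.lf (nat_lit 7448) (nat_lit 6) (nat_lit 98) (nat_lit 2) (nat_lit 218) (nat_lit 225) (nat_lit 127))))) (PT.nd (nat_lit 312) (PT.nd (nat_lit 156) (PT.nd (nat_lit 78) (PT.lf (nat_lit 7144) (nat_lit 6) (nat_lit 94) (nat_lit 2) (nat_lit 219) (nat_lit 225) (nat_lit 126)) (PT.lf (nat_lit 6840) (nat_lit 6) (nat_lit 90) (nat_lit 2) (nat_lit 220) (nat_lit 225) (nat_lit 125))) (PT.nd (nat_lit 78) (PT.lf (nat_lit 6536) (nat_lit 6) (nat_lit 86) (nat_lit 2) (nat_lit 221) (nat_lit 225) (nat_lit 124)) (PT.lf (nat_lit 6308) (nat_lit 6) (nat_lit 83) (nat_lit 2) (nat_lit 222) (nat_lit 225) (nat_lit 123)))) (PT.nd (nat_lit 156) (PT.nd (nat_lit 78) (PT.lf (nat_lit 6004) (nat_lit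 6) (nat_lit 79) (nat_lit 2) (nat_lit 223) (nat_lit 225) (nat_lit 122)) (PT.lf (nat_lit 5776) (nat_lit 6) (nat_lit 76) (nat_lit 2) (nat_lit 224) (nat_lit 225) (nat_lit 121))) (PT.nd (nat_lit 78) (PT.lf (nat_lit 5548) (nat_lit 3) (nat_lit 73) (nat_lit 0) (nat_lit 225) (nat_lit 225) (nat_lit 120)) (PT.lf (nat_lit 5244) (nat_lit 6) (nat_lit 69) (nat_lit 0) (nat_lit 226) (nat_lit 225) (nat_lit 119))))))) (PT.nd (nat_lit 51324) (PT.nd (nat_lit 50700) (PT.nd (nat_lit 234) (PT.nd (nat_lit 78) (PT.lf (nat_lit 4940) (nat_lit 6) (nat_lit 65) (nat_lit 0) (nat_lit 227) (nat_lit 225) (nat_lit 118)) (PT.nd (nat_lit 78) (PT.lf (nat_lit 4636) (nat_lit 6) (nat_lit 61) (nat_lit 0) (nat_lit 228) (nat_lit 225) (nat_lit 117)) (PT.lf (nat_lit 4332) (nat_lit 6) (nat_lit 57) (nat_lit 0) (nat_lit 229) (nat_lit 225) (nat_lit 116)))) (PT.nd (nat_lit 50310) (PT.nd (nat_lit 50232) (PT.lf (nat_lit 4104) (nat_lit 6) (nat_lit 54) (nat_lit 0) (nat_lit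 230) (nat_lit 225) (nat_lit 115)) (PT.lf (nat_lit 3648) (nat_lit 6) (nat_lit 48) (nat_lit 5) (nat_lit 113) (nat_lit 226) (nat_lit 231))) (PT.nd (nat_lit 78) (PT.lf (nat_lit 3876) (nat_lit 6) (nat_lit 51) (nat_lit 5) (nat_lit 114) (nat_lit 226) (nat_lit 230)) (PT.lf (nat_lit 4180) (nat_lit 6) (nat_lit 55) (nat_lit 5) (nat_lit 115) (nat_lit 226) (nat_lit 229))))) (PT.nd (nat_lit 312) (PT.nd (nat_lit 156) (PT.nd (nat_lit 78) (PT.lf (nat_lit 4408) (nat_lit 6) (nat_lit 58) (nat_lit 5) (nat_lit 116) (nat_lit 226) (nat_lit 228)) (PT.lf (nat_lit 4712) (nat_lit 6) (nat_lit 62) (nat_lit 5) (nat_lit 117) (nat_lit 226) (nat_lit 227))) (PT.nd (nat_lit 78) (PT.lf (nat_lit 5016) (nat_lit 3) (nat_lit 66) (nat_lit 4) (nat_lit 118) (nat_lit 226) (nat_lit 226)) (PT.lf (nat_lit 5244) (nat_lit 6) (nat_lit 69) (nat_lit 4) (nat_lit 119) (nat_lit 226) (nat_lit 225)))) (PT.nd (nat_lit 156) (PT.nd (nat_lit 78) (PT.lf (nat_lit 5472) (nat_lit 6)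 (nat_lit 72) (nat_lit 4) (nat_lit 120) (nat_lit 226) (nat_lit 224)) (PT.lf (nat_lit 5700) (nat_lit 6) (nat_lit 75) (nat_lit 4) (nat_lit 121) (nat_lit 226) (nat_lit 223))) (PT.nd (nat_lit 78) (PT.lf (nat_lit 5928) (nat_lit 6) (nat_lit 78) (nat_lit 4) (nat_lit 122) (nat_lit 226) (nat_lit 222)) (PT.lf (nat_lit 6232) (nat_lit 6) (nat_lit 82) (nat_lit 4) (nat_lit 123) (nat_lit 226) (nat_lit 221)))))) (PT.nd (nat_lit 7878) (PT.nd (nat_lit 7566) (PT.nd (nat_lit 7410) (PT.nd (nat_lit 78) (PT.lf (nat_lit 6460) (nat_lit 6) (nat_lit 85) (nat_lit 4) (nat_lit 124) (nat_lit 226) (nat_lit 220)) (PT.lf (nat_lit 6764) (nat_lit 6) (nat_lit 89) (nat_lit 4) (nat_lit 125) (nat_lit 226) (nat_lit 219))) (PT.nd (nat_lit 78) (PT.lf (nat_lit 6764) (nat_lit 6) (nat_lit 89) (nat_lit 2) (nat_lit 219) (nat_lit 226) (nat_lit 125)) (PT.lf (nat_lit 6460) (nat_lit 6) (nat_lit 85) (nat_lit 2) (nat_lit 220) (nat_lit 226) (nat_lit 124)))) (PT.nd (nat_lit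 156) (PT.nd (nat_lit 78) (PT.lf (nat_lit 6232) (nat_lit 6) (nat_lit 82) (nat_lit 2) (nat_lit 221) (nat_lit 226) (nat_lit 123)) (PT.lf (nat_lit 5928) (nat_lit 6) (nat_lit 78) (nat_lit 2) (nat_lit 222) (nat_lit 226) (nat_lit 122))) (PT.nd (nat_lit 78) (PT.lf (nat_lit 5700) (nat_lit 6) (nat_lit 75) (nat_lit 2) (nat_lit 223) (nat_lit 226) (nat_lit 121)) (PT.lf (nat_lit 5472) (nat_lit 6) (nat_lit 72) (nat_lit 2) (nat_lit 224) (nat_lit 226) (nat_lit 120))))) (PT.nd (nat_lit 312) (PT.nd (nat_lit 156) (PT.nd (nat_lit 78) (PT.lf (nat_lit 5244) (nat_lit 6) (nat_lit 69) (nat_lit 2) (nat_lit 225) (nat_lit 226) (nat_lit 119)) (PT.lf (nat_lit 5016) (nat_lit 3) (nat_lit 66) (nat_lit 0) (nat_lit 226) (nat_lit 226) (nat_lit 118))) (PT.nd (nat_lit 78) (PT.lf (nat_lit 4712) (nat_lit 6) (nat_lit 62) (nat_lit 0) (nat_lit 227) (nat_lit 226) (nat_lit 117)) (PT.lf (nat_lit 4408) (nat_lit 6) (nat_lit 58) (nat_lit 0) (nat_lit 228) (nat_lit 226)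 (nat_lit 116)))) (PT.nd (nat_lit 156) (PT.nd (nat_lit 78) (PT.lf (nat_lit 4180) (nat_lit 6) (nat_lit 55) (nat_lit 0) (nat_lit 229) (nat_lit 226) (nat_lit 115)) (PT.lf (nat_lit 3876) (nat_lit 6) (nat_lit 51) (nat_lit 0) (nat_lit 230) (nat_lit 226) (nat_lit 114))) (PT.nd (nat_lit 50076) (PT.lf (nat_lit 3648) (nat_lit 6) (nat_lit 48) (nat_lit 0) (nat_lit 231) (nat_lit 226) (nat_lit 113)) (PT.lf (nat_lit 3420) (nat_lit 6) (nat_lit 45) (nat_lit 5) (nat_lit 112) (nat_lit 227) (nat_lit 231))))))))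
noncomputable def pc61 : PT := (PT.nd (nat_lit 59748) (PT.nd (nat_lit 8658) (PT.nd (nat_lit 546) (PT.nd (nat_lit 234) (PT.nd (nat_lit 78) (PT.lf (nat_lit 3724) (nat_lit 6) (nat_lit 49) (nat_lit 5) (nat_lit 113) (nat_lit 227) (nat_lit 230)) (PT.nd (nat_lit 78) (PT.lf (nat_lit 3952) (nat_lit 6) (nat_lit 52) (nat_lit 5) (nat_lit 114) (nat_lit 227) (nat_lit 229)) (PT.lf (nat_lit 4256) (nat_lit 6) (nat_lit 56) (nat_lit 5) (nat_lit 115) (nat_lit 227) (nat_lit 228)))) (PT.nd (nat_lit 156) (PT.nd (nat_lit 78) (PT.lf (nat_lit 4484) (nat_lit 3) (nat_lit 59) (nat_lit 4) (nat_lit 116) (nat_lit 227) (nat_lit 227)) (PT.lf (nat_lit 4712) (nat_lit 6) (nat_lit 62) (nat_lit 4) (nat_lit 117) (nat_lit 227) (nat_lit 226))) (PT.nd (nat_lit 78) (PT.lf (nat_lit 4940) (nat_lit 6) (nat_lit 65) (nat_lit 4) (nat_lit 118) (nat_lit 227) (nat_lit 225)) (PT.lf (nat_lit 5168) (nat_lit 6) (nat_lit 68) (nat_lit 4) (nat_lit 119) (nat_lit 227) (nat_lit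 224))))) (PT.nd (nat_lit 7800) (PT.nd (nat_lit 156) (PT.nd (nat_lit 78) (PT.lf (nat_lit 5396) (nat_lit 6) (nat_lit 71) (nat_lit 4) (nat_lit 120) (nat_lit 227) (nat_lit 223)) (PT.lf (nat_lit 5624) (nat_lit 6) (nat_lit 74) (nat_lit 4) (nat_lit 121) (nat_lit 227) (nat_lit 222))) (PT.nd (nat_lit 78) (PT.lf (nat_lit 5852) (nat_lit 6) (nat_lit 77) (nat_lit 4) (nat_lit 122) (nat_lit 227) (nat_lit 221)) (PT.lf (nat_lit 6156) (nat_lit 6) (nat_lit 81) (nat_lit 4) (nat_lit 123) (nat_lit 227) (nat_lit 220)))) (PT.nd (nat_lit 156) (PT.nd (nat_lit 78) (PT.lf (nat_lit 6156) (nat_lit 6) (nat_lit 81) (nat_lit 2) (nat_lit 220) (nat_lit 227) (nat_lit 123)) (PT.lf (nat_lit 5852) (nat_lit 6) (nat_lit 77) (nat_lit 2) (nat_lit 221) (nat_lit 227) (nat_lit 122))) (PT.nd (nat_lit 78) (PT.lf (nat_lit 5624) (nat_lit 6) (nat_lit 74) (nat_lit 2) (nat_lit 222) (nat_lit 227) (nat_lit 121)) (PT.lf (nat_lit 5396) (nat_lit 6) (nat_lit 71) (nat_lit 2)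 (nat_lit 223) (nat_lit 227) (nat_lit 120)))))) (PT.nd (nat_lit 50466) (PT.nd (nat_lit 312) (PT.nd (nat_lit 156) (PT.nd (nat_lit 78) (PT.lf (nat_lit 5168) (nat_lit 6) (nat_lit 68) (nat_lit 2) (nat_lit 224) (nat_lit 227) (nat_lit 119)) (PT.lf (nat_lit 4940) (nat_lit 6) (nat_lit 65) (nat_lit 2) (nat_lit 225) (nat_lit 227) (nat_lit 118))) (PT.nd (nat_lit 78) (PT.lf (nat_lit 4712) (nat_lit 6) (nat_lit 62) (nat_lit 2) (nat_lit 226) (nat_lit 227) (nat_lit 117)) (PT.lf (nat_lit 4484) (nat_lit 3) (nat_lit 59) (nat_lit 0) (nat_lit 227) (nat_lit 227) (nat_lit 116)))) (PT.nd (nat_lit 156) (PT.nd (nat_lit 78) (PT.lf (nat_lit 4256) (nat_lit 6) (nat_lit 56) (nat_lit 0) (nat_lit 228) (nat_lit 227) (nat_lit 115)) (PT.lf (nat_lit 3952) (nat_lit 6) (nat_lit 52) (nat_lit 0) (nat_lit 229) (nat_lit 227) (nat_lit 114))) (PT.nd (nat_lit 78) (PT.lf (nat_lit 3724) (nat_lit 6) (nat_lit 49) (nat_lit 0) (nat_lit 230) (nat_lit 227) (nat_lit 113))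 (PT.lf (nat_lit 3420) (nat_lit 6) (nat_lit 45) (nat_lit 0) (nat_lit 231) (nat_lit 227) (nat_lit 112))))) (PT.nd (nat_lit 312) (PT.nd (nat_lit 156) (PT.nd (nat_lit 78) (PT.lf (nat_lit 2964) (nat_lit 6) (nat_lit 39) (nat_lit 5) (nat_lit 110) (nat_lit 228) (nat_lit 232)) (PT.lf (nat_lit 3268) (nat_lit 6) (nat_lit 43) (nat_lit 5) (nat_lit 111) (nat_lit 228) (nat_lit 231))) (PT.nd (nat_lit 78) (PT.lf (nat_lit 3496) (nat_lit 6) (nat_lit 46) (nat_lit 5) (nat_lit 112) (nat_lit 228) (nat_lit 230)) (PT.lf (nat_lit 3800) (nat_lit 6) (nat_lit 50) (nat_lit 5) (nat_lit 113) (nat_lit 228) (nat_lit 229)))) (PT.nd (nat_lit 156) (PT.nd (nat_lit 78) (PT.lf (nat_lit 4028) (nat_lit 3) (nat_lit 53) (nat_lit 4) (nat_lit 114) (nat_lit 228) (nat_lit 228)) (PT.lf (nat_lit 4256) (nat_lit 6) (nat_lit 56) (nat_lit 4) (nat_lit 115) (nat_lit 228) (nat_lit 227))) (PT.nd (nat_lit 78) (PT.lf (nat_lit 4408) (nat_lit 6) (nat_lit 58) (nat_lit 4) (nat_lit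 116) (nat_lit 228) (nat_lit 226)) (PT.lf (nat_lit 4636) (nat_lit 6) (nat_lit 61) (nat_lit 4) (nat_lit 117) (nat_lit 228) (nat_lit 225))))))) (PT.nd (nat_lit 58656) (PT.nd (nat_lit 8424) (PT.nd (nat_lit 8112) (PT.nd (nat_lit 78) (PT.lf (nat_lit 4864) (nat_lit 6) (nat_lit 64) (nat_lit 4) (nat_lit 118) (nat_lit 228) (nat_lit 224)) (PT.nd (nat_lit 78) (PT.lf (nat_lit 5092) (nat_lit 6) (nat_lit 67) (nat_lit 4) (nat_lit 119) (nat_lit 228) (nat_lit 223)) (PT.lf (nat_lit 5320) (nat_lit 6) (nat_lit 70) (nat_lit 4) (nat_lit 120) (nat_lit 228) (nat_lit 222)))) (PT.nd (nat_lit 156) (PT.nd (nat_lit 78) (PT.lf (nat_lit 5320) (nat_lit 6) (nat_lit 70) (nat_lit 2) (nat_lit 222) (nat_lit 228) (nat_lit 120)) (PT.lf (nat_lit 5092) (nat_lit 6) (nat_lit 67) (nat_lit 2) (nat_lit 223) (nat_lit 228) (nat_lit 119))) (PT.nd (nat_lit 78) (PT.lf (nat_lit 4864) (nat_lit 6) (nat_lit 64) (nat_lit 2) (nat_lit 224) (nat_lit 228) (nat_lit 118)) (PT.lf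 (nat_lit 4636) (nat_lit 6) (nat_lit 61) (nat_lit 2) (nat_lit 225) (nat_lit 228) (nat_lit 117))))) (PT.nd (nat_lit 312) (PT.nd (nat_lit 156) (PT.nd (nat_lit 78) (PT.lf (nat_lit 4408) (nat_lit 6) (nat_lit 58) (nat_lit 2) (nat_lit 226) (nat_lit 228) (nat_lit 116)) (PT.lf (nat_lit 4256) (nat_lit 6) (nat_lit 56) (nat_lit 2) (nat_lit 227) (nat_lit 228) (nat_lit 115))) (PT.nd (nat_lit 78) (PT.lf (nat_lit 4028) (nat_lit 3) (nat_lit 53) (nat_lit 0) (nat_lit 228) (nat_lit 228) (nat_lit 114)) (PT.lf (nat_lit 3800) (nat_lit 6) (nat_lit 50) (nat_lit 0) (nat_lit 229) (nat_lit 228) (nat_lit 113)))) (PT.nd (nat_lit 156) (PT.nd (nat_lit 78) (PT.lf (nat_lit 3496) (nat_lit 6) (nat_lit 46) (nat_lit 0) (nat_lit 230) (nat_lit 228) (nat_lit 112)) (PT.lf (nat_lit 3268) (nat_lit 6) (nat_lit 43) (nat_lit 0) (nat_lit 231) (nat_lit 228) (nat_lit 111))) (PT.nd (nat_lit 49686) (PT.lf (nat_lit 2964) (nat_lit 6) (nat_lit 39) (nat_lit 0) (nat_lit 232)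 (nat_lit 228) (nat_lit 110)) (PT.lf (nat_lit 2584) (nat_lit 6) (nat_lit 34) (nat_lit 5) (nat_lit 108) (nat_lit 229) (nat_lit 233)))))) (PT.nd (nat_lit 624) (PT.nd (nat_lit 312) (PT.nd (nat_lit 156) (PT.nd (nat_lit 78) (PT.lf (nat_lit 2812) (nat_lit 6) (nat_lit 37) (nat_lit 5) (nat_lit 109) (nat_lit 229) (nat_lit 232)) (PT.lf (nat_lit 3040) (nat_lit 6) (nat_lit 40) (nat_lit 5) (nat_lit 110) (nat_lit 229) (nat_lit 231))) (PT.nd (nat_lit 78) (PT.lf (nat_lit 3344) (nat_lit 6) (nat_lit 44) (nat_lit 5) (nat_lit 111) (nat_lit 229) (nat_lit 230)) (PT.lf (nat_lit 3572) (nat_lit 3) (nat_lit 47) (nat_lit 4) (nat_lit 112) (nat_lit 229) (nat_lit 229)))) (PT.nd (nat_lit 156) (PT.nd (nat_lit 78) (PT.lf (nat_lit 3800) (nat_lit 6) (nat_lit 50) (nat_lit 4) (nat_lit 113) (nat_lit 229) (nat_lit 228)) (PT.lf (nat_lit 3952) (nat_lit 6) (nat_lit 52) (nat_lit 4) (nat_lit 114) (nat_lit 229) (nat_lit 227))) (PT.nd (nat_lit 78) (PT.lf (nat_lit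 4180) (nat_lit 6) (nat_lit 55) (nat_lit 4) (nat_lit 115) (nat_lit 229) (nat_lit 226)) (PT.lf (nat_lit 4332) (nat_lit 6) (nat_lit 57) (nat_lit 4) (nat_lit 116) (nat_lit 229) (nat_lit 225))))) (PT.nd (nat_lit 8424) (PT.nd (nat_lit 8268) (PT.nd (nat_lit 78) (PT.lf (nat_lit 4560) (nat_lit 6) (nat_lit 60) (nat_lit 4) (nat_lit 117) (nat_lit 229) (nat_lit 224)) (PT.lf (nat_lit 4788) (nat_lit 6) (nat_lit 63) (nat_lit 4) (nat_lit 118) (nat_lit 229) (nat_lit 223))) (PT.nd (nat_lit 78) (PT.lf (nat_lit 4788) (nat_lit 6) (nat_lit 63) (nat_lit 2) (nat_lit 223) (nat_lit 229) (nat_lit 118)) (PT.lf (nat_lit 4560) (nat_lit 6) (nat_lit 60) (nat_lit 2) (nat_lit 224) (nat_lit 229) (nat_lit 117)))) (PT.nd (nat_lit 156) (PT.nd (nat_lit 78) (PT.lf (nat_lit 4332) (nat_lit 6) (nat_lit 57) (nat_lit 2) (nat_lit 225) (nat_lit 229) (nat_lit 116)) (PT.lf (nat_lit 4180) (nat_lit 6) (nat_lit 55) (nat_lit 2) (nat_lit 226) (nat_lit 229) (nat_lit 115)))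 (PT.nd (nat_lit 78) (PT.lf (nat_lit 3952) (nat_lit 6) (nat_lit 52) (nat_lit 2) (nat_lit 227) (nat_lit 229) (nat_lit 114)) (PT.lf (nat_lit 3800) (nat_lit 6) (nat_lit 50) (nat_lit 2) (nat_lit 228) (nat_lit 229) (nat_lit 113))))))))
noncomputable def pc62 : PT := (PT.nd (nat_lit 109434) (PT.nd (nat_lit 59046) (PT.nd (nat_lit 49920) (PT.nd (nat_lit 234) (PT.nd (nat_lit 78) (PT.lf (nat_lit 3572) (nat_lit 3) (nat_lit 47) (nat_lit 0) (nat_lit 229) (nat_lit 229) (nat_lit 112)) (PT.nd (nat_lit 78) (PT.lf (nat_lit 3344) (nat_lit 6) (nat_lit 44) (nat_lit 0) (nat_lit 230) (nat_lit 229) (nat_lit 111)) (PT.lf (nat_lit 3040) (nat_lit 6) (nat_lit 40) (nat_lit 0) (nat_lit 231) (nat_lit 229) (nat_lit 110)))) (PT.nd (nat_lit 49530) (PT.nd (nat_lit 78) (PT.lf (nat_lit 2812) (nat_lit 6) (nat_lit 37) (nat_lit 0) (nat_lit 232) (nat_lit 229) (nat_lit 109)) (PT.lf (nat_lit 2584) (nat_lit 6) (nat_lit 34) (nat_lit 0) (nat_lit 233) (nat_lit 229)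 (nat_lit 108))) (PT.nd (nat_lit 78) (PT.lf (nat_lit 2204) (nat_lit 6) (nat_lit 29) (nat_lit 5) (nat_lit 106) (nat_lit 230) (nat_lit 234)) (PT.lf (nat_lit 2432) (nat_lit 6) (nat_lit 32) (nat_lit 5) (nat_lit 107) (nat_lit 230) (nat_lit 233))))) (PT.nd (nat_lit 312) (PT.nd (nat_lit 156) (PT.nd (nat_lit 78) (PT.lf (nat_lit 2660) (nat_lit 6) (nat_lit 35) (nat_lit 5) (nat_lit 108) (nat_lit 230) (nat_lit 232)) (PT.lf (nat_lit 2888) (nat_lit 6) (nat_lit 38) (nat_lit 5) (nat_lit 109) (nat_lit 230) (nat_lit 231))) (PT.nd (nat_lit 78) (PT.lf (nat_lit 3116) (nat_lit 3) (nat_lit 41) (nat_lit 4) (nat_lit 110) (nat_lit 230) (nat_lit 230)) (PT.lf (nat_lit 3344) (nat_lit 6) (nat_lit 44) (nat_lit 4) (nat_lit 111) (nat_lit 230) (nat_lit 229)))) (PT.nd (nat_lit 156) (PT.nd (nat_lit 78) (PT.lf (nat_lit 3496) (nat_lit 6) (nat_lit 46) (nat_lit 4) (nat_lit 112) (nat_lit 230) (nat_lit 228)) (PT.lf (nat_lit 3724) (nat_lit 6) (nat_lit 49) (nat_lit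 4) (nat_lit 113) (nat_lit 230) (nat_lit 227))) (PT.nd (nat_lit 78) (PT.lf (nat_lit 3876) (nat_lit 6) (nat_lit 51) (nat_lit 4) (nat_lit 114) (nat_lit 230) (nat_lit 226)) (PT.lf (nat_lit 4104) (nat_lit 6) (nat_lit 54) (nat_lit 4) (nat_lit 115) (nat_lit 230) (nat_lit 225)))))) (PT.nd (nat_lit 546) (PT.nd (nat_lit 234) (PT.nd (nat_lit 78) (PT.lf (nat_lit 4104) (nat_lit 6) (nat_lit 54) (nat_lit 2) (nat_lit 225) (nat_lit 230) (nat_lit 115)) (PT.nd (nat_lit 78) (PT.lf (nat_lit 3876) (nat_lit 6) (nat_lit 51) (nat_lit 2) (nat_lit 226) (nat_lit 230) (nat_lit 114)) (PT.lf (nat_lit 3724) (nat_lit 6) (nat_lit 49) (nat_lit 2) (nat_lit 227) (nat_lit 230) (nat_lit 113)))) (PT.nd (nat_lit 156) (PT.nd (nat_lit 78) (PT.lf (nat_lit 3496) (nat_lit 6) (nat_lit 46) (nat_lit 2) (nat_lit 228) (nat_lit 230) (nat_lit 112)) (PT.lf (nat_lit 3344) (nat_lit 6) (nat_lit 44) (nat_lit 2) (nat_lit 229) (nat_lit 230) (nat_lit 111))) (PT.nd (nat_lit 78)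 (PT.lf (nat_lit 3116) (nat_lit 3) (nat_lit 41) (nat_lit 0) (nat_lit 230) (nat_lit 230) (nat_lit 110)) (PT.lf (nat_lit 2888) (nat_lit 6) (nat_lit 38) (nat_lit 0) (nat_lit 231) (nat_lit 230) (nat_lit 109))))) (PT.nd (nat_lit 49530) (PT.nd (nat_lit 156) (PT.nd (nat_lit 78) (PT.lf (nat_lit 2660) (nat_lit 6) (nat_lit 35) (nat_lit 0) (nat_lit 232) (nat_lit 230) (nat_lit 108)) (PT.lf (nat_lit 2432) (nat_lit 6) (nat_lit 32) (nat_lit 0) (nat_lit 233) (nat_lit 230) (nat_lit 107))) (PT.nd (nat_lit 49296) (PT.lf (nat_lit 2204) (nat_lit 6) (nat_lit 29) (nat_lit 0) (nat_lit 234) (nat_lit 230) (nat_lit 106)) (PT.lf (nat_lit 2052) (nat_lit 6) (nat_lit 27) (nat_lit 5) (nat_lit 105) (nat_lit 231) (nat_lit 234)))) (PT.nd (nat_lit 156) (PT.nd (nat_lit 78) (PT.lf (nat_lit 2280) (nat_lit 6) (nat_lit 30) (nat_lit 5) (nat_lit 106) (nat_lit 231) (nat_lit 233)) (PT.lf (nat_lit 2508) (nat_lit 6) (nat_lit 33) (nat_lit 5) (nat_lit 107) (nat_lit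 231) (nat_lit 232))) (PT.nd (nat_lit 78) (PT.lf (nat_lit 2736) (nat_lit 3) (nat_lit 36) (nat_lit 4) (nat_lit 108) (nat_lit 231) (nat_lit 231)) (PT.lf (nat_lit 2888) (nat_lit 6) (nat_lit 38) (nat_lit 4) (nat_lit 109) (nat_lit 231) (nat_lit 230))))))) (PT.nd (nat_lit 58968) (PT.nd (nat_lit 9282) (PT.nd (nat_lit 234) (PT.nd (nat_lit 78) (PT.lf (nat_lit 3040) (nat_lit 6) (nat_lit 40) (nat_lit 4) (nat_lit 110) (nat_lit 231) (nat_lit 229)) (PT.nd (nat_lit 78) (PT.lf (nat_lit 3268) (nat_lit 6) (nat_lit 43) (nat_lit 4) (nat_lit 111) (nat_lit 231) (nat_lit 228)) (PT.lf (nat_lit 3420) (nat_lit 6) (nat_lit 45) (nat_lit 4) (nat_lit 112) (nat_lit 231) (nat_lit 227)))) (PT.nd (nat_lit 8892) (PT.nd (nat_lit 8814) (PT.lf (nat_lit 3648) (nat_lit 6) (nat_lit 48) (nat_lit 4) (nat_lit 113) (nat_lit 231) (nat_lit 226)) (PT.lf (nat_lit 3648) (nat_lit 6) (nat_lit 48) (nat_lit 2) (nat_lit 226) (nat_lit 231) (nat_lit 113))) (PT.nd (nat_lit 78)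 (PT.lf (nat_lit 3420) (nat_lit 6) (nat_lit 45) (nat_lit 2) (nat_lit 227) (nat_lit 231) (nat_lit 112)) (PT.lf (nat_lit 3268) (nat_lit 6) (nat_lit 43) (nat_lit 2) (nat_lit 228) (nat_lit 231) (nat_lit 111))))) (PT.nd (nat_lit 312) (PT.nd (nat_lit 156) (PT.nd (nat_lit 78) (PT.lf (nat_lit 3040) (nat_lit 6) (nat_lit 40) (nat_lit 2) (nat_lit 229) (nat_lit 231) (nat_lit 110)) (PT.lf (nat_lit 2888) (nat_lit 6) (nat_lit 38) (nat_lit 2) (nat_lit 230) (nat_lit 231) (nat_lit 109))) (PT.nd (nat_lit 78) (PT.lf (nat_lit 2736) (nat_lit 3) (nat_lit 36) (nat_lit 0) (nat_lit 231) (nat_lit 231) (nat_lit 108)) (PT.lf (nat_lit 2508) (nat_lit 6) (nat_lit 33) (nat_lit 0) (nat_lit 232) (nat_lit 231) (nat_lit 107)))) (PT.nd (nat_lit 49218) (PT.nd (nat_lit 78) (PT.lf (nat_lit 2280) (nat_lit 6) (nat_lit 30) (nat_lit 0) (nat_lit 233) (nat_lit 231) (nat_lit 106)) (PT.lf (nat_lit 2052) (nat_lit 6) (nat_lit 27) (nat_lit 0) (nat_lit 234) (nat_lit 231)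 (nat_lit 105))) (PT.nd (nat_lit 78) (PT.lf (nat_lit 1672) (nat_lit 6) (nat_lit 22) (nat_lit 5) (nat_lit 103) (nat_lit 232) (nat_lit 235)) (PT.lf (nat_lit 1900) (nat_lit 6) (nat_lit 25) (nat_lit 5) (nat_lit 104) (nat_lit 232) (nat_lit 234)))))) (PT.nd (nat_lit 9750) (PT.nd (nat_lit 312) (PT.nd (nat_lit 156) (PT.nd (nat_lit 78) (PT.lf (nat_lit 2128) (nat_lit 6) (nat_lit 28) (nat_lit 5) (nat_lit 105) (nat_lit 232) (nat_lit 233)) (PT.lf (nat_lit 2356) (nat_lit 3) (nat_lit 31) (nat_lit 4) (nat_lit 106) (nat_lit 232) (nat_lit 232))) (PT.nd (nat_lit 78) (PT.lf (nat_lit 2508) (nat_lit 6) (nat_lit 33) (nat_lit 4) (nat_lit 107) (nat_lit 232) (nat_lit 231)) (PT.lf (nat_lit 2660) (nat_lit 6) (nat_lit 35) (nat_lit 4) (nat_lit 108) (nat_lit 232) (nat_lit 230)))) (PT.nd (nat_lit 9282) (PT.nd (nat_lit 78) (PT.lf (nat_lit 2812) (nat_lit 6) (nat_lit 37) (nat_lit 4) (nat_lit 109) (nat_lit 232) (nat_lit 229)) (PT.lf (nat_lit 2964) (nat_lit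 6) (nat_lit 39) (nat_lit 4) (nat_lit 110) (nat_lit 232) (nat_lit 228))) (PT.nd (nat_lit 78) (PT.lf (nat_lit 2964) (nat_lit 6) (nat_lit 39) (nat_lit 2) (nat_lit 228) (nat_lit 232) (nat_lit 110)) (PT.lf (nat_lit 2812) (nat_lit 6) (nat_lit 37) (nat_lit 2) (nat_lit 229) (nat_lit 232) (nat_lit 109))))) (PT.nd (nat_lit 312) (PT.nd (nat_lit 156) (PT.nd (nat_lit 78) (PT.lf (nat_lit 2660) (nat_lit 6) (nat_lit 35) (nat_lit 2) (nat_lit 230) (nat_lit 232) (nat_lit 108)) (PT.lf (nat_lit 2508) (nat_lit 6) (nat_lit 33) (nat_lit 2) (nat_lit 231) (nat_lit 232) (nat_lit 107))) (PT.nd (nat_lit 78) (PT.lf (nat_lit 2356) (nat_lit 3) (nat_lit 31) (nat_lit 0) (nat_lit 232) (nat_lit 232) (nat_lit 106)) (PT.lf (nat_lit 2128) (nat_lit 6) (nat_lit 28) (nat_lit 0) (nat_lit 233) (nat_lit 232) (nat_lit 105)))) (PT.nd (nat_lit 48984) (PT.nd (nat_lit 78) (PT.lf (nat_lit 1900) (nat_lit 6) (nat_lit 25) (nat_lit 0) (nat_lit 234) (nat_lit 232) (nat_lit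 104)) (PT.lf (nat_lit 1672) (nat_lit 6) (nat_lit 22) (nat_lit 0) (nat_lit 235) (nat_lit 232) (nat_lit 103))) (PT.nd (nat_lit 78) (PT.lf (nat_lit 1368) (nat_lit 6) (nat_lit 18) (nat_lit 5) (nat_lit 101) (nat_lit 233) (nat_lit 236)) (PT.lf (nat_lit 1520) (nat_lit 6) (nat_lit 20) (nat_lit 5) (nat_lit 102) (nat_lit 233) (nat_lit 235))))))))
noncomputable def pc63 : PT := (PT.nd (nat_lit 118560) (PT.nd (nat_lit 59202) (PT.nd (nat_lit 9906) (PT.nd (nat_lit 234) (PT.nd (nat_lit 78) (PT.lf (nat_lit 1748) (nat_lit 6) (nat_lit 23) (nat_lit 5) (nat_lit 103) (nat_lit 233) (nat_lit 234)) (PT.nd (nat_lit 78) (PT.lf (nat_lit 1976) (nat_lit 3) (nat_lit 26) (nat_lit 4) (nat_lit 104) (nat_lit 233) (nat_lit 233)) (PT.lf (nat_lit 2128) (nat_lit 6) (nat_lit 28) (nat_lit 4) (nat_lit 105) (nat_lit 233) (nat_lit 232)))) (PT.nd (nat_lit 156) (PT.nd (nat_lit 78) (PT.lf (nat_lit 2280) (nat_lit 6) (nat_lit 30) (nat_lit 4) (nat_lit 106) (nat_lit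 233) (nat_lit 231)) (PT.lf (nat_lit 2432) (nat_lit 6) (nat_lit 32) (nat_lit 4) (nat_lit 107) (nat_lit 233) (nat_lit 230))) (PT.nd (nat_lit 9438) (PT.lf (nat_lit 2584) (nat_lit 6) (nat_lit 34) (nat_lit 4) (nat_lit 108) (nat_lit 233) (nat_lit 229)) (PT.lf (nat_lit 2584) (nat_lit 6) (nat_lit 34) (nat_lit 2) (nat_lit 229) (nat_lit 233) (nat_lit 108))))) (PT.nd (nat_lit 312) (PT.nd (nat_lit 156) (PT.nd (nat_lit 78) (PT.lf (nat_lit 2432) (nat_lit 6) (nat_lit 32) (nat_lit 2) (nat_lit 230) (nat_lit 233) (nat_lit 107)) (PT.lf (nat_lit 2280) (nat_lit 6) (nat_lit 30) (nat_lit 2) (nat_lit 231) (nat_lit 233) (nat_lit 106))) (PT.nd (nat_lit 78) (PT.lf (nat_lit 2128) (nat_lit 6) (nat_lit 28) (nat_lit 2) (nat_lit 232) (nat_lit 233) (nat_lit 105)) (PT.lf (nat_lit 1976) (nat_lit 3) (nat_lit 26) (nat_lit 0) (nat_lit 233) (nat_lit 233) (nat_lit 104)))) (PT.nd (nat_lit 156) (PT.nd (nat_lit 78) (PT.lf (nat_lit 1748) (nat_lit 6) (nat_lit 23)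 (nat_lit 0) (nat_lit 234) (nat_lit 233) (nat_lit 103)) (PT.lf (nat_lit 1520) (nat_lit 6) (nat_lit 20) (nat_lit 0) (nat_lit 235) (nat_lit 233) (nat_lit 102))) (PT.nd (nat_lit 48750) (PT.lf (nat_lit 1368) (nat_lit 6) (nat_lit 18) (nat_lit 0) (nat_lit 236) (nat_lit 233) (nat_lit 101)) (PT.lf (nat_lit 1216) (nat_lit 6) (nat_lit 16) (nat_lit 5) (nat_lit 100) (nat_lit 234) (nat_lit 236)))))) (PT.nd (nat_lit 10218) (PT.nd (nat_lit 312) (PT.nd (nat_lit 156) (PT.nd (nat_lit 78) (PT.lf (nat_lit 1444) (nat_lit 6) (nat_lit 19) (nat_lit 5) (nat_lit 101) (nat_lit 234) (nat_lit 235)) (PT.lf (nat_lit 1596) (nat_lit 3) (nat_lit 21) (nat_lit 4) (nat_lit 102) (nat_lit 234) (nat_lit 234))) (PT.nd (nat_lit 78) (PT.lf (nat_lit 1748) (nat_lit 6) (nat_lit 23) (nat_lit 4) (nat_lit 103) (nat_lit 234) (nat_lit 233)) (PT.lf (nat_lit 1900) (nat_lit 6) (nat_lit 25) (nat_lit 4) (nat_lit 104) (nat_lit 234) (nat_lit 232)))) (PT.nd (nat_lit 9750) (PT.nd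 (nat_lit 78) (PT.lf (nat_lit 2052) (nat_lit 6) (nat_lit 27) (nat_lit 4) (nat_lit 105) (nat_lit 234) (nat_lit 231)) (PT.lf (nat_lit 2204) (nat_lit 6) (nat_lit 29) (nat_lit 4) (nat_lit 106) (nat_lit 234) (nat_lit 230))) (PT.nd (nat_lit 78) (PT.lf (nat_lit 2204) (nat_lit 6) (nat_lit 29) (nat_lit 2) (nat_lit 230) (nat_lit 234) (nat_lit 106)) (PT.lf (nat_lit 2052) (nat_lit 6) (nat_lit 27) (nat_lit 2) (nat_lit 231) (nat_lit 234) (nat_lit 105))))) (PT.nd (nat_lit 312) (PT.nd (nat_lit 156) (PT.nd (nat_lit 78) (PT.lf (nat_lit 1900) (nat_lit 6) (nat_lit 25) (nat_lit 2) (nat_lit 232) (nat_lit 234) (nat_lit 104)) (PT.lf (nat_lit 1748) (nat_lit 6) (nat_lit 23) (nat_lit 2) (nat_lit 233) (nat_lit 234) (nat_lit 103))) (PT.nd (nat_lit 78) (PT.lf (nat_lit 1596) (nat_lit 3) (nat_lit 21) (nat_lit 0) (nat_lit 234) (nat_lit 234) (nat_lit 102)) (PT.lf (nat_lit 1444) (nat_lit 6) (nat_lit 19) (nat_lit 0) (nat_lit 235) (nat_lit 234) (nat_lit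 101)))) (PT.nd (nat_lit 48672) (PT.nd (nat_lit 48594) (PT.lf (nat_lit 1216) (nat_lit 6) (nat_lit 16) (nat_lit 0) (nat_lit 236) (nat_lit 234) (nat_lit 100)) (PT.lf (nat_lit 912) (nat_lit 6) (nat_lit 12) (nat_lit 5) (nat_lit 98) (nat_lit 235) (nat_lit 237))) (PT.nd (nat_lit 78) (PT.lf (nat_lit 1140) (nat_lit 6) (nat_lit 15) (nat_lit 5) (nat_lit 99) (nat_lit 235) (nat_lit 236)) (PT.lf (nat_lit 1292) (nat_lit 3) (nat_lit 17) (nat_lit 4) (nat_lit 100) (nat_lit 235) (nat_lit 235))))))) (PT.nd (nat_lit 69732) (PT.nd (nat_lit 10530) (PT.nd (nat_lit 10218) (PT.nd (nat_lit 78) (PT.lf (nat_lit 1444) (nat_lit 6) (nat_lit 19) (nat_lit 4) (nat_lit 101) (nat_lit 235) (nat_lit 234)) (PT.nd (nat_lit 78) (PT.lf (nat_lit 1520) (nat_lit 6) (nat_lit 20) (nat_lit 4) (nat_lit 102) (nat_lit 235) (nat_lit 233)) (PT.lf (nat_lit 1672) (nat_lit 6) (nat_lit 22) (nat_lit 4) (nat_lit 103) (nat_lit 235) (nat_lit 232)))) (PT.nd (nat_lit 156) (PT.nd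 (nat_lit 78) (PT.lf (nat_lit 1672) (nat_lit 6) (nat_lit 22) (nat_lit 2) (nat_lit 232) (nat_lit 235) (nat_lit 103)) (PT.lf (nat_lit 1520) (nat_lit 6) (nat_lit 20) (nat_lit 2) (nat_lit 233) (nat_lit 235) (nat_lit 102))) (PT.nd (nat_lit 78) (PT.lf (nat_lit 1444) (nat_lit 6) (nat_lit 19) (nat_lit 2) (nat_lit 234) (nat_lit 235) (nat_lit 101)) (PT.lf (nat_lit 1292) (nat_lit 3) (nat_lit 17) (nat_lit 0) (nat_lit 235) (nat_lit 235) (nat_lit 100))))) (PT.nd (nat_lit 48672) (PT.nd (nat_lit 48516) (PT.nd (nat_lit 78) (PT.lf (nat_lit 1140) (nat_lit 6) (nat_lit 15) (nat_lit 0) (nat_lit 236) (nat_lit 235) (nat_lit 99)) (PT.lf (nat_lit 912) (nat_lit 6) (nat_lit 12) (nat_lit 0) (nat_lit 237) (nat_lit 235) (nat_lit 98))) (PT.nd (nat_lit 78) (PT.lf (nat_lit 836) (nat_lit 6) (nat_lit 11) (nat_lit 5) (nat_lit 97) (nat_lit 236) (nat_lit 237)) (PT.lf (nat_lit 988) (nat_lit 3) (nat_lit 13) (nat_lit 4) (nat_lit 98) (nat_lit 236) (nat_lit 236))))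 (PT.nd (nat_lit 156) (PT.nd (nat_lit 78) (PT.lf (nat_lit 1140) (nat_lit 6) (nat_lit 15) (nat_lit 4) (nat_lit 99) (nat_lit 236) (nat_lit 235)) (PT.lf (nat_lit 1216) (nat_lit 6) (nat_lit 16) (nat_lit 4) (nat_lit 100) (nat_lit 236) (nat_lit 234))) (PT.nd (nat_lit 10296) (PT.lf (nat_lit 1368) (nat_lit 6) (nat_lit 18) (nat_lit 4) (nat_lit 101) (nat_lit 236) (nat_lit 233)) (PT.lf (nat_lit 1368) (nat_lit 6) (nat_lit 18) (nat_lit 2) (nat_lit 233) (nat_lit 236) (nat_lit 101)))))) (PT.nd (nat_lit 59514) (PT.nd (nat_lit 48594) (PT.nd (nat_lit 156) (PT.nd (nat_lit 78) (PT.lf (nat_lit 1216) (nat_lit 6) (nat_lit 16) (nat_lit 2) (nat_lit 234) (nat_lit 236) (nat_lit 100)) (PT.lf (nat_lit 1140) (nat_lit 6) (nat_lit 15) (nat_lit 2) (nat_lit 235) (nat_lit 236) (nat_lit 99))) (PT.nd (nat_lit 78) (PT.lf (nat_lit 988) (nat_lit 3) (nat_lit 13) (nat_lit 0) (nat_lit 236) (nat_lit 236) (nat_lit 98)) (PT.lf (nat_lit 836) (nat_lit 6) (nat_lit 11)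 (nat_lit 0) (nat_lit 237) (nat_lit 236) (nat_lit 97)))) (PT.nd (nat_lit 156) (PT.nd (nat_lit 78) (PT.lf (nat_lit 684) (nat_lit 3) (nat_lit 9) (nat_lit 4) (nat_lit 96) (nat_lit 237) (nat_lit 237)) (PT.lf (nat_lit 836) (nat_lit 6) (nat_lit 11) (nat_lit 4) (nat_lit 97) (nat_lit 237) (nat_lit 236))) (PT.nd (nat_lit 10686) (PT.lf (nat_lit 912) (nat_lit 6) (nat_lit 12) (nat_lit 4) (nat_lit 98) (nat_lit 237) (nat_lit 235)) (PT.lf (nat_lit 912) (nat_lit 6) (nat_lit 12) (nat_lit 2) (nat_lit 235) (nat_lit 237) (nat_lit 98))))) (PT.nd (nat_lit 1010490) (PT.nd (nat_lit 995436) (PT.nd (nat_lit 78) (PT.lf (nat_lit 836) (nat_lit 6) (nat_lit 11) (nat_lit 2) (nat_lit 236) (nat_lit 237) (nat_lit 97)) (PT.lf (nat_lit 684) (nat_lit 3) (nat_lit 9) (nat_lit 0) (nat_lit 237) (nat_lit 237) (nat_lit 96))) (PT.nd (nat_lit 78) (PT.lf (nat_lit 76) (nat_lit 6) (nat_lit 1) (nat_lit 5) (nat_lit 61) (nat_lit 254) (nat_lit 255)) (PT.lf (nat_lit 152)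 (nat_lit 3) (nat_lit 2) (nat_lit 4) (nat_lit 62) (nat_lit 254) (nat_lit 254)))) (PT.nd (nat_lit 44304) (PT.nd (nat_lit 78) (PT.lf (nat_lit 152) (nat_lit 3) (nat_lit 2) (nat_lit 0) (nat_lit 254) (nat_lit 254) (nat_lit 62)) (PT.lf (nat_lit 76) (nat_lit 6) (nat_lit 1) (nat_lit 0) (nat_lit 255) (nat_lit 254) (nat_lit 61))) (PT.nd (nat_lit 15054) (PT.lf (nat_lit 76) (nat_lit 6) (nat_lit 1) (nat_lit 4) (nat_lit 61) (nat_lit 255) (nat_lit 254)) (PT.lf (nat_lit 76) (nat_lit 6) (nat_lit 1) (nat_lit 2) (nat_lit 254) (nat_lit 255) (nat_lit 61))))))))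
noncomputable def xc0 : XT := (XT.nd (nat_lit 178074) (nat_lit 0) (nat_lit 0) (XT.nd (nat_lit 118560) (nat_lit 0) (nat_lit 0) (XT.nd (nat_lit 59358) (nat_lit 0) (nat_lit 0) (XT.nd (nat_lit 156) (nat_lit 0) (nat_lit 0) (XT.nd (nat_lit 78) (nat_lit 152) (nat_lit 0) (XT.lf (nat_lit 0) (nat_lit 2067631425) (nat_lit 152) (nat_lit 3936606564) (nat_lit 0) (nat_lit 2067631425) (nat_lit 15) (nat_lit 5) (nat_lit 17) (nat_lit 4) (nat_lit 15) (nat_lit 4) (nat_lit 506) (nat_lit 317) (nat_lit 317)) (XT.lf (nat_lit 0) (nat_lit 2682945532) (nat_lit 152) (nat_lit 7013022154) (nat_lit 152) (nat_lit 6653248898) (nat_lit 13) (nat_lit 4) (nat_lit 15) (nat_lit 5) (nat_lit 15) (nat_lit 4) (nat_lit 507) (nat_lit 317) (nat_lit 316))) (XT.nd (nat_lit 59046) (nat_lit 0) (nat_lit 304) (XT.lf (nat_lit 0) (nat_lit 13415973677) (nat_lit 152) (nat_lit 1927904503) (nat_lit 152) (nat_lit 1215412368) (nat_lit 13) (nat_lit 4) (nat_lit 15) (nat_lit 5) (nat_lit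 15) (nat_lit 4) (nat_lit 508) (nat_lit 317) (nat_lit 315)) (XT.nd (nat_lit 78) (nat_lit 0) (nat_lit 0) (XT.lf (nat_lit 0) (nat_lit 1465602077) (nat_lit 152) (nat_lit 3203334967) (nat_lit 152) (nat_lit 3203334967) (nat_lit 17) (nat_lit 4) (nat_lit 19) (nat_lit 5) (nat_lit 19) (nat_lit 4) (nat_lit 504) (nat_lit 318) (nat_lit 318)) (XT.lf (nat_lit 0) (nat_lit 13574987991) (nat_lit 152) (nat_lit 1371086255) (nat_lit 152) (nat_lit 996778160) (nat_lit 17) (nat_lit 4) (nat_lit 19) (nat_lit 5) (nat_lit 19) (nat_lit 4) (nat_lit 505) (nat_lit 318) (nat_lit 317))))) (XT.nd (nat_lit 156) (nat_lit 0) (nat_lit 0) (XT.nd (nat_lit 78) (nat_lit 152) (nat_lit 0) (XT.lf (nat_lit 0) (nat_lit 4463892435) (nat_lit 152) (nat_lit 7943465994) (nat_lit 0) (nat_lit 3737150457) (nat_lit 15) (nat_lit 5) (nat_lit 17) (nat_lit 4) (nat_lit 15) (nat_lit 4) (nat_lit 506) (nat_lit 318) (nat_lit 316)) (XT.lf (nat_lit 0) (nat_lit 2541968367) (nat_lit 152)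 (nat_lit 7444126197) (nat_lit 152) (nat_lit 6364665341) (nat_lit 13) (nat_lit 4) (nat_lit 15) (nat_lit 5) (nat_lit 15) (nat_lit 4) (nat_lit 507) (nat_lit 318) (nat_lit 315))) (XT.nd (nat_lit 58890) (nat_lit 0) (nat_lit 456) (XT.lf (nat_lit 0) (nat_lit 13206574280) (nat_lit 152) (nat_lit 2390136153) (nat_lit 152) (nat_lit 964872475) (nat_lit 13) (nat_lit 4) (nat_lit 15) (nat_lit 5) (nat_lit 15) (nat_lit 4) (nat_lit 508) (nat_lit 318) (nat_lit 314)) (XT.nd (nat_lit 78) (nat_lit 152) (nat_lit 0) (XT.lf (nat_lit 0) (nat_lit 6448762256) (nat_lit 152) (nat_lit 615693357) (nat_lit 152) (nat_lit 615693357) (nat_lit 21) (nat_lit 4) (nat_lit 23) (nat_lit 5) (nat_lit 23) (nat_lit 4) (nat_lit 502) (nat_lit 319) (nat_lit 319)) (XT.lf (nat_lit 0) (nat_lit 4195438707) (nat_lit 152) (nat_lit 7541567517) (nat_lit 0) (nat_lit 3813644449) (nat_lit 19) (nat_lit 5) (nat_lit 21) (nat_lit 4) (nat_lit 19) (nat_lit 4) (nat_lit 503) (nat_lit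 319) (nat_lit 318)))))) (XT.nd (nat_lit 59046) (nat_lit 0) (nat_lit 304) (XT.nd (nat_lit 156) (nat_lit 304) (nat_lit 0) (XT.nd (nat_lit 78) (nat_lit 0) (nat_lit 0) (XT.lf (nat_lit 0) (nat_lit 2861564946) (nat_lit 152) (nat_lit 6819924211) (nat_lit 152) (nat_lit 6063821858) (nat_lit 17) (nat_lit 4) (nat_lit 19) (nat_lit 5) (nat_lit 19) (nat_lit 4) (nat_lit 504) (nat_lit 319) (nat_lit 317)) (XT.lf (nat_lit 0) (nat_lit 13437075048) (nat_lit 152) (nat_lit 1815183687) (nat_lit 152) (nat_lit 692112613) (nat_lit 17) (nat_lit 4) (nat_lit 19) (nat_lit 5) (nat_lit 19) (nat_lit 4) (nat_lit 505) (nat_lit 319) (nat_lit 316))) (XT.nd (nat_lit 78) (nat_lit 152) (nat_lit 0) (XT.lf (nat_lit 0) (nat_lit 4723168084) (nat_lit 152) (nat_lit 8154252141) (nat_lit 0) (nat_lit 3269399133) (nat_lit 15) (nat_lit 5) (nat_lit 17) (nat_lit 4) (nat_lit 15) (nat_lit 4) (nat_lit 506) (nat_lit 319) (nat_lit 315)) (XT.nd (nat_lit 78) (nat_lit 0) (nat_lit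 0) (XT.lf (nat_lit 0) (nat_lit 2259958751) (nat_lit 152) (nat_lit 7946730087) (nat_lit 152) (nat_lit 6147158314) (nat_lit 13) (nat_lit 4) (nat_lit 15) (nat_lit 5) (nat_lit 15) (nat_lit 4) (nat_lit 507) (nat_lit 319) (nat_lit 314)) (XT.lf (nat_lit 0) (nat_lit 12857484045) (nat_lit 152) (nat_lit 2923257305) (nat_lit 152) (nat_lit 784663157) (nat_lit 13) (nat_lit 4) (nat_lit 15) (nat_lit 5) (nat_lit 15) (nat_lit 4) (nat_lit 508) (nat_lit 319) (nat_lit 313))))) (XT.nd (nat_lit 234) (nat_lit 304) (nat_lit 0) (XT.nd (nat_lit 78) (nat_lit 152) (nat_lit 0) (XT.lf (nat_lit 0) (nat_lit 1763493935) (nat_lit 228) (nat_lit 3967680452) (nat_lit 0) (nat_lit 1763493935) (nat_lit 23) (nat_lit 5) (nat_lit 26) (nat_lit 4) (nat_lit 23) (nat_lit 4) (nat_lit 500) (nat_lit 320) (nat_lit 320)) (XT.nd (nat_lit 78) (nat_lit 0) (nat_lit 0) (XT.lf (nat_lit 0) (nat_lit 2359093543) (nat_lit 152) (nat_lit 6605626014) (nat_lit 152) (nat_lit 6208407268)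 (nat_lit 21) (nat_lit 4) (nat_lit 23) (nat_lit 5) (nat_lit 23) (nat_lit 4) (nat_lit 501) (nat_lit 320) (nat_lit 319)) (XT.lf (nat_lit 0) (nat_lit 12829408366) (nat_lit 152) (nat_lit 1659146752) (nat_lit 152) (nat_lit 872497864) (nat_lit 21) (nat_lit 4) (nat_lit 23) (nat_lit 5) (nat_lit 23) (nat_lit 4) (nat_lit 502) (nat_lit 320) (nat_lit 318)))) (XT.nd (nat_lit 78) (nat_lit 152) (nat_lit 0) (XT.lf (nat_lit 0) (nat_lit 4508660216) (nat_lit 152) (nat_lit 7680393791) (nat_lit 0) (nat_lit 3363127720) (nat_lit 19) (nat_lit 5) (nat_lit 21) (nat_lit 4) (nat_lit 19) (nat_lit 4) (nat_lit 503) (nat_lit 320) (nat_lit 317)) (XT.nd (nat_lit 78) (nat_lit 0) (nat_lit 0) (XT.lf (nat_lit 0) (nat_lit 2652620010) (nat_lit 152) (nat_lit 7303746747) (nat_lit 152) (nat_lit 5791245530) (nat_lit 17) (nat_lit 4) (nat_lit 19) (nat_lit 5) (nat_lit 19) (nat_lit 4) (nat_lit 504) (nat_lit 320) (nat_lit 316)) (XT.lf (nat_lit 0) (nat_lit 13161195078)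 (nat_lit 152) (nat_lit 2329244610) (nat_lit 152) (nat_lit 456970137) (nat_lit 17) (nat_lit 4) (nat_lit 19) (nat_lit 5) (nat_lit 19) (nat_lit 4) (nat_lit 505) (nat_lit 320) (nat_lit 315))))))) (XT.nd (nat_lit 59358) (nat_lit 0) (nat_lit 0) (XT.nd (nat_lit 58890) (nat_lit 0) (nat_lit 304) (XT.nd (nat_lit 156) (nat_lit 0) (nat_lit 0) (XT.nd (nat_lit 78) (nat_lit 152) (nat_lit 0) (XT.lf (nat_lit 0) (nat_lit 4913191475) (nat_lit 152) (nat_lit 8505654232) (nat_lit 0) (nat_lit 2731825445) (nat_lit 15) (nat_lit 5) (nat_lit 17) (nat_lit 4) (nat_lit 15) (nat_lit 4) (nat_lit 506) (nat_lit 320) (nat_lit 314)) (XT.lf (nat_lit 0) (nat_lit 1836806092) (nat_lit 152) (nat_lit 8521030924) (nat_lit 152) (nat_lit 6000642519) (nat_lit 13) (nat_lit 4) (nat_lit 15) (nat_lit 5) (nat_lit 15) (nat_lit 4) (nat_lit 507) (nat_lit 320) (nat_lit 313))) (XT.nd (nat_lit 58578) (nat_lit 0) (nat_lit 988) (XT.lf (nat_lit 0) (nat_lit 12368566074) (nat_lit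 152) (nat_lit 3527477026) (nat_lit 152) (nat_lit 674713744) (nat_lit 13) (nat_lit 4) (nat_lit 15) (nat_lit 5) (nat_lit 15) (nat_lit 4) (nat_lit 508) (nat_lit 320) (nat_lit 312)) (XT.nd (nat_lit 78) (nat_lit 0) (nat_lit 0) (XT.lf (nat_lit 0) (nat_lit 578458524) (nat_lit 152) (nat_lit 3368799149) (nat_lit 152) (nat_lit 3368799149) (nat_lit 26) (nat_lit 4) (nat_lit 28) (nat_lit 5) (nat_lit 28) (nat_lit 4) (nat_lit 498) (nat_lit 321) (nat_lit 321)) (XT.lf (nat_lit 0) (nat_lit 11508290627) (nat_lit 152) (nat_lit 1857233509) (nat_lit 152) (nat_lit 1443967126) (nat_lit 26) (nat_lit 4) (nat_lit 28) (nat_lit 5) (nat_lit 28) (nat_lit 4) (nat_lit 499) (nat_lit 321) (nat_lit 320))))) (XT.nd (nat_lit 234) (nat_lit 304) (nat_lit 0) (XT.nd (nat_lit 78) (nat_lit 152) (nat_lit 0) (XT.lf (nat_lit 0) (nat_lit 3894275739) (nat_lit 228) (nat_lit 8003928152) (nat_lit 0) (nat_lit 3091893873) (nat_lit 23) (nat_lit 5) (nat_lit 26) (nat_lit 4)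 (nat_lit 23) (nat_lit 4) (nat_lit 500) (nat_lit 321) (nat_lit 319)) (XT.nd (nat_lit 78) (nat_lit 0) (nat_lit 0) (XT.lf (nat_lit 0) (nat_lit 2221498924) (nat_lit 152) (nat_lit 7072482546) (nat_lit 152) (nat_lit 5880670538) (nat_lit 21) (nat_lit 4) (nat_lit 23) (nat_lit 5) (nat_lit 23) (nat_lit 4) (nat_lit 501) (nat_lit 321) (nat_lit 318)) (XT.lf (nat_lit 0) (nat_lit 12625033210) (nat_lit 152) (nat_lit 2155945729) (nat_lit 152) (nat_lit 582339463) (nat_lit 21) (nat_lit 4) (nat_lit 23) (nat_lit 5) (nat_lit 23) (nat_lit 4) (nat_lit 502) (nat_lit 321) (nat_lit 317)))) (XT.nd (nat_lit 78) (nat_lit 152) (nat_lit 0) (XT.lf (nat_lit 0) (nat_lit 4753431808) (nat_lit 152) (nat_lit 7958100780) (nat_lit 0) (nat_lit 2843711846) (nat_lit 19) (nat_lit 5) (nat_lit 21) (nat_lit 4) (nat_lit 19) (nat_lit 4) (nat_lit 503) (nat_lit 321) (nat_lit 316)) (XT.nd (nat_lit 78) (nat_lit 0) (nat_lit 0) (XT.lf (nat_lit 0) (nat_lit 2304287407) (nat_lit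 152) (nat_lit 7858327276) (nat_lit 152) (nat_lit 5588834058) (nat_lit 17) (nat_lit 4) (nat_lit 19) (nat_lit 5) (nat_lit 19) (nat_lit 4) (nat_lit 504) (nat_lit 321) (nat_lit 315)) (XT.lf (nat_lit 0) (nat_lit 12747239893) (nat_lit 152) (nat_lit 2913470618) (nat_lit 152) (nat_lit 291258521) (nat_lit 17) (nat_lit 4) (nat_lit 19) (nat_lit 5) (nat_lit 19) (nat_lit 4) (nat_lit 505) (nat_lit 321) (nat_lit 314)))))) (XT.nd (nat_lit 58734) (nat_lit 0) (nat_lit 456) (XT.nd (nat_lit 156) (nat_lit 0) (nat_lit 0) (XT.nd (nat_lit 78) (nat_lit 152) (nat_lit 0) (XT.lf (nat_lit 0) (nat_lit 5034037128) (nat_lit 152) (nat_lit 8997810071) (nat_lit 0) (nat_lit 2124218580) (nat_lit 15) (nat_lit 5) (nat_lit 17) (nat_lit 4) (nat_lit 15) (nat_lit 4) (nat_lit 506) (nat_lit 321) (nat_lit 313)) (XT.lf (nat_lit 0) (nat_lit 1272344449) (nat_lit 152) (nat_lit 9167253924) (nat_lit 152) (nat_lit 5925060499) (nat_lit 13) (nat_lit 4) (nat_lit 15) (nat_lit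 5) (nat_lit 15) (nat_lit 4) (nat_lit 507) (nat_lit 321) (nat_lit 312))) (XT.nd (nat_lit 58422) (nat_lit 0) (nat_lit 1140) (XT.lf (nat_lit 0) (nat_lit 11739628633) (nat_lit 152) (nat_lit 4203032265) (nat_lit 152) (nat_lit 634981118) (nat_lit 13) (nat_lit 4) (nat_lit 15) (nat_lit 5) (nat_lit 15) (nat_lit 4) (nat_lit 508) (nat_lit 321) (nat_lit 311)) (XT.nd (nat_lit 78) (nat_lit 228) (nat_lit 0) (XT.lf (nat_lit 0) (nat_lit 4792634290) (nat_lit 152) (nat_lit 1175612896) (nat_lit 152) (nat_lit 1175612896) (nat_lit 31) (nat_lit 4) (nat_lit 33) (nat_lit 5) (nat_lit 33) (nat_lit 4) (nat_lit 496) (nat_lit 322) (nat_lit 322)) (XT.lf (nat_lit 0) (nat_lit 2936849183) (nat_lit 228) (nat_lit 9006364084) (nat_lit 0) (nat_lit 2515317473) (nat_lit 28) (nat_lit 5) (nat_lit 31) (nat_lit 4) (nat_lit 28) (nat_lit 4) (nat_lit 497) (nat_lit 322) (nat_lit 321))))) (XT.nd (nat_lit 234) (nat_lit 304) (nat_lit 0) (XT.nd (nat_lit 78) (nat_lit 228)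 (nat_lit 0) (XT.lf (nat_lit 0) (nat_lit 1088968131) (nat_lit 152) (nat_lit 7189350963) (nat_lit 152) (nat_lit 6354552869) (nat_lit 26) (nat_lit 4) (nat_lit 28) (nat_lit 5) (nat_lit 28) (nat_lit 4) (nat_lit 498) (nat_lit 322) (nat_lit 320)) (XT.nd (nat_lit 78) (nat_lit 228) (nat_lit 0) (XT.lf (nat_lit 0) (nat_lit 11373725127) (nat_lit 152) (nat_lit 2338614560) (nat_lit 152) (nat_lit 1098653347) (nat_lit 26) (nat_lit 4) (nat_lit 28) (nat_lit 5) (nat_lit 28) (nat_lit 4) (nat_lit 499) (nat_lit 322) (nat_lit 319)) (XT.lf (nat_lit 0) (nat_lit 4193901514) (nat_lit 228) (nat_lit 8209656786) (nat_lit 0) (nat_lit 2588823123) (nat_lit 23) (nat_lit 5) (nat_lit 26) (nat_lit 4) (nat_lit 23) (nat_lit 4) (nat_lit 500) (nat_lit 322) (nat_lit 318)))) (XT.nd (nat_lit 78) (nat_lit 152) (nat_lit 0) (XT.lf (nat_lit 0) (nat_lit 1946255728) (nat_lit 152) (nat_lit 7609159946) (nat_lit 152) (nat_lit 5622287297) (nat_lit 21) (nat_lit 4) (nat_lit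 23) (nat_lit 5) (nat_lit 23) (nat_lit 4) (nat_lit 501) (nat_lit 322) (nat_lit 317)) (XT.nd (nat_lit 78) (nat_lit 152) (nat_lit 0) (XT.lf (nat_lit 0) (nat_lit 12284318899) (nat_lit 152) (nat_lit 2721978467) (nat_lit 152) (nat_lit 360797722) (nat_lit 21) (nat_lit 4) (nat_lit 23) (nat_lit 5) (nat_lit 23) (nat_lit 4) (nat_lit 502) (nat_lit 322) (nat_lit 316)) (XT.lf (nat_lit 0) (nat_lit 4929849473) (nat_lit 152) (nat_lit 8374797390) (nat_lit 0) (nat_lit 2255193134) (nat_lit 19) (nat_lit 5) (nat_lit 21) (nat_lit 4) (nat_lit 19) (nat_lit 4) (nat_lit 503) (nat_lit 322) (nat_lit 315))))))))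
noncomputable def xc1 : XT := (XT.nd (nat_lit 117936) (nat_lit 0) (nat_lit 0) (XT.nd (nat_lit 59046) (nat_lit 0) (nat_lit 0) (XT.nd (nat_lit 58578) (nat_lit 0) (nat_lit 988) (XT.nd (nat_lit 156) (nat_lit 304) (nat_lit 0) (XT.nd (nat_lit 78) (nat_lit 0) (nat_lit 0) (XT.lf (nat_lit 0) (nat_lit 1816430537) (nat_lit 152) (nat_lit 8483883282) (nat_lit 152) (nat_lit 5456508065) (nat_lit 17) (nat_lit 4) (nat_lit 19) (nat_lit 5) (nat_lit 19) (nat_lit 4) (nat_lit 504) (nat_lit 322) (nat_lit 314)) (XT.lf (nat_lit 0) (nat_lit 12195047159) (nat_lit 152) (nat_lit 3568090818) (nat_lit 152) (nat_lit 194912779) (nat_lit 17) (nat_lit 4) (nat_lit 19) (nat_lit 5) (nat_lit 19) (nat_lit 4) (nat_lit 505) (nat_lit 322) (nat_lit 313))) (XT.nd (nat_lit 78) (nat_lit 152) (nat_lit 0) (XT.lf (nat_lit 0) (nat_lit 5085752431) (nat_lit 152) (nat_lit 9630912660) (nat_lit 0) (nat_lit 1446340261) (nat_lit 15) (nat_lit 5) (nat_lit 17) (nat_lit 4) (nat_lit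 15) (nat_lit 4) (nat_lit 506) (nat_lit 322) (nat_lit 312)) (XT.nd (nat_lit 78) (nat_lit 0) (nat_lit 0) (XT.lf (nat_lit 0) (nat_lit 566352463) (nat_lit 152) (nat_lit 9885652508) (nat_lit 152) (nat_lit 5920382615) (nat_lit 13) (nat_lit 4) (nat_lit 15) (nat_lit 5) (nat_lit 15) (nat_lit 4) (nat_lit 507) (nat_lit 322) (nat_lit 311)) (XT.lf (nat_lit 0) (nat_lit 10970425082) (nat_lit 152) (nat_lit 4950187946) (nat_lit 152) (nat_lit 665449698) (nat_lit 13) (nat_lit 4) (nat_lit 15) (nat_lit 5) (nat_lit 15) (nat_lit 4) (nat_lit 508) (nat_lit 322) (nat_lit 310))))) (XT.nd (nat_lit 234) (nat_lit 380) (nat_lit 0) (XT.nd (nat_lit 78) (nat_lit 152) (nat_lit 0) (XT.lf (nat_lit 0) (nat_lit 843476987) (nat_lit 228) (nat_lit 5290849184) (nat_lit 0) (nat_lit 843476987) (nat_lit 33) (nat_lit 5) (nat_lit 36) (nat_lit 4) (nat_lit 33) (nat_lit 4) (nat_lit 494) (nat_lit 323) (nat_lit 323)) (XT.nd (nat_lit 78) (nat_lit 152) (nat_lit 0) (XT.lf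 (nat_lit 0) (nat_lit 6965824515) (nat_lit 228) (nat_lit 627175080) (nat_lit 0) (nat_lit 6527262923) (nat_lit 33) (nat_lit 5) (nat_lit 36) (nat_lit 4) (nat_lit 33) (nat_lit 4) (nat_lit 495) (nat_lit 323) (nat_lit 322)) (XT.lf (nat_lit 0) (nat_lit 9518825984) (nat_lit 152) (nat_lit 2819082490) (nat_lit 152) (nat_lit 1950558554) (nat_lit 31) (nat_lit 4) (nat_lit 33) (nat_lit 5) (nat_lit 33) (nat_lit 4) (nat_lit 496) (nat_lit 323) (nat_lit 321)))) (XT.nd (nat_lit 78) (nat_lit 152) (nat_lit 0) (XT.lf (nat_lit 0) (nat_lit 3291492207) (nat_lit 228) (nat_lit 9141820746) (nat_lit 0) (nat_lit 2026731769) (nat_lit 28) (nat_lit 5) (nat_lit 31) (nat_lit 4) (nat_lit 28) (nat_lit 4) (nat_lit 497) (nat_lit 323) (nat_lit 320)) (XT.nd (nat_lit 78) (nat_lit 0) (nat_lit 0) (XT.lf (nat_lit 0) (nat_lit 885094737) (nat_lit 152) (nat_lit 7709988021) (nat_lit 152) (nat_lit 6040064463) (nat_lit 26) (nat_lit 4) (nat_lit 28) (nat_lit 5) (nat_lit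 28) (nat_lit 4) (nat_lit 498) (nat_lit 323) (nat_lit 319)) (XT.lf (nat_lit 0) (nat_lit 11104541355) (nat_lit 152) (nat_lit 2888299057) (nat_lit 152) (nat_lit 821156753) (nat_lit 26) (nat_lit 4) (nat_lit 28) (nat_lit 5) (nat_lit 28) (nat_lit 4) (nat_lit 499) (nat_lit 323) (nat_lit 318)))))) (XT.nd (nat_lit 390) (nat_lit 304) (nat_lit 0) (XT.nd (nat_lit 156) (nat_lit 304) (nat_lit 0) (XT.nd (nat_lit 78) (nat_lit 152) (nat_lit 0) (XT.lf (nat_lit 0) (nat_lit 4425982695) (nat_lit 228) (nat_lit 8552627483) (nat_lit 0) (nat_lit 2017578336) (nat_lit 23) (nat_lit 5) (nat_lit 26) (nat_lit 4) (nat_lit 23) (nat_lit 4) (nat_lit 500) (nat_lit 323) (nat_lit 317)) (XT.lf (nat_lit 0) (nat_lit 1533256016) (nat_lit 152) (nat_lit 8215868676) (nat_lit 152) (nat_lit 5433156221) (nat_lit 21) (nat_lit 4) (nat_lit 23) (nat_lit 5) (nat_lit 23) (nat_lit 4) (nat_lit 501) (nat_lit 323) (nat_lit 316))) (XT.nd (nat_lit 78) (nat_lit 304) (nat_lit 0)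 (XT.lf (nat_lit 0) (nat_lit 11807131819) (nat_lit 152) (nat_lit 3357466939) (nat_lit 152) (nat_lit 207785763) (nat_lit 21) (nat_lit 4) (nat_lit 23) (nat_lit 5) (nat_lit 23) (nat_lit 4) (nat_lit 502) (nat_lit 323) (nat_lit 315)) (XT.nd (nat_lit 78) (nat_lit 152) (nat_lit 0) (XT.lf (nat_lit 0) (nat_lit 5037982393) (nat_lit 152) (nat_lit 8930647030) (nat_lit 0) (nat_lit 1597340793) (nat_lit 19) (nat_lit 5) (nat_lit 21) (nat_lit 4) (nat_lit 19) (nat_lit 4) (nat_lit 503) (nat_lit 323) (nat_lit 314)) (XT.lf (nat_lit 0) (nat_lit 1188858083) (nat_lit 152) (nat_lit 9180660080) (nat_lit 152) (nat_lit 5394215658) (nat_lit 17) (nat_lit 4) (nat_lit 19) (nat_lit 5) (nat_lit 19) (nat_lit 4) (nat_lit 504) (nat_lit 323) (nat_lit 313))))) (XT.nd (nat_lit 234) (nat_lit 152) (nat_lit 0) (XT.nd (nat_lit 78) (nat_lit 152) (nat_lit 0) (XT.lf (nat_lit 0) (nat_lit 11504400327) (nat_lit 152) (nat_lit 4293361924) (nat_lit 152) (nat_lit 167895128)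 (nat_lit 17) (nat_lit 4) (nat_lit 19) (nat_lit 5) (nat_lit 19) (nat_lit 4) (nat_lit 505) (nat_lit 323) (nat_lit 312)) (XT.nd (nat_lit 78) (nat_lit 0) (nat_lit 0) (XT.lf (nat_lit 0) (nat_lit 5068357667) (nat_lit 152) (nat_lit 10405210274) (nat_lit 0) (nat_lit 697924654) (nat_lit 15) (nat_lit 5) (nat_lit 17) (nat_lit 4) (nat_lit 15) (nat_lit 4) (nat_lit 506) (nat_lit 323) (nat_lit 311)) (XT.lf (nat_lit 0) (nat_lit 10396889014) (nat_lit 152) (nat_lit 277755499) (nat_lit 0) (nat_lit 5706987646) (nat_lit 15) (nat_lit 5) (nat_lit 17) (nat_lit 4) (nat_lit 15) (nat_lit 4) (nat_lit 507) (nat_lit 323) (nat_lit 310)))) (XT.nd (nat_lit 58110) (nat_lit 0) (nat_lit 1748) (XT.lf (nat_lit 0) (nat_lit 10060653772) (nat_lit 152) (nat_lit 5769237071) (nat_lit 152) (nat_lit 766131432) (nat_lit 13) (nat_lit 4) (nat_lit 15) (nat_lit 5) (nat_lit 15) (nat_lit 4) (nat_lit 508) (nat_lit 323) (nat_lit 309)) (XT.nd (nat_lit 78) (nat_lit 152) (nat_lit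 0) (XT.lf (nat_lit 0) (nat_lit 2704568607) (nat_lit 228) (nat_lit 1408326116) (nat_lit 0) (nat_lit 2704568607) (nat_lit 38) (nat_lit 5) (nat_lit 41) (nat_lit 4) (nat_lit 38) (nat_lit 4) (nat_lit 492) (nat_lit 324) (nat_lit 324)) (XT.lf (nat_lit 0) (nat_lit 7160044005) (nat_lit 152) (nat_lit 3545082643) (nat_lit 152) (nat_lit 3088803163) (nat_lit 36) (nat_lit 4) (nat_lit 38) (nat_lit 5) (nat_lit 38) (nat_lit 4) (nat_lit 493) (nat_lit 324) (nat_lit 323))))))) (XT.nd (nat_lit 858) (nat_lit 304) (nat_lit 0) (XT.nd (nat_lit 390) (nat_lit 684) (nat_lit 0) (XT.nd (nat_lit 156) (nat_lit 532) (nat_lit 0) (XT.nd (nat_lit 78) (nat_lit 0) (nat_lit 0) (XT.lf (nat_lit 0) (nat_lit 2096836375) (nat_lit 228) (nat_lit 10648580982) (nat_lit 0) (nat_lit 1210941960) (nat_lit 33) (nat_lit 5) (nat_lit 36) (nat_lit 4) (nat_lit 33) (nat_lit 4) (nat_lit 494) (nat_lit 324) (nat_lit 322)) (XT.lf (nat_lit 0) (nat_lit 7338990815) (nat_lit 228) (nat_lit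 759628883) (nat_lit 0) (nat_lit 6023134055) (nat_lit 33) (nat_lit 5) (nat_lit 36) (nat_lit 4) (nat_lit 33) (nat_lit 4) (nat_lit 495) (nat_lit 324) (nat_lit 321))) (XT.nd (nat_lit 78) (nat_lit 380) (nat_lit 0) (XT.lf (nat_lit 0) (nat_lit 9319472139) (nat_lit 152) (nat_lit 3354312120) (nat_lit 152) (nat_lit 1616923649) (nat_lit 31) (nat_lit 4) (nat_lit 33) (nat_lit 5) (nat_lit 33) (nat_lit 4) (nat_lit 496) (nat_lit 324) (nat_lit 320)) (XT.nd (nat_lit 78) (nat_lit 152) (nat_lit 0) (XT.lf (nat_lit 0) (nat_lit 3579385621) (nat_lit 228) (nat_lit 9412787192) (nat_lit 0) (nat_lit 1470900471) (nat_lit 28) (nat_lit 5) (nat_lit 31) (nat_lit 4) (nat_lit 28) (nat_lit 4) (nat_lit 497) (nat_lit 324) (nat_lit 319)) (XT.lf (nat_lit 0) (nat_lit 545216913) (nat_lit 152) (nat_lit 8299713646) (nat_lit 152) (nat_lit 5794009750) (nat_lit 26) (nat_lit 4) (nat_lit 28) (nat_lit 5) (nat_lit 28) (nat_lit 4) (nat_lit 498) (nat_lit 324) (nat_lit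 318))))) (XT.nd (nat_lit 234) (nat_lit 304) (nat_lit 0) (XT.nd (nat_lit 78) (nat_lit 380) (nat_lit 0) (XT.lf (nat_lit 0) (nat_lit 10700633750) (nat_lit 152) (nat_lit 3506502561) (nat_lit 152) (nat_lit 611368523) (nat_lit 26) (nat_lit 4) (nat_lit 28) (nat_lit 5) (nat_lit 28) (nat_lit 4) (nat_lit 499) (nat_lit 324) (nat_lit 317)) (XT.nd (nat_lit 78) (nat_lit 152) (nat_lit 0) (XT.lf (nat_lit 0) (nat_lit 4590610295) (nat_lit 228) (nat_lit 9032974742) (nat_lit 0) (nat_lit 1377935495) (nat_lit 23) (nat_lit 5) (nat_lit 26) (nat_lit 4) (nat_lit 23) (nat_lit 4) (nat_lit 500) (nat_lit 324) (nat_lit 316)) (XT.lf (nat_lit 0) (nat_lit 982337827) (nat_lit 152) (nat_lit 8892846660) (nat_lit 152) (nat_lit 5313203140) (nat_lit 21) (nat_lit 4) (nat_lit 23) (nat_lit 5) (nat_lit 23) (nat_lit 4) (nat_lit 501) (nat_lit 324) (nat_lit 315)))) (XT.nd (nat_lit 78) (nat_lit 304) (nat_lit 0) (XT.lf (nat_lit 0) (nat_lit 11193284838) (nat_lit 152)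 (nat_lit 4062660357) (nat_lit 152) (nat_lit 123243580) (nat_lit 21) (nat_lit 4) (nat_lit 23) (nat_lit 5) (nat_lit 23) (nat_lit 4) (nat_lit 502) (nat_lit 324) (nat_lit 314)) (XT.nd (nat_lit 78) (nat_lit 152) (nat_lit 0) (XT.lf (nat_lit 0) (nat_lit 5077872973) (nat_lit 152) (nat_lit 9625867681) (nat_lit 0) (nat_lit 869896841) (nat_lit 19) (nat_lit 5) (nat_lit 21) (nat_lit 4) (nat_lit 19) (nat_lit 4) (nat_lit 503) (nat_lit 324) (nat_lit 313)) (XT.lf (nat_lit 0) (nat_lit 421323938) (nat_lit 152) (nat_lit 9948930917) (nat_lit 152) (nat_lit 5401932410) (nat_lit 17) (nat_lit 4) (nat_lit 19) (nat_lit 5) (nat_lit 19) (nat_lit 4) (nat_lit 504) (nat_lit 324) (nat_lit 312)))))) (XT.nd (nat_lit 58266) (nat_lit 0) (nat_lit 1368) (XT.nd (nat_lit 156) (nat_lit 152) (nat_lit 0) (XT.nd (nat_lit 78) (nat_lit 152) (nat_lit 0) (XT.lf (nat_lit 0) (nat_lit 10675028558) (nat_lit 152) (nat_lit 5089568357) (nat_lit 152) (nat_lit 210194973) (nat_lit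 17) (nat_lit 4) (nat_lit 19) (nat_lit 5) (nat_lit 19) (nat_lit 4) (nat_lit 505) (nat_lit 324) (nat_lit 311)) (XT.lf (nat_lit 0) (nat_lit 4859710143) (nat_lit 76) (nat_lit 122934039) (nat_lit 152) (nat_lit 11198870690) (nat_lit 15) (nat_lit 5) (nat_lit 16) (nat_lit 5) (nat_lit 17) (nat_lit 4) (nat_lit 506) (nat_lit 324) (nat_lit 310))) (XT.nd (nat_lit 78) (nat_lit 152) (nat_lit 0) (XT.lf (nat_lit 0) (nat_lit 10277000835) (nat_lit 152) (nat_lit 1254711133) (nat_lit 0) (nat_lit 4860628813) (nat_lit 15) (nat_lit 5) (nat_lit 17) (nat_lit 4) (nat_lit 15) (nat_lit 4) (nat_lit 507) (nat_lit 324) (nat_lit 309)) (XT.nd (nat_lit 57954) (nat_lit 0) (nat_lit 2128) (XT.lf (nat_lit 0) (nat_lit 9009957928) (nat_lit 152) (nat_lit 6660500836) (nat_lit 152) (nat_lit 937065804) (nat_lit 13) (nat_lit 4) (nat_lit 15) (nat_lit 5) (nat_lit 15) (nat_lit 4) (nat_lit 508) (nat_lit 324) (nat_lit 308)) (XT.lf (nat_lit 0) (nat_lit 2193219217) (nat_lit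 228) (nat_lit 2234818858) (nat_lit 228) (nat_lit 2234818858) (nat_lit 41) (nat_lit 4) (nat_lit 44) (nat_lit 5) (nat_lit 44) (nat_lit 4) (nat_lit 490) (nat_lit 325) (nat_lit 325))))) (XT.nd (nat_lit 234) (nat_lit 380) (nat_lit 0) (XT.nd (nat_lit 78) (nat_lit 152) (nat_lit 0) (XT.lf (nat_lit 0) (nat_lit 654922587) (nat_lit 228) (nat_lit 12635158800) (nat_lit 0) (nat_lit 189517518) (nat_lit 38) (nat_lit 5) (nat_lit 41) (nat_lit 4) (nat_lit 38) (nat_lit 4) (nat_lit 491) (nat_lit 325) (nat_lit 324)) (XT.nd (nat_lit 78) (nat_lit 152) (nat_lit 0) (XT.lf (nat_lit 0) (nat_lit 5837655941) (nat_lit 228) (nat_lit 2882041205) (nat_lit 0) (nat_lit 4915971392) (nat_lit 38) (nat_lit 5) (nat_lit 41) (nat_lit 4) (nat_lit 38) (nat_lit 4) (nat_lit 492) (nat_lit 325) (nat_lit 323)) (XT.lf (nat_lit 0) (nat_lit 7028827263) (nat_lit 152) (nat_lit 4067803085) (nat_lit 152) (nat_lit 2698785713) (nat_lit 36) (nat_lit 4) (nat_lit 38) (nat_lit 5)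 (nat_lit 38) (nat_lit 4) (nat_lit 493) (nat_lit 325) (nat_lit 322)))) (XT.nd (nat_lit 78) (nat_lit 152) (nat_lit 0) (XT.lf (nat_lit 0) (nat_lit 2440749899) (nat_lit 228) (nat_lit 10849255051) (nat_lit 0) (nat_lit 668613660) (nat_lit 33) (nat_lit 5) (nat_lit 36) (nat_lit 4) (nat_lit 33) (nat_lit 4) (nat_lit 494) (nat_lit 325) (nat_lit 321)) (XT.nd (nat_lit 78) (nat_lit 152) (nat_lit 0) (XT.lf (nat_lit 0) (nat_lit 7646908162) (nat_lit 228) (nat_lit 1024588433) (nat_lit 0) (nat_lit 5453240212) (nat_lit 33) (nat_lit 5) (nat_lit 36) (nat_lit 4) (nat_lit 33) (nat_lit 4) (nat_lit 495) (nat_lit 325) (nat_lit 320)) (XT.lf (nat_lit 0) (nat_lit 8987128868) (nat_lit 152) (nat_lit 3957124575) (nat_lit 152) (nat_lit 1350190243) (nat_lit 31) (nat_lit 4) (nat_lit 33) (nat_lit 5) (nat_lit 33) (nat_lit 4) (nat_lit 496) (nat_lit 325) (nat_lit 319))))))))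
noncomputable def xc2 : XT := (XT.nd (nat_lit 59436) (nat_lit 0) (nat_lit 0) (XT.nd (nat_lit 858) (nat_lit 152) (nat_lit 0) (XT.nd (nat_lit 390) (nat_lit 456) (nat_lit 0) (XT.nd (nat_lit 156) (nat_lit 380) (nat_lit 0) (XT.nd (nat_lit 78) (nat_lit 152) (nat_lit 0) (XT.lf (nat_lit 0) (nat_lit 3800642323) (nat_lit 228) (nat_lit 9819369682) (nat_lit 0) (nat_lit 847605604) (nat_lit 28) (nat_lit 5) (nat_lit 31) (nat_lit 4) (nat_lit 28) (nat_lit 4) (nat_lit 497) (nat_lit 325) (nat_lit 318)) (XT.lf (nat_lit 0) (nat_lit 69201375) (nat_lit 152) (nat_lit 8958759100) (nat_lit 152) (nat_lit 5616292239) (nat_lit 26) (nat_lit 4) (nat_lit 28) (nat_lit 5) (nat_lit 28) (nat_lit 4) (nat_lit 498) (nat_lit 325) (nat_lit 317))) (XT.nd (nat_lit 78) (nat_lit 380) (nat_lit 0) (XT.lf (nat_lit 0) (nat_lit 10161843916) (nat_lit 152) (nat_lit 4193467506) (nat_lit 152) (nat_lit 469206387) (nat_lit 26) (nat_lit 4) (nat_lit 28) (nat_lit 5) (nat_lit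 28) (nat_lit 4) (nat_lit 499) (nat_lit 325) (nat_lit 316)) (XT.nd (nat_lit 78) (nat_lit 152) (nat_lit 0) (XT.lf (nat_lit 0) (nat_lit 4687848873) (nat_lit 228) (nat_lit 9650886934) (nat_lit 0) (nat_lit 669643761) (nat_lit 23) (nat_lit 5) (nat_lit 26) (nat_lit 4) (nat_lit 23) (nat_lit 4) (nat_lit 500) (nat_lit 325) (nat_lit 315)) (XT.lf (nat_lit 0) (nat_lit 293285115) (nat_lit 152) (nat_lit 9640359381) (nat_lit 152) (nat_lit 5262381012) (nat_lit 21) (nat_lit 4) (nat_lit 23) (nat_lit 5) (nat_lit 23) (nat_lit 4) (nat_lit 501) (nat_lit 325) (nat_lit 314))))) (XT.nd (nat_lit 234) (nat_lit 304) (nat_lit 0) (XT.nd (nat_lit 78) (nat_lit 152) (nat_lit 0) (XT.lf (nat_lit 0) (nat_lit 10442537233) (nat_lit 152) (nat_lit 4837835268) (nat_lit 152) (nat_lit 107138021) (nat_lit 21) (nat_lit 4) (nat_lit 23) (nat_lit 5) (nat_lit 23) (nat_lit 4) (nat_lit 502) (nat_lit 325) (nat_lit 313)) (XT.nd (nat_lit 78) (nat_lit 0) (nat_lit 0) (XT.lf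 (nat_lit 0) (nat_lit 5049536858) (nat_lit 152) (nat_lit 10460731979) (nat_lit 0) (nat_lit 72576006) (nat_lit 19) (nat_lit 5) (nat_lit 21) (nat_lit 4) (nat_lit 19) (nat_lit 4) (nat_lit 503) (nat_lit 325) (nat_lit 312)) (XT.lf (nat_lit 0) (nat_lit 10305682688) (nat_lit 152) (nat_lit 480092711) (nat_lit 0) (nat_lit 4996346959) (nat_lit 19) (nat_lit 5) (nat_lit 21) (nat_lit 4) (nat_lit 19) (nat_lit 4) (nat_lit 504) (nat_lit 325) (nat_lit 311)))) (XT.nd (nat_lit 78) (nat_lit 152) (nat_lit 0) (XT.lf (nat_lit 0) (nat_lit 9706606606) (nat_lit 152) (nat_lit 5957022354) (nat_lit 152) (nat_lit 321828903) (nat_lit 17) (nat_lit 4) (nat_lit 19) (nat_lit 5) (nat_lit 19) (nat_lit 4) (nat_lit 505) (nat_lit 325) (nat_lit 310)) (XT.nd (nat_lit 78) (nat_lit 0) (nat_lit 0) (XT.lf (nat_lit 0) (nat_lit 3807674181) (nat_lit 76) (nat_lit 1025165416) (nat_lit 152) (nat_lit 11360151291) (nat_lit 15) (nat_lit 5) (nat_lit 16) (nat_lit 5) (nat_lit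 17) (nat_lit 4) (nat_lit 506) (nat_lit 325) (nat_lit 309)) (XT.lf (nat_lit 0) (nat_lit 10088616281) (nat_lit 152) (nat_lit 2372325371) (nat_lit 0) (nat_lit 3943649539) (nat_lit 15) (nat_lit 5) (nat_lit 17) (nat_lit 4) (nat_lit 15) (nat_lit 4) (nat_lit 507) (nat_lit 325) (nat_lit 308)))))) (XT.nd (nat_lit 58110) (nat_lit 0) (nat_lit 1140) (XT.nd (nat_lit 57876) (nat_lit 0) (nat_lit 1900) (XT.nd (nat_lit 57798) (nat_lit 0) (nat_lit 2584) (XT.lf (nat_lit 0) (nat_lit 7817925515) (nat_lit 152) (nat_lit 7624328755) (nat_lit 152) (nat_lit 1178319847) (nat_lit 13) (nat_lit 4) (nat_lit 15) (nat_lit 5) (nat_lit 15) (nat_lit 4) (nat_lit 508) (nat_lit 325) (nat_lit 307)) (XT.lf (nat_lit 0) (nat_lit 5526020295) (nat_lit 228) (nat_lit 493903677) (nat_lit 228) (nat_lit 493903677) (nat_lit 47) (nat_lit 4) (nat_lit 50) (nat_lit 5) (nat_lit 50) (nat_lit 4) (nat_lit 488) (nat_lit 326) (nat_lit 326))) (XT.nd (nat_lit 78) (nat_lit 456) (nat_lit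 0) (XT.lf (nat_lit 0) (nat_lit 4126056838) (nat_lit 228) (nat_lit 5407477272) (nat_lit 0) (nat_lit 3641849403) (nat_lit 44) (nat_lit 5) (nat_lit 47) (nat_lit 4) (nat_lit 44) (nat_lit 4) (nat_lit 489) (nat_lit 326) (nat_lit 325)) (XT.nd (nat_lit 78) (nat_lit 228) (nat_lit 0) (XT.lf (nat_lit 0) (nat_lit 4321671748) (nat_lit 228) (nat_lit 4981851129) (nat_lit 228) (nat_lit 4022930524) (nat_lit 41) (nat_lit 4) (nat_lit 44) (nat_lit 5) (nat_lit 44) (nat_lit 4) (nat_lit 490) (nat_lit 326) (nat_lit 324)) (XT.lf (nat_lit 0) (nat_lit 711562857) (nat_lit 152) (nat_lit 345807702) (nat_lit 228) (nat_lit 12423682037) (nat_lit 38) (nat_lit 5) (nat_lit 40) (nat_lit 5) (nat_lit 41) (nat_lit 4) (nat_lit 491) (nat_lit 326) (nat_lit 323))))) (XT.nd (nat_lit 234) (nat_lit 380) (nat_lit 0) (XT.nd (nat_lit 78) (nat_lit 380) (nat_lit 0) (XT.lf (nat_lit 0) (nat_lit 6201695621) (nat_lit 228) (nat_lit 3078233770) (nat_lit 0) (nat_lit 4357965077)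 (nat_lit 38) (nat_lit 5) (nat_lit 41) (nat_lit 4) (nat_lit 38) (nat_lit 4) (nat_lit 492) (nat_lit 326) (nat_lit 322)) (XT.nd (nat_lit 78) (nat_lit 228) (nat_lit 0) (XT.lf (nat_lit 0) (nat_lit 6766342321) (nat_lit 152) (nat_lit 4657169479) (nat_lit 152) (nat_lit 2374877344) (nat_lit 36) (nat_lit 4) (nat_lit 38) (nat_lit 5) (nat_lit 38) (nat_lit 4) (nat_lit 493) (nat_lit 326) (nat_lit 321)) (XT.lf (nat_lit 0) (nat_lit 2718829416) (nat_lit 228) (nat_lit 11183799271) (nat_lit 0) (nat_lit 59756397) (nat_lit 33) (nat_lit 5) (nat_lit 36) (nat_lit 4) (nat_lit 33) (nat_lit 4) (nat_lit 494) (nat_lit 326) (nat_lit 320)))) (XT.nd (nat_lit 78) (nat_lit 380) (nat_lit 0) (XT.lf (nat_lit 0) (nat_lit 7889697309) (nat_lit 228) (nat_lit 1422157633) (nat_lit 0) (nat_lit 4817357906) (nat_lit 33) (nat_lit 5) (nat_lit 36) (nat_lit 4) (nat_lit 33) (nat_lit 4) (nat_lit 495) (nat_lit 326) (nat_lit 319)) (XT.nd (nat_lit 78) (nat_lit 228) (nat_lit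 0) (XT.lf (nat_lit 0) (nat_lit 8521665839) (nat_lit 152) (nat_lit 4627756254) (nat_lit 152) (nat_lit 1150253732) (nat_lit 31) (nat_lit 4) (nat_lit 33) (nat_lit 5) (nat_lit 33) (nat_lit 4) (nat_lit 496) (nat_lit 326) (nat_lit 318)) (XT.lf (nat_lit 0) (nat_lit 3955349081) (nat_lit 228) (nat_lit 10361727660) (nat_lit 0) (nat_lit 156602740) (nat_lit 28) (nat_lit 5) (nat_lit 31) (nat_lit 4) (nat_lit 28) (nat_lit 4) (nat_lit 497) (nat_lit 326) (nat_lit 317))))))) (XT.nd (nat_lit 58422) (nat_lit 0) (nat_lit 1368) (XT.nd (nat_lit 390) (nat_lit 608) (nat_lit 0) (XT.nd (nat_lit 156) (nat_lit 380) (nat_lit 0) (XT.nd (nat_lit 78) (nat_lit 152) (nat_lit 0) (XT.lf (nat_lit 0) (nat_lit 9147770699) (nat_lit 228) (nat_lit 536015190) (nat_lit 0) (nat_lit 4967230101) (nat_lit 28) (nat_lit 5) (nat_lit 31) (nat_lit 4) (nat_lit 28) (nat_lit 4) (nat_lit 498) (nat_lit 326) (nat_lit 316)) (XT.lf (nat_lit 0) (nat_lit 9487960564) (nat_lit 152)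 (nat_lit 4949463290) (nat_lit 152) (nat_lit 394614595) (nat_lit 26) (nat_lit 4) (nat_lit 28) (nat_lit 5) (nat_lit 28) (nat_lit 4) (nat_lit 499) (nat_lit 326) (nat_lit 315))) (XT.nd (nat_lit 78) (nat_lit 152) (nat_lit 0) (XT.lf (nat_lit 0) (nat_lit 4609440052) (nat_lit 152) (nat_lit 109004238) (nat_lit 228) (nat_lit 10298309867) (nat_lit 23) (nat_lit 5) (nat_lit 25) (nat_lit 5) (nat_lit 26) (nat_lit 4) (nat_lit 500) (nat_lit 326) (nat_lit 314)) (XT.nd (nat_lit 78) (nat_lit 152) (nat_lit 0) (XT.lf (nat_lit 0) (nat_lit 9927995845) (nat_lit 228) (nat_lit 527166569) (nat_lit 0) (nat_lit 4749965775) (nat_lit 23) (nat_lit 5) (nat_lit 26) (nat_lit 4) (nat_lit 23) (nat_lit 4) (nat_lit 501) (nat_lit 326) (nat_lit 313)) (XT.lf (nat_lit 0) (nat_lit 9554594591) (nat_lit 152) (nat_lit 5683295661) (nat_lit 152) (nat_lit 159462768) (nat_lit 21) (nat_lit 4) (nat_lit 23) (nat_lit 5) (nat_lit 23) (nat_lit 4) (nat_lit 502) (nat_lit 326)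 (nat_lit 312))))) (XT.nd (nat_lit 234) (nat_lit 304) (nat_lit 0) (XT.nd (nat_lit 78) (nat_lit 152) (nat_lit 0) (XT.lf (nat_lit 0) (nat_lit 4152694122) (nat_lit 76) (nat_lit 805498644) (nat_lit 152) (nat_lit 10635298508) (nat_lit 19) (nat_lit 5) (nat_lit 20) (nat_lit 5) (nat_lit 21) (nat_lit 4) (nat_lit 503) (nat_lit 326) (nat_lit 311)) (XT.nd (nat_lit 78) (nat_lit 152) (nat_lit 0) (XT.lf (nat_lit 0) (nat_lit 10176265101) (nat_lit 152) (nat_lit 1514758066) (nat_lit 0) (nat_lit 4102510058) (nat_lit 19) (nat_lit 5) (nat_lit 21) (nat_lit 4) (nat_lit 19) (nat_lit 4) (nat_lit 504) (nat_lit 326) (nat_lit 310)) (XT.lf (nat_lit 0) (nat_lit 8598754699) (nat_lit 152) (nat_lit 6896064093) (nat_lit 152) (nat_lit 502840695) (nat_lit 17) (nat_lit 4) (nat_lit 19) (nat_lit 5) (nat_lit 19) (nat_lit 4) (nat_lit 505) (nat_lit 326) (nat_lit 309)))) (XT.nd (nat_lit 78) (nat_lit 152) (nat_lit 0) (XT.lf (nat_lit 0) (nat_lit 2614445315) (nat_lit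 76) (nat_lit 1999848240) (nat_lit 152) (nat_lit 11591723422) (nat_lit 15) (nat_lit 5) (nat_lit 16) (nat_lit 5) (nat_lit 17) (nat_lit 4) (nat_lit 506) (nat_lit 326) (nat_lit 308)) (XT.nd (nat_lit 78) (nat_lit 152) (nat_lit 0) (XT.lf (nat_lit 0) (nat_lit 9831661477) (nat_lit 152) (nat_lit 3631036494) (nat_lit 0) (nat_lit 2955690223) (nat_lit 15) (nat_lit 5) (nat_lit 17) (nat_lit 4) (nat_lit 15) (nat_lit 4) (nat_lit 507) (nat_lit 326) (nat_lit 307)) (XT.lf (nat_lit 0) (nat_lit 6484089068) (nat_lit 152) (nat_lit 8661098801) (nat_lit 152) (nat_lit 1489988169) (nat_lit 13) (nat_lit 4) (nat_lit 15) (nat_lit 5) (nat_lit 15) (nat_lit 4) (nat_lit 508) (nat_lit 326) (nat_lit 306)))))) (XT.nd (nat_lit 390) (nat_lit 760) (nat_lit 0) (XT.nd (nat_lit 156) (nat_lit 456) (nat_lit 0) (XT.nd (nat_lit 78) (nat_lit 228) (nat_lit 0) (XT.lf (nat_lit 0) (nat_lit 1120121458) (nat_lit 228) (nat_lit 4129458655) (nat_lit 0) (nat_lit 1120121458)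 (nat_lit 50) (nat_lit 5) (nat_lit 53) (nat_lit 4) (nat_lit 50) (nat_lit 4) (nat_lit 486) (nat_lit 327) (nat_lit 327)) (XT.lf (nat_lit 0) (nat_lit 1277502954) (nat_lit 228) (nat_lit 6054274668) (nat_lit 228) (nat_lit 5550505254) (nat_lit 47) (nat_lit 4) (nat_lit 50) (nat_lit 5) (nat_lit 50) (nat_lit 4) (nat_lit 487) (nat_lit 327) (nat_lit 326))) (XT.nd (nat_lit 78) (nat_lit 456) (nat_lit 0) (XT.lf (nat_lit 0) (nat_lit 10988743697) (nat_lit 228) (nat_lit 1518650777) (nat_lit 228) (nat_lit 520989779) (nat_lit 47) (nat_lit 4) (nat_lit 50) (nat_lit 5) (nat_lit 50) (nat_lit 4) (nat_lit 488) (nat_lit 327) (nat_lit 325)) (XT.nd (nat_lit 78) (nat_lit 228) (nat_lit 0) (XT.lf (nat_lit 0) (nat_lit 4546541218) (nat_lit 228) (nat_lit 5536590136) (nat_lit 0) (nat_lit 3093729030) (nat_lit 44) (nat_lit 5) (nat_lit 47) (nat_lit 4) (nat_lit 44) (nat_lit 4) (nat_lit 489) (nat_lit 327) (nat_lit 324)) (XT.lf (nat_lit 0) (nat_lit 4127346291)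 (nat_lit 228) (nat_lit 5559771631) (nat_lit 228) (nat_lit 3641554373) (nat_lit 41) (nat_lit 4) (nat_lit 44) (nat_lit 5) (nat_lit 44) (nat_lit 4) (nat_lit 490) (nat_lit 327) (nat_lit 323))))) (XT.nd (nat_lit 234) (nat_lit 380) (nat_lit 0) (XT.nd (nat_lit 78) (nat_lit 152) (nat_lit 0) (XT.lf (nat_lit 0) (nat_lit 446335341) (nat_lit 152) (nat_lit 950116182) (nat_lit 228) (nat_lit 12087520381) (nat_lit 38) (nat_lit 5) (nat_lit 40) (nat_lit 5) (nat_lit 41) (nat_lit 4) (nat_lit 491) (nat_lit 327) (nat_lit 322)) (XT.nd (nat_lit 78) (nat_lit 152) (nat_lit 0) (XT.lf (nat_lit 0) (nat_lit 6501399012) (nat_lit 228) (nat_lit 3405306862) (nat_lit 0) (nat_lit 3734899443) (nat_lit 38) (nat_lit 5) (nat_lit 41) (nat_lit 4) (nat_lit 38) (nat_lit 4) (nat_lit 492) (nat_lit 327) (nat_lit 321)) (XT.lf (nat_lit 0) (nat_lit 6372486245) (nat_lit 152) (nat_lit 5313412949) (nat_lit 152) (nat_lit 2116951035) (nat_lit 36) (nat_lit 4) (nat_lit 38)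 (nat_lit 5) (nat_lit 38) (nat_lit 4) (nat_lit 493) (nat_lit 327) (nat_lit 320)))) (XT.nd (nat_lit 78) (nat_lit 152) (nat_lit 0) (XT.lf (nat_lit 0) (nat_lit 2311182577) (nat_lit 152) (nat_lit 624053165) (nat_lit 228) (nat_lit 11032343438) (nat_lit 33) (nat_lit 5) (nat_lit 35) (nat_lit 5) (nat_lit 36) (nat_lit 4) (nat_lit 494) (nat_lit 327) (nat_lit 319)) (XT.nd (nat_lit 78) (nat_lit 152) (nat_lit 0) (XT.lf (nat_lit 0) (nat_lit 8067453467) (nat_lit 228) (nat_lit 1952492395) (nat_lit 0) (nat_lit 4115237773) (nat_lit 33) (nat_lit 5) (nat_lit 36) (nat_lit 4) (nat_lit 33) (nat_lit 4) (nat_lit 495) (nat_lit 327) (nat_lit 318)) (XT.lf (nat_lit 0) (nat_lit 7922900519) (nat_lit 152) (nat_lit 5366470149) (nat_lit 152) (nat_lit 1017035710) (nat_lit 31) (nat_lit 4) (nat_lit 33) (nat_lit 5) (nat_lit 33) (nat_lit 4) (nat_lit 496) (nat_lit 327) (nat_lit 317))))))))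
noncomputable def xc3 : XT := (XT.nd (nat_lit 59124) (nat_lit 0) (nat_lit 0) (XT.nd (nat_lit 858) (nat_lit 152) (nat_lit 0) (XT.nd (nat_lit 390) (nat_lit 608) (nat_lit 0) (XT.nd (nat_lit 156) (nat_lit 380) (nat_lit 0) (XT.nd (nat_lit 78) (nat_lit 0) (nat_lit 0) (XT.lf (nat_lit 0) (nat_lit 3437145180) (nat_lit 152) (nat_lit 610384404) (nat_lit 228) (nat_lit 10433652432) (nat_lit 28) (nat_lit 5) (nat_lit 30) (nat_lit 5) (nat_lit 31) (nat_lit 4) (nat_lit 497) (nat_lit 327) (nat_lit 316)) (XT.lf (nat_lit 0) (nat_lit 9202216386) (nat_lit 228) (nat_lit 1275097620) (nat_lit 0) (nat_lit 4181962622) (nat_lit 28) (nat_lit 5) (nat_lit 31) (nat_lit 4) (nat_lit 28) (nat_lit 4) (nat_lit 498) (nat_lit 327) (nat_lit 315))) (XT.nd (nat_lit 78) (nat_lit 228) (nat_lit 0) (XT.lf (nat_lit 0) (nat_lit 8678719425) (nat_lit 152) (nat_lit 5774786381) (nat_lit 152) (nat_lit 387563896) (nat_lit 26) (nat_lit 4) (nat_lit 28) (nat_lit 5) (nat_lit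 28) (nat_lit 4) (nat_lit 499) (nat_lit 327) (nat_lit 314)) (XT.nd (nat_lit 78) (nat_lit 0) (nat_lit 0) (XT.lf (nat_lit 0) (nat_lit 3719858613) (nat_lit 152) (nat_lit 966702948) (nat_lit 228) (nat_lit 10340002963) (nat_lit 23) (nat_lit 5) (nat_lit 25) (nat_lit 5) (nat_lit 26) (nat_lit 4) (nat_lit 500) (nat_lit 327) (nat_lit 313)) (XT.lf (nat_lit 0) (nat_lit 9857571681) (nat_lit 228) (nat_lit 1480681541) (nat_lit 0) (nat_lit 3877459308) (nat_lit 23) (nat_lit 5) (nat_lit 26) (nat_lit 4) (nat_lit 23) (nat_lit 4) (nat_lit 501) (nat_lit 327) (nat_lit 312))))) (XT.nd (nat_lit 234) (nat_lit 304) (nat_lit 0) (XT.nd (nat_lit 78) (nat_lit 152) (nat_lit 0) (XT.lf (nat_lit 0) (nat_lit 8529108701) (nat_lit 152) (nat_lit 6599373089) (nat_lit 152) (nat_lit 280238343) (nat_lit 21) (nat_lit 4) (nat_lit 23) (nat_lit 5) (nat_lit 23) (nat_lit 4) (nat_lit 502) (nat_lit 327) (nat_lit 311)) (XT.nd (nat_lit 78) (nat_lit 0) (nat_lit 0) (XT.lf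 (nat_lit 0) (nat_lit 3043509626) (nat_lit 76) (nat_lit 1756004853) (nat_lit 152) (nat_lit 10806152290) (nat_lit 19) (nat_lit 5) (nat_lit 20) (nat_lit 5) (nat_lit 21) (nat_lit 4) (nat_lit 503) (nat_lit 327) (nat_lit 310)) (XT.lf (nat_lit 0) (nat_lit 9979215826) (nat_lit 152) (nat_lit 2688603616) (nat_lit 0) (nat_lit 3138659604) (nat_lit 19) (nat_lit 5) (nat_lit 21) (nat_lit 4) (nat_lit 19) (nat_lit 4) (nat_lit 504) (nat_lit 327) (nat_lit 309)))) (XT.nd (nat_lit 78) (nat_lit 152) (nat_lit 0) (XT.lf (nat_lit 0) (nat_lit 7351038385) (nat_lit 152) (nat_lit 7907061827) (nat_lit 152) (nat_lit 753301335) (nat_lit 17) (nat_lit 4) (nat_lit 19) (nat_lit 5) (nat_lit 19) (nat_lit 4) (nat_lit 505) (nat_lit 327) (nat_lit 308)) (XT.nd (nat_lit 78) (nat_lit 0) (nat_lit 0) (XT.lf (nat_lit 0) (nat_lit 1279555611) (nat_lit 76) (nat_lit 3047364741) (nat_lit 152) (nat_lit 11893677894) (nat_lit 15) (nat_lit 5) (nat_lit 16) (nat_lit 5) (nat_lit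 17) (nat_lit 4) (nat_lit 506) (nat_lit 327) (nat_lit 307)) (XT.lf (nat_lit 0) (nat_lit 9506035656) (nat_lit 152) (nat_lit 5031338114) (nat_lit 0) (nat_lit 1896363432) (nat_lit 15) (nat_lit 5) (nat_lit 17) (nat_lit 4) (nat_lit 15) (nat_lit 4) (nat_lit 507) (nat_lit 327) (nat_lit 306)))))) (XT.nd (nat_lit 57798) (nat_lit 0) (nat_lit 1748) (XT.nd (nat_lit 57564) (nat_lit 0) (nat_lit 2584) (XT.nd (nat_lit 57486) (nat_lit 0) (nat_lit 3268) (XT.lf (nat_lit 0) (nat_lit 5007925514) (nat_lit 152) (nat_lit 9771217551) (nat_lit 152) (nat_lit 1872192995) (nat_lit 13) (nat_lit 4) (nat_lit 15) (nat_lit 5) (nat_lit 15) (nat_lit 4) (nat_lit 508) (nat_lit 327) (nat_lit 305)) (XT.lf (nat_lit 0) (nat_lit 2613778575) (nat_lit 228) (nat_lit 1003054779) (nat_lit 0) (nat_lit 2613778575) (nat_lit 56) (nat_lit 5) (nat_lit 59) (nat_lit 4) (nat_lit 56) (nat_lit 4) (nat_lit 484) (nat_lit 328) (nat_lit 328))) (XT.nd (nat_lit 78) (nat_lit 456) (nat_lit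 0) (XT.lf (nat_lit 0) (nat_lit 7515465013) (nat_lit 228) (nat_lit 2803970701) (nat_lit 228) (nat_lit 2279849002) (nat_lit 53) (nat_lit 4) (nat_lit 56) (nat_lit 5) (nat_lit 56) (nat_lit 4) (nat_lit 485) (nat_lit 328) (nat_lit 327)) (XT.nd (nat_lit 78) (nat_lit 228) (nat_lit 0) (XT.lf (nat_lit 0) (nat_lit 2717559561) (nat_lit 228) (nat_lit 8322633388) (nat_lit 0) (nat_lit 1699945343) (nat_lit 50) (nat_lit 5) (nat_lit 53) (nat_lit 4) (nat_lit 50) (nat_lit 4) (nat_lit 486) (nat_lit 328) (nat_lit 326)) (XT.lf (nat_lit 0) (nat_lit 1149643229) (nat_lit 228) (nat_lit 6622808966) (nat_lit 228) (nat_lit 5111303165) (nat_lit 47) (nat_lit 4) (nat_lit 50) (nat_lit 5) (nat_lit 50) (nat_lit 4) (nat_lit 487) (nat_lit 328) (nat_lit 325))))) (XT.nd (nat_lit 234) (nat_lit 380) (nat_lit 0) (XT.nd (nat_lit 78) (nat_lit 456) (nat_lit 0) (XT.lf (nat_lit 0) (nat_lit 10798828194) (nat_lit 228) (nat_lit 2113728219) (nat_lit 228) (nat_lit 118014984)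 (nat_lit 47) (nat_lit 4) (nat_lit 50) (nat_lit 5) (nat_lit 50) (nat_lit 4) (nat_lit 488) (nat_lit 328) (nat_lit 324)) (XT.nd (nat_lit 78) (nat_lit 228) (nat_lit 0) (XT.lf (nat_lit 0) (nat_lit 4903467439) (nat_lit 228) (nat_lit 5794866497) (nat_lit 0) (nat_lit 2481480767) (nat_lit 44) (nat_lit 5) (nat_lit 47) (nat_lit 4) (nat_lit 44) (nat_lit 4) (nat_lit 489) (nat_lit 328) (nat_lit 323)) (XT.lf (nat_lit 0) (nat_lit 3803385855) (nat_lit 228) (nat_lit 6203625856) (nat_lit 228) (nat_lit 3325359704) (nat_lit 41) (nat_lit 4) (nat_lit 44) (nat_lit 5) (nat_lit 44) (nat_lit 4) (nat_lit 490) (nat_lit 328) (nat_lit 322)))) (XT.nd (nat_lit 78) (nat_lit 152) (nat_lit 0) (XT.lf (nat_lit 0) (nat_lit 49925309) (nat_lit 152) (nat_lit 1621126316) (nat_lit 228) (nat_lit 11817331285) (nat_lit 38) (nat_lit 5) (nat_lit 40) (nat_lit 5) (nat_lit 41) (nat_lit 4) (nat_lit 491) (nat_lit 328) (nat_lit 321)) (XT.nd (nat_lit 78) (nat_lit 152) (nat_lit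 0) (XT.lf (nat_lit 0) (nat_lit 6736883647) (nat_lit 228) (nat_lit 3863388748) (nat_lit 0) (nat_lit 3046530150) (nat_lit 38) (nat_lit 5) (nat_lit 41) (nat_lit 4) (nat_lit 38) (nat_lit 4) (nat_lit 492) (nat_lit 328) (nat_lit 320)) (XT.lf (nat_lit 0) (nat_lit 5847104580) (nat_lit 152) (nat_lit 6036790844) (nat_lit 152) (nat_lit 1924905636) (nat_lit 36) (nat_lit 4) (nat_lit 38) (nat_lit 5) (nat_lit 38) (nat_lit 4) (nat_lit 493) (nat_lit 328) (nat_lit 319))))))) (XT.nd (nat_lit 858) (nat_lit 456) (nat_lit 0) (XT.nd (nat_lit 390) (nat_lit 684) (nat_lit 0) (XT.nd (nat_lit 156) (nat_lit 380) (nat_lit 0) (XT.nd (nat_lit 78) (nat_lit 0) (nat_lit 0) (XT.lf (nat_lit 0) (nat_lit 1710254157) (nat_lit 152) (nat_lit 1376580371) (nat_lit 228) (nat_lit 10887432792) (nat_lit 33) (nat_lit 5) (nat_lit 35) (nat_lit 5) (nat_lit 36) (nat_lit 4) (nat_lit 494) (nat_lit 328) (nat_lit 318)) (XT.lf (nat_lit 0) (nat_lit 8180246344) (nat_lit 228)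 (nat_lit 2615800693) (nat_lit 0) (nat_lit 3346604471) (nat_lit 33) (nat_lit 5) (nat_lit 36) (nat_lit 4) (nat_lit 33) (nat_lit 4) (nat_lit 495) (nat_lit 328) (nat_lit 317))) (XT.nd (nat_lit 78) (nat_lit 228) (nat_lit 0) (XT.lf (nat_lit 0) (nat_lit 7190598097) (nat_lit 152) (nat_lit 6173555952) (nat_lit 152) (nat_lit 950483936) (nat_lit 31) (nat_lit 4) (nat_lit 33) (nat_lit 5) (nat_lit 33) (nat_lit 4) (nat_lit 496) (nat_lit 328) (nat_lit 316)) (XT.nd (nat_lit 78) (nat_lit 0) (nat_lit 0) (XT.lf (nat_lit 0) (nat_lit 2626098182) (nat_lit 152) (nat_lit 1448636696) (nat_lit 228) (nat_lit 10415442981) (nat_lit 28) (nat_lit 5) (nat_lit 30) (nat_lit 5) (nat_lit 31) (nat_lit 4) (nat_lit 497) (nat_lit 328) (nat_lit 315)) (XT.lf (nat_lit 0) (nat_lit 9190869586) (nat_lit 228) (nat_lit 2149243338) (nat_lit 0) (nat_lit 3328933930) (nat_lit 28) (nat_lit 5) (nat_lit 31) (nat_lit 4) (nat_lit 28) (nat_lit 4) (nat_lit 498) (nat_lit 328)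 (nat_lit 314))))) (XT.nd (nat_lit 234) (nat_lit 304) (nat_lit 0) (XT.nd (nat_lit 78) (nat_lit 228) (nat_lit 0) (XT.lf (nat_lit 0) (nat_lit 7733803150) (nat_lit 152) (nat_lit 6669760435) (nat_lit 152) (nat_lit 448051523) (nat_lit 26) (nat_lit 4) (nat_lit 28) (nat_lit 5) (nat_lit 28) (nat_lit 4) (nat_lit 499) (nat_lit 328) (nat_lit 313)) (XT.nd (nat_lit 78) (nat_lit 0) (nat_lit 0) (XT.lf (nat_lit 0) (nat_lit 2692893123) (nat_lit 152) (nat_lit 1894889506) (nat_lit 228) (nat_lit 10450119995) (nat_lit 23) (nat_lit 5) (nat_lit 25) (nat_lit 5) (nat_lit 26) (nat_lit 4) (nat_lit 500) (nat_lit 328) (nat_lit 312)) (XT.lf (nat_lit 0) (nat_lit 9720440184) (nat_lit 228) (nat_lit 2571480215) (nat_lit 0) (nat_lit 2935900368) (nat_lit 23) (nat_lit 5) (nat_lit 26) (nat_lit 4) (nat_lit 23) (nat_lit 4) (nat_lit 501) (nat_lit 328) (nat_lit 311)))) (XT.nd (nat_lit 78) (nat_lit 152) (nat_lit 0) (XT.lf (nat_lit 0) (nat_lit 7365677411) (nat_lit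 152) (nat_lit 7586426800) (nat_lit 152) (nat_lit 469512106) (nat_lit 21) (nat_lit 4) (nat_lit 23) (nat_lit 5) (nat_lit 23) (nat_lit 4) (nat_lit 502) (nat_lit 328) (nat_lit 310)) (XT.nd (nat_lit 78) (nat_lit 0) (nat_lit 0) (XT.lf (nat_lit 0) (nat_lit 1794611426) (nat_lit 76) (nat_lit 2778350871) (nat_lit 152) (nat_lit 11046423357) (nat_lit 19) (nat_lit 5) (nat_lit 20) (nat_lit 5) (nat_lit 21) (nat_lit 4) (nat_lit 503) (nat_lit 328) (nat_lit 309)) (XT.lf (nat_lit 0) (nat_lit 9714457591) (nat_lit 152) (nat_lit 4002089693) (nat_lit 0) (nat_lit 2104417619) (nat_lit 19) (nat_lit 5) (nat_lit 21) (nat_lit 4) (nat_lit 19) (nat_lit 4) (nat_lit 504) (nat_lit 328) (nat_lit 308)))))) (XT.nd (nat_lit 57642) (nat_lit 0) (nat_lit 2508) (XT.nd (nat_lit 156) (nat_lit 228) (nat_lit 0) (XT.nd (nat_lit 78) (nat_lit 76) (nat_lit 0) (XT.lf (nat_lit 0) (nat_lit 5962968363) (nat_lit 152) (nat_lit 8990412023) (nat_lit 152) (nat_lit 1073309042)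 (nat_lit 17) (nat_lit 4) (nat_lit 19) (nat_lit 5) (nat_lit 19) (nat_lit 4) (nat_lit 505) (nat_lit 328) (nat_lit 307)) (XT.lf (nat_lit 0) (nat_lit 3971889714) (nat_lit 228) (nat_lit 194927925) (nat_lit 76) (nat_lit 12069897127) (nat_lit 16) (nat_lit 5) (nat_lit 19) (nat_lit 5) (nat_lit 17) (nat_lit 4) (nat_lit 506) (nat_lit 328) (nat_lit 306))) (XT.nd (nat_lit 78) (nat_lit 152) (nat_lit 0) (XT.lf (nat_lit 0) (nat_lit 9111611121) (nat_lit 152) (nat_lit 6573779369) (nat_lit 0) (nat_lit 765253742) (nat_lit 15) (nat_lit 5) (nat_lit 17) (nat_lit 4) (nat_lit 15) (nat_lit 4) (nat_lit 507) (nat_lit 328) (nat_lit 305)) (XT.nd (nat_lit 57330) (nat_lit 0) (nat_lit 3496) (XT.lf (nat_lit 0) (nat_lit 3388855966) (nat_lit 152) (nat_lit 10955120343) (nat_lit 152) (nat_lit 2325084207) (nat_lit 13) (nat_lit 4) (nat_lit 15) (nat_lit 5) (nat_lit 15) (nat_lit 4) (nat_lit 508) (nat_lit 328) (nat_lit 304)) (XT.lf (nat_lit 0) (nat_lit 1917480979)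 (nat_lit 228) (nat_lit 2089422329) (nat_lit 228) (nat_lit 2089422329) (nat_lit 59) (nat_lit 4) (nat_lit 62) (nat_lit 5) (nat_lit 62) (nat_lit 4) (nat_lit 482) (nat_lit 329) (nat_lit 329))))) (XT.nd (nat_lit 234) (nat_lit 532) (nat_lit 0) (XT.nd (nat_lit 78) (nat_lit 228) (nat_lit 0) (XT.lf (nat_lit 0) (nat_lit 746653167) (nat_lit 228) (nat_lit 11367646730) (nat_lit 0) (nat_lit 212049034) (nat_lit 56) (nat_lit 5) (nat_lit 59) (nat_lit 4) (nat_lit 56) (nat_lit 4) (nat_lit 483) (nat_lit 329) (nat_lit 328)) (XT.nd (nat_lit 78) (nat_lit 228) (nat_lit 0) (XT.lf (nat_lit 0) (nat_lit 5726153809) (nat_lit 228) (nat_lit 2068366993) (nat_lit 0) (nat_lit 4667427977) (nat_lit 56) (nat_lit 5) (nat_lit 59) (nat_lit 4) (nat_lit 56) (nat_lit 4) (nat_lit 484) (nat_lit 329) (nat_lit 327)) (XT.lf (nat_lit 0) (nat_lit 7390532363) (nat_lit 228) (nat_lit 3391387418) (nat_lit 228) (nat_lit 1818816783) (nat_lit 53) (nat_lit 4) (nat_lit 56) (nat_lit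 5) (nat_lit 56) (nat_lit 4) (nat_lit 485) (nat_lit 329) (nat_lit 326)))) (XT.nd (nat_lit 78) (nat_lit 304) (nat_lit 0) (XT.lf (nat_lit 0) (nat_lit 3132082456) (nat_lit 228) (nat_lit 8513806610) (nat_lit 0) (nat_lit 1096454957) (nat_lit 50) (nat_lit 5) (nat_lit 53) (nat_lit 4) (nat_lit 50) (nat_lit 4) (nat_lit 486) (nat_lit 329) (nat_lit 325)) (XT.nd (nat_lit 78) (nat_lit 76) (nat_lit 0) (XT.lf (nat_lit 0) (nat_lit 893873637) (nat_lit 228) (nat_lit 7256331101) (nat_lit 228) (nat_lit 4736496167) (nat_lit 47) (nat_lit 4) (nat_lit 50) (nat_lit 5) (nat_lit 50) (nat_lit 4) (nat_lit 487) (nat_lit 329) (nat_lit 324)) (XT.lf (nat_lit 0) (nat_lit 218372997) (nat_lit 304) (nat_lit 2553434648) (nat_lit 76) (nat_lit 10262381208) (nat_lit 46) (nat_lit 5) (nat_lit 50) (nat_lit 5) (nat_lit 47) (nat_lit 4) (nat_lit 488) (nat_lit 329) (nat_lit 323))))))))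
noncomputable def xc4 : XT := (XT.nd (nat_lit 58734) (nat_lit 0) (nat_lit 608) (XT.nd (nat_lit 780) (nat_lit 1140) (nat_lit 0) (XT.nd (nat_lit 390) (nat_lit 608) (nat_lit 0) (XT.nd (nat_lit 156) (nat_lit 380) (nat_lit 0) (XT.nd (nat_lit 78) (nat_lit 228) (nat_lit 0) (XT.lf (nat_lit 0) (nat_lit 5196975473) (nat_lit 228) (nat_lit 6182407640) (nat_lit 0) (nat_lit 1804864518) (nat_lit 44) (nat_lit 5) (nat_lit 47) (nat_lit 4) (nat_lit 44) (nat_lit 4) (nat_lit 489) (nat_lit 329) (nat_lit 322)) (XT.lf (nat_lit 0) (nat_lit 3349663399) (nat_lit 228) (nat_lit 6913666297) (nat_lit 228) (nat_lit 3074222519) (nat_lit 41) (nat_lit 4) (nat_lit 44) (nat_lit 5) (nat_lit 44) (nat_lit 4) (nat_lit 490) (nat_lit 329) (nat_lit 321))) (XT.nd (nat_lit 78) (nat_lit 304) (nat_lit 0) (XT.lf (nat_lit 0) (nat_lit 1884380894) (nat_lit 304) (nat_lit 471555963) (nat_lit 76) (nat_lit 11138288440) (nat_lit 40) (nat_lit 5) (nat_lit 44) (nat_lit 5) (nat_lit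 41) (nat_lit 4) (nat_lit 491) (nat_lit 329) (nat_lit 320)) (XT.nd (nat_lit 78) (nat_lit 152) (nat_lit 0) (XT.lf (nat_lit 0) (nat_lit 6908241873) (nat_lit 228) (nat_lit 4452659065) (nat_lit 0) (nat_lit 2292587251) (nat_lit 38) (nat_lit 5) (nat_lit 41) (nat_lit 4) (nat_lit 38) (nat_lit 4) (nat_lit 492) (nat_lit 329) (nat_lit 319)) (XT.lf (nat_lit 0) (nat_lit 5189991295) (nat_lit 152) (nat_lit 6827586842) (nat_lit 152) (nat_lit 1798665837) (nat_lit 36) (nat_lit 4) (nat_lit 38) (nat_lit 5) (nat_lit 38) (nat_lit 4) (nat_lit 493) (nat_lit 329) (nat_lit 318))))) (XT.nd (nat_lit 156) (nat_lit 380) (nat_lit 0) (XT.nd (nat_lit 78) (nat_lit 0) (nat_lit 0) (XT.lf (nat_lit 0) (nat_lit 975965892) (nat_lit 152) (nat_lit 2197326195) (nat_lit 228) (nat_lit 10809167901) (nat_lit 33) (nat_lit 5) (nat_lit 35) (nat_lit 5) (nat_lit 36) (nat_lit 4) (nat_lit 494) (nat_lit 329) (nat_lit 317)) (XT.lf (nat_lit 0) (nat_lit 8228120173) (nat_lit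 228) (nat_lit 3412342647) (nat_lit 0) (nat_lit 2511156574) (nat_lit 33) (nat_lit 5) (nat_lit 36) (nat_lit 4) (nat_lit 33) (nat_lit 4) (nat_lit 495) (nat_lit 329) (nat_lit 316))) (XT.nd (nat_lit 78) (nat_lit 228) (nat_lit 0) (XT.lf (nat_lit 0) (nat_lit 6324471395) (nat_lit 152) (nat_lit 7049330167) (nat_lit 152) (nat_lit 950572310) (nat_lit 31) (nat_lit 4) (nat_lit 33) (nat_lit 5) (nat_lit 33) (nat_lit 4) (nat_lit 496) (nat_lit 329) (nat_lit 315)) (XT.nd (nat_lit 78) (nat_lit 0) (nat_lit 0) (XT.lf (nat_lit 0) (nat_lit 1679543655) (nat_lit 152) (nat_lit 2356401694) (nat_lit 228) (nat_lit 10464745795) (nat_lit 28) (nat_lit 5) (nat_lit 30) (nat_lit 5) (nat_lit 31) (nat_lit 4) (nat_lit 497) (nat_lit 329) (nat_lit 314)) (XT.lf (nat_lit 0) (nat_lit 9113725848) (nat_lit 228) (nat_lit 3158795147) (nat_lit 0) (nat_lit 2407809501) (nat_lit 28) (nat_lit 5) (nat_lit 31) (nat_lit 4) (nat_lit 28) (nat_lit 4) (nat_lit 498) (nat_lit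 329) (nat_lit 313)))))) (XT.nd (nat_lit 390) (nat_lit 456) (nat_lit 0) (XT.nd (nat_lit 156) (nat_lit 304) (nat_lit 0) (XT.nd (nat_lit 78) (nat_lit 228) (nat_lit 0) (XT.lf (nat_lit 0) (nat_lit 6652841183) (nat_lit 152) (nat_lit 7634736424) (nat_lit 152) (nat_lit 576101199) (nat_lit 26) (nat_lit 4) (nat_lit 28) (nat_lit 5) (nat_lit 28) (nat_lit 4) (nat_lit 499) (nat_lit 329) (nat_lit 312)) (XT.lf (nat_lit 0) (nat_lit 1528140853) (nat_lit 152) (nat_lit 2893927909) (nat_lit 228) (nat_lit 10628704145) (nat_lit 23) (nat_lit 5) (nat_lit 25) (nat_lit 5) (nat_lit 26) (nat_lit 4) (nat_lit 500) (nat_lit 329) (nat_lit 311))) (XT.nd (nat_lit 78) (nat_lit 304) (nat_lit 0) (XT.lf (nat_lit 0) (nat_lit 9516547580) (nat_lit 228) (nat_lit 3799990354) (nat_lit 0) (nat_lit 1924919716) (nat_lit 23) (nat_lit 5) (nat_lit 26) (nat_lit 4) (nat_lit 23) (nat_lit 4) (nat_lit 501) (nat_lit 329) (nat_lit 310)) (XT.nd (nat_lit 78) (nat_lit 152) (nat_lit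 0) (XT.lf (nat_lit 0) (nat_lit 6063844473) (nat_lit 152) (nat_lit 8644843871) (nat_lit 152) (nat_lit 727358285) (nat_lit 21) (nat_lit 4) (nat_lit 23) (nat_lit 5) (nat_lit 23) (nat_lit 4) (nat_lit 502) (nat_lit 329) (nat_lit 309)) (XT.lf (nat_lit 0) (nat_lit 405509758) (nat_lit 76) (nat_lit 3872937618) (nat_lit 152) (nat_lit 11356205932) (nat_lit 19) (nat_lit 5) (nat_lit 20) (nat_lit 5) (nat_lit 21) (nat_lit 4) (nat_lit 503) (nat_lit 329) (nat_lit 308))))) (XT.nd (nat_lit 234) (nat_lit 228) (nat_lit 0) (XT.nd (nat_lit 78) (nat_lit 228) (nat_lit 0) (XT.lf (nat_lit 0) (nat_lit 9381886567) (nat_lit 152) (nat_lit 5455731389) (nat_lit 0) (nat_lit 999378516) (nat_lit 19) (nat_lit 5) (nat_lit 21) (nat_lit 4) (nat_lit 19) (nat_lit 4) (nat_lit 504) (nat_lit 329) (nat_lit 307)) (XT.nd (nat_lit 78) (nat_lit 76) (nat_lit 0) (XT.lf (nat_lit 0) (nat_lit 4434000293) (nat_lit 152) (nat_lit 10146539527) (nat_lit 152) (nat_lit 1462989309)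 (nat_lit 17) (nat_lit 4) (nat_lit 19) (nat_lit 5) (nat_lit 19) (nat_lit 4) (nat_lit 505) (nat_lit 329) (nat_lit 306)) (XT.lf (nat_lit 0) (nat_lit 3557014127) (nat_lit 228) (nat_lit 1793521059) (nat_lit 76) (nat_lit 10903678636) (nat_lit 16) (nat_lit 5) (nat_lit 19) (nat_lit 5) (nat_lit 17) (nat_lit 4) (nat_lit 506) (nat_lit 329) (nat_lit 305)))) (XT.nd (nat_lit 78) (nat_lit 152) (nat_lit 0) (XT.lf (nat_lit 0) (nat_lit 8207211016) (nat_lit 76) (nat_lit 443904303) (nat_lit 152) (nat_lit 7817942956) (nat_lit 15) (nat_lit 5) (nat_lit 16) (nat_lit 5) (nat_lit 17) (nat_lit 4) (nat_lit 507) (nat_lit 329) (nat_lit 304)) (XT.nd (nat_lit 57174) (nat_lit 0) (nat_lit 4028) (XT.lf (nat_lit 0) (nat_lit 1626245493) (nat_lit 152) (nat_lit 12213271456) (nat_lit 152) (nat_lit 2848839411) (nat_lit 13) (nat_lit 4) (nat_lit 15) (nat_lit 5) (nat_lit 15) (nat_lit 4) (nat_lit 508) (nat_lit 329) (nat_lit 303)) (XT.lf (nat_lit 0) (nat_lit 4637493365)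 (nat_lit 228) (nat_lit 664634122) (nat_lit 228) (nat_lit 664634122) (nat_lit 66) (nat_lit 4) (nat_lit 69) (nat_lit 5) (nat_lit 69) (nat_lit 4) (nat_lit 480) (nat_lit 330) (nat_lit 330))))))) (XT.nd (nat_lit 858) (nat_lit 1444) (nat_lit 0) (XT.nd (nat_lit 390) (nat_lit 988) (nat_lit 0) (XT.nd (nat_lit 156) (nat_lit 456) (nat_lit 0) (XT.nd (nat_lit 78) (nat_lit 228) (nat_lit 0) (XT.lf (nat_lit 0) (nat_lit 3572520726) (nat_lit 304) (nat_lit 5473202704) (nat_lit 0) (nat_lit 3016318586) (nat_lit 62) (nat_lit 5) (nat_lit 66) (nat_lit 4) (nat_lit 62) (nat_lit 4) (nat_lit 481) (nat_lit 330) (nat_lit 329)) (XT.lf (nat_lit 0) (nat_lit 3773334771) (nat_lit 228) (nat_lit 4760768962) (nat_lit 228) (nat_lit 3659270606) (nat_lit 59) (nat_lit 4) (nat_lit 62) (nat_lit 5) (nat_lit 62) (nat_lit 4) (nat_lit 482) (nat_lit 330) (nat_lit 328))) (XT.nd (nat_lit 78) (nat_lit 228) (nat_lit 0) (XT.lf (nat_lit 0) (nat_lit 831824258) (nat_lit 152)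 (nat_lit 389921655) (nat_lit 228) (nat_lit 11106016722) (nat_lit 56) (nat_lit 5) (nat_lit 58) (nat_lit 5) (nat_lit 59) (nat_lit 4) (nat_lit 483) (nat_lit 330) (nat_lit 327)) (XT.nd (nat_lit 78) (nat_lit 228) (nat_lit 0) (XT.lf (nat_lit 0) (nat_lit 6163413480) (nat_lit 228) (nat_lit 2255163712) (nat_lit 0) (nat_lit 4045546629) (nat_lit 56) (nat_lit 5) (nat_lit 59) (nat_lit 4) (nat_lit 56) (nat_lit 4) (nat_lit 484) (nat_lit 330) (nat_lit 326)) (XT.lf (nat_lit 0) (nat_lit 7140618070) (nat_lit 228) (nat_lit 4042329511) (nat_lit 228) (nat_lit 1420693246) (nat_lit 53) (nat_lit 4) (nat_lit 56) (nat_lit 5) (nat_lit 56) (nat_lit 4) (nat_lit 485) (nat_lit 330) (nat_lit 325))))) (XT.nd (nat_lit 234) (nat_lit 456) (nat_lit 0) (XT.nd (nat_lit 78) (nat_lit 304) (nat_lit 0) (XT.lf (nat_lit 0) (nat_lit 3483974162) (nat_lit 228) (nat_lit 8832511946) (nat_lit 0) (nat_lit 429535095) (nat_lit 50) (nat_lit 5) (nat_lit 53) (nat_lit 4) (nat_lit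 50) (nat_lit 4) (nat_lit 486) (nat_lit 330) (nat_lit 324)) (XT.nd (nat_lit 78) (nat_lit 76) (nat_lit 0) (XT.lf (nat_lit 0) (nat_lit 510093877) (nat_lit 228) (nat_lit 7955089513) (nat_lit 228) (nat_lit 4425937275) (nat_lit 47) (nat_lit 4) (nat_lit 50) (nat_lit 5) (nat_lit 50) (nat_lit 4) (nat_lit 487) (nat_lit 330) (nat_lit 323)) (XT.lf (nat_lit 0) (nat_lit 490494988) (nat_lit 304) (nat_lit 3003757431) (nat_lit 76) (nat_lit 9545007299) (nat_lit 46) (nat_lit 5) (nat_lit 50) (nat_lit 5) (nat_lit 47) (nat_lit 4) (nat_lit 488) (nat_lit 330) (nat_lit 322)))) (XT.nd (nat_lit 78) (nat_lit 304) (nat_lit 0) (XT.lf (nat_lit 0) (nat_lit 5427180421) (nat_lit 228) (nat_lit 6699365542) (nat_lit 0) (nat_lit 1063614944) (nat_lit 44) (nat_lit 5) (nat_lit 47) (nat_lit 4) (nat_lit 44) (nat_lit 4) (nat_lit 489) (nat_lit 330) (nat_lit 321)) (XT.nd (nat_lit 78) (nat_lit 76) (nat_lit 0) (XT.lf (nat_lit 0) (nat_lit 2766000992) (nat_lit 228)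 (nat_lit 7690171402) (nat_lit 228) (nat_lit 2888044333) (nat_lit 41) (nat_lit 4) (nat_lit 44) (nat_lit 5) (nat_lit 44) (nat_lit 4) (nat_lit 490) (nat_lit 330) (nat_lit 320)) (XT.lf (nat_lit 0) (nat_lit 2034597654) (nat_lit 304) (nat_lit 1122202151) (nat_lit 76) (nat_lit 10344740056) (nat_lit 40) (nat_lit 5) (nat_lit 44) (nat_lit 5) (nat_lit 41) (nat_lit 4) (nat_lit 491) (nat_lit 330) (nat_lit 319)))))) (XT.nd (nat_lit 390) (nat_lit 760) (nat_lit 0) (XT.nd (nat_lit 156) (nat_lit 380) (nat_lit 0) (XT.nd (nat_lit 78) (nat_lit 152) (nat_lit 0) (XT.lf (nat_lit 0) (nat_lit 7015540888) (nat_lit 228) (nat_lit 5173348902) (nat_lit 0) (nat_lit 1472775080) (nat_lit 38) (nat_lit 5) (nat_lit 41) (nat_lit 4) (nat_lit 38) (nat_lit 4) (nat_lit 492) (nat_lit 330) (nat_lit 318)) (XT.lf (nat_lit 0) (nat_lit 4400888699) (nat_lit 152) (nat_lit 7686111060) (nat_lit 152) (nat_lit 1738182131) (nat_lit 36) (nat_lit 4) (nat_lit 38) (nat_lit 5)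 (nat_lit 38) (nat_lit 4) (nat_lit 493) (nat_lit 330) (nat_lit 317))) (XT.nd (nat_lit 78) (nat_lit 152) (nat_lit 0) (XT.lf (nat_lit 0) (nat_lit 108029825) (nat_lit 152) (nat_lit 3086612500) (nat_lit 228) (nat_lit 10797518072) (nat_lit 33) (nat_lit 5) (nat_lit 35) (nat_lit 5) (nat_lit 36) (nat_lit 4) (nat_lit 494) (nat_lit 330) (nat_lit 316)) (XT.nd (nat_lit 78) (nat_lit 152) (nat_lit 0) (XT.lf (nat_lit 0) (nat_lit 8211093728) (nat_lit 228) (nat_lit 4342430626) (nat_lit 0) (nat_lit 1608566457) (nat_lit 33) (nat_lit 5) (nat_lit 36) (nat_lit 4) (nat_lit 33) (nat_lit 4) (nat_lit 495) (nat_lit 330) (nat_lit 315)) (XT.lf (nat_lit 0) (nat_lit 5324180757) (nat_lit 152) (nat_lit 7994136234) (nat_lit 152) (nat_lit 1017300867) (nat_lit 31) (nat_lit 4) (nat_lit 33) (nat_lit 5) (nat_lit 33) (nat_lit 4) (nat_lit 496) (nat_lit 330) (nat_lit 314))))) (XT.nd (nat_lit 234) (nat_lit 380) (nat_lit 0) (XT.nd (nat_lit 78) (nat_lit 152) (nat_lit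 0) (XT.lf (nat_lit 0) (nat_lit 597110402) (nat_lit 152) (nat_lit 3334035384) (nat_lit 228) (nat_lit 10581580206) (nat_lit 28) (nat_lit 5) (nat_lit 30) (nat_lit 5) (nat_lit 31) (nat_lit 4) (nat_lit 497) (nat_lit 330) (nat_lit 313)) (XT.nd (nat_lit 78) (nat_lit 152) (nat_lit 0) (XT.lf (nat_lit 0) (nat_lit 8970754920) (nat_lit 228) (nat_lit 4304148950) (nat_lit 0) (nat_lit 1418228112) (nat_lit 28) (nat_lit 5) (nat_lit 31) (nat_lit 4) (nat_lit 28) (nat_lit 4) (nat_lit 498) (nat_lit 330) (nat_lit 312)) (XT.lf (nat_lit 0) (nat_lit 5435409618) (nat_lit 152) (nat_lit 8670092768) (nat_lit 152) (nat_lit 771763139) (nat_lit 26) (nat_lit 4) (nat_lit 28) (nat_lit 5) (nat_lit 28) (nat_lit 4) (nat_lit 499) (nat_lit 330) (nat_lit 311)))) (XT.nd (nat_lit 78) (nat_lit 152) (nat_lit 0) (XT.lf (nat_lit 0) (nat_lit 225145034) (nat_lit 152) (nat_lit 3964209934) (nat_lit 228) (nat_lit 10875825448) (nat_lit 23) (nat_lit 5) (nat_lit 25) (nat_lit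 5) (nat_lit 26) (nat_lit 4) (nat_lit 500) (nat_lit 330) (nat_lit 310)) (XT.nd (nat_lit 78) (nat_lit 152) (nat_lit 0) (XT.lf (nat_lit 0) (nat_lit 9245813908) (nat_lit 228) (nat_lit 5166693728) (nat_lit 0) (nat_lit 844120887) (nat_lit 23) (nat_lit 5) (nat_lit 26) (nat_lit 4) (nat_lit 23) (nat_lit 4) (nat_lit 501) (nat_lit 330) (nat_lit 309)) (XT.lf (nat_lit 0) (nat_lit 4623099365) (nat_lit 152) (nat_lit 9775039370) (nat_lit 152) (nat_lit 1053877994) (nat_lit 21) (nat_lit 4) (nat_lit 23) (nat_lit 5) (nat_lit 23) (nat_lit 4) (nat_lit 502) (nat_lit 330) (nat_lit 308))))))))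
noncomputable def xc5 : XT := (XT.nd (nat_lit 58656) (nat_lit 0) (nat_lit 0) (XT.nd (nat_lit 57798) (nat_lit 0) (nat_lit 1596) (XT.nd (nat_lit 390) (nat_lit 0) (nat_lit 0) (XT.nd (nat_lit 156) (nat_lit 304) (nat_lit 0) (XT.nd (nat_lit 78) (nat_lit 76) (nat_lit 0) (XT.lf (nat_lit 0) (nat_lit 3923154180) (nat_lit 228) (nat_lit 1109594201) (nat_lit 76) (nat_lit 10618581337) (nat_lit 20) (nat_lit 5) (nat_lit 23) (nat_lit 5) (nat_lit 21) (nat_lit 4) (nat_lit 503) (nat_lit 330) (nat_lit 307)) (XT.lf (nat_lit 0) (nat_lit 8803294253) (nat_lit 76) (nat_lit 179241840) (nat_lit 152) (nat_lit 6872020676) (nat_lit 19) (nat_lit 5) (nat_lit 20) (nat_lit 5) (nat_lit 21) (nat_lit 4) (nat_lit 504) (nat_lit 330) (nat_lit 306))) (XT.nd (nat_lit 78) (nat_lit 152) (nat_lit 0) (XT.lf (nat_lit 0) (nat_lit 2763534578) (nat_lit 152) (nat_lit 11375897721) (nat_lit 152) (nat_lit 1922494953) (nat_lit 17) (nat_lit 4) (nat_lit 19) (nat_lit 5) (nat_lit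 19) (nat_lit 4) (nat_lit 505) (nat_lit 330) (nat_lit 305)) (XT.nd (nat_lit 78) (nat_lit 76) (nat_lit 0) (XT.lf (nat_lit 0) (nat_lit 3073823172) (nat_lit 228) (nat_lit 3533632291) (nat_lit 76) (nat_lit 9665812968) (nat_lit 16) (nat_lit 5) (nat_lit 19) (nat_lit 5) (nat_lit 17) (nat_lit 4) (nat_lit 506) (nat_lit 330) (nat_lit 304)) (XT.lf (nat_lit 0) (nat_lit 6390100594) (nat_lit 76) (nat_lit 1736896658) (nat_lit 152) (nat_lit 8361936704) (nat_lit 15) (nat_lit 5) (nat_lit 16) (nat_lit 5) (nat_lit 17) (nat_lit 4) (nat_lit 507) (nat_lit 330) (nat_lit 303))))) (XT.nd (nat_lit 57174) (nat_lit 0) (nat_lit 3344) (XT.nd (nat_lit 57018) (nat_lit 0) (nat_lit 3876) (XT.lf (nat_lit 0) (nat_lit 13267388981) (nat_lit 152) (nat_lit 276917040) (nat_lit 0) (nat_lit 3164888701) (nat_lit 15) (nat_lit 5) (nat_lit 17) (nat_lit 4) (nat_lit 15) (nat_lit 4) (nat_lit 508) (nat_lit 330) (nat_lit 302)) (XT.nd (nat_lit 78) (nat_lit 228) (nat_lit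 0) (XT.lf (nat_lit 0) (nat_lit 664652922) (nat_lit 304) (nat_lit 4512187406) (nat_lit 0) (nat_lit 664652922) (nat_lit 69) (nat_lit 5) (nat_lit 73) (nat_lit 4) (nat_lit 69) (nat_lit 4) (nat_lit 478) (nat_lit 331) (nat_lit 331)) (XT.lf (nat_lit 0) (nat_lit 4549340) (nat_lit 228) (nat_lit 6190688655) (nat_lit 228) (nat_lit 5612015949) (nat_lit 66) (nat_lit 4) (nat_lit 69) (nat_lit 5) (nat_lit 69) (nat_lit 4) (nat_lit 479) (nat_lit 331) (nat_lit 330)))) (XT.nd (nat_lit 78) (nat_lit 532) (nat_lit 0) (XT.lf (nat_lit 0) (nat_lit 9214797492) (nat_lit 228) (nat_lit 1932719001) (nat_lit 228) (nat_lit 786720112) (nat_lit 66) (nat_lit 4) (nat_lit 69) (nat_lit 5) (nat_lit 69) (nat_lit 4) (nat_lit 480) (nat_lit 331) (nat_lit 329)) (XT.nd (nat_lit 78) (nat_lit 228) (nat_lit 0) (XT.lf (nat_lit 0) (nat_lit 4068127010) (nat_lit 304) (nat_lit 5596056955) (nat_lit 0) (nat_lit 2399302472) (nat_lit 62) (nat_lit 5) (nat_lit 66) (nat_lit 4)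 (nat_lit 62) (nat_lit 4) (nat_lit 481) (nat_lit 331) (nat_lit 328)) (XT.lf (nat_lit 0) (nat_lit 3588429041) (nat_lit 228) (nat_lit 5405271721) (nat_lit 228) (nat_lit 3201843049) (nat_lit 59) (nat_lit 4) (nat_lit 62) (nat_lit 5) (nat_lit 62) (nat_lit 4) (nat_lit 482) (nat_lit 331) (nat_lit 327)))))) (XT.nd (nat_lit 390) (nat_lit 1064) (nat_lit 0) (XT.nd (nat_lit 156) (nat_lit 456) (nat_lit 0) (XT.nd (nat_lit 78) (nat_lit 0) (nat_lit 0) (XT.lf (nat_lit 0) (nat_lit 578759609) (nat_lit 152) (nat_lit 1058027509) (nat_lit 228) (nat_lit 10693818010) (nat_lit 56) (nat_lit 5) (nat_lit 58) (nat_lit 5) (nat_lit 59) (nat_lit 4) (nat_lit 483) (nat_lit 331) (nat_lit 326)) (XT.lf (nat_lit 0) (nat_lit 6539507637) (nat_lit 228) (nat_lit 2566572969) (nat_lit 0) (nat_lit 3361669232) (nat_lit 56) (nat_lit 5) (nat_lit 59) (nat_lit 4) (nat_lit 56) (nat_lit 4) (nat_lit 484) (nat_lit 331) (nat_lit 325))) (XT.nd (nat_lit 78) (nat_lit 228) (nat_lit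 0) (XT.lf (nat_lit 0) (nat_lit 6765624129) (nat_lit 228) (nat_lit 4757052253) (nat_lit 228) (nat_lit 1085322265) (nat_lit 53) (nat_lit 4) (nat_lit 56) (nat_lit 5) (nat_lit 56) (nat_lit 4) (nat_lit 485) (nat_lit 331) (nat_lit 324)) (XT.nd (nat_lit 78) (nat_lit 0) (nat_lit 0) (XT.lf (nat_lit 0) (nat_lit 3470276519) (nat_lit 152) (nat_lit 305076917) (nat_lit 228) (nat_lit 8975778223) (nat_lit 50) (nat_lit 5) (nat_lit 52) (nat_lit 5) (nat_lit 53) (nat_lit 4) (nat_lit 486) (nat_lit 331) (nat_lit 323)) (XT.lf (nat_lit 0) (nat_lit 8717523662) (nat_lit 228) (nat_lit 1822334) (nat_lit 0) (nat_lit 4177670140) (nat_lit 50) (nat_lit 5) (nat_lit 53) (nat_lit 4) (nat_lit 50) (nat_lit 4) (nat_lit 487) (nat_lit 331) (nat_lit 322))))) (XT.nd (nat_lit 234) (nat_lit 380) (nat_lit 0) (XT.nd (nat_lit 78) (nat_lit 380) (nat_lit 0) (XT.lf (nat_lit 0) (nat_lit 700005488) (nat_lit 304) (nat_lit 3582121915) (nat_lit 76) (nat_lit 8763673897) (nat_lit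 46) (nat_lit 5) (nat_lit 50) (nat_lit 5) (nat_lit 47) (nat_lit 4) (nat_lit 488) (nat_lit 331) (nat_lit 321)) (XT.nd (nat_lit 78) (nat_lit 228) (nat_lit 0) (XT.lf (nat_lit 0) (nat_lit 5594172559) (nat_lit 228) (nat_lit 7345942931) (nat_lit 0) (nat_lit 257441358) (nat_lit 44) (nat_lit 5) (nat_lit 47) (nat_lit 4) (nat_lit 44) (nat_lit 4) (nat_lit 489) (nat_lit 331) (nat_lit 320)) (XT.lf (nat_lit 0) (nat_lit 2052169747) (nat_lit 228) (nat_lit 8533445681) (nat_lit 228) (nat_lit 2766752134) (nat_lit 41) (nat_lit 4) (nat_lit 44) (nat_lit 5) (nat_lit 44) (nat_lit 4) (nat_lit 490) (nat_lit 331) (nat_lit 319)))) (XT.nd (nat_lit 78) (nat_lit 304) (nat_lit 0) (XT.lf (nat_lit 0) (nat_lit 2121436666) (nat_lit 304) (nat_lit 1902923191) (nat_lit 76) (nat_lit 9485976099) (nat_lit 40) (nat_lit 5) (nat_lit 44) (nat_lit 5) (nat_lit 41) (nat_lit 4) (nat_lit 491) (nat_lit 331) (nat_lit 318)) (XT.nd (nat_lit 78) (nat_lit 152) (nat_lit 0) (XT.lf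 (nat_lit 0) (nat_lit 7058822770) (nat_lit 228) (nat_lit 6025740881) (nat_lit 0) (nat_lit 586772143) (nat_lit 38) (nat_lit 5) (nat_lit 41) (nat_lit 4) (nat_lit 38) (nat_lit 4) (nat_lit 492) (nat_lit 331) (nat_lit 317)) (XT.lf (nat_lit 0) (nat_lit 3479487338) (nat_lit 152) (nat_lit 8612700173) (nat_lit 152) (nat_lit 1743430800) (nat_lit 36) (nat_lit 4) (nat_lit 38) (nat_lit 5) (nat_lit 38) (nat_lit 4) (nat_lit 493) (nat_lit 331) (nat_lit 316))))))) (XT.nd (nat_lit 858) (nat_lit 304) (nat_lit 0) (XT.nd (nat_lit 390) (nat_lit 684) (nat_lit 0) (XT.nd (nat_lit 156) (nat_lit 380) (nat_lit 0) (XT.nd (nat_lit 78) (nat_lit 152) (nat_lit 0) (XT.lf (nat_lit 0) (nat_lit 3156697372) (nat_lit 228) (nat_lit 882170823) (nat_lit 76) (nat_lit 9964388083) (nat_lit 35) (nat_lit 5) (nat_lit 38) (nat_lit 5) (nat_lit 36) (nat_lit 4) (nat_lit 494) (nat_lit 331) (nat_lit 315)) (XT.lf (nat_lit 0) (nat_lit 8129160332) (nat_lit 228) (nat_lit 5406429372)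 (nat_lit 0) (nat_lit 638480163) (nat_lit 33) (nat_lit 5) (nat_lit 36) (nat_lit 4) (nat_lit 33) (nat_lit 4) (nat_lit 495) (nat_lit 331) (nat_lit 314))) (XT.nd (nat_lit 78) (nat_lit 228) (nat_lit 0) (XT.lf (nat_lit 0) (nat_lit 4189333912) (nat_lit 152) (nat_lit 9008344666) (nat_lit 152) (nat_lit 1150695776) (nat_lit 31) (nat_lit 4) (nat_lit 33) (nat_lit 5) (nat_lit 33) (nat_lit 4) (nat_lit 496) (nat_lit 331) (nat_lit 313)) (XT.nd (nat_lit 78) (nat_lit 152) (nat_lit 0) (XT.lf (nat_lit 0) (nat_lit 3764331101) (nat_lit 228) (nat_lit 613473322) (nat_lit 76) (nat_lit 10148401983) (nat_lit 30) (nat_lit 5) (nat_lit 33) (nat_lit 5) (nat_lit 31) (nat_lit 4) (nat_lit 497) (nat_lit 331) (nat_lit 312)) (XT.lf (nat_lit 0) (nat_lit 8761900736) (nat_lit 228) (nat_lit 5585753904) (nat_lit 0) (nat_lit 359801692) (nat_lit 28) (nat_lit 5) (nat_lit 31) (nat_lit 4) (nat_lit 28) (nat_lit 4) (nat_lit 498) (nat_lit 331) (nat_lit 311))))) (XT.nd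 (nat_lit 234) (nat_lit 304) (nat_lit 0) (XT.nd (nat_lit 78) (nat_lit 228) (nat_lit 0) (XT.lf (nat_lit 0) (nat_lit 4081031031) (nat_lit 152) (nat_lit 9776235491) (nat_lit 152) (nat_lit 1035114072) (nat_lit 26) (nat_lit 4) (nat_lit 28) (nat_lit 5) (nat_lit 28) (nat_lit 4) (nat_lit 499) (nat_lit 331) (nat_lit 310)) (XT.nd (nat_lit 78) (nat_lit 152) (nat_lit 0) (XT.lf (nat_lit 0) (nat_lit 3897449002) (nat_lit 228) (nat_lit 1200649311) (nat_lit 76) (nat_lit 9982874514) (nat_lit 25) (nat_lit 5) (nat_lit 28) (nat_lit 5) (nat_lit 26) (nat_lit 4) (nat_lit 500) (nat_lit 331) (nat_lit 309)) (XT.lf (nat_lit 0) (nat_lit 8599153447) (nat_lit 152) (nat_lit 310998763) (nat_lit 228) (nat_lit 6363146744) (nat_lit 23) (nat_lit 5) (nat_lit 25) (nat_lit 5) (nat_lit 26) (nat_lit 4) (nat_lit 501) (nat_lit 331) (nat_lit 308)))) (XT.nd (nat_lit 78) (nat_lit 152) (nat_lit 0) (XT.lf (nat_lit 0) (nat_lit 3042877089) (nat_lit 152) (nat_lit 10977456510)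 (nat_lit 152) (nat_lit 1449199281) (nat_lit 21) (nat_lit 4) (nat_lit 23) (nat_lit 5) (nat_lit 23) (nat_lit 4) (nat_lit 502) (nat_lit 331) (nat_lit 307)) (XT.nd (nat_lit 78) (nat_lit 76) (nat_lit 0) (XT.lf (nat_lit 0) (nat_lit 3503191120) (nat_lit 228) (nat_lit 2758874175) (nat_lit 76) (nat_lit 9407431176) (nat_lit 20) (nat_lit 5) (nat_lit 23) (nat_lit 5) (nat_lit 21) (nat_lit 4) (nat_lit 503) (nat_lit 331) (nat_lit 306)) (XT.lf (nat_lit 0) (nat_lit 7078343955) (nat_lit 76) (nat_lit 1443787906) (nat_lit 152) (nat_lit 7351403169) (nat_lit 19) (nat_lit 5) (nat_lit 20) (nat_lit 5) (nat_lit 21) (nat_lit 4) (nat_lit 504) (nat_lit 331) (nat_lit 305)))))) (XT.nd (nat_lit 57174) (nat_lit 0) (nat_lit 3344) (XT.nd (nat_lit 156) (nat_lit 76) (nat_lit 0) (XT.nd (nat_lit 78) (nat_lit 76) (nat_lit 0) (XT.lf (nat_lit 0) (nat_lit 950916134) (nat_lit 152) (nat_lit 12678968706) (nat_lit 152) (nat_lit 2452006172) (nat_lit 17) (nat_lit 4)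 (nat_lit 19) (nat_lit 5) (nat_lit 19) (nat_lit 4) (nat_lit 505) (nat_lit 331) (nat_lit 304)) (XT.lf (nat_lit 0) (nat_lit 2522127363) (nat_lit 228) (nat_lit 5415944017) (nat_lit 76) (nat_lit 8355814686) (nat_lit 16) (nat_lit 5) (nat_lit 19) (nat_lit 5) (nat_lit 17) (nat_lit 4) (nat_lit 506) (nat_lit 331) (nat_lit 303))) (XT.nd (nat_lit 78) (nat_lit 0) (nat_lit 0) (XT.lf (nat_lit 0) (nat_lit 4429956262) (nat_lit 76) (nat_lit 3104060560) (nat_lit 152) (nat_lit 8976362942) (nat_lit 15) (nat_lit 5) (nat_lit 16) (nat_lit 5) (nat_lit 17) (nat_lit 4) (nat_lit 507) (nat_lit 331) (nat_lit 302)) (XT.nd (nat_lit 56862) (nat_lit 0) (nat_lit 4636) (XT.lf (nat_lit 0) (nat_lit 12637045472) (nat_lit 152) (nat_lit 2301829559) (nat_lit 0) (nat_lit 1792515192) (nat_lit 15) (nat_lit 5) (nat_lit 17) (nat_lit 4) (nat_lit 15) (nat_lit 4) (nat_lit 508) (nat_lit 331) (nat_lit 301)) (XT.lf (nat_lit 0) (nat_lit 1906652325) (nat_lit 304) (nat_lit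 1907064401) (nat_lit 0) (nat_lit 1906652325) (nat_lit 76) (nat_lit 5) (nat_lit 80) (nat_lit 4) (nat_lit 76) (nat_lit 4) (nat_lit 476) (nat_lit 332) (nat_lit 332))))) (XT.nd (nat_lit 234) (nat_lit 760) (nat_lit 0) (XT.nd (nat_lit 78) (nat_lit 304) (nat_lit 0) (XT.lf (nat_lit 0) (nat_lit 5169620208) (nat_lit 228) (nat_lit 3496667387) (nat_lit 228) (nat_lit 2894616304) (nat_lit 73) (nat_lit 4) (nat_lit 76) (nat_lit 5) (nat_lit 76) (nat_lit 4) (nat_lit 477) (nat_lit 332) (nat_lit 331)) (XT.nd (nat_lit 78) (nat_lit 0) (nat_lit 0) (XT.lf (nat_lit 0) (nat_lit 1883831199) (nat_lit 304) (nat_lit 9084962655) (nat_lit 0) (nat_lit 714912332) (nat_lit 69) (nat_lit 5) (nat_lit 73) (nat_lit 4) (nat_lit 69) (nat_lit 4) (nat_lit 478) (nat_lit 332) (nat_lit 330)) (XT.lf (nat_lit 0) (nat_lit 6714713412) (nat_lit 304) (nat_lit 115498012) (nat_lit 0) (nat_lit 4978468363) (nat_lit 69) (nat_lit 5) (nat_lit 73) (nat_lit 4) (nat_lit 69) (nat_lit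 4) (nat_lit 479) (nat_lit 332) (nat_lit 329)))) (XT.nd (nat_lit 78) (nat_lit 532) (nat_lit 0) (XT.lf (nat_lit 0) (nat_lit 9034206175) (nat_lit 228) (nat_lit 2597309030) (nat_lit 228) (nat_lit 304861840) (nat_lit 66) (nat_lit 4) (nat_lit 69) (nat_lit 5) (nat_lit 69) (nat_lit 4) (nat_lit 480) (nat_lit 332) (nat_lit 328)) (XT.nd (nat_lit 78) (nat_lit 228) (nat_lit 0) (XT.lf (nat_lit 0) (nat_lit 4503331796) (nat_lit 304) (nat_lit 5841813634) (nat_lit 0) (nat_lit 1721230418) (nat_lit 62) (nat_lit 5) (nat_lit 66) (nat_lit 4) (nat_lit 62) (nat_lit 4) (nat_lit 481) (nat_lit 332) (nat_lit 327)) (XT.lf (nat_lit 0) (nat_lit 3280172256) (nat_lit 228) (nat_lit 6112605682) (nat_lit 228) (nat_lit 2806382605) (nat_lit 59) (nat_lit 4) (nat_lit 62) (nat_lit 5) (nat_lit 62) (nat_lit 4) (nat_lit 482) (nat_lit 332) (nat_lit 326))))))))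
noncomputable def xc6 : XT := (XT.nd (nat_lit 1716) (nat_lit 304) (nat_lit 0) (XT.nd (nat_lit 858) (nat_lit 1292) (nat_lit 0) (XT.nd (nat_lit 390) (nat_lit 1064) (nat_lit 0) (XT.nd (nat_lit 156) (nat_lit 456) (nat_lit 0) (XT.nd (nat_lit 78) (nat_lit 0) (nat_lit 0) (XT.lf (nat_lit 0) (nat_lit 200831976) (nat_lit 152) (nat_lit 1789712506) (nat_lit 228) (nat_lit 10344360941) (nat_lit 56) (nat_lit 5) (nat_lit 58) (nat_lit 5) (nat_lit 59) (nat_lit 4) (nat_lit 483) (nat_lit 332) (nat_lit 325)) (XT.lf (nat_lit 0) (nat_lit 6854583769) (nat_lit 228) (nat_lit 3002716885) (nat_lit 0) (nat_lit 2615527599) (nat_lit 56) (nat_lit 5) (nat_lit 59) (nat_lit 4) (nat_lit 56) (nat_lit 4) (nat_lit 484) (nat_lit 332) (nat_lit 324))) (XT.nd (nat_lit 78) (nat_lit 228) (nat_lit 0) (XT.lf (nat_lit 0) (nat_lit 6265403483) (nat_lit 228) (nat_lit 5535835926) (nat_lit 228) (nat_lit 812572321) (nat_lit 53) (nat_lit 4) (nat_lit 56) (nat_lit 5) (nat_lit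 56) (nat_lit 4) (nat_lit 485) (nat_lit 332) (nat_lit 323)) (XT.nd (nat_lit 78) (nat_lit 0) (nat_lit 0) (XT.lf (nat_lit 0) (nat_lit 2897374821) (nat_lit 152) (nat_lit 1110224979) (nat_lit 228) (nat_lit 8750052288) (nat_lit 50) (nat_lit 5) (nat_lit 52) (nat_lit 5) (nat_lit 53) (nat_lit 4) (nat_lit 486) (nat_lit 332) (nat_lit 322)) (XT.lf (nat_lit 0) (nat_lit 8911457792) (nat_lit 228) (nat_lit 633726522) (nat_lit 0) (nat_lit 3359122649) (nat_lit 50) (nat_lit 5) (nat_lit 53) (nat_lit 4) (nat_lit 50) (nat_lit 4) (nat_lit 487) (nat_lit 332) (nat_lit 321))))) (XT.nd (nat_lit 234) (nat_lit 380) (nat_lit 0) (XT.nd (nat_lit 78) (nat_lit 380) (nat_lit 0) (XT.lf (nat_lit 0) (nat_lit 846986660) (nat_lit 304) (nat_lit 4288754911) (nat_lit 76) (nat_lit 7918074595) (nat_lit 46) (nat_lit 5) (nat_lit 50) (nat_lit 5) (nat_lit 47) (nat_lit 4) (nat_lit 488) (nat_lit 332) (nat_lit 320)) (XT.nd (nat_lit 78) (nat_lit 228) (nat_lit 0) (XT.lf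 (nat_lit 0) (nat_lit 5079924910) (nat_lit 152) (nat_lit 622131756) (nat_lit 228) (nat_lit 7504300902) (nat_lit 44) (nat_lit 5) (nat_lit 46) (nat_lit 5) (nat_lit 47) (nat_lit 4) (nat_lit 489) (nat_lit 332) (nat_lit 319)) (XT.lf (nat_lit 0) (nat_lit 1207889729) (nat_lit 228) (nat_lit 9443819831) (nat_lit 228) (nat_lit 2710298358) (nat_lit 41) (nat_lit 4) (nat_lit 44) (nat_lit 5) (nat_lit 44) (nat_lit 4) (nat_lit 490) (nat_lit 332) (nat_lit 318)))) (XT.nd (nat_lit 78) (nat_lit 304) (nat_lit 0) (XT.lf (nat_lit 0) (nat_lit 2144931984) (nat_lit 304) (nat_lit 2814025246) (nat_lit 76) (nat_lit 8561659799) (nat_lit 40) (nat_lit 5) (nat_lit 44) (nat_lit 5) (nat_lit 41) (nat_lit 4) (nat_lit 491) (nat_lit 332) (nat_lit 317)) (XT.nd (nat_lit 78) (nat_lit 152) (nat_lit 0) (XT.lf (nat_lit 0) (nat_lit 6669880978) (nat_lit 152) (nat_lit 370629889) (nat_lit 228) (nat_lit 6641945759) (nat_lit 38) (nat_lit 5) (nat_lit 40) (nat_lit 5) (nat_lit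 41) (nat_lit 4) (nat_lit 492) (nat_lit 332) (nat_lit 316)) (XT.lf (nat_lit 0) (nat_lit 2425425881) (nat_lit 152) (nat_lit 9607717550) (nat_lit 152) (nat_lit 1814413902) (nat_lit 36) (nat_lit 4) (nat_lit 38) (nat_lit 5) (nat_lit 38) (nat_lit 4) (nat_lit 493) (nat_lit 332) (nat_lit 315)))))) (XT.nd (nat_lit 390) (nat_lit 684) (nat_lit 0) (XT.nd (nat_lit 156) (nat_lit 380) (nat_lit 0) (XT.nd (nat_lit 78) (nat_lit 152) (nat_lit 0) (XT.lf (nat_lit 0) (nat_lit 3055210206) (nat_lit 228) (nat_lit 2003573289) (nat_lit 76) (nat_lit 8957053128) (nat_lit 35) (nat_lit 5) (nat_lit 38) (nat_lit 5) (nat_lit 36) (nat_lit 4) (nat_lit 494) (nat_lit 332) (nat_lit 314)) (XT.lf (nat_lit 0) (nat_lit 7580124380) (nat_lit 152) (nat_lit 404791650) (nat_lit 228) (nat_lit 6202592665) (nat_lit 33) (nat_lit 5) (nat_lit 35) (nat_lit 5) (nat_lit 36) (nat_lit 4) (nat_lit 495) (nat_lit 332) (nat_lit 313))) (XT.nd (nat_lit 78) (nat_lit 228) (nat_lit 0)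 (XT.lf (nat_lit 0) (nat_lit 2919485821) (nat_lit 152) (nat_lit 10092353193) (nat_lit 152) (nat_lit 1350809347) (nat_lit 31) (nat_lit 4) (nat_lit 33) (nat_lit 5) (nat_lit 33) (nat_lit 4) (nat_lit 496) (nat_lit 332) (nat_lit 312)) (XT.nd (nat_lit 78) (nat_lit 152) (nat_lit 0) (XT.lf (nat_lit 0) (nat_lit 3536163193) (nat_lit 228) (nat_lit 1951213073) (nat_lit 76) (nat_lit 9053746855) (nat_lit 30) (nat_lit 5) (nat_lit 33) (nat_lit 5) (nat_lit 31) (nat_lit 4) (nat_lit 497) (nat_lit 332) (nat_lit 311)) (XT.lf (nat_lit 0) (nat_lit 7714043650) (nat_lit 152) (nat_lit 778089615) (nat_lit 228) (nat_lit 6231074859) (nat_lit 28) (nat_lit 5) (nat_lit 30) (nat_lit 5) (nat_lit 31) (nat_lit 4) (nat_lit 498) (nat_lit 332) (nat_lit 310))))) (XT.nd (nat_lit 234) (nat_lit 304) (nat_lit 0) (XT.nd (nat_lit 78) (nat_lit 228) (nat_lit 0) (XT.lf (nat_lit 0) (nat_lit 2589174292) (nat_lit 152) (nat_lit 10953598372) (nat_lit 152) (nat_lit 1366257273)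 (nat_lit 26) (nat_lit 4) (nat_lit 28) (nat_lit 5) (nat_lit 28) (nat_lit 4) (nat_lit 499) (nat_lit 332) (nat_lit 309)) (XT.nd (nat_lit 78) (nat_lit 152) (nat_lit 0) (XT.lf (nat_lit 0) (nat_lit 3540700627) (nat_lit 228) (nat_lit 2760983553) (nat_lit 76) (nat_lit 8796582862) (nat_lit 25) (nat_lit 5) (nat_lit 28) (nat_lit 5) (nat_lit 26) (nat_lit 4) (nat_lit 500) (nat_lit 332) (nat_lit 308)) (XT.lf (nat_lit 0) (nat_lit 6964460144) (nat_lit 152) (nat_lit 1548969222) (nat_lit 228) (nat_lit 6777966143) (nat_lit 23) (nat_lit 5) (nat_lit 25) (nat_lit 5) (nat_lit 26) (nat_lit 4) (nat_lit 501) (nat_lit 332) (nat_lit 307)))) (XT.nd (nat_lit 78) (nat_lit 152) (nat_lit 0) (XT.lf (nat_lit 0) (nat_lit 1322557949) (nat_lit 152) (nat_lit 12252566827) (nat_lit 152) (nat_lit 1913477173) (nat_lit 21) (nat_lit 4) (nat_lit 23) (nat_lit 5) (nat_lit 23) (nat_lit 4) (nat_lit 502) (nat_lit 332) (nat_lit 306)) (XT.nd (nat_lit 78) (nat_lit 76) (nat_lit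 0) (XT.lf (nat_lit 0) (nat_lit 3015760666) (nat_lit 228) (nat_lit 4548295274) (nat_lit 76) (nat_lit 8125157408) (nat_lit 20) (nat_lit 5) (nat_lit 23) (nat_lit 5) (nat_lit 21) (nat_lit 4) (nat_lit 503) (nat_lit 332) (nat_lit 305)) (XT.lf (nat_lit 0) (nat_lit 5212444097) (nat_lit 76) (nat_lit 2781474366) (nat_lit 152) (nat_lit 7900151736) (nat_lit 19) (nat_lit 5) (nat_lit 20) (nat_lit 5) (nat_lit 21) (nat_lit 4) (nat_lit 504) (nat_lit 332) (nat_lit 304))))))) (XT.nd (nat_lit 57486) (nat_lit 0) (nat_lit 1900) (XT.nd (nat_lit 57018) (nat_lit 0) (nat_lit 3800) (XT.nd (nat_lit 156) (nat_lit 76) (nat_lit 0) (XT.nd (nat_lit 78) (nat_lit 228) (nat_lit 0) (XT.lf (nat_lit 0) (nat_lit 13058219930) (nat_lit 152) (nat_lit 991390806) (nat_lit 0) (nat_lit 2053687056) (nat_lit 19) (nat_lit 5) (nat_lit 21) (nat_lit 4) (nat_lit 19) (nat_lit 4) (nat_lit 505) (nat_lit 332) (nat_lit 303)) (XT.lf (nat_lit 0) (nat_lit 1901710348) (nat_lit 228)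 (nat_lit 7441194398) (nat_lit 76) (nat_lit 6973170064) (nat_lit 16) (nat_lit 5) (nat_lit 19) (nat_lit 5) (nat_lit 17) (nat_lit 4) (nat_lit 506) (nat_lit 332) (nat_lit 302))) (XT.nd (nat_lit 78) (nat_lit 0) (nat_lit 0) (XT.lf (nat_lit 0) (nat_lit 2326009335) (nat_lit 76) (nat_lit 4545932151) (nat_lit 152) (nat_lit 9661462622) (nat_lit 15) (nat_lit 5) (nat_lit 16) (nat_lit 5) (nat_lit 17) (nat_lit 4) (nat_lit 507) (nat_lit 332) (nat_lit 301)) (XT.nd (nat_lit 56706) (nat_lit 0) (nat_lit 4940) (XT.lf (nat_lit 0) (nat_lit 11937680565) (nat_lit 152) (nat_lit 4470614649) (nat_lit 0) (nat_lit 346867529) (nat_lit 15) (nat_lit 5) (nat_lit 17) (nat_lit 4) (nat_lit 15) (nat_lit 4) (nat_lit 508) (nat_lit 332) (nat_lit 300)) (XT.lf (nat_lit 0) (nat_lit 533783329) (nat_lit 304) (nat_lit 2534848931) (nat_lit 304) (nat_lit 2534848931) (nat_lit 80) (nat_lit 4) (nat_lit 84) (nat_lit 5) (nat_lit 84) (nat_lit 4) (nat_lit 474) (nat_lit 333)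 (nat_lit 333))))) (XT.nd (nat_lit 234) (nat_lit 608) (nat_lit 0) (XT.nd (nat_lit 78) (nat_lit 532) (nat_lit 0) (XT.lf (nat_lit 0) (nat_lit 9983462575) (nat_lit 304) (nat_lit 983118559) (nat_lit 304) (nat_lit 356744612) (nat_lit 80) (nat_lit 4) (nat_lit 84) (nat_lit 5) (nat_lit 84) (nat_lit 4) (nat_lit 475) (nat_lit 333) (nat_lit 332)) (XT.nd (nat_lit 78) (nat_lit 228) (nat_lit 0) (XT.lf (nat_lit 0) (nat_lit 4392151727) (nat_lit 304) (nat_lit 3873288217) (nat_lit 0) (nat_lit 3176008538) (nat_lit 76) (nat_lit 5) (nat_lit 80) (nat_lit 4) (nat_lit 76) (nat_lit 4) (nat_lit 476) (nat_lit 333) (nat_lit 331)) (XT.lf (nat_lit 0) (nat_lit 5050904387) (nat_lit 228) (nat_lit 4158905553) (nat_lit 228) (nat_lit 2352516204) (nat_lit 73) (nat_lit 4) (nat_lit 76) (nat_lit 5) (nat_lit 76) (nat_lit 4) (nat_lit 477) (nat_lit 333) (nat_lit 330)))) (XT.nd (nat_lit 78) (nat_lit 304) (nat_lit 0) (XT.lf (nat_lit 0) (nat_lit 2378705854) (nat_lit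 304) (nat_lit 9266749941) (nat_lit 0) (nat_lit 40409720) (nat_lit 69) (nat_lit 5) (nat_lit 73) (nat_lit 4) (nat_lit 69) (nat_lit 4) (nat_lit 478) (nat_lit 333) (nat_lit 329)) (XT.nd (nat_lit 78) (nat_lit 304) (nat_lit 0) (XT.lf (nat_lit 0) (nat_lit 7175254343) (nat_lit 304) (nat_lit 355520440) (nat_lit 0) (nat_lit 4280756069) (nat_lit 69) (nat_lit 5) (nat_lit 73) (nat_lit 4) (nat_lit 69) (nat_lit 4) (nat_lit 479) (nat_lit 333) (nat_lit 328)) (XT.lf (nat_lit 0) (nat_lit 114967674) (nat_lit 304) (nat_lit 3207559785) (nat_lit 76) (nat_lit 8617402790) (nat_lit 65) (nat_lit 5) (nat_lit 69) (nat_lit 5) (nat_lit 66) (nat_lit 4) (nat_lit 480) (nat_lit 333) (nat_lit 327)))))) (XT.nd (nat_lit 390) (nat_lit 988) (nat_lit 0) (XT.nd (nat_lit 156) (nat_lit 456) (nat_lit 0) (XT.nd (nat_lit 78) (nat_lit 228) (nat_lit 0) (XT.lf (nat_lit 0) (nat_lit 4878305750) (nat_lit 304) (nat_lit 6210569116) (nat_lit 0) (nat_lit 981836513) (nat_lit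 62) (nat_lit 5) (nat_lit 66) (nat_lit 4) (nat_lit 62) (nat_lit 4) (nat_lit 481) (nat_lit 333) (nat_lit 326)) (XT.lf (nat_lit 0) (nat_lit 2848443532) (nat_lit 228) (nat_lit 6883048231) (nat_lit 228) (nat_lit 2472734191) (nat_lit 59) (nat_lit 4) (nat_lit 62) (nat_lit 5) (nat_lit 62) (nat_lit 4) (nat_lit 482) (nat_lit 333) (nat_lit 325))) (XT.nd (nat_lit 78) (nat_lit 380) (nat_lit 0) (XT.lf (nat_lit 0) (nat_lit 2285118213) (nat_lit 304) (nat_lit 298144663) (nat_lit 76) (nat_lit 9757363104) (nat_lit 58) (nat_lit 5) (nat_lit 62) (nat_lit 5) (nat_lit 59) (nat_lit 4) (nat_lit 483) (nat_lit 333) (nat_lit 324)) (XT.nd (nat_lit 78) (nat_lit 228) (nat_lit 0) (XT.lf (nat_lit 0) (nat_lit 7108765436) (nat_lit 228) (nat_lit 3563766497) (nat_lit 0) (nat_lit 1806829124) (nat_lit 56) (nat_lit 5) (nat_lit 59) (nat_lit 4) (nat_lit 56) (nat_lit 4) (nat_lit 484) (nat_lit 333) (nat_lit 323)) (XT.lf (nat_lit 0) (nat_lit 5639759967) (nat_lit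 228) (nat_lit 6378985936) (nat_lit 228) (nat_lit 602336454) (nat_lit 53) (nat_lit 4) (nat_lit 56) (nat_lit 5) (nat_lit 56) (nat_lit 4) (nat_lit 485) (nat_lit 333) (nat_lit 322))))) (XT.nd (nat_lit 234) (nat_lit 456) (nat_lit 0) (XT.nd (nat_lit 78) (nat_lit 304) (nat_lit 0) (XT.lf (nat_lit 0) (nat_lit 2197461904) (nat_lit 152) (nat_lit 1980516539) (nat_lit 228) (nat_lit 8587663124) (nat_lit 50) (nat_lit 5) (nat_lit 52) (nat_lit 5) (nat_lit 53) (nat_lit 4) (nat_lit 486) (nat_lit 333) (nat_lit 321)) (XT.nd (nat_lit 78) (nat_lit 304) (nat_lit 0) (XT.lf (nat_lit 0) (nat_lit 9043749964) (nat_lit 228) (nat_lit 1392556462) (nat_lit 0) (nat_lit 2476755815) (nat_lit 50) (nat_lit 5) (nat_lit 53) (nat_lit 4) (nat_lit 50) (nat_lit 4) (nat_lit 487) (nat_lit 333) (nat_lit 320)) (XT.lf (nat_lit 0) (nat_lit 931496143) (nat_lit 304) (nat_lit 5123933530) (nat_lit 76) (nat_lit 7007877788) (nat_lit 46) (nat_lit 5) (nat_lit 50) (nat_lit 5)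 (nat_lit 47) (nat_lit 4) (nat_lit 488) (nat_lit 333) (nat_lit 319)))) (XT.nd (nat_lit 78) (nat_lit 304) (nat_lit 0) (XT.lf (nat_lit 0) (nat_lit 4177379759) (nat_lit 152) (nat_lit 1571579569) (nat_lit 228) (nat_lit 7467645508) (nat_lit 44) (nat_lit 5) (nat_lit 46) (nat_lit 5) (nat_lit 47) (nat_lit 4) (nat_lit 489) (nat_lit 333) (nat_lit 318)) (XT.nd (nat_lit 78) (nat_lit 76) (nat_lit 0) (XT.lf (nat_lit 0) (nat_lit 232829850) (nat_lit 228) (nat_lit 10421650861) (nat_lit 228) (nat_lit 2718660866) (nat_lit 41) (nat_lit 4) (nat_lit 44) (nat_lit 5) (nat_lit 44) (nat_lit 4) (nat_lit 490) (nat_lit 333) (nat_lit 317)) (XT.lf (nat_lit 0) (nat_lit 2105092823) (nat_lit 304) (nat_lit 3855865613) (nat_lit 76) (nat_lit 7571428679) (nat_lit 40) (nat_lit 5) (nat_lit 44) (nat_lit 5) (nat_lit 41) (nat_lit 4) (nat_lit 491) (nat_lit 333) (nat_lit 316))))))))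
noncomputable def xc7 : XT := (XT.nd (nat_lit 58188) (nat_lit 0) (nat_lit 988) (XT.nd (nat_lit 858) (nat_lit 608) (nat_lit 0) (XT.nd (nat_lit 390) (nat_lit 608) (nat_lit 0) (XT.nd (nat_lit 156) (nat_lit 380) (nat_lit 0) (XT.nd (nat_lit 78) (nat_lit 152) (nat_lit 0) (XT.lf (nat_lit 0) (nat_lit 5558860433) (nat_lit 152) (nat_lit 1403630801) (nat_lit 228) (nat_lit 6732502631) (nat_lit 38) (nat_lit 5) (nat_lit 40) (nat_lit 5) (nat_lit 41) (nat_lit 4) (nat_lit 492) (nat_lit 333) (nat_lit 315)) (XT.lf (nat_lit 0) (nat_lit 1238290968) (nat_lit 152) (nat_lit 10671553394) (nat_lit 152) (nat_lit 1951159272) (nat_lit 36) (nat_lit 4) (nat_lit 38) (nat_lit 5) (nat_lit 38) (nat_lit 4) (nat_lit 493) (nat_lit 333) (nat_lit 314))) (XT.nd (nat_lit 78) (nat_lit 304) (nat_lit 0) (XT.lf (nat_lit 0) (nat_lit 2889439627) (nat_lit 228) (nat_lit 3258034169) (nat_lit 76) (nat_lit 7882446597) (nat_lit 35) (nat_lit 5) (nat_lit 38) (nat_lit 5) (nat_lit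 36) (nat_lit 4) (nat_lit 494) (nat_lit 333) (nat_lit 313)) (XT.nd (nat_lit 78) (nat_lit 152) (nat_lit 0) (XT.lf (nat_lit 0) (nat_lit 6254585181) (nat_lit 152) (nat_lit 1525739630) (nat_lit 228) (nat_lit 6422047341) (nat_lit 33) (nat_lit 5) (nat_lit 35) (nat_lit 5) (nat_lit 36) (nat_lit 4) (nat_lit 495) (nat_lit 333) (nat_lit 312)) (XT.lf (nat_lit 0) (nat_lit 1514138505) (nat_lit 152) (nat_lit 11246586914) (nat_lit 152) (nat_lit 1617720057) (nat_lit 31) (nat_lit 4) (nat_lit 33) (nat_lit 5) (nat_lit 33) (nat_lit 4) (nat_lit 496) (nat_lit 333) (nat_lit 311))))) (XT.nd (nat_lit 234) (nat_lit 228) (nat_lit 0) (XT.nd (nat_lit 78) (nat_lit 304) (nat_lit 0) (XT.lf (nat_lit 0) (nat_lit 3242675749) (nat_lit 228) (nat_lit 3424464664) (nat_lit 76) (nat_lit 7890419114) (nat_lit 30) (nat_lit 5) (nat_lit 33) (nat_lit 5) (nat_lit 31) (nat_lit 4) (nat_lit 497) (nat_lit 333) (nat_lit 310)) (XT.nd (nat_lit 78) (nat_lit 152) (nat_lit 0)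 (XT.lf (nat_lit 0) (nat_lit 6167727411) (nat_lit 152) (nat_lit 1991391135) (nat_lit 228) (nat_lit 6581319554) (nat_lit 28) (nat_lit 5) (nat_lit 30) (nat_lit 5) (nat_lit 31) (nat_lit 4) (nat_lit 498) (nat_lit 333) (nat_lit 309)) (XT.lf (nat_lit 0) (nat_lit 959254361) (nat_lit 152) (nat_lit 12202643124) (nat_lit 152) (nat_lit 1765322604) (nat_lit 26) (nat_lit 4) (nat_lit 28) (nat_lit 5) (nat_lit 28) (nat_lit 4) (nat_lit 499) (nat_lit 333) (nat_lit 308)))) (XT.nd (nat_lit 78) (nat_lit 152) (nat_lit 0) (XT.lf (nat_lit 0) (nat_lit 3117508154) (nat_lit 228) (nat_lit 4459422402) (nat_lit 76) (nat_lit 7540168525) (nat_lit 25) (nat_lit 5) (nat_lit 28) (nat_lit 5) (nat_lit 26) (nat_lit 4) (nat_lit 500) (nat_lit 333) (nat_lit 307)) (XT.nd (nat_lit 78) (nat_lit 0) (nat_lit 0) (XT.lf (nat_lit 0) (nat_lit 5190878329) (nat_lit 152) (nat_lit 2859058044) (nat_lit 228) (nat_lit 7261099981) (nat_lit 23) (nat_lit 5) (nat_lit 25) (nat_lit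 5) (nat_lit 26) (nat_lit 4) (nat_lit 501) (nat_lit 333) (nat_lit 306)) (XT.lf (nat_lit 0) (nat_lit 13065834186) (nat_lit 228) (nat_lit 531469736) (nat_lit 0) (nat_lit 1911857563) (nat_lit 23) (nat_lit 5) (nat_lit 26) (nat_lit 4) (nat_lit 23) (nat_lit 4) (nat_lit 502) (nat_lit 333) (nat_lit 305)))))) (XT.nd (nat_lit 390) (nat_lit 0) (nat_lit 0) (XT.nd (nat_lit 156) (nat_lit 304) (nat_lit 0) (XT.nd (nat_lit 78) (nat_lit 76) (nat_lit 0) (XT.lf (nat_lit 0) (nat_lit 2460671668) (nat_lit 228) (nat_lit 6478559231) (nat_lit 76) (nat_lit 6771257179) (nat_lit 20) (nat_lit 5) (nat_lit 23) (nat_lit 5) (nat_lit 21) (nat_lit 4) (nat_lit 503) (nat_lit 333) (nat_lit 304)) (XT.lf (nat_lit 0) (nat_lit 3204862953) (nat_lit 76) (nat_lit 4192825802) (nat_lit 152) (nat_lit 8518481570) (nat_lit 19) (nat_lit 5) (nat_lit 20) (nat_lit 5) (nat_lit 21) (nat_lit 4) (nat_lit 504) (nat_lit 333) (nat_lit 303))) (XT.nd (nat_lit 78) (nat_lit 304) (nat_lit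 0) (XT.lf (nat_lit 0) (nat_lit 12424795041) (nat_lit 152) (nat_lit 3062972988) (nat_lit 0) (nat_lit 638376324) (nat_lit 19) (nat_lit 5) (nat_lit 21) (nat_lit 4) (nat_lit 19) (nat_lit 4) (nat_lit 505) (nat_lit 333) (nat_lit 302)) (XT.nd (nat_lit 78) (nat_lit 76) (nat_lit 0) (XT.lf (nat_lit 0) (nat_lit 1212328827) (nat_lit 228) (nat_lit 9610177651) (nat_lit 76) (nat_lit 5517336889) (nat_lit 16) (nat_lit 5) (nat_lit 19) (nat_lit 5) (nat_lit 17) (nat_lit 4) (nat_lit 506) (nat_lit 333) (nat_lit 301)) (XT.lf (nat_lit 0) (nat_lit 77434737) (nat_lit 76) (nat_lit 6063076870) (nat_lit 152) (nat_lit 10417504410) (nat_lit 15) (nat_lit 5) (nat_lit 16) (nat_lit 5) (nat_lit 17) (nat_lit 4) (nat_lit 507) (nat_lit 333) (nat_lit 300))))) (XT.nd (nat_lit 56706) (nat_lit 0) (nat_lit 4636) (XT.nd (nat_lit 56550) (nat_lit 0) (nat_lit 5244) (XT.lf (nat_lit 0) (nat_lit 9988529886) (nat_lit 76) (nat_lit 1188204727) (nat_lit 152) (nat_lit 5603632700)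 (nat_lit 15) (nat_lit 5) (nat_lit 16) (nat_lit 5) (nat_lit 17) (nat_lit 4) (nat_lit 508) (nat_lit 333) (nat_lit 299)) (XT.nd (nat_lit 78) (nat_lit 304) (nat_lit 0) (XT.lf (nat_lit 0) (nat_lit 2842026187) (nat_lit 304) (nat_lit 1324234333) (nat_lit 304) (nat_lit 1324234333) (nat_lit 88) (nat_lit 4) (nat_lit 92) (nat_lit 5) (nat_lit 92) (nat_lit 4) (nat_lit 472) (nat_lit 334) (nat_lit 334)) (XT.lf (nat_lit 0) (nat_lit 2022470122) (nat_lit 304) (nat_lit 7687234560) (nat_lit 0) (nat_lit 1383568696) (nat_lit 84) (nat_lit 5) (nat_lit 88) (nat_lit 4) (nat_lit 84) (nat_lit 4) (nat_lit 473) (nat_lit 334) (nat_lit 333)))) (XT.nd (nat_lit 78) (nat_lit 304) (nat_lit 0) (XT.lf (nat_lit 0) (nat_lit 1009049919) (nat_lit 304) (nat_lit 5731948445) (nat_lit 304) (nat_lit 4466673071) (nat_lit 80) (nat_lit 4) (nat_lit 84) (nat_lit 5) (nat_lit 84) (nat_lit 4) (nat_lit 474) (nat_lit 334) (nat_lit 332)) (XT.nd (nat_lit 78) (nat_lit 228) (nat_lit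 0) (XT.lf (nat_lit 0) (nat_lit 208338299) (nat_lit 380) (nat_lit 1458524113) (nat_lit 76) (nat_lit 9657840121) (nat_lit 79) (nat_lit 5) (nat_lit 84) (nat_lit 5) (nat_lit 80) (nat_lit 4) (nat_lit 475) (nat_lit 334) (nat_lit 331)) (XT.lf (nat_lit 0) (nat_lit 4912776767) (nat_lit 304) (nat_lit 4050789662) (nat_lit 0) (nat_lit 2480013470) (nat_lit 76) (nat_lit 5) (nat_lit 80) (nat_lit 4) (nat_lit 76) (nat_lit 4) (nat_lit 476) (nat_lit 334) (nat_lit 330))))))) (XT.nd (nat_lit 858) (nat_lit 1672) (nat_lit 0) (XT.nd (nat_lit 390) (nat_lit 912) (nat_lit 0) (XT.nd (nat_lit 156) (nat_lit 532) (nat_lit 0) (XT.nd (nat_lit 78) (nat_lit 304) (nat_lit 0) (XT.lf (nat_lit 0) (nat_lit 4813426190) (nat_lit 228) (nat_lit 4881590503) (nat_lit 228) (nat_lit 1870154500) (nat_lit 73) (nat_lit 4) (nat_lit 76) (nat_lit 5) (nat_lit 76) (nat_lit 4) (nat_lit 477) (nat_lit 334) (nat_lit 329)) (XT.lf (nat_lit 0) (nat_lit 2114997142) (nat_lit 228)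 (nat_lit 703695594) (nat_lit 304) (nat_lit 8870681225) (nat_lit 69) (nat_lit 5) (nat_lit 72) (nat_lit 5) (nat_lit 73) (nat_lit 4) (nat_lit 478) (nat_lit 334) (nat_lit 328))) (XT.nd (nat_lit 78) (nat_lit 532) (nat_lit 0) (XT.lf (nat_lit 0) (nat_lit 7577011853) (nat_lit 304) (nat_lit 715671736) (nat_lit 0) (nat_lit 3523125259) (nat_lit 69) (nat_lit 5) (nat_lit 73) (nat_lit 4) (nat_lit 69) (nat_lit 4) (nat_lit 479) (nat_lit 334) (nat_lit 327)) (XT.nd (nat_lit 78) (nat_lit 228) (nat_lit 0) (XT.lf (nat_lit 0) (nat_lit 471254527) (nat_lit 304) (nat_lit 3636556581) (nat_lit 76) (nat_lit 7837069885) (nat_lit 65) (nat_lit 5) (nat_lit 69) (nat_lit 5) (nat_lit 66) (nat_lit 4) (nat_lit 480) (nat_lit 334) (nat_lit 326)) (XT.lf (nat_lit 0) (nat_lit 5193195922) (nat_lit 304) (nat_lit 6702468013) (nat_lit 0) (nat_lit 180830798) (nat_lit 62) (nat_lit 5) (nat_lit 66) (nat_lit 4) (nat_lit 62) (nat_lit 4) (nat_lit 481) (nat_lit 334) (nat_lit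 325))))) (XT.nd (nat_lit 234) (nat_lit 456) (nat_lit 0) (XT.nd (nat_lit 78) (nat_lit 228) (nat_lit 0) (XT.lf (nat_lit 0) (nat_lit 2293073563) (nat_lit 228) (nat_lit 7716901502) (nat_lit 228) (nat_lit 2200766964) (nat_lit 59) (nat_lit 4) (nat_lit 62) (nat_lit 5) (nat_lit 62) (nat_lit 4) (nat_lit 482) (nat_lit 334) (nat_lit 324)) (XT.nd (nat_lit 78) (nat_lit 152) (nat_lit 0) (XT.lf (nat_lit 0) (nat_lit 2520778452) (nat_lit 304) (nat_lit 918053646) (nat_lit 76) (nat_lit 8908933849) (nat_lit 58) (nat_lit 5) (nat_lit 62) (nat_lit 5) (nat_lit 59) (nat_lit 4) (nat_lit 483) (nat_lit 334) (nat_lit 323)) (XT.lf (nat_lit 0) (nat_lit 7302152315) (nat_lit 228) (nat_lit 4249941825) (nat_lit 0) (nat_lit 935256672) (nat_lit 56) (nat_lit 5) (nat_lit 59) (nat_lit 4) (nat_lit 56) (nat_lit 4) (nat_lit 484) (nat_lit 334) (nat_lit 322)))) (XT.nd (nat_lit 78) (nat_lit 228) (nat_lit 0) (XT.lf (nat_lit 0) (nat_lit 4888448230) (nat_lit 228) (nat_lit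 7286832931) (nat_lit 228) (nat_lit 454532219) (nat_lit 53) (nat_lit 4) (nat_lit 56) (nat_lit 5) (nat_lit 56) (nat_lit 4) (nat_lit 485) (nat_lit 334) (nat_lit 321)) (XT.nd (nat_lit 78) (nat_lit 0) (nat_lit 0) (XT.lf (nat_lit 0) (nat_lit 1370263290) (nat_lit 152) (nat_lit 2916292888) (nat_lit 228) (nat_lit 8488547049) (nat_lit 50) (nat_lit 5) (nat_lit 52) (nat_lit 5) (nat_lit 53) (nat_lit 4) (nat_lit 486) (nat_lit 334) (nat_lit 320)) (XT.lf (nat_lit 0) (nat_lit 9114452058) (nat_lit 228) (nat_lit 2278609737) (nat_lit 0) (nat_lit 1530223612) (nat_lit 50) (nat_lit 5) (nat_lit 53) (nat_lit 4) (nat_lit 50) (nat_lit 4) (nat_lit 487) (nat_lit 334) (nat_lit 319)))))) (XT.nd (nat_lit 390) (nat_lit 760) (nat_lit 0) (XT.nd (nat_lit 156) (nat_lit 456) (nat_lit 0) (XT.nd (nat_lit 78) (nat_lit 152) (nat_lit 0) (XT.lf (nat_lit 0) (nat_lit 953567078) (nat_lit 304) (nat_lit 6087985292) (nat_lit 76) (nat_lit 6032726534) (nat_lit 46) (nat_lit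 5) (nat_lit 50) (nat_lit 5) (nat_lit 47) (nat_lit 4) (nat_lit 488) (nat_lit 334) (nat_lit 318)) (XT.lf (nat_lit 0) (nat_lit 3145352091) (nat_lit 152) (nat_lit 2587853152) (nat_lit 228) (nat_lit 7495131298) (nat_lit 44) (nat_lit 5) (nat_lit 46) (nat_lit 5) (nat_lit 47) (nat_lit 4) (nat_lit 489) (nat_lit 334) (nat_lit 317))) (XT.nd (nat_lit 78) (nat_lit 456) (nat_lit 0) (XT.lf (nat_lit 0) (nat_lit 10599600608) (nat_lit 228) (nat_lit 861937571) (nat_lit 0) (nat_lit 1924121309) (nat_lit 44) (nat_lit 5) (nat_lit 47) (nat_lit 4) (nat_lit 44) (nat_lit 4) (nat_lit 490) (nat_lit 334) (nat_lit 316)) (XT.nd (nat_lit 78) (nat_lit 152) (nat_lit 0) (XT.lf (nat_lit 0) (nat_lit 2001903558) (nat_lit 304) (nat_lit 5028852855) (nat_lit 76) (nat_lit 6514894414) (nat_lit 40) (nat_lit 5) (nat_lit 44) (nat_lit 5) (nat_lit 41) (nat_lit 4) (nat_lit 491) (nat_lit 334) (nat_lit 315)) (XT.lf (nat_lit 0) (nat_lit 4316035132) (nat_lit 152) (nat_lit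 2504837797) (nat_lit 228) (nat_lit 6888156703) (nat_lit 38) (nat_lit 5) (nat_lit 40) (nat_lit 5) (nat_lit 41) (nat_lit 4) (nat_lit 492) (nat_lit 334) (nat_lit 314))))) (XT.nd (nat_lit 234) (nat_lit 380) (nat_lit 0) (XT.nd (nat_lit 78) (nat_lit 380) (nat_lit 0) (XT.lf (nat_lit 0) (nat_lit 11722776837) (nat_lit 228) (nat_lit 81302475) (nat_lit 0) (nat_lit 2071872480) (nat_lit 38) (nat_lit 5) (nat_lit 41) (nat_lit 4) (nat_lit 38) (nat_lit 4) (nat_lit 493) (nat_lit 334) (nat_lit 313)) (XT.nd (nat_lit 78) (nat_lit 152) (nat_lit 0) (XT.lf (nat_lit 0) (nat_lit 2659320628) (nat_lit 228) (nat_lit 4646045408) (nat_lit 76) (nat_lit 6740147078) (nat_lit 35) (nat_lit 5) (nat_lit 38) (nat_lit 5) (nat_lit 36) (nat_lit 4) (nat_lit 494) (nat_lit 334) (nat_lit 312)) (XT.lf (nat_lit 0) (nat_lit 4794787616) (nat_lit 152) (nat_lit 2716318299) (nat_lit 228) (nat_lit 6707644165) (nat_lit 33) (nat_lit 5) (nat_lit 35) (nat_lit 5) (nat_lit 36)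 (nat_lit 4) (nat_lit 495) (nat_lit 334) (nat_lit 311)))) (XT.nd (nat_lit 78) (nat_lit 380) (nat_lit 0) (XT.lf (nat_lit 0) (nat_lit 12444416303) (nat_lit 228) (nat_lit 26901643) (nat_lit 0) (nat_lit 1924450408) (nat_lit 33) (nat_lit 5) (nat_lit 36) (nat_lit 4) (nat_lit 33) (nat_lit 4) (nat_lit 496) (nat_lit 334) (nat_lit 310)) (XT.nd (nat_lit 78) (nat_lit 152) (nat_lit 0) (XT.lf (nat_lit 0) (nat_lit 2883753677) (nat_lit 228) (nat_lit 5033805841) (nat_lit 76) (nat_lit 6657962551) (nat_lit 30) (nat_lit 5) (nat_lit 33) (nat_lit 5) (nat_lit 31) (nat_lit 4) (nat_lit 497) (nat_lit 334) (nat_lit 309)) (XT.lf (nat_lit 0) (nat_lit 4484561770) (nat_lit 152) (nat_lit 3275797099) (nat_lit 228) (nat_lit 6998841490) (nat_lit 28) (nat_lit 5) (nat_lit 30) (nat_lit 5) (nat_lit 31) (nat_lit 4) (nat_lit 498) (nat_lit 334) (nat_lit 308))))))))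
noncomputable def xc8 : XT := (XT.nd (nat_lit 57954) (nat_lit 0) (nat_lit 608) (XT.nd (nat_lit 57096) (nat_lit 0) (nat_lit 3800) (XT.nd (nat_lit 390) (nat_lit 380) (nat_lit 0) (XT.nd (nat_lit 156) (nat_lit 380) (nat_lit 0) (XT.nd (nat_lit 78) (nat_lit 228) (nat_lit 0) (XT.lf (nat_lit 0) (nat_lit 12719746574) (nat_lit 228) (nat_lit 798752941) (nat_lit 0) (nat_lit 1428353565) (nat_lit 28) (nat_lit 5) (nat_lit 31) (nat_lit 4) (nat_lit 28) (nat_lit 4) (nat_lit 499) (nat_lit 334) (nat_lit 307)) (XT.lf (nat_lit 0) (nat_lit 2627705625) (nat_lit 228) (nat_lit 6296631915) (nat_lit 76) (nat_lit 6213138792) (nat_lit 25) (nat_lit 5) (nat_lit 28) (nat_lit 5) (nat_lit 26) (nat_lit 4) (nat_lit 500) (nat_lit 334) (nat_lit 306))) (XT.nd (nat_lit 78) (nat_lit 228) (nat_lit 0) (XT.lf (nat_lit 0) (nat_lit 3277712477) (nat_lit 152) (nat_lit 4241778990) (nat_lit 228) (nat_lit 7812737723) (nat_lit 23) (nat_lit 5) (nat_lit 25) (nat_lit 5) (nat_lit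 26) (nat_lit 4) (nat_lit 501) (nat_lit 334) (nat_lit 305)) (XT.nd (nat_lit 78) (nat_lit 228) (nat_lit 0) (XT.lf (nat_lit 0) (nat_lit 12498269869) (nat_lit 228) (nat_lit 2507797358) (nat_lit 0) (nat_lit 525032168) (nat_lit 23) (nat_lit 5) (nat_lit 26) (nat_lit 4) (nat_lit 23) (nat_lit 4) (nat_lit 502) (nat_lit 334) (nat_lit 304)) (XT.lf (nat_lit 0) (nat_lit 1837706445) (nat_lit 228) (nat_lit 8550423014) (nat_lit 76) (nat_lit 5345199550) (nat_lit 20) (nat_lit 5) (nat_lit 23) (nat_lit 5) (nat_lit 21) (nat_lit 4) (nat_lit 503) (nat_lit 334) (nat_lit 303))))) (XT.nd (nat_lit 156) (nat_lit 304) (nat_lit 0) (XT.nd (nat_lit 78) (nat_lit 0) (nat_lit 0) (XT.lf (nat_lit 0) (nat_lit 1054813236) (nat_lit 76) (nat_lit 5678395687) (nat_lit 152) (nat_lit 9206635155) (nat_lit 19) (nat_lit 5) (nat_lit 20) (nat_lit 5) (nat_lit 21) (nat_lit 4) (nat_lit 504) (nat_lit 334) (nat_lit 302)) (XT.lf (nat_lit 0) (nat_lit 10867746710) (nat_lit 76)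 (nat_lit 861031472) (nat_lit 152) (nat_lit 4421673146) (nat_lit 19) (nat_lit 5) (nat_lit 20) (nat_lit 5) (nat_lit 21) (nat_lit 4) (nat_lit 505) (nat_lit 334) (nat_lit 301))) (XT.nd (nat_lit 78) (nat_lit 76) (nat_lit 0) (XT.lf (nat_lit 0) (nat_lit 453712453) (nat_lit 228) (nat_lit 11923744357) (nat_lit 76) (nat_lit 3987744247) (nat_lit 16) (nat_lit 5) (nat_lit 19) (nat_lit 5) (nat_lit 17) (nat_lit 4) (nat_lit 506) (nat_lit 334) (nat_lit 300)) (XT.nd (nat_lit 78) (nat_lit 76) (nat_lit 0) (XT.lf (nat_lit 0) (nat_lit 5354481575) (nat_lit 228) (nat_lit 2286266054) (nat_lit 76) (nat_lit 8943176691) (nat_lit 16) (nat_lit 5) (nat_lit 19) (nat_lit 5) (nat_lit 17) (nat_lit 4) (nat_lit 507) (nat_lit 334) (nat_lit 299)) (XT.lf (nat_lit 0) (nat_lit 7545650456) (nat_lit 76) (nat_lit 2803312852) (nat_lit 152) (nat_lit 6458149425) (nat_lit 15) (nat_lit 5) (nat_lit 16) (nat_lit 5) (nat_lit 17) (nat_lit 4) (nat_lit 508) (nat_lit 334)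 (nat_lit 298)))))) (XT.nd (nat_lit 390) (nat_lit 1140) (nat_lit 0) (XT.nd (nat_lit 156) (nat_lit 912) (nat_lit 0) (XT.nd (nat_lit 78) (nat_lit 380) (nat_lit 0) (XT.lf (nat_lit 0) (nat_lit 5006806762) (nat_lit 304) (nat_lit 187345573) (nat_lit 304) (nat_lit 187345573) (nat_lit 97) (nat_lit 4) (nat_lit 101) (nat_lit 5) (nat_lit 101) (nat_lit 4) (nat_lit 470) (nat_lit 335) (nat_lit 335)) (XT.lf (nat_lit 0) (nat_lit 4262697582) (nat_lit 380) (nat_lit 3010346231) (nat_lit 0) (nat_lit 3597984538) (nat_lit 92) (nat_lit 5) (nat_lit 97) (nat_lit 4) (nat_lit 92) (nat_lit 4) (nat_lit 471) (nat_lit 335) (nat_lit 334))) (XT.nd (nat_lit 78) (nat_lit 608) (nat_lit 0) (XT.lf (nat_lit 0) (nat_lit 5626946730) (nat_lit 304) (nat_lit 3335567898) (nat_lit 304) (nat_lit 2019175399) (nat_lit 88) (nat_lit 4) (nat_lit 92) (nat_lit 5) (nat_lit 92) (nat_lit 4) (nat_lit 472) (nat_lit 335) (nat_lit 333)) (XT.nd (nat_lit 78) (nat_lit 304) (nat_lit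 0) (XT.lf (nat_lit 0) (nat_lit 2603878515) (nat_lit 304) (nat_lit 7803888111) (nat_lit 0) (nat_lit 686923686) (nat_lit 84) (nat_lit 5) (nat_lit 88) (nat_lit 4) (nat_lit 84) (nat_lit 4) (nat_lit 473) (nat_lit 335) (nat_lit 332)) (XT.lf (nat_lit 0) (nat_lit 833476749) (nat_lit 304) (nat_lit 6453684527) (nat_lit 304) (nat_lit 3922637593) (nat_lit 80) (nat_lit 4) (nat_lit 84) (nat_lit 5) (nat_lit 84) (nat_lit 4) (nat_lit 474) (nat_lit 335) (nat_lit 331))))) (XT.nd (nat_lit 234) (nat_lit 608) (nat_lit 0) (XT.nd (nat_lit 78) (nat_lit 456) (nat_lit 0) (XT.lf (nat_lit 0) (nat_lit 711207410) (nat_lit 380) (nat_lit 1696459049) (nat_lit 76) (nat_lit 8919778860) (nat_lit 79) (nat_lit 5) (nat_lit 84) (nat_lit 5) (nat_lit 80) (nat_lit 4) (nat_lit 475) (nat_lit 335) (nat_lit 330)) (XT.nd (nat_lit 78) (nat_lit 228) (nat_lit 0) (XT.lf (nat_lit 0) (nat_lit 5375383937) (nat_lit 304) (nat_lit 4346702745) (nat_lit 0) (nat_lit 1725046507)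 (nat_lit 76) (nat_lit 5) (nat_lit 80) (nat_lit 4) (nat_lit 76) (nat_lit 4) (nat_lit 476) (nat_lit 335) (nat_lit 329)) (XT.lf (nat_lit 0) (nat_lit 4457092488) (nat_lit 228) (nat_lit 5665005643) (nat_lit 228) (nat_lit 1447342030) (nat_lit 73) (nat_lit 4) (nat_lit 76) (nat_lit 5) (nat_lit 76) (nat_lit 4) (nat_lit 477) (nat_lit 335) (nat_lit 328)))) (XT.nd (nat_lit 78) (nat_lit 304) (nat_lit 0) (XT.lf (nat_lit 0) (nat_lit 1690252793) (nat_lit 228) (nat_lit 1509805892) (nat_lit 304) (nat_lit 8494252327) (nat_lit 69) (nat_lit 5) (nat_lit 72) (nat_lit 5) (nat_lit 73) (nat_lit 4) (nat_lit 478) (nat_lit 335) (nat_lit 327)) (XT.nd (nat_lit 78) (nat_lit 304) (nat_lit 0) (XT.lf (nat_lit 0) (nat_lit 7920143495) (nat_lit 304) (nat_lit 1196093135) (nat_lit 0) (nat_lit 2705278820) (nat_lit 69) (nat_lit 5) (nat_lit 73) (nat_lit 4) (nat_lit 69) (nat_lit 4) (nat_lit 479) (nat_lit 335) (nat_lit 326)) (XT.lf (nat_lit 0) (nat_lit 768136755)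 (nat_lit 304) (nat_lit 4187350127) (nat_lit 76) (nat_lit 6995783923) (nat_lit 65) (nat_lit 5) (nat_lit 69) (nat_lit 5) (nat_lit 66) (nat_lit 4) (nat_lit 480) (nat_lit 335) (nat_lit 325))))))) (XT.nd (nat_lit 858) (nat_lit 1292) (nat_lit 0) (XT.nd (nat_lit 390) (nat_lit 988) (nat_lit 0) (XT.nd (nat_lit 156) (nat_lit 456) (nat_lit 0) (XT.nd (nat_lit 78) (nat_lit 228) (nat_lit 0) (XT.lf (nat_lit 0) (nat_lit 4761447696) (nat_lit 228) (nat_lit 691165607) (nat_lit 304) (nat_lit 6631025123) (nat_lit 62) (nat_lit 5) (nat_lit 65) (nat_lit 5) (nat_lit 66) (nat_lit 4) (nat_lit 481) (nat_lit 335) (nat_lit 324)) (XT.lf (nat_lit 0) (nat_lit 1613844556) (nat_lit 228) (nat_lit 8614492497) (nat_lit 228) (nat_lit 1990374271) (nat_lit 59) (nat_lit 4) (nat_lit 62) (nat_lit 5) (nat_lit 62) (nat_lit 4) (nat_lit 482) (nat_lit 335) (nat_lit 323))) (XT.nd (nat_lit 78) (nat_lit 380) (nat_lit 0) (XT.lf (nat_lit 0) (nat_lit 2696313681) (nat_lit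 304) (nat_lit 1661772023) (nat_lit 76) (nat_lit 7998268500) (nat_lit 58) (nat_lit 5) (nat_lit 62) (nat_lit 5) (nat_lit 59) (nat_lit 4) (nat_lit 483) (nat_lit 335) (nat_lit 322)) (XT.nd (nat_lit 78) (nat_lit 228) (nat_lit 0) (XT.lf (nat_lit 0) (nat_lit 7434820246) (nat_lit 228) (nat_lit 5061511956) (nat_lit 0) (nat_lit 468450) (nat_lit 56) (nat_lit 5) (nat_lit 59) (nat_lit 4) (nat_lit 56) (nat_lit 4) (nat_lit 484) (nat_lit 335) (nat_lit 321)) (XT.lf (nat_lit 0) (nat_lit 4011173641) (nat_lit 228) (nat_lit 8259732928) (nat_lit 228) (nat_lit 369101652) (nat_lit 53) (nat_lit 4) (nat_lit 56) (nat_lit 5) (nat_lit 56) (nat_lit 4) (nat_lit 485) (nat_lit 335) (nat_lit 320))))) (XT.nd (nat_lit 234) (nat_lit 456) (nat_lit 0) (XT.nd (nat_lit 78) (nat_lit 304) (nat_lit 0) (XT.lf (nat_lit 0) (nat_lit 415454589) (nat_lit 152) (nat_lit 3917920998) (nat_lit 228) (nat_lit 8452665194) (nat_lit 50) (nat_lit 5) (nat_lit 52) (nat_lit 5) (nat_lit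 53) (nat_lit 4) (nat_lit 486) (nat_lit 335) (nat_lit 319)) (XT.nd (nat_lit 78) (nat_lit 304) (nat_lit 0) (XT.lf (nat_lit 0) (nat_lit 9123591801) (nat_lit 228) (nat_lit 3292233817) (nat_lit 0) (nat_lit 519154849) (nat_lit 50) (nat_lit 5) (nat_lit 53) (nat_lit 4) (nat_lit 50) (nat_lit 4) (nat_lit 487) (nat_lit 335) (nat_lit 318)) (XT.lf (nat_lit 0) (nat_lit 913208120) (nat_lit 304) (nat_lit 7181288258) (nat_lit 76) (nat_lit 4992238422) (nat_lit 46) (nat_lit 5) (nat_lit 50) (nat_lit 5) (nat_lit 47) (nat_lit 4) (nat_lit 488) (nat_lit 335) (nat_lit 317)))) (XT.nd (nat_lit 78) (nat_lit 304) (nat_lit 0) (XT.lf (nat_lit 0) (nat_lit 1983437189) (nat_lit 152) (nat_lit 3671351045) (nat_lit 228) (nat_lit 7586769051) (nat_lit 44) (nat_lit 5) (nat_lit 46) (nat_lit 5) (nat_lit 47) (nat_lit 4) (nat_lit 489) (nat_lit 335) (nat_lit 316)) (XT.nd (nat_lit 78) (nat_lit 304) (nat_lit 0) (XT.lf (nat_lit 0) (nat_lit 10483740959) (nat_lit 228)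 (nat_lit 2083521534) (nat_lit 0) (nat_lit 832370208) (nat_lit 44) (nat_lit 5) (nat_lit 47) (nat_lit 4) (nat_lit 44) (nat_lit 4) (nat_lit 490) (nat_lit 335) (nat_lit 315)) (XT.lf (nat_lit 0) (nat_lit 1835323725) (nat_lit 304) (nat_lit 6333446968) (nat_lit 76) (nat_lit 5391642674) (nat_lit 40) (nat_lit 5) (nat_lit 44) (nat_lit 5) (nat_lit 41) (nat_lit 4) (nat_lit 491) (nat_lit 335) (nat_lit 314)))))) (XT.nd (nat_lit 390) (nat_lit 760) (nat_lit 0) (XT.nd (nat_lit 156) (nat_lit 380) (nat_lit 0) (XT.nd (nat_lit 78) (nat_lit 0) (nat_lit 0) (XT.lf (nat_lit 0) (nat_lit 2940917694) (nat_lit 152) (nat_lit 3674682724) (nat_lit 228) (nat_lit 7108969015) (nat_lit 38) (nat_lit 5) (nat_lit 40) (nat_lit 5) (nat_lit 41) (nat_lit 4) (nat_lit 492) (nat_lit 335) (nat_lit 313)) (XT.lf (nat_lit 0) (nat_lit 11480242594) (nat_lit 228) (nat_lit 1516954239) (nat_lit 0) (nat_lit 895043333) (nat_lit 38) (nat_lit 5) (nat_lit 41) (nat_lit 4) (nat_lit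 38) (nat_lit 4) (nat_lit 493) (nat_lit 335) (nat_lit 312))) (XT.nd (nat_lit 78) (nat_lit 152) (nat_lit 0) (XT.lf (nat_lit 0) (nat_lit 2364762966) (nat_lit 228) (nat_lit 6168151324) (nat_lit 76) (nat_lit 5529706608) (nat_lit 35) (nat_lit 5) (nat_lit 38) (nat_lit 5) (nat_lit 36) (nat_lit 4) (nat_lit 494) (nat_lit 335) (nat_lit 311)) (XT.nd (nat_lit 78) (nat_lit 0) (nat_lit 0) (XT.lf (nat_lit 0) (nat_lit 3200159217) (nat_lit 152) (nat_lit 3976994551) (nat_lit 228) (nat_lit 7059495133) (nat_lit 33) (nat_lit 5) (nat_lit 35) (nat_lit 5) (nat_lit 36) (nat_lit 4) (nat_lit 495) (nat_lit 335) (nat_lit 310)) (XT.lf (nat_lit 0) (nat_lit 12073328614) (nat_lit 228) (nat_lit 1682946152) (nat_lit 0) (nat_lit 658138205) (nat_lit 33) (nat_lit 5) (nat_lit 36) (nat_lit 4) (nat_lit 33) (nat_lit 4) (nat_lit 496) (nat_lit 335) (nat_lit 309))))) (XT.nd (nat_lit 234) (nat_lit 380) (nat_lit 0) (XT.nd (nat_lit 78) (nat_lit 152) (nat_lit 0) (XT.lf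 (nat_lit 0) (nat_lit 2459256221) (nat_lit 228) (nat_lit 6779867718) (nat_lit 76) (nat_lit 5355893851) (nat_lit 30) (nat_lit 5) (nat_lit 33) (nat_lit 5) (nat_lit 31) (nat_lit 4) (nat_lit 497) (nat_lit 335) (nat_lit 308)) (XT.nd (nat_lit 78) (nat_lit 0) (nat_lit 0) (XT.lf (nat_lit 0) (nat_lit 2663886662) (nat_lit 152) (nat_lit 4631811194) (nat_lit 228) (nat_lit 7483804402) (nat_lit 28) (nat_lit 5) (nat_lit 30) (nat_lit 5) (nat_lit 31) (nat_lit 4) (nat_lit 498) (nat_lit 335) (nat_lit 307)) (XT.lf (nat_lit 0) (nat_lit 12218022690) (nat_lit 228) (nat_lit 2681747202) (nat_lit 0) (nat_lit 68129195) (nat_lit 28) (nat_lit 5) (nat_lit 31) (nat_lit 4) (nat_lit 28) (nat_lit 4) (nat_lit 499) (nat_lit 335) (nat_lit 306)))) (XT.nd (nat_lit 78) (nat_lit 152) (nat_lit 0) (XT.lf (nat_lit 0) (nat_lit 2071100960) (nat_lit 228) (nat_lit 8273332564) (nat_lit 76) (nat_lit 4814973258) (nat_lit 25) (nat_lit 5) (nat_lit 28) (nat_lit 5) (nat_lit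 26) (nat_lit 4) (nat_lit 500) (nat_lit 335) (nat_lit 305)) (XT.nd (nat_lit 78) (nat_lit 0) (nat_lit 0) (XT.lf (nat_lit 0) (nat_lit 1224212328) (nat_lit 152) (nat_lit 5697674304) (nat_lit 228) (nat_lit 8433095698) (nat_lit 23) (nat_lit 5) (nat_lit 25) (nat_lit 5) (nat_lit 26) (nat_lit 4) (nat_lit 501) (nat_lit 335) (nat_lit 304)) (XT.lf (nat_lit 0) (nat_lit 10923785731) (nat_lit 152) (nat_lit 945978516) (nat_lit 228) (nat_lit 3684708937) (nat_lit 23) (nat_lit 5) (nat_lit 25) (nat_lit 5) (nat_lit 26) (nat_lit 4) (nat_lit 502) (nat_lit 335) (nat_lit 303))))))))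
noncomputable def xc9 : XT := (XT.nd (nat_lit 57876) (nat_lit 0) (nat_lit 304) (XT.nd (nat_lit 57018) (nat_lit 0) (nat_lit 3268) (XT.nd (nat_lit 390) (nat_lit 76) (nat_lit 0) (XT.nd (nat_lit 156) (nat_lit 304) (nat_lit 0) (XT.nd (nat_lit 78) (nat_lit 0) (nat_lit 0) (XT.lf (nat_lit 0) (nat_lit 1146620696) (nat_lit 228) (nat_lit 10764699117) (nat_lit 76) (nat_lit 3846425281) (nat_lit 20) (nat_lit 5) (nat_lit 23) (nat_lit 5) (nat_lit 21) (nat_lit 4) (nat_lit 503) (nat_lit 335) (nat_lit 302)) (XT.lf (nat_lit 0) (nat_lit 6008259863) (nat_lit 228) (nat_lit 1222304428) (nat_lit 76) (nat_lit 8734375621) (nat_lit 20) (nat_lit 5) (nat_lit 23) (nat_lit 5) (nat_lit 21) (nat_lit 4) (nat_lit 504) (nat_lit 335) (nat_lit 301))) (XT.nd (nat_lit 78) (nat_lit 228) (nat_lit 0) (XT.lf (nat_lit 0) (nat_lit 8525700185) (nat_lit 76) (nat_lit 2443286301) (nat_lit 152) (nat_lit 5207259961) (nat_lit 19) (nat_lit 5) (nat_lit 20) (nat_lit 5) (nat_lit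 21) (nat_lit 4) (nat_lit 505) (nat_lit 335) (nat_lit 300)) (XT.nd (nat_lit 78) (nat_lit 76) (nat_lit 0) (XT.lf (nat_lit 0) (nat_lit 2006843364) (nat_lit 152) (nat_lit 14005852864) (nat_lit 152) (nat_lit 379412329) (nat_lit 17) (nat_lit 4) (nat_lit 19) (nat_lit 5) (nat_lit 19) (nat_lit 4) (nat_lit 506) (nat_lit 335) (nat_lit 299)) (XT.lf (nat_lit 0) (nat_lit 4499949616) (nat_lit 228) (nat_lit 4793478901) (nat_lit 76) (nat_lit 7317982528) (nat_lit 16) (nat_lit 5) (nat_lit 19) (nat_lit 5) (nat_lit 17) (nat_lit 4) (nat_lit 507) (nat_lit 335) (nat_lit 298))))) (XT.nd (nat_lit 56394) (nat_lit 0) (nat_lit 5548) (XT.nd (nat_lit 56238) (nat_lit 0) (nat_lit 6232) (XT.lf (nat_lit 0) (nat_lit 4957279474) (nat_lit 76) (nat_lit 4494480534) (nat_lit 152) (nat_lit 7383695123) (nat_lit 15) (nat_lit 5) (nat_lit 16) (nat_lit 5) (nat_lit 17) (nat_lit 4) (nat_lit 508) (nat_lit 335) (nat_lit 297)) (XT.nd (nat_lit 78) (nat_lit 304) (nat_lit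 0) (XT.lf (nat_lit 0) (nat_lit 888467155) (nat_lit 380) (nat_lit 3498941785) (nat_lit 0) (nat_lit 888467155) (nat_lit 101) (nat_lit 5) (nat_lit 106) (nat_lit 4) (nat_lit 101) (nat_lit 4) (nat_lit 468) (nat_lit 336) (nat_lit 336)) (XT.lf (nat_lit 0) (nat_lit 1404821746) (nat_lit 304) (nat_lit 4971594742) (nat_lit 304) (nat_lit 4280027291) (nat_lit 97) (nat_lit 4) (nat_lit 101) (nat_lit 5) (nat_lit 101) (nat_lit 4) (nat_lit 469) (nat_lit 336) (nat_lit 335)))) (XT.nd (nat_lit 78) (nat_lit 608) (nat_lit 0) (XT.lf (nat_lit 0) (nat_lit 278197368) (nat_lit 380) (nat_lit 807616071) (nat_lit 76) (nat_lit 9677837740) (nat_lit 96) (nat_lit 5) (nat_lit 101) (nat_lit 5) (nat_lit 97) (nat_lit 4) (nat_lit 470) (nat_lit 336) (nat_lit 334)) (XT.nd (nat_lit 78) (nat_lit 304) (nat_lit 0) (XT.lf (nat_lit 0) (nat_lit 4871320533) (nat_lit 380) (nat_lit 3124186755) (nat_lit 0) (nat_lit 2876920729) (nat_lit 92) (nat_lit 5) (nat_lit 97) (nat_lit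 4) (nat_lit 92) (nat_lit 4) (nat_lit 471) (nat_lit 336) (nat_lit 333)) (XT.lf (nat_lit 0) (nat_lit 5455607398) (nat_lit 304) (nat_lit 4080742546) (nat_lit 304) (nat_lit 1447441316) (nat_lit 88) (nat_lit 4) (nat_lit 92) (nat_lit 5) (nat_lit 92) (nat_lit 4) (nat_lit 472) (nat_lit 336) (nat_lit 332)))))) (XT.nd (nat_lit 390) (nat_lit 1140) (nat_lit 0) (XT.nd (nat_lit 156) (nat_lit 532) (nat_lit 0) (XT.nd (nat_lit 78) (nat_lit 304) (nat_lit 0) (XT.lf (nat_lit 0) (nat_lit 3059829221) (nat_lit 228) (nat_lit 68638303) (nat_lit 304) (nat_lit 7969048304) (nat_lit 84) (nat_lit 5) (nat_lit 87) (nat_lit 5) (nat_lit 88) (nat_lit 4) (nat_lit 473) (nat_lit 336) (nat_lit 331)) (XT.lf (nat_lit 0) (nat_lit 540778298) (nat_lit 304) (nat_lit 7235189141) (nat_lit 304) (nat_lit 3437378079) (nat_lit 80) (nat_lit 4) (nat_lit 84) (nat_lit 5) (nat_lit 84) (nat_lit 4) (nat_lit 474) (nat_lit 336) (nat_lit 330))) (XT.nd (nat_lit 78) (nat_lit 456)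 (nat_lit 0) (XT.lf (nat_lit 0) (nat_lit 1156738692) (nat_lit 380) (nat_lit 2051445063) (nat_lit 76) (nat_lit 8123417746) (nat_lit 79) (nat_lit 5) (nat_lit 84) (nat_lit 5) (nat_lit 80) (nat_lit 4) (nat_lit 475) (nat_lit 336) (nat_lit 329)) (XT.nd (nat_lit 78) (nat_lit 228) (nat_lit 0) (XT.lf (nat_lit 0) (nat_lit 5780154651) (nat_lit 304) (nat_lit 4761143511) (nat_lit 0) (nat_lit 910811583) (nat_lit 76) (nat_lit 5) (nat_lit 80) (nat_lit 4) (nat_lit 76) (nat_lit 4) (nat_lit 476) (nat_lit 336) (nat_lit 328)) (XT.lf (nat_lit 0) (nat_lit 3981763543) (nat_lit 228) (nat_lit 6509458193) (nat_lit 228) (nat_lit 1083912986) (nat_lit 73) (nat_lit 4) (nat_lit 76) (nat_lit 5) (nat_lit 76) (nat_lit 4) (nat_lit 477) (nat_lit 336) (nat_lit 327))))) (XT.nd (nat_lit 234) (nat_lit 532) (nat_lit 0) (XT.nd (nat_lit 78) (nat_lit 304) (nat_lit 0) (XT.lf (nat_lit 0) (nat_lit 1144987130) (nat_lit 228) (nat_lit 2377700272) (nat_lit 304) (nat_lit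 8177996522) (nat_lit 69) (nat_lit 5) (nat_lit 72) (nat_lit 5) (nat_lit 73) (nat_lit 4) (nat_lit 478) (nat_lit 336) (nat_lit 326)) (XT.nd (nat_lit 78) (nat_lit 304) (nat_lit 0) (XT.lf (nat_lit 0) (nat_lit 8204783830) (nat_lit 304) (nat_lit 1796973038) (nat_lit 0) (nat_lit 1826896030) (nat_lit 69) (nat_lit 5) (nat_lit 73) (nat_lit 4) (nat_lit 69) (nat_lit 4) (nat_lit 479) (nat_lit 336) (nat_lit 325)) (XT.lf (nat_lit 0) (nat_lit 1005730782) (nat_lit 304) (nat_lit 4860156421) (nat_lit 76) (nat_lit 6093214987) (nat_lit 65) (nat_lit 5) (nat_lit 69) (nat_lit 5) (nat_lit 66) (nat_lit 4) (nat_lit 480) (nat_lit 336) (nat_lit 324)))) (XT.nd (nat_lit 78) (nat_lit 304) (nat_lit 0) (XT.lf (nat_lit 0) (nat_lit 4025112718) (nat_lit 228) (nat_lit 1628656953) (nat_lit 304) (nat_lit 6438433389) (nat_lit 62) (nat_lit 5) (nat_lit 65) (nat_lit 5) (nat_lit 66) (nat_lit 4) (nat_lit 481) (nat_lit 336) (nat_lit 323)) (XT.nd (nat_lit 78) (nat_lit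 76) (nat_lit 0) (XT.lf (nat_lit 0) (nat_lit 810490149) (nat_lit 228) (nat_lit 9576173213) (nat_lit 228) (nat_lit 1841473604) (nat_lit 59) (nat_lit 4) (nat_lit 62) (nat_lit 5) (nat_lit 62) (nat_lit 4) (nat_lit 482) (nat_lit 336) (nat_lit 322)) (XT.lf (nat_lit 0) (nat_lit 2811792738) (nat_lit 304) (nat_lit 2529591448) (nat_lit 76) (nat_lit 7025009935) (nat_lit 58) (nat_lit 5) (nat_lit 62) (nat_lit 5) (nat_lit 59) (nat_lit 4) (nat_lit 483) (nat_lit 336) (nat_lit 321))))))) (XT.nd (nat_lit 858) (nat_lit 1216) (nat_lit 0) (XT.nd (nat_lit 390) (nat_lit 836) (nat_lit 0) (XT.nd (nat_lit 156) (nat_lit 532) (nat_lit 0) (XT.nd (nat_lit 78) (nat_lit 228) (nat_lit 0) (XT.lf (nat_lit 0) (nat_lit 6502222679) (nat_lit 152) (nat_lit 1011163720) (nat_lit 228) (nat_lit 4994196579) (nat_lit 56) (nat_lit 5) (nat_lit 58) (nat_lit 5) (nat_lit 59) (nat_lit 4) (nat_lit 484) (nat_lit 336) (nat_lit 320)) (XT.lf (nat_lit 0) (nat_lit 3007592171)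 (nat_lit 228) (nat_lit 9298067457) (nat_lit 228) (nat_lit 346011253) (nat_lit 53) (nat_lit 4) (nat_lit 56) (nat_lit 5) (nat_lit 56) (nat_lit 4) (nat_lit 485) (nat_lit 336) (nat_lit 319))) (XT.nd (nat_lit 78) (nat_lit 456) (nat_lit 0) (XT.lf (nat_lit 0) (nat_lit 4322787836) (nat_lit 304) (nat_lit 658586367) (nat_lit 76) (nat_lit 7816997659) (nat_lit 52) (nat_lit 5) (nat_lit 56) (nat_lit 5) (nat_lit 53) (nat_lit 4) (nat_lit 486) (nat_lit 336) (nat_lit 318)) (XT.nd (nat_lit 78) (nat_lit 304) (nat_lit 0) (XT.lf (nat_lit 0) (nat_lit 8510589070) (nat_lit 152) (nat_lit 564247172) (nat_lit 228) (nat_lit 3873242496) (nat_lit 50) (nat_lit 5) (nat_lit 52) (nat_lit 5) (nat_lit 53) (nat_lit 4) (nat_lit 487) (nat_lit 336) (nat_lit 317)) (XT.lf (nat_lit 0) (nat_lit 810403442) (nat_lit 304) (nat_lit 8404271173) (nat_lit 76) (nat_lit 3886005416) (nat_lit 46) (nat_lit 5) (nat_lit 50) (nat_lit 5) (nat_lit 47) (nat_lit 4) (nat_lit 488)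 (nat_lit 336) (nat_lit 316))))) (XT.nd (nat_lit 234) (nat_lit 380) (nat_lit 0) (XT.nd (nat_lit 78) (nat_lit 304) (nat_lit 0) (XT.lf (nat_lit 0) (nat_lit 691179401) (nat_lit 152) (nat_lit 4822498148) (nat_lit 228) (nat_lit 7742594703) (nat_lit 44) (nat_lit 5) (nat_lit 46) (nat_lit 5) (nat_lit 47) (nat_lit 4) (nat_lit 489) (nat_lit 336) (nat_lit 315)) (XT.nd (nat_lit 78) (nat_lit 304) (nat_lit 0) (XT.lf (nat_lit 0) (nat_lit 9977456596) (nat_lit 152) (nat_lit 330030824) (nat_lit 228) (nat_lit 3107566648) (nat_lit 44) (nat_lit 5) (nat_lit 46) (nat_lit 5) (nat_lit 47) (nat_lit 4) (nat_lit 490) (nat_lit 336) (nat_lit 314)) (XT.lf (nat_lit 0) (nat_lit 1605287996) (nat_lit 304) (nat_lit 7770159557) (nat_lit 76) (nat_lit 4201232971) (nat_lit 40) (nat_lit 5) (nat_lit 44) (nat_lit 5) (nat_lit 41) (nat_lit 4) (nat_lit 491) (nat_lit 336) (nat_lit 313)))) (XT.nd (nat_lit 78) (nat_lit 228) (nat_lit 0) (XT.lf (nat_lit 0) (nat_lit 1432968856)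 (nat_lit 152) (nat_lit 4913624343) (nat_lit 228) (nat_lit 7395026161) (nat_lit 38) (nat_lit 5) (nat_lit 40) (nat_lit 5) (nat_lit 41) (nat_lit 4) (nat_lit 492) (nat_lit 336) (nat_lit 312)) (XT.nd (nat_lit 78) (nat_lit 228) (nat_lit 0) (XT.lf (nat_lit 0) (nat_lit 10822222620) (nat_lit 152) (nat_lit 354183690) (nat_lit 228) (nat_lit 2733583638) (nat_lit 38) (nat_lit 5) (nat_lit 40) (nat_lit 5) (nat_lit 41) (nat_lit 4) (nat_lit 493) (nat_lit 336) (nat_lit 311)) (XT.lf (nat_lit 0) (nat_lit 2005651128) (nat_lit 228) (nat_lit 7824948821) (nat_lit 76) (nat_lit 4250650505) (nat_lit 35) (nat_lit 5) (nat_lit 38) (nat_lit 5) (nat_lit 36) (nat_lit 4) (nat_lit 494) (nat_lit 336) (nat_lit 310)))))) (XT.nd (nat_lit 390) (nat_lit 684) (nat_lit 0) (XT.nd (nat_lit 156) (nat_lit 380) (nat_lit 0) (XT.nd (nat_lit 78) (nat_lit 0) (nat_lit 0) (XT.lf (nat_lit 0) (nat_lit 1470074639) (nat_lit 152) (nat_lit 5308262768) (nat_lit 228) (nat_lit 7477738227)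 (nat_lit 33) (nat_lit 5) (nat_lit 35) (nat_lit 5) (nat_lit 36) (nat_lit 4) (nat_lit 495) (nat_lit 336) (nat_lit 309)) (XT.lf (nat_lit 0) (nat_lit 10955534857) (nat_lit 152) (nat_lit 686407793) (nat_lit 228) (nat_lit 2792551471) (nat_lit 33) (nat_lit 5) (nat_lit 35) (nat_lit 5) (nat_lit 36) (nat_lit 4) (nat_lit 496) (nat_lit 336) (nat_lit 308))) (XT.nd (nat_lit 78) (nat_lit 152) (nat_lit 0) (XT.lf (nat_lit 0) (nat_lit 1969016913) (nat_lit 228) (nat_lit 8663335026) (nat_lit 76) (nat_lit 3983702398) (nat_lit 30) (nat_lit 5) (nat_lit 33) (nat_lit 5) (nat_lit 31) (nat_lit 4) (nat_lit 497) (nat_lit 336) (nat_lit 307)) (XT.nd (nat_lit 78) (nat_lit 0) (nat_lit 0) (XT.lf (nat_lit 0) (nat_lit 704988098) (nat_lit 152) (nat_lit 6059965191) (nat_lit 228) (nat_lit 8036398472) (nat_lit 28) (nat_lit 5) (nat_lit 30) (nat_lit 5) (nat_lit 31) (nat_lit 4) (nat_lit 498) (nat_lit 336) (nat_lit 306)) (XT.lf (nat_lit 0) (nat_lit 10278297791)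 (nat_lit 152) (nat_lit 1380969341) (nat_lit 228) (nat_lit 3331044472) (nat_lit 28) (nat_lit 5) (nat_lit 30) (nat_lit 5) (nat_lit 31) (nat_lit 4) (nat_lit 499) (nat_lit 336) (nat_lit 305))))) (XT.nd (nat_lit 234) (nat_lit 304) (nat_lit 0) (XT.nd (nat_lit 78) (nat_lit 152) (nat_lit 0) (XT.lf (nat_lit 0) (nat_lit 1447475882) (nat_lit 228) (nat_lit 10390299527) (nat_lit 76) (nat_lit 3345123624) (nat_lit 25) (nat_lit 5) (nat_lit 28) (nat_lit 5) (nat_lit 26) (nat_lit 4) (nat_lit 500) (nat_lit 336) (nat_lit 304)) (XT.nd (nat_lit 78) (nat_lit 152) (nat_lit 0) (XT.lf (nat_lit 0) (nat_lit 6263188172) (nat_lit 228) (nat_lit 957700081) (nat_lit 76) (nat_lit 8158290430) (nat_lit 25) (nat_lit 5) (nat_lit 28) (nat_lit 5) (nat_lit 26) (nat_lit 4) (nat_lit 501) (nat_lit 336) (nat_lit 303)) (XT.lf (nat_lit 0) (nat_lit 8680577952) (nat_lit 152) (nat_lit 2497278717) (nat_lit 228) (nat_lit 4401479630) (nat_lit 23) (nat_lit 5) (nat_lit 25)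 (nat_lit 5) (nat_lit 26) (nat_lit 4) (nat_lit 502) (nat_lit 336) (nat_lit 302)))) (XT.nd (nat_lit 78) (nat_lit 76) (nat_lit 0) (XT.lf (nat_lit 0) (nat_lit 387143407) (nat_lit 228) (nat_lit 13122255884) (nat_lit 76) (nat_lit 2274346618) (nat_lit 20) (nat_lit 5) (nat_lit 23) (nat_lit 5) (nat_lit 21) (nat_lit 4) (nat_lit 503) (nat_lit 336) (nat_lit 301)) (XT.nd (nat_lit 78) (nat_lit 76) (nat_lit 0) (XT.lf (nat_lit 0) (nat_lit 5222297511) (nat_lit 228) (nat_lit 3627907760) (nat_lit 76) (nat_lit 7141267590) (nat_lit 20) (nat_lit 5) (nat_lit 23) (nat_lit 5) (nat_lit 21) (nat_lit 4) (nat_lit 504) (nat_lit 336) (nat_lit 300)) (XT.lf (nat_lit 0) (nat_lit 6040397181) (nat_lit 76) (nat_lit 4100524968) (nat_lit 152) (nat_lit 6062701671) (nat_lit 19) (nat_lit 5) (nat_lit 20) (nat_lit 5) (nat_lit 21) (nat_lit 4) (nat_lit 505) (nat_lit 336) (nat_lit 299))))))))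
noncomputable def xc10 : XT := (XT.nd (nat_lit 57720) (nat_lit 0) (nat_lit 304) (XT.nd (nat_lit 56862) (nat_lit 0) (nat_lit 3116) (XT.nd (nat_lit 56394) (nat_lit 0) (nat_lit 5244) (XT.nd (nat_lit 156) (nat_lit 76) (nat_lit 0) (XT.nd (nat_lit 78) (nat_lit 228) (nat_lit 0) (XT.lf (nat_lit 0) (nat_lit 15134945237) (nat_lit 152) (nat_lit 568572788) (nat_lit 0) (nat_lit 716963978) (nat_lit 19) (nat_lit 5) (nat_lit 21) (nat_lit 4) (nat_lit 19) (nat_lit 4) (nat_lit 506) (nat_lit 336) (nat_lit 298)) (XT.lf (nat_lit 0) (nat_lit 3576077862) (nat_lit 228) (nat_lit 7446202595) (nat_lit 76) (nat_lit 5618216570) (nat_lit 16) (nat_lit 5) (nat_lit 19) (nat_lit 5) (nat_lit 17) (nat_lit 4) (nat_lit 507) (nat_lit 336) (nat_lit 297))) (XT.nd (nat_lit 56082) (nat_lit 0) (nat_lit 6916) (XT.lf (nat_lit 0) (nat_lit 2222401896) (nat_lit 76) (nat_lit 6262370976) (nat_lit 152) (nat_lit 8380632753) (nat_lit 15) (nat_lit 5) (nat_lit 16) (nat_lit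 5) (nat_lit 17) (nat_lit 4) (nat_lit 508) (nat_lit 336) (nat_lit 296)) (XT.nd (nat_lit 78) (nat_lit 304) (nat_lit 0) (XT.lf (nat_lit 0) (nat_lit 1904523875) (nat_lit 380) (nat_lit 1364837998) (nat_lit 0) (nat_lit 1904523875) (nat_lit 110) (nat_lit 5) (nat_lit 115) (nat_lit 4) (nat_lit 110) (nat_lit 4) (nat_lit 466) (nat_lit 337) (nat_lit 337)) (XT.lf (nat_lit 0) (nat_lit 5602631472) (nat_lit 304) (nat_lit 2782960883) (nat_lit 304) (nat_lit 2063454107) (nat_lit 106) (nat_lit 4) (nat_lit 110) (nat_lit 5) (nat_lit 110) (nat_lit 4) (nat_lit 467) (nat_lit 337) (nat_lit 336))))) (XT.nd (nat_lit 234) (nat_lit 912) (nat_lit 0) (XT.nd (nat_lit 78) (nat_lit 380) (nat_lit 0) (XT.lf (nat_lit 0) (nat_lit 2447726391) (nat_lit 380) (nat_lit 7053964086) (nat_lit 0) (nat_lit 1050760140) (nat_lit 101) (nat_lit 5) (nat_lit 106) (nat_lit 4) (nat_lit 101) (nat_lit 4) (nat_lit 468) (nat_lit 337) (nat_lit 335)) (XT.nd (nat_lit 78) (nat_lit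 76) (nat_lit 0) (XT.lf (nat_lit 0) (nat_lit 1292284383) (nat_lit 304) (nat_lit 5720265363) (nat_lit 304) (nat_lit 3645291807) (nat_lit 97) (nat_lit 4) (nat_lit 101) (nat_lit 5) (nat_lit 101) (nat_lit 4) (nat_lit 469) (nat_lit 337) (nat_lit 334)) (XT.lf (nat_lit 0) (nat_lit 870762058) (nat_lit 380) (nat_lit 980747242) (nat_lit 76) (nat_lit 8914140085) (nat_lit 96) (nat_lit 5) (nat_lit 101) (nat_lit 5) (nat_lit 97) (nat_lit 4) (nat_lit 470) (nat_lit 337) (nat_lit 333)))) (XT.nd (nat_lit 78) (nat_lit 608) (nat_lit 0) (XT.lf (nat_lit 0) (nat_lit 5424092067) (nat_lit 380) (nat_lit 3351912446) (nat_lit 0) (nat_lit 2099223386) (nat_lit 92) (nat_lit 5) (nat_lit 97) (nat_lit 4) (nat_lit 92) (nat_lit 4) (nat_lit 471) (nat_lit 337) (nat_lit 332)) (XT.nd (nat_lit 78) (nat_lit 304) (nat_lit 0) (XT.lf (nat_lit 0) (nat_lit 5169967188) (nat_lit 304) (nat_lit 4884284836) (nat_lit 304) (nat_lit 933042207) (nat_lit 88) (nat_lit 4) (nat_lit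 92) (nat_lit 5) (nat_lit 92) (nat_lit 4) (nat_lit 472) (nat_lit 337) (nat_lit 331)) (XT.lf (nat_lit 0) (nat_lit 2708483104) (nat_lit 228) (nat_lit 892416815) (nat_lit 304) (nat_lit 7500761967) (nat_lit 84) (nat_lit 5) (nat_lit 87) (nat_lit 5) (nat_lit 88) (nat_lit 4) (nat_lit 473) (nat_lit 337) (nat_lit 330)))))) (XT.nd (nat_lit 390) (nat_lit 988) (nat_lit 0) (XT.nd (nat_lit 156) (nat_lit 760) (nat_lit 0) (XT.nd (nat_lit 78) (nat_lit 76) (nat_lit 0) (XT.lf (nat_lit 0) (nat_lit 130839782) (nat_lit 304) (nat_lit 8076768760) (nat_lit 304) (nat_lit 3010704233) (nat_lit 80) (nat_lit 4) (nat_lit 84) (nat_lit 5) (nat_lit 84) (nat_lit 4) (nat_lit 474) (nat_lit 337) (nat_lit 329)) (XT.lf (nat_lit 0) (nat_lit 1545106864) (nat_lit 380) (nat_lit 2523621367) (nat_lit 76) (nat_lit 7268444480) (nat_lit 79) (nat_lit 5) (nat_lit 84) (nat_lit 5) (nat_lit 80) (nat_lit 4) (nat_lit 475) (nat_lit 337) (nat_lit 328))) (XT.nd (nat_lit 78) (nat_lit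 532) (nat_lit 0) (XT.lf (nat_lit 0) (nat_lit 6127247643) (nat_lit 304) (nat_lit 5294274485) (nat_lit 0) (nat_lit 36989392) (nat_lit 76) (nat_lit 5) (nat_lit 80) (nat_lit 4) (nat_lit 76) (nat_lit 4) (nat_lit 476) (nat_lit 337) (nat_lit 327)) (XT.nd (nat_lit 78) (nat_lit 304) (nat_lit 0) (XT.lf (nat_lit 0) (nat_lit 3387252950) (nat_lit 228) (nat_lit 7415279313) (nat_lit 228) (nat_lit 779724845) (nat_lit 73) (nat_lit 4) (nat_lit 76) (nat_lit 5) (nat_lit 76) (nat_lit 4) (nat_lit 477) (nat_lit 337) (nat_lit 326)) (XT.lf (nat_lit 0) (nat_lit 478986324) (nat_lit 228) (nat_lit 3307719083) (nat_lit 304) (nat_lit 7921789786) (nat_lit 69) (nat_lit 5) (nat_lit 72) (nat_lit 5) (nat_lit 73) (nat_lit 4) (nat_lit 478) (nat_lit 337) (nat_lit 325))))) (XT.nd (nat_lit 234) (nat_lit 456) (nat_lit 0) (XT.nd (nat_lit 78) (nat_lit 532) (nat_lit 0) (XT.lf (nat_lit 0) (nat_lit 8431044483) (nat_lit 304) (nat_lit 2518547084) (nat_lit 0) (nat_lit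 887632425) (nat_lit 69) (nat_lit 5) (nat_lit 73) (nat_lit 4) (nat_lit 69) (nat_lit 4) (nat_lit 479) (nat_lit 337) (nat_lit 324)) (XT.nd (nat_lit 78) (nat_lit 228) (nat_lit 0) (XT.lf (nat_lit 0) (nat_lit 1184129783) (nat_lit 304) (nat_lit 5655239309) (nat_lit 76) (nat_lit 5129009128) (nat_lit 65) (nat_lit 5) (nat_lit 69) (nat_lit 5) (nat_lit 66) (nat_lit 4) (nat_lit 480) (nat_lit 337) (nat_lit 323)) (XT.lf (nat_lit 0) (nat_lit 3165946496) (nat_lit 228) (nat_lit 2629607737) (nat_lit 304) (nat_lit 6306661552) (nat_lit 62) (nat_lit 5) (nat_lit 65) (nat_lit 5) (nat_lit 66) (nat_lit 4) (nat_lit 481) (nat_lit 337) (nat_lit 322)))) (XT.nd (nat_lit 78) (nat_lit 456) (nat_lit 0) (XT.lf (nat_lit 0) (nat_lit 10485777696) (nat_lit 304) (nat_lit 115766228) (nat_lit 0) (nat_lit 1637463491) (nat_lit 62) (nat_lit 5) (nat_lit 66) (nat_lit 4) (nat_lit 62) (nat_lit 4) (nat_lit 482) (nat_lit 337) (nat_lit 321)) (XT.nd (nat_lit 78) (nat_lit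 152) (nat_lit 0) (XT.lf (nat_lit 0) (nat_lit 2867260907) (nat_lit 304) (nat_lit 3521852241) (nat_lit 76) (nat_lit 5988776484) (nat_lit 58) (nat_lit 5) (nat_lit 62) (nat_lit 5) (nat_lit 59) (nat_lit 4) (nat_lit 483) (nat_lit 337) (nat_lit 320)) (XT.lf (nat_lit 0) (nat_lit 5444111661) (nat_lit 152) (nat_lit 2087626168) (nat_lit 228) (nat_lit 4988087065) (nat_lit 56) (nat_lit 5) (nat_lit 58) (nat_lit 5) (nat_lit 59) (nat_lit 4) (nat_lit 484) (nat_lit 337) (nat_lit 319))))))) (XT.nd (nat_lit 858) (nat_lit 1216) (nat_lit 0) (XT.nd (nat_lit 390) (nat_lit 836) (nat_lit 0) (XT.nd (nat_lit 156) (nat_lit 456) (nat_lit 0) (XT.nd (nat_lit 78) (nat_lit 76) (nat_lit 0) (XT.lf (nat_lit 0) (nat_lit 1877310257) (nat_lit 228) (nat_lit 10402243708) (nat_lit 228) (nat_lit 385251965) (nat_lit 53) (nat_lit 4) (nat_lit 56) (nat_lit 5) (nat_lit 56) (nat_lit 4) (nat_lit 485) (nat_lit 337) (nat_lit 318)) (XT.lf (nat_lit 0) (nat_lit 4253985390)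 (nat_lit 304) (nat_lit 1853903600) (nat_lit 76) (nat_lit 6704228381) (nat_lit 52) (nat_lit 5) (nat_lit 56) (nat_lit 5) (nat_lit 53) (nat_lit 4) (nat_lit 486) (nat_lit 337) (nat_lit 317))) (XT.nd (nat_lit 78) (nat_lit 304) (nat_lit 0) (XT.lf (nat_lit 0) (nat_lit 7247574779) (nat_lit 152) (nat_lit 1720772041) (nat_lit 228) (nat_lit 3994234928) (nat_lit 50) (nat_lit 5) (nat_lit 52) (nat_lit 5) (nat_lit 53) (nat_lit 4) (nat_lit 487) (nat_lit 337) (nat_lit 316)) (XT.nd (nat_lit 78) (nat_lit 0) (nat_lit 0) (XT.lf (nat_lit 0) (nat_lit 645112729) (nat_lit 304) (nat_lit 9757413640) (nat_lit 76) (nat_lit 2713593701) (nat_lit 46) (nat_lit 5) (nat_lit 50) (nat_lit 5) (nat_lit 47) (nat_lit 4) (nat_lit 488) (nat_lit 337) (nat_lit 315)) (XT.lf (nat_lit 0) (nat_lit 5314570013) (nat_lit 304) (nat_lit 722328673) (nat_lit 76) (nat_lit 7235493485) (nat_lit 46) (nat_lit 5) (nat_lit 50) (nat_lit 5) (nat_lit 47) (nat_lit 4) (nat_lit 489) (nat_lit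 337) (nat_lit 314))))) (XT.nd (nat_lit 234) (nat_lit 380) (nat_lit 0) (XT.nd (nat_lit 78) (nat_lit 304) (nat_lit 0) (XT.lf (nat_lit 0) (nat_lit 8503385992) (nat_lit 152) (nat_lit 1571156697) (nat_lit 228) (nat_lit 3357311515) (nat_lit 44) (nat_lit 5) (nat_lit 46) (nat_lit 5) (nat_lit 47) (nat_lit 4) (nat_lit 490) (nat_lit 337) (nat_lit 313)) (XT.nd (nat_lit 78) (nat_lit 0) (nat_lit 0) (XT.lf (nat_lit 0) (nat_lit 1311706163) (nat_lit 304) (nat_lit 9339554040) (nat_lit 76) (nat_lit 2943198477) (nat_lit 40) (nat_lit 5) (nat_lit 44) (nat_lit 5) (nat_lit 41) (nat_lit 4) (nat_lit 491) (nat_lit 337) (nat_lit 312)) (XT.lf (nat_lit 0) (nat_lit 6015098869) (nat_lit 304) (nat_lit 205669494) (nat_lit 76) (nat_lit 7539390675) (nat_lit 40) (nat_lit 5) (nat_lit 44) (nat_lit 5) (nat_lit 41) (nat_lit 4) (nat_lit 492) (nat_lit 337) (nat_lit 311)))) (XT.nd (nat_lit 78) (nat_lit 228) (nat_lit 0) (XT.lf (nat_lit 0) (nat_lit 9130732716) (nat_lit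 152) (nat_lit 1684453018) (nat_lit 228) (nat_lit 3113941628) (nat_lit 38) (nat_lit 5) (nat_lit 40) (nat_lit 5) (nat_lit 41) (nat_lit 4) (nat_lit 493) (nat_lit 337) (nat_lit 310)) (XT.nd (nat_lit 78) (nat_lit 0) (nat_lit 0) (XT.lf (nat_lit 0) (nat_lit 1581844286) (nat_lit 228) (nat_lit 9617087625) (nat_lit 76) (nat_lit 2902477179) (nat_lit 35) (nat_lit 5) (nat_lit 38) (nat_lit 5) (nat_lit 36) (nat_lit 4) (nat_lit 494) (nat_lit 337) (nat_lit 309)) (XT.lf (nat_lit 0) (nat_lit 6317072466) (nat_lit 228) (nat_lit 390949076) (nat_lit 76) (nat_lit 7568964914) (nat_lit 35) (nat_lit 5) (nat_lit 38) (nat_lit 5) (nat_lit 36) (nat_lit 4) (nat_lit 495) (nat_lit 337) (nat_lit 308)))))) (XT.nd (nat_lit 390) (nat_lit 456) (nat_lit 0) (XT.nd (nat_lit 156) (nat_lit 380) (nat_lit 0) (XT.nd (nat_lit 78) (nat_lit 228) (nat_lit 0) (XT.lf (nat_lit 0) (nat_lit 9040037362) (nat_lit 152) (nat_lit 2110382290) (nat_lit 228) (nat_lit 3305593418)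 (nat_lit 33) (nat_lit 5) (nat_lit 35) (nat_lit 5) (nat_lit 36) (nat_lit 4) (nat_lit 496) (nat_lit 337) (nat_lit 307)) (XT.lf (nat_lit 0) (nat_lit 1412843502) (nat_lit 228) (nat_lit 10684946378) (nat_lit 76) (nat_lit 2540850078) (nat_lit 30) (nat_lit 5) (nat_lit 33) (nat_lit 5) (nat_lit 31) (nat_lit 4) (nat_lit 497) (nat_lit 337) (nat_lit 306))) (XT.nd (nat_lit 78) (nat_lit 380) (nat_lit 0) (XT.lf (nat_lit 0) (nat_lit 6176960676) (nat_lit 228) (nat_lit 1374633955) (nat_lit 76) (nat_lit 7272981929) (nat_lit 30) (nat_lit 5) (nat_lit 33) (nat_lit 5) (nat_lit 31) (nat_lit 4) (nat_lit 498) (nat_lit 337) (nat_lit 305)) (XT.nd (nat_lit 78) (nat_lit 228) (nat_lit 0) (XT.lf (nat_lit 0) (nat_lit 8131963738) (nat_lit 152) (nat_lit 2903244812) (nat_lit 228) (nat_lit 3979051913) (nat_lit 28) (nat_lit 5) (nat_lit 30) (nat_lit 5) (nat_lit 31) (nat_lit 4) (nat_lit 499) (nat_lit 337) (nat_lit 304)) (XT.lf (nat_lit 0) (nat_lit 756585834)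 (nat_lit 228) (nat_lit 12648362987) (nat_lit 76) (nat_lit 1803013477) (nat_lit 25) (nat_lit 5) (nat_lit 28) (nat_lit 5) (nat_lit 26) (nat_lit 4) (nat_lit 500) (nat_lit 337) (nat_lit 303))))) (XT.nd (nat_lit 234) (nat_lit 152) (nat_lit 0) (XT.nd (nat_lit 78) (nat_lit 304) (nat_lit 0) (XT.lf (nat_lit 0) (nat_lit 5545705001) (nat_lit 228) (nat_lit 3263694601) (nat_lit 76) (nat_lit 6595376789) (nat_lit 25) (nat_lit 5) (nat_lit 28) (nat_lit 5) (nat_lit 26) (nat_lit 4) (nat_lit 501) (nat_lit 337) (nat_lit 302)) (XT.nd (nat_lit 78) (nat_lit 152) (nat_lit 0) (XT.lf (nat_lit 0) (nat_lit 6296322253) (nat_lit 152) (nat_lit 4122499387) (nat_lit 228) (nat_lit 5186945936) (nat_lit 23) (nat_lit 5) (nat_lit 25) (nat_lit 5) (nat_lit 26) (nat_lit 4) (nat_lit 502) (nat_lit 337) (nat_lit 301)) (XT.lf (nat_lit 0) (nat_lit 184364307) (nat_lit 152) (nat_lit 15180035094) (nat_lit 152) (nat_lit 446884221) (nat_lit 21) (nat_lit 4) (nat_lit 23)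 (nat_lit 5) (nat_lit 23) (nat_lit 4) (nat_lit 503) (nat_lit 337) (nat_lit 300)))) (XT.nd (nat_lit 78) (nat_lit 76) (nat_lit 0) (XT.lf (nat_lit 0) (nat_lit 4368165100) (nat_lit 228) (nat_lit 6176774198) (nat_lit 76) (nat_lit 5474651005) (nat_lit 20) (nat_lit 5) (nat_lit 23) (nat_lit 5) (nat_lit 21) (nat_lit 4) (nat_lit 504) (nat_lit 337) (nat_lit 299)) (XT.nd (nat_lit 78) (nat_lit 0) (nat_lit 0) (XT.lf (nat_lit 0) (nat_lit 3410863072) (nat_lit 76) (nat_lit 5833397371) (nat_lit 152) (nat_lit 6988333744) (nat_lit 19) (nat_lit 5) (nat_lit 20) (nat_lit 5) (nat_lit 21) (nat_lit 4) (nat_lit 505) (nat_lit 337) (nat_lit 298)) (XT.lf (nat_lit 0) (nat_lit 13181309275) (nat_lit 76) (nat_lit 1027002056) (nat_lit 152) (nat_lit 2241742775) (nat_lit 19) (nat_lit 5) (nat_lit 20) (nat_lit 5) (nat_lit 21) (nat_lit 4) (nat_lit 506) (nat_lit 337) (nat_lit 297))))))))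
noncomputable def xc11 : XT := (XT.nd (nat_lit 57564) (nat_lit 0) (nat_lit 228) (XT.nd (nat_lit 56706) (nat_lit 0) (nat_lit 3192) (XT.nd (nat_lit 56238) (nat_lit 0) (nat_lit 5472) (XT.nd (nat_lit 56004) (nat_lit 0) (nat_lit 7144) (XT.nd (nat_lit 78) (nat_lit 0) (nat_lit 0) (XT.lf (nat_lit 0) (nat_lit 2582504011) (nat_lit 228) (nat_lit 10245477419) (nat_lit 76) (nat_lit 3843212242) (nat_lit 16) (nat_lit 5) (nat_lit 19) (nat_lit 5) (nat_lit 17) (nat_lit 4) (nat_lit 507) (nat_lit 337) (nat_lit 296)) (XT.lf (nat_lit 0) (nat_lit 7451908200) (nat_lit 228) (nat_lit 651398044) (nat_lit 76) (nat_lit 8793584003) (nat_lit 16) (nat_lit 5) (nat_lit 19) (nat_lit 5) (nat_lit 17) (nat_lit 4) (nat_lit 508) (nat_lit 337) (nat_lit 295))) (XT.nd (nat_lit 78) (nat_lit 380) (nat_lit 0) (XT.lf (nat_lit 0) (nat_lit 664235513) (nat_lit 380) (nat_lit 2205585203) (nat_lit 380) (nat_lit 2205585203) (nat_lit 115) (nat_lit 4) (nat_lit 120) (nat_lit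 5) (nat_lit 120) (nat_lit 4) (nat_lit 464) (nat_lit 338) (nat_lit 338)) (XT.nd (nat_lit 78) (nat_lit 304) (nat_lit 0) (XT.lf (nat_lit 0) (nat_lit 33229382) (nat_lit 456) (nat_lit 681451496) (nat_lit 76) (nat_lit 9534272544) (nat_lit 114) (nat_lit 5) (nat_lit 120) (nat_lit 5) (nat_lit 115) (nat_lit 4) (nat_lit 465) (nat_lit 338) (nat_lit 337)) (XT.lf (nat_lit 0) (nat_lit 4508748054) (nat_lit 380) (nat_lit 2784369558) (nat_lit 0) (nat_lit 3055344366) (nat_lit 110) (nat_lit 5) (nat_lit 115) (nat_lit 4) (nat_lit 110) (nat_lit 4) (nat_lit 466) (nat_lit 338) (nat_lit 336))))) (XT.nd (nat_lit 234) (nat_lit 684) (nat_lit 0) (XT.nd (nat_lit 78) (nat_lit 684) (nat_lit 0) (XT.lf (nat_lit 0) (nat_lit 5492877325) (nat_lit 304) (nat_lit 3558176649) (nat_lit 304) (nat_lit 1399374161) (nat_lit 106) (nat_lit 4) (nat_lit 110) (nat_lit 5) (nat_lit 110) (nat_lit 4) (nat_lit 467) (nat_lit 338) (nat_lit 335)) (XT.nd (nat_lit 78) (nat_lit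 304) (nat_lit 0) (XT.lf (nat_lit 0) (nat_lit 3063399439) (nat_lit 380) (nat_lit 7222227628) (nat_lit 0) (nat_lit 268919107) (nat_lit 101) (nat_lit 5) (nat_lit 106) (nat_lit 4) (nat_lit 101) (nat_lit 4) (nat_lit 468) (nat_lit 338) (nat_lit 334)) (XT.lf (nat_lit 0) (nat_lit 1067165526) (nat_lit 304) (nat_lit 6526332750) (nat_lit 304) (nat_lit 3067139374) (nat_lit 97) (nat_lit 4) (nat_lit 101) (nat_lit 5) (nat_lit 101) (nat_lit 4) (nat_lit 469) (nat_lit 338) (nat_lit 333)))) (XT.nd (nat_lit 78) (nat_lit 608) (nat_lit 0) (XT.lf (nat_lit 0) (nat_lit 1408149443) (nat_lit 380) (nat_lit 1266410955) (nat_lit 76) (nat_lit 8094479472) (nat_lit 96) (nat_lit 5) (nat_lit 101) (nat_lit 5) (nat_lit 97) (nat_lit 4) (nat_lit 470) (nat_lit 338) (nat_lit 332)) (XT.nd (nat_lit 78) (nat_lit 304) (nat_lit 0) (XT.lf (nat_lit 0) (nat_lit 5921228958) (nat_lit 380) (nat_lit 3693612608) (nat_lit 0) (nat_lit 1264587529) (nat_lit 92) (nat_lit 5)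 (nat_lit 97) (nat_lit 4) (nat_lit 92) (nat_lit 4) (nat_lit 471) (nat_lit 338) (nat_lit 331)) (XT.lf (nat_lit 0) (nat_lit 4769914085) (nat_lit 304) (nat_lit 5746509882) (nat_lit 304) (nat_lit 475776348) (nat_lit 88) (nat_lit 4) (nat_lit 92) (nat_lit 5) (nat_lit 92) (nat_lit 4) (nat_lit 472) (nat_lit 338) (nat_lit 330)))))) (XT.nd (nat_lit 390) (nat_lit 1140) (nat_lit 0) (XT.nd (nat_lit 156) (nat_lit 836) (nat_lit 0) (XT.nd (nat_lit 78) (nat_lit 0) (nat_lit 0) (XT.lf (nat_lit 0) (nat_lit 2241235689) (nat_lit 228) (nat_lit 1775606046) (nat_lit 304) (nat_lit 7090378766) (nat_lit 84) (nat_lit 5) (nat_lit 87) (nat_lit 5) (nat_lit 88) (nat_lit 4) (nat_lit 473) (nat_lit 338) (nat_lit 329)) (XT.lf (nat_lit 0) (nat_lit 8584828195) (nat_lit 304) (nat_lit 391299395) (nat_lit 0) (nat_lit 2248523510) (nat_lit 84) (nat_lit 5) (nat_lit 88) (nat_lit 4) (nat_lit 84) (nat_lit 4) (nat_lit 474) (nat_lit 338) (nat_lit 328))) (XT.nd (nat_lit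 78) (nat_lit 456) (nat_lit 0) (XT.lf (nat_lit 0) (nat_lit 1876464227) (nat_lit 380) (nat_lit 3113173128) (nat_lit 76) (nat_lit 6354523779) (nat_lit 79) (nat_lit 5) (nat_lit 84) (nat_lit 5) (nat_lit 80) (nat_lit 4) (nat_lit 475) (nat_lit 338) (nat_lit 327)) (XT.nd (nat_lit 78) (nat_lit 228) (nat_lit 0) (XT.lf (nat_lit 0) (nat_lit 5514018536) (nat_lit 228) (nat_lit 908680247) (nat_lit 304) (nat_lit 5043524246) (nat_lit 76) (nat_lit 5) (nat_lit 79) (nat_lit 5) (nat_lit 80) (nat_lit 4) (nat_lit 476) (nat_lit 338) (nat_lit 326)) (XT.lf (nat_lit 0) (nat_lit 2673327569) (nat_lit 228) (nat_lit 8382824225) (nat_lit 228) (nat_lit 534658320) (nat_lit 73) (nat_lit 4) (nat_lit 76) (nat_lit 5) (nat_lit 76) (nat_lit 4) (nat_lit 477) (nat_lit 338) (nat_lit 325))))) (XT.nd (nat_lit 234) (nat_lit 532) (nat_lit 0) (XT.nd (nat_lit 78) (nat_lit 532) (nat_lit 0) (XT.lf (nat_lit 0) (nat_lit 3994216049) (nat_lit 304) (nat_lit 303971183) (nat_lit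 76) (nat_lit 7419520657) (nat_lit 72) (nat_lit 5) (nat_lit 76) (nat_lit 5) (nat_lit 73) (nat_lit 4) (nat_lit 478) (nat_lit 338) (nat_lit 324)) (XT.nd (nat_lit 78) (nat_lit 304) (nat_lit 0) (XT.lf (nat_lit 0) (nat_lit 8485376361) (nat_lit 228) (nat_lit 114380454) (nat_lit 304) (nat_lit 3247460422) (nat_lit 69) (nat_lit 5) (nat_lit 72) (nat_lit 5) (nat_lit 73) (nat_lit 4) (nat_lit 479) (nat_lit 338) (nat_lit 323)) (XT.lf (nat_lit 0) (nat_lit 1303403718) (nat_lit 304) (nat_lit 6572910587) (nat_lit 76) (nat_lit 4102788228) (nat_lit 65) (nat_lit 5) (nat_lit 69) (nat_lit 5) (nat_lit 66) (nat_lit 4) (nat_lit 480) (nat_lit 338) (nat_lit 322)))) (XT.nd (nat_lit 78) (nat_lit 304) (nat_lit 0) (XT.lf (nat_lit 0) (nat_lit 2183612104) (nat_lit 228) (nat_lit 3694410488) (nat_lit 304) (nat_lit 6235657936) (nat_lit 62) (nat_lit 5) (nat_lit 65) (nat_lit 5) (nat_lit 66) (nat_lit 4) (nat_lit 481) (nat_lit 338) (nat_lit 321)) (XT.nd (nat_lit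 78) (nat_lit 304) (nat_lit 0) (XT.lf (nat_lit 0) (nat_lit 10531029560) (nat_lit 304) (nat_lit 1154560335) (nat_lit 0) (nat_lit 565630830) (nat_lit 62) (nat_lit 5) (nat_lit 66) (nat_lit 4) (nat_lit 62) (nat_lit 4) (nat_lit 482) (nat_lit 338) (nat_lit 320)) (XT.lf (nat_lit 0) (nat_lit 2862739942) (nat_lit 304) (nat_lit 4638943525) (nat_lit 76) (nat_lit 4889161779) (nat_lit 58) (nat_lit 5) (nat_lit 62) (nat_lit 5) (nat_lit 59) (nat_lit 4) (nat_lit 483) (nat_lit 338) (nat_lit 319))))))) (XT.nd (nat_lit 858) (nat_lit 1216) (nat_lit 0) (XT.nd (nat_lit 390) (nat_lit 836) (nat_lit 0) (XT.nd (nat_lit 156) (nat_lit 532) (nat_lit 0) (XT.nd (nat_lit 78) (nat_lit 228) (nat_lit 0) (XT.lf (nat_lit 0) (nat_lit 4260543840) (nat_lit 152) (nat_lit 3229334809) (nat_lit 228) (nat_lit 5043652615) (nat_lit 56) (nat_lit 5) (nat_lit 58) (nat_lit 5) (nat_lit 59) (nat_lit 4) (nat_lit 484) (nat_lit 338) (nat_lit 318)) (XT.lf (nat_lit 0) (nat_lit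 619884653) (nat_lit 228) (nat_lit 11572694692) (nat_lit 228) (nat_lit 486839177) (nat_lit 53) (nat_lit 4) (nat_lit 56) (nat_lit 5) (nat_lit 56) (nat_lit 4) (nat_lit 485) (nat_lit 338) (nat_lit 317))) (XT.nd (nat_lit 78) (nat_lit 456) (nat_lit 0) (XT.lf (nat_lit 0) (nat_lit 4124243862) (nat_lit 304) (nat_lit 3176414622) (nat_lit 76) (nat_lit 5526678162) (nat_lit 52) (nat_lit 5) (nat_lit 56) (nat_lit 5) (nat_lit 53) (nat_lit 4) (nat_lit 486) (nat_lit 338) (nat_lit 316)) (XT.nd (nat_lit 78) (nat_lit 304) (nat_lit 0) (XT.lf (nat_lit 0) (nat_lit 5856692280) (nat_lit 152) (nat_lit 2943974001) (nat_lit 228) (nat_lit 4177897212) (nat_lit 50) (nat_lit 5) (nat_lit 52) (nat_lit 5) (nat_lit 53) (nat_lit 4) (nat_lit 487) (nat_lit 338) (nat_lit 315)) (XT.lf (nat_lit 0) (nat_lit 417271161) (nat_lit 304) (nat_lit 11241246301) (nat_lit 76) (nat_lit 1474543507) (nat_lit 46) (nat_lit 5) (nat_lit 50) (nat_lit 5) (nat_lit 47) (nat_lit 4)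 (nat_lit 488) (nat_lit 338) (nat_lit 314))))) (XT.nd (nat_lit 234) (nat_lit 380) (nat_lit 0) (XT.nd (nat_lit 78) (nat_lit 456) (nat_lit 0) (XT.lf (nat_lit 0) (nat_lit 5057974299) (nat_lit 304) (nat_lit 2256456104) (nat_lit 76) (nat_lit 5975481222) (nat_lit 46) (nat_lit 5) (nat_lit 50) (nat_lit 5) (nat_lit 47) (nat_lit 4) (nat_lit 489) (nat_lit 338) (nat_lit 313)) (XT.nd (nat_lit 78) (nat_lit 304) (nat_lit 0) (XT.lf (nat_lit 0) (nat_lit 6898906931) (nat_lit 152) (nat_lit 2880432365) (nat_lit 228) (nat_lit 3670809925) (nat_lit 44) (nat_lit 5) (nat_lit 46) (nat_lit 5) (nat_lit 47) (nat_lit 4) (nat_lit 490) (nat_lit 338) (nat_lit 312)) (XT.lf (nat_lit 0) (nat_lit 954463095) (nat_lit 304) (nat_lit 11042245864) (nat_lit 76) (nat_lit 1617045844) (nat_lit 40) (nat_lit 5) (nat_lit 44) (nat_lit 5) (nat_lit 41) (nat_lit 4) (nat_lit 491) (nat_lit 338) (nat_lit 311)))) (XT.nd (nat_lit 78) (nat_lit 380) (nat_lit 0) (XT.lf (nat_lit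 0) (nat_lit 5629808044) (nat_lit 304) (nat_lit 1957822322) (nat_lit 76) (nat_lit 6192388960) (nat_lit 40) (nat_lit 5) (nat_lit 44) (nat_lit 5) (nat_lit 41) (nat_lit 4) (nat_lit 492) (nat_lit 338) (nat_lit 310)) (XT.nd (nat_lit 78) (nat_lit 228) (nat_lit 0) (XT.lf (nat_lit 0) (nat_lit 7306159097) (nat_lit 152) (nat_lit 3084391669) (nat_lit 228) (nat_lit 3559226914) (nat_lit 38) (nat_lit 5) (nat_lit 40) (nat_lit 5) (nat_lit 41) (nat_lit 4) (nat_lit 493) (nat_lit 338) (nat_lit 309)) (XT.lf (nat_lit 0) (nat_lit 1093176241) (nat_lit 228) (nat_lit 11545270533) (nat_lit 76) (nat_lit 1484657935) (nat_lit 35) (nat_lit 5) (nat_lit 38) (nat_lit 5) (nat_lit 36) (nat_lit 4) (nat_lit 494) (nat_lit 338) (nat_lit 308)))))) (XT.nd (nat_lit 390) (nat_lit 684) (nat_lit 0) (XT.nd (nat_lit 156) (nat_lit 380) (nat_lit 0) (XT.nd (nat_lit 78) (nat_lit 152) (nat_lit 0) (XT.lf (nat_lit 0) (nat_lit 5801038344) (nat_lit 228) (nat_lit 2367763963)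 (nat_lit 76) (nat_lit 6130430055) (nat_lit 35) (nat_lit 5) (nat_lit 38) (nat_lit 5) (nat_lit 36) (nat_lit 4) (nat_lit 495) (nat_lit 338) (nat_lit 307)) (XT.lf (nat_lit 0) (nat_lit 6988639613) (nat_lit 152) (nat_lit 3605597394) (nat_lit 228) (nat_lit 3884827847) (nat_lit 33) (nat_lit 5) (nat_lit 35) (nat_lit 5) (nat_lit 36) (nat_lit 4) (nat_lit 496) (nat_lit 338) (nat_lit 306))) (XT.nd (nat_lit 78) (nat_lit 152) (nat_lit 0) (XT.lf (nat_lit 0) (nat_lit 790517881) (nat_lit 228) (nat_lit 12845494564) (nat_lit 76) (nat_lit 1026771067) (nat_lit 30) (nat_lit 5) (nat_lit 33) (nat_lit 5) (nat_lit 31) (nat_lit 4) (nat_lit 497) (nat_lit 338) (nat_lit 305)) (XT.nd (nat_lit 78) (nat_lit 152) (nat_lit 0) (XT.lf (nat_lit 0) (nat_lit 5527927259) (nat_lit 228) (nat_lit 3582990628) (nat_lit 76) (nat_lit 5738339121) (nat_lit 30) (nat_lit 5) (nat_lit 33) (nat_lit 5) (nat_lit 31) (nat_lit 4) (nat_lit 498) (nat_lit 338) (nat_lit 304)) (XT.lf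 (nat_lit 0) (nat_lit 5846765209) (nat_lit 152) (nat_lit 4498388785) (nat_lit 228) (nat_lit 4694610025) (nat_lit 28) (nat_lit 5) (nat_lit 30) (nat_lit 5) (nat_lit 31) (nat_lit 4) (nat_lit 499) (nat_lit 338) (nat_lit 303))))) (XT.nd (nat_lit 234) (nat_lit 304) (nat_lit 0) (XT.nd (nat_lit 78) (nat_lit 228) (nat_lit 0) (XT.lf (nat_lit 0) (nat_lit 186185598) (nat_lit 152) (nat_lit 15046555988) (nat_lit 152) (nat_lit 1864577) (nat_lit 26) (nat_lit 4) (nat_lit 28) (nat_lit 5) (nat_lit 28) (nat_lit 4) (nat_lit 500) (nat_lit 338) (nat_lit 302)) (XT.nd (nat_lit 78) (nat_lit 152) (nat_lit 0) (XT.lf (nat_lit 0) (nat_lit 4761207355) (nat_lit 228) (nat_lit 5710731309) (nat_lit 76) (nat_lit 4960005798) (nat_lit 25) (nat_lit 5) (nat_lit 28) (nat_lit 5) (nat_lit 26) (nat_lit 4) (nat_lit 501) (nat_lit 338) (nat_lit 301)) (XT.lf (nat_lit 0) (nat_lit 3770083632) (nat_lit 152) (nat_lit 5822277866) (nat_lit 228) (nat_lit 6041415880) (nat_lit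 23) (nat_lit 5) (nat_lit 25) (nat_lit 5) (nat_lit 26) (nat_lit 4) (nat_lit 502) (nat_lit 338) (nat_lit 300)))) (XT.nd (nat_lit 78) (nat_lit 304) (nat_lit 0) (XT.lf (nat_lit 0) (nat_lit 13425476508) (nat_lit 152) (nat_lit 1081764219) (nat_lit 228) (nat_lit 1332669101) (nat_lit 23) (nat_lit 5) (nat_lit 25) (nat_lit 5) (nat_lit 26) (nat_lit 4) (nat_lit 503) (nat_lit 338) (nat_lit 299)) (XT.nd (nat_lit 78) (nat_lit 76) (nat_lit 0) (XT.lf (nat_lit 0) (nat_lit 3445527676) (nat_lit 228) (nat_lit 8869903299) (nat_lit 76) (nat_lit 3733872290) (nat_lit 20) (nat_lit 5) (nat_lit 23) (nat_lit 5) (nat_lit 21) (nat_lit 4) (nat_lit 504) (nat_lit 338) (nat_lit 298)) (XT.lf (nat_lit 0) (nat_lit 636066666) (nat_lit 76) (nat_lit 7642583067) (nat_lit 152) (nat_lit 7984519173) (nat_lit 19) (nat_lit 5) (nat_lit 20) (nat_lit 5) (nat_lit 21) (nat_lit 4) (nat_lit 505) (nat_lit 338) (nat_lit 297))))))))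
noncomputable def xc12 : XT := (XT.nd (nat_lit 57330) (nat_lit 0) (nat_lit 684) (XT.nd (nat_lit 56472) (nat_lit 0) (nat_lit 4028) (XT.nd (nat_lit 56082) (nat_lit 0) (nat_lit 6460) (XT.nd (nat_lit 156) (nat_lit 0) (nat_lit 0) (XT.nd (nat_lit 78) (nat_lit 228) (nat_lit 0) (XT.lf (nat_lit 0) (nat_lit 10361535382) (nat_lit 76) (nat_lit 2856405111) (nat_lit 152) (nat_lit 3263185782) (nat_lit 19) (nat_lit 5) (nat_lit 20) (nat_lit 5) (nat_lit 21) (nat_lit 4) (nat_lit 506) (nat_lit 338) (nat_lit 296)) (XT.lf (nat_lit 0) (nat_lit 1518838425) (nat_lit 228) (nat_lit 13192401129) (nat_lit 76) (nat_lit 1992273465) (nat_lit 16) (nat_lit 5) (nat_lit 19) (nat_lit 5) (nat_lit 17) (nat_lit 4) (nat_lit 507) (nat_lit 338) (nat_lit 295))) (XT.nd (nat_lit 55770) (nat_lit 0) (nat_lit 7904) (XT.lf (nat_lit 0) (nat_lit 6363868582) (nat_lit 228) (nat_lit 3642809906) (nat_lit 76) (nat_lit 6923020704) (nat_lit 16) (nat_lit 5) (nat_lit 19) (nat_lit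 5) (nat_lit 17) (nat_lit 4) (nat_lit 508) (nat_lit 338) (nat_lit 294)) (XT.nd (nat_lit 78) (nat_lit 380) (nat_lit 0) (XT.lf (nat_lit 0) (nat_lit 2607497510) (nat_lit 380) (nat_lit 1186368063) (nat_lit 380) (nat_lit 1186368063) (nat_lit 125) (nat_lit 4) (nat_lit 130) (nat_lit 5) (nat_lit 130) (nat_lit 4) (nat_lit 462) (nat_lit 339) (nat_lit 339)) (XT.lf (nat_lit 0) (nat_lit 2026151166) (nat_lit 380) (nat_lit 6766310370) (nat_lit 0) (nat_lit 1262604819) (nat_lit 120) (nat_lit 5) (nat_lit 125) (nat_lit 4) (nat_lit 120) (nat_lit 4) (nat_lit 463) (nat_lit 339) (nat_lit 338))))) (XT.nd (nat_lit 156) (nat_lit 988) (nat_lit 0) (XT.nd (nat_lit 78) (nat_lit 76) (nat_lit 0) (XT.lf (nat_lit 0) (nat_lit 1274440207) (nat_lit 380) (nat_lit 5194591383) (nat_lit 380) (nat_lit 3682470186) (nat_lit 115) (nat_lit 4) (nat_lit 120) (nat_lit 5) (nat_lit 120) (nat_lit 4) (nat_lit 464) (nat_lit 339) (nat_lit 337)) (XT.lf (nat_lit 0) (nat_lit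 718657752) (nat_lit 456) (nat_lit 794329447) (nat_lit 76) (nat_lit 8737242379) (nat_lit 114) (nat_lit 5) (nat_lit 120) (nat_lit 5) (nat_lit 115) (nat_lit 4) (nat_lit 465) (nat_lit 339) (nat_lit 336))) (XT.nd (nat_lit 78) (nat_lit 684) (nat_lit 0) (XT.lf (nat_lit 0) (nat_lit 5154719666) (nat_lit 380) (nat_lit 2948471694) (nat_lit 0) (nat_lit 2247342329) (nat_lit 110) (nat_lit 5) (nat_lit 115) (nat_lit 4) (nat_lit 110) (nat_lit 4) (nat_lit 466) (nat_lit 339) (nat_lit 335)) (XT.nd (nat_lit 78) (nat_lit 380) (nat_lit 0) (XT.lf (nat_lit 0) (nat_lit 5273325989) (nat_lit 304) (nat_lit 4389405411) (nat_lit 304) (nat_lit 790460622) (nat_lit 106) (nat_lit 4) (nat_lit 110) (nat_lit 5) (nat_lit 110) (nat_lit 4) (nat_lit 467) (nat_lit 339) (nat_lit 334)) (XT.lf (nat_lit 0) (nat_lit 3051481916) (nat_lit 304) (nat_lit 576455712) (nat_lit 380) (nat_lit 6930027201) (nat_lit 101) (nat_lit 5) (nat_lit 105) (nat_lit 5) (nat_lit 106) (nat_lit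 4) (nat_lit 468) (nat_lit 339) (nat_lit 333)))))) (XT.nd (nat_lit 390) (nat_lit 1140) (nat_lit 0) (XT.nd (nat_lit 156) (nat_lit 912) (nat_lit 0) (XT.nd (nat_lit 78) (nat_lit 76) (nat_lit 0) (XT.lf (nat_lit 0) (nat_lit 729376891) (nat_lit 304) (nat_lit 7390113009) (nat_lit 304) (nat_lit 2545343266) (nat_lit 97) (nat_lit 4) (nat_lit 101) (nat_lit 5) (nat_lit 101) (nat_lit 4) (nat_lit 469) (nat_lit 339) (nat_lit 332)) (XT.lf (nat_lit 0) (nat_lit 1890570264) (nat_lit 380) (nat_lit 1664719235) (nat_lit 76) (nat_lit 7218534467) (nat_lit 96) (nat_lit 5) (nat_lit 101) (nat_lit 5) (nat_lit 97) (nat_lit 4) (nat_lit 470) (nat_lit 339) (nat_lit 331))) (XT.nd (nat_lit 78) (nat_lit 608) (nat_lit 0) (XT.lf (nat_lit 0) (nat_lit 6362926160) (nat_lit 380) (nat_lit 4149421242) (nat_lit 0) (nat_lit 372685849) (nat_lit 92) (nat_lit 5) (nat_lit 97) (nat_lit 4) (nat_lit 92) (nat_lit 4) (nat_lit 471) (nat_lit 339) (nat_lit 330)) (XT.nd (nat_lit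 78) (nat_lit 304) (nat_lit 0) (XT.lf (nat_lit 0) (nat_lit 4255291204) (nat_lit 304) (nat_lit 6667755812) (nat_lit 304) (nat_lit 75464417) (nat_lit 88) (nat_lit 4) (nat_lit 92) (nat_lit 5) (nat_lit 92) (nat_lit 4) (nat_lit 472) (nat_lit 339) (nat_lit 329)) (XT.lf (nat_lit 0) (nat_lit 1657903742) (nat_lit 228) (nat_lit 2718552345) (nat_lit 304) (nat_lit 6737737767) (nat_lit 84) (nat_lit 5) (nat_lit 87) (nat_lit 5) (nat_lit 88) (nat_lit 4) (nat_lit 473) (nat_lit 339) (nat_lit 328))))) (XT.nd (nat_lit 234) (nat_lit 532) (nat_lit 0) (XT.nd (nat_lit 78) (nat_lit 608) (nat_lit 0) (XT.lf (nat_lit 0) (nat_lit 8906812063) (nat_lit 304) (nat_lit 1027787766) (nat_lit 0) (nat_lit 1297782395) (nat_lit 84) (nat_lit 5) (nat_lit 88) (nat_lit 4) (nat_lit 84) (nat_lit 4) (nat_lit 474) (nat_lit 339) (nat_lit 327)) (XT.nd (nat_lit 78) (nat_lit 228) (nat_lit 0) (XT.lf (nat_lit 0) (nat_lit 2150940725) (nat_lit 380) (nat_lit 3820331542) (nat_lit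 76) (nat_lit 5381297241) (nat_lit 79) (nat_lit 5) (nat_lit 84) (nat_lit 5) (nat_lit 80) (nat_lit 4) (nat_lit 475) (nat_lit 339) (nat_lit 326)) (XT.lf (nat_lit 0) (nat_lit 4745423021) (nat_lit 228) (nat_lit 1915938881) (nat_lit 304) (nat_lit 4813990634) (nat_lit 76) (nat_lit 5) (nat_lit 79) (nat_lit 5) (nat_lit 80) (nat_lit 4) (nat_lit 476) (nat_lit 339) (nat_lit 325)))) (XT.nd (nat_lit 78) (nat_lit 304) (nat_lit 0) (XT.lf (nat_lit 0) (nat_lit 1839707429) (nat_lit 228) (nat_lit 9412472360) (nat_lit 228) (nat_lit 348617305) (nat_lit 73) (nat_lit 4) (nat_lit 76) (nat_lit 5) (nat_lit 76) (nat_lit 4) (nat_lit 477) (nat_lit 339) (nat_lit 324)) (XT.nd (nat_lit 78) (nat_lit 228) (nat_lit 0) (XT.lf (nat_lit 0) (nat_lit 4147197598) (nat_lit 304) (nat_lit 1200360709) (nat_lit 76) (nat_lit 6380729378) (nat_lit 72) (nat_lit 5) (nat_lit 76) (nat_lit 5) (nat_lit 73) (nat_lit 4) (nat_lit 478) (nat_lit 339) (nat_lit 323)) (XT.lf (nat_lit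 0) (nat_lit 7525839091) (nat_lit 228) (nat_lit 1190650197) (nat_lit 304) (nat_lit 3142037221) (nat_lit 69) (nat_lit 5) (nat_lit 72) (nat_lit 5) (nat_lit 73) (nat_lit 4) (nat_lit 479) (nat_lit 339) (nat_lit 322))))))) (XT.nd (nat_lit 858) (nat_lit 1444) (nat_lit 0) (XT.nd (nat_lit 390) (nat_lit 912) (nat_lit 0) (XT.nd (nat_lit 156) (nat_lit 456) (nat_lit 0) (XT.nd (nat_lit 78) (nat_lit 228) (nat_lit 0) (XT.lf (nat_lit 0) (nat_lit 1363599362) (nat_lit 304) (nat_lit 7613530127) (nat_lit 76) (nat_lit 3014149846) (nat_lit 65) (nat_lit 5) (nat_lit 69) (nat_lit 5) (nat_lit 66) (nat_lit 4) (nat_lit 480) (nat_lit 339) (nat_lit 321)) (XT.lf (nat_lit 0) (nat_lit 1077724312) (nat_lit 228) (nat_lit 4823482777) (nat_lit 304) (nat_lit 6225394699) (nat_lit 62) (nat_lit 5) (nat_lit 65) (nat_lit 5) (nat_lit 66) (nat_lit 4) (nat_lit 481) (nat_lit 339) (nat_lit 320))) (XT.nd (nat_lit 78) (nat_lit 456) (nat_lit 0) (XT.lf (nat_lit 0) (nat_lit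 9944137919) (nat_lit 228) (nat_lit 576781386) (nat_lit 304) (nat_lit 1743892726) (nat_lit 62) (nat_lit 5) (nat_lit 65) (nat_lit 5) (nat_lit 66) (nat_lit 4) (nat_lit 482) (nat_lit 339) (nat_lit 319)) (XT.nd (nat_lit 78) (nat_lit 152) (nat_lit 0) (XT.lf (nat_lit 0) (nat_lit 2798228070) (nat_lit 304) (nat_lit 5881303375) (nat_lit 76) (nat_lit 3725734600) (nat_lit 58) (nat_lit 5) (nat_lit 62) (nat_lit 5) (nat_lit 59) (nat_lit 4) (nat_lit 483) (nat_lit 339) (nat_lit 318)) (XT.lf (nat_lit 0) (nat_lit 2951055073) (nat_lit 152) (nat_lit 4436737373) (nat_lit 228) (nat_lit 5160915016) (nat_lit 56) (nat_lit 5) (nat_lit 58) (nat_lit 5) (nat_lit 59) (nat_lit 4) (nat_lit 484) (nat_lit 339) (nat_lit 317))))) (XT.nd (nat_lit 234) (nat_lit 456) (nat_lit 0) (XT.nd (nat_lit 78) (nat_lit 456) (nat_lit 0) (XT.lf (nat_lit 0) (nat_lit 11939538609) (nat_lit 152) (nat_lit 110850808) (nat_lit 228) (nat_lit 645011214) (nat_lit 56) (nat_lit 5)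 (nat_lit 58) (nat_lit 5) (nat_lit 59) (nat_lit 4) (nat_lit 485) (nat_lit 339) (nat_lit 316)) (XT.nd (nat_lit 78) (nat_lit 152) (nat_lit 0) (XT.lf (nat_lit 0) (nat_lit 3933512374) (nat_lit 304) (nat_lit 4626638067) (nat_lit 76) (nat_lit 4283885219) (nat_lit 52) (nat_lit 5) (nat_lit 56) (nat_lit 5) (nat_lit 53) (nat_lit 4) (nat_lit 486) (nat_lit 339) (nat_lit 315)) (XT.lf (nat_lit 0) (nat_lit 4337396128) (nat_lit 152) (nat_lit 4234332738) (nat_lit 228) (nat_lit 4424301372) (nat_lit 50) (nat_lit 5) (nat_lit 52) (nat_lit 5) (nat_lit 53) (nat_lit 4) (nat_lit 487) (nat_lit 339) (nat_lit 314)))) (XT.nd (nat_lit 78) (nat_lit 152) (nat_lit 0) (XT.lf (nat_lit 0) (nat_lit 126789388) (nat_lit 304) (nat_lit 12856351052) (nat_lit 76) (nat_lit 168368931) (nat_lit 46) (nat_lit 5) (nat_lit 50) (nat_lit 5) (nat_lit 47) (nat_lit 4) (nat_lit 488) (nat_lit 339) (nat_lit 313)) (XT.nd (nat_lit 78) (nat_lit 152) (nat_lit 0) (XT.lf (nat_lit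 0) (nat_lit 4739302187) (nat_lit 304) (nat_lit 3920869454) (nat_lit 76) (nat_lit 4648755599) (nat_lit 46) (nat_lit 5) (nat_lit 50) (nat_lit 5) (nat_lit 47) (nat_lit 4) (nat_lit 489) (nat_lit 339) (nat_lit 312)) (XT.lf (nat_lit 0) (nat_lit 5163390204) (nat_lit 152) (nat_lit 4258371268) (nat_lit 228) (nat_lit 4048184819) (nat_lit 44) (nat_lit 5) (nat_lit 46) (nat_lit 5) (nat_lit 47) (nat_lit 4) (nat_lit 490) (nat_lit 339) (nat_lit 311)))))) (XT.nd (nat_lit 390) (nat_lit 760) (nat_lit 0) (XT.nd (nat_lit 156) (nat_lit 380) (nat_lit 0) (XT.nd (nat_lit 78) (nat_lit 0) (nat_lit 0) (XT.lf (nat_lit 0) (nat_lit 533418696) (nat_lit 304) (nat_lit 12878902752) (nat_lit 76) (nat_lit 222255013) (nat_lit 40) (nat_lit 5) (nat_lit 44) (nat_lit 5) (nat_lit 41) (nat_lit 4) (nat_lit 491) (nat_lit 339) (nat_lit 310)) (XT.lf (nat_lit 0) (nat_lit 5181265845) (nat_lit 304) (nat_lit 3842970390) (nat_lit 76) (nat_lit 4777157853) (nat_lit 40) (nat_lit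 5) (nat_lit 44) (nat_lit 5) (nat_lit 41) (nat_lit 4) (nat_lit 492) (nat_lit 339) (nat_lit 309))) (XT.nd (nat_lit 78) (nat_lit 228) (nat_lit 0) (XT.lf (nat_lit 0) (nat_lit 5347786243) (nat_lit 152) (nat_lit 4554548639) (nat_lit 228) (nat_lit 4069614118) (nat_lit 38) (nat_lit 5) (nat_lit 40) (nat_lit 5) (nat_lit 41) (nat_lit 4) (nat_lit 493) (nat_lit 339) (nat_lit 308)) (XT.nd (nat_lit 78) (nat_lit 0) (nat_lit 0) (XT.lf (nat_lit 0) (nat_lit 536069555) (nat_lit 152) (nat_lit 3407930) (nat_lit 228) (nat_lit 13606867894) (nat_lit 35) (nat_lit 5) (nat_lit 37) (nat_lit 5) (nat_lit 38) (nat_lit 5) (nat_lit 494) (nat_lit 339) (nat_lit 307)) (XT.lf (nat_lit 0) (nat_lit 5220487974) (nat_lit 228) (nat_lit 4480425538) (nat_lit 76) (nat_lit 4622099459) (nat_lit 35) (nat_lit 5) (nat_lit 38) (nat_lit 5) (nat_lit 36) (nat_lit 4) (nat_lit 495) (nat_lit 339) (nat_lit 306))))) (XT.nd (nat_lit 234) (nat_lit 380) (nat_lit 0) (XT.nd (nat_lit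 78) (nat_lit 228) (nat_lit 0) (XT.lf (nat_lit 0) (nat_lit 4800537141) (nat_lit 152) (nat_lit 5172639464) (nat_lit 228) (nat_lit 4530481908) (nat_lit 33) (nat_lit 5) (nat_lit 35) (nat_lit 5) (nat_lit 36) (nat_lit 4) (nat_lit 496) (nat_lit 339) (nat_lit 305)) (XT.nd (nat_lit 78) (nat_lit 152) (nat_lit 0) (XT.lf (nat_lit 0) (nat_lit 108468142) (nat_lit 228) (nat_lit 455037232) (nat_lit 76) (nat_lit 14124855648) (nat_lit 32) (nat_lit 5) (nat_lit 35) (nat_lit 5) (nat_lit 33) (nat_lit 5) (nat_lit 497) (nat_lit 339) (nat_lit 304)) (XT.lf (nat_lit 0) (nat_lit 4813021265) (nat_lit 228) (nat_lit 5930193987) (nat_lit 76) (nat_lit 4132279078) (nat_lit 30) (nat_lit 5) (nat_lit 33) (nat_lit 5) (nat_lit 31) (nat_lit 4) (nat_lit 498) (nat_lit 339) (nat_lit 303)))) (XT.nd (nat_lit 78) (nat_lit 228) (nat_lit 0) (XT.lf (nat_lit 0) (nat_lit 3421806050) (nat_lit 152) (nat_lit 6167026807) (nat_lit 228) (nat_lit 5477999420) (nat_lit 28) (nat_lit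 5) (nat_lit 30) (nat_lit 5) (nat_lit 31) (nat_lit 4) (nat_lit 499) (nat_lit 339) (nat_lit 302)) (XT.nd (nat_lit 78) (nat_lit 228) (nat_lit 0) (XT.lf (nat_lit 0) (nat_lit 12949019016) (nat_lit 152) (nat_lit 1499499632) (nat_lit 228) (nat_lit 813716389) (nat_lit 28) (nat_lit 5) (nat_lit 30) (nat_lit 5) (nat_lit 31) (nat_lit 4) (nat_lit 500) (nat_lit 339) (nat_lit 301)) (XT.lf (nat_lit 0) (nat_lit 3909387589) (nat_lit 228) (nat_lit 8299769826) (nat_lit 76) (nat_lit 3251536136) (nat_lit 25) (nat_lit 5) (nat_lit 28) (nat_lit 5) (nat_lit 26) (nat_lit 4) (nat_lit 501) (nat_lit 339) (nat_lit 300))))))))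
noncomputable def xc13 : XT := (XT.nd (nat_lit 57252) (nat_lit 0) (nat_lit 1292) (XT.nd (nat_lit 56394) (nat_lit 0) (nat_lit 5168) (XT.nd (nat_lit 390) (nat_lit 228) (nat_lit 0) (XT.nd (nat_lit 156) (nat_lit 304) (nat_lit 0) (XT.nd (nat_lit 78) (nat_lit 0) (nat_lit 0) (XT.lf (nat_lit 0) (nat_lit 1100871408) (nat_lit 152) (nat_lit 7597280735) (nat_lit 228) (nat_lit 6965224549) (nat_lit 23) (nat_lit 5) (nat_lit 25) (nat_lit 5) (nat_lit 26) (nat_lit 4) (nat_lit 502) (nat_lit 339) (nat_lit 299)) (XT.lf (nat_lit 0) (nat_lit 10711394922) (nat_lit 152) (nat_lit 2876777193) (nat_lit 228) (nat_lit 2281836597) (nat_lit 23) (nat_lit 5) (nat_lit 25) (nat_lit 5) (nat_lit 26) (nat_lit 4) (nat_lit 503) (nat_lit 339) (nat_lit 298))) (XT.nd (nat_lit 78) (nat_lit 76) (nat_lit 0) (XT.lf (nat_lit 0) (nat_lit 2454023421) (nat_lit 228) (nat_lit 11708351191) (nat_lit 76) (nat_lit 1918248786) (nat_lit 20) (nat_lit 5) (nat_lit 23) (nat_lit 5)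 (nat_lit 21) (nat_lit 4) (nat_lit 504) (nat_lit 339) (nat_lit 297)) (XT.nd (nat_lit 78) (nat_lit 76) (nat_lit 0) (XT.lf (nat_lit 0) (nat_lit 7258547608) (nat_lit 228) (nat_lit 2255110952) (nat_lit 76) (nat_lit 6781404684) (nat_lit 20) (nat_lit 5) (nat_lit 23) (nat_lit 5) (nat_lit 21) (nat_lit 4) (nat_lit 505) (nat_lit 339) (nat_lit 296)) (XT.lf (nat_lit 0) (nat_lit 7396292949) (nat_lit 76) (nat_lit 4762434525) (nat_lit 152) (nat_lit 4355077560) (nat_lit 19) (nat_lit 5) (nat_lit 20) (nat_lit 5) (nat_lit 21) (nat_lit 4) (nat_lit 506) (nat_lit 339) (nat_lit 295))))) (XT.nd (nat_lit 55770) (nat_lit 0) (nat_lit 7904) (XT.nd (nat_lit 78) (nat_lit 0) (nat_lit 0) (XT.lf (nat_lit 0) (nat_lit 384663982) (nat_lit 228) (nat_lit 16288129381) (nat_lit 76) (nat_lit 64674380) (nat_lit 16) (nat_lit 5) (nat_lit 19) (nat_lit 5) (nat_lit 17) (nat_lit 4) (nat_lit 507) (nat_lit 339) (nat_lit 294)) (XT.nd (nat_lit 55614) (nat_lit 0) (nat_lit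 9120) (XT.lf (nat_lit 0) (nat_lit 5205798029) (nat_lit 228) (nat_lit 6782153993) (nat_lit 76) (nat_lit 4976181893) (nat_lit 16) (nat_lit 5) (nat_lit 19) (nat_lit 5) (nat_lit 17) (nat_lit 4) (nat_lit 508) (nat_lit 339) (nat_lit 293)) (XT.lf (nat_lit 0) (nat_lit 4457344785) (nat_lit 380) (nat_lit 215544201) (nat_lit 380) (nat_lit 215544201) (nat_lit 136) (nat_lit 4) (nat_lit 141) (nat_lit 5) (nat_lit 141) (nat_lit 4) (nat_lit 460) (nat_lit 340) (nat_lit 340)))) (XT.nd (nat_lit 78) (nat_lit 760) (nat_lit 0) (XT.lf (nat_lit 0) (nat_lit 3930566921) (nat_lit 456) (nat_lit 2801125902) (nat_lit 0) (nat_lit 3136173302) (nat_lit 130) (nat_lit 5) (nat_lit 136) (nat_lit 4) (nat_lit 130) (nat_lit 4) (nat_lit 461) (nat_lit 340) (nat_lit 339)) (XT.nd (nat_lit 78) (nat_lit 380) (nat_lit 0) (XT.lf (nat_lit 0) (nat_lit 5162338785) (nat_lit 380) (nat_lit 3186010984) (nat_lit 380) (nat_lit 1612800091) (nat_lit 125) (nat_lit 4) (nat_lit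 130) (nat_lit 5) (nat_lit 130) (nat_lit 4) (nat_lit 462) (nat_lit 340) (nat_lit 338)) (XT.lf (nat_lit 0) (nat_lit 2736681560) (nat_lit 380) (nat_lit 6874021204) (nat_lit 0) (nat_lit 445743089) (nat_lit 120) (nat_lit 5) (nat_lit 125) (nat_lit 4) (nat_lit 120) (nat_lit 4) (nat_lit 463) (nat_lit 340) (nat_lit 337)))))) (XT.nd (nat_lit 390) (nat_lit 1292) (nat_lit 0) (XT.nd (nat_lit 156) (nat_lit 988) (nat_lit 0) (XT.nd (nat_lit 78) (nat_lit 76) (nat_lit 0) (XT.lf (nat_lit 0) (nat_lit 1112326562) (nat_lit 380) (nat_lit 6033040337) (nat_lit 380) (nat_lit 3008204955) (nat_lit 115) (nat_lit 4) (nat_lit 120) (nat_lit 5) (nat_lit 120) (nat_lit 4) (nat_lit 464) (nat_lit 340) (nat_lit 336)) (XT.lf (nat_lit 0) (nat_lit 1351026132) (nat_lit 456) (nat_lit 1015269371) (nat_lit 76) (nat_lit 7886584094) (nat_lit 114) (nat_lit 5) (nat_lit 120) (nat_lit 5) (nat_lit 115) (nat_lit 4) (nat_lit 465) (nat_lit 340) (nat_lit 335))) (XT.nd (nat_lit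 78) (nat_lit 684) (nat_lit 0) (XT.lf (nat_lit 0) (nat_lit 5747215911) (nat_lit 380) (nat_lit 3222046756) (nat_lit 0) (nat_lit 1384724776) (nat_lit 110) (nat_lit 5) (nat_lit 115) (nat_lit 4) (nat_lit 110) (nat_lit 4) (nat_lit 466) (nat_lit 340) (nat_lit 334)) (XT.nd (nat_lit 78) (nat_lit 380) (nat_lit 0) (XT.lf (nat_lit 0) (nat_lit 4943891368) (nat_lit 304) (nat_lit 5276973141) (nat_lit 304) (nat_lit 236474700) (nat_lit 106) (nat_lit 4) (nat_lit 110) (nat_lit 5) (nat_lit 110) (nat_lit 4) (nat_lit 467) (nat_lit 340) (nat_lit 333)) (XT.lf (nat_lit 0) (nat_lit 2657503185) (nat_lit 304) (nat_lit 1482454571) (nat_lit 380) (nat_lit 6422782256) (nat_lit 101) (nat_lit 5) (nat_lit 105) (nat_lit 5) (nat_lit 106) (nat_lit 4) (nat_lit 468) (nat_lit 340) (nat_lit 332))))) (XT.nd (nat_lit 234) (nat_lit 608) (nat_lit 0) (XT.nd (nat_lit 78) (nat_lit 380) (nat_lit 0) (XT.lf (nat_lit 0) (nat_lit 278786014) (nat_lit 304) (nat_lit 8311944876)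 (nat_lit 304) (nat_lit 2079698857) (nat_lit 97) (nat_lit 4) (nat_lit 101) (nat_lit 5) (nat_lit 101) (nat_lit 4) (nat_lit 469) (nat_lit 340) (nat_lit 331)) (XT.nd (nat_lit 78) (nat_lit 304) (nat_lit 0) (XT.lf (nat_lit 0) (nat_lit 2318213704) (nat_lit 380) (nat_lit 2175828283) (nat_lit 76) (nat_lit 6285961561) (nat_lit 96) (nat_lit 5) (nat_lit 101) (nat_lit 5) (nat_lit 97) (nat_lit 4) (nat_lit 470) (nat_lit 340) (nat_lit 330)) (XT.lf (nat_lit 0) (nat_lit 6168654629) (nat_lit 304) (nat_lit 584497202) (nat_lit 380) (nat_lit 4138814837) (nat_lit 92) (nat_lit 5) (nat_lit 96) (nat_lit 5) (nat_lit 97) (nat_lit 4) (nat_lit 471) (nat_lit 340) (nat_lit 329)))) (XT.nd (nat_lit 78) (nat_lit 228) (nat_lit 0) (XT.lf (nat_lit 0) (nat_lit 264535036) (nat_lit 380) (nat_lit 7382073691) (nat_lit 76) (nat_lit 3359586527) (nat_lit 87) (nat_lit 5) (nat_lit 92) (nat_lit 5) (nat_lit 88) (nat_lit 4) (nat_lit 472) (nat_lit 340) (nat_lit 328))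 (XT.nd (nat_lit 78) (nat_lit 0) (nat_lit 0) (XT.lf (nat_lit 0) (nat_lit 958258504) (nat_lit 228) (nat_lit 3721625494) (nat_lit 304) (nat_lit 6442700677) (nat_lit 84) (nat_lit 5) (nat_lit 87) (nat_lit 5) (nat_lit 88) (nat_lit 4) (nat_lit 473) (nat_lit 340) (nat_lit 327)) (XT.lf (nat_lit 0) (nat_lit 9172836916) (nat_lit 304) (nat_lit 1780590920) (nat_lit 0) (nat_lit 288098332) (nat_lit 84) (nat_lit 5) (nat_lit 88) (nat_lit 4) (nat_lit 84) (nat_lit 4) (nat_lit 474) (nat_lit 340) (nat_lit 326))))))) (XT.nd (nat_lit 858) (nat_lit 1748) (nat_lit 0) (XT.nd (nat_lit 390) (nat_lit 988) (nat_lit 0) (XT.nd (nat_lit 156) (nat_lit 532) (nat_lit 0) (XT.nd (nat_lit 78) (nat_lit 228) (nat_lit 0) (XT.lf (nat_lit 0) (nat_lit 2368643996) (nat_lit 380) (nat_lit 4645373926) (nat_lit 76) (nat_lit 4348383211) (nat_lit 79) (nat_lit 5) (nat_lit 84) (nat_lit 5) (nat_lit 80) (nat_lit 4) (nat_lit 475) (nat_lit 340) (nat_lit 325)) (XT.lf (nat_lit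 0) (nat_lit 3858397299) (nat_lit 228) (nat_lit 2984689943) (nat_lit 304) (nat_lit 4642821247) (nat_lit 76) (nat_lit 5) (nat_lit 79) (nat_lit 5) (nat_lit 80) (nat_lit 4) (nat_lit 476) (nat_lit 340) (nat_lit 324))) (XT.nd (nat_lit 78) (nat_lit 304) (nat_lit 0) (XT.lf (nat_lit 0) (nat_lit 886065620) (nat_lit 228) (nat_lit 10504627501) (nat_lit 228) (nat_lit 221528843) (nat_lit 73) (nat_lit 4) (nat_lit 76) (nat_lit 5) (nat_lit 76) (nat_lit 4) (nat_lit 477) (nat_lit 340) (nat_lit 323)) (XT.nd (nat_lit 78) (nat_lit 228) (nat_lit 0) (XT.lf (nat_lit 0) (nat_lit 4242600149) (nat_lit 304) (nat_lit 2216815770) (nat_lit 76) (nat_lit 5280885009) (nat_lit 72) (nat_lit 5) (nat_lit 76) (nat_lit 5) (nat_lit 73) (nat_lit 4) (nat_lit 478) (nat_lit 340) (nat_lit 322)) (XT.lf (nat_lit 0) (nat_lit 6445645290) (nat_lit 228) (nat_lit 2329802702) (nat_lit 304) (nat_lit 3095825044) (nat_lit 69) (nat_lit 5) (nat_lit 72) (nat_lit 5) (nat_lit 73)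 (nat_lit 4) (nat_lit 479) (nat_lit 340) (nat_lit 321))))) (XT.nd (nat_lit 234) (nat_lit 456) (nat_lit 0) (XT.nd (nat_lit 78) (nat_lit 228) (nat_lit 0) (XT.lf (nat_lit 0) (nat_lit 1364740319) (nat_lit 304) (nat_lit 8777506014) (nat_lit 76) (nat_lit 1862667065) (nat_lit 65) (nat_lit 5) (nat_lit 69) (nat_lit 5) (nat_lit 66) (nat_lit 4) (nat_lit 480) (nat_lit 340) (nat_lit 320)) (XT.nd (nat_lit 78) (nat_lit 228) (nat_lit 0) (XT.lf (nat_lit 0) (nat_lit 5866104678) (nat_lit 304) (nat_lit 150155079) (nat_lit 76) (nat_lit 6124705115) (nat_lit 65) (nat_lit 5) (nat_lit 69) (nat_lit 5) (nat_lit 66) (nat_lit 4) (nat_lit 481) (nat_lit 340) (nat_lit 319)) (XT.lf (nat_lit 0) (nat_lit 8664821517) (nat_lit 228) (nat_lit 1791013892) (nat_lit 304) (nat_lit 1823943407) (nat_lit 62) (nat_lit 5) (nat_lit 65) (nat_lit 5) (nat_lit 66) (nat_lit 4) (nat_lit 482) (nat_lit 340) (nat_lit 318)))) (XT.nd (nat_lit 78) (nat_lit 152) (nat_lit 0) (XT.lf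 (nat_lit 0) (nat_lit 2673699991) (nat_lit 304) (nat_lit 7249418990) (nat_lit 76) (nat_lit 2498038701) (nat_lit 58) (nat_lit 5) (nat_lit 62) (nat_lit 5) (nat_lit 59) (nat_lit 4) (nat_lit 483) (nat_lit 340) (nat_lit 317)) (XT.nd (nat_lit 78) (nat_lit 0) (nat_lit 0) (XT.lf (nat_lit 0) (nat_lit 1515131834) (nat_lit 152) (nat_lit 5710307350) (nat_lit 228) (nat_lit 5339920256) (nat_lit 56) (nat_lit 5) (nat_lit 58) (nat_lit 5) (nat_lit 59) (nat_lit 4) (nat_lit 484) (nat_lit 340) (nat_lit 316)) (XT.lf (nat_lit 0) (nat_lit 10454962343) (nat_lit 152) (nat_lit 1404814573) (nat_lit 228) (nat_lit 852844637) (nat_lit 56) (nat_lit 5) (nat_lit 58) (nat_lit 5) (nat_lit 59) (nat_lit 4) (nat_lit 485) (nat_lit 340) (nat_lit 315)))))) (XT.nd (nat_lit 390) (nat_lit 836) (nat_lit 0) (XT.nd (nat_lit 156) (nat_lit 456) (nat_lit 0) (XT.nd (nat_lit 78) (nat_lit 152) (nat_lit 0) (XT.lf (nat_lit 0) (nat_lit 3681716128) (nat_lit 304) (nat_lit 6205142647)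 (nat_lit 76) (nat_lit 2975362182) (nat_lit 52) (nat_lit 5) (nat_lit 56) (nat_lit 5) (nat_lit 53) (nat_lit 4) (nat_lit 486) (nat_lit 340) (nat_lit 314)) (XT.lf (nat_lit 0) (nat_lit 2689090521) (nat_lit 152) (nat_lit 5592354277) (nat_lit 228) (nat_lit 4733544038) (nat_lit 50) (nat_lit 5) (nat_lit 52) (nat_lit 5) (nat_lit 53) (nat_lit 4) (nat_lit 487) (nat_lit 340) (nat_lit 313))) (XT.nd (nat_lit 78) (nat_lit 456) (nat_lit 0) (XT.lf (nat_lit 0) (nat_lit 11748630959) (nat_lit 152) (nat_lit 1210522048) (nat_lit 228) (nat_lit 211946386) (nat_lit 50) (nat_lit 5) (nat_lit 52) (nat_lit 5) (nat_lit 53) (nat_lit 4) (nat_lit 488) (nat_lit 340) (nat_lit 312)) (XT.nd (nat_lit 78) (nat_lit 152) (nat_lit 0) (XT.lf (nat_lit 0) (nat_lit 4358428708) (nat_lit 304) (nat_lit 5716221433) (nat_lit 76) (nat_lit 3254796331) (nat_lit 46) (nat_lit 5) (nat_lit 50) (nat_lit 5) (nat_lit 47) (nat_lit 4) (nat_lit 489) (nat_lit 340) (nat_lit 311)) (XT.lf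 (nat_lit 0) (nat_lit 3296155216) (nat_lit 152) (nat_lit 5705513774) (nat_lit 228) (nat_lit 4489584185) (nat_lit 44) (nat_lit 5) (nat_lit 46) (nat_lit 5) (nat_lit 47) (nat_lit 4) (nat_lit 490) (nat_lit 340) (nat_lit 310))))) (XT.nd (nat_lit 234) (nat_lit 380) (nat_lit 0) (XT.nd (nat_lit 78) (nat_lit 380) (nat_lit 0) (XT.lf (nat_lit 0) (nat_lit 64378951) (nat_lit 228) (nat_lit 1185885941) (nat_lit 76) (nat_lit 12406347508) (nat_lit 43) (nat_lit 5) (nat_lit 46) (nat_lit 5) (nat_lit 44) (nat_lit 5) (nat_lit 491) (nat_lit 340) (nat_lit 309)) (XT.nd (nat_lit 78) (nat_lit 152) (nat_lit 0) (XT.lf (nat_lit 0) (nat_lit 4669296373) (nat_lit 304) (nat_lit 5861852973) (nat_lit 76) (nat_lit 3293142360) (nat_lit 40) (nat_lit 5) (nat_lit 44) (nat_lit 5) (nat_lit 41) (nat_lit 4) (nat_lit 492) (nat_lit 340) (nat_lit 308)) (XT.lf (nat_lit 0) (nat_lit 3254846166) (nat_lit 152) (nat_lit 6095500461) (nat_lit 228) (nat_lit 4645303392) (nat_lit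 38) (nat_lit 5) (nat_lit 40) (nat_lit 5) (nat_lit 41) (nat_lit 4) (nat_lit 493) (nat_lit 340) (nat_lit 307)))) (XT.nd (nat_lit 78) (nat_lit 380) (nat_lit 0) (XT.lf (nat_lit 0) (nat_lit 12539809067) (nat_lit 152) (nat_lit 1571595866) (nat_lit 228) (nat_lit 59308814) (nat_lit 38) (nat_lit 5) (nat_lit 40) (nat_lit 5) (nat_lit 41) (nat_lit 4) (nat_lit 494) (nat_lit 340) (nat_lit 306)) (XT.nd (nat_lit 78) (nat_lit 152) (nat_lit 0) (XT.lf (nat_lit 0) (nat_lit 4575193690) (nat_lit 228) (nat_lit 6729762295) (nat_lit 76) (nat_lit 3043381622) (nat_lit 35) (nat_lit 5) (nat_lit 38) (nat_lit 5) (nat_lit 36) (nat_lit 4) (nat_lit 495) (nat_lit 340) (nat_lit 305)) (XT.lf (nat_lit 0) (nat_lit 2474871866) (nat_lit 152) (nat_lit 6812123028) (nat_lit 228) (nat_lit 5242808799) (nat_lit 33) (nat_lit 5) (nat_lit 35) (nat_lit 5) (nat_lit 36) (nat_lit 4) (nat_lit 496) (nat_lit 340) (nat_lit 304))))))))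
noncomputable def xc14 : XT := (XT.nd (nat_lit 57096) (nat_lit 0) (nat_lit 2280) (XT.nd (nat_lit 858) (nat_lit 228) (nat_lit 0) (XT.nd (nat_lit 390) (nat_lit 456) (nat_lit 0) (XT.nd (nat_lit 156) (nat_lit 380) (nat_lit 0) (XT.nd (nat_lit 78) (nat_lit 228) (nat_lit 0) (XT.lf (nat_lit 0) (nat_lit 11862860886) (nat_lit 152) (nat_lit 2223664715) (nat_lit 228) (nat_lit 628509163) (nat_lit 33) (nat_lit 5) (nat_lit 35) (nat_lit 5) (nat_lit 36) (nat_lit 4) (nat_lit 497) (nat_lit 340) (nat_lit 303)) (XT.lf (nat_lit 0) (nat_lit 4031962338) (nat_lit 228) (nat_lit 8417164504) (nat_lit 76) (nat_lit 2454171971) (nat_lit 30) (nat_lit 5) (nat_lit 33) (nat_lit 5) (nat_lit 31) (nat_lit 4) (nat_lit 498) (nat_lit 340) (nat_lit 302))) (XT.nd (nat_lit 78) (nat_lit 228) (nat_lit 0) (XT.lf (nat_lit 0) (nat_lit 856135295) (nat_lit 152) (nat_lit 7909813247) (nat_lit 228) (nat_lit 6329527308) (nat_lit 28) (nat_lit 5) (nat_lit 30) (nat_lit 5) (nat_lit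 31) (nat_lit 4) (nat_lit 499) (nat_lit 340) (nat_lit 301)) (XT.nd (nat_lit 78) (nat_lit 228) (nat_lit 0) (XT.lf (nat_lit 0) (nat_lit 10338593644) (nat_lit 152) (nat_lit 3262076237) (nat_lit 228) (nat_lit 1690710548) (nat_lit 28) (nat_lit 5) (nat_lit 30) (nat_lit 5) (nat_lit 31) (nat_lit 4) (nat_lit 500) (nat_lit 340) (nat_lit 300)) (XT.lf (nat_lit 0) (nat_lit 2989911655) (nat_lit 228) (nat_lit 11031825462) (nat_lit 76) (nat_lit 1469297814) (nat_lit 25) (nat_lit 5) (nat_lit 28) (nat_lit 5) (nat_lit 26) (nat_lit 4) (nat_lit 501) (nat_lit 340) (nat_lit 299))))) (XT.nd (nat_lit 234) (nat_lit 76) (nat_lit 0) (XT.nd (nat_lit 78) (nat_lit 380) (nat_lit 0) (XT.lf (nat_lit 0) (nat_lit 7746960687) (nat_lit 228) (nat_lit 1689903245) (nat_lit 76) (nat_lit 6257490835) (nat_lit 25) (nat_lit 5) (nat_lit 28) (nat_lit 5) (nat_lit 26) (nat_lit 4) (nat_lit 502) (nat_lit 340) (nat_lit 298)) (XT.nd (nat_lit 78) (nat_lit 228) (nat_lit 0)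 (XT.lf (nat_lit 0) (nat_lit 7854172774) (nat_lit 152) (nat_lit 4747318280) (nat_lit 228) (nat_lit 3300207862) (nat_lit 23) (nat_lit 5) (nat_lit 25) (nat_lit 5) (nat_lit 26) (nat_lit 4) (nat_lit 503) (nat_lit 340) (nat_lit 297)) (XT.lf (nat_lit 0) (nat_lit 1393263510) (nat_lit 228) (nat_lit 14693230991) (nat_lit 76) (nat_lit 27068485) (nat_lit 20) (nat_lit 5) (nat_lit 23) (nat_lit 5) (nat_lit 21) (nat_lit 4) (nat_lit 504) (nat_lit 340) (nat_lit 296)))) (XT.nd (nat_lit 78) (nat_lit 76) (nat_lit 0) (XT.lf (nat_lit 0) (nat_lit 6173799358) (nat_lit 228) (nat_lit 5283508006) (nat_lit 76) (nat_lit 4871177437) (nat_lit 20) (nat_lit 5) (nat_lit 23) (nat_lit 5) (nat_lit 21) (nat_lit 4) (nat_lit 505) (nat_lit 340) (nat_lit 295)) (XT.nd (nat_lit 78) (nat_lit 0) (nat_lit 0) (XT.lf (nat_lit 0) (nat_lit 4284419136) (nat_lit 76) (nat_lit 6745837762) (nat_lit 152) (nat_lit 5517846300) (nat_lit 19) (nat_lit 5) (nat_lit 20) (nat_lit 5)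 (nat_lit 21) (nat_lit 4) (nat_lit 506) (nat_lit 340) (nat_lit 294)) (XT.lf (nat_lit 0) (nat_lit 14029709917) (nat_lit 76) (nat_lit 1942458107) (nat_lit 152) (nat_lit 800183728) (nat_lit 19) (nat_lit 5) (nat_lit 20) (nat_lit 5) (nat_lit 21) (nat_lit 4) (nat_lit 507) (nat_lit 340) (nat_lit 293)))))) (XT.nd (nat_lit 55770) (nat_lit 0) (nat_lit 6764) (XT.nd (nat_lit 55536) (nat_lit 0) (nat_lit 8664) (XT.nd (nat_lit 55458) (nat_lit 0) (nat_lit 9500) (XT.lf (nat_lit 0) (nat_lit 3977242394) (nat_lit 228) (nat_lit 10070661421) (nat_lit 76) (nat_lit 2952304101) (nat_lit 16) (nat_lit 5) (nat_lit 19) (nat_lit 5) (nat_lit 17) (nat_lit 4) (nat_lit 508) (nat_lit 340) (nat_lit 292)) (XT.lf (nat_lit 0) (nat_lit 716567984) (nat_lit 456) (nat_lit 3366388580) (nat_lit 0) (nat_lit 716567984) (nat_lit 141) (nat_lit 5) (nat_lit 147) (nat_lit 4) (nat_lit 141) (nat_lit 4) (nat_lit 458) (nat_lit 341) (nat_lit 341))) (XT.nd (nat_lit 78) (nat_lit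 456) (nat_lit 0) (XT.lf (nat_lit 0) (nat_lit 994214896) (nat_lit 380) (nat_lit 4759727925) (nat_lit 380) (nat_lit 3933240803) (nat_lit 136) (nat_lit 4) (nat_lit 141) (nat_lit 5) (nat_lit 141) (nat_lit 4) (nat_lit 459) (nat_lit 341) (nat_lit 340)) (XT.nd (nat_lit 78) (nat_lit 380) (nat_lit 0) (XT.lf (nat_lit 0) (nat_lit 356571502) (nat_lit 456) (nat_lit 916494177) (nat_lit 76) (nat_lit 8504429412) (nat_lit 135) (nat_lit 5) (nat_lit 141) (nat_lit 5) (nat_lit 136) (nat_lit 4) (nat_lit 460) (nat_lit 341) (nat_lit 339)) (XT.lf (nat_lit 0) (nat_lit 4673313515) (nat_lit 456) (nat_lit 2906096494) (nat_lit 0) (nat_lit 2289821130) (nat_lit 130) (nat_lit 5) (nat_lit 136) (nat_lit 4) (nat_lit 130) (nat_lit 4) (nat_lit 461) (nat_lit 341) (nat_lit 338))))) (XT.nd (nat_lit 234) (nat_lit 760) (nat_lit 0) (XT.nd (nat_lit 78) (nat_lit 760) (nat_lit 0) (XT.lf (nat_lit 0) (nat_lit 5004349428) (nat_lit 380) (nat_lit 4052943597) (nat_lit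 380) (nat_lit 905904866) (nat_lit 125) (nat_lit 4) (nat_lit 130) (nat_lit 5) (nat_lit 130) (nat_lit 4) (nat_lit 462) (nat_lit 341) (nat_lit 337)) (XT.nd (nat_lit 78) (nat_lit 380) (nat_lit 0) (XT.lf (nat_lit 0) (nat_lit 2966869955) (nat_lit 304) (nat_lit 430399122) (nat_lit 380) (nat_lit 6661880425) (nat_lit 120) (nat_lit 5) (nat_lit 124) (nat_lit 5) (nat_lit 125) (nat_lit 4) (nat_lit 463) (nat_lit 341) (nat_lit 336)) (XT.lf (nat_lit 0) (nat_lit 842066516) (nat_lit 380) (nat_lit 6926846074) (nat_lit 380) (nat_lit 2388110297) (nat_lit 115) (nat_lit 4) (nat_lit 120) (nat_lit 5) (nat_lit 120) (nat_lit 4) (nat_lit 464) (nat_lit 341) (nat_lit 335)))) (XT.nd (nat_lit 78) (nat_lit 684) (nat_lit 0) (XT.lf (nat_lit 0) (nat_lit 1930582508) (nat_lit 456) (nat_lit 1344357910) (nat_lit 76) (nat_lit 6981964096) (nat_lit 114) (nat_lit 5) (nat_lit 120) (nat_lit 5) (nat_lit 115) (nat_lit 4) (nat_lit 465) (nat_lit 341) (nat_lit 334))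 (XT.nd (nat_lit 78) (nat_lit 380) (nat_lit 0) (XT.lf (nat_lit 0) (nat_lit 6286469139) (nat_lit 380) (nat_lit 3605202029) (nat_lit 0) (nat_lit 467153425) (nat_lit 110) (nat_lit 5) (nat_lit 115) (nat_lit 4) (nat_lit 110) (nat_lit 4) (nat_lit 466) (nat_lit 341) (nat_lit 333)) (XT.lf (nat_lit 0) (nat_lit 259354172) (nat_lit 380) (nat_lit 5960133329) (nat_lit 76) (nat_lit 4243349693) (nat_lit 105) (nat_lit 5) (nat_lit 110) (nat_lit 5) (nat_lit 106) (nat_lit 4) (nat_lit 467) (nat_lit 341) (nat_lit 332))))))) (XT.nd (nat_lit 858) (nat_lit 1976) (nat_lit 0) (XT.nd (nat_lit 390) (nat_lit 1140) (nat_lit 0) (XT.nd (nat_lit 156) (nat_lit 1064) (nat_lit 0) (XT.nd (nat_lit 78) (nat_lit 0) (nat_lit 0) (XT.lf (nat_lit 0) (nat_lit 2152032442) (nat_lit 304) (nat_lit 2445858971) (nat_lit 380) (nat_lit 5971017568) (nat_lit 101) (nat_lit 5) (nat_lit 105) (nat_lit 5) (nat_lit 106) (nat_lit 4) (nat_lit 468) (nat_lit 341) (nat_lit 331)) (XT.lf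 (nat_lit 0) (nat_lit 9009255051) (nat_lit 380) (nat_lit 281048817) (nat_lit 0) (nat_lit 1387088737) (nat_lit 101) (nat_lit 5) (nat_lit 106) (nat_lit 4) (nat_lit 101) (nat_lit 4) (nat_lit 469) (nat_lit 341) (nat_lit 330))) (XT.nd (nat_lit 78) (nat_lit 684) (nat_lit 0) (XT.lf (nat_lit 0) (nat_lit 2691247468) (nat_lit 380) (nat_lit 2799938532) (nat_lit 76) (nat_lit 5296395041) (nat_lit 96) (nat_lit 5) (nat_lit 101) (nat_lit 5) (nat_lit 97) (nat_lit 4) (nat_lit 470) (nat_lit 341) (nat_lit 329)) (XT.nd (nat_lit 78) (nat_lit 380) (nat_lit 0) (XT.lf (nat_lit 0) (nat_lit 5485704321) (nat_lit 304) (nat_lit 1605391631) (nat_lit 380) (nat_lit 3809155373) (nat_lit 92) (nat_lit 5) (nat_lit 96) (nat_lit 5) (nat_lit 97) (nat_lit 4) (nat_lit 471) (nat_lit 341) (nat_lit 328)) (XT.lf (nat_lit 0) (nat_lit 547625665) (nat_lit 380) (nat_lit 8137478178) (nat_lit 76) (nat_lit 2330183330) (nat_lit 87) (nat_lit 5) (nat_lit 92) (nat_lit 5) (nat_lit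 88) (nat_lit 4) (nat_lit 472) (nat_lit 341) (nat_lit 327))))) (XT.nd (nat_lit 234) (nat_lit 532) (nat_lit 0) (XT.nd (nat_lit 78) (nat_lit 380) (nat_lit 0) (XT.lf (nat_lit 0) (nat_lit 142025606) (nat_lit 228) (nat_lit 4785218854) (nat_lit 304) (nat_lit 6205151798) (nat_lit 84) (nat_lit 5) (nat_lit 87) (nat_lit 5) (nat_lit 88) (nat_lit 4) (nat_lit 473) (nat_lit 341) (nat_lit 326)) (XT.nd (nat_lit 78) (nat_lit 380) (nat_lit 0) (XT.lf (nat_lit 0) (nat_lit 8596842031) (nat_lit 228) (nat_lit 791302709) (nat_lit 304) (nat_lit 1863839027) (nat_lit 84) (nat_lit 5) (nat_lit 87) (nat_lit 5) (nat_lit 88) (nat_lit 4) (nat_lit 474) (nat_lit 341) (nat_lit 325)) (XT.lf (nat_lit 0) (nat_lit 2529659414) (nat_lit 380) (nat_lit 5588623827) (nat_lit 76) (nat_lit 3255376623) (nat_lit 79) (nat_lit 5) (nat_lit 84) (nat_lit 5) (nat_lit 80) (nat_lit 4) (nat_lit 475) (nat_lit 341) (nat_lit 324)))) (XT.nd (nat_lit 78) (nat_lit 304) (nat_lit 0)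 (XT.lf (nat_lit 0) (nat_lit 2852593517) (nat_lit 228) (nat_lit 4115352552) (nat_lit 304) (nat_lit 4529948959) (nat_lit 76) (nat_lit 5) (nat_lit 79) (nat_lit 5) (nat_lit 80) (nat_lit 4) (nat_lit 476) (nat_lit 341) (nat_lit 323)) (XT.nd (nat_lit 78) (nat_lit 304) (nat_lit 0) (XT.lf (nat_lit 0) (nat_lit 11439334057) (nat_lit 228) (nat_lit 33852280) (nat_lit 304) (nat_lit 151874061) (nat_lit 76) (nat_lit 5) (nat_lit 79) (nat_lit 5) (nat_lit 80) (nat_lit 4) (nat_lit 477) (nat_lit 341) (nat_lit 322)) (XT.lf (nat_lit 0) (nat_lit 4280461116) (nat_lit 304) (nat_lit 3353734976) (nat_lit 76) (nat_lit 4119556239) (nat_lit 72) (nat_lit 5) (nat_lit 76) (nat_lit 5) (nat_lit 73) (nat_lit 4) (nat_lit 478) (nat_lit 341) (nat_lit 321)))))) (XT.nd (nat_lit 390) (nat_lit 912) (nat_lit 0) (XT.nd (nat_lit 156) (nat_lit 532) (nat_lit 0) (XT.nd (nat_lit 78) (nat_lit 304) (nat_lit 0) (XT.lf (nat_lit 0) (nat_lit 5244371353) (nat_lit 228) (nat_lit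 3532284696) (nat_lit 304) (nat_lit 3108805769) (nat_lit 69) (nat_lit 5) (nat_lit 72) (nat_lit 5) (nat_lit 73) (nat_lit 4) (nat_lit 479) (nat_lit 341) (nat_lit 320)) (XT.lf (nat_lit 0) (nat_lit 1306827039) (nat_lit 304) (nat_lit 10065294711) (nat_lit 76) (nat_lit 647888323) (nat_lit 65) (nat_lit 5) (nat_lit 69) (nat_lit 5) (nat_lit 66) (nat_lit 4) (nat_lit 480) (nat_lit 341) (nat_lit 319))) (XT.nd (nat_lit 78) (nat_lit 532) (nat_lit 0) (XT.lf (nat_lit 0) (nat_lit 5779518782) (nat_lit 304) (nat_lit 1486736869) (nat_lit 76) (nat_lit 4890383418) (nat_lit 65) (nat_lit 5) (nat_lit 69) (nat_lit 5) (nat_lit 66) (nat_lit 4) (nat_lit 481) (nat_lit 341) (nat_lit 318)) (XT.nd (nat_lit 78) (nat_lit 304) (nat_lit 0) (XT.lf (nat_lit 0) (nat_lit 7262005171) (nat_lit 228) (nat_lit 3070025920) (nat_lit 304) (nat_lit 1964170282) (nat_lit 62) (nat_lit 5) (nat_lit 65) (nat_lit 5) (nat_lit 66) (nat_lit 4) (nat_lit 482) (nat_lit 341) (nat_lit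 317)) (XT.lf (nat_lit 0) (nat_lit 2489106872) (nat_lit 304) (nat_lit 8743826887) (nat_lit 76) (nat_lit 1205592633) (nat_lit 58) (nat_lit 5) (nat_lit 62) (nat_lit 5) (nat_lit 59) (nat_lit 4) (nat_lit 483) (nat_lit 341) (nat_lit 316))))) (XT.nd (nat_lit 234) (nat_lit 456) (nat_lit 0) (XT.nd (nat_lit 78) (nat_lit 456) (nat_lit 0) (XT.lf (nat_lit 0) (nat_lit 7003065473) (nat_lit 304) (nat_lit 47162223) (nat_lit 76) (nat_lit 5533259825) (nat_lit 58) (nat_lit 5) (nat_lit 62) (nat_lit 5) (nat_lit 59) (nat_lit 4) (nat_lit 484) (nat_lit 341) (nat_lit 315)) (XT.nd (nat_lit 78) (nat_lit 304) (nat_lit 0) (XT.lf (nat_lit 0) (nat_lit 8844342478) (nat_lit 152) (nat_lit 2765045314) (nat_lit 228) (nat_lit 1121925838) (nat_lit 56) (nat_lit 5) (nat_lit 58) (nat_lit 5) (nat_lit 59) (nat_lit 4) (nat_lit 485) (nat_lit 341) (nat_lit 314)) (XT.lf (nat_lit 0) (nat_lit 3368756381) (nat_lit 304) (nat_lit 7912547386) (nat_lit 76) (nat_lit 1600595903)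 (nat_lit 52) (nat_lit 5) (nat_lit 56) (nat_lit 5) (nat_lit 53) (nat_lit 4) (nat_lit 486) (nat_lit 341) (nat_lit 313)))) (XT.nd (nat_lit 78) (nat_lit 304) (nat_lit 0) (XT.lf (nat_lit 0) (nat_lit 911129066) (nat_lit 152) (nat_lit 7018571174) (nat_lit 228) (nat_lit 5105746481) (nat_lit 50) (nat_lit 5) (nat_lit 52) (nat_lit 5) (nat_lit 53) (nat_lit 4) (nat_lit 487) (nat_lit 341) (nat_lit 312)) (XT.nd (nat_lit 78) (nat_lit 304) (nat_lit 0) (XT.lf (nat_lit 0) (nat_lit 9923741850) (nat_lit 152) (nat_lit 2656654945) (nat_lit 228) (nat_lit 611704121) (nat_lit 50) (nat_lit 5) (nat_lit 52) (nat_lit 5) (nat_lit 53) (nat_lit 4) (nat_lit 488) (nat_lit 341) (nat_lit 311)) (XT.lf (nat_lit 0) (nat_lit 3915204499) (nat_lit 304) (nat_lit 7643216100) (nat_lit 76) (nat_lit 1793056768) (nat_lit 46) (nat_lit 5) (nat_lit 50) (nat_lit 5) (nat_lit 47) (nat_lit 4) (nat_lit 489) (nat_lit 341) (nat_lit 310))))))))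
noncomputable def xc15 : XT := (XT.nd (nat_lit 56940) (nat_lit 0) (nat_lit 3724) (XT.nd (nat_lit 858) (nat_lit 912) (nat_lit 0) (XT.nd (nat_lit 390) (nat_lit 760) (nat_lit 0) (XT.nd (nat_lit 156) (nat_lit 456) (nat_lit 0) (XT.nd (nat_lit 78) (nat_lit 0) (nat_lit 0) (XT.lf (nat_lit 0) (nat_lit 1296469720) (nat_lit 152) (nat_lit 7222427391) (nat_lit 228) (nat_lit 4995181123) (nat_lit 44) (nat_lit 5) (nat_lit 46) (nat_lit 5) (nat_lit 47) (nat_lit 4) (nat_lit 490) (nat_lit 341) (nat_lit 309)) (XT.lf (nat_lit 0) (nat_lit 10425314074) (nat_lit 152) (nat_lit 2787426222) (nat_lit 228) (nat_lit 467235644) (nat_lit 44) (nat_lit 5) (nat_lit 46) (nat_lit 5) (nat_lit 47) (nat_lit 4) (nat_lit 491) (nat_lit 341) (nat_lit 308))) (XT.nd (nat_lit 78) (nat_lit 152) (nat_lit 0) (XT.lf (nat_lit 0) (nat_lit 4093698855) (nat_lit 304) (nat_lit 8015261789) (nat_lit 76) (nat_lit 1739760516) (nat_lit 40) (nat_lit 5) (nat_lit 44) (nat_lit 5) (nat_lit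 41) (nat_lit 4) (nat_lit 492) (nat_lit 341) (nat_lit 307)) (XT.nd (nat_lit 78) (nat_lit 0) (nat_lit 0) (XT.lf (nat_lit 0) (nat_lit 1026518105) (nat_lit 152) (nat_lit 7707851428) (nat_lit 228) (nat_lit 5286520495) (nat_lit 38) (nat_lit 5) (nat_lit 40) (nat_lit 5) (nat_lit 41) (nat_lit 4) (nat_lit 493) (nat_lit 341) (nat_lit 306)) (XT.lf (nat_lit 0) (nat_lit 10266087304) (nat_lit 152) (nat_lit 3203642091) (nat_lit 228) (nat_lit 726741238) (nat_lit 38) (nat_lit 5) (nat_lit 40) (nat_lit 5) (nat_lit 41) (nat_lit 4) (nat_lit 494) (nat_lit 341) (nat_lit 305))))) (XT.nd (nat_lit 234) (nat_lit 380) (nat_lit 0) (XT.nd (nat_lit 78) (nat_lit 152) (nat_lit 0) (XT.lf (nat_lit 0) (nat_lit 3864902435) (nat_lit 228) (nat_lit 9116656327) (nat_lit 76) (nat_lit 1393657441) (nat_lit 35) (nat_lit 5) (nat_lit 38) (nat_lit 5) (nat_lit 36) (nat_lit 4) (nat_lit 495) (nat_lit 341) (nat_lit 304)) (XT.nd (nat_lit 78) (nat_lit 0) (nat_lit 0) (XT.lf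 (nat_lit 0) (nat_lit 10731762) (nat_lit 152) (nat_lit 8524691019) (nat_lit 228) (nat_lit 6022087864) (nat_lit 33) (nat_lit 5) (nat_lit 35) (nat_lit 5) (nat_lit 36) (nat_lit 4) (nat_lit 496) (nat_lit 341) (nat_lit 303)) (XT.lf (nat_lit 0) (nat_lit 9354087933) (nat_lit 152) (nat_lit 3955789470) (nat_lit 228) (nat_lit 1433368521) (nat_lit 33) (nat_lit 5) (nat_lit 35) (nat_lit 5) (nat_lit 36) (nat_lit 4) (nat_lit 497) (nat_lit 341) (nat_lit 302)))) (XT.nd (nat_lit 78) (nat_lit 152) (nat_lit 0) (XT.lf (nat_lit 0) (nat_lit 3184444181) (nat_lit 228) (nat_lit 11044877461) (nat_lit 76) (nat_lit 703359720) (nat_lit 30) (nat_lit 5) (nat_lit 33) (nat_lit 5) (nat_lit 31) (nat_lit 4) (nat_lit 498) (nat_lit 341) (nat_lit 301)) (XT.nd (nat_lit 78) (nat_lit 152) (nat_lit 0) (XT.lf (nat_lit 0) (nat_lit 7888197912) (nat_lit 228) (nat_lit 1826973682) (nat_lit 76) (nat_lit 5410293984) (nat_lit 30) (nat_lit 5) (nat_lit 33) (nat_lit 5) (nat_lit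 31) (nat_lit 4) (nat_lit 499) (nat_lit 341) (nat_lit 300)) (XT.lf (nat_lit 0) (nat_lit 7587328072) (nat_lit 152) (nat_lit 5099096663) (nat_lit 228) (nat_lit 2635677795) (nat_lit 28) (nat_lit 5) (nat_lit 30) (nat_lit 5) (nat_lit 31) (nat_lit 4) (nat_lit 500) (nat_lit 341) (nat_lit 299)))))) (XT.nd (nat_lit 390) (nat_lit 304) (nat_lit 0) (XT.nd (nat_lit 156) (nat_lit 380) (nat_lit 0) (XT.nd (nat_lit 78) (nat_lit 0) (nat_lit 0) (XT.lf (nat_lit 0) (nat_lit 1612411177) (nat_lit 152) (nat_lit 392556534) (nat_lit 228) (nat_lit 13517961814) (nat_lit 25) (nat_lit 5) (nat_lit 27) (nat_lit 5) (nat_lit 28) (nat_lit 5) (nat_lit 501) (nat_lit 341) (nat_lit 298)) (XT.lf (nat_lit 0) (nat_lit 6735381796) (nat_lit 228) (nat_lit 4609460032) (nat_lit 76) (nat_lit 4381942570) (nat_lit 25) (nat_lit 5) (nat_lit 28) (nat_lit 5) (nat_lit 26) (nat_lit 4) (nat_lit 502) (nat_lit 341) (nat_lit 297))) (XT.nd (nat_lit 78) (nat_lit 228) (nat_lit 0)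 (XT.lf (nat_lit 0) (nat_lit 4852689585) (nat_lit 152) (nat_lit 6694121027) (nat_lit 228) (nat_lit 4388182260) (nat_lit 23) (nat_lit 5) (nat_lit 25) (nat_lit 5) (nat_lit 26) (nat_lit 4) (nat_lit 503) (nat_lit 341) (nat_lit 296)) (XT.nd (nat_lit 78) (nat_lit 152) (nat_lit 0) (XT.lf (nat_lit 0) (nat_lit 286574307) (nat_lit 228) (nat_lit 1668426953) (nat_lit 76) (nat_lit 14192658836) (nat_lit 22) (nat_lit 5) (nat_lit 25) (nat_lit 5) (nat_lit 23) (nat_lit 5) (nat_lit 504) (nat_lit 341) (nat_lit 295)) (XT.lf (nat_lit 0) (nat_lit 5019849828) (nat_lit 228) (nat_lit 8458654230) (nat_lit 76) (nat_lit 2885025222) (nat_lit 20) (nat_lit 5) (nat_lit 23) (nat_lit 5) (nat_lit 21) (nat_lit 4) (nat_lit 505) (nat_lit 341) (nat_lit 294))))) (XT.nd (nat_lit 55458) (nat_lit 0) (nat_lit 9500) (XT.nd (nat_lit 78) (nat_lit 228) (nat_lit 0) (XT.lf (nat_lit 0) (nat_lit 1024693600) (nat_lit 76) (nat_lit 8807392625) (nat_lit 152) (nat_lit 6751947992)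 (nat_lit 19) (nat_lit 5) (nat_lit 20) (nat_lit 5) (nat_lit 21) (nat_lit 4) (nat_lit 506) (nat_lit 341) (nat_lit 293)) (XT.nd (nat_lit 78) (nat_lit 228) (nat_lit 0) (XT.lf (nat_lit 0) (nat_lit 10728432135) (nat_lit 76) (nat_lit 4022690685) (nat_lit 152) (nat_lit 2057619518) (nat_lit 19) (nat_lit 5) (nat_lit 20) (nat_lit 5) (nat_lit 21) (nat_lit 4) (nat_lit 507) (nat_lit 341) (nat_lit 292)) (XT.lf (nat_lit 0) (nat_lit 2677719892) (nat_lit 228) (nat_lit 13509621800) (nat_lit 76) (nat_lit 850593652) (nat_lit 16) (nat_lit 5) (nat_lit 19) (nat_lit 5) (nat_lit 17) (nat_lit 4) (nat_lit 508) (nat_lit 341) (nat_lit 291)))) (XT.nd (nat_lit 78) (nat_lit 836) (nat_lit 0) (XT.lf (nat_lit 0) (nat_lit 1611063670) (nat_lit 456) (nat_lit 1491562683) (nat_lit 0) (nat_lit 1611063670) (nat_lit 152) (nat_lit 5) (nat_lit 158) (nat_lit 4) (nat_lit 152) (nat_lit 4) (nat_lit 456) (nat_lit 342) (nat_lit 342)) (XT.nd (nat_lit 78) (nat_lit 456)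 (nat_lit 0) (XT.lf (nat_lit 0) (nat_lit 4660858349) (nat_lit 380) (nat_lit 2855806838) (nat_lit 380) (nat_lit 1995929637) (nat_lit 147) (nat_lit 4) (nat_lit 152) (nat_lit 5) (nat_lit 152) (nat_lit 4) (nat_lit 457) (nat_lit 342) (nat_lit 341)) (XT.lf (nat_lit 0) (nat_lit 2242411347) (nat_lit 456) (nat_lit 6784412741) (nat_lit 0) (nat_lit 572907361) (nat_lit 141) (nat_lit 5) (nat_lit 147) (nat_lit 4) (nat_lit 141) (nat_lit 4) (nat_lit 458) (nat_lit 342) (nat_lit 340))))))) (XT.nd (nat_lit 858) (nat_lit 2736) (nat_lit 0) (XT.nd (nat_lit 390) (nat_lit 1444) (nat_lit 0) (XT.nd (nat_lit 156) (nat_lit 1140) (nat_lit 0) (XT.nd (nat_lit 78) (nat_lit 76) (nat_lit 0) (XT.lf (nat_lit 0) (nat_lit 890597233) (nat_lit 380) (nat_lit 5638868323) (nat_lit 380) (nat_lit 3159082846) (nat_lit 136) (nat_lit 4) (nat_lit 141) (nat_lit 5) (nat_lit 141) (nat_lit 4) (nat_lit 459) (nat_lit 342) (nat_lit 339)) (XT.lf (nat_lit 0) (nat_lit 1087594385)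 (nat_lit 456) (nat_lit 1077238436) (nat_lit 76) (nat_lit 7614593245) (nat_lit 135) (nat_lit 5) (nat_lit 141) (nat_lit 5) (nat_lit 136) (nat_lit 4) (nat_lit 460) (nat_lit 342) (nat_lit 338))) (XT.nd (nat_lit 78) (nat_lit 760) (nat_lit 0) (XT.lf (nat_lit 0) (nat_lit 5364704357) (nat_lit 456) (nat_lit 3116078844) (nat_lit 0) (nat_lit 1391178504) (nat_lit 130) (nat_lit 5) (nat_lit 136) (nat_lit 4) (nat_lit 130) (nat_lit 4) (nat_lit 461) (nat_lit 342) (nat_lit 337)) (XT.nd (nat_lit 78) (nat_lit 380) (nat_lit 0) (XT.lf (nat_lit 0) (nat_lit 4740964994) (nat_lit 380) (nat_lit 4973873938) (nat_lit 380) (nat_lit 251773235) (nat_lit 125) (nat_lit 4) (nat_lit 130) (nat_lit 5) (nat_lit 130) (nat_lit 4) (nat_lit 462) (nat_lit 342) (nat_lit 336)) (XT.lf (nat_lit 0) (nat_lit 2641505427) (nat_lit 304) (nat_lit 1367159444) (nat_lit 380) (nat_lit 6054503648) (nat_lit 120) (nat_lit 5) (nat_lit 124) (nat_lit 5) (nat_lit 125) (nat_lit 4)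 (nat_lit 463) (nat_lit 342) (nat_lit 335))))) (XT.nd (nat_lit 234) (nat_lit 684) (nat_lit 0) (XT.nd (nat_lit 78) (nat_lit 380) (nat_lit 0) (XT.lf (nat_lit 0) (nat_lit 463554086) (nat_lit 380) (nat_lit 7876359106) (nat_lit 380) (nat_lit 1821943037) (nat_lit 115) (nat_lit 4) (nat_lit 120) (nat_lit 5) (nat_lit 120) (nat_lit 4) (nat_lit 464) (nat_lit 342) (nat_lit 334)) (XT.nd (nat_lit 78) (nat_lit 304) (nat_lit 0) (XT.lf (nat_lit 0) (nat_lit 2457554158) (nat_lit 456) (nat_lit 1781724119) (nat_lit 76) (nat_lit 6023027634) (nat_lit 114) (nat_lit 5) (nat_lit 120) (nat_lit 5) (nat_lit 115) (nat_lit 4) (nat_lit 465) (nat_lit 342) (nat_lit 333)) (XT.lf (nat_lit 0) (nat_lit 6263565544) (nat_lit 304) (nat_lit 512452460) (nat_lit 380) (nat_lit 3588962492) (nat_lit 110) (nat_lit 5) (nat_lit 114) (nat_lit 5) (nat_lit 115) (nat_lit 4) (nat_lit 466) (nat_lit 342) (nat_lit 332)))) (XT.nd (nat_lit 78) (nat_lit 304) (nat_lit 0) (XT.lf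 (nat_lit 0) (nat_lit 698282033) (nat_lit 380) (nat_lit 6519572125) (nat_lit 76) (nat_lit 3251844489) (nat_lit 105) (nat_lit 5) (nat_lit 110) (nat_lit 5) (nat_lit 106) (nat_lit 4) (nat_lit 467) (nat_lit 342) (nat_lit 331)) (XT.nd (nat_lit 78) (nat_lit 0) (nat_lit 0) (XT.lf (nat_lit 0) (nat_lit 1534871464) (nat_lit 304) (nat_lit 3467046715) (nat_lit 380) (nat_lit 5574555977) (nat_lit 101) (nat_lit 5) (nat_lit 105) (nat_lit 5) (nat_lit 106) (nat_lit 4) (nat_lit 468) (nat_lit 342) (nat_lit 330)) (XT.lf (nat_lit 0) (nat_lit 9375921813) (nat_lit 380) (nat_lit 948942636) (nat_lit 0) (nat_lit 360846120) (nat_lit 101) (nat_lit 5) (nat_lit 106) (nat_lit 4) (nat_lit 101) (nat_lit 4) (nat_lit 469) (nat_lit 342) (nat_lit 329)))))) (XT.nd (nat_lit 390) (nat_lit 1444) (nat_lit 0) (XT.nd (nat_lit 156) (nat_lit 608) (nat_lit 0) (XT.nd (nat_lit 78) (nat_lit 304) (nat_lit 0) (XT.lf (nat_lit 0) (nat_lit 3009817843) (nat_lit 380) (nat_lit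 3537294733) (nat_lit 76) (nat_lit 4249446839) (nat_lit 96) (nat_lit 5) (nat_lit 101) (nat_lit 5) (nat_lit 97) (nat_lit 4) (nat_lit 470) (nat_lit 342) (nat_lit 328)) (XT.lf (nat_lit 0) (nat_lit 4688994180) (nat_lit 304) (nat_lit 2685444986) (nat_lit 380) (nat_lit 3535500342) (nat_lit 92) (nat_lit 5) (nat_lit 96) (nat_lit 5) (nat_lit 97) (nat_lit 4) (nat_lit 471) (nat_lit 342) (nat_lit 327))) (XT.nd (nat_lit 78) (nat_lit 228) (nat_lit 0) (XT.lf (nat_lit 0) (nat_lit 774908212) (nat_lit 380) (nat_lit 9009239963) (nat_lit 76) (nat_lit 1241652377) (nat_lit 87) (nat_lit 5) (nat_lit 92) (nat_lit 5) (nat_lit 88) (nat_lit 4) (nat_lit 472) (nat_lit 342) (nat_lit 326)) (XT.nd (nat_lit 78) (nat_lit 228) (nat_lit 0) (XT.lf (nat_lit 0) (nat_lit 5123770922) (nat_lit 380) (nat_lit 780739428) (nat_lit 76) (nat_lit 5239019371) (nat_lit 87) (nat_lit 5) (nat_lit 92) (nat_lit 5) (nat_lit 88) (nat_lit 4) (nat_lit 473) (nat_lit 342) (nat_lit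 325)) (XT.lf (nat_lit 0) (nat_lit 7614884114) (nat_lit 228) (nat_lit 1935084708) (nat_lit 304) (nat_lit 1713847320) (nat_lit 84) (nat_lit 5) (nat_lit 87) (nat_lit 5) (nat_lit 88) (nat_lit 4) (nat_lit 474) (nat_lit 342) (nat_lit 324))))) (XT.nd (nat_lit 234) (nat_lit 836) (nat_lit 0) (XT.nd (nat_lit 78) (nat_lit 228) (nat_lit 0) (XT.lf (nat_lit 0) (nat_lit 2634050122) (nat_lit 380) (nat_lit 6650451145) (nat_lit 76) (nat_lit 2101848848) (nat_lit 79) (nat_lit 5) (nat_lit 84) (nat_lit 5) (nat_lit 80) (nat_lit 4) (nat_lit 475) (nat_lit 342) (nat_lit 323)) (XT.nd (nat_lit 78) (nat_lit 0) (nat_lit 0) (XT.lf (nat_lit 0) (nat_lit 1727617241) (nat_lit 228) (nat_lit 5308370103) (nat_lit 304) (nat_lit 4475329508) (nat_lit 76) (nat_lit 5) (nat_lit 79) (nat_lit 5) (nat_lit 80) (nat_lit 4) (nat_lit 476) (nat_lit 342) (nat_lit 322)) (XT.lf (nat_lit 0) (nat_lit 10266281478) (nat_lit 228) (nat_lit 1246158169) (nat_lit 304) (nat_lit 126622830)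 (nat_lit 76) (nat_lit 5) (nat_lit 79) (nat_lit 5) (nat_lit 80) (nat_lit 4) (nat_lit 477) (nat_lit 342) (nat_lit 321)))) (XT.nd (nat_lit 78) (nat_lit 532) (nat_lit 0) (XT.lf (nat_lit 0) (nat_lit 4260795346) (nat_lit 304) (nat_lit 4611564177) (nat_lit 76) (nat_lit 2896287643) (nat_lit 72) (nat_lit 5) (nat_lit 76) (nat_lit 5) (nat_lit 73) (nat_lit 4) (nat_lit 478) (nat_lit 342) (nat_lit 320)) (XT.nd (nat_lit 78) (nat_lit 304) (nat_lit 0) (XT.lf (nat_lit 0) (nat_lit 3921546191) (nat_lit 228) (nat_lit 4798567739) (nat_lit 304) (nat_lit 3180984485) (nat_lit 69) (nat_lit 5) (nat_lit 72) (nat_lit 5) (nat_lit 73) (nat_lit 4) (nat_lit 479) (nat_lit 342) (nat_lit 319)) (XT.lf (nat_lit 0) (nat_lit 554941968) (nat_lit 228) (nat_lit 639043938) (nat_lit 304) (nat_lit 10842506390) (nat_lit 65) (nat_lit 5) (nat_lit 68) (nat_lit 5) (nat_lit 69) (nat_lit 5) (nat_lit 480) (nat_lit 342) (nat_lit 318))))))))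
noncomputable def xc16 : XT := (XT.nd (nat_lit 1638) (nat_lit 684) (nat_lit 0) (XT.nd (nat_lit 780) (nat_lit 1444) (nat_lit 0) (XT.nd (nat_lit 390) (nat_lit 760) (nat_lit 0) (XT.nd (nat_lit 156) (nat_lit 456) (nat_lit 0) (XT.nd (nat_lit 78) (nat_lit 228) (nat_lit 0) (XT.lf (nat_lit 0) (nat_lit 5634418144) (nat_lit 304) (nat_lit 2946679757) (nat_lit 76) (nat_lit 3592672572) (nat_lit 65) (nat_lit 5) (nat_lit 69) (nat_lit 5) (nat_lit 66) (nat_lit 4) (nat_lit 481) (nat_lit 342) (nat_lit 317)) (XT.lf (nat_lit 0) (nat_lit 5735138757) (nat_lit 228) (nat_lit 4414319043) (nat_lit 304) (nat_lit 2164628342) (nat_lit 62) (nat_lit 5) (nat_lit 65) (nat_lit 5) (nat_lit 66) (nat_lit 4) (nat_lit 482) (nat_lit 342) (nat_lit 316))) (XT.nd (nat_lit 78) (nat_lit 152) (nat_lit 0) (XT.lf (nat_lit 0) (nat_lit 2091245134) (nat_lit 228) (nat_lit 154131914) (nat_lit 304) (nat_lit 10211981920) (nat_lit 58) (nat_lit 5) (nat_lit 61) (nat_lit 5) (nat_lit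 62) (nat_lit 5) (nat_lit 483) (nat_lit 342) (nat_lit 315)) (XT.nd (nat_lit 78) (nat_lit 152) (nat_lit 0) (XT.lf (nat_lit 0) (nat_lit 6730939482) (nat_lit 304) (nat_lit 1715521908) (nat_lit 76) (nat_lit 4156430318) (nat_lit 58) (nat_lit 5) (nat_lit 62) (nat_lit 5) (nat_lit 59) (nat_lit 4) (nat_lit 484) (nat_lit 342) (nat_lit 314)) (XT.lf (nat_lit 0) (nat_lit 7107047400) (nat_lit 152) (nat_lit 4192076452) (nat_lit 228) (nat_lit 1452360338) (nat_lit 56) (nat_lit 5) (nat_lit 58) (nat_lit 5) (nat_lit 59) (nat_lit 4) (nat_lit 485) (nat_lit 342) (nat_lit 313))))) (XT.nd (nat_lit 156) (nat_lit 456) (nat_lit 0) (XT.nd (nat_lit 78) (nat_lit 0) (nat_lit 0) (XT.lf (nat_lit 0) (nat_lit 2994510404) (nat_lit 304) (nat_lit 9749521854) (nat_lit 76) (nat_lit 159047260) (nat_lit 52) (nat_lit 5) (nat_lit 56) (nat_lit 5) (nat_lit 53) (nat_lit 4) (nat_lit 486) (nat_lit 342) (nat_lit 312)) (XT.lf (nat_lit 0) (nat_lit 7522831642) (nat_lit 304)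 (nat_lit 984107211) (nat_lit 76) (nat_lit 4550343574) (nat_lit 52) (nat_lit 5) (nat_lit 56) (nat_lit 5) (nat_lit 53) (nat_lit 4) (nat_lit 487) (nat_lit 342) (nat_lit 311))) (XT.nd (nat_lit 78) (nat_lit 304) (nat_lit 0) (XT.lf (nat_lit 0) (nat_lit 7969419802) (nat_lit 152) (nat_lit 4171151993) (nat_lit 228) (nat_lit 1074027295) (nat_lit 50) (nat_lit 5) (nat_lit 52) (nat_lit 5) (nat_lit 53) (nat_lit 4) (nat_lit 488) (nat_lit 342) (nat_lit 310)) (XT.nd (nat_lit 78) (nat_lit 0) (nat_lit 0) (XT.lf (nat_lit 0) (nat_lit 3409455747) (nat_lit 304) (nat_lit 9702609141) (nat_lit 76) (nat_lit 262963678) (nat_lit 46) (nat_lit 5) (nat_lit 50) (nat_lit 5) (nat_lit 47) (nat_lit 4) (nat_lit 489) (nat_lit 342) (nat_lit 309)) (XT.lf (nat_lit 0) (nat_lit 7978687303) (nat_lit 304) (nat_lit 825480276) (nat_lit 76) (nat_lit 4734154221) (nat_lit 46) (nat_lit 5) (nat_lit 50) (nat_lit 5) (nat_lit 47) (nat_lit 4) (nat_lit 490) (nat_lit 342) (nat_lit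 308)))))) (XT.nd (nat_lit 390) (nat_lit 608) (nat_lit 0) (XT.nd (nat_lit 156) (nat_lit 380) (nat_lit 0) (XT.nd (nat_lit 78) (nat_lit 304) (nat_lit 0) (XT.lf (nat_lit 0) (nat_lit 8247140049) (nat_lit 152) (nat_lit 4394132970) (nat_lit 228) (nat_lit 1063574721) (nat_lit 44) (nat_lit 5) (nat_lit 46) (nat_lit 5) (nat_lit 47) (nat_lit 4) (nat_lit 491) (nat_lit 342) (nat_lit 307)) (XT.lf (nat_lit 0) (nat_lit 3454247567) (nat_lit 304) (nat_lit 10304041311) (nat_lit 76) (nat_lit 116403150) (nat_lit 40) (nat_lit 5) (nat_lit 44) (nat_lit 5) (nat_lit 41) (nat_lit 4) (nat_lit 492) (nat_lit 342) (nat_lit 306))) (XT.nd (nat_lit 78) (nat_lit 380) (nat_lit 0) (XT.lf (nat_lit 0) (nat_lit 8062849692) (nat_lit 304) (nat_lit 1320522741) (nat_lit 76) (nat_lit 4664132743) (nat_lit 40) (nat_lit 5) (nat_lit 44) (nat_lit 5) (nat_lit 41) (nat_lit 4) (nat_lit 493) (nat_lit 342) (nat_lit 305)) (XT.nd (nat_lit 78) (nat_lit 228) (nat_lit 0) (XT.lf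 (nat_lit 0) (nat_lit 7856993776) (nat_lit 152) (nat_lit 4907333576) (nat_lit 228) (nat_lit 1459438923) (nat_lit 38) (nat_lit 5) (nat_lit 40) (nat_lit 5) (nat_lit 41) (nat_lit 4) (nat_lit 494) (nat_lit 342) (nat_lit 304)) (XT.lf (nat_lit 0) (nat_lit 2759416453) (nat_lit 152) (nat_lit 332075262) (nat_lit 228) (nat_lit 11312124462) (nat_lit 35) (nat_lit 5) (nat_lit 37) (nat_lit 5) (nat_lit 38) (nat_lit 5) (nat_lit 495) (nat_lit 342) (nat_lit 303))))) (XT.nd (nat_lit 234) (nat_lit 228) (nat_lit 0) (XT.nd (nat_lit 78) (nat_lit 380) (nat_lit 0) (XT.lf (nat_lit 0) (nat_lit 7735000032) (nat_lit 228) (nat_lit 2558843812) (nat_lit 76) (nat_lit 4292609702) (nat_lit 35) (nat_lit 5) (nat_lit 38) (nat_lit 5) (nat_lit 36) (nat_lit 4) (nat_lit 496) (nat_lit 342) (nat_lit 302)) (XT.nd (nat_lit 78) (nat_lit 228) (nat_lit 0) (XT.lf (nat_lit 0) (nat_lit 6706748975) (nat_lit 152) (nat_lit 5761286783) (nat_lit 228) (nat_lit 2304984078) (nat_lit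 33) (nat_lit 5) (nat_lit 35) (nat_lit 5) (nat_lit 36) (nat_lit 4) (nat_lit 497) (nat_lit 342) (nat_lit 301)) (XT.lf (nat_lit 0) (nat_lit 1141768709) (nat_lit 152) (nat_lit 1135739699) (nat_lit 228) (nat_lit 12685997611) (nat_lit 30) (nat_lit 5) (nat_lit 32) (nat_lit 5) (nat_lit 33) (nat_lit 5) (nat_lit 498) (nat_lit 342) (nat_lit 300)))) (XT.nd (nat_lit 78) (nat_lit 228) (nat_lit 0) (XT.lf (nat_lit 0) (nat_lit 6949698091) (nat_lit 228) (nat_lit 4639761176) (nat_lit 76) (nat_lit 3567464731) (nat_lit 30) (nat_lit 5) (nat_lit 33) (nat_lit 5) (nat_lit 31) (nat_lit 4) (nat_lit 499) (nat_lit 342) (nat_lit 299)) (XT.nd (nat_lit 78) (nat_lit 76) (nat_lit 0) (XT.lf (nat_lit 0) (nat_lit 4694143373) (nat_lit 152) (nat_lit 7011281309) (nat_lit 228) (nat_lit 3648988705) (nat_lit 28) (nat_lit 5) (nat_lit 30) (nat_lit 5) (nat_lit 31) (nat_lit 4) (nat_lit 500) (nat_lit 342) (nat_lit 298)) (XT.lf (nat_lit 0) (nat_lit 970795008) (nat_lit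 228) (nat_lit 1370142697) (nat_lit 76) (nat_lit 13215119627) (nat_lit 27) (nat_lit 5) (nat_lit 30) (nat_lit 5) (nat_lit 28) (nat_lit 5) (nat_lit 501) (nat_lit 342) (nat_lit 297))))))) (XT.nd (nat_lit 55926) (nat_lit 0) (nat_lit 6308) (XT.nd (nat_lit 390) (nat_lit 152) (nat_lit 0) (XT.nd (nat_lit 156) (nat_lit 228) (nat_lit 0) (XT.nd (nat_lit 78) (nat_lit 152) (nat_lit 0) (XT.lf (nat_lit 0) (nat_lit 5655871185) (nat_lit 228) (nat_lit 7673382004) (nat_lit 76) (nat_lit 2431568067) (nat_lit 25) (nat_lit 5) (nat_lit 28) (nat_lit 5) (nat_lit 26) (nat_lit 4) (nat_lit 502) (nat_lit 342) (nat_lit 296)) (XT.lf (nat_lit 0) (nat_lit 1705768301) (nat_lit 152) (nat_lit 8717948886) (nat_lit 228) (nat_lit 5546186446) (nat_lit 23) (nat_lit 5) (nat_lit 25) (nat_lit 5) (nat_lit 26) (nat_lit 4) (nat_lit 503) (nat_lit 342) (nat_lit 295))) (XT.nd (nat_lit 78) (nat_lit 228) (nat_lit 0) (XT.lf (nat_lit 0) (nat_lit 11292782572) (nat_lit 152)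 (nat_lit 3999238427) (nat_lit 228) (nat_lit 891049092) (nat_lit 23) (nat_lit 5) (nat_lit 25) (nat_lit 5) (nat_lit 26) (nat_lit 4) (nat_lit 504) (nat_lit 342) (nat_lit 294)) (XT.nd (nat_lit 78) (nat_lit 0) (nat_lit 0) (XT.lf (nat_lit 0) (nat_lit 3796246486) (nat_lit 228) (nat_lit 11781794778) (nat_lit 76) (nat_lit 822169157) (nat_lit 20) (nat_lit 5) (nat_lit 23) (nat_lit 5) (nat_lit 21) (nat_lit 4) (nat_lit 505) (nat_lit 342) (nat_lit 293)) (XT.lf (nat_lit 0) (nat_lit 8579225147) (nat_lit 228) (nat_lit 2352893269) (nat_lit 76) (nat_lit 5689184174) (nat_lit 20) (nat_lit 5) (nat_lit 23) (nat_lit 5) (nat_lit 21) (nat_lit 4) (nat_lit 506) (nat_lit 342) (nat_lit 292))))) (XT.nd (nat_lit 55302) (nat_lit 0) (nat_lit 9804) (XT.nd (nat_lit 78) (nat_lit 76) (nat_lit 0) (XT.lf (nat_lit 0) (nat_lit 7278839056) (nat_lit 76) (nat_lit 6181517113) (nat_lit 152) (nat_lit 3386414688) (nat_lit 19) (nat_lit 5) (nat_lit 20) (nat_lit 5) (nat_lit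 21) (nat_lit 4) (nat_lit 507) (nat_lit 342) (nat_lit 291)) (XT.nd (nat_lit 55146) (nat_lit 0) (nat_lit 10640) (XT.lf (nat_lit 0) (nat_lit 1315677027) (nat_lit 152) (nat_lit 31556855) (nat_lit 76) (nat_lit 15729917987) (nat_lit 18) (nat_lit 5) (nat_lit 20) (nat_lit 5) (nat_lit 19) (nat_lit 5) (nat_lit 508) (nat_lit 342) (nat_lit 290)) (XT.lf (nat_lit 0) (nat_lit 314944041) (nat_lit 456) (nat_lit 2157982364) (nat_lit 456) (nat_lit 2157982364) (nat_lit 158) (nat_lit 4) (nat_lit 164) (nat_lit 5) (nat_lit 164) (nat_lit 4) (nat_lit 454) (nat_lit 343) (nat_lit 343)))) (XT.nd (nat_lit 78) (nat_lit 836) (nat_lit 0) (XT.lf (nat_lit 0) (nat_lit 8179698175) (nat_lit 456) (nat_lit 1029596903) (nat_lit 456) (nat_lit 134980663) (nat_lit 158) (nat_lit 4) (nat_lit 164) (nat_lit 5) (nat_lit 164) (nat_lit 4) (nat_lit 455) (nat_lit 343) (nat_lit 342)) (XT.nd (nat_lit 78) (nat_lit 380) (nat_lit 0) (XT.lf (nat_lit 0) (nat_lit 4065801370)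 (nat_lit 456) (nat_lit 3033405092) (nat_lit 0) (nat_lit 2328849424) (nat_lit 152) (nat_lit 5) (nat_lit 158) (nat_lit 4) (nat_lit 152) (nat_lit 4) (nat_lit 456) (nat_lit 343) (nat_lit 341)) (XT.lf (nat_lit 0) (nat_lit 4559961495) (nat_lit 380) (nat_lit 3766976834) (nat_lit 380) (nat_lit 1187008024) (nat_lit 147) (nat_lit 4) (nat_lit 152) (nat_lit 5) (nat_lit 152) (nat_lit 4) (nat_lit 457) (nat_lit 343) (nat_lit 340)))))) (XT.nd (nat_lit 390) (nat_lit 1748) (nat_lit 0) (XT.nd (nat_lit 156) (nat_lit 912) (nat_lit 0) (XT.nd (nat_lit 78) (nat_lit 380) (nat_lit 0) (XT.lf (nat_lit 0) (nat_lit 2660166774) (nat_lit 380) (nat_lit 343111792) (nat_lit 456) (nat_lit 6598455649) (nat_lit 141) (nat_lit 5) (nat_lit 146) (nat_lit 5) (nat_lit 147) (nat_lit 4) (nat_lit 458) (nat_lit 343) (nat_lit 339)) (XT.lf (nat_lit 0) (nat_lit 683321271) (nat_lit 380) (nat_lit 6571006759) (nat_lit 380) (nat_lit 2436950462) (nat_lit 136) (nat_lit 4)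 (nat_lit 141) (nat_lit 5) (nat_lit 141) (nat_lit 4) (nat_lit 459) (nat_lit 343) (nat_lit 338))) (XT.nd (nat_lit 78) (nat_lit 836) (nat_lit 0) (XT.lf (nat_lit 0) (nat_lit 1767920723) (nat_lit 456) (nat_lit 1341673708) (nat_lit 76) (nat_lit 6673121606) (nat_lit 135) (nat_lit 5) (nat_lit 141) (nat_lit 5) (nat_lit 136) (nat_lit 4) (nat_lit 460) (nat_lit 343) (nat_lit 337)) (XT.nd (nat_lit 78) (nat_lit 456) (nat_lit 0) (XT.lf (nat_lit 0) (nat_lit 6005010579) (nat_lit 456) (nat_lit 3431155297) (nat_lit 0) (nat_lit 439893013) (nat_lit 130) (nat_lit 5) (nat_lit 136) (nat_lit 4) (nat_lit 130) (nat_lit 4) (nat_lit 461) (nat_lit 343) (nat_lit 336)) (XT.lf (nat_lit 0) (nat_lit 345262958) (nat_lit 456) (nat_lit 5601583301) (nat_lit 76) (nat_lit 4024502338) (nat_lit 124) (nat_lit 5) (nat_lit 130) (nat_lit 5) (nat_lit 125) (nat_lit 4) (nat_lit 462) (nat_lit 343) (nat_lit 335))))) (XT.nd (nat_lit 234) (nat_lit 988) (nat_lit 0) (XT.nd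 (nat_lit 78) (nat_lit 456) (nat_lit 0) (XT.lf (nat_lit 0) (nat_lit 2209194643) (nat_lit 304) (nat_lit 2358981543) (nat_lit 380) (nat_lit 5500386947) (nat_lit 120) (nat_lit 5) (nat_lit 124) (nat_lit 5) (nat_lit 125) (nat_lit 4) (nat_lit 463) (nat_lit 343) (nat_lit 334)) (XT.nd (nat_lit 78) (nat_lit 456) (nat_lit 0) (XT.lf (nat_lit 0) (nat_lit 8858744289) (nat_lit 380) (nat_lit 23052804) (nat_lit 0) (nat_lit 1286273647) (nat_lit 120) (nat_lit 5) (nat_lit 125) (nat_lit 4) (nat_lit 120) (nat_lit 4) (nat_lit 464) (nat_lit 343) (nat_lit 333)) (XT.lf (nat_lit 0) (nat_lit 2932147738) (nat_lit 456) (nat_lit 2327539514) (nat_lit 76) (nat_lit 5009398653) (nat_lit 114) (nat_lit 5) (nat_lit 120) (nat_lit 5) (nat_lit 115) (nat_lit 4) (nat_lit 465) (nat_lit 343) (nat_lit 332)))) (XT.nd (nat_lit 78) (nat_lit 684) (nat_lit 0) (XT.lf (nat_lit 0) (nat_lit 5661463911) (nat_lit 304) (nat_lit 1554701881) (nat_lit 380) (nat_lit 3156289543)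 (nat_lit 110) (nat_lit 5) (nat_lit 114) (nat_lit 5) (nat_lit 115) (nat_lit 4) (nat_lit 466) (nat_lit 343) (nat_lit 331)) (XT.nd (nat_lit 78) (nat_lit 304) (nat_lit 0) (XT.lf (nat_lit 0) (nat_lit 1083582417) (nat_lit 380) (nat_lit 7190448268) (nat_lit 76) (nat_lit 2203926279) (nat_lit 105) (nat_lit 5) (nat_lit 110) (nat_lit 5) (nat_lit 106) (nat_lit 4) (nat_lit 467) (nat_lit 343) (nat_lit 330)) (XT.lf (nat_lit 0) (nat_lit 805778225) (nat_lit 304) (nat_lit 4546418271) (nat_lit 380) (nat_lit 5233242006) (nat_lit 101) (nat_lit 5) (nat_lit 105) (nat_lit 5) (nat_lit 106) (nat_lit 4) (nat_lit 468) (nat_lit 343) (nat_lit 329))))))))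
noncomputable def xc17 : XT := (XT.nd (nat_lit 1716) (nat_lit 2052) (nat_lit 0) (XT.nd (nat_lit 858) (nat_lit 1748) (nat_lit 0) (XT.nd (nat_lit 390) (nat_lit 1368) (nat_lit 0) (XT.nd (nat_lit 156) (nat_lit 684) (nat_lit 0) (XT.nd (nat_lit 78) (nat_lit 380) (nat_lit 0) (XT.lf (nat_lit 0) (nat_lit 8961761353) (nat_lit 304) (nat_lit 732056546) (nat_lit 380) (nat_lit 1001510139) (nat_lit 101) (nat_lit 5) (nat_lit 105) (nat_lit 5) (nat_lit 106) (nat_lit 4) (nat_lit 469) (nat_lit 343) (nat_lit 328)) (XT.lf (nat_lit 0) (nat_lit 3274049758) (nat_lit 380) (nat_lit 4388186043) (nat_lit 76) (nat_lit 3144706389) (nat_lit 96) (nat_lit 5) (nat_lit 101) (nat_lit 5) (nat_lit 97) (nat_lit 4) (nat_lit 470) (nat_lit 343) (nat_lit 327))) (XT.nd (nat_lit 78) (nat_lit 380) (nat_lit 0) (XT.lf (nat_lit 0) (nat_lit 3778211771) (nat_lit 304) (nat_lit 3825080819) (nat_lit 380) (nat_lit 3317742426) (nat_lit 92) (nat_lit 5) (nat_lit 96) (nat_lit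 5) (nat_lit 97) (nat_lit 4) (nat_lit 471) (nat_lit 343) (nat_lit 326)) (XT.nd (nat_lit 78) (nat_lit 0) (nat_lit 0) (XT.lf (nat_lit 0) (nat_lit 946471808) (nat_lit 380) (nat_lit 9997700912) (nat_lit 76) (nat_lit 93566794) (nat_lit 87) (nat_lit 5) (nat_lit 92) (nat_lit 5) (nat_lit 88) (nat_lit 4) (nat_lit 472) (nat_lit 343) (nat_lit 325)) (XT.lf (nat_lit 0) (nat_lit 5266085537) (nat_lit 380) (nat_lit 1817377395) (nat_lit 76) (nat_lit 4072595595) (nat_lit 87) (nat_lit 5) (nat_lit 92) (nat_lit 5) (nat_lit 88) (nat_lit 4) (nat_lit 473) (nat_lit 343) (nat_lit 324))))) (XT.nd (nat_lit 234) (nat_lit 532) (nat_lit 0) (XT.nd (nat_lit 78) (nat_lit 608) (nat_lit 0) (XT.lf (nat_lit 0) (nat_lit 6516609710) (nat_lit 228) (nat_lit 3139867529) (nat_lit 304) (nat_lit 1620588603) (nat_lit 84) (nat_lit 5) (nat_lit 87) (nat_lit 5) (nat_lit 88) (nat_lit 4) (nat_lit 474) (nat_lit 343) (nat_lit 323)) (XT.nd (nat_lit 78) (nat_lit 228) (nat_lit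 0) (XT.lf (nat_lit 0) (nat_lit 2681857057) (nat_lit 380) (nat_lit 7831272285) (nat_lit 76) (nat_lit 887347521) (nat_lit 79) (nat_lit 5) (nat_lit 84) (nat_lit 5) (nat_lit 80) (nat_lit 4) (nat_lit 475) (nat_lit 343) (nat_lit 322)) (XT.lf (nat_lit 0) (nat_lit 483027306) (nat_lit 228) (nat_lit 6564210447) (nat_lit 304) (nat_lit 4478941473) (nat_lit 76) (nat_lit 5) (nat_lit 79) (nat_lit 5) (nat_lit 80) (nat_lit 4) (nat_lit 476) (nat_lit 343) (nat_lit 321)))) (XT.nd (nat_lit 78) (nat_lit 532) (nat_lit 0) (XT.lf (nat_lit 0) (nat_lit 8974557910) (nat_lit 228) (nat_lit 2520908649) (nat_lit 304) (nat_lit 159027168) (nat_lit 76) (nat_lit 5) (nat_lit 79) (nat_lit 5) (nat_lit 80) (nat_lit 4) (nat_lit 477) (nat_lit 343) (nat_lit 320)) (XT.nd (nat_lit 78) (nat_lit 228) (nat_lit 0) (XT.lf (nat_lit 0) (nat_lit 4183595127) (nat_lit 304) (nat_lit 5990796641) (nat_lit 76) (nat_lit 1610599509) (nat_lit 72) (nat_lit 5) (nat_lit 76) (nat_lit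 5) (nat_lit 73) (nat_lit 4) (nat_lit 478) (nat_lit 343) (nat_lit 319)) (XT.lf (nat_lit 0) (nat_lit 2476651050) (nat_lit 228) (nat_lit 6129148414) (nat_lit 304) (nat_lit 3312389499) (nat_lit 69) (nat_lit 5) (nat_lit 72) (nat_lit 5) (nat_lit 73) (nat_lit 4) (nat_lit 479) (nat_lit 343) (nat_lit 318)))))) (XT.nd (nat_lit 390) (nat_lit 912) (nat_lit 0) (XT.nd (nat_lit 156) (nat_lit 532) (nat_lit 0) (XT.nd (nat_lit 78) (nat_lit 228) (nat_lit 0) (XT.lf (nat_lit 0) (nat_lit 1033024628) (nat_lit 304) (nat_lit 960245812) (nat_lit 76) (nat_lit 10060959051) (nat_lit 68) (nat_lit 5) (nat_lit 72) (nat_lit 5) (nat_lit 69) (nat_lit 5) (nat_lit 480) (nat_lit 343) (nat_lit 317)) (XT.lf (nat_lit 0) (nat_lit 5430745863) (nat_lit 304) (nat_lit 4530556268) (nat_lit 76) (nat_lit 2231063671) (nat_lit 65) (nat_lit 5) (nat_lit 69) (nat_lit 5) (nat_lit 66) (nat_lit 4) (nat_lit 481) (nat_lit 343) (nat_lit 316))) (XT.nd (nat_lit 78) (nat_lit 304)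 (nat_lit 0) (XT.lf (nat_lit 0) (nat_lit 4083623504) (nat_lit 228) (nat_lit 5824420437) (nat_lit 304) (nat_lit 2425396198) (nat_lit 62) (nat_lit 5) (nat_lit 65) (nat_lit 5) (nat_lit 66) (nat_lit 4) (nat_lit 482) (nat_lit 343) (nat_lit 315)) (XT.nd (nat_lit 78) (nat_lit 0) (nat_lit 0) (XT.lf (nat_lit 0) (nat_lit 353236274) (nat_lit 228) (nat_lit 1596541904) (nat_lit 304) (nat_lit 10527737355) (nat_lit 58) (nat_lit 5) (nat_lit 61) (nat_lit 5) (nat_lit 62) (nat_lit 5) (nat_lit 483) (nat_lit 343) (nat_lit 314)) (XT.lf (nat_lit 0) (nat_lit 6399117253) (nat_lit 304) (nat_lit 3510472706) (nat_lit 76) (nat_lit 2714186396) (nat_lit 58) (nat_lit 5) (nat_lit 62) (nat_lit 5) (nat_lit 59) (nat_lit 4) (nat_lit 484) (nat_lit 343) (nat_lit 313))))) (XT.nd (nat_lit 234) (nat_lit 456) (nat_lit 0) (XT.nd (nat_lit 78) (nat_lit 304) (nat_lit 0) (XT.lf (nat_lit 0) (nat_lit 5242395817) (nat_lit 152) (nat_lit 5686467609) (nat_lit 228) (nat_lit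 1844277721) (nat_lit 56) (nat_lit 5) (nat_lit 58) (nat_lit 5) (nat_lit 59) (nat_lit 4) (nat_lit 485) (nat_lit 343) (nat_lit 312)) (XT.nd (nat_lit 78) (nat_lit 0) (nat_lit 0) (XT.lf (nat_lit 0) (nat_lit 1199924176) (nat_lit 228) (nat_lit 1367787843) (nat_lit 304) (nat_lit 10357879174) (nat_lit 52) (nat_lit 5) (nat_lit 55) (nat_lit 5) (nat_lit 56) (nat_lit 5) (nat_lit 486) (nat_lit 343) (nat_lit 311)) (XT.lf (nat_lit 0) (nat_lit 7060969370) (nat_lit 304) (nat_lit 2996775896) (nat_lit 76) (nat_lit 3022753453) (nat_lit 52) (nat_lit 5) (nat_lit 56) (nat_lit 5) (nat_lit 53) (nat_lit 4) (nat_lit 487) (nat_lit 343) (nat_lit 310)))) (XT.nd (nat_lit 78) (nat_lit 304) (nat_lit 0) (XT.lf (nat_lit 0) (nat_lit 5884898415) (nat_lit 152) (nat_lit 5754607110) (nat_lit 228) (nat_lit 1599097211) (nat_lit 50) (nat_lit 5) (nat_lit 52) (nat_lit 5) (nat_lit 53) (nat_lit 4) (nat_lit 488) (nat_lit 343) (nat_lit 309)) (XT.nd (nat_lit 78) (nat_lit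 0) (nat_lit 0) (XT.lf (nat_lit 0) (nat_lit 1495935324) (nat_lit 228) (nat_lit 1353838814) (nat_lit 304) (nat_lit 10550159364) (nat_lit 46) (nat_lit 5) (nat_lit 49) (nat_lit 5) (nat_lit 50) (nat_lit 5) (nat_lit 489) (nat_lit 343) (nat_lit 308)) (XT.lf (nat_lit 0) (nat_lit 7384682817) (nat_lit 304) (nat_lit 3062739612) (nat_lit 76) (nat_lit 3116493851) (nat_lit 46) (nat_lit 5) (nat_lit 50) (nat_lit 5) (nat_lit 47) (nat_lit 4) (nat_lit 490) (nat_lit 343) (nat_lit 307))))))) (XT.nd (nat_lit 858) (nat_lit 684) (nat_lit 0) (XT.nd (nat_lit 390) (nat_lit 532) (nat_lit 0) (XT.nd (nat_lit 156) (nat_lit 380) (nat_lit 0) (XT.nd (nat_lit 78) (nat_lit 304) (nat_lit 0) (XT.lf (nat_lit 0) (nat_lit 5935782216) (nat_lit 152) (nat_lit 6071447235) (nat_lit 228) (nat_lit 1724016575) (nat_lit 44) (nat_lit 5) (nat_lit 46) (nat_lit 5) (nat_lit 47) (nat_lit 4) (nat_lit 491) (nat_lit 343) (nat_lit 306)) (XT.lf (nat_lit 0) (nat_lit 1162539095)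 (nat_lit 228) (nat_lit 1598531374) (nat_lit 304) (nat_lit 11140936453) (nat_lit 40) (nat_lit 5) (nat_lit 43) (nat_lit 5) (nat_lit 44) (nat_lit 5) (nat_lit 492) (nat_lit 343) (nat_lit 305))) (XT.nd (nat_lit 78) (nat_lit 380) (nat_lit 0) (XT.lf (nat_lit 0) (nat_lit 7334388264) (nat_lit 304) (nat_lit 3789490487) (nat_lit 76) (nat_lit 2951649857) (nat_lit 40) (nat_lit 5) (nat_lit 44) (nat_lit 5) (nat_lit 41) (nat_lit 4) (nat_lit 493) (nat_lit 343) (nat_lit 304)) (XT.nd (nat_lit 78) (nat_lit 228) (nat_lit 0) (XT.lf (nat_lit 0) (nat_lit 5311583739) (nat_lit 152) (nat_lit 6683338434) (nat_lit 228) (nat_lit 2257689203) (nat_lit 38) (nat_lit 5) (nat_lit 40) (nat_lit 5) (nat_lit 41) (nat_lit 4) (nat_lit 494) (nat_lit 343) (nat_lit 303)) (XT.lf (nat_lit 0) (nat_lit 112527488) (nat_lit 152) (nat_lit 2149618491) (nat_lit 228) (nat_lit 12171252933) (nat_lit 35) (nat_lit 5) (nat_lit 37) (nat_lit 5) (nat_lit 38) (nat_lit 5) (nat_lit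 495) (nat_lit 343) (nat_lit 302))))) (XT.nd (nat_lit 234) (nat_lit 304) (nat_lit 0) (XT.nd (nat_lit 78) (nat_lit 228) (nat_lit 0) (XT.lf (nat_lit 0) (nat_lit 6869553306) (nat_lit 228) (nat_lit 5266898621) (nat_lit 76) (nat_lit 2480509006) (nat_lit 35) (nat_lit 5) (nat_lit 38) (nat_lit 5) (nat_lit 36) (nat_lit 4) (nat_lit 496) (nat_lit 343) (nat_lit 301)) (XT.nd (nat_lit 78) (nat_lit 76) (nat_lit 0) (XT.lf (nat_lit 0) (nat_lit 3919805841) (nat_lit 152) (nat_lit 7640864690) (nat_lit 228) (nat_lit 3243697644) (nat_lit 33) (nat_lit 5) (nat_lit 35) (nat_lit 5) (nat_lit 36) (nat_lit 4) (nat_lit 497) (nat_lit 343) (nat_lit 300)) (XT.lf (nat_lit 0) (nat_lit 1319904378) (nat_lit 228) (nat_lit 1727779667) (nat_lit 76) (nat_lit 11947918727) (nat_lit 32) (nat_lit 5) (nat_lit 35) (nat_lit 5) (nat_lit 33) (nat_lit 5) (nat_lit 498) (nat_lit 343) (nat_lit 299)))) (XT.nd (nat_lit 78) (nat_lit 152) (nat_lit 0) (XT.lf (nat_lit 0) (nat_lit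 5944522442) (nat_lit 228) (nat_lit 7594558607) (nat_lit 76) (nat_lit 1650893567) (nat_lit 30) (nat_lit 5) (nat_lit 33) (nat_lit 5) (nat_lit 31) (nat_lit 4) (nat_lit 499) (nat_lit 343) (nat_lit 298)) (XT.nd (nat_lit 78) (nat_lit 0) (nat_lit 0) (XT.lf (nat_lit 0) (nat_lit 1657904964) (nat_lit 152) (nat_lit 8999380052) (nat_lit 228) (nat_lit 4731040654) (nat_lit 28) (nat_lit 5) (nat_lit 30) (nat_lit 5) (nat_lit 31) (nat_lit 4) (nat_lit 500) (nat_lit 343) (nat_lit 297)) (XT.lf (nat_lit 0) (nat_lit 11114844424) (nat_lit 152) (nat_lit 4353834048) (nat_lit 228) (nat_lit 121882484) (nat_lit 28) (nat_lit 5) (nat_lit 30) (nat_lit 5) (nat_lit 31) (nat_lit 4) (nat_lit 501) (nat_lit 343) (nat_lit 296)))))) (XT.nd (nat_lit 390) (nat_lit 76) (nat_lit 0) (XT.nd (nat_lit 156) (nat_lit 380) (nat_lit 0) (XT.nd (nat_lit 78) (nat_lit 0) (nat_lit 0) (XT.lf (nat_lit 0) (nat_lit 4508005517) (nat_lit 228) (nat_lit 10882870699) (nat_lit 76) (nat_lit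 405602473) (nat_lit 25) (nat_lit 5) (nat_lit 28) (nat_lit 5) (nat_lit 26) (nat_lit 4) (nat_lit 502) (nat_lit 343) (nat_lit 295)) (XT.lf (nat_lit 0) (nat_lit 9242079566) (nat_lit 228) (nat_lit 1567000549) (nat_lit 76) (nat_lit 5197158593) (nat_lit 25) (nat_lit 5) (nat_lit 28) (nat_lit 5) (nat_lit 26) (nat_lit 4) (nat_lit 503) (nat_lit 343) (nat_lit 294))) (XT.nd (nat_lit 78) (nat_lit 228) (nat_lit 0) (XT.lf (nat_lit 0) (nat_lit 7958549545) (nat_lit 152) (nat_lit 6119008824) (nat_lit 228) (nat_lit 2142505456) (nat_lit 23) (nat_lit 5) (nat_lit 25) (nat_lit 5) (nat_lit 26) (nat_lit 4) (nat_lit 504) (nat_lit 343) (nat_lit 293)) (XT.nd (nat_lit 78) (nat_lit 0) (nat_lit 0) (XT.lf (nat_lit 0) (nat_lit 1175463955) (nat_lit 152) (nat_lit 1335717902) (nat_lit 228) (nat_lit 13927187309) (nat_lit 20) (nat_lit 5) (nat_lit 22) (nat_lit 5) (nat_lit 23) (nat_lit 5) (nat_lit 505) (nat_lit 343) (nat_lit 292)) (XT.lf (nat_lit 0) (nat_lit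 7263326635) (nat_lit 228) (nat_lit 5865534551) (nat_lit 76) (nat_lit 3531218861) (nat_lit 20) (nat_lit 5) (nat_lit 23) (nat_lit 5) (nat_lit 21) (nat_lit 4) (nat_lit 506) (nat_lit 343) (nat_lit 291))))) (XT.nd (nat_lit 55146) (nat_lit 0) (nat_lit 10488) (XT.nd (nat_lit 78) (nat_lit 0) (nat_lit 0) (XT.lf (nat_lit 0) (nat_lit 3679577899) (nat_lit 76) (nat_lit 8419783990) (nat_lit 152) (nat_lit 4787090336) (nat_lit 19) (nat_lit 5) (nat_lit 20) (nat_lit 5) (nat_lit 21) (nat_lit 4) (nat_lit 507) (nat_lit 343) (nat_lit 290)) (XT.nd (nat_lit 54990) (nat_lit 0) (nat_lit 11476) (XT.lf (nat_lit 0) (nat_lit 13416007134) (nat_lit 76) (nat_lit 3611930073) (nat_lit 152) (nat_lit 89502206) (nat_lit 19) (nat_lit 5) (nat_lit 20) (nat_lit 5) (nat_lit 21) (nat_lit 4) (nat_lit 508) (nat_lit 343) (nat_lit 289)) (XT.lf (nat_lit 0) (nat_lit 2076231804) (nat_lit 456) (nat_lit 1237358200) (nat_lit 456) (nat_lit 1237358200) (nat_lit 170) (nat_lit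 4) (nat_lit 176) (nat_lit 5) (nat_lit 176) (nat_lit 4) (nat_lit 452) (nat_lit 344) (nat_lit 344)))) (XT.nd (nat_lit 78) (nat_lit 532) (nat_lit 0) (XT.lf (nat_lit 0) (nat_lit 1656973043) (nat_lit 456) (nat_lit 6779985630) (nat_lit 0) (nat_lit 744464478) (nat_lit 164) (nat_lit 5) (nat_lit 170) (nat_lit 4) (nat_lit 164) (nat_lit 4) (nat_lit 453) (nat_lit 344) (nat_lit 343)) (XT.nd (nat_lit 78) (nat_lit 76) (nat_lit 0) (XT.lf (nat_lit 0) (nat_lit 580301160) (nat_lit 456) (nat_lit 5244658679) (nat_lit 456) (nat_lit 3437533874) (nat_lit 158) (nat_lit 4) (nat_lit 164) (nat_lit 5) (nat_lit 164) (nat_lit 4) (nat_lit 454) (nat_lit 344) (nat_lit 342)) (XT.lf (nat_lit 0) (nat_lit 700728360) (nat_lit 532) (nat_lit 1268728261) (nat_lit 76) (nat_lit 7376066004) (nat_lit 157) (nat_lit 5) (nat_lit 164) (nat_lit 5) (nat_lit 158) (nat_lit 4) (nat_lit 455) (nat_lit 344) (nat_lit 341))))))))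
noncomputable def xc18 : XT := (XT.nd (nat_lit 1716) (nat_lit 3496) (nat_lit 0) (XT.nd (nat_lit 858) (nat_lit 2584) (nat_lit 0) (XT.nd (nat_lit 390) (nat_lit 1900) (nat_lit 0) (XT.nd (nat_lit 156) (nat_lit 912) (nat_lit 0) (XT.nd (nat_lit 78) (nat_lit 380) (nat_lit 0) (XT.lf (nat_lit 0) (nat_lit 4860202367) (nat_lit 456) (nat_lit 3184263985) (nat_lit 0) (nat_lit 1385617317) (nat_lit 152) (nat_lit 5) (nat_lit 158) (nat_lit 4) (nat_lit 152) (nat_lit 4) (nat_lit 456) (nat_lit 344) (nat_lit 340)) (XT.lf (nat_lit 0) (nat_lit 4358128220) (nat_lit 380) (nat_lit 4729796946) (nat_lit 380) (nat_lit 428724774) (nat_lit 147) (nat_lit 4) (nat_lit 152) (nat_lit 5) (nat_lit 152) (nat_lit 4) (nat_lit 457) (nat_lit 344) (nat_lit 339))) (XT.nd (nat_lit 78) (nat_lit 456) (nat_lit 0) (XT.lf (nat_lit 0) (nat_lit 2398837350) (nat_lit 380) (nat_lit 1319078993) (nat_lit 456) (nat_lit 5887104234) (nat_lit 141) (nat_lit 5) (nat_lit 146) (nat_lit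 5) (nat_lit 147) (nat_lit 4) (nat_lit 458) (nat_lit 344) (nat_lit 338)) (XT.nd (nat_lit 78) (nat_lit 76) (nat_lit 0) (XT.lf (nat_lit 0) (nat_lit 372305727) (nat_lit 380) (nat_lit 7556508778) (nat_lit 380) (nat_lit 1766560462) (nat_lit 136) (nat_lit 4) (nat_lit 141) (nat_lit 5) (nat_lit 141) (nat_lit 4) (nat_lit 459) (nat_lit 344) (nat_lit 337)) (XT.lf (nat_lit 0) (nat_lit 2397817311) (nat_lit 456) (nat_lit 1709903694) (nat_lit 76) (nat_lit 5679645290) (nat_lit 135) (nat_lit 5) (nat_lit 141) (nat_lit 5) (nat_lit 136) (nat_lit 4) (nat_lit 460) (nat_lit 344) (nat_lit 336))))) (XT.nd (nat_lit 234) (nat_lit 760) (nat_lit 0) (XT.nd (nat_lit 78) (nat_lit 760) (nat_lit 0) (XT.lf (nat_lit 0) (nat_lit 6026287412) (nat_lit 380) (nat_lit 571909085) (nat_lit 456) (nat_lit 3283253541) (nat_lit 130) (nat_lit 5) (nat_lit 135) (nat_lit 5) (nat_lit 136) (nat_lit 4) (nat_lit 461) (nat_lit 344) (nat_lit 335)) (XT.nd (nat_lit 78) (nat_lit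 304) (nat_lit 0) (XT.lf (nat_lit 0) (nat_lit 887411505) (nat_lit 456) (nat_lit 6085827214) (nat_lit 76) (nat_lit 3004189863) (nat_lit 124) (nat_lit 5) (nat_lit 130) (nat_lit 5) (nat_lit 125) (nat_lit 4) (nat_lit 462) (nat_lit 344) (nat_lit 334)) (XT.lf (nat_lit 0) (nat_lit 1669768070) (nat_lit 304) (nat_lit 3406254368) (nat_lit 380) (nat_lit 4999313020) (nat_lit 120) (nat_lit 5) (nat_lit 124) (nat_lit 5) (nat_lit 125) (nat_lit 4) (nat_lit 463) (nat_lit 344) (nat_lit 333)))) (XT.nd (nat_lit 78) (nat_lit 760) (nat_lit 0) (XT.lf (nat_lit 0) (nat_lit 9329172371) (nat_lit 380) (nat_lit 610747667) (nat_lit 0) (nat_lit 235677560) (nat_lit 120) (nat_lit 5) (nat_lit 125) (nat_lit 4) (nat_lit 120) (nat_lit 4) (nat_lit 464) (nat_lit 344) (nat_lit 332)) (XT.nd (nat_lit 78) (nat_lit 304) (nat_lit 0) (XT.lf (nat_lit 0) (nat_lit 3354549363) (nat_lit 456) (nat_lit 2982018140) (nat_lit 76) (nat_lit 3940679653) (nat_lit 114) (nat_lit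 5) (nat_lit 120) (nat_lit 5) (nat_lit 115) (nat_lit 4) (nat_lit 465) (nat_lit 344) (nat_lit 331)) (XT.lf (nat_lit 0) (nat_lit 4950216395) (nat_lit 304) (nat_lit 2653795339) (nat_lit 380) (nat_lit 2777301779) (nat_lit 110) (nat_lit 5) (nat_lit 114) (nat_lit 5) (nat_lit 115) (nat_lit 4) (nat_lit 466) (nat_lit 344) (nat_lit 330)))))) (XT.nd (nat_lit 390) (nat_lit 1216) (nat_lit 0) (XT.nd (nat_lit 156) (nat_lit 988) (nat_lit 0) (XT.nd (nat_lit 78) (nat_lit 0) (nat_lit 0) (XT.lf (nat_lit 0) (nat_lit 1415406422) (nat_lit 380) (nat_lit 7973024845) (nat_lit 76) (nat_lit 1099184114) (nat_lit 105) (nat_lit 5) (nat_lit 110) (nat_lit 5) (nat_lit 106) (nat_lit 4) (nat_lit 467) (nat_lit 344) (nat_lit 329)) (XT.lf (nat_lit 0) (nat_lit 5649094434) (nat_lit 380) (nat_lit 35067167) (nat_lit 76) (nat_lit 4911639320) (nat_lit 105) (nat_lit 5) (nat_lit 110) (nat_lit 5) (nat_lit 106) (nat_lit 4) (nat_lit 468) (nat_lit 344) (nat_lit 328)))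 (XT.nd (nat_lit 78) (nat_lit 684) (nat_lit 0) (XT.lf (nat_lit 0) (nat_lit 8073062868) (nat_lit 304) (nat_lit 1888002417) (nat_lit 380) (nat_lit 745223555) (nat_lit 101) (nat_lit 5) (nat_lit 105) (nat_lit 5) (nat_lit 106) (nat_lit 4) (nat_lit 469) (nat_lit 344) (nat_lit 327)) (XT.nd (nat_lit 78) (nat_lit 304) (nat_lit 0) (XT.lf (nat_lit 0) (nat_lit 3484046834) (nat_lit 380) (nat_lit 5352946147) (nat_lit 76) (nat_lit 1981740459) (nat_lit 96) (nat_lit 5) (nat_lit 101) (nat_lit 5) (nat_lit 97) (nat_lit 4) (nat_lit 470) (nat_lit 344) (nat_lit 326)) (XT.lf (nat_lit 0) (nat_lit 2752999924) (nat_lit 304) (nat_lit 5024746046) (nat_lit 380) (nat_lit 3155796232) (nat_lit 92) (nat_lit 5) (nat_lit 96) (nat_lit 5) (nat_lit 97) (nat_lit 4) (nat_lit 471) (nat_lit 344) (nat_lit 325))))) (XT.nd (nat_lit 234) (nat_lit 608) (nat_lit 0) (XT.nd (nat_lit 78) (nat_lit 532) (nat_lit 0) (XT.lf (nat_lit 0) (nat_lit 1070103212) (nat_lit 380) (nat_lit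 58837041) (nat_lit 76) (nat_lit 9922014099) (nat_lit 91) (nat_lit 5) (nat_lit 96) (nat_lit 5) (nat_lit 92) (nat_lit 5) (nat_lit 472) (nat_lit 344) (nat_lit 324)) (XT.nd (nat_lit 78) (nat_lit 228) (nat_lit 0) (XT.lf (nat_lit 0) (nat_lit 5353321990) (nat_lit 380) (nat_lit 2970157511) (nat_lit 76) (nat_lit 2846526533) (nat_lit 87) (nat_lit 5) (nat_lit 92) (nat_lit 5) (nat_lit 88) (nat_lit 4) (nat_lit 473) (nat_lit 344) (nat_lit 323)) (XT.lf (nat_lit 0) (nat_lit 5301588120) (nat_lit 228) (nat_lit 4406123638) (nat_lit 304) (nat_lit 1584026306) (nat_lit 84) (nat_lit 5) (nat_lit 87) (nat_lit 5) (nat_lit 88) (nat_lit 4) (nat_lit 474) (nat_lit 344) (nat_lit 322)))) (XT.nd (nat_lit 78) (nat_lit 228) (nat_lit 0) (XT.lf (nat_lit 0) (nat_lit 2281887601) (nat_lit 304) (nat_lit 393767969) (nat_lit 380) (nat_lit 8740338946) (nat_lit 79) (nat_lit 5) (nat_lit 83) (nat_lit 5) (nat_lit 84) (nat_lit 5) (nat_lit 475) (nat_lit 344) (nat_lit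 321)) (XT.nd (nat_lit 78) (nat_lit 228) (nat_lit 0) (XT.lf (nat_lit 0) (nat_lit 7007426057) (nat_lit 380) (nat_lit 870101177) (nat_lit 76) (nat_lit 3664846256) (nat_lit 79) (nat_lit 5) (nat_lit 84) (nat_lit 5) (nat_lit 80) (nat_lit 4) (nat_lit 476) (nat_lit 344) (nat_lit 320)) (XT.lf (nat_lit 0) (nat_lit 7563656797) (nat_lit 228) (nat_lit 3858603621) (nat_lit 304) (nat_lit 249099782) (nat_lit 76) (nat_lit 5) (nat_lit 79) (nat_lit 5) (nat_lit 80) (nat_lit 4) (nat_lit 477) (nat_lit 344) (nat_lit 319))))))) (XT.nd (nat_lit 858) (nat_lit 1520) (nat_lit 0) (XT.nd (nat_lit 390) (nat_lit 912) (nat_lit 0) (XT.nd (nat_lit 156) (nat_lit 532) (nat_lit 0) (XT.nd (nat_lit 78) (nat_lit 228) (nat_lit 0) (XT.lf (nat_lit 0) (nat_lit 4048830184) (nat_lit 304) (nat_lit 7491973242) (nat_lit 76) (nat_lit 261987646) (nat_lit 72) (nat_lit 5) (nat_lit 76) (nat_lit 5) (nat_lit 73) (nat_lit 4) (nat_lit 478) (nat_lit 344) (nat_lit 318)) (XT.lf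 (nat_lit 0) (nat_lit 909119304) (nat_lit 228) (nat_lit 7524548516) (nat_lit 304) (nat_lit 3503072342) (nat_lit 69) (nat_lit 5) (nat_lit 72) (nat_lit 5) (nat_lit 73) (nat_lit 4) (nat_lit 479) (nat_lit 344) (nat_lit 317))) (XT.nd (nat_lit 78) (nat_lit 456) (nat_lit 0) (XT.lf (nat_lit 0) (nat_lit 817708692) (nat_lit 304) (nat_lit 2590950617) (nat_lit 76) (nat_lit 8664692735) (nat_lit 68) (nat_lit 5) (nat_lit 72) (nat_lit 5) (nat_lit 69) (nat_lit 5) (nat_lit 480) (nat_lit 344) (nat_lit 316)) (XT.nd (nat_lit 78) (nat_lit 228) (nat_lit 0) (XT.lf (nat_lit 0) (nat_lit 5168422067) (nat_lit 304) (nat_lit 6238987530) (nat_lit 76) (nat_lit 805022750) (nat_lit 65) (nat_lit 5) (nat_lit 69) (nat_lit 5) (nat_lit 66) (nat_lit 4) (nat_lit 481) (nat_lit 344) (nat_lit 315)) (XT.lf (nat_lit 0) (nat_lit 2306811760) (nat_lit 228) (nat_lit 7300883080) (nat_lit 304) (nat_lit 2746576111) (nat_lit 62) (nat_lit 5) (nat_lit 65) (nat_lit 5) (nat_lit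 66) (nat_lit 4) (nat_lit 482) (nat_lit 344) (nat_lit 314))))) (XT.nd (nat_lit 234) (nat_lit 456) (nat_lit 0) (XT.nd (nat_lit 78) (nat_lit 380) (nat_lit 0) (XT.lf (nat_lit 0) (nat_lit 1604079187) (nat_lit 304) (nat_lit 1492089403) (nat_lit 76) (nat_lit 9402797704) (nat_lit 61) (nat_lit 5) (nat_lit 65) (nat_lit 5) (nat_lit 62) (nat_lit 5) (nat_lit 483) (nat_lit 344) (nat_lit 313)) (XT.nd (nat_lit 78) (nat_lit 152) (nat_lit 0) (XT.lf (nat_lit 0) (nat_lit 6007468661) (nat_lit 304) (nat_lit 5432718521) (nat_lit 76) (nat_lit 1205962472) (nat_lit 58) (nat_lit 5) (nat_lit 62) (nat_lit 5) (nat_lit 59) (nat_lit 4) (nat_lit 484) (nat_lit 344) (nat_lit 312)) (XT.lf (nat_lit 0) (nat_lit 3249656491) (nat_lit 152) (nat_lit 7248804820) (nat_lit 228) (nat_lit 2297831677) (nat_lit 56) (nat_lit 5) (nat_lit 58) (nat_lit 5) (nat_lit 59) (nat_lit 4) (nat_lit 485) (nat_lit 344) (nat_lit 311)))) (XT.nd (nat_lit 78) (nat_lit 380) (nat_lit 0)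 (XT.lf (nat_lit 0) (nat_lit 2086547672) (nat_lit 228) (nat_lit 873171769) (nat_lit 76) (nat_lit 9989757006) (nat_lit 55) (nat_lit 5) (nat_lit 58) (nat_lit 5) (nat_lit 56) (nat_lit 5) (nat_lit 486) (nat_lit 344) (nat_lit 310)) (XT.nd (nat_lit 78) (nat_lit 152) (nat_lit 0) (XT.lf (nat_lit 0) (nat_lit 6538016649) (nat_lit 304) (nat_lit 5139615891) (nat_lit 76) (nat_lit 1427590475) (nat_lit 52) (nat_lit 5) (nat_lit 56) (nat_lit 5) (nat_lit 53) (nat_lit 4) (nat_lit 487) (nat_lit 344) (nat_lit 309)) (XT.lf (nat_lit 0) (nat_lit 3669360228) (nat_lit 152) (nat_lit 7407641259) (nat_lit 228) (nat_lit 2187119780) (nat_lit 50) (nat_lit 5) (nat_lit 52) (nat_lit 5) (nat_lit 53) (nat_lit 4) (nat_lit 488) (nat_lit 344) (nat_lit 308)))))) (XT.nd (nat_lit 390) (nat_lit 760) (nat_lit 0) (XT.nd (nat_lit 156) (nat_lit 456) (nat_lit 0) (XT.nd (nat_lit 78) (nat_lit 228) (nat_lit 0) (XT.lf (nat_lit 0) (nat_lit 2234628028) (nat_lit 228) (nat_lit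 804613875) (nat_lit 76) (nat_lit 10386986284) (nat_lit 49) (nat_lit 5) (nat_lit 52) (nat_lit 5) (nat_lit 50) (nat_lit 5) (nat_lit 489) (nat_lit 344) (nat_lit 307)) (XT.lf (nat_lit 0) (nat_lit 6728233168) (nat_lit 304) (nat_lit 5433189075) (nat_lit 76) (nat_lit 1429617816) (nat_lit 46) (nat_lit 5) (nat_lit 50) (nat_lit 5) (nat_lit 47) (nat_lit 4) (nat_lit 490) (nat_lit 344) (nat_lit 306))) (XT.nd (nat_lit 78) (nat_lit 304) (nat_lit 0) (XT.lf (nat_lit 0) (nat_lit 3490334158) (nat_lit 152) (nat_lit 7820026788) (nat_lit 228) (nat_lit 2448820203) (nat_lit 44) (nat_lit 5) (nat_lit 46) (nat_lit 5) (nat_lit 47) (nat_lit 4) (nat_lit 491) (nat_lit 344) (nat_lit 305)) (XT.nd (nat_lit 78) (nat_lit 228) (nat_lit 0) (XT.lf (nat_lit 0) (nat_lit 2013723702) (nat_lit 228) (nat_lit 1364357238) (nat_lit 76) (nat_lit 10552599055) (nat_lit 43) (nat_lit 5) (nat_lit 46) (nat_lit 5) (nat_lit 44) (nat_lit 5) (nat_lit 492) (nat_lit 344) (nat_lit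 304)) (XT.lf (nat_lit 0) (nat_lit 6542034741) (nat_lit 304) (nat_lit 6394816324) (nat_lit 76) (nat_lit 1168253544) (nat_lit 40) (nat_lit 5) (nat_lit 44) (nat_lit 5) (nat_lit 41) (nat_lit 4) (nat_lit 493) (nat_lit 344) (nat_lit 303))))) (XT.nd (nat_lit 234) (nat_lit 380) (nat_lit 0) (XT.nd (nat_lit 78) (nat_lit 228) (nat_lit 0) (XT.lf (nat_lit 0) (nat_lit 2628858993) (nat_lit 152) (nat_lit 8532353137) (nat_lit 228) (nat_lit 3121805117) (nat_lit 38) (nat_lit 5) (nat_lit 40) (nat_lit 5) (nat_lit 41) (nat_lit 4) (nat_lit 494) (nat_lit 344) (nat_lit 302)) (XT.nd (nat_lit 78) (nat_lit 152) (nat_lit 0) (XT.lf (nat_lit 0) (nat_lit 1384731231) (nat_lit 228) (nat_lit 2638725564) (nat_lit 76) (nat_lit 10440955468) (nat_lit 37) (nat_lit 5) (nat_lit 40) (nat_lit 5) (nat_lit 38) (nat_lit 5) (nat_lit 495) (nat_lit 344) (nat_lit 301)) (XT.lf (nat_lit 0) (nat_lit 5938673535) (nat_lit 228) (nat_lit 8114635396) (nat_lit 76) (nat_lit 595737235)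 (nat_lit 35) (nat_lit 5) (nat_lit 38) (nat_lit 5) (nat_lit 36) (nat_lit 4) (nat_lit 496) (nat_lit 344) (nat_lit 300)))) (XT.nd (nat_lit 78) (nat_lit 228) (nat_lit 0) (XT.lf (nat_lit 0) (nat_lit 992165612) (nat_lit 152) (nat_lit 9595260282) (nat_lit 228) (nat_lit 4249877342) (nat_lit 33) (nat_lit 5) (nat_lit 35) (nat_lit 5) (nat_lit 36) (nat_lit 4) (nat_lit 497) (nat_lit 344) (nat_lit 299)) (XT.nd (nat_lit 78) (nat_lit 152) (nat_lit 0) (XT.lf (nat_lit 0) (nat_lit 303598612) (nat_lit 228) (nat_lit 4723368399) (nat_lit 76) (nat_lit 10002170357) (nat_lit 32) (nat_lit 5) (nat_lit 35) (nat_lit 5) (nat_lit 33) (nat_lit 5) (nat_lit 498) (nat_lit 344) (nat_lit 298)) (XT.lf (nat_lit 0) (nat_lit 4529822947) (nat_lit 152) (nat_lit 344691798) (nat_lit 228) (nat_lit 10350070889) (nat_lit 30) (nat_lit 5) (nat_lit 32) (nat_lit 5) (nat_lit 33) (nat_lit 5) (nat_lit 499) (nat_lit 344) (nat_lit 297))))))))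
noncomputable def xc19 : XT := (XT.nd (nat_lit 56550) (nat_lit 0) (nat_lit 2736) (XT.nd (nat_lit 55692) (nat_lit 0) (nat_lit 7600) (XT.nd (nat_lit 390) (nat_lit 228) (nat_lit 0) (XT.nd (nat_lit 156) (nat_lit 380) (nat_lit 0) (XT.nd (nat_lit 78) (nat_lit 152) (nat_lit 0) (XT.lf (nat_lit 0) (nat_lit 9551480288) (nat_lit 228) (nat_lit 1502608953) (nat_lit 76) (nat_lit 4369565727) (nat_lit 30) (nat_lit 5) (nat_lit 33) (nat_lit 5) (nat_lit 31) (nat_lit 4) (nat_lit 500) (nat_lit 344) (nat_lit 296)) (XT.lf (nat_lit 0) (nat_lit 7893825989) (nat_lit 152) (nat_lit 6436551097) (nat_lit 228) (nat_lit 1296165394) (nat_lit 28) (nat_lit 5) (nat_lit 30) (nat_lit 5) (nat_lit 31) (nat_lit 4) (nat_lit 501) (nat_lit 344) (nat_lit 295))) (XT.nd (nat_lit 78) (nat_lit 152) (nat_lit 0) (XT.lf (nat_lit 0) (nat_lit 1583199863) (nat_lit 152) (nat_lit 1719297605) (nat_lit 228) (nat_lit 12531049953) (nat_lit 25) (nat_lit 5) (nat_lit 27) (nat_lit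 5) (nat_lit 28) (nat_lit 5) (nat_lit 502) (nat_lit 344) (nat_lit 294)) (XT.nd (nat_lit 78) (nat_lit 152) (nat_lit 0) (XT.lf (nat_lit 0) (nat_lit 8003156762) (nat_lit 228) (nat_lit 4963421156) (nat_lit 76) (nat_lit 3077399977) (nat_lit 25) (nat_lit 5) (nat_lit 28) (nat_lit 5) (nat_lit 26) (nat_lit 4) (nat_lit 503) (nat_lit 344) (nat_lit 293)) (XT.lf (nat_lit 0) (nat_lit 4477149587) (nat_lit 152) (nat_lit 8317066797) (nat_lit 228) (nat_lit 3464477130) (nat_lit 23) (nat_lit 5) (nat_lit 25) (nat_lit 5) (nat_lit 26) (nat_lit 4) (nat_lit 504) (nat_lit 344) (nat_lit 292))))) (XT.nd (nat_lit 55068) (nat_lit 0) (nat_lit 11400) (XT.nd (nat_lit 78) (nat_lit 152) (nat_lit 0) (XT.lf (nat_lit 0) (nat_lit 1177129339) (nat_lit 228) (nat_lit 2390752046) (nat_lit 76) (nat_lit 12909879542) (nat_lit 22) (nat_lit 5) (nat_lit 25) (nat_lit 5) (nat_lit 23) (nat_lit 5) (nat_lit 505) (nat_lit 344) (nat_lit 291)) (XT.nd (nat_lit 78) (nat_lit 0)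 (nat_lit 0) (XT.lf (nat_lit 0) (nat_lit 5877221659) (nat_lit 228) (nat_lit 9528046792) (nat_lit 76) (nat_lit 1295246402) (nat_lit 20) (nat_lit 5) (nat_lit 23) (nat_lit 5) (nat_lit 21) (nat_lit 4) (nat_lit 506) (nat_lit 344) (nat_lit 290)) (XT.lf (nat_lit 0) (nat_lit 10668065697) (nat_lit 228) (nat_lit 69834743) (nat_lit 76) (nat_lit 6189892373) (nat_lit 20) (nat_lit 5) (nat_lit 23) (nat_lit 5) (nat_lit 21) (nat_lit 4) (nat_lit 507) (nat_lit 344) (nat_lit 289)))) (XT.nd (nat_lit 78) (nat_lit 988) (nat_lit 0) (XT.lf (nat_lit 0) (nat_lit 3780326755) (nat_lit 456) (nat_lit 346799029) (nat_lit 456) (nat_lit 346799029) (nat_lit 183) (nat_lit 4) (nat_lit 189) (nat_lit 5) (nat_lit 189) (nat_lit 4) (nat_lit 450) (nat_lit 345) (nat_lit 345)) (XT.nd (nat_lit 78) (nat_lit 456) (nat_lit 0) (XT.lf (nat_lit 0) (nat_lit 3401421745) (nat_lit 532) (nat_lit 3170756198) (nat_lit 0) (nat_lit 2452047834) (nat_lit 176) (nat_lit 5) (nat_lit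 183) (nat_lit 4) (nat_lit 176) (nat_lit 4) (nat_lit 451) (nat_lit 345) (nat_lit 344)) (XT.lf (nat_lit 0) (nat_lit 4104225617) (nat_lit 456) (nat_lit 3439236870) (nat_lit 456) (nat_lit 1559104223) (nat_lit 170) (nat_lit 4) (nat_lit 176) (nat_lit 5) (nat_lit 176) (nat_lit 4) (nat_lit 452) (nat_lit 345) (nat_lit 343)))))) (XT.nd (nat_lit 390) (nat_lit 1976) (nat_lit 0) (XT.nd (nat_lit 156) (nat_lit 912) (nat_lit 0) (XT.nd (nat_lit 78) (nat_lit 456) (nat_lit 0) (XT.lf (nat_lit 0) (nat_lit 2302482487) (nat_lit 380) (nat_lit 219855977) (nat_lit 456) (nat_lit 6660408998) (nat_lit 164) (nat_lit 5) (nat_lit 169) (nat_lit 5) (nat_lit 170) (nat_lit 4) (nat_lit 453) (nat_lit 345) (nat_lit 342)) (XT.lf (nat_lit 0) (nat_lit 431520944) (nat_lit 456) (nat_lit 6223979918) (nat_lit 456) (nat_lit 2609021632) (nat_lit 158) (nat_lit 4) (nat_lit 164) (nat_lit 5) (nat_lit 164) (nat_lit 4) (nat_lit 454) (nat_lit 345) (nat_lit 341))) (XT.nd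 (nat_lit 78) (nat_lit 836) (nat_lit 0) (XT.lf (nat_lit 0) (nat_lit 1486049665) (nat_lit 532) (nat_lit 1473015163) (nat_lit 76) (nat_lit 6389033163) (nat_lit 157) (nat_lit 5) (nat_lit 164) (nat_lit 5) (nat_lit 158) (nat_lit 4) (nat_lit 455) (nat_lit 345) (nat_lit 340)) (XT.nd (nat_lit 78) (nat_lit 456) (nat_lit 0) (XT.lf (nat_lit 0) (nat_lit 5605641861) (nat_lit 456) (nat_lit 3435761206) (nat_lit 0) (nat_lit 392061124) (nat_lit 152) (nat_lit 5) (nat_lit 158) (nat_lit 4) (nat_lit 152) (nat_lit 4) (nat_lit 456) (nat_lit 345) (nat_lit 339)) (XT.lf (nat_lit 0) (nat_lit 275555489) (nat_lit 456) (nat_lit 5467240140) (nat_lit 76) (nat_lit 3777874762) (nat_lit 146) (nat_lit 5) (nat_lit 152) (nat_lit 5) (nat_lit 147) (nat_lit 4) (nat_lit 457) (nat_lit 345) (nat_lit 338))))) (XT.nd (nat_lit 234) (nat_lit 1140) (nat_lit 0) (XT.nd (nat_lit 78) (nat_lit 456) (nat_lit 0) (XT.lf (nat_lit 0) (nat_lit 2035072463) (nat_lit 380) (nat_lit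 2347763333) (nat_lit 456) (nat_lit 5226831405) (nat_lit 141) (nat_lit 5) (nat_lit 146) (nat_lit 5) (nat_lit 147) (nat_lit 4) (nat_lit 458) (nat_lit 345) (nat_lit 337)) (XT.nd (nat_lit 78) (nat_lit 456) (nat_lit 0) (XT.lf (nat_lit 0) (nat_lit 8553465885) (nat_lit 456) (nat_lit 42013035) (nat_lit 0) (nat_lit 1105354982) (nat_lit 141) (nat_lit 5) (nat_lit 147) (nat_lit 4) (nat_lit 141) (nat_lit 4) (nat_lit 459) (nat_lit 345) (nat_lit 336)) (XT.lf (nat_lit 0) (nat_lit 2977531166) (nat_lit 456) (nat_lit 2182072797) (nat_lit 76) (nat_lit 4633774698) (nat_lit 135) (nat_lit 5) (nat_lit 141) (nat_lit 5) (nat_lit 136) (nat_lit 4) (nat_lit 460) (nat_lit 345) (nat_lit 335)))) (XT.nd (nat_lit 78) (nat_lit 760) (nat_lit 0) (XT.lf (nat_lit 0) (nat_lit 5500348798) (nat_lit 380) (nat_lit 1643676678) (nat_lit 456) (nat_lit 2744121174) (nat_lit 130) (nat_lit 5) (nat_lit 135) (nat_lit 5) (nat_lit 136) (nat_lit 4) (nat_lit 461) (nat_lit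 345) (nat_lit 334)) (XT.nd (nat_lit 78) (nat_lit 304) (nat_lit 0) (XT.lf (nat_lit 0) (nat_lit 1378187062) (nat_lit 456) (nat_lit 6676934133) (nat_lit 76) (nat_lit 1929766003) (nat_lit 124) (nat_lit 5) (nat_lit 130) (nat_lit 5) (nat_lit 125) (nat_lit 4) (nat_lit 462) (nat_lit 345) (nat_lit 333)) (XT.lf (nat_lit 0) (nat_lit 1023014167) (nat_lit 304) (nat_lit 4509388614) (nat_lit 380) (nat_lit 4551085367) (nat_lit 120) (nat_lit 5) (nat_lit 124) (nat_lit 5) (nat_lit 125) (nat_lit 4) (nat_lit 463) (nat_lit 345) (nat_lit 332))))))) (XT.nd (nat_lit 858) (nat_lit 2128) (nat_lit 0) (XT.nd (nat_lit 390) (nat_lit 1596) (nat_lit 0) (XT.nd (nat_lit 156) (nat_lit 684) (nat_lit 0) (XT.nd (nat_lit 78) (nat_lit 456) (nat_lit 0) (XT.lf (nat_lit 0) (nat_lit 8872823152) (nat_lit 304) (nat_lit 881270861) (nat_lit 380) (nat_lit 430291498) (nat_lit 120) (nat_lit 5) (nat_lit 124) (nat_lit 5) (nat_lit 125) (nat_lit 4) (nat_lit 464) (nat_lit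 345) (nat_lit 331)) (XT.lf (nat_lit 0) (nat_lit 3724924680) (nat_lit 456) (nat_lit 3745416656) (nat_lit 76) (nat_lit 2816451526) (nat_lit 114) (nat_lit 5) (nat_lit 120) (nat_lit 5) (nat_lit 115) (nat_lit 4) (nat_lit 465) (nat_lit 345) (nat_lit 330))) (XT.nd (nat_lit 78) (nat_lit 380) (nat_lit 0) (XT.lf (nat_lit 0) (nat_lit 4129544074) (nat_lit 304) (nat_lit 3810163852) (nat_lit 380) (nat_lit 2451850578) (nat_lit 110) (nat_lit 5) (nat_lit 114) (nat_lit 5) (nat_lit 115) (nat_lit 4) (nat_lit 466) (nat_lit 345) (nat_lit 329)) (XT.nd (nat_lit 78) (nat_lit 0) (nat_lit 0) (XT.lf (nat_lit 0) (nat_lit 1630647417) (nat_lit 304) (nat_lit 63650017) (nat_lit 380) (nat_lit 8804371992) (nat_lit 105) (nat_lit 5) (nat_lit 109) (nat_lit 5) (nat_lit 110) (nat_lit 5) (nat_lit 467) (nat_lit 345) (nat_lit 328)) (XT.lf (nat_lit 0) (nat_lit 5898460010) (nat_lit 380) (nat_lit 976416650) (nat_lit 76) (nat_lit 3732574184) (nat_lit 105) (nat_lit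 5) (nat_lit 110) (nat_lit 5) (nat_lit 106) (nat_lit 4) (nat_lit 468) (nat_lit 345) (nat_lit 327))))) (XT.nd (nat_lit 234) (nat_lit 608) (nat_lit 0) (XT.nd (nat_lit 78) (nat_lit 684) (nat_lit 0) (XT.lf (nat_lit 0) (nat_lit 7072745436) (nat_lit 304) (nat_lit 3102649350) (nat_lit 380) (nat_lit 543249965) (nat_lit 101) (nat_lit 5) (nat_lit 105) (nat_lit 5) (nat_lit 106) (nat_lit 4) (nat_lit 469) (nat_lit 345) (nat_lit 326)) (XT.nd (nat_lit 78) (nat_lit 304) (nat_lit 0) (XT.lf (nat_lit 0) (nat_lit 3639891423) (nat_lit 380) (nat_lit 6431953381) (nat_lit 76) (nat_lit 760092984) (nat_lit 96) (nat_lit 5) (nat_lit 101) (nat_lit 5) (nat_lit 97) (nat_lit 4) (nat_lit 470) (nat_lit 345) (nat_lit 325)) (XT.lf (nat_lit 0) (nat_lit 1612956596) (nat_lit 304) (nat_lit 6284911123) (nat_lit 380) (nat_lit 3049598250) (nat_lit 92) (nat_lit 5) (nat_lit 96) (nat_lit 5) (nat_lit 97) (nat_lit 4) (nat_lit 471) (nat_lit 345) (nat_lit 324)))) (XT.nd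 (nat_lit 78) (nat_lit 532) (nat_lit 0) (XT.lf (nat_lit 0) (nat_lit 1146654889) (nat_lit 380) (nat_lit 1259654923) (nat_lit 76) (nat_lit 8659124357) (nat_lit 91) (nat_lit 5) (nat_lit 96) (nat_lit 5) (nat_lit 92) (nat_lit 5) (nat_lit 472) (nat_lit 345) (nat_lit 323)) (XT.nd (nat_lit 78) (nat_lit 228) (nat_lit 0) (XT.lf (nat_lit 0) (nat_lit 5385514493) (nat_lit 380) (nat_lit 4239531847) (nat_lit 76) (nat_lit 1560331371) (nat_lit 87) (nat_lit 5) (nat_lit 92) (nat_lit 5) (nat_lit 88) (nat_lit 4) (nat_lit 473) (nat_lit 345) (nat_lit 322)) (XT.lf (nat_lit 0) (nat_lit 3969342868) (nat_lit 228) (nat_lit 5734349604) (nat_lit 304) (nat_lit 1604146088) (nat_lit 84) (nat_lit 5) (nat_lit 87) (nat_lit 5) (nat_lit 88) (nat_lit 4) (nat_lit 474) (nat_lit 345) (nat_lit 321)))))) (XT.nd (nat_lit 390) (nat_lit 1216) (nat_lit 0) (XT.nd (nat_lit 156) (nat_lit 532) (nat_lit 0) (XT.nd (nat_lit 78) (nat_lit 0) (nat_lit 0) (XT.lf (nat_lit 0) (nat_lit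 869681678) (nat_lit 304) (nat_lit 1749449327) (nat_lit 380) (nat_lit 8813704401) (nat_lit 79) (nat_lit 5) (nat_lit 83) (nat_lit 5) (nat_lit 84) (nat_lit 5) (nat_lit 475) (nat_lit 345) (nat_lit 320)) (XT.lf (nat_lit 0) (nat_lit 6914729437) (nat_lit 380) (nat_lit 2335949404) (nat_lit 76) (nat_lit 2309263300) (nat_lit 79) (nat_lit 5) (nat_lit 84) (nat_lit 5) (nat_lit 80) (nat_lit 4) (nat_lit 476) (nat_lit 345) (nat_lit 319))) (XT.nd (nat_lit 78) (nat_lit 304) (nat_lit 0) (XT.lf (nat_lit 0) (nat_lit 6033024843) (nat_lit 228) (nat_lit 5259767672) (nat_lit 304) (nat_lit 396875996) (nat_lit 76) (nat_lit 5) (nat_lit 79) (nat_lit 5) (nat_lit 80) (nat_lit 4) (nat_lit 477) (nat_lit 345) (nat_lit 318)) (XT.nd (nat_lit 78) (nat_lit 0) (nat_lit 0) (XT.lf (nat_lit 0) (nat_lit 2698653234) (nat_lit 228) (nat_lit 1165360729) (nat_lit 304) (nat_lit 7957888242) (nat_lit 72) (nat_lit 5) (nat_lit 75) (nat_lit 5) (nat_lit 76) (nat_lit 5) (nat_lit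 478) (nat_lit 345) (nat_lit 317)) (XT.lf (nat_lit 0) (nat_lit 8208726578) (nat_lit 304) (nat_lit 771412103) (nat_lit 76) (nat_lit 2976519106) (nat_lit 72) (nat_lit 5) (nat_lit 76) (nat_lit 5) (nat_lit 73) (nat_lit 4) (nat_lit 479) (nat_lit 345) (nat_lit 316))))) (XT.nd (nat_lit 234) (nat_lit 456) (nat_lit 0) (XT.nd (nat_lit 78) (nat_lit 456) (nat_lit 0) (XT.lf (nat_lit 0) (nat_lit 544350606) (nat_lit 304) (nat_lit 4345090101) (nat_lit 76) (nat_lit 7204498804) (nat_lit 68) (nat_lit 5) (nat_lit 72) (nat_lit 5) (nat_lit 69) (nat_lit 5) (nat_lit 480) (nat_lit 345) (nat_lit 315)) (XT.nd (nat_lit 78) (nat_lit 228) (nat_lit 0) (XT.lf (nat_lit 0) (nat_lit 4156730978) (nat_lit 228) (nat_lit 695126126) (nat_lit 304) (nat_lit 7382030610) (nat_lit 65) (nat_lit 5) (nat_lit 68) (nat_lit 5) (nat_lit 69) (nat_lit 5) (nat_lit 481) (nat_lit 345) (nat_lit 314)) (XT.lf (nat_lit 0) (nat_lit 404006734) (nat_lit 228) (nat_lit 8844285979) (nat_lit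 304) (nat_lit 3128294035) (nat_lit 62) (nat_lit 5) (nat_lit 65) (nat_lit 5) (nat_lit 66) (nat_lit 4) (nat_lit 482) (nat_lit 345) (nat_lit 313)))) (XT.nd (nat_lit 78) (nat_lit 380) (nat_lit 0) (XT.lf (nat_lit 0) (nat_lit 1201447988) (nat_lit 304) (nat_lit 3458982524) (nat_lit 76) (nat_lit 7861423083) (nat_lit 61) (nat_lit 5) (nat_lit 65) (nat_lit 5) (nat_lit 62) (nat_lit 5) (nat_lit 483) (nat_lit 345) (nat_lit 312)) (XT.nd (nat_lit 78) (nat_lit 152) (nat_lit 0) (XT.lf (nat_lit 0) (nat_lit 5184532140) (nat_lit 228) (nat_lit 373734509) (nat_lit 304) (nat_lit 7111705195) (nat_lit 58) (nat_lit 5) (nat_lit 61) (nat_lit 5) (nat_lit 62) (nat_lit 5) (nat_lit 484) (nat_lit 345) (nat_lit 311)) (XT.lf (nat_lit 0) (nat_lit 1128047957) (nat_lit 152) (nat_lit 8879700767) (nat_lit 228) (nat_lit 2813200073) (nat_lit 56) (nat_lit 5) (nat_lit 58) (nat_lit 5) (nat_lit 59) (nat_lit 4) (nat_lit 485) (nat_lit 345) (nat_lit 310))))))))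
noncomputable def xc20 : XT := (XT.nd (nat_lit 1638) (nat_lit 0) (nat_lit 0) (XT.nd (nat_lit 780) (nat_lit 1292) (nat_lit 0) (XT.nd (nat_lit 390) (nat_lit 684) (nat_lit 0) (XT.nd (nat_lit 156) (nat_lit 456) (nat_lit 0) (XT.nd (nat_lit 78) (nat_lit 228) (nat_lit 0) (XT.lf (nat_lit 0) (nat_lit 1552675553) (nat_lit 228) (nat_lit 3059631498) (nat_lit 76) (nat_lit 8362400658) (nat_lit 55) (nat_lit 5) (nat_lit 58) (nat_lit 5) (nat_lit 56) (nat_lit 5) (nat_lit 486) (nat_lit 345) (nat_lit 309)) (XT.lf (nat_lit 0) (nat_lit 5716415337) (nat_lit 228) (nat_lit 238904184) (nat_lit 304) (nat_lit 7176114465) (nat_lit 52) (nat_lit 5) (nat_lit 55) (nat_lit 5) (nat_lit 56) (nat_lit 5) (nat_lit 487) (nat_lit 345) (nat_lit 308))) (XT.nd (nat_lit 78) (nat_lit 304) (nat_lit 0) (XT.lf (nat_lit 0) (nat_lit 1321936404) (nat_lit 152) (nat_lit 9130902690) (nat_lit 228) (nat_lit 2838325597) (nat_lit 50) (nat_lit 5) (nat_lit 52) (nat_lit 5) (nat_lit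 53) (nat_lit 4) (nat_lit 488) (nat_lit 345) (nat_lit 307)) (XT.nd (nat_lit 78) (nat_lit 228) (nat_lit 0) (XT.lf (nat_lit 0) (nat_lit 1567332539) (nat_lit 228) (nat_lit 3217687234) (nat_lit 76) (nat_lit 8668832031) (nat_lit 49) (nat_lit 5) (nat_lit 52) (nat_lit 5) (nat_lit 50) (nat_lit 5) (nat_lit 489) (nat_lit 345) (nat_lit 306)) (XT.lf (nat_lit 0) (nat_lit 5679750272) (nat_lit 228) (nat_lit 331482862) (nat_lit 304) (nat_lit 7608427600) (nat_lit 46) (nat_lit 5) (nat_lit 49) (nat_lit 5) (nat_lit 50) (nat_lit 5) (nat_lit 490) (nat_lit 345) (nat_lit 305))))) (XT.nd (nat_lit 156) (nat_lit 456) (nat_lit 0) (XT.nd (nat_lit 78) (nat_lit 76) (nat_lit 0) (XT.lf (nat_lit 0) (nat_lit 909836878) (nat_lit 152) (nat_lit 9640557344) (nat_lit 228) (nat_lit 3238269841) (nat_lit 44) (nat_lit 5) (nat_lit 46) (nat_lit 5) (nat_lit 47) (nat_lit 4) (nat_lit 491) (nat_lit 345) (nat_lit 304)) (XT.lf (nat_lit 0) (nat_lit 1210607156) (nat_lit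 228) (nat_lit 4011341362) (nat_lit 76) (nat_lit 8738800113) (nat_lit 43) (nat_lit 5) (nat_lit 46) (nat_lit 5) (nat_lit 44) (nat_lit 5) (nat_lit 492) (nat_lit 345) (nat_lit 303))) (XT.nd (nat_lit 78) (nat_lit 228) (nat_lit 0) (XT.lf (nat_lit 0) (nat_lit 4994114341) (nat_lit 228) (nat_lit 695882184) (nat_lit 304) (nat_lit 8446157893) (nat_lit 40) (nat_lit 5) (nat_lit 43) (nat_lit 5) (nat_lit 44) (nat_lit 5) (nat_lit 493) (nat_lit 345) (nat_lit 302)) (XT.nd (nat_lit 78) (nat_lit 228) (nat_lit 0) (XT.lf (nat_lit 0) (nat_lit 10264118383) (nat_lit 304) (nat_lit 189711344) (nat_lit 76) (nat_lit 3861141126) (nat_lit 40) (nat_lit 5) (nat_lit 44) (nat_lit 5) (nat_lit 41) (nat_lit 4) (nat_lit 494) (nat_lit 345) (nat_lit 301)) (XT.lf (nat_lit 0) (nat_lit 443179518) (nat_lit 228) (nat_lit 5527183839) (nat_lit 76) (nat_lit 8526619511) (nat_lit 37) (nat_lit 5) (nat_lit 40) (nat_lit 5) (nat_lit 38) (nat_lit 5) (nat_lit 495) (nat_lit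 345) (nat_lit 300)))))) (XT.nd (nat_lit 390) (nat_lit 760) (nat_lit 0) (XT.nd (nat_lit 156) (nat_lit 380) (nat_lit 0) (XT.nd (nat_lit 78) (nat_lit 0) (nat_lit 0) (XT.lf (nat_lit 0) (nat_lit 3570408209) (nat_lit 152) (nat_lit 1380550910) (nat_lit 228) (nat_lit 9731583438) (nat_lit 35) (nat_lit 5) (nat_lit 37) (nat_lit 5) (nat_lit 38) (nat_lit 5) (nat_lit 496) (nat_lit 345) (nat_lit 299)) (XT.lf (nat_lit 0) (nat_lit 9561407521) (nat_lit 228) (nat_lit 2050075382) (nat_lit 76) (nat_lit 3260085285) (nat_lit 35) (nat_lit 5) (nat_lit 38) (nat_lit 5) (nat_lit 36) (nat_lit 4) (nat_lit 497) (nat_lit 345) (nat_lit 298))) (XT.nd (nat_lit 78) (nat_lit 228) (nat_lit 0) (XT.lf (nat_lit 0) (nat_lit 7197895510) (nat_lit 152) (nat_lit 7076697187) (nat_lit 228) (nat_lit 789575991) (nat_lit 33) (nat_lit 5) (nat_lit 35) (nat_lit 5) (nat_lit 36) (nat_lit 4) (nat_lit 498) (nat_lit 345) (nat_lit 297)) (XT.nd (nat_lit 78) (nat_lit 0) (nat_lit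 0) (XT.lf (nat_lit 0) (nat_lit 1309881571) (nat_lit 152) (nat_lit 2438491344) (nat_lit 228) (nat_lit 11512215362) (nat_lit 30) (nat_lit 5) (nat_lit 32) (nat_lit 5) (nat_lit 33) (nat_lit 5) (nat_lit 499) (nat_lit 345) (nat_lit 296)) (XT.lf (nat_lit 0) (nat_lit 8389396233) (nat_lit 228) (nat_lit 4784962640) (nat_lit 76) (nat_lit 2286019875) (nat_lit 30) (nat_lit 5) (nat_lit 33) (nat_lit 5) (nat_lit 31) (nat_lit 4) (nat_lit 500) (nat_lit 345) (nat_lit 295))))) (XT.nd (nat_lit 234) (nat_lit 380) (nat_lit 0) (XT.nd (nat_lit 78) (nat_lit 228) (nat_lit 0) (XT.lf (nat_lit 0) (nat_lit 4528110730) (nat_lit 152) (nat_lit 8596420150) (nat_lit 228) (nat_lit 2539612869) (nat_lit 28) (nat_lit 5) (nat_lit 30) (nat_lit 5) (nat_lit 31) (nat_lit 4) (nat_lit 501) (nat_lit 345) (nat_lit 294)) (XT.nd (nat_lit 78) (nat_lit 152) (nat_lit 0) (XT.lf (nat_lit 0) (nat_lit 2043199688) (nat_lit 228) (nat_lit 1872061839) (nat_lit 76) (nat_lit 11956693957)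 (nat_lit 27) (nat_lit 5) (nat_lit 30) (nat_lit 5) (nat_lit 28) (nat_lit 5) (nat_lit 502) (nat_lit 345) (nat_lit 293)) (XT.lf (nat_lit 0) (nat_lit 6695387944) (nat_lit 228) (nat_lit 8507196907) (nat_lit 76) (nat_lit 880772645) (nat_lit 25) (nat_lit 5) (nat_lit 28) (nat_lit 5) (nat_lit 26) (nat_lit 4) (nat_lit 503) (nat_lit 345) (nat_lit 292)))) (XT.nd (nat_lit 78) (nat_lit 228) (nat_lit 0) (XT.lf (nat_lit 0) (nat_lit 847217442) (nat_lit 152) (nat_lit 10594274331) (nat_lit 228) (nat_lit 4857482534) (nat_lit 23) (nat_lit 5) (nat_lit 25) (nat_lit 5) (nat_lit 26) (nat_lit 4) (nat_lit 504) (nat_lit 345) (nat_lit 291)) (XT.nd (nat_lit 78) (nat_lit 228) (nat_lit 0) (XT.lf (nat_lit 0) (nat_lit 10426680326) (nat_lit 152) (nat_lit 5870066508) (nat_lit 228) (nat_lit 221876149) (nat_lit 23) (nat_lit 5) (nat_lit 25) (nat_lit 5) (nat_lit 26) (nat_lit 4) (nat_lit 505) (nat_lit 345) (nat_lit 290)) (XT.lf (nat_lit 0) (nat_lit 3393914475)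 (nat_lit 152) (nat_lit 1033160135) (nat_lit 228) (nat_lit 12315414097) (nat_lit 20) (nat_lit 5) (nat_lit 22) (nat_lit 5) (nat_lit 23) (nat_lit 5) (nat_lit 506) (nat_lit 345) (nat_lit 289))))))) (XT.nd (nat_lit 55536) (nat_lit 0) (nat_lit 6460) (XT.nd (nat_lit 55068) (nat_lit 0) (nat_lit 9576) (XT.nd (nat_lit 54834) (nat_lit 0) (nat_lit 11856) (XT.nd (nat_lit 54756) (nat_lit 0) (nat_lit 12844) (XT.lf (nat_lit 0) (nat_lit 9190327395) (nat_lit 228) (nat_lit 3921538612) (nat_lit 76) (nat_lit 3858454403) (nat_lit 20) (nat_lit 5) (nat_lit 23) (nat_lit 5) (nat_lit 21) (nat_lit 4) (nat_lit 507) (nat_lit 345) (nat_lit 288)) (XT.lf (nat_lit 0) (nat_lit 520843047) (nat_lit 532) (nat_lit 3357807865) (nat_lit 0) (nat_lit 520843047) (nat_lit 189) (nat_lit 5) (nat_lit 196) (nat_lit 4) (nat_lit 189) (nat_lit 4) (nat_lit 448) (nat_lit 346) (nat_lit 346))) (XT.nd (nat_lit 78) (nat_lit 532) (nat_lit 0) (XT.lf (nat_lit 0) (nat_lit 330461298)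 (nat_lit 456) (nat_lit 4765029816) (nat_lit 456) (nat_lit 3777301199) (nat_lit 183) (nat_lit 4) (nat_lit 189) (nat_lit 5) (nat_lit 189) (nat_lit 4) (nat_lit 449) (nat_lit 346) (nat_lit 345)) (XT.nd (nat_lit 78) (nat_lit 456) (nat_lit 0) (XT.lf (nat_lit 0) (nat_lit 257245717) (nat_lit 532) (nat_lit 1436453656) (nat_lit 76) (nat_lit 7254781246) (nat_lit 182) (nat_lit 5) (nat_lit 189) (nat_lit 5) (nat_lit 183) (nat_lit 4) (nat_lit 450) (nat_lit 346) (nat_lit 344)) (XT.lf (nat_lit 0) (nat_lit 4303571089) (nat_lit 532) (nat_lit 3266918987) (nat_lit 0) (nat_lit 1455077052) (nat_lit 176) (nat_lit 5) (nat_lit 183) (nat_lit 4) (nat_lit 176) (nat_lit 4) (nat_lit 451) (nat_lit 346) (nat_lit 343))))) (XT.nd (nat_lit 234) (nat_lit 912) (nat_lit 0) (XT.nd (nat_lit 78) (nat_lit 912) (nat_lit 0) (XT.lf (nat_lit 0) (nat_lit 3959492727) (nat_lit 456) (nat_lit 4453043872) (nat_lit 456) (nat_lit 692041270) (nat_lit 170) (nat_lit 4) (nat_lit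 176) (nat_lit 5) (nat_lit 176) (nat_lit 4) (nat_lit 452) (nat_lit 346) (nat_lit 342)) (XT.nd (nat_lit 78) (nat_lit 456) (nat_lit 0) (XT.lf (nat_lit 0) (nat_lit 2100663569) (nat_lit 380) (nat_lit 1244030693) (nat_lit 456) (nat_lit 5840626460) (nat_lit 164) (nat_lit 5) (nat_lit 169) (nat_lit 5) (nat_lit 170) (nat_lit 4) (nat_lit 453) (nat_lit 346) (nat_lit 341)) (XT.lf (nat_lit 0) (nat_lit 183489091) (nat_lit 456) (nat_lit 7254312494) (nat_lit 456) (nat_lit 1830103096) (nat_lit 158) (nat_lit 4) (nat_lit 164) (nat_lit 5) (nat_lit 164) (nat_lit 4) (nat_lit 454) (nat_lit 346) (nat_lit 340)))) (XT.nd (nat_lit 78) (nat_lit 836) (nat_lit 0) (XT.lf (nat_lit 0) (nat_lit 2223061514) (nat_lit 532) (nat_lit 1776642002) (nat_lit 76) (nat_lit 5352316857) (nat_lit 157) (nat_lit 5) (nat_lit 164) (nat_lit 5) (nat_lit 158) (nat_lit 4) (nat_lit 455) (nat_lit 346) (nat_lit 339)) (XT.nd (nat_lit 78) (nat_lit 456) (nat_lit 0) (XT.lf (nat_lit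 0) (nat_lit 5645826733) (nat_lit 380) (nat_lit 660876294) (nat_lit 456) (nat_lit 3131409935) (nat_lit 152) (nat_lit 5) (nat_lit 157) (nat_lit 5) (nat_lit 158) (nat_lit 4) (nat_lit 456) (nat_lit 346) (nat_lit 338)) (XT.lf (nat_lit 0) (nat_lit 924806167) (nat_lit 456) (nat_lit 5880906125) (nat_lit 76) (nat_lit 2720284088) (nat_lit 146) (nat_lit 5) (nat_lit 152) (nat_lit 5) (nat_lit 147) (nat_lit 4) (nat_lit 457) (nat_lit 346) (nat_lit 337)))))) (XT.nd (nat_lit 390) (nat_lit 1444) (nat_lit 0) (XT.nd (nat_lit 156) (nat_lit 1292) (nat_lit 0) (XT.nd (nat_lit 78) (nat_lit 0) (nat_lit 0) (XT.lf (nat_lit 0) (nat_lit 1568729462) (nat_lit 380) (nat_lit 3429568220) (nat_lit 456) (nat_lit 4617378233) (nat_lit 141) (nat_lit 5) (nat_lit 146) (nat_lit 5) (nat_lit 147) (nat_lit 4) (nat_lit 458) (nat_lit 346) (nat_lit 336)) (XT.lf (nat_lit 0) (nat_lit 9131343272) (nat_lit 456) (nat_lit 554108892) (nat_lit 0) (nat_lit 22148954) (nat_lit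 141) (nat_lit 5) (nat_lit 147) (nat_lit 4) (nat_lit 141) (nat_lit 4) (nat_lit 459) (nat_lit 346) (nat_lit 335))) (XT.nd (nat_lit 78) (nat_lit 836) (nat_lit 0) (XT.lf (nat_lit 0) (nat_lit 3507289627) (nat_lit 456) (nat_lit 2758366181) (nat_lit 76) (nat_lit 3535099685) (nat_lit 135) (nat_lit 5) (nat_lit 141) (nat_lit 5) (nat_lit 136) (nat_lit 4) (nat_lit 460) (nat_lit 346) (nat_lit 334)) (XT.nd (nat_lit 78) (nat_lit 456) (nat_lit 0) (XT.lf (nat_lit 0) (nat_lit 4869833411) (nat_lit 380) (nat_lit 2769984121) (nat_lit 456) (nat_lit 2256391697) (nat_lit 130) (nat_lit 5) (nat_lit 135) (nat_lit 5) (nat_lit 136) (nat_lit 4) (nat_lit 461) (nat_lit 346) (nat_lit 333)) (XT.lf (nat_lit 0) (nat_lit 1817782092) (nat_lit 456) (nat_lit 7375135865) (nat_lit 76) (nat_lit 800809415) (nat_lit 124) (nat_lit 5) (nat_lit 130) (nat_lit 5) (nat_lit 125) (nat_lit 4) (nat_lit 462) (nat_lit 346) (nat_lit 332))))) (XT.nd (nat_lit 234) (nat_lit 684)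 (nat_lit 0) (XT.nd (nat_lit 78) (nat_lit 456) (nat_lit 0) (XT.lf (nat_lit 0) (nat_lit 268679305) (nat_lit 304) (nat_lit 5668816883) (nat_lit 380) (nat_lit 4155528214) (nat_lit 120) (nat_lit 5) (nat_lit 124) (nat_lit 5) (nat_lit 125) (nat_lit 4) (nat_lit 463) (nat_lit 346) (nat_lit 331)) (XT.nd (nat_lit 78) (nat_lit 456) (nat_lit 0) (XT.lf (nat_lit 0) (nat_lit 8072552608) (nat_lit 304) (nat_lit 2057313059) (nat_lit 380) (nat_lit 64648464) (nat_lit 120) (nat_lit 5) (nat_lit 124) (nat_lit 5) (nat_lit 125) (nat_lit 4) (nat_lit 464) (nat_lit 346) (nat_lit 330)) (XT.lf (nat_lit 0) (nat_lit 4043418934) (nat_lit 456) (nat_lit 4618034434) (nat_lit 76) (nat_lit 1636273401) (nat_lit 114) (nat_lit 5) (nat_lit 120) (nat_lit 5) (nat_lit 115) (nat_lit 4) (nat_lit 465) (nat_lit 346) (nat_lit 329)))) (XT.nd (nat_lit 78) (nat_lit 380) (nat_lit 0) (XT.lf (nat_lit 0) (nat_lit 3199125115) (nat_lit 304) (nat_lit 5024260896) (nat_lit 380)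 (nat_lit 2179808310) (nat_lit 110) (nat_lit 5) (nat_lit 114) (nat_lit 5) (nat_lit 115) (nat_lit 4) (nat_lit 466) (nat_lit 346) (nat_lit 328)) (XT.nd (nat_lit 78) (nat_lit 0) (nat_lit 0) (XT.lf (nat_lit 0) (nat_lit 627990994) (nat_lit 304) (nat_lit 1299571573) (nat_lit 380) (nat_lit 8583416908) (nat_lit 105) (nat_lit 5) (nat_lit 109) (nat_lit 5) (nat_lit 110) (nat_lit 5) (nat_lit 467) (nat_lit 346) (nat_lit 327)) (XT.lf (nat_lit 0) (nat_lit 6095159370) (nat_lit 380) (nat_lit 2029207306) (nat_lit 76) (nat_lit 2496130800) (nat_lit 105) (nat_lit 5) (nat_lit 110) (nat_lit 5) (nat_lit 106) (nat_lit 4) (nat_lit 468) (nat_lit 346) (nat_lit 326))))))))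
noncomputable def xc21 : XT := (XT.nd (nat_lit 1716) (nat_lit 1976) (nat_lit 0) (XT.nd (nat_lit 858) (nat_lit 1976) (nat_lit 0) (XT.nd (nat_lit 390) (nat_lit 1140) (nat_lit 0) (XT.nd (nat_lit 156) (nat_lit 684) (nat_lit 0) (XT.nd (nat_lit 78) (nat_lit 380) (nat_lit 0) (XT.lf (nat_lit 0) (nat_lit 5960416777) (nat_lit 304) (nat_lit 4376473677) (nat_lit 380) (nat_lit 395510165) (nat_lit 101) (nat_lit 5) (nat_lit 105) (nat_lit 5) (nat_lit 106) (nat_lit 4) (nat_lit 469) (nat_lit 346) (nat_lit 325)) (XT.lf (nat_lit 0) (nat_lit 3217435255) (nat_lit 304) (nat_lit 527635143) (nat_lit 380) (nat_lit 7101421500) (nat_lit 96) (nat_lit 5) (nat_lit 100) (nat_lit 5) (nat_lit 101) (nat_lit 5) (nat_lit 470) (nat_lit 346) (nat_lit 324))) (XT.nd (nat_lit 78) (nat_lit 380) (nat_lit 0) (XT.lf (nat_lit 0) (nat_lit 357634711) (nat_lit 304) (nat_lit 7606070233) (nat_lit 380) (nat_lit 2999106835) (nat_lit 92) (nat_lit 5) (nat_lit 96) (nat_lit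 5) (nat_lit 97) (nat_lit 4) (nat_lit 471) (nat_lit 346) (nat_lit 323)) (XT.nd (nat_lit 78) (nat_lit 304) (nat_lit 0) (XT.lf (nat_lit 0) (nat_lit 1168784592) (nat_lit 380) (nat_lit 2575906597) (nat_lit 76) (nat_lit 7336640899) (nat_lit 91) (nat_lit 5) (nat_lit 96) (nat_lit 5) (nat_lit 92) (nat_lit 5) (nat_lit 472) (nat_lit 346) (nat_lit 322)) (XT.lf (nat_lit 0) (nat_lit 5362675669) (nat_lit 380) (nat_lit 5625998196) (nat_lit 76) (nat_lit 213505720) (nat_lit 87) (nat_lit 5) (nat_lit 92) (nat_lit 5) (nat_lit 88) (nat_lit 4) (nat_lit 473) (nat_lit 346) (nat_lit 321))))) (XT.nd (nat_lit 234) (nat_lit 532) (nat_lit 0) (XT.nd (nat_lit 78) (nat_lit 380) (nat_lit 0) (XT.lf (nat_lit 0) (nat_lit 2519351503) (nat_lit 228) (nat_lit 7125066301) (nat_lit 304) (nat_lit 1680955842) (nat_lit 84) (nat_lit 5) (nat_lit 87) (nat_lit 5) (nat_lit 88) (nat_lit 4) (nat_lit 474) (nat_lit 346) (nat_lit 320)) (XT.nd (nat_lit 78) (nat_lit 304) (nat_lit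 0) (XT.lf (nat_lit 0) (nat_lit 2510721606) (nat_lit 304) (nat_lit 653330015) (nat_lit 76) (nat_lit 8286985305) (nat_lit 83) (nat_lit 5) (nat_lit 87) (nat_lit 5) (nat_lit 84) (nat_lit 5) (nat_lit 475) (nat_lit 346) (nat_lit 319)) (XT.lf (nat_lit 0) (nat_lit 6765975407) (nat_lit 380) (nat_lit 3921427206) (nat_lit 76) (nat_lit 891552175) (nat_lit 79) (nat_lit 5) (nat_lit 84) (nat_lit 5) (nat_lit 80) (nat_lit 4) (nat_lit 476) (nat_lit 346) (nat_lit 318)))) (XT.nd (nat_lit 78) (nat_lit 304) (nat_lit 0) (XT.lf (nat_lit 0) (nat_lit 4382061801) (nat_lit 228) (nat_lit 6724950277) (nat_lit 304) (nat_lit 602413761) (nat_lit 76) (nat_lit 5) (nat_lit 79) (nat_lit 5) (nat_lit 80) (nat_lit 4) (nat_lit 477) (nat_lit 346) (nat_lit 317)) (XT.nd (nat_lit 78) (nat_lit 0) (nat_lit 0) (XT.lf (nat_lit 0) (nat_lit 962601682) (nat_lit 228) (nat_lit 2661047741) (nat_lit 304) (nat_lit 8218791240) (nat_lit 72) (nat_lit 5) (nat_lit 75) (nat_lit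 5) (nat_lit 76) (nat_lit 5) (nat_lit 478) (nat_lit 346) (nat_lit 316)) (XT.lf (nat_lit 0) (nat_lit 7932517593) (nat_lit 304) (nat_lit 2562309464) (nat_lit 76) (nat_lit 1483089990) (nat_lit 72) (nat_lit 5) (nat_lit 76) (nat_lit 5) (nat_lit 73) (nat_lit 4) (nat_lit 479) (nat_lit 346) (nat_lit 315)))))) (XT.nd (nat_lit 390) (nat_lit 912) (nat_lit 0) (XT.nd (nat_lit 156) (nat_lit 532) (nat_lit 0) (XT.nd (nat_lit 78) (nat_lit 228) (nat_lit 0) (XT.lf (nat_lit 0) (nat_lit 212843174) (nat_lit 304) (nat_lit 6223352163) (nat_lit 76) (nat_lit 5679804633) (nat_lit 68) (nat_lit 5) (nat_lit 72) (nat_lit 5) (nat_lit 69) (nat_lit 5) (nat_lit 480) (nat_lit 346) (nat_lit 314)) (XT.lf (nat_lit 0) (nat_lit 2209718693) (nat_lit 228) (nat_lit 2272420772) (nat_lit 304) (nat_lit 7774576599) (nat_lit 65) (nat_lit 5) (nat_lit 68) (nat_lit 5) (nat_lit 69) (nat_lit 5) (nat_lit 481) (nat_lit 346) (nat_lit 313))) (XT.nd (nat_lit 78) (nat_lit 532)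 (nat_lit 0) (XT.lf (nat_lit 0) (nat_lit 8840250689) (nat_lit 304) (nat_lit 1604218549) (nat_lit 76) (nat_lit 1955715962) (nat_lit 65) (nat_lit 5) (nat_lit 69) (nat_lit 5) (nat_lit 66) (nat_lit 4) (nat_lit 482) (nat_lit 346) (nat_lit 312)) (XT.nd (nat_lit 78) (nat_lit 228) (nat_lit 0) (XT.lf (nat_lit 0) (nat_lit 739433242) (nat_lit 304) (nat_lit 5552847175) (nat_lit 76) (nat_lit 6253951861) (nat_lit 61) (nat_lit 5) (nat_lit 65) (nat_lit 5) (nat_lit 62) (nat_lit 5) (nat_lit 483) (nat_lit 346) (nat_lit 311)) (XT.lf (nat_lit 0) (nat_lit 3019743540) (nat_lit 228) (nat_lit 2037540033) (nat_lit 304) (nat_lit 7637849727) (nat_lit 58) (nat_lit 5) (nat_lit 61) (nat_lit 5) (nat_lit 62) (nat_lit 5) (nat_lit 484) (nat_lit 346) (nat_lit 310))))) (XT.nd (nat_lit 234) (nat_lit 456) (nat_lit 0) (XT.nd (nat_lit 78) (nat_lit 456) (nat_lit 0) (XT.lf (nat_lit 0) (nat_lit 9463826188) (nat_lit 304) (nat_lit 1108530007) (nat_lit 76) (nat_lit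 2274616186) (nat_lit 58) (nat_lit 5) (nat_lit 62) (nat_lit 5) (nat_lit 59) (nat_lit 4) (nat_lit 485) (nat_lit 346) (nat_lit 309)) (XT.nd (nat_lit 78) (nat_lit 228) (nat_lit 0) (XT.lf (nat_lit 0) (nat_lit 958095599) (nat_lit 228) (nat_lit 5376049666) (nat_lit 76) (nat_lit 6667305424) (nat_lit 55) (nat_lit 5) (nat_lit 58) (nat_lit 5) (nat_lit 56) (nat_lit 5) (nat_lit 486) (nat_lit 346) (nat_lit 308)) (XT.lf (nat_lit 0) (nat_lit 3326806286) (nat_lit 228) (nat_lit 1994136470) (nat_lit 304) (nat_lit 7838033292) (nat_lit 52) (nat_lit 5) (nat_lit 55) (nat_lit 5) (nat_lit 56) (nat_lit 5) (nat_lit 487) (nat_lit 346) (nat_lit 307)))) (XT.nd (nat_lit 78) (nat_lit 456) (nat_lit 0) (XT.lf (nat_lit 0) (nat_lit 9774293986) (nat_lit 304) (nat_lit 1143102386) (nat_lit 76) (nat_lit 2402196834) (nat_lit 52) (nat_lit 5) (nat_lit 56) (nat_lit 5) (nat_lit 53) (nat_lit 4) (nat_lit 488) (nat_lit 346) (nat_lit 306)) (XT.nd (nat_lit 78) (nat_lit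 228) (nat_lit 0) (XT.lf (nat_lit 0) (nat_lit 837913383) (nat_lit 228) (nat_lit 5763850516) (nat_lit 76) (nat_lit 6881245540) (nat_lit 49) (nat_lit 5) (nat_lit 52) (nat_lit 5) (nat_lit 50) (nat_lit 5) (nat_lit 489) (nat_lit 346) (nat_lit 305)) (XT.lf (nat_lit 0) (nat_lit 3058031813) (nat_lit 228) (nat_lit 2183086303) (nat_lit 304) (nat_lit 8408517076) (nat_lit 46) (nat_lit 5) (nat_lit 49) (nat_lit 5) (nat_lit 50) (nat_lit 5) (nat_lit 490) (nat_lit 346) (nat_lit 304))))))) (XT.nd (nat_lit 858) (nat_lit 608) (nat_lit 0) (XT.nd (nat_lit 390) (nat_lit 760) (nat_lit 0) (XT.nd (nat_lit 156) (nat_lit 380) (nat_lit 0) (XT.nd (nat_lit 78) (nat_lit 228) (nat_lit 0) (XT.lf (nat_lit 0) (nat_lit 9738761690) (nat_lit 304) (nat_lit 1783026105) (nat_lit 76) (nat_lit 2297683929) (nat_lit 46) (nat_lit 5) (nat_lit 50) (nat_lit 5) (nat_lit 47) (nat_lit 4) (nat_lit 491) (nat_lit 346) (nat_lit 303)) (XT.lf (nat_lit 0) (nat_lit 343857909) (nat_lit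 228) (nat_lit 6794698218) (nat_lit 76) (nat_lit 6853819453) (nat_lit 43) (nat_lit 5) (nat_lit 46) (nat_lit 5) (nat_lit 44) (nat_lit 5) (nat_lit 492) (nat_lit 346) (nat_lit 302))) (XT.nd (nat_lit 78) (nat_lit 152) (nat_lit 0) (XT.lf (nat_lit 0) (nat_lit 2132736381) (nat_lit 228) (nat_lit 2648845005) (nat_lit 304) (nat_lit 9387035986) (nat_lit 40) (nat_lit 5) (nat_lit 43) (nat_lit 5) (nat_lit 44) (nat_lit 5) (nat_lit 493) (nat_lit 346) (nat_lit 301)) (XT.nd (nat_lit 78) (nat_lit 152) (nat_lit 0) (XT.lf (nat_lit 0) (nat_lit 9320014383) (nat_lit 304) (nat_lit 3111447578) (nat_lit 76) (nat_lit 1916688255) (nat_lit 40) (nat_lit 5) (nat_lit 44) (nat_lit 5) (nat_lit 41) (nat_lit 4) (nat_lit 494) (nat_lit 346) (nat_lit 300)) (XT.lf (nat_lit 0) (nat_lit 5971900120) (nat_lit 152) (nat_lit 7988064773) (nat_lit 228) (nat_lit 571099063) (nat_lit 38) (nat_lit 5) (nat_lit 40) (nat_lit 5) (nat_lit 41) (nat_lit 4) (nat_lit 495) (nat_lit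 346) (nat_lit 299))))) (XT.nd (nat_lit 234) (nat_lit 380) (nat_lit 0) (XT.nd (nat_lit 78) (nat_lit 152) (nat_lit 0) (XT.lf (nat_lit 0) (nat_lit 461543095) (nat_lit 152) (nat_lit 3439919996) (nat_lit 228) (nat_lit 10816091344) (nat_lit 35) (nat_lit 5) (nat_lit 37) (nat_lit 5) (nat_lit 38) (nat_lit 5) (nat_lit 496) (nat_lit 346) (nat_lit 298)) (XT.nd (nat_lit 78) (nat_lit 152) (nat_lit 0) (XT.lf (nat_lit 0) (nat_lit 8476090988) (nat_lit 228) (nat_lit 5220476744) (nat_lit 76) (nat_lit 1210731176) (nat_lit 35) (nat_lit 5) (nat_lit 38) (nat_lit 5) (nat_lit 36) (nat_lit 4) (nat_lit 497) (nat_lit 346) (nat_lit 297)) (XT.lf (nat_lit 0) (nat_lit 3945728490) (nat_lit 152) (nat_lit 9200422925) (nat_lit 228) (nat_lit 1954612875) (nat_lit 33) (nat_lit 5) (nat_lit 35) (nat_lit 5) (nat_lit 36) (nat_lit 4) (nat_lit 498) (nat_lit 346) (nat_lit 296)))) (XT.nd (nat_lit 78) (nat_lit 304) (nat_lit 0) (XT.lf (nat_lit 0) (nat_lit 2568133960)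 (nat_lit 228) (nat_lit 2027646128) (nat_lit 76) (nat_lit 10702167000) (nat_lit 32) (nat_lit 5) (nat_lit 35) (nat_lit 5) (nat_lit 33) (nat_lit 5) (nat_lit 499) (nat_lit 346) (nat_lit 295)) (XT.nd (nat_lit 78) (nat_lit 152) (nat_lit 0) (XT.lf (nat_lit 0) (nat_lit 7159812913) (nat_lit 228) (nat_lit 8212187014) (nat_lit 76) (nat_lit 126726766) (nat_lit 30) (nat_lit 5) (nat_lit 33) (nat_lit 5) (nat_lit 31) (nat_lit 4) (nat_lit 500) (nat_lit 346) (nat_lit 294)) (XT.lf (nat_lit 0) (nat_lit 1016378760) (nat_lit 152) (nat_lit 10834288214) (nat_lit 228) (nat_lit 3852712536) (nat_lit 28) (nat_lit 5) (nat_lit 30) (nat_lit 5) (nat_lit 31) (nat_lit 4) (nat_lit 501) (nat_lit 346) (nat_lit 293)))))) (XT.nd (nat_lit 390) (nat_lit 152) (nat_lit 0) (XT.nd (nat_lit 156) (nat_lit 228) (nat_lit 0) (XT.nd (nat_lit 78) (nat_lit 152) (nat_lit 0) (XT.lf (nat_lit 0) (nat_lit 725871403) (nat_lit 228) (nat_lit 5452988870) (nat_lit 76) (nat_lit 9732932603)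 (nat_lit 27) (nat_lit 5) (nat_lit 30) (nat_lit 5) (nat_lit 28) (nat_lit 5) (nat_lit 502) (nat_lit 346) (nat_lit 292)) (XT.lf (nat_lit 0) (nat_lit 3915323747) (nat_lit 152) (nat_lit 1412104834) (nat_lit 228) (nat_lit 10796781005) (nat_lit 25) (nat_lit 5) (nat_lit 27) (nat_lit 5) (nat_lit 28) (nat_lit 5) (nat_lit 503) (nat_lit 346) (nat_lit 291))) (XT.nd (nat_lit 78) (nat_lit 228) (nat_lit 0) (XT.lf (nat_lit 0) (nat_lit 10037894897) (nat_lit 228) (nat_lit 2894207891) (nat_lit 76) (nat_lit 3408438395) (nat_lit 25) (nat_lit 5) (nat_lit 28) (nat_lit 5) (nat_lit 26) (nat_lit 4) (nat_lit 504) (nat_lit 346) (nat_lit 290)) (XT.nd (nat_lit 78) (nat_lit 76) (nat_lit 0) (XT.lf (nat_lit 0) (nat_lit 6609247818) (nat_lit 152) (nat_lit 8244060185) (nat_lit 228) (nat_lit 1707680691) (nat_lit 23) (nat_lit 5) (nat_lit 25) (nat_lit 5) (nat_lit 26) (nat_lit 4) (nat_lit 505) (nat_lit 346) (nat_lit 289)) (XT.lf (nat_lit 0) (nat_lit 2918190885)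 (nat_lit 228) (nat_lit 537831971) (nat_lit 76) (nat_lit 13329877732) (nat_lit 22) (nat_lit 5) (nat_lit 25) (nat_lit 5) (nat_lit 23) (nat_lit 5) (nat_lit 506) (nat_lit 346) (nat_lit 288))))) (XT.nd (nat_lit 54756) (nat_lit 0) (nat_lit 12312) (XT.nd (nat_lit 54600) (nat_lit 0) (nat_lit 13376) (XT.lf (nat_lit 0) (nat_lit 7641677221) (nat_lit 228) (nat_lit 7925302503) (nat_lit 76) (nat_lit 1447549777) (nat_lit 20) (nat_lit 5) (nat_lit 23) (nat_lit 5) (nat_lit 21) (nat_lit 4) (nat_lit 507) (nat_lit 346) (nat_lit 287)) (XT.nd (nat_lit 78) (nat_lit 532) (nat_lit 0) (XT.lf (nat_lit 0) (nat_lit 1367786220) (nat_lit 608) (nat_lit 1592117702) (nat_lit 0) (nat_lit 1367786220) (nat_lit 203) (nat_lit 5) (nat_lit 211) (nat_lit 4) (nat_lit 203) (nat_lit 4) (nat_lit 446) (nat_lit 347) (nat_lit 347)) (XT.lf (nat_lit 0) (nat_lit 3774553357) (nat_lit 532) (nat_lit 2989849911) (nat_lit 532) (nat_lit 1962217058) (nat_lit 196) (nat_lit 4)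 (nat_lit 203) (nat_lit 5) (nat_lit 203) (nat_lit 4) (nat_lit 447) (nat_lit 347) (nat_lit 346)))) (XT.nd (nat_lit 78) (nat_lit 532) (nat_lit 0) (XT.lf (nat_lit 0) (nat_lit 2016022514) (nat_lit 532) (nat_lit 6762826621) (nat_lit 0) (nat_lit 20810708) (nat_lit 189) (nat_lit 5) (nat_lit 196) (nat_lit 4) (nat_lit 189) (nat_lit 4) (nat_lit 448) (nat_lit 347) (nat_lit 345)) (XT.nd (nat_lit 78) (nat_lit 76) (nat_lit 0) (XT.lf (nat_lit 0) (nat_lit 235722708) (nat_lit 456) (nat_lit 5800992888) (nat_lit 456) (nat_lit 2837419693) (nat_lit 183) (nat_lit 4) (nat_lit 189) (nat_lit 5) (nat_lit 189) (nat_lit 4) (nat_lit 449) (nat_lit 347) (nat_lit 344)) (XT.lf (nat_lit 0) (nat_lit 1152420838) (nat_lit 532) (nat_lit 1585057012) (nat_lit 76) (nat_lit 6212879760) (nat_lit 182) (nat_lit 5) (nat_lit 189) (nat_lit 5) (nat_lit 183) (nat_lit 4) (nat_lit 450) (nat_lit 347) (nat_lit 343))))))))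
noncomputable def xc22 : XT := (XT.nd (nat_lit 1716) (nat_lit 3876) (nat_lit 0) (XT.nd (nat_lit 858) (nat_lit 2964) (nat_lit 0) (XT.nd (nat_lit 390) (nat_lit 2052) (nat_lit 0) (XT.nd (nat_lit 156) (nat_lit 912) (nat_lit 0) (XT.nd (nat_lit 78) (nat_lit 532) (nat_lit 0) (XT.lf (nat_lit 0) (nat_lit 5158849649) (nat_lit 532) (nat_lit 3459282275) (nat_lit 0) (nat_lit 410118431) (nat_lit 176) (nat_lit 5) (nat_lit 183) (nat_lit 4) (nat_lit 176) (nat_lit 4) (nat_lit 451) (nat_lit 347) (nat_lit 342)) (XT.lf (nat_lit 0) (nat_lit 125149311) (nat_lit 532) (nat_lit 5390545848) (nat_lit 76) (nat_lit 3592219052) (nat_lit 169) (nat_lit 5) (nat_lit 176) (nat_lit 5) (nat_lit 170) (nat_lit 4) (nat_lit 452) (nat_lit 347) (nat_lit 341))) (XT.nd (nat_lit 78) (nat_lit 532) (nat_lit 0) (XT.lf (nat_lit 0) (nat_lit 1800897371) (nat_lit 380) (nat_lit 2318567764) (nat_lit 456) (nat_lit 5069776759) (nat_lit 164) (nat_lit 5) (nat_lit 169) (nat_lit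 5) (nat_lit 170) (nat_lit 4) (nat_lit 453) (nat_lit 347) (nat_lit 340)) (XT.nd (nat_lit 78) (nat_lit 532) (nat_lit 0) (XT.lf (nat_lit 0) (nat_lit 8173232885) (nat_lit 456) (nat_lit 161742197) (nat_lit 0) (nat_lit 937645234) (nat_lit 164) (nat_lit 5) (nat_lit 170) (nat_lit 4) (nat_lit 164) (nat_lit 4) (nat_lit 454) (nat_lit 347) (nat_lit 339)) (XT.lf (nat_lit 0) (nat_lit 2912052933) (nat_lit 532) (nat_lit 2179727846) (nat_lit 76) (nat_lit 4265510533) (nat_lit 157) (nat_lit 5) (nat_lit 164) (nat_lit 5) (nat_lit 158) (nat_lit 4) (nat_lit 455) (nat_lit 347) (nat_lit 338))))) (XT.nd (nat_lit 234) (nat_lit 836) (nat_lit 0) (XT.nd (nat_lit 78) (nat_lit 836) (nat_lit 0) (XT.lf (nat_lit 0) (nat_lit 5191457316) (nat_lit 380) (nat_lit 1770826634) (nat_lit 456) (nat_lit 2481775390) (nat_lit 152) (nat_lit 5) (nat_lit 157) (nat_lit 5) (nat_lit 158) (nat_lit 4) (nat_lit 456) (nat_lit 347) (nat_lit 337)) (XT.nd (nat_lit 78) (nat_lit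 380) (nat_lit 0) (XT.lf (nat_lit 0) (nat_lit 1524904670) (nat_lit 456) (nat_lit 6396898333) (nat_lit 76) (nat_lit 1610882665) (nat_lit 146) (nat_lit 5) (nat_lit 152) (nat_lit 5) (nat_lit 147) (nat_lit 4) (nat_lit 457) (nat_lit 347) (nat_lit 336)) (XT.lf (nat_lit 0) (nat_lit 999625467) (nat_lit 380) (nat_lit 4564917890) (nat_lit 456) (nat_lit 4058505717) (nat_lit 141) (nat_lit 5) (nat_lit 146) (nat_lit 5) (nat_lit 147) (nat_lit 4) (nat_lit 458) (nat_lit 347) (nat_lit 335)))) (XT.nd (nat_lit 78) (nat_lit 836) (nat_lit 0) (XT.lf (nat_lit 0) (nat_lit 8539189293) (nat_lit 380) (nat_lit 1128393012) (nat_lit 456) (nat_lit 47998783) (nat_lit 141) (nat_lit 5) (nat_lit 146) (nat_lit 5) (nat_lit 147) (nat_lit 4) (nat_lit 459) (nat_lit 347) (nat_lit 334)) (XT.nd (nat_lit 78) (nat_lit 380) (nat_lit 0) (XT.lf (nat_lit 0) (nat_lit 3987300443) (nat_lit 456) (nat_lit 3439009845) (nat_lit 76) (nat_lit 2383189398) (nat_lit 135) (nat_lit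 5) (nat_lit 141) (nat_lit 5) (nat_lit 136) (nat_lit 4) (nat_lit 460) (nat_lit 347) (nat_lit 333)) (XT.lf (nat_lit 0) (nat_lit 4134493993) (nat_lit 380) (nat_lit 3951273103) (nat_lit 456) (nat_lit 1819873846) (nat_lit 130) (nat_lit 5) (nat_lit 135) (nat_lit 5) (nat_lit 136) (nat_lit 4) (nat_lit 461) (nat_lit 347) (nat_lit 332)))))) (XT.nd (nat_lit 390) (nat_lit 1444) (nat_lit 0) (XT.nd (nat_lit 156) (nat_lit 1064) (nat_lit 0) (XT.nd (nat_lit 78) (nat_lit 0) (nat_lit 0) (XT.lf (nat_lit 0) (nat_lit 1820675400) (nat_lit 380) (nat_lit 388214126) (nat_lit 456) (nat_lit 7795012631) (nat_lit 124) (nat_lit 5) (nat_lit 129) (nat_lit 5) (nat_lit 130) (nat_lit 5) (nat_lit 462) (nat_lit 347) (nat_lit 331)) (XT.lf (nat_lit 0) (nat_lit 6295315127) (nat_lit 456) (nat_lit 585748049) (nat_lit 76) (nat_lit 3222807713) (nat_lit 124) (nat_lit 5) (nat_lit 130) (nat_lit 5) (nat_lit 125) (nat_lit 4) (nat_lit 463) (nat_lit 347) (nat_lit 330)))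 (XT.nd (nat_lit 78) (nat_lit 684) (nat_lit 0) (XT.lf (nat_lit 0) (nat_lit 245799198) (nat_lit 380) (nat_lit 3042329554) (nat_lit 76) (nat_lit 6917857346) (nat_lit 119) (nat_lit 5) (nat_lit 124) (nat_lit 5) (nat_lit 120) (nat_lit 5) (nat_lit 464) (nat_lit 347) (nat_lit 329)) (XT.nd (nat_lit 78) (nat_lit 304) (nat_lit 0) (XT.lf (nat_lit 0) (nat_lit 4310157026) (nat_lit 456) (nat_lit 5600213676) (nat_lit 76) (nat_lit 399682461) (nat_lit 114) (nat_lit 5) (nat_lit 120) (nat_lit 5) (nat_lit 115) (nat_lit 4) (nat_lit 465) (nat_lit 347) (nat_lit 328)) (XT.lf (nat_lit 0) (nat_lit 2158594650) (nat_lit 304) (nat_lit 6296562590) (nat_lit 380) (nat_lit 1961068292) (nat_lit 110) (nat_lit 5) (nat_lit 114) (nat_lit 5) (nat_lit 115) (nat_lit 4) (nat_lit 466) (nat_lit 347) (nat_lit 327))))) (XT.nd (nat_lit 234) (nat_lit 760) (nat_lit 0) (XT.nd (nat_lit 78) (nat_lit 608) (nat_lit 0) (XT.lf (nat_lit 0) (nat_lit 2111219827) (nat_lit 380)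 (nat_lit 480016659) (nat_lit 76) (nat_lit 7933395341) (nat_lit 109) (nat_lit 5) (nat_lit 114) (nat_lit 5) (nat_lit 110) (nat_lit 5) (nat_lit 467) (nat_lit 347) (nat_lit 326)) (XT.nd (nat_lit 78) (nat_lit 304) (nat_lit 0) (XT.lf (nat_lit 0) (nat_lit 6239269649) (nat_lit 380) (nat_lit 3193851994) (nat_lit 76) (nat_lit 1201824287) (nat_lit 105) (nat_lit 5) (nat_lit 110) (nat_lit 5) (nat_lit 106) (nat_lit 4) (nat_lit 468) (nat_lit 347) (nat_lit 325)) (XT.lf (nat_lit 0) (nat_lit 4735640682) (nat_lit 304) (nat_lit 5709974936) (nat_lit 380) (nat_lit 301946218) (nat_lit 101) (nat_lit 5) (nat_lit 105) (nat_lit 5) (nat_lit 106) (nat_lit 4) (nat_lit 469) (nat_lit 347) (nat_lit 324)))) (XT.nd (nat_lit 78) (nat_lit 380) (nat_lit 0) (XT.lf (nat_lit 0) (nat_lit 1915670740) (nat_lit 304) (nat_lit 1885920295) (nat_lit 380) (nat_lit 7060771120) (nat_lit 96) (nat_lit 5) (nat_lit 100) (nat_lit 5) (nat_lit 101) (nat_lit 5) (nat_lit 470)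 (nat_lit 347) (nat_lit 323)) (XT.nd (nat_lit 78) (nat_lit 380) (nat_lit 0) (XT.lf (nat_lit 0) (nat_lit 7981863505) (nat_lit 380) (nat_lit 1000166330) (nat_lit 76) (nat_lit 1997424212) (nat_lit 96) (nat_lit 5) (nat_lit 101) (nat_lit 5) (nat_lit 97) (nat_lit 4) (nat_lit 471) (nat_lit 347) (nat_lit 322)) (XT.lf (nat_lit 0) (nat_lit 1136500998) (nat_lit 380) (nat_lit 4008108240) (nat_lit 76) (nat_lit 5954045105) (nat_lit 91) (nat_lit 5) (nat_lit 96) (nat_lit 5) (nat_lit 92) (nat_lit 5) (nat_lit 472) (nat_lit 347) (nat_lit 321))))))) (XT.nd (nat_lit 858) (nat_lit 1596) (nat_lit 0) (XT.nd (nat_lit 390) (nat_lit 1140) (nat_lit 0) (XT.nd (nat_lit 156) (nat_lit 608) (nat_lit 0) (XT.nd (nat_lit 78) (nat_lit 228) (nat_lit 0) (XT.lf (nat_lit 0) (nat_lit 4082302395) (nat_lit 304) (nat_lit 1210352578) (nat_lit 380) (nat_lit 5927606104) (nat_lit 87) (nat_lit 5) (nat_lit 91) (nat_lit 5) (nat_lit 92) (nat_lit 5) (nat_lit 473) (nat_lit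 347) (nat_lit 320)) (XT.lf (nat_lit 0) (nat_lit 951045402) (nat_lit 228) (nat_lit 8578819108) (nat_lit 304) (nat_lit 1814485687) (nat_lit 84) (nat_lit 5) (nat_lit 87) (nat_lit 5) (nat_lit 88) (nat_lit 4) (nat_lit 474) (nat_lit 347) (nat_lit 319))) (XT.nd (nat_lit 78) (nat_lit 532) (nat_lit 0) (XT.lf (nat_lit 0) (nat_lit 2352511195) (nat_lit 304) (nat_lit 2283449538) (nat_lit 76) (nat_lit 6834602955) (nat_lit 83) (nat_lit 5) (nat_lit 87) (nat_lit 5) (nat_lit 84) (nat_lit 5) (nat_lit 475) (nat_lit 347) (nat_lit 318)) (XT.nd (nat_lit 78) (nat_lit 228) (nat_lit 0) (XT.lf (nat_lit 0) (nat_lit 5968311102) (nat_lit 304) (nat_lit 596668498) (nat_lit 380) (nat_lit 5034361810) (nat_lit 79) (nat_lit 5) (nat_lit 83) (nat_lit 5) (nat_lit 84) (nat_lit 5) (nat_lit 476) (nat_lit 347) (nat_lit 317)) (XT.lf (nat_lit 0) (nat_lit 2610120234) (nat_lit 228) (nat_lit 8254726020) (nat_lit 304) (nat_lit 865793679) (nat_lit 76) (nat_lit 5) (nat_lit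 79) (nat_lit 5) (nat_lit 80) (nat_lit 4) (nat_lit 477) (nat_lit 347) (nat_lit 316))))) (XT.nd (nat_lit 234) (nat_lit 608) (nat_lit 0) (XT.nd (nat_lit 78) (nat_lit 456) (nat_lit 0) (XT.lf (nat_lit 0) (nat_lit 3331737811) (nat_lit 304) (nat_lit 884504949) (nat_lit 76) (nat_lit 7648089829) (nat_lit 75) (nat_lit 5) (nat_lit 79) (nat_lit 5) (nat_lit 76) (nat_lit 5) (nat_lit 478) (nat_lit 347) (nat_lit 315)) (XT.nd (nat_lit 78) (nat_lit 228) (nat_lit 0) (XT.lf (nat_lit 0) (nat_lit 7523945479) (nat_lit 228) (nat_lit 75575147) (nat_lit 304) (nat_lit 4401113891) (nat_lit 72) (nat_lit 5) (nat_lit 75) (nat_lit 5) (nat_lit 76) (nat_lit 5) (nat_lit 479) (nat_lit 347) (nat_lit 314)) (XT.lf (nat_lit 0) (nat_lit 3911881308) (nat_lit 228) (nat_lit 8048342383) (nat_lit 304) (nat_lit 179295096) (nat_lit 69) (nat_lit 5) (nat_lit 72) (nat_lit 5) (nat_lit 73) (nat_lit 4) (nat_lit 480) (nat_lit 347) (nat_lit 313)))) (XT.nd (nat_lit 78) (nat_lit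 304) (nat_lit 0) (XT.lf (nat_lit 0) (nat_lit 137046554) (nat_lit 228) (nat_lit 3916781404) (nat_lit 304) (nat_lit 8227204314) (nat_lit 65) (nat_lit 5) (nat_lit 68) (nat_lit 5) (nat_lit 69) (nat_lit 5) (nat_lit 481) (nat_lit 347) (nat_lit 312)) (XT.nd (nat_lit 78) (nat_lit 304) (nat_lit 0) (XT.lf (nat_lit 0) (nat_lit 8376301665) (nat_lit 304) (nat_lit 3733007941) (nat_lit 76) (nat_lit 315908097) (nat_lit 65) (nat_lit 5) (nat_lit 69) (nat_lit 5) (nat_lit 66) (nat_lit 4) (nat_lit 482) (nat_lit 347) (nat_lit 311)) (XT.lf (nat_lit 0) (nat_lit 217853766) (nat_lit 304) (nat_lit 7774504480) (nat_lit 76) (nat_lit 4579753658) (nat_lit 61) (nat_lit 5) (nat_lit 65) (nat_lit 5) (nat_lit 62) (nat_lit 5) (nat_lit 483) (nat_lit 347) (nat_lit 310)))))) (XT.nd (nat_lit 390) (nat_lit 912) (nat_lit 0) (XT.nd (nat_lit 156) (nat_lit 456) (nat_lit 0) (XT.nd (nat_lit 78) (nat_lit 0) (nat_lit 0) (XT.lf (nat_lit 0) (nat_lit 726309040) (nat_lit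 228) (nat_lit 3770079965) (nat_lit 304) (nat_lit 8225413561) (nat_lit 58) (nat_lit 5) (nat_lit 61) (nat_lit 5) (nat_lit 62) (nat_lit 5) (nat_lit 484) (nat_lit 347) (nat_lit 309)) (XT.lf (nat_lit 0) (nat_lit 8867356454) (nat_lit 304) (nat_lit 3459184865) (nat_lit 76) (nat_lit 547815107) (nat_lit 58) (nat_lit 5) (nat_lit 62) (nat_lit 5) (nat_lit 59) (nat_lit 4) (nat_lit 485) (nat_lit 347) (nat_lit 308))) (XT.nd (nat_lit 78) (nat_lit 228) (nat_lit 0) (XT.lf (nat_lit 0) (nat_lit 302574640) (nat_lit 228) (nat_lit 7823334672) (nat_lit 76) (nat_lit 4903806560) (nat_lit 55) (nat_lit 5) (nat_lit 58) (nat_lit 5) (nat_lit 56) (nat_lit 5) (nat_lit 486) (nat_lit 347) (nat_lit 307)) (XT.nd (nat_lit 78) (nat_lit 0) (nat_lit 0) (XT.lf (nat_lit 0) (nat_lit 805422754) (nat_lit 228) (nat_lit 3819822781) (nat_lit 304) (nat_lit 8562802308) (nat_lit 52) (nat_lit 5) (nat_lit 55) (nat_lit 5) (nat_lit 56) (nat_lit 5) (nat_lit 487) (nat_lit 347)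 (nat_lit 306)) (XT.lf (nat_lit 0) (nat_lit 9043028176) (nat_lit 304) (nat_lit 3722828045) (nat_lit 76) (nat_lit 583523176) (nat_lit 52) (nat_lit 5) (nat_lit 56) (nat_lit 5) (nat_lit 53) (nat_lit 4) (nat_lit 488) (nat_lit 347) (nat_lit 305))))) (XT.nd (nat_lit 234) (nat_lit 456) (nat_lit 0) (XT.nd (nat_lit 78) (nat_lit 228) (nat_lit 0) (XT.lf (nat_lit 0) (nat_lit 46084514) (nat_lit 228) (nat_lit 8444102216) (nat_lit 76) (nat_lit 5023525796) (nat_lit 49) (nat_lit 5) (nat_lit 52) (nat_lit 5) (nat_lit 50) (nat_lit 5) (nat_lit 489) (nat_lit 347) (nat_lit 304)) (XT.nd (nat_lit 78) (nat_lit 0) (nat_lit 0) (XT.lf (nat_lit 0) (nat_lit 301260972) (nat_lit 228) (nat_lit 4106919759) (nat_lit 304) (nat_lit 9272982569) (nat_lit 46) (nat_lit 5) (nat_lit 49) (nat_lit 5) (nat_lit 50) (nat_lit 5) (nat_lit 490) (nat_lit 347) (nat_lit 303)) (XT.lf (nat_lit 0) (nat_lit 8870207605) (nat_lit 304) (nat_lit 4599284476) (nat_lit 76) (nat_lit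 382222879) (nat_lit 46) (nat_lit 5) (nat_lit 50) (nat_lit 5) (nat_lit 47) (nat_lit 4) (nat_lit 491) (nat_lit 347) (nat_lit 302)))) (XT.nd (nat_lit 78) (nat_lit 304) (nat_lit 0) (XT.lf (nat_lit 0) (nat_lit 4306115763) (nat_lit 152) (nat_lit 9124717213) (nat_lit 228) (nat_lit 594663052) (nat_lit 44) (nat_lit 5) (nat_lit 46) (nat_lit 5) (nat_lit 47) (nat_lit 4) (nat_lit 492) (nat_lit 347) (nat_lit 301)) (XT.nd (nat_lit 78) (nat_lit 228) (nat_lit 0) (XT.lf (nat_lit 0) (nat_lit 3814377173) (nat_lit 228) (nat_lit 855755565) (nat_lit 76) (nat_lit 9532414580) (nat_lit 43) (nat_lit 5) (nat_lit 46) (nat_lit 5) (nat_lit 44) (nat_lit 5) (nat_lit 493) (nat_lit 347) (nat_lit 300)) (XT.lf (nat_lit 0) (nat_lit 8210261695) (nat_lit 228) (nat_lit 101861256) (nat_lit 304) (nat_lit 6070773538) (nat_lit 40) (nat_lit 5) (nat_lit 43) (nat_lit 5) (nat_lit 44) (nat_lit 5) (nat_lit 494) (nat_lit 347) (nat_lit 299))))))))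
noncomputable def xc23 : XT := (XT.nd (nat_lit 56082) (nat_lit 0) (nat_lit 5092) (XT.nd (nat_lit 858) (nat_lit 228) (nat_lit 0) (XT.nd (nat_lit 390) (nat_lit 684) (nat_lit 0) (XT.nd (nat_lit 156) (nat_lit 380) (nat_lit 0) (XT.nd (nat_lit 78) (nat_lit 76) (nat_lit 0) (XT.lf (nat_lit 0) (nat_lit 2831183527) (nat_lit 152) (nat_lit 10077721503) (nat_lit 228) (nat_lit 1657771098) (nat_lit 38) (nat_lit 5) (nat_lit 40) (nat_lit 5) (nat_lit 41) (nat_lit 4) (nat_lit 495) (nat_lit 347) (nat_lit 298)) (XT.lf (nat_lit 0) (nat_lit 2803965234) (nat_lit 228) (nat_lit 2752822460) (nat_lit 76) (nat_lit 9197024008) (nat_lit 37) (nat_lit 5) (nat_lit 40) (nat_lit 5) (nat_lit 38) (nat_lit 5) (nat_lit 496) (nat_lit 347) (nat_lit 297))) (XT.nd (nat_lit 78) (nat_lit 228) (nat_lit 0) (XT.lf (nat_lit 0) (nat_lit 6405215560) (nat_lit 152) (nat_lit 925401645) (nat_lit 228) (nat_lit 7613900874) (nat_lit 35) (nat_lit 5) (nat_lit 37) (nat_lit 5) (nat_lit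 38) (nat_lit 5) (nat_lit 497) (nat_lit 347) (nat_lit 296)) (XT.nd (nat_lit 78) (nat_lit 76) (nat_lit 0) (XT.lf (nat_lit 0) (nat_lit 550029854) (nat_lit 152) (nat_lit 11401014364) (nat_lit 228) (nat_lit 3187934249) (nat_lit 33) (nat_lit 5) (nat_lit 35) (nat_lit 5) (nat_lit 36) (nat_lit 4) (nat_lit 498) (nat_lit 347) (nat_lit 295)) (XT.lf (nat_lit 0) (nat_lit 1329441621) (nat_lit 228) (nat_lit 5491933692) (nat_lit 76) (nat_lit 8515379273) (nat_lit 32) (nat_lit 5) (nat_lit 35) (nat_lit 5) (nat_lit 33) (nat_lit 5) (nat_lit 499) (nat_lit 347) (nat_lit 294))))) (XT.nd (nat_lit 234) (nat_lit 380) (nat_lit 0) (XT.nd (nat_lit 78) (nat_lit 152) (nat_lit 0) (XT.lf (nat_lit 0) (nat_lit 3738934182) (nat_lit 152) (nat_lit 2137190012) (nat_lit 228) (nat_lit 9662312129) (nat_lit 30) (nat_lit 5) (nat_lit 32) (nat_lit 5) (nat_lit 33) (nat_lit 5) (nat_lit 500) (nat_lit 347) (nat_lit 293)) (XT.nd (nat_lit 78) (nat_lit 152) (nat_lit 0) (XT.lf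 (nat_lit 0) (nat_lit 10525444282) (nat_lit 228) (nat_lit 2608086967) (nat_lit 76) (nat_lit 2610390732) (nat_lit 30) (nat_lit 5) (nat_lit 33) (nat_lit 5) (nat_lit 31) (nat_lit 4) (nat_lit 501) (nat_lit 347) (nat_lit 292)) (XT.lf (nat_lit 0) (nat_lit 6767100493) (nat_lit 152) (nat_lit 8517035449) (nat_lit 228) (nat_lit 669057983) (nat_lit 28) (nat_lit 5) (nat_lit 30) (nat_lit 5) (nat_lit 31) (nat_lit 4) (nat_lit 502) (nat_lit 347) (nat_lit 291)))) (XT.nd (nat_lit 78) (nat_lit 152) (nat_lit 0) (XT.lf (nat_lit 0) (nat_lit 99527903) (nat_lit 152) (nat_lit 3796354209) (nat_lit 228) (nat_lit 12270725277) (nat_lit 25) (nat_lit 5) (nat_lit 27) (nat_lit 5) (nat_lit 28) (nat_lit 5) (nat_lit 503) (nat_lit 347) (nat_lit 290)) (XT.nd (nat_lit 78) (nat_lit 152) (nat_lit 0) (XT.lf (nat_lit 0) (nat_lit 8570310951) (nat_lit 228) (nat_lit 6773973678) (nat_lit 76) (nat_lit 1039377101) (nat_lit 25) (nat_lit 5) (nat_lit 28) (nat_lit 5) (nat_lit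 26) (nat_lit 4) (nat_lit 504) (nat_lit 347) (nat_lit 289)) (XT.lf (nat_lit 0) (nat_lit 2641113482) (nat_lit 152) (nat_lit 10698692551) (nat_lit 228) (nat_lit 3265223525) (nat_lit 23) (nat_lit 5) (nat_lit 25) (nat_lit 5) (nat_lit 26) (nat_lit 4) (nat_lit 505) (nat_lit 347) (nat_lit 288)))))) (XT.nd (nat_lit 54756) (nat_lit 0) (nat_lit 11324) (XT.nd (nat_lit 54522) (nat_lit 0) (nat_lit 13908) (XT.nd (nat_lit 78) (nat_lit 152) (nat_lit 0) (XT.lf (nat_lit 0) (nat_lit 1360947825) (nat_lit 228) (nat_lit 4576250706) (nat_lit 76) (nat_lit 10893349608) (nat_lit 22) (nat_lit 5) (nat_lit 25) (nat_lit 5) (nat_lit 23) (nat_lit 5) (nat_lit 506) (nat_lit 347) (nat_lit 287)) (XT.lf (nat_lit 0) (nat_lit 4970736674) (nat_lit 152) (nat_lit 1057638073) (nat_lit 228) (nat_lit 11031925336) (nat_lit 20) (nat_lit 5) (nat_lit 22) (nat_lit 5) (nat_lit 23) (nat_lit 5) (nat_lit 507) (nat_lit 347) (nat_lit 286))) (XT.nd (nat_lit 78) (nat_lit 608)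 (nat_lit 0) (XT.lf (nat_lit 0) (nat_lit 133219641) (nat_lit 532) (nat_lit 2062697753) (nat_lit 532) (nat_lit 2062697753) (nat_lit 211) (nat_lit 4) (nat_lit 218) (nat_lit 5) (nat_lit 218) (nat_lit 4) (nat_lit 444) (nat_lit 348) (nat_lit 348)) (XT.nd (nat_lit 78) (nat_lit 608) (nat_lit 0) (XT.lf (nat_lit 0) (nat_lit 7133101424) (nat_lit 532) (nat_lit 1261022059) (nat_lit 532) (nat_lit 191872839) (nat_lit 211) (nat_lit 4) (nat_lit 218) (nat_lit 5) (nat_lit 218) (nat_lit 4) (nat_lit 445) (nat_lit 348) (nat_lit 347)) (XT.lf (nat_lit 0) (nat_lit 3750877701) (nat_lit 608) (nat_lit 3230110205) (nat_lit 0) (nat_lit 1675059338) (nat_lit 203) (nat_lit 5) (nat_lit 211) (nat_lit 4) (nat_lit 203) (nat_lit 4) (nat_lit 446) (nat_lit 348) (nat_lit 346))))) (XT.nd (nat_lit 234) (nat_lit 1064) (nat_lit 0) (XT.nd (nat_lit 78) (nat_lit 988) (nat_lit 0) (XT.lf (nat_lit 0) (nat_lit 3682495914) (nat_lit 532) (nat_lit 4064379377) (nat_lit 532)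 (nat_lit 981077825) (nat_lit 196) (nat_lit 4) (nat_lit 203) (nat_lit 5) (nat_lit 203) (nat_lit 4) (nat_lit 447) (nat_lit 348) (nat_lit 345)) (XT.nd (nat_lit 78) (nat_lit 456) (nat_lit 0) (XT.lf (nat_lit 0) (nat_lit 1890172125) (nat_lit 456) (nat_lit 1060918119) (nat_lit 532) (nat_lit 5850447870) (nat_lit 189) (nat_lit 5) (nat_lit 195) (nat_lit 5) (nat_lit 196) (nat_lit 4) (nat_lit 448) (nat_lit 348) (nat_lit 344)) (XT.lf (nat_lit 0) (nat_lit 46208376) (nat_lit 456) (nat_lit 6885596675) (nat_lit 456) (nat_lit 1945016715) (nat_lit 183) (nat_lit 4) (nat_lit 189) (nat_lit 5) (nat_lit 189) (nat_lit 4) (nat_lit 449) (nat_lit 348) (nat_lit 343)))) (XT.nd (nat_lit 78) (nat_lit 988) (nat_lit 0) (XT.lf (nat_lit 0) (nat_lit 2001375014) (nat_lit 532) (nat_lit 1828561166) (nat_lit 76) (nat_lit 5123635226) (nat_lit 182) (nat_lit 5) (nat_lit 189) (nat_lit 5) (nat_lit 183) (nat_lit 4) (nat_lit 450) (nat_lit 348) (nat_lit 342)) (XT.nd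 (nat_lit 78) (nat_lit 532) (nat_lit 0) (XT.lf (nat_lit 0) (nat_lit 5279770127) (nat_lit 456) (nat_lit 692317688) (nat_lit 532) (nat_lit 3060098798) (nat_lit 176) (nat_lit 5) (nat_lit 182) (nat_lit 5) (nat_lit 183) (nat_lit 4) (nat_lit 451) (nat_lit 348) (nat_lit 341)) (XT.lf (nat_lit 0) (nat_lit 886003626) (nat_lit 532) (nat_lit 5738178066) (nat_lit 76) (nat_lit 2488328179) (nat_lit 169) (nat_lit 5) (nat_lit 176) (nat_lit 5) (nat_lit 170) (nat_lit 4) (nat_lit 452) (nat_lit 348) (nat_lit 340))))))) (XT.nd (nat_lit 858) (nat_lit 2812) (nat_lit 0) (XT.nd (nat_lit 390) (nat_lit 1672) (nat_lit 0) (XT.nd (nat_lit 156) (nat_lit 1368) (nat_lit 0) (XT.nd (nat_lit 78) (nat_lit 0) (nat_lit 0) (XT.lf (nat_lit 0) (nat_lit 1403066338) (nat_lit 380) (nat_lit 3443888578) (nat_lit 456) (nat_lit 4347557601) (nat_lit 164) (nat_lit 5) (nat_lit 169) (nat_lit 5) (nat_lit 170) (nat_lit 4) (nat_lit 453) (nat_lit 348) (nat_lit 339)) (XT.lf (nat_lit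 0) (nat_lit 8674653918) (nat_lit 380) (nat_lit 189431911) (nat_lit 456) (nat_lit 414545368) (nat_lit 164) (nat_lit 5) (nat_lit 169) (nat_lit 5) (nat_lit 170) (nat_lit 4) (nat_lit 454) (nat_lit 348) (nat_lit 338))) (XT.nd (nat_lit 78) (nat_lit 836) (nat_lit 0) (XT.lf (nat_lit 0) (nat_lit 3553294114) (nat_lit 532) (nat_lit 2682430769) (nat_lit 76) (nat_lit 3128187992) (nat_lit 157) (nat_lit 5) (nat_lit 164) (nat_lit 5) (nat_lit 158) (nat_lit 4) (nat_lit 455) (nat_lit 348) (nat_lit 337)) (XT.nd (nat_lit 78) (nat_lit 456) (nat_lit 0) (XT.lf (nat_lit 0) (nat_lit 4637047487) (nat_lit 380) (nat_lit 2933014883) (nat_lit 456) (nat_lit 1881294876) (nat_lit 152) (nat_lit 5) (nat_lit 157) (nat_lit 5) (nat_lit 158) (nat_lit 4) (nat_lit 456) (nat_lit 348) (nat_lit 336)) (XT.lf (nat_lit 0) (nat_lit 2076086331) (nat_lit 456) (nat_lit 7015419115) (nat_lit 76) (nat_lit 449235435) (nat_lit 146) (nat_lit 5) (nat_lit 152) (nat_lit 5) (nat_lit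 147) (nat_lit 4) (nat_lit 457) (nat_lit 348) (nat_lit 335))))) (XT.nd (nat_lit 234) (nat_lit 836) (nat_lit 0) (XT.nd (nat_lit 78) (nat_lit 456) (nat_lit 0) (XT.lf (nat_lit 0) (nat_lit 327537300) (nat_lit 380) (nat_lit 5754257578) (nat_lit 456) (nat_lit 3549994689) (nat_lit 141) (nat_lit 5) (nat_lit 146) (nat_lit 5) (nat_lit 147) (nat_lit 4) (nat_lit 458) (nat_lit 348) (nat_lit 334)) (XT.nd (nat_lit 78) (nat_lit 380) (nat_lit 0) (XT.lf (nat_lit 0) (nat_lit 424996788) (nat_lit 456) (nat_lit 1905066946) (nat_lit 76) (nat_lit 7394793982) (nat_lit 140) (nat_lit 5) (nat_lit 146) (nat_lit 5) (nat_lit 141) (nat_lit 5) (nat_lit 459) (nat_lit 348) (nat_lit 333)) (XT.lf (nat_lit 0) (nat_lit 4417751854) (nat_lit 456) (nat_lit 4224270706) (nat_lit 76) (nat_lit 1177592108) (nat_lit 135) (nat_lit 5) (nat_lit 141) (nat_lit 5) (nat_lit 136) (nat_lit 4) (nat_lit 460) (nat_lit 348) (nat_lit 332)))) (XT.nd (nat_lit 78) (nat_lit 456) (nat_lit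 0) (XT.lf (nat_lit 0) (nat_lit 3294042174) (nat_lit 380) (nat_lit 5188006874) (nat_lit 456) (nat_lit 1434396435) (nat_lit 130) (nat_lit 5) (nat_lit 135) (nat_lit 5) (nat_lit 136) (nat_lit 4) (nat_lit 461) (nat_lit 348) (nat_lit 331)) (XT.nd (nat_lit 78) (nat_lit 0) (nat_lit 0) (XT.lf (nat_lit 0) (nat_lit 910717916) (nat_lit 380) (nat_lit 1644056512) (nat_lit 456) (nat_lit 7460578884) (nat_lit 124) (nat_lit 5) (nat_lit 129) (nat_lit 5) (nat_lit 130) (nat_lit 5) (nat_lit 462) (nat_lit 348) (nat_lit 330)) (XT.lf (nat_lit 0) (nat_lit 6604591846) (nat_lit 456) (nat_lit 1543447267) (nat_lit 76) (nat_lit 1968020908) (nat_lit 124) (nat_lit 5) (nat_lit 130) (nat_lit 5) (nat_lit 125) (nat_lit 4) (nat_lit 463) (nat_lit 348) (nat_lit 329)))))) (XT.nd (nat_lit 390) (nat_lit 1368) (nat_lit 0) (XT.nd (nat_lit 156) (nat_lit 684) (nat_lit 0) (XT.nd (nat_lit 78) (nat_lit 380) (nat_lit 0) (XT.lf (nat_lit 0) (nat_lit 504272626) (nat_lit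 380) (nat_lit 4071493026) (nat_lit 76) (nat_lit 5643070946) (nat_lit 119) (nat_lit 5) (nat_lit 124) (nat_lit 5) (nat_lit 120) (nat_lit 5) (nat_lit 464) (nat_lit 348) (nat_lit 328)) (XT.lf (nat_lit 0) (nat_lit 3625439418) (nat_lit 380) (nat_lit 905684444) (nat_lit 456) (nat_lit 5792535411) (nat_lit 114) (nat_lit 5) (nat_lit 119) (nat_lit 5) (nat_lit 120) (nat_lit 5) (nat_lit 465) (nat_lit 348) (nat_lit 327))) (XT.nd (nat_lit 78) (nat_lit 380) (nat_lit 0) (XT.lf (nat_lit 0) (nat_lit 1007544626) (nat_lit 304) (nat_lit 7627567873) (nat_lit 380) (nat_lit 1795544745) (nat_lit 110) (nat_lit 5) (nat_lit 114) (nat_lit 5) (nat_lit 115) (nat_lit 4) (nat_lit 466) (nat_lit 348) (nat_lit 326)) (XT.nd (nat_lit 78) (nat_lit 304) (nat_lit 0) (XT.lf (nat_lit 0) (nat_lit 2246987591) (nat_lit 380) (nat_lit 1690484415) (nat_lit 76) (nat_lit 6602126899) (nat_lit 109) (nat_lit 5) (nat_lit 114) (nat_lit 5) (nat_lit 110) (nat_lit 5) (nat_lit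 467) (nat_lit 348) (nat_lit 325)) (XT.lf (nat_lit 0) (nat_lit 6178982133) (nat_lit 304) (nat_lit 152857681) (nat_lit 380) (nat_lit 4318942209) (nat_lit 105) (nat_lit 5) (nat_lit 109) (nat_lit 5) (nat_lit 110) (nat_lit 5) (nat_lit 468) (nat_lit 348) (nat_lit 324))))) (XT.nd (nat_lit 234) (nat_lit 684) (nat_lit 0) (XT.nd (nat_lit 78) (nat_lit 380) (nat_lit 0) (XT.lf (nat_lit 0) (nat_lit 3397936847) (nat_lit 304) (nat_lit 7103676071) (nat_lit 380) (nat_lit 262521431) (nat_lit 101) (nat_lit 5) (nat_lit 105) (nat_lit 5) (nat_lit 106) (nat_lit 4) (nat_lit 469) (nat_lit 348) (nat_lit 323)) (XT.nd (nat_lit 78) (nat_lit 0) (nat_lit 0) (XT.lf (nat_lit 0) (nat_lit 499280991) (nat_lit 304) (nat_lit 3305193896) (nat_lit 380) (nat_lit 7075179909) (nat_lit 96) (nat_lit 5) (nat_lit 100) (nat_lit 5) (nat_lit 101) (nat_lit 5) (nat_lit 470) (nat_lit 348) (nat_lit 322)) (XT.lf (nat_lit 0) (nat_lit 7948845054) (nat_lit 380) (nat_lit 2468060045)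 (nat_lit 76) (nat_lit 580564311) (nat_lit 96) (nat_lit 5) (nat_lit 101) (nat_lit 5) (nat_lit 97) (nat_lit 4) (nat_lit 471) (nat_lit 348) (nat_lit 321)))) (XT.nd (nat_lit 78) (nat_lit 304) (nat_lit 0) (XT.lf (nat_lit 0) (nat_lit 1049791448) (nat_lit 380) (nat_lit 5556821501) (nat_lit 76) (nat_lit 4510794780) (nat_lit 91) (nat_lit 5) (nat_lit 96) (nat_lit 5) (nat_lit 92) (nat_lit 5) (nat_lit 472) (nat_lit 348) (nat_lit 320)) (XT.nd (nat_lit 78) (nat_lit 0) (nat_lit 0) (XT.lf (nat_lit 0) (nat_lit 2469794923) (nat_lit 304) (nat_lit 2699579166) (nat_lit 380) (nat_lit 6070376207) (nat_lit 87) (nat_lit 5) (nat_lit 91) (nat_lit 5) (nat_lit 92) (nat_lit 5) (nat_lit 473) (nat_lit 348) (nat_lit 319)) (XT.lf (nat_lit 0) (nat_lit 9364767504) (nat_lit 380) (nat_lit 726535187) (nat_lit 76) (nat_lit 1273377368) (nat_lit 87) (nat_lit 5) (nat_lit 92) (nat_lit 5) (nat_lit 88) (nat_lit 4) (nat_lit 474) (nat_lit 348) (nat_lit 318))))))))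
noncomputable def xc24 : XT := (XT.nd (nat_lit 1638) (nat_lit 1520) (nat_lit 0) (XT.nd (nat_lit 780) (nat_lit 1596) (nat_lit 0) (XT.nd (nat_lit 390) (nat_lit 836) (nat_lit 0) (XT.nd (nat_lit 156) (nat_lit 532) (nat_lit 0) (XT.nd (nat_lit 78) (nat_lit 304) (nat_lit 0) (XT.lf (nat_lit 0) (nat_lit 2138791179) (nat_lit 304) (nat_lit 4032722185) (nat_lit 76) (nat_lit 5320022917) (nat_lit 83) (nat_lit 5) (nat_lit 87) (nat_lit 5) (nat_lit 84) (nat_lit 5) (nat_lit 475) (nat_lit 348) (nat_lit 317)) (XT.lf (nat_lit 0) (nat_lit 4153226533) (nat_lit 304) (nat_lit 2160842865) (nat_lit 380) (nat_lit 5306992480) (nat_lit 79) (nat_lit 5) (nat_lit 83) (nat_lit 5) (nat_lit 84) (nat_lit 5) (nat_lit 476) (nat_lit 348) (nat_lit 316))) (XT.nd (nat_lit 78) (nat_lit 304) (nat_lit 0) (XT.lf (nat_lit 0) (nat_lit 716505264) (nat_lit 228) (nat_lit 9849694811) (nat_lit 304) (nat_lit 1187119037) (nat_lit 76) (nat_lit 5) (nat_lit 79) (nat_lit 5) (nat_lit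 80) (nat_lit 4) (nat_lit 477) (nat_lit 348) (nat_lit 315)) (XT.nd (nat_lit 78) (nat_lit 228) (nat_lit 0) (XT.lf (nat_lit 0) (nat_lit 2989395203) (nat_lit 304) (nat_lit 2840905306) (nat_lit 76) (nat_lit 6057261449) (nat_lit 75) (nat_lit 5) (nat_lit 79) (nat_lit 5) (nat_lit 76) (nat_lit 5) (nat_lit 478) (nat_lit 348) (nat_lit 314)) (XT.lf (nat_lit 0) (nat_lit 5499630708) (nat_lit 228) (nat_lit 1719667360) (nat_lit 304) (nat_lit 4805327177) (nat_lit 72) (nat_lit 5) (nat_lit 75) (nat_lit 5) (nat_lit 76) (nat_lit 5) (nat_lit 479) (nat_lit 348) (nat_lit 313))))) (XT.nd (nat_lit 156) (nat_lit 532) (nat_lit 0) (XT.nd (nat_lit 78) (nat_lit 76) (nat_lit 0) (XT.lf (nat_lit 0) (nat_lit 1805140594) (nat_lit 228) (nat_lit 9725881508) (nat_lit 304) (nat_lit 633470682) (nat_lit 69) (nat_lit 5) (nat_lit 72) (nat_lit 5) (nat_lit 73) (nat_lit 4) (nat_lit 480) (nat_lit 348) (nat_lit 312)) (XT.lf (nat_lit 0) (nat_lit 3580143130) (nat_lit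 304) (nat_lit 2035053461) (nat_lit 76) (nat_lit 6691381515) (nat_lit 68) (nat_lit 5) (nat_lit 72) (nat_lit 5) (nat_lit 69) (nat_lit 5) (nat_lit 481) (nat_lit 348) (nat_lit 311))) (XT.nd (nat_lit 78) (nat_lit 304) (nat_lit 0) (XT.lf (nat_lit 0) (nat_lit 6453921412) (nat_lit 228) (nat_lit 1408866506) (nat_lit 304) (nat_lit 4588775672) (nat_lit 65) (nat_lit 5) (nat_lit 68) (nat_lit 5) (nat_lit 69) (nat_lit 5) (nat_lit 482) (nat_lit 348) (nat_lit 310)) (XT.nd (nat_lit 78) (nat_lit 76) (nat_lit 0) (XT.lf (nat_lit 0) (nat_lit 2472237703) (nat_lit 228) (nat_lit 9758891455) (nat_lit 304) (nat_lit 368325635) (nat_lit 62) (nat_lit 5) (nat_lit 65) (nat_lit 5) (nat_lit 66) (nat_lit 4) (nat_lit 483) (nat_lit 348) (nat_lit 309)) (XT.lf (nat_lit 0) (nat_lit 3886378900) (nat_lit 304) (nat_lit 1674418603) (nat_lit 76) (nat_lit 7188972283) (nat_lit 61) (nat_lit 5) (nat_lit 65) (nat_lit 5) (nat_lit 62) (nat_lit 5) (nat_lit 484) (nat_lit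 348) (nat_lit 308)))))) (XT.nd (nat_lit 390) (nat_lit 760) (nat_lit 0) (XT.nd (nat_lit 156) (nat_lit 456) (nat_lit 0) (XT.nd (nat_lit 78) (nat_lit 152) (nat_lit 0) (XT.lf (nat_lit 0) (nat_lit 6955256083) (nat_lit 228) (nat_lit 1263730470) (nat_lit 304) (nat_lit 4684107498) (nat_lit 58) (nat_lit 5) (nat_lit 61) (nat_lit 5) (nat_lit 62) (nat_lit 5) (nat_lit 485) (nat_lit 348) (nat_lit 307)) (XT.lf (nat_lit 0) (nat_lit 2654288981) (nat_lit 152) (nat_lit 9985522721) (nat_lit 228) (nat_lit 419648150) (nat_lit 56) (nat_lit 5) (nat_lit 58) (nat_lit 5) (nat_lit 59) (nat_lit 4) (nat_lit 486) (nat_lit 348) (nat_lit 306))) (XT.nd (nat_lit 78) (nat_lit 380) (nat_lit 0) (XT.lf (nat_lit 0) (nat_lit 3879958178) (nat_lit 228) (nat_lit 1824477690) (nat_lit 76) (nat_lit 7513984839) (nat_lit 55) (nat_lit 5) (nat_lit 58) (nat_lit 5) (nat_lit 56) (nat_lit 5) (nat_lit 487) (nat_lit 348) (nat_lit 305)) (XT.nd (nat_lit 78) (nat_lit 152) (nat_lit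 0) (XT.lf (nat_lit 0) (nat_lit 6936359334) (nat_lit 228) (nat_lit 1322398558) (nat_lit 304) (nat_lit 5121776992) (nat_lit 52) (nat_lit 5) (nat_lit 55) (nat_lit 5) (nat_lit 56) (nat_lit 5) (nat_lit 488) (nat_lit 348) (nat_lit 304)) (XT.lf (nat_lit 0) (nat_lit 2281054470) (nat_lit 152) (nat_lit 10445603601) (nat_lit 228) (nat_lit 819208658) (nat_lit 50) (nat_lit 5) (nat_lit 52) (nat_lit 5) (nat_lit 53) (nat_lit 4) (nat_lit 489) (nat_lit 348) (nat_lit 303))))) (XT.nd (nat_lit 234) (nat_lit 304) (nat_lit 0) (XT.nd (nat_lit 78) (nat_lit 380) (nat_lit 0) (XT.lf (nat_lit 0) (nat_lit 3528921003) (nat_lit 228) (nat_lit 2557653468) (nat_lit 76) (nat_lit 7627346415) (nat_lit 49) (nat_lit 5) (nat_lit 52) (nat_lit 5) (nat_lit 50) (nat_lit 5) (nat_lit 490) (nat_lit 348) (nat_lit 302)) (XT.nd (nat_lit 78) (nat_lit 152) (nat_lit 0) (XT.lf (nat_lit 0) (nat_lit 6322779282) (nat_lit 228) (nat_lit 1626263595) (nat_lit 304) (nat_lit 5936270509)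 (nat_lit 46) (nat_lit 5) (nat_lit 49) (nat_lit 5) (nat_lit 50) (nat_lit 5) (nat_lit 491) (nat_lit 348) (nat_lit 301)) (XT.lf (nat_lit 0) (nat_lit 1274789027) (nat_lit 152) (nat_lit 11182411165) (nat_lit 228) (nat_lit 1602946308) (nat_lit 44) (nat_lit 5) (nat_lit 46) (nat_lit 5) (nat_lit 47) (nat_lit 4) (nat_lit 492) (nat_lit 348) (nat_lit 300)))) (XT.nd (nat_lit 78) (nat_lit 228) (nat_lit 0) (XT.lf (nat_lit 0) (nat_lit 2797126336) (nat_lit 228) (nat_lit 3954107531) (nat_lit 76) (nat_lit 7486541262) (nat_lit 43) (nat_lit 5) (nat_lit 46) (nat_lit 5) (nat_lit 44) (nat_lit 5) (nat_lit 493) (nat_lit 348) (nat_lit 299)) (XT.nd (nat_lit 78) (nat_lit 0) (nat_lit 0) (XT.lf (nat_lit 0) (nat_lit 5032069122) (nat_lit 228) (nat_lit 2220411786) (nat_lit 304) (nat_lit 7166493747) (nat_lit 40) (nat_lit 5) (nat_lit 43) (nat_lit 5) (nat_lit 44) (nat_lit 5) (nat_lit 494) (nat_lit 348) (nat_lit 298)) (XT.lf (nat_lit 0) (nat_lit 11795444203)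 (nat_lit 304) (nat_lit 444698622) (nat_lit 76) (nat_lit 2363690326) (nat_lit 40) (nat_lit 5) (nat_lit 44) (nat_lit 5) (nat_lit 41) (nat_lit 4) (nat_lit 495) (nat_lit 348) (nat_lit 297))))))) (XT.nd (nat_lit 858) (nat_lit 228) (nat_lit 0) (XT.nd (nat_lit 390) (nat_lit 532) (nat_lit 0) (XT.nd (nat_lit 156) (nat_lit 380) (nat_lit 0) (XT.nd (nat_lit 78) (nat_lit 152) (nat_lit 0) (XT.lf (nat_lit 0) (nat_lit 1643844805) (nat_lit 228) (nat_lit 6102613503) (nat_lit 76) (nat_lit 7045154077) (nat_lit 37) (nat_lit 5) (nat_lit 40) (nat_lit 5) (nat_lit 38) (nat_lit 5) (nat_lit 496) (nat_lit 348) (nat_lit 296)) (XT.lf (nat_lit 0) (nat_lit 2972885860) (nat_lit 152) (nat_lit 3154102312) (nat_lit 228) (nat_lit 8856203099) (nat_lit 35) (nat_lit 5) (nat_lit 37) (nat_lit 5) (nat_lit 38) (nat_lit 5) (nat_lit 497) (nat_lit 348) (nat_lit 295))) (XT.nd (nat_lit 78) (nat_lit 380) (nat_lit 0) (XT.lf (nat_lit 0) (nat_lit 10708218956) (nat_lit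 228) (nat_lit 2951310676) (nat_lit 76) (nat_lit 1518908244) (nat_lit 35) (nat_lit 5) (nat_lit 38) (nat_lit 5) (nat_lit 36) (nat_lit 4) (nat_lit 498) (nat_lit 348) (nat_lit 294)) (XT.nd (nat_lit 78) (nat_lit 152) (nat_lit 0) (XT.lf (nat_lit 0) (nat_lit 23305518) (nat_lit 228) (nat_lit 9101518999) (nat_lit 76) (nat_lit 6252371569) (nat_lit 32) (nat_lit 5) (nat_lit 35) (nat_lit 5) (nat_lit 33) (nat_lit 5) (nat_lit 499) (nat_lit 348) (nat_lit 293)) (XT.lf (nat_lit 0) (nat_lit 43997252) (nat_lit 152) (nat_lit 4481291326) (nat_lit 228) (nat_lit 11054485394) (nat_lit 30) (nat_lit 5) (nat_lit 32) (nat_lit 5) (nat_lit 33) (nat_lit 5) (nat_lit 500) (nat_lit 348) (nat_lit 292))))) (XT.nd (nat_lit 234) (nat_lit 304) (nat_lit 0) (XT.nd (nat_lit 78) (nat_lit 228) (nat_lit 0) (XT.lf (nat_lit 0) (nat_lit 9138743211) (nat_lit 228) (nat_lit 6366099600) (nat_lit 76) (nat_lit 281136245) (nat_lit 30) (nat_lit 5) (nat_lit 33) (nat_lit 5)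 (nat_lit 31) (nat_lit 4) (nat_lit 501) (nat_lit 348) (nat_lit 291)) (XT.nd (nat_lit 78) (nat_lit 76) (nat_lit 0) (XT.lf (nat_lit 0) (nat_lit 2922431476) (nat_lit 152) (nat_lit 10929800083) (nat_lit 228) (nat_lit 2143925585) (nat_lit 28) (nat_lit 5) (nat_lit 30) (nat_lit 5) (nat_lit 31) (nat_lit 4) (nat_lit 502) (nat_lit 348) (nat_lit 290)) (XT.lf (nat_lit 0) (nat_lit 2419498502) (nat_lit 228) (nat_lit 3816098939) (nat_lit 76) (nat_lit 9974583861) (nat_lit 27) (nat_lit 5) (nat_lit 30) (nat_lit 5) (nat_lit 28) (nat_lit 5) (nat_lit 503) (nat_lit 348) (nat_lit 289)))) (XT.nd (nat_lit 78) (nat_lit 152) (nat_lit 0) (XT.lf (nat_lit 0) (nat_lit 5614295517) (nat_lit 152) (nat_lit 1427637364) (nat_lit 228) (nat_lit 9386344608) (nat_lit 25) (nat_lit 5) (nat_lit 27) (nat_lit 5) (nat_lit 28) (nat_lit 5) (nat_lit 504) (nat_lit 348) (nat_lit 288)) (XT.nd (nat_lit 78) (nat_lit 152) (nat_lit 0) (XT.lf (nat_lit 0) (nat_lit 11765251854)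 (nat_lit 228) (nat_lit 1459877805) (nat_lit 76) (nat_lit 3425441098) (nat_lit 25) (nat_lit 5) (nat_lit 28) (nat_lit 5) (nat_lit 26) (nat_lit 4) (nat_lit 505) (nat_lit 348) (nat_lit 287)) (XT.lf (nat_lit 0) (nat_lit 8107658629) (nat_lit 152) (nat_lit 8498342695) (nat_lit 228) (nat_lit 270853083) (nat_lit 23) (nat_lit 5) (nat_lit 25) (nat_lit 5) (nat_lit 26) (nat_lit 4) (nat_lit 506) (nat_lit 348) (nat_lit 286)))))) (XT.nd (nat_lit 54600) (nat_lit 0) (nat_lit 11856) (XT.nd (nat_lit 54366) (nat_lit 0) (nat_lit 14440) (XT.nd (nat_lit 54288) (nat_lit 0) (nat_lit 15656) (XT.lf (nat_lit 0) (nat_lit 688442722) (nat_lit 152) (nat_lit 3664533813) (nat_lit 228) (nat_lit 12754609788) (nat_lit 20) (nat_lit 5) (nat_lit 22) (nat_lit 5) (nat_lit 23) (nat_lit 5) (nat_lit 507) (nat_lit 348) (nat_lit 285)) (XT.lf (nat_lit 0) (nat_lit 1843462636) (nat_lit 608) (nat_lit 1174280827) (nat_lit 608) (nat_lit 1174280827) (nat_lit 226) (nat_lit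 4) (nat_lit 234) (nat_lit 5) (nat_lit 234) (nat_lit 4) (nat_lit 442) (nat_lit 349) (nat_lit 349))) (XT.nd (nat_lit 78) (nat_lit 608) (nat_lit 0) (XT.lf (nat_lit 0) (nat_lit 1535904399) (nat_lit 608) (nat_lit 6469008305) (nat_lit 0) (nat_lit 445372194) (nat_lit 218) (nat_lit 5) (nat_lit 226) (nat_lit 4) (nat_lit 218) (nat_lit 4) (nat_lit 443) (nat_lit 349) (nat_lit 348)) (XT.nd (nat_lit 78) (nat_lit 76) (nat_lit 0) (XT.lf (nat_lit 0) (nat_lit 221298932) (nat_lit 532) (nat_lit 5228140536) (nat_lit 532) (nat_lit 3068459110) (nat_lit 211) (nat_lit 4) (nat_lit 218) (nat_lit 5) (nat_lit 218) (nat_lit 4) (nat_lit 444) (nat_lit 349) (nat_lit 347)) (XT.lf (nat_lit 0) (nat_lit 821213002) (nat_lit 608) (nat_lit 1549016669) (nat_lit 76) (nat_lit 6216982053) (nat_lit 210) (nat_lit 5) (nat_lit 218) (nat_lit 5) (nat_lit 211) (nat_lit 4) (nat_lit 445) (nat_lit 349) (nat_lit 346))))) (XT.nd (nat_lit 234) (nat_lit 988) (nat_lit 0) (XT.nd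 (nat_lit 78) (nat_lit 1064) (nat_lit 0) (XT.lf (nat_lit 0) (nat_lit 4721373278) (nat_lit 608) (nat_lit 3367752593) (nat_lit 0) (nat_lit 568922505) (nat_lit 203) (nat_lit 5) (nat_lit 211) (nat_lit 4) (nat_lit 203) (nat_lit 4) (nat_lit 446) (nat_lit 349) (nat_lit 345)) (XT.nd (nat_lit 78) (nat_lit 532) (nat_lit 0) (XT.lf (nat_lit 0) (nat_lit 3498344927) (nat_lit 532) (nat_lit 5186226840) (nat_lit 532) (nat_lit 46047451) (nat_lit 196) (nat_lit 4) (nat_lit 203) (nat_lit 5) (nat_lit 203) (nat_lit 4) (nat_lit 447) (nat_lit 349) (nat_lit 344)) (XT.lf (nat_lit 0) (nat_lit 1649902639) (nat_lit 456) (nat_lit 2190910933) (nat_lit 532) (nat_lit 4963938746) (nat_lit 189) (nat_lit 5) (nat_lit 195) (nat_lit 5) (nat_lit 196) (nat_lit 4) (nat_lit 448) (nat_lit 349) (nat_lit 343)))) (XT.nd (nat_lit 78) (nat_lit 988) (nat_lit 0) (XT.lf (nat_lit 0) (nat_lit 7782656760) (nat_lit 532) (nat_lit 235032558) (nat_lit 0) (nat_lit 863132555) (nat_lit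 189) (nat_lit 5) (nat_lit 196) (nat_lit 4) (nat_lit 189) (nat_lit 4) (nat_lit 449) (nat_lit 349) (nat_lit 342)) (XT.nd (nat_lit 78) (nat_lit 456) (nat_lit 0) (XT.lf (nat_lit 0) (nat_lit 2804441169) (nat_lit 532) (nat_lit 2167061608) (nat_lit 76) (nat_lit 3986620488) (nat_lit 182) (nat_lit 5) (nat_lit 189) (nat_lit 5) (nat_lit 183) (nat_lit 4) (nat_lit 450) (nat_lit 349) (nat_lit 341)) (XT.lf (nat_lit 0) (nat_lit 4892447791) (nat_lit 456) (nat_lit 1849679338) (nat_lit 532) (nat_lit 2295279860) (nat_lit 176) (nat_lit 5) (nat_lit 182) (nat_lit 5) (nat_lit 183) (nat_lit 4) (nat_lit 451) (nat_lit 349) (nat_lit 340))))))))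
noncomputable def xc25 : XT := (XT.nd (nat_lit 1716) (nat_lit 3572) (nat_lit 0) (XT.nd (nat_lit 858) (nat_lit 3192) (nat_lit 0) (XT.nd (nat_lit 390) (nat_lit 1748) (nat_lit 0) (XT.nd (nat_lit 156) (nat_lit 912) (nat_lit 0) (XT.nd (nat_lit 78) (nat_lit 380) (nat_lit 0) (XT.lf (nat_lit 0) (nat_lit 1599896294) (nat_lit 532) (nat_lit 6183624932) (nat_lit 76) (nat_lit 1334935291) (nat_lit 169) (nat_lit 5) (nat_lit 176) (nat_lit 5) (nat_lit 170) (nat_lit 4) (nat_lit 452) (nat_lit 349) (nat_lit 339)) (XT.lf (nat_lit 0) (nat_lit 907014458) (nat_lit 380) (nat_lit 4620434437) (nat_lit 456) (nat_lit 3673685763) (nat_lit 164) (nat_lit 5) (nat_lit 169) (nat_lit 5) (nat_lit 170) (nat_lit 4) (nat_lit 453) (nat_lit 349) (nat_lit 338))) (XT.nd (nat_lit 78) (nat_lit 836) (nat_lit 0) (XT.lf (nat_lit 0) (nat_lit 225849556) (nat_lit 456) (nat_lit 1152551019) (nat_lit 76) (nat_lit 7907427833) (nat_lit 163) (nat_lit 5) (nat_lit 169) (nat_lit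 5) (nat_lit 164) (nat_lit 5) (nat_lit 454) (nat_lit 349) (nat_lit 337)) (XT.nd (nat_lit 78) (nat_lit 380) (nat_lit 0) (XT.lf (nat_lit 0) (nat_lit 4147036525) (nat_lit 532) (nat_lit 3284947908) (nat_lit 76) (nat_lit 1939903224) (nat_lit 157) (nat_lit 5) (nat_lit 164) (nat_lit 5) (nat_lit 158) (nat_lit 4) (nat_lit 455) (nat_lit 349) (nat_lit 336)) (XT.lf (nat_lit 0) (nat_lit 3982379830) (nat_lit 380) (nat_lit 4147896800) (nat_lit 456) (nat_lit 1329732909) (nat_lit 152) (nat_lit 5) (nat_lit 157) (nat_lit 5) (nat_lit 158) (nat_lit 4) (nat_lit 456) (nat_lit 349) (nat_lit 335))))) (XT.nd (nat_lit 234) (nat_lit 836) (nat_lit 0) (XT.nd (nat_lit 78) (nat_lit 456) (nat_lit 0) (XT.lf (nat_lit 0) (nat_lit 1808319836) (nat_lit 380) (nat_lit 775281101) (nat_lit 456) (nat_lit 6966463564) (nat_lit 146) (nat_lit 5) (nat_lit 151) (nat_lit 5) (nat_lit 152) (nat_lit 5) (nat_lit 457) (nat_lit 349) (nat_lit 334)) (XT.nd (nat_lit 78) (nat_lit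 456) (nat_lit 0) (XT.lf (nat_lit 0) (nat_lit 6553162494) (nat_lit 456) (nat_lit 441925644) (nat_lit 76) (nat_lit 2646754537) (nat_lit 146) (nat_lit 5) (nat_lit 152) (nat_lit 5) (nat_lit 147) (nat_lit 4) (nat_lit 458) (nat_lit 349) (nat_lit 333)) (XT.lf (nat_lit 0) (nat_lit 848436614) (nat_lit 456) (nat_lit 2737467011) (nat_lit 76) (nat_lit 6149590079) (nat_lit 140) (nat_lit 5) (nat_lit 146) (nat_lit 5) (nat_lit 141) (nat_lit 5) (nat_lit 459) (nat_lit 349) (nat_lit 332)))) (XT.nd (nat_lit 78) (nat_lit 456) (nat_lit 0) (XT.lf (nat_lit 0) (nat_lit 4716096325) (nat_lit 380) (nat_lit 83256897) (nat_lit 456) (nat_lit 5031740374) (nat_lit 135) (nat_lit 5) (nat_lit 140) (nat_lit 5) (nat_lit 141) (nat_lit 5) (nat_lit 460) (nat_lit 349) (nat_lit 331)) (XT.nd (nat_lit 78) (nat_lit 76) (nat_lit 0) (XT.lf (nat_lit 0) (nat_lit 2348148366) (nat_lit 380) (nat_lit 6480670427) (nat_lit 456) (nat_lit 1099808298) (nat_lit 130) (nat_lit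 5) (nat_lit 135) (nat_lit 5) (nat_lit 136) (nat_lit 4) (nat_lit 461) (nat_lit 349) (nat_lit 330)) (XT.lf (nat_lit 0) (nat_lit 2850993892) (nat_lit 456) (nat_lit 104870266) (nat_lit 76) (nat_lit 7072312739) (nat_lit 129) (nat_lit 5) (nat_lit 135) (nat_lit 5) (nat_lit 130) (nat_lit 5) (nat_lit 462) (nat_lit 349) (nat_lit 329)))))) (XT.nd (nat_lit 390) (nat_lit 1672) (nat_lit 0) (XT.nd (nat_lit 156) (nat_lit 760) (nat_lit 0) (XT.nd (nat_lit 78) (nat_lit 380) (nat_lit 0) (XT.lf (nat_lit 0) (nat_lit 6863703188) (nat_lit 456) (nat_lit 2608317693) (nat_lit 76) (nat_lit 657610588) (nat_lit 124) (nat_lit 5) (nat_lit 130) (nat_lit 5) (nat_lit 125) (nat_lit 4) (nat_lit 463) (nat_lit 349) (nat_lit 328)) (XT.lf (nat_lit 0) (nat_lit 711721055) (nat_lit 380) (nat_lit 5209435794) (nat_lit 76) (nat_lit 4311922214) (nat_lit 119) (nat_lit 5) (nat_lit 124) (nat_lit 5) (nat_lit 120) (nat_lit 5) (nat_lit 464) (nat_lit 349) (nat_lit 327)))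 (XT.nd (nat_lit 78) (nat_lit 380) (nat_lit 0) (XT.lf (nat_lit 0) (nat_lit 2428999837) (nat_lit 380) (nat_lit 2274530804) (nat_lit 456) (nat_lit 5635077302) (nat_lit 114) (nat_lit 5) (nat_lit 119) (nat_lit 5) (nat_lit 120) (nat_lit 5) (nat_lit 465) (nat_lit 349) (nat_lit 326)) (XT.nd (nat_lit 78) (nat_lit 380) (nat_lit 0) (XT.lf (nat_lit 0) (nat_lit 8764974591) (nat_lit 456) (nat_lit 251138845) (nat_lit 76) (nat_lit 1430348638) (nat_lit 114) (nat_lit 5) (nat_lit 120) (nat_lit 5) (nat_lit 115) (nat_lit 4) (nat_lit 466) (nat_lit 349) (nat_lit 325)) (XT.lf (nat_lit 0) (nat_lit 2330841770) (nat_lit 380) (nat_lit 3012123183) (nat_lit 76) (nat_lit 5213003178) (nat_lit 109) (nat_lit 5) (nat_lit 114) (nat_lit 5) (nat_lit 110) (nat_lit 5) (nat_lit 467) (nat_lit 349) (nat_lit 324))))) (XT.nd (nat_lit 234) (nat_lit 988) (nat_lit 0) (XT.nd (nat_lit 78) (nat_lit 380) (nat_lit 0) (XT.lf (nat_lit 0) (nat_lit 4797012383) (nat_lit 304)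 (nat_lit 1583195190) (nat_lit 380) (nat_lit 4287658365) (nat_lit 105) (nat_lit 5) (nat_lit 109) (nat_lit 5) (nat_lit 110) (nat_lit 5) (nat_lit 468) (nat_lit 349) (nat_lit 323)) (XT.nd (nat_lit 78) (nat_lit 76) (nat_lit 0) (XT.lf (nat_lit 0) (nat_lit 1946780683) (nat_lit 304) (nat_lit 8558123629) (nat_lit 380) (nat_lit 277220345) (nat_lit 101) (nat_lit 5) (nat_lit 105) (nat_lit 5) (nat_lit 106) (nat_lit 4) (nat_lit 469) (nat_lit 349) (nat_lit 322)) (XT.lf (nat_lit 0) (nat_lit 3760425395) (nat_lit 380) (nat_lit 1018750777) (nat_lit 76) (nat_lit 6119066385) (nat_lit 100) (nat_lit 5) (nat_lit 105) (nat_lit 5) (nat_lit 101) (nat_lit 5) (nat_lit 470) (nat_lit 349) (nat_lit 321)))) (XT.nd (nat_lit 78) (nat_lit 684) (nat_lit 0) (XT.lf (nat_lit 0) (nat_lit 6959581418) (nat_lit 304) (nat_lit 908632670) (nat_lit 380) (nat_lit 3148579297) (nat_lit 96) (nat_lit 5) (nat_lit 100) (nat_lit 5) (nat_lit 101) (nat_lit 5) (nat_lit 471)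 (nat_lit 349) (nat_lit 320)) (XT.nd (nat_lit 78) (nat_lit 304) (nat_lit 0) (XT.lf (nat_lit 0) (nat_lit 908621938) (nat_lit 380) (nat_lit 7222653717) (nat_lit 76) (nat_lit 3006323944) (nat_lit 91) (nat_lit 5) (nat_lit 96) (nat_lit 5) (nat_lit 92) (nat_lit 5) (nat_lit 472) (nat_lit 349) (nat_lit 319)) (XT.lf (nat_lit 0) (nat_lit 739459352) (nat_lit 304) (nat_lit 4251920676) (nat_lit 380) (nat_lit 6269302949) (nat_lit 87) (nat_lit 5) (nat_lit 91) (nat_lit 5) (nat_lit 92) (nat_lit 5) (nat_lit 473) (nat_lit 349) (nat_lit 318))))))) (XT.nd (nat_lit 858) (nat_lit 1596) (nat_lit 0) (XT.nd (nat_lit 390) (nat_lit 1064) (nat_lit 0) (XT.nd (nat_lit 156) (nat_lit 608) (nat_lit 0) (XT.nd (nat_lit 78) (nat_lit 304) (nat_lit 0) (XT.lf (nat_lit 0) (nat_lit 8874819705) (nat_lit 304) (nat_lit 278218285) (nat_lit 380) (nat_lit 2233253693) (nat_lit 87) (nat_lit 5) (nat_lit 91) (nat_lit 5) (nat_lit 92) (nat_lit 5) (nat_lit 474) (nat_lit 349)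 (nat_lit 317)) (XT.lf (nat_lit 0) (nat_lit 1869477748) (nat_lit 304) (nat_lit 5901833944) (nat_lit 76) (nat_lit 3742651238) (nat_lit 83) (nat_lit 5) (nat_lit 87) (nat_lit 5) (nat_lit 84) (nat_lit 5) (nat_lit 475) (nat_lit 349) (nat_lit 316))) (XT.nd (nat_lit 78) (nat_lit 304) (nat_lit 0) (XT.lf (nat_lit 0) (nat_lit 2217544861) (nat_lit 304) (nat_lit 3789736070) (nat_lit 380) (nat_lit 5636961088) (nat_lit 79) (nat_lit 5) (nat_lit 83) (nat_lit 5) (nat_lit 84) (nat_lit 5) (nat_lit 476) (nat_lit 349) (nat_lit 315)) (XT.nd (nat_lit 78) (nat_lit 304) (nat_lit 0) (XT.lf (nat_lit 0) (nat_lit 10219393806) (nat_lit 380) (nat_lit 1282482190) (nat_lit 76) (nat_lit 275427523) (nat_lit 79) (nat_lit 5) (nat_lit 84) (nat_lit 5) (nat_lit 80) (nat_lit 4) (nat_lit 477) (nat_lit 349) (nat_lit 314)) (XT.lf (nat_lit 0) (nat_lit 2590237498) (nat_lit 304) (nat_lit 4919991298) (nat_lit 76) (nat_lit 4402034082) (nat_lit 75) (nat_lit 5) (nat_lit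 79) (nat_lit 5) (nat_lit 76) (nat_lit 5) (nat_lit 478) (nat_lit 349) (nat_lit 313))))) (XT.nd (nat_lit 234) (nat_lit 532) (nat_lit 0) (XT.nd (nat_lit 78) (nat_lit 304) (nat_lit 0) (XT.lf (nat_lit 0) (nat_lit 3351821735) (nat_lit 228) (nat_lit 3430121907) (nat_lit 304) (nat_lit 5268150144) (nat_lit 72) (nat_lit 5) (nat_lit 75) (nat_lit 5) (nat_lit 76) (nat_lit 5) (nat_lit 479) (nat_lit 349) (nat_lit 312)) (XT.nd (nat_lit 78) (nat_lit 304) (nat_lit 0) (XT.lf (nat_lit 0) (nat_lit 11046698830) (nat_lit 304) (nat_lit 421372401) (nat_lit 76) (nat_lit 722833085) (nat_lit 72) (nat_lit 5) (nat_lit 76) (nat_lit 5) (nat_lit 73) (nat_lit 4) (nat_lit 480) (nat_lit 349) (nat_lit 311)) (XT.lf (nat_lit 0) (nat_lit 3049222002) (nat_lit 304) (nat_lit 4331021139) (nat_lit 76) (nat_lit 4953353986) (nat_lit 68) (nat_lit 5) (nat_lit 72) (nat_lit 5) (nat_lit 69) (nat_lit 5) (nat_lit 481) (nat_lit 349) (nat_lit 310)))) (XT.nd (nat_lit 78) (nat_lit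 304) (nat_lit 0) (XT.lf (nat_lit 0) (nat_lit 4086987164) (nat_lit 228) (nat_lit 3205890196) (nat_lit 304) (nat_lit 5186488445) (nat_lit 65) (nat_lit 5) (nat_lit 68) (nat_lit 5) (nat_lit 69) (nat_lit 5) (nat_lit 482) (nat_lit 349) (nat_lit 309)) (XT.nd (nat_lit 78) (nat_lit 76) (nat_lit 0) (XT.lf (nat_lit 0) (nat_lit 16939702) (nat_lit 228) (nat_lit 11593148474) (nat_lit 304) (nat_lit 1018194781) (nat_lit 62) (nat_lit 5) (nat_lit 65) (nat_lit 5) (nat_lit 66) (nat_lit 4) (nat_lit 483) (nat_lit 349) (nat_lit 308)) (XT.lf (nat_lit 0) (nat_lit 3221556747) (nat_lit 304) (nat_lit 4194404575) (nat_lit 76) (nat_lit 5363193747) (nat_lit 61) (nat_lit 5) (nat_lit 65) (nat_lit 5) (nat_lit 62) (nat_lit 5) (nat_lit 484) (nat_lit 349) (nat_lit 307)))))) (XT.nd (nat_lit 390) (nat_lit 912) (nat_lit 0) (XT.nd (nat_lit 156) (nat_lit 456) (nat_lit 0) (XT.nd (nat_lit 78) (nat_lit 0) (nat_lit 0) (XT.lf (nat_lit 0) (nat_lit 4361965312) (nat_lit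 228) (nat_lit 3152345884) (nat_lit 304) (nat_lit 5418968351) (nat_lit 58) (nat_lit 5) (nat_lit 61) (nat_lit 5) (nat_lit 62) (nat_lit 5) (nat_lit 485) (nat_lit 349) (nat_lit 306)) (XT.lf (nat_lit 0) (nat_lit 11882717516) (nat_lit 304) (nat_lit 31125587) (nat_lit 76) (nat_lit 1176853705) (nat_lit 58) (nat_lit 5) (nat_lit 62) (nat_lit 5) (nat_lit 59) (nat_lit 4) (nat_lit 486) (nat_lit 349) (nat_lit 305))) (XT.nd (nat_lit 78) (nat_lit 228) (nat_lit 0) (XT.lf (nat_lit 0) (nat_lit 3078878649) (nat_lit 228) (nat_lit 4575864107) (nat_lit 76) (nat_lit 5595481991) (nat_lit 55) (nat_lit 5) (nat_lit 58) (nat_lit 5) (nat_lit 56) (nat_lit 5) (nat_lit 487) (nat_lit 349) (nat_lit 304)) (XT.nd (nat_lit 78) (nat_lit 0) (nat_lit 0) (XT.lf (nat_lit 0) (nat_lit 4109231015) (nat_lit 228) (nat_lit 3307659049) (nat_lit 304) (nat_lit 5996267534) (nat_lit 52) (nat_lit 5) (nat_lit 55) (nat_lit 5) (nat_lit 56) (nat_lit 5) (nat_lit 488) (nat_lit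 349) (nat_lit 303)) (XT.lf (nat_lit 0) (nat_lit 11834743301) (nat_lit 304) (nat_lit 634475341) (nat_lit 76) (nat_lit 1110274590) (nat_lit 52) (nat_lit 5) (nat_lit 56) (nat_lit 5) (nat_lit 53) (nat_lit 4) (nat_lit 489) (nat_lit 349) (nat_lit 302))))) (XT.nd (nat_lit 234) (nat_lit 456) (nat_lit 0) (XT.nd (nat_lit 78) (nat_lit 228) (nat_lit 0) (XT.lf (nat_lit 0) (nat_lit 2589008078) (nat_lit 228) (nat_lit 5548084466) (nat_lit 76) (nat_lit 5611107975) (nat_lit 49) (nat_lit 5) (nat_lit 52) (nat_lit 5) (nat_lit 50) (nat_lit 5) (nat_lit 490) (nat_lit 349) (nat_lit 301)) (XT.nd (nat_lit 78) (nat_lit 0) (nat_lit 0) (XT.lf (nat_lit 0) (nat_lit 3254066040) (nat_lit 228) (nat_lit 3713268741) (nat_lit 304) (nat_lit 6953096826) (nat_lit 46) (nat_lit 5) (nat_lit 49) (nat_lit 5) (nat_lit 50) (nat_lit 5) (nat_lit 491) (nat_lit 349) (nat_lit 300)) (XT.lf (nat_lit 0) (nat_lit 11431873051) (nat_lit 304) (nat_lit 1870328451) (nat_lit 76)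 (nat_lit 793938234) (nat_lit 46) (nat_lit 5) (nat_lit 50) (nat_lit 5) (nat_lit 47) (nat_lit 4) (nat_lit 492) (nat_lit 349) (nat_lit 299)))) (XT.nd (nat_lit 78) (nat_lit 228) (nat_lit 0) (XT.lf (nat_lit 0) (nat_lit 1715582814) (nat_lit 228) (nat_lit 7191505777) (nat_lit 76) (nat_lit 5367502971) (nat_lit 43) (nat_lit 5) (nat_lit 46) (nat_lit 5) (nat_lit 44) (nat_lit 5) (nat_lit 493) (nat_lit 349) (nat_lit 298)) (XT.nd (nat_lit 78) (nat_lit 0) (nat_lit 0) (XT.lf (nat_lit 0) (nat_lit 1713740556) (nat_lit 228) (nat_lit 4414322362) (nat_lit 304) (nat_lit 8328588141) (nat_lit 40) (nat_lit 5) (nat_lit 43) (nat_lit 5) (nat_lit 44) (nat_lit 5) (nat_lit 494) (nat_lit 349) (nat_lit 297)) (XT.lf (nat_lit 0) (nat_lit 10635525196) (nat_lit 304) (nat_lit 3823944528) (nat_lit 76) (nat_lit 182752284) (nat_lit 40) (nat_lit 5) (nat_lit 44) (nat_lit 5) (nat_lit 41) (nat_lit 4) (nat_lit 495) (nat_lit 349) (nat_lit 296))))))))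
noncomputable def xc26 : XT := (XT.nd (nat_lit 55770) (nat_lit 0) (nat_lit 5624) (XT.nd (nat_lit 858) (nat_lit 76) (nat_lit 0) (XT.nd (nat_lit 390) (nat_lit 684) (nat_lit 0) (XT.nd (nat_lit 156) (nat_lit 380) (nat_lit 0) (XT.nd (nat_lit 78) (nat_lit 0) (nat_lit 0) (XT.lf (nat_lit 0) (nat_lit 417650210) (nat_lit 228) (nat_lit 9595196898) (nat_lit 76) (nat_lit 4818184131) (nat_lit 37) (nat_lit 5) (nat_lit 40) (nat_lit 5) (nat_lit 38) (nat_lit 5) (nat_lit 496) (nat_lit 349) (nat_lit 295)) (XT.lf (nat_lit 0) (nat_lit 4860684139) (nat_lit 228) (nat_lit 595474756) (nat_lit 76) (nat_lit 9567255712) (nat_lit 37) (nat_lit 5) (nat_lit 40) (nat_lit 5) (nat_lit 38) (nat_lit 5) (nat_lit 497) (nat_lit 349) (nat_lit 294))) (XT.nd (nat_lit 78) (nat_lit 228) (nat_lit 0) (XT.lf (nat_lit 0) (nat_lit 8624500443) (nat_lit 152) (nat_lit 782867286) (nat_lit 228) (nat_lit 5811986674) (nat_lit 35) (nat_lit 5) (nat_lit 37) (nat_lit 5) (nat_lit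 38) (nat_lit 5) (nat_lit 498) (nat_lit 349) (nat_lit 293)) (XT.nd (nat_lit 78) (nat_lit 76) (nat_lit 0) (XT.lf (nat_lit 0) (nat_lit 2552405383) (nat_lit 152) (nat_lit 11497966522) (nat_lit 228) (nat_lit 1368737802) (nat_lit 33) (nat_lit 5) (nat_lit 35) (nat_lit 5) (nat_lit 36) (nat_lit 4) (nat_lit 499) (nat_lit 349) (nat_lit 292)) (XT.lf (nat_lit 0) (nat_lit 3130607379) (nat_lit 228) (nat_lit 3749046842) (nat_lit 76) (nat_lit 8742625008) (nat_lit 32) (nat_lit 5) (nat_lit 35) (nat_lit 5) (nat_lit 33) (nat_lit 5) (nat_lit 500) (nat_lit 349) (nat_lit 291))))) (XT.nd (nat_lit 234) (nat_lit 304) (nat_lit 0) (XT.nd (nat_lit 78) (nat_lit 228) (nat_lit 0) (XT.lf (nat_lit 0) (nat_lit 5542968533) (nat_lit 152) (nat_lit 2154440475) (nat_lit 228) (nat_lit 8132010441) (nat_lit 30) (nat_lit 5) (nat_lit 32) (nat_lit 5) (nat_lit 33) (nat_lit 5) (nat_lit 501) (nat_lit 349) (nat_lit 290)) (XT.nd (nat_lit 78) (nat_lit 228) (nat_lit 0)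 (XT.lf (nat_lit 0) (nat_lit 12358090651) (nat_lit 228) (nat_lit 1057782408) (nat_lit 76) (nat_lit 2624782647) (nat_lit 30) (nat_lit 5) (nat_lit 33) (nat_lit 5) (nat_lit 31) (nat_lit 4) (nat_lit 502) (nat_lit 349) (nat_lit 289)) (XT.lf (nat_lit 0) (nat_lit 874216754) (nat_lit 228) (nat_lit 7880526005) (nat_lit 76) (nat_lit 7500675297) (nat_lit 27) (nat_lit 5) (nat_lit 30) (nat_lit 5) (nat_lit 28) (nat_lit 5) (nat_lit 503) (nat_lit 349) (nat_lit 288)))) (XT.nd (nat_lit 78) (nat_lit 152) (nat_lit 0) (XT.lf (nat_lit 0) (nat_lit 1460534245) (nat_lit 152) (nat_lit 3989719849) (nat_lit 228) (nat_lit 11024190008) (nat_lit 25) (nat_lit 5) (nat_lit 27) (nat_lit 5) (nat_lit 28) (nat_lit 5) (nat_lit 504) (nat_lit 349) (nat_lit 287)) (XT.nd (nat_lit 78) (nat_lit 152) (nat_lit 0) (XT.lf (nat_lit 0) (nat_lit 10137566678) (nat_lit 228) (nat_lit 5678086132) (nat_lit 76) (nat_lit 881806568) (nat_lit 25) (nat_lit 5) (nat_lit 28) (nat_lit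 5) (nat_lit 26) (nat_lit 4) (nat_lit 505) (nat_lit 349) (nat_lit 286)) (XT.lf (nat_lit 0) (nat_lit 3798707058) (nat_lit 152) (nat_lit 11132640706) (nat_lit 228) (nat_lit 1993336475) (nat_lit 23) (nat_lit 5) (nat_lit 25) (nat_lit 5) (nat_lit 26) (nat_lit 4) (nat_lit 506) (nat_lit 349) (nat_lit 285)))))) (XT.nd (nat_lit 54444) (nat_lit 0) (nat_lit 12692) (XT.nd (nat_lit 54210) (nat_lit 0) (nat_lit 14896) (XT.nd (nat_lit 54132) (nat_lit 0) (nat_lit 16720) (XT.lf (nat_lit 0) (nat_lit 2629647233) (nat_lit 228) (nat_lit 3700443424) (nat_lit 76) (nat_lit 10826019671) (nat_lit 22) (nat_lit 5) (nat_lit 25) (nat_lit 5) (nat_lit 23) (nat_lit 5) (nat_lit 507) (nat_lit 349) (nat_lit 284)) (XT.lf (nat_lit 0) (nat_lit 3523511523) (nat_lit 608) (nat_lit 302281452) (nat_lit 608) (nat_lit 302281452) (nat_lit 242) (nat_lit 4) (nat_lit 250) (nat_lit 5) (nat_lit 250) (nat_lit 4) (nat_lit 440) (nat_lit 350) (nat_lit 350))) (XT.nd (nat_lit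 78) (nat_lit 1216) (nat_lit 0) (XT.lf (nat_lit 0) (nat_lit 3246761621) (nat_lit 608) (nat_lit 2960596758) (nat_lit 0) (nat_lit 2112171915) (nat_lit 234) (nat_lit 5) (nat_lit 242) (nat_lit 4) (nat_lit 234) (nat_lit 4) (nat_lit 441) (nat_lit 350) (nat_lit 349)) (XT.nd (nat_lit 78) (nat_lit 608) (nat_lit 0) (XT.lf (nat_lit 0) (nat_lit 3643120146) (nat_lit 608) (nat_lit 3494262496) (nat_lit 608) (nat_lit 1247329941) (nat_lit 226) (nat_lit 4) (nat_lit 234) (nat_lit 5) (nat_lit 234) (nat_lit 4) (nat_lit 442) (nat_lit 350) (nat_lit 348)) (XT.lf (nat_lit 0) (nat_lit 1887998818) (nat_lit 532) (nat_lit 698864338) (nat_lit 608) (nat_lit 5864669078) (nat_lit 218) (nat_lit 5) (nat_lit 225) (nat_lit 5) (nat_lit 226) (nat_lit 4) (nat_lit 443) (nat_lit 350) (nat_lit 347))))) (XT.nd (nat_lit 234) (nat_lit 1064) (nat_lit 0) (XT.nd (nat_lit 78) (nat_lit 608) (nat_lit 0) (XT.lf (nat_lit 0) (nat_lit 85860177) (nat_lit 532) (nat_lit 6377126644)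 (nat_lit 532) (nat_lit 2056916860) (nat_lit 211) (nat_lit 4) (nat_lit 218) (nat_lit 5) (nat_lit 218) (nat_lit 4) (nat_lit 444) (nat_lit 350) (nat_lit 346)) (XT.nd (nat_lit 78) (nat_lit 532) (nat_lit 0) (XT.lf (nat_lit 0) (nat_lit 1787620958) (nat_lit 608) (nat_lit 1736848300) (nat_lit 76) (nat_lit 5065262740) (nat_lit 210) (nat_lit 5) (nat_lit 218) (nat_lit 5) (nat_lit 211) (nat_lit 4) (nat_lit 445) (nat_lit 350) (nat_lit 345)) (XT.lf (nat_lit 0) (nat_lit 5060253859) (nat_lit 532) (nat_lit 591023212) (nat_lit 608) (nat_lit 3010030651) (nat_lit 203) (nat_lit 5) (nat_lit 210) (nat_lit 5) (nat_lit 211) (nat_lit 4) (nat_lit 446) (nat_lit 350) (nat_lit 344)))) (XT.nd (nat_lit 78) (nat_lit 456) (nat_lit 0) (XT.lf (nat_lit 0) (nat_lit 832181487) (nat_lit 608) (nat_lit 5518066378) (nat_lit 76) (nat_lit 2384262316) (nat_lit 195) (nat_lit 5) (nat_lit 203) (nat_lit 5) (nat_lit 196) (nat_lit 4) (nat_lit 447) (nat_lit 350) (nat_lit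 343)) (XT.nd (nat_lit 78) (nat_lit 0) (nat_lit 0) (XT.lf (nat_lit 0) (nat_lit 1316070190) (nat_lit 456) (nat_lit 3369334306) (nat_lit 532) (nat_lit 4123901958) (nat_lit 189) (nat_lit 5) (nat_lit 195) (nat_lit 5) (nat_lit 196) (nat_lit 4) (nat_lit 448) (nat_lit 350) (nat_lit 342)) (XT.lf (nat_lit 0) (nat_lit 8274671105) (nat_lit 456) (nat_lit 316356981) (nat_lit 532) (nat_lit 295080619) (nat_lit 189) (nat_lit 5) (nat_lit 195) (nat_lit 5) (nat_lit 196) (nat_lit 4) (nat_lit 449) (nat_lit 350) (nat_lit 341))))))) (XT.nd (nat_lit 858) (nat_lit 2964) (nat_lit 0) (XT.nd (nat_lit 390) (nat_lit 2128) (nat_lit 0) (XT.nd (nat_lit 156) (nat_lit 988) (nat_lit 0) (XT.nd (nat_lit 78) (nat_lit 456) (nat_lit 0) (XT.lf (nat_lit 0) (nat_lit 3561934231) (nat_lit 532) (nat_lit 2600691084) (nat_lit 76) (nat_lit 2801389657) (nat_lit 182) (nat_lit 5) (nat_lit 189) (nat_lit 5) (nat_lit 183) (nat_lit 4) (nat_lit 450) (nat_lit 350) (nat_lit 340))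 (XT.lf (nat_lit 0) (nat_lit 4409601293) (nat_lit 456) (nat_lit 3056970127) (nat_lit 532) (nat_lit 1577396077) (nat_lit 176) (nat_lit 5) (nat_lit 182) (nat_lit 5) (nat_lit 183) (nat_lit 4) (nat_lit 451) (nat_lit 350) (nat_lit 339))) (XT.nd (nat_lit 78) (nat_lit 456) (nat_lit 0) (XT.lf (nat_lit 0) (nat_lit 2267107272) (nat_lit 532) (nat_lit 6727061129) (nat_lit 76) (nat_lit 131588077) (nat_lit 169) (nat_lit 5) (nat_lit 176) (nat_lit 5) (nat_lit 170) (nat_lit 4) (nat_lit 452) (nat_lit 350) (nat_lit 338)) (XT.nd (nat_lit 78) (nat_lit 76) (nat_lit 0) (XT.lf (nat_lit 0) (nat_lit 312547200) (nat_lit 380) (nat_lit 5848666731) (nat_lit 456) (nat_lit 3047896981) (nat_lit 164) (nat_lit 5) (nat_lit 169) (nat_lit 5) (nat_lit 170) (nat_lit 4) (nat_lit 453) (nat_lit 350) (nat_lit 337)) (XT.lf (nat_lit 0) (nat_lit 813944927) (nat_lit 456) (nat_lit 1802406587) (nat_lit 76) (nat_lit 6677968697) (nat_lit 163) (nat_lit 5) (nat_lit 169)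 (nat_lit 5) (nat_lit 164) (nat_lit 5) (nat_lit 454) (nat_lit 350) (nat_lit 336))))) (XT.nd (nat_lit 234) (nat_lit 836) (nat_lit 0) (XT.nd (nat_lit 78) (nat_lit 836) (nat_lit 0) (XT.lf (nat_lit 0) (nat_lit 4693513005) (nat_lit 532) (nat_lit 3987515546) (nat_lit 76) (nat_lit 700190235) (nat_lit 157) (nat_lit 5) (nat_lit 164) (nat_lit 5) (nat_lit 158) (nat_lit 4) (nat_lit 455) (nat_lit 350) (nat_lit 335)) (XT.nd (nat_lit 78) (nat_lit 456) (nat_lit 0) (XT.lf (nat_lit 0) (nat_lit 3227197613) (nat_lit 380) (nat_lit 5415948811) (nat_lit 456) (nat_lit 826873191) (nat_lit 152) (nat_lit 5) (nat_lit 157) (nat_lit 5) (nat_lit 158) (nat_lit 4) (nat_lit 456) (nat_lit 350) (nat_lit 334)) (XT.lf (nat_lit 0) (nat_lit 986265238) (nat_lit 380) (nat_lit 2059652014) (nat_lit 456) (nat_lit 6514777540) (nat_lit 146) (nat_lit 5) (nat_lit 151) (nat_lit 5) (nat_lit 152) (nat_lit 5) (nat_lit 457) (nat_lit 350) (nat_lit 333)))) (XT.nd (nat_lit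 78) (nat_lit 836) (nat_lit 0) (XT.lf (nat_lit 0) (nat_lit 6978721425) (nat_lit 456) (nat_lit 1309286567) (nat_lit 76) (nat_lit 1365206540) (nat_lit 146) (nat_lit 5) (nat_lit 152) (nat_lit 5) (nat_lit 147) (nat_lit 4) (nat_lit 458) (nat_lit 350) (nat_lit 332)) (XT.nd (nat_lit 78) (nat_lit 380) (nat_lit 0) (XT.lf (nat_lit 0) (nat_lit 1223116262) (nat_lit 456) (nat_lit 3673606781) (nat_lit 76) (nat_lit 4850776411) (nat_lit 140) (nat_lit 5) (nat_lit 146) (nat_lit 5) (nat_lit 141) (nat_lit 5) (nat_lit 459) (nat_lit 350) (nat_lit 331)) (XT.lf (nat_lit 0) (nat_lit 3724684695) (nat_lit 380) (nat_lit 1415135611) (nat_lit 456) (nat_lit 4703969341) (nat_lit 135) (nat_lit 5) (nat_lit 140) (nat_lit 5) (nat_lit 141) (nat_lit 5) (nat_lit 460) (nat_lit 350) (nat_lit 330)))))) (XT.nd (nat_lit 390) (nat_lit 1368) (nat_lit 0) (XT.nd (nat_lit 156) (nat_lit 1140) (nat_lit 0) (XT.nd (nat_lit 78) (nat_lit 76) (nat_lit 0) (XT.lf (nat_lit 0)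 (nat_lit 1296441629) (nat_lit 380) (nat_lit 7829770691) (nat_lit 456) (nat_lit 815978224) (nat_lit 130) (nat_lit 5) (nat_lit 135) (nat_lit 5) (nat_lit 136) (nat_lit 4) (nat_lit 461) (nat_lit 350) (nat_lit 329)) (XT.lf (nat_lit 0) (nat_lit 3103584322) (nat_lit 456) (nat_lit 1214528532) (nat_lit 76) (nat_lit 5724146682) (nat_lit 129) (nat_lit 5) (nat_lit 135) (nat_lit 5) (nat_lit 130) (nat_lit 5) (nat_lit 462) (nat_lit 350) (nat_lit 328))) (XT.nd (nat_lit 78) (nat_lit 760) (nat_lit 0) (XT.lf (nat_lit 0) (nat_lit 6359056288) (nat_lit 380) (nat_lit 718358536) (nat_lit 456) (nat_lit 3067082448) (nat_lit 124) (nat_lit 5) (nat_lit 129) (nat_lit 5) (nat_lit 130) (nat_lit 5) (nat_lit 463) (nat_lit 350) (nat_lit 327)) (XT.nd (nat_lit 78) (nat_lit 380) (nat_lit 0) (XT.lf (nat_lit 0) (nat_lit 868225839) (nat_lit 380) (nat_lit 6456604109) (nat_lit 76) (nat_lit 2923889132) (nat_lit 119) (nat_lit 5) (nat_lit 124) (nat_lit 5) (nat_lit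 120) (nat_lit 5) (nat_lit 464) (nat_lit 350) (nat_lit 326)) (XT.lf (nat_lit 0) (nat_lit 1122733632) (nat_lit 380) (nat_lit 3702081851) (nat_lit 456) (nat_lit 5530142142) (nat_lit 114) (nat_lit 5) (nat_lit 119) (nat_lit 5) (nat_lit 120) (nat_lit 5) (nat_lit 465) (nat_lit 350) (nat_lit 325))))) (XT.nd (nat_lit 234) (nat_lit 684) (nat_lit 0) (XT.nd (nat_lit 78) (nat_lit 684) (nat_lit 0) (XT.lf (nat_lit 0) (nat_lit 8850406922) (nat_lit 456) (nat_lit 1606612153) (nat_lit 76) (nat_lit 6514894) (nat_lit 114) (nat_lit 5) (nat_lit 120) (nat_lit 5) (nat_lit 115) (nat_lit 4) (nat_lit 466) (nat_lit 350) (nat_lit 324)) (XT.nd (nat_lit 78) (nat_lit 304) (nat_lit 0) (XT.lf (nat_lit 0) (nat_lit 2362815246) (nat_lit 380) (nat_lit 4445451250) (nat_lit 76) (nat_lit 3765479424) (nat_lit 109) (nat_lit 5) (nat_lit 114) (nat_lit 5) (nat_lit 110) (nat_lit 5) (nat_lit 467) (nat_lit 350) (nat_lit 323)) (XT.lf (nat_lit 0) (nat_lit 3302707612)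 (nat_lit 304) (nat_lit 3073777542) (nat_lit 380) (nat_lit 4309877357) (nat_lit 105) (nat_lit 5) (nat_lit 109) (nat_lit 5) (nat_lit 110) (nat_lit 5) (nat_lit 468) (nat_lit 350) (nat_lit 322)))) (XT.nd (nat_lit 78) (nat_lit 380) (nat_lit 0) (XT.lf (nat_lit 0) (nat_lit 381603109) (nat_lit 304) (nat_lit 10073887983) (nat_lit 380) (nat_lit 346048723) (nat_lit 101) (nat_lit 5) (nat_lit 105) (nat_lit 5) (nat_lit 106) (nat_lit 4) (nat_lit 469) (nat_lit 350) (nat_lit 321)) (XT.nd (nat_lit 78) (nat_lit 304) (nat_lit 0) (XT.lf (nat_lit 0) (nat_lit 3666713738) (nat_lit 380) (nat_lit 2644497190) (nat_lit 76) (nat_lit 4606976028) (nat_lit 100) (nat_lit 5) (nat_lit 105) (nat_lit 5) (nat_lit 101) (nat_lit 5) (nat_lit 470) (nat_lit 350) (nat_lit 320)) (XT.lf (nat_lit 0) (nat_lit 5270902818) (nat_lit 304) (nat_lit 2467355223) (nat_lit 380) (nat_lit 3299209125) (nat_lit 96) (nat_lit 5) (nat_lit 100) (nat_lit 5) (nat_lit 101) (nat_lit 5)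 (nat_lit 471) (nat_lit 350) (nat_lit 319))))))))
noncomputable def xc27 : XT := (XT.nd (nat_lit 1716) (nat_lit 1596) (nat_lit 0) (XT.nd (nat_lit 858) (nat_lit 1672) (nat_lit 0) (XT.nd (nat_lit 390) (nat_lit 1064) (nat_lit 0) (XT.nd (nat_lit 156) (nat_lit 912) (nat_lit 0) (XT.nd (nat_lit 78) (nat_lit 0) (nat_lit 0) (XT.lf (nat_lit 0) (nat_lit 712937107) (nat_lit 380) (nat_lit 9006258156) (nat_lit 76) (nat_lit 1440042608) (nat_lit 91) (nat_lit 5) (nat_lit 96) (nat_lit 5) (nat_lit 92) (nat_lit 5) (nat_lit 472) (nat_lit 350) (nat_lit 318)) (XT.lf (nat_lit 0) (nat_lit 4765805838) (nat_lit 380) (nat_lit 1094833123) (nat_lit 76) (nat_lit 5422284310) (nat_lit 91) (nat_lit 5) (nat_lit 96) (nat_lit 5) (nat_lit 92) (nat_lit 5) (nat_lit 473) (nat_lit 350) (nat_lit 317))) (XT.nd (nat_lit 78) (nat_lit 608) (nat_lit 0) (XT.lf (nat_lit 0) (nat_lit 6985257249) (nat_lit 304) (nat_lit 1910142948) (nat_lit 380) (nat_lit 2513777206) (nat_lit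 87) (nat_lit 5) (nat_lit 91) (nat_lit 5) (nat_lit 92) (nat_lit 5) (nat_lit 474) (nat_lit 350) (nat_lit 316)) (XT.nd (nat_lit 78) (nat_lit 304) (nat_lit 0) (XT.lf (nat_lit 0) (nat_lit 1544465287) (nat_lit 304) (nat_lit 7891517800) (nat_lit 76) (nat_lit 2101869340) (nat_lit 83) (nat_lit 5) (nat_lit 87) (nat_lit 5) (nat_lit 84) (nat_lit 5) (nat_lit 475) (nat_lit 350) (nat_lit 315)) (XT.lf (nat_lit 0) (nat_lit 160506994) (nat_lit 304) (nat_lit 5483986893) (nat_lit 380) (nat_lit 6024397034) (nat_lit 79) (nat_lit 5) (nat_lit 83) (nat_lit 5) (nat_lit 84) (nat_lit 5) (nat_lit 476) (nat_lit 350) (nat_lit 314))))) (XT.nd (nat_lit 234) (nat_lit 532) (nat_lit 0) (XT.nd (nat_lit 78) (nat_lit 532) (nat_lit 0) (XT.lf (nat_lit 0) (nat_lit 8399521768) (nat_lit 304) (nat_lit 1431072425) (nat_lit 380) (nat_lit 1971882318) (nat_lit 79) (nat_lit 5) (nat_lit 83) (nat_lit 5) (nat_lit 84) (nat_lit 5) (nat_lit 477) (nat_lit 350) (nat_lit 313))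 (XT.nd (nat_lit 78) (nat_lit 228) (nat_lit 0) (XT.lf (nat_lit 0) (nat_lit 2134108162) (nat_lit 304) (nat_lit 7122578252) (nat_lit 76) (nat_lit 2681758617) (nat_lit 75) (nat_lit 5) (nat_lit 79) (nat_lit 5) (nat_lit 76) (nat_lit 5) (nat_lit 478) (nat_lit 350) (nat_lit 312)) (XT.lf (nat_lit 0) (nat_lit 1079676282) (nat_lit 228) (nat_lit 5207609552) (nat_lit 304) (nat_lit 5789764290) (nat_lit 72) (nat_lit 5) (nat_lit 75) (nat_lit 5) (nat_lit 76) (nat_lit 5) (nat_lit 479) (nat_lit 350) (nat_lit 311)))) (XT.nd (nat_lit 78) (nat_lit 532) (nat_lit 0) (XT.lf (nat_lit 0) (nat_lit 9462739722) (nat_lit 228) (nat_lit 1060979379) (nat_lit 304) (nat_lit 1694711535) (nat_lit 72) (nat_lit 5) (nat_lit 75) (nat_lit 5) (nat_lit 76) (nat_lit 5) (nat_lit 480) (nat_lit 350) (nat_lit 310)) (XT.nd (nat_lit 78) (nat_lit 228) (nat_lit 0) (XT.lf (nat_lit 0) (nat_lit 2459966572) (nat_lit 304) (nat_lit 6753554250) (nat_lit 76) (nat_lit 3148596904)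 (nat_lit 68) (nat_lit 5) (nat_lit 72) (nat_lit 5) (nat_lit 69) (nat_lit 5) (nat_lit 481) (nat_lit 350) (nat_lit 309)) (XT.lf (nat_lit 0) (nat_lit 1592598717) (nat_lit 228) (nat_lit 5071669437) (nat_lit 304) (nat_lit 5844408665) (nat_lit 65) (nat_lit 5) (nat_lit 68) (nat_lit 5) (nat_lit 69) (nat_lit 5) (nat_lit 482) (nat_lit 350) (nat_lit 308)))))) (XT.nd (nat_lit 390) (nat_lit 912) (nat_lit 0) (XT.nd (nat_lit 156) (nat_lit 456) (nat_lit 0) (XT.nd (nat_lit 78) (nat_lit 304) (nat_lit 0) (XT.lf (nat_lit 0) (nat_lit 10118676330) (nat_lit 228) (nat_lit 832926366) (nat_lit 304) (nat_lit 1706592075) (nat_lit 65) (nat_lit 5) (nat_lit 68) (nat_lit 5) (nat_lit 69) (nat_lit 5) (nat_lit 483) (nat_lit 350) (nat_lit 307)) (XT.lf (nat_lit 0) (nat_lit 2496946153) (nat_lit 304) (nat_lit 6844162781) (nat_lit 76) (nat_lit 3468955323) (nat_lit 61) (nat_lit 5) (nat_lit 65) (nat_lit 5) (nat_lit 62) (nat_lit 5) (nat_lit 484) (nat_lit 350)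 (nat_lit 306))) (XT.nd (nat_lit 78) (nat_lit 228) (nat_lit 0) (XT.lf (nat_lit 0) (nat_lit 1637958400) (nat_lit 228) (nat_lit 5111491593) (nat_lit 304) (nat_lit 6215546838) (nat_lit 58) (nat_lit 5) (nat_lit 61) (nat_lit 5) (nat_lit 62) (nat_lit 5) (nat_lit 485) (nat_lit 350) (nat_lit 305)) (XT.nd (nat_lit 78) (nat_lit 228) (nat_lit 0) (XT.lf (nat_lit 0) (nat_lit 10305192192) (nat_lit 228) (nat_lit 782551084) (nat_lit 304) (nat_lit 2035276103) (nat_lit 58) (nat_lit 5) (nat_lit 61) (nat_lit 5) (nat_lit 62) (nat_lit 5) (nat_lit 486) (nat_lit 350) (nat_lit 304)) (XT.lf (nat_lit 0) (nat_lit 2216463460) (nat_lit 228) (nat_lit 7460378736) (nat_lit 76) (nat_lit 3606734824) (nat_lit 55) (nat_lit 5) (nat_lit 58) (nat_lit 5) (nat_lit 56) (nat_lit 5) (nat_lit 487) (nat_lit 350) (nat_lit 303))))) (XT.nd (nat_lit 234) (nat_lit 456) (nat_lit 0) (XT.nd (nat_lit 78) (nat_lit 228) (nat_lit 0) (XT.lf (nat_lit 0) (nat_lit 1147973464) (nat_lit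 228) (nat_lit 5365282112) (nat_lit 304) (nat_lit 6934081532) (nat_lit 52) (nat_lit 5) (nat_lit 55) (nat_lit 5) (nat_lit 56) (nat_lit 5) (nat_lit 488) (nat_lit 350) (nat_lit 302)) (XT.nd (nat_lit 78) (nat_lit 228) (nat_lit 0) (XT.lf (nat_lit 0) (nat_lit 9953554750) (nat_lit 228) (nat_lit 948443519) (nat_lit 304) (nat_lit 2712259478) (nat_lit 52) (nat_lit 5) (nat_lit 55) (nat_lit 5) (nat_lit 56) (nat_lit 5) (nat_lit 489) (nat_lit 350) (nat_lit 301)) (XT.lf (nat_lit 0) (nat_lit 1586117376) (nat_lit 228) (nat_lit 8675155829) (nat_lit 76) (nat_lit 3522781554) (nat_lit 49) (nat_lit 5) (nat_lit 52) (nat_lit 5) (nat_lit 50) (nat_lit 5) (nat_lit 490) (nat_lit 350) (nat_lit 300)))) (XT.nd (nat_lit 78) (nat_lit 228) (nat_lit 0) (XT.lf (nat_lit 0) (nat_lit 47652261) (nat_lit 228) (nat_lit 5874531450) (nat_lit 304) (nat_lit 8034949977) (nat_lit 46) (nat_lit 5) (nat_lit 49) (nat_lit 5) (nat_lit 50) (nat_lit 5) (nat_lit 491) (nat_lit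 350) (nat_lit 299)) (XT.nd (nat_lit 78) (nat_lit 228) (nat_lit 0) (XT.lf (nat_lit 0) (nat_lit 8987680853) (nat_lit 228) (nat_lit 1372555564) (nat_lit 304) (nat_lit 3773137693) (nat_lit 46) (nat_lit 5) (nat_lit 49) (nat_lit 5) (nat_lit 50) (nat_lit 5) (nat_lit 492) (nat_lit 350) (nat_lit 298)) (XT.lf (nat_lit 0) (nat_lit 569322473) (nat_lit 228) (nat_lit 10569219872) (nat_lit 76) (nat_lit 3174468711) (nat_lit 43) (nat_lit 5) (nat_lit 46) (nat_lit 5) (nat_lit 44) (nat_lit 5) (nat_lit 493) (nat_lit 350) (nat_lit 297))))))) (XT.nd (nat_lit 858) (nat_lit 380) (nat_lit 0) (XT.nd (nat_lit 390) (nat_lit 608) (nat_lit 0) (XT.nd (nat_lit 156) (nat_lit 380) (nat_lit 0) (XT.nd (nat_lit 78) (nat_lit 228) (nat_lit 0) (XT.lf (nat_lit 0) (nat_lit 4949764387) (nat_lit 228) (nat_lit 1723125870) (nat_lit 76) (nat_lit 7822823491) (nat_lit 43) (nat_lit 5) (nat_lit 46) (nat_lit 5) (nat_lit 44) (nat_lit 5) (nat_lit 494) (nat_lit 350) (nat_lit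 296)) (XT.lf (nat_lit 0) (nat_lit 7323302956) (nat_lit 228) (nat_lit 2100647055) (nat_lit 304) (nat_lit 5258002605) (nat_lit 40) (nat_lit 5) (nat_lit 43) (nat_lit 5) (nat_lit 44) (nat_lit 5) (nat_lit 495) (nat_lit 350) (nat_lit 295))) (XT.nd (nat_lit 78) (nat_lit 228) (nat_lit 0) (XT.lf (nat_lit 0) (nat_lit 1634269061) (nat_lit 152) (nat_lit 12350970498) (nat_lit 228) (nat_lit 886729020) (nat_lit 38) (nat_lit 5) (nat_lit 40) (nat_lit 5) (nat_lit 41) (nat_lit 4) (nat_lit 496) (nat_lit 350) (nat_lit 294)) (XT.nd (nat_lit 78) (nat_lit 152) (nat_lit 0) (XT.lf (nat_lit 0) (nat_lit 3547535016) (nat_lit 228) (nat_lit 4268286113) (nat_lit 76) (nat_lit 7249056200) (nat_lit 37) (nat_lit 5) (nat_lit 40) (nat_lit 5) (nat_lit 38) (nat_lit 5) (nat_lit 497) (nat_lit 350) (nat_lit 293)) (XT.lf (nat_lit 0) (nat_lit 4867050662) (nat_lit 152) (nat_lit 3182772577) (nat_lit 228) (nat_lit 7211883997) (nat_lit 35) (nat_lit 5) (nat_lit 37)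 (nat_lit 5) (nat_lit 38) (nat_lit 5) (nat_lit 498) (nat_lit 350) (nat_lit 292))))) (XT.nd (nat_lit 234) (nat_lit 228) (nat_lit 0) (XT.nd (nat_lit 78) (nat_lit 380) (nat_lit 0) (XT.lf (nat_lit 0) (nat_lit 12640739025) (nat_lit 228) (nat_lit 1300716470) (nat_lit 76) (nat_lit 1521050973) (nat_lit 35) (nat_lit 5) (nat_lit 38) (nat_lit 5) (nat_lit 36) (nat_lit 4) (nat_lit 499) (nat_lit 350) (nat_lit 291)) (XT.nd (nat_lit 78) (nat_lit 152) (nat_lit 0) (XT.lf (nat_lit 0) (nat_lit 1668115111) (nat_lit 228) (nat_lit 7688991043) (nat_lit 76) (nat_lit 6309330980) (nat_lit 32) (nat_lit 5) (nat_lit 35) (nat_lit 5) (nat_lit 33) (nat_lit 5) (nat_lit 500) (nat_lit 350) (nat_lit 290)) (XT.lf (nat_lit 0) (nat_lit 1515438527) (nat_lit 152) (nat_lit 4673813763) (nat_lit 228) (nat_lit 9685240389) (nat_lit 30) (nat_lit 5) (nat_lit 32) (nat_lit 5) (nat_lit 33) (nat_lit 5) (nat_lit 501) (nat_lit 350) (nat_lit 289)))) (XT.nd (nat_lit 78) (nat_lit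 228) (nat_lit 0) (XT.lf (nat_lit 0) (nat_lit 10814121308) (nat_lit 228) (nat_lit 5148854094) (nat_lit 76) (nat_lit 123471782) (nat_lit 30) (nat_lit 5) (nat_lit 33) (nat_lit 5) (nat_lit 31) (nat_lit 4) (nat_lit 502) (nat_lit 350) (nat_lit 288)) (XT.nd (nat_lit 78) (nat_lit 76) (nat_lit 0) (XT.lf (nat_lit 0) (nat_lit 4200721856) (nat_lit 152) (nat_lit 11350463242) (nat_lit 228) (nat_lit 751065685) (nat_lit 28) (nat_lit 5) (nat_lit 30) (nat_lit 5) (nat_lit 31) (nat_lit 4) (nat_lit 503) (nat_lit 350) (nat_lit 287)) (XT.lf (nat_lit 0) (nat_lit 3806292133) (nat_lit 228) (nat_lit 2808920844) (nat_lit 76) (nat_lit 9906733859) (nat_lit 27) (nat_lit 5) (nat_lit 30) (nat_lit 5) (nat_lit 28) (nat_lit 5) (nat_lit 504) (nat_lit 350) (nat_lit 286)))))) (XT.nd (nat_lit 54288) (nat_lit 0) (nat_lit 14288) (XT.nd (nat_lit 156) (nat_lit 228) (nat_lit 0) (XT.nd (nat_lit 78) (nat_lit 0) (nat_lit 0) (XT.lf (nat_lit 0) (nat_lit 6684557875)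 (nat_lit 152) (nat_lit 1765871672) (nat_lit 228) (nat_lit 8295397913) (nat_lit 25) (nat_lit 5) (nat_lit 27) (nat_lit 5) (nat_lit 28) (nat_lit 5) (nat_lit 505) (nat_lit 350) (nat_lit 285)) (XT.lf (nat_lit 0) (nat_lit 13189462274) (nat_lit 228) (nat_lit 656391292) (nat_lit 76) (nat_lit 3128295530) (nat_lit 25) (nat_lit 5) (nat_lit 28) (nat_lit 5) (nat_lit 26) (nat_lit 4) (nat_lit 506) (nat_lit 350) (nat_lit 284))) (XT.nd (nat_lit 53976) (nat_lit 0) (nat_lit 16720) (XT.lf (nat_lit 0) (nat_lit 838848940) (nat_lit 228) (nat_lit 8235744310) (nat_lit 76) (nat_lit 8131675122) (nat_lit 22) (nat_lit 5) (nat_lit 25) (nat_lit 5) (nat_lit 23) (nat_lit 5) (nat_lit 507) (nat_lit 350) (nat_lit 283)) (XT.nd (nat_lit 78) (nat_lit 608) (nat_lit 0) (XT.lf (nat_lit 0) (nat_lit 559878765) (nat_lit 684) (nat_lit 2946668749) (nat_lit 0) (nat_lit 559878765) (nat_lit 250) (nat_lit 5) (nat_lit 259) (nat_lit 4) (nat_lit 250) (nat_lit 4) (nat_lit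 438) (nat_lit 351) (nat_lit 351)) (XT.lf (nat_lit 0) (nat_lit 494683423) (nat_lit 608) (nat_lit 4439846122) (nat_lit 608) (nat_lit 3259418992) (nat_lit 242) (nat_lit 4) (nat_lit 250) (nat_lit 5) (nat_lit 250) (nat_lit 4) (nat_lit 439) (nat_lit 351) (nat_lit 350))))) (XT.nd (nat_lit 234) (nat_lit 1216) (nat_lit 0) (XT.nd (nat_lit 78) (nat_lit 1140) (nat_lit 0) (XT.lf (nat_lit 0) (nat_lit 535604477) (nat_lit 684) (nat_lit 1255787585) (nat_lit 76) (nat_lit 6465346483) (nat_lit 241) (nat_lit 5) (nat_lit 250) (nat_lit 5) (nat_lit 242) (nat_lit 4) (nat_lit 440) (nat_lit 351) (nat_lit 349)) (XT.nd (nat_lit 78) (nat_lit 608) (nat_lit 0) (XT.lf (nat_lit 0) (nat_lit 4338575771) (nat_lit 608) (nat_lit 3047922599) (nat_lit 0) (nat_lit 934361717) (nat_lit 234) (nat_lit 5) (nat_lit 242) (nat_lit 4) (nat_lit 234) (nat_lit 4) (nat_lit 441) (nat_lit 351) (nat_lit 348)) (XT.lf (nat_lit 0) (nat_lit 3511687587) (nat_lit 608) (nat_lit 4684881761)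 (nat_lit 608) (nat_lit 190135502) (nat_lit 226) (nat_lit 4) (nat_lit 234) (nat_lit 5) (nat_lit 234) (nat_lit 4) (nat_lit 442) (nat_lit 351) (nat_lit 347)))) (XT.nd (nat_lit 78) (nat_lit 608) (nat_lit 0) (XT.lf (nat_lit 0) (nat_lit 1702746195) (nat_lit 532) (nat_lit 1894601168) (nat_lit 608) (nat_lit 4856706296) (nat_lit 218) (nat_lit 5) (nat_lit 225) (nat_lit 5) (nat_lit 226) (nat_lit 4) (nat_lit 443) (nat_lit 351) (nat_lit 346)) (XT.nd (nat_lit 78) (nat_lit 608) (nat_lit 0) (XT.lf (nat_lit 0) (nat_lit 7433782839) (nat_lit 608) (nat_lit 138094886) (nat_lit 0) (nat_lit 951350496) (nat_lit 218) (nat_lit 5) (nat_lit 226) (nat_lit 4) (nat_lit 218) (nat_lit 4) (nat_lit 444) (nat_lit 351) (nat_lit 345)) (XT.lf (nat_lit 0) (nat_lit 2710246458) (nat_lit 608) (nat_lit 2015217685) (nat_lit 76) (nat_lit 3868118903) (nat_lit 210) (nat_lit 5) (nat_lit 218) (nat_lit 5) (nat_lit 211) (nat_lit 4) (nat_lit 445) (nat_lit 351) (nat_lit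 344))))))))
noncomputable def xc28 : XT := (XT.nd (nat_lit 1716) (nat_lit 4332) (nat_lit 0) (XT.nd (nat_lit 858) (nat_lit 3268) (nat_lit 0) (XT.nd (nat_lit 390) (nat_lit 2280) (nat_lit 0) (XT.nd (nat_lit 156) (nat_lit 988) (nat_lit 0) (XT.nd (nat_lit 78) (nat_lit 608) (nat_lit 0) (XT.lf (nat_lit 0) (nat_lit 4735506779) (nat_lit 532) (nat_lit 1805657046) (nat_lit 608) (nat_lit 2124658533) (nat_lit 203) (nat_lit 5) (nat_lit 210) (nat_lit 5) (nat_lit 211) (nat_lit 4) (nat_lit 446) (nat_lit 351) (nat_lit 343)) (XT.lf (nat_lit 0) (nat_lit 1665008408) (nat_lit 608) (nat_lit 5897472757) (nat_lit 76) (nat_lit 1177255821) (nat_lit 195) (nat_lit 5) (nat_lit 203) (nat_lit 5) (nat_lit 196) (nat_lit 4) (nat_lit 447) (nat_lit 351) (nat_lit 342))) (XT.nd (nat_lit 78) (nat_lit 532) (nat_lit 0) (XT.lf (nat_lit 0) (nat_lit 888543865) (nat_lit 456) (nat_lit 4596650364) (nat_lit 532) (nat_lit 3330008078) (nat_lit 189) (nat_lit 5) (nat_lit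 195) (nat_lit 5) (nat_lit 196) (nat_lit 4) (nat_lit 448) (nat_lit 351) (nat_lit 341)) (XT.nd (nat_lit 78) (nat_lit 456) (nat_lit 0) (XT.lf (nat_lit 0) (nat_lit 462122657) (nat_lit 532) (nat_lit 1090740218) (nat_lit 76) (nat_lit 7339687863) (nat_lit 188) (nat_lit 5) (nat_lit 195) (nat_lit 5) (nat_lit 189) (nat_lit 5) (nat_lit 449) (nat_lit 351) (nat_lit 340)) (XT.lf (nat_lit 0) (nat_lit 4274151255) (nat_lit 532) (nat_lit 3129619644) (nat_lit 76) (nat_lit 1567477938) (nat_lit 182) (nat_lit 5) (nat_lit 189) (nat_lit 5) (nat_lit 183) (nat_lit 4) (nat_lit 450) (nat_lit 351) (nat_lit 339))))) (XT.nd (nat_lit 234) (nat_lit 1292) (nat_lit 0) (XT.nd (nat_lit 78) (nat_lit 532) (nat_lit 0) (XT.lf (nat_lit 0) (nat_lit 3831041281) (nat_lit 456) (nat_lit 4314663502) (nat_lit 532) (nat_lit 906165925) (nat_lit 176) (nat_lit 5) (nat_lit 182) (nat_lit 5) (nat_lit 183) (nat_lit 4) (nat_lit 451) (nat_lit 351) (nat_lit 338)) (XT.nd (nat_lit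 78) (nat_lit 0) (nat_lit 0) (XT.lf (nat_lit 0) (nat_lit 1758182394) (nat_lit 456) (nat_lit 1137098616) (nat_lit 532) (nat_lit 6238983954) (nat_lit 169) (nat_lit 5) (nat_lit 175) (nat_lit 5) (nat_lit 176) (nat_lit 5) (nat_lit 452) (nat_lit 351) (nat_lit 337)) (XT.lf (nat_lit 0) (nat_lit 6750969465) (nat_lit 532) (nat_lit 375577334) (nat_lit 76) (nat_lit 2091848192) (nat_lit 169) (nat_lit 5) (nat_lit 176) (nat_lit 5) (nat_lit 170) (nat_lit 4) (nat_lit 453) (nat_lit 351) (nat_lit 336)))) (XT.nd (nat_lit 78) (nat_lit 836) (nat_lit 0) (XT.lf (nat_lit 0) (nat_lit 1355408207) (nat_lit 456) (nat_lit 2551107325) (nat_lit 76) (nat_lit 5397648234) (nat_lit 163) (nat_lit 5) (nat_lit 169) (nat_lit 5) (nat_lit 164) (nat_lit 5) (nat_lit 454) (nat_lit 351) (nat_lit 335)) (XT.nd (nat_lit 78) (nat_lit 380) (nat_lit 0) (XT.lf (nat_lit 0) (nat_lit 4597531869) (nat_lit 456) (nat_lit 599297022) (nat_lit 532) (nat_lit 4195003210) (nat_lit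 157) (nat_lit 5) (nat_lit 163) (nat_lit 5) (nat_lit 164) (nat_lit 5) (nat_lit 455) (nat_lit 351) (nat_lit 334)) (XT.lf (nat_lit 0) (nat_lit 2371204686) (nat_lit 380) (nat_lit 6737668189) (nat_lit 456) (nat_lit 372518521) (nat_lit 152) (nat_lit 5) (nat_lit 157) (nat_lit 5) (nat_lit 158) (nat_lit 4) (nat_lit 456) (nat_lit 351) (nat_lit 333)))))) (XT.nd (nat_lit 390) (nat_lit 1596) (nat_lit 0) (XT.nd (nat_lit 156) (nat_lit 1216) (nat_lit 0) (XT.nd (nat_lit 78) (nat_lit 0) (nat_lit 0) (XT.lf (nat_lit 0) (nat_lit 61850204) (nat_lit 380) (nat_lit 3398410874) (nat_lit 456) (nat_lit 6112433955) (nat_lit 146) (nat_lit 5) (nat_lit 151) (nat_lit 5) (nat_lit 152) (nat_lit 5) (nat_lit 457) (nat_lit 351) (nat_lit 332)) (XT.lf (nat_lit 0) (nat_lit 7356511969) (nat_lit 456) (nat_lit 2279181322) (nat_lit 76) (nat_lit 30258841) (nat_lit 146) (nat_lit 5) (nat_lit 152) (nat_lit 5) (nat_lit 147) (nat_lit 4) (nat_lit 458) (nat_lit 351) (nat_lit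 331))) (XT.nd (nat_lit 78) (nat_lit 760) (nat_lit 0) (XT.lf (nat_lit 0) (nat_lit 1549182665) (nat_lit 456) (nat_lit 4713853370) (nat_lit 76) (nat_lit 3497843640) (nat_lit 140) (nat_lit 5) (nat_lit 146) (nat_lit 5) (nat_lit 141) (nat_lit 5) (nat_lit 459) (nat_lit 351) (nat_lit 330)) (XT.nd (nat_lit 78) (nat_lit 380) (nat_lit 0) (XT.lf (nat_lit 0) (nat_lit 2628622545) (nat_lit 380) (nat_lit 2802916760) (nat_lit 456) (nat_lit 4426323441) (nat_lit 135) (nat_lit 5) (nat_lit 140) (nat_lit 5) (nat_lit 141) (nat_lit 5) (nat_lit 460) (nat_lit 351) (nat_lit 329)) (XT.lf (nat_lit 0) (nat_lit 138509531) (nat_lit 380) (nat_lit 9235836723) (nat_lit 456) (nat_lit 582794906) (nat_lit 130) (nat_lit 5) (nat_lit 135) (nat_lit 5) (nat_lit 136) (nat_lit 4) (nat_lit 461) (nat_lit 351) (nat_lit 328))))) (XT.nd (nat_lit 234) (nat_lit 760) (nat_lit 0) (XT.nd (nat_lit 78) (nat_lit 760) (nat_lit 0) (XT.lf (nat_lit 0) (nat_lit 3306731789) (nat_lit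 456) (nat_lit 2430636270) (nat_lit 76) (nat_lit 4320356954) (nat_lit 129) (nat_lit 5) (nat_lit 135) (nat_lit 5) (nat_lit 130) (nat_lit 5) (nat_lit 462) (nat_lit 351) (nat_lit 327)) (XT.nd (nat_lit 78) (nat_lit 380) (nat_lit 0) (XT.lf (nat_lit 0) (nat_lit 5085350490) (nat_lit 380) (nat_lit 2160493421) (nat_lit 456) (nat_lit 2914818684) (nat_lit 124) (nat_lit 5) (nat_lit 129) (nat_lit 5) (nat_lit 130) (nat_lit 5) (nat_lit 463) (nat_lit 351) (nat_lit 326)) (XT.lf (nat_lit 0) (nat_lit 973848352) (nat_lit 380) (nat_lit 7813487057) (nat_lit 76) (nat_lit 1478427374) (nat_lit 119) (nat_lit 5) (nat_lit 124) (nat_lit 5) (nat_lit 120) (nat_lit 5) (nat_lit 464) (nat_lit 351) (nat_lit 325)))) (XT.nd (nat_lit 78) (nat_lit 760) (nat_lit 0) (XT.lf (nat_lit 0) (nat_lit 4896933960) (nat_lit 380) (nat_lit 290017280) (nat_lit 76) (nat_lit 5185725332) (nat_lit 119) (nat_lit 5) (nat_lit 124) (nat_lit 5) (nat_lit 120) (nat_lit 5) (nat_lit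 465) (nat_lit 351) (nat_lit 324)) (XT.nd (nat_lit 78) (nat_lit 380) (nat_lit 0) (XT.lf (nat_lit 0) (nat_lit 7399488012) (nat_lit 380) (nat_lit 1495120650) (nat_lit 456) (nat_lit 1587207650) (nat_lit 114) (nat_lit 5) (nat_lit 119) (nat_lit 5) (nat_lit 120) (nat_lit 5) (nat_lit 466) (nat_lit 351) (nat_lit 323)) (XT.lf (nat_lit 0) (nat_lit 2342920559) (nat_lit 380) (nat_lit 5991030708) (nat_lit 76) (nat_lit 2258987978) (nat_lit 109) (nat_lit 5) (nat_lit 114) (nat_lit 5) (nat_lit 110) (nat_lit 5) (nat_lit 467) (nat_lit 351) (nat_lit 322))))))) (XT.nd (nat_lit 858) (nat_lit 1748) (nat_lit 0) (XT.nd (nat_lit 390) (nat_lit 1216) (nat_lit 0) (XT.nd (nat_lit 156) (nat_lit 1064) (nat_lit 0) (XT.nd (nat_lit 78) (nat_lit 0) (nat_lit 0) (XT.lf (nat_lit 0) (nat_lit 1695481817) (nat_lit 304) (nat_lit 4625189280) (nat_lit 380) (nat_lit 4385607896) (nat_lit 105) (nat_lit 5) (nat_lit 109) (nat_lit 5) (nat_lit 110) (nat_lit 5) (nat_lit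 468) (nat_lit 351) (nat_lit 321)) (XT.lf (nat_lit 0) (nat_lit 9535527798) (nat_lit 304) (nat_lit 831654573) (nat_lit 380) (nat_lit 454928496) (nat_lit 105) (nat_lit 5) (nat_lit 109) (nat_lit 5) (nat_lit 110) (nat_lit 5) (nat_lit 469) (nat_lit 351) (nat_lit 320))) (XT.nd (nat_lit 78) (nat_lit 684) (nat_lit 0) (XT.lf (nat_lit 0) (nat_lit 3520061504) (nat_lit 380) (nat_lit 4385143955) (nat_lit 76) (nat_lit 3034355190) (nat_lit 100) (nat_lit 5) (nat_lit 105) (nat_lit 5) (nat_lit 101) (nat_lit 5) (nat_lit 470) (nat_lit 351) (nat_lit 319)) (XT.nd (nat_lit 78) (nat_lit 380) (nat_lit 0) (XT.lf (nat_lit 0) (nat_lit 3466607232) (nat_lit 304) (nat_lit 4088499216) (nat_lit 380) (nat_lit 3504468804) (nat_lit 96) (nat_lit 5) (nat_lit 100) (nat_lit 5) (nat_lit 101) (nat_lit 5) (nat_lit 471) (nat_lit 351) (nat_lit 318)) (XT.lf (nat_lit 0) (nat_lit 272730730) (nat_lit 304) (nat_lit 191170693) (nat_lit 380) (nat_lit 10718404785) (nat_lit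 91) (nat_lit 5) (nat_lit 95) (nat_lit 5) (nat_lit 96) (nat_lit 5) (nat_lit 472) (nat_lit 351) (nat_lit 317))))) (XT.nd (nat_lit 234) (nat_lit 608) (nat_lit 0) (XT.nd (nat_lit 78) (nat_lit 608) (nat_lit 0) (XT.lf (nat_lit 0) (nat_lit 4490932576) (nat_lit 380) (nat_lit 3037095410) (nat_lit 76) (nat_lit 3778484526) (nat_lit 91) (nat_lit 5) (nat_lit 96) (nat_lit 5) (nat_lit 92) (nat_lit 5) (nat_lit 473) (nat_lit 351) (nat_lit 316)) (XT.nd (nat_lit 78) (nat_lit 304) (nat_lit 0) (XT.lf (nat_lit 0) (nat_lit 4977261530) (nat_lit 304) (nat_lit 3606114075) (nat_lit 380) (nat_lit 2850138135) (nat_lit 87) (nat_lit 5) (nat_lit 91) (nat_lit 5) (nat_lit 92) (nat_lit 5) (nat_lit 474) (nat_lit 351) (nat_lit 315)) (XT.lf (nat_lit 0) (nat_lit 1163626341) (nat_lit 304) (nat_lit 10002554023) (nat_lit 76) (nat_lit 397033781) (nat_lit 83) (nat_lit 5) (nat_lit 87) (nat_lit 5) (nat_lit 84) (nat_lit 5) (nat_lit 475) (nat_lit 351) (nat_lit 314))))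 (XT.nd (nat_lit 78) (nat_lit 608) (nat_lit 0) (XT.lf (nat_lit 0) (nat_lit 5238672697) (nat_lit 304) (nat_lit 1992218216) (nat_lit 76) (nat_lit 4463865206) (nat_lit 83) (nat_lit 5) (nat_lit 87) (nat_lit 5) (nat_lit 84) (nat_lit 5) (nat_lit 476) (nat_lit 351) (nat_lit 313)) (XT.nd (nat_lit 78) (nat_lit 304) (nat_lit 0) (XT.lf (nat_lit 0) (nat_lit 6180997536) (nat_lit 304) (nat_lit 3206942742) (nat_lit 380) (nat_lit 2441141846) (nat_lit 79) (nat_lit 5) (nat_lit 83) (nat_lit 5) (nat_lit 84) (nat_lit 5) (nat_lit 477) (nat_lit 351) (nat_lit 312)) (XT.lf (nat_lit 0) (nat_lit 1620828323) (nat_lit 304) (nat_lit 9449529928) (nat_lit 76) (nat_lit 895760438) (nat_lit 75) (nat_lit 5) (nat_lit 79) (nat_lit 5) (nat_lit 76) (nat_lit 5) (nat_lit 478) (nat_lit 351) (nat_lit 311)))))) (XT.nd (nat_lit 390) (nat_lit 988) (nat_lit 0) (XT.nd (nat_lit 156) (nat_lit 532) (nat_lit 0) (XT.nd (nat_lit 78) (nat_lit 228) (nat_lit 0) (XT.lf (nat_lit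 0) (nat_lit 5743686025) (nat_lit 304) (nat_lit 1300414858) (nat_lit 76) (nat_lit 5061232843) (nat_lit 75) (nat_lit 5) (nat_lit 79) (nat_lit 5) (nat_lit 76) (nat_lit 5) (nat_lit 479) (nat_lit 351) (nat_lit 310)) (XT.lf (nat_lit 0) (nat_lit 7026643879) (nat_lit 228) (nat_lit 2921815698) (nat_lit 304) (nat_lit 2298891329) (nat_lit 72) (nat_lit 5) (nat_lit 75) (nat_lit 5) (nat_lit 76) (nat_lit 5) (nat_lit 480) (nat_lit 351) (nat_lit 309))) (XT.nd (nat_lit 78) (nat_lit 228) (nat_lit 0) (XT.lf (nat_lit 0) (nat_lit 1812145760) (nat_lit 304) (nat_lit 9303602807) (nat_lit 76) (nat_lit 1276402521) (nat_lit 68) (nat_lit 5) (nat_lit 72) (nat_lit 5) (nat_lit 69) (nat_lit 5) (nat_lit 481) (nat_lit 351) (nat_lit 308)) (XT.nd (nat_lit 78) (nat_lit 228) (nat_lit 0) (XT.lf (nat_lit 0) (nat_lit 5983402674) (nat_lit 304) (nat_lit 1016710569) (nat_lit 76) (nat_lit 5539261107) (nat_lit 68) (nat_lit 5) (nat_lit 72) (nat_lit 5) (nat_lit 69)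 (nat_lit 5) (nat_lit 482) (nat_lit 351) (nat_lit 307)) (XT.lf (nat_lit 0) (nat_lit 7457734440) (nat_lit 228) (nat_lit 2783807106) (nat_lit 304) (nat_lit 2447937878) (nat_lit 65) (nat_lit 5) (nat_lit 68) (nat_lit 5) (nat_lit 69) (nat_lit 5) (nat_lit 483) (nat_lit 351) (nat_lit 306))))) (XT.nd (nat_lit 234) (nat_lit 456) (nat_lit 0) (XT.nd (nat_lit 78) (nat_lit 228) (nat_lit 0) (XT.lf (nat_lit 0) (nat_lit 1712262957) (nat_lit 304) (nat_lit 9624732340) (nat_lit 76) (nat_lit 1505514171) (nat_lit 61) (nat_lit 5) (nat_lit 65) (nat_lit 5) (nat_lit 62) (nat_lit 5) (nat_lit 484) (nat_lit 351) (nat_lit 305)) (XT.nd (nat_lit 78) (nat_lit 228) (nat_lit 0) (XT.lf (nat_lit 0) (nat_lit 5932009977) (nat_lit 304) (nat_lit 1201860792) (nat_lit 76) (nat_lit 5864229433) (nat_lit 61) (nat_lit 5) (nat_lit 65) (nat_lit 5) (nat_lit 62) (nat_lit 5) (nat_lit 485) (nat_lit 351) (nat_lit 304)) (XT.lf (nat_lit 0) (nat_lit 7411881856) (nat_lit 228)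 (nat_lit 2828582485) (nat_lit 304) (nat_lit 2916258152) (nat_lit 58) (nat_lit 5) (nat_lit 61) (nat_lit 5) (nat_lit 62) (nat_lit 5) (nat_lit 486) (nat_lit 351) (nat_lit 303)))) (XT.nd (nat_lit 78) (nat_lit 228) (nat_lit 0) (XT.lf (nat_lit 0) (nat_lit 1292374410) (nat_lit 228) (nat_lit 10479152760) (nat_lit 76) (nat_lit 1546963440) (nat_lit 55) (nat_lit 5) (nat_lit 58) (nat_lit 5) (nat_lit 56) (nat_lit 5) (nat_lit 487) (nat_lit 351) (nat_lit 302)) (XT.nd (nat_lit 78) (nat_lit 228) (nat_lit 0) (XT.lf (nat_lit 0) (nat_lit 5560151504) (nat_lit 228) (nat_lit 1923018687) (nat_lit 76) (nat_lit 5999663600) (nat_lit 55) (nat_lit 5) (nat_lit 58) (nat_lit 5) (nat_lit 56) (nat_lit 5) (nat_lit 488) (nat_lit 351) (nat_lit 301)) (XT.lf (nat_lit 0) (nat_lit 6820088928) (nat_lit 228) (nat_lit 3094775293) (nat_lit 304) (nat_lit 3735573548) (nat_lit 52) (nat_lit 5) (nat_lit 55) (nat_lit 5) (nat_lit 56) (nat_lit 5) (nat_lit 489) (nat_lit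 351) (nat_lit 300))))))))
noncomputable def xc29 : XT := (XT.nd (nat_lit 55458) (nat_lit 0) (nat_lit 8512) (XT.nd (nat_lit 858) (nat_lit 684) (nat_lit 0) (XT.nd (nat_lit 390) (nat_lit 836) (nat_lit 0) (XT.nd (nat_lit 156) (nat_lit 456) (nat_lit 0) (XT.nd (nat_lit 78) (nat_lit 0) (nat_lit 0) (XT.lf (nat_lit 0) (nat_lit 519855609) (nat_lit 228) (nat_lit 11940093860) (nat_lit 76) (nat_lit 1361548200) (nat_lit 49) (nat_lit 5) (nat_lit 52) (nat_lit 5) (nat_lit 50) (nat_lit 5) (nat_lit 490) (nat_lit 351) (nat_lit 299)) (XT.lf (nat_lit 0) (nat_lit 4834590785) (nat_lit 228) (nat_lit 3254469290) (nat_lit 76) (nat_lit 5905945728) (nat_lit 49) (nat_lit 5) (nat_lit 52) (nat_lit 5) (nat_lit 50) (nat_lit 5) (nat_lit 491) (nat_lit 351) (nat_lit 298))) (XT.nd (nat_lit 78) (nat_lit 228) (nat_lit 0) (XT.lf (nat_lit 0) (nat_lit 5605991082) (nat_lit 228) (nat_lit 3624396048) (nat_lit 304) (nat_lit 4941706752) (nat_lit 46) (nat_lit 5) (nat_lit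 49) (nat_lit 5) (nat_lit 50) (nat_lit 5) (nat_lit 492) (nat_lit 351) (nat_lit 297)) (XT.nd (nat_lit 78) (nat_lit 76) (nat_lit 0) (XT.lf (nat_lit 0) (nat_lit 260165410) (nat_lit 152) (nat_lit 13442161349) (nat_lit 228) (nat_lit 650637429) (nat_lit 44) (nat_lit 5) (nat_lit 46) (nat_lit 5) (nat_lit 47) (nat_lit 4) (nat_lit 493) (nat_lit 351) (nat_lit 296)) (XT.lf (nat_lit 0) (nat_lit 3717836291) (nat_lit 228) (nat_lit 5278437580) (nat_lit 76) (nat_lit 5539889910) (nat_lit 43) (nat_lit 5) (nat_lit 46) (nat_lit 5) (nat_lit 44) (nat_lit 5) (nat_lit 494) (nat_lit 351) (nat_lit 295))))) (XT.nd (nat_lit 234) (nat_lit 380) (nat_lit 0) (XT.nd (nat_lit 78) (nat_lit 228) (nat_lit 0) (XT.lf (nat_lit 0) (nat_lit 3685022411) (nat_lit 228) (nat_lit 4463277942) (nat_lit 304) (nat_lit 6574979066) (nat_lit 40) (nat_lit 5) (nat_lit 43) (nat_lit 5) (nat_lit 44) (nat_lit 5) (nat_lit 495) (nat_lit 351) (nat_lit 294)) (XT.nd (nat_lit 78) (nat_lit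 228) (nat_lit 0) (XT.lf (nat_lit 0) (nat_lit 12663608718) (nat_lit 304) (nat_lit 2086755448) (nat_lit 76) (nat_lit 163853132) (nat_lit 40) (nat_lit 5) (nat_lit 44) (nat_lit 5) (nat_lit 41) (nat_lit 4) (nat_lit 496) (nat_lit 351) (nat_lit 293)) (XT.lf (nat_lit 0) (nat_lit 2167723897) (nat_lit 228) (nat_lit 8085978462) (nat_lit 76) (nat_lit 4854279378) (nat_lit 37) (nat_lit 5) (nat_lit 40) (nat_lit 5) (nat_lit 38) (nat_lit 5) (nat_lit 497) (nat_lit 351) (nat_lit 292)))) (XT.nd (nat_lit 78) (nat_lit 228) (nat_lit 0) (XT.lf (nat_lit 0) (nat_lit 963497021) (nat_lit 152) (nat_lit 5661563275) (nat_lit 228) (nat_lit 8680652545) (nat_lit 35) (nat_lit 5) (nat_lit 37) (nat_lit 5) (nat_lit 38) (nat_lit 5) (nat_lit 498) (nat_lit 351) (nat_lit 291)) (XT.nd (nat_lit 78) (nat_lit 228) (nat_lit 0) (XT.lf (nat_lit 0) (nat_lit 10234005988) (nat_lit 152) (nat_lit 952516682) (nat_lit 228) (nat_lit 4320580588) (nat_lit 35) (nat_lit 5) (nat_lit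 37) (nat_lit 5) (nat_lit 38) (nat_lit 5) (nat_lit 499) (nat_lit 351) (nat_lit 290)) (XT.lf (nat_lit 0) (nat_lit 136952589) (nat_lit 228) (nat_lit 11777957459) (nat_lit 76) (nat_lit 3797360670) (nat_lit 32) (nat_lit 5) (nat_lit 35) (nat_lit 5) (nat_lit 33) (nat_lit 5) (nat_lit 500) (nat_lit 351) (nat_lit 289)))))) (XT.nd (nat_lit 390) (nat_lit 152) (nat_lit 0) (XT.nd (nat_lit 156) (nat_lit 380) (nat_lit 0) (XT.nd (nat_lit 78) (nat_lit 152) (nat_lit 0) (XT.lf (nat_lit 0) (nat_lit 4629118131) (nat_lit 228) (nat_lit 2627485514) (nat_lit 76) (nat_lit 8664304047) (nat_lit 32) (nat_lit 5) (nat_lit 35) (nat_lit 5) (nat_lit 33) (nat_lit 5) (nat_lit 501) (nat_lit 351) (nat_lit 288)) (XT.lf (nat_lit 0) (nat_lit 6726721560) (nat_lit 152) (nat_lit 2490190095) (nat_lit 228) (nat_lit 6916694007) (nat_lit 30) (nat_lit 5) (nat_lit 32) (nat_lit 5) (nat_lit 33) (nat_lit 5) (nat_lit 502) (nat_lit 351) (nat_lit 287))) (XT.nd (nat_lit 78)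 (nat_lit 380) (nat_lit 0) (XT.lf (nat_lit 0) (nat_lit 13891833894) (nat_lit 228) (nat_lit 129706969) (nat_lit 76) (nat_lit 2329113148) (nat_lit 30) (nat_lit 5) (nat_lit 33) (nat_lit 5) (nat_lit 31) (nat_lit 4) (nat_lit 503) (nat_lit 351) (nat_lit 286)) (XT.nd (nat_lit 78) (nat_lit 152) (nat_lit 0) (XT.lf (nat_lit 0) (nat_lit 2101402569) (nat_lit 228) (nat_lit 7211903522) (nat_lit 76) (nat_lit 7257658227) (nat_lit 27) (nat_lit 5) (nat_lit 30) (nat_lit 5) (nat_lit 28) (nat_lit 5) (nat_lit 504) (nat_lit 351) (nat_lit 285)) (XT.lf (nat_lit 0) (nat_lit 2189778946) (nat_lit 152) (nat_lit 4508270449) (nat_lit 228) (nat_lit 10097747165) (nat_lit 25) (nat_lit 5) (nat_lit 27) (nat_lit 5) (nat_lit 28) (nat_lit 5) (nat_lit 505) (nat_lit 351) (nat_lit 284))))) (XT.nd (nat_lit 53976) (nat_lit 0) (nat_lit 16644) (XT.nd (nat_lit 78) (nat_lit 152) (nat_lit 0) (XT.lf (nat_lit 0) (nat_lit 11401022312) (nat_lit 228) (nat_lit 5216235204)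 (nat_lit 76) (nat_lit 407583647) (nat_lit 25) (nat_lit 5) (nat_lit 28) (nat_lit 5) (nat_lit 26) (nat_lit 4) (nat_lit 506) (nat_lit 351) (nat_lit 283)) (XT.nd (nat_lit 53820) (nat_lit 0) (nat_lit 18620) (XT.lf (nat_lit 0) (nat_lit 4323026443) (nat_lit 152) (nat_lit 11896801549) (nat_lit 228) (nat_lit 1038206712) (nat_lit 23) (nat_lit 5) (nat_lit 25) (nat_lit 5) (nat_lit 26) (nat_lit 4) (nat_lit 507) (nat_lit 351) (nat_lit 282)) (XT.lf (nat_lit 0) (nat_lit 1413196231) (nat_lit 684) (nat_lit 1180783630) (nat_lit 0) (nat_lit 1413196231) (nat_lit 268) (nat_lit 5) (nat_lit 277) (nat_lit 4) (nat_lit 268) (nat_lit 4) (nat_lit 436) (nat_lit 352) (nat_lit 352)))) (XT.nd (nat_lit 78) (nat_lit 1292) (nat_lit 0) (XT.lf (nat_lit 0) (nat_lit 3940291186) (nat_lit 684) (nat_lit 2680477548) (nat_lit 684) (nat_lit 1452361163) (nat_lit 259) (nat_lit 4) (nat_lit 268) (nat_lit 5) (nat_lit 268) (nat_lit 4) (nat_lit 437) (nat_lit 352) (nat_lit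 351)) (XT.nd (nat_lit 78) (nat_lit 608) (nat_lit 0) (XT.lf (nat_lit 0) (nat_lit 2196796028) (nat_lit 608) (nat_lit 94762430) (nat_lit 684) (nat_lit 5841949537) (nat_lit 250) (nat_lit 5) (nat_lit 258) (nat_lit 5) (nat_lit 259) (nat_lit 4) (nat_lit 438) (nat_lit 352) (nat_lit 350)) (XT.lf (nat_lit 0) (nat_lit 408878067) (nat_lit 608) (nat_lit 5664074152) (nat_lit 608) (nat_lit 2122329850) (nat_lit 242) (nat_lit 4) (nat_lit 250) (nat_lit 5) (nat_lit 250) (nat_lit 4) (nat_lit 439) (nat_lit 352) (nat_lit 349))))))) (XT.nd (nat_lit 858) (nat_lit 3572) (nat_lit 0) (XT.nd (nat_lit 390) (nat_lit 2736) (nat_lit 0) (XT.nd (nat_lit 156) (nat_lit 1216) (nat_lit 0) (XT.nd (nat_lit 78) (nat_lit 532) (nat_lit 0) (XT.lf (nat_lit 0) (nat_lit 1625714621) (nat_lit 684) (nat_lit 1392390471) (nat_lit 76) (nat_lit 5240470772) (nat_lit 241) (nat_lit 5) (nat_lit 250) (nat_lit 5) (nat_lit 242) (nat_lit 4) (nat_lit 440) (nat_lit 352) (nat_lit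 348)) (XT.lf (nat_lit 0) (nat_lit 5098984872) (nat_lit 532) (nat_lit 290946676) (nat_lit 608) (nat_lit 2933550870) (nat_lit 234) (nat_lit 5) (nat_lit 241) (nat_lit 5) (nat_lit 242) (nat_lit 4) (nat_lit 441) (nat_lit 352) (nat_lit 347))) (XT.nd (nat_lit 78) (nat_lit 532) (nat_lit 0) (XT.lf (nat_lit 0) (nat_lit 812636733) (nat_lit 684) (nat_lit 5102796406) (nat_lit 76) (nat_lit 2474486099) (nat_lit 225) (nat_lit 5) (nat_lit 234) (nat_lit 5) (nat_lit 226) (nat_lit 4) (nat_lit 442) (nat_lit 352) (nat_lit 346)) (XT.nd (nat_lit 78) (nat_lit 0) (nat_lit 0) (XT.lf (nat_lit 0) (nat_lit 1428434760) (nat_lit 532) (nat_lit 3136388447) (nat_lit 608) (nat_lit 3893085557) (nat_lit 218) (nat_lit 5) (nat_lit 225) (nat_lit 5) (nat_lit 226) (nat_lit 4) (nat_lit 443) (nat_lit 352) (nat_lit 345)) (XT.lf (nat_lit 0) (nat_lit 8075780142) (nat_lit 532) (nat_lit 288537240) (nat_lit 608) (nat_lit 163513938) (nat_lit 218) (nat_lit 5) (nat_lit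 225) (nat_lit 5) (nat_lit 226) (nat_lit 4) (nat_lit 444) (nat_lit 352) (nat_lit 344))))) (XT.nd (nat_lit 234) (nat_lit 988) (nat_lit 0) (XT.nd (nat_lit 78) (nat_lit 1140) (nat_lit 0) (XT.lf (nat_lit 0) (nat_lit 3589451317) (nat_lit 608) (nat_lit 2384233988) (nat_lit 76) (nat_lit 2625081076) (nat_lit 210) (nat_lit 5) (nat_lit 218) (nat_lit 5) (nat_lit 211) (nat_lit 4) (nat_lit 445) (nat_lit 352) (nat_lit 343)) (XT.nd (nat_lit 78) (nat_lit 608) (nat_lit 0) (XT.lf (nat_lit 0) (nat_lit 4319744960) (nat_lit 532) (nat_lit 3067894642) (nat_lit 608) (nat_lit 1284029310) (nat_lit 203) (nat_lit 5) (nat_lit 210) (nat_lit 5) (nat_lit 211) (nat_lit 4) (nat_lit 446) (nat_lit 352) (nat_lit 342)) (XT.lf (nat_lit 0) (nat_lit 2375445027) (nat_lit 532) (nat_lit 78428010) (nat_lit 608) (nat_lit 6292424441) (nat_lit 195) (nat_lit 5) (nat_lit 202) (nat_lit 5) (nat_lit 203) (nat_lit 5) (nat_lit 447) (nat_lit 352) (nat_lit 341)))) (XT.nd (nat_lit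 78) (nat_lit 532) (nat_lit 0) (XT.lf (nat_lit 0) (nat_lit 367156005) (nat_lit 456) (nat_lit 5873340408) (nat_lit 532) (nat_lit 2581945777) (nat_lit 189) (nat_lit 5) (nat_lit 195) (nat_lit 5) (nat_lit 196) (nat_lit 4) (nat_lit 448) (nat_lit 352) (nat_lit 340)) (XT.nd (nat_lit 78) (nat_lit 456) (nat_lit 0) (XT.lf (nat_lit 0) (nat_lit 1170816559) (nat_lit 532) (nat_lit 1666030576) (nat_lit 76) (nat_lit 6063445322) (nat_lit 188) (nat_lit 5) (nat_lit 195) (nat_lit 5) (nat_lit 189) (nat_lit 5) (nat_lit 449) (nat_lit 352) (nat_lit 339)) (XT.lf (nat_lit 0) (nat_lit 4941371543) (nat_lit 532) (nat_lit 3754054712) (nat_lit 76) (nat_lit 284401444) (nat_lit 182) (nat_lit 5) (nat_lit 189) (nat_lit 5) (nat_lit 183) (nat_lit 4) (nat_lit 450) (nat_lit 352) (nat_lit 338)))))) (XT.nd (nat_lit 390) (nat_lit 1672) (nat_lit 0) (XT.nd (nat_lit 156) (nat_lit 912) (nat_lit 0) (XT.nd (nat_lit 78) (nat_lit 532) (nat_lit 0) (XT.lf (nat_lit 0) (nat_lit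 3156540870) (nat_lit 456) (nat_lit 5623252676) (nat_lit 532) (nat_lit 281326175) (nat_lit 176) (nat_lit 5) (nat_lit 182) (nat_lit 5) (nat_lit 183) (nat_lit 4) (nat_lit 451) (nat_lit 352) (nat_lit 337)) (XT.lf (nat_lit 0) (nat_lit 1019350234) (nat_lit 456) (nat_lit 2459128622) (nat_lit 532) (nat_lit 5665630154) (nat_lit 169) (nat_lit 5) (nat_lit 175) (nat_lit 5) (nat_lit 176) (nat_lit 5) (nat_lit 452) (nat_lit 352) (nat_lit 336))) (XT.nd (nat_lit 78) (nat_lit 912) (nat_lit 0) (XT.lf (nat_lit 0) (nat_lit 7297146419) (nat_lit 532) (nat_lit 1157225711) (nat_lit 76) (nat_lit 774614412) (nat_lit 169) (nat_lit 5) (nat_lit 176) (nat_lit 5) (nat_lit 170) (nat_lit 4) (nat_lit 453) (nat_lit 352) (nat_lit 335)) (XT.nd (nat_lit 78) (nat_lit 456) (nat_lit 0) (XT.lf (nat_lit 0) (nat_lit 1850451734) (nat_lit 456) (nat_lit 3398946840) (nat_lit 76) (nat_lit 4065964359) (nat_lit 163) (nat_lit 5) (nat_lit 169) (nat_lit 5) (nat_lit 164)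 (nat_lit 5) (nat_lit 454) (nat_lit 352) (nat_lit 334)) (XT.lf (nat_lit 0) (nat_lit 3697033405) (nat_lit 456) (nat_lit 1961206990) (nat_lit 532) (nat_lit 3745470193) (nat_lit 157) (nat_lit 5) (nat_lit 163) (nat_lit 5) (nat_lit 164) (nat_lit 5) (nat_lit 455) (nat_lit 352) (nat_lit 333))))) (XT.nd (nat_lit 234) (nat_lit 836) (nat_lit 0) (XT.nd (nat_lit 78) (nat_lit 380) (nat_lit 0) (XT.lf (nat_lit 0) (nat_lit 33069796) (nat_lit 456) (nat_lit 8080281545) (nat_lit 76) (nat_lit 1380773652) (nat_lit 151) (nat_lit 5) (nat_lit 157) (nat_lit 5) (nat_lit 152) (nat_lit 5) (nat_lit 456) (nat_lit 352) (nat_lit 332)) (XT.nd (nat_lit 78) (nat_lit 380) (nat_lit 0) (XT.lf (nat_lit 0) (nat_lit 3833062192) (nat_lit 456) (nat_lit 952627858) (nat_lit 76) (nat_lit 4800254532) (nat_lit 151) (nat_lit 5) (nat_lit 157) (nat_lit 5) (nat_lit 152) (nat_lit 5) (nat_lit 457) (nat_lit 352) (nat_lit 331)) (XT.lf (nat_lit 0) (nat_lit 6318953209) (nat_lit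 380) (nat_lit 1376667306) (nat_lit 456) (nat_lit 1984261188) (nat_lit 146) (nat_lit 5) (nat_lit 151) (nat_lit 5) (nat_lit 152) (nat_lit 5) (nat_lit 458) (nat_lit 352) (nat_lit 330)))) (XT.nd (nat_lit 78) (nat_lit 380) (nat_lit 0) (XT.lf (nat_lit 0) (nat_lit 1826763693) (nat_lit 456) (nat_lit 5858614719) (nat_lit 76) (nat_lit 2090261204) (nat_lit 140) (nat_lit 5) (nat_lit 146) (nat_lit 5) (nat_lit 141) (nat_lit 5) (nat_lit 459) (nat_lit 352) (nat_lit 329)) (XT.nd (nat_lit 78) (nat_lit 0) (nat_lit 0) (XT.lf (nat_lit 0) (nat_lit 1427480047) (nat_lit 380) (nat_lit 4247144572) (nat_lit 456) (nat_lit 4198693795) (nat_lit 135) (nat_lit 5) (nat_lit 140) (nat_lit 5) (nat_lit 141) (nat_lit 5) (nat_lit 460) (nat_lit 352) (nat_lit 328)) (XT.lf (nat_lit 0) (nat_lit 8857183240) (nat_lit 380) (nat_lit 728173850) (nat_lit 456) (nat_lit 387886927) (nat_lit 135) (nat_lit 5) (nat_lit 140) (nat_lit 5) (nat_lit 141) (nat_lit 5) (nat_lit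 461) (nat_lit 352) (nat_lit 327))))))))
noncomputable def xc30 : XT := (XT.nd (nat_lit 1716) (nat_lit 2888) (nat_lit 0) (XT.nd (nat_lit 858) (nat_lit 2280) (nat_lit 0) (XT.nd (nat_lit 390) (nat_lit 1444) (nat_lit 0) (XT.nd (nat_lit 156) (nat_lit 760) (nat_lit 0) (XT.nd (nat_lit 78) (nat_lit 380) (nat_lit 0) (XT.lf (nat_lit 0) (nat_lit 3460515959) (nat_lit 456) (nat_lit 3753670385) (nat_lit 76) (nat_lit 2860393047) (nat_lit 129) (nat_lit 5) (nat_lit 135) (nat_lit 5) (nat_lit 130) (nat_lit 5) (nat_lit 462) (nat_lit 352) (nat_lit 326)) (XT.lf (nat_lit 0) (nat_lit 3704109803) (nat_lit 380) (nat_lit 3660620311) (nat_lit 456) (nat_lit 2813490190) (nat_lit 124) (nat_lit 5) (nat_lit 129) (nat_lit 5) (nat_lit 130) (nat_lit 5) (nat_lit 463) (nat_lit 352) (nat_lit 325))) (XT.nd (nat_lit 78) (nat_lit 380) (nat_lit 0) (XT.lf (nat_lit 0) (nat_lit 1003432142) (nat_lit 304) (nat_lit 25362543) (nat_lit 380) (nat_lit 9255418877) (nat_lit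 119) (nat_lit 5) (nat_lit 123) (nat_lit 5) (nat_lit 124) (nat_lit 5) (nat_lit 464) (nat_lit 352) (nat_lit 324)) (XT.nd (nat_lit 78) (nat_lit 380) (nat_lit 0) (XT.lf (nat_lit 0) (nat_lit 4926015127) (nat_lit 380) (nat_lit 1797483356) (nat_lit 76) (nat_lit 3668151232) (nat_lit 119) (nat_lit 5) (nat_lit 124) (nat_lit 5) (nat_lit 120) (nat_lit 5) (nat_lit 465) (nat_lit 352) (nat_lit 323)) (XT.lf (nat_lit 0) (nat_lit 5831917493) (nat_lit 380) (nat_lit 3056398065) (nat_lit 456) (nat_lit 1613186346) (nat_lit 114) (nat_lit 5) (nat_lit 119) (nat_lit 5) (nat_lit 120) (nat_lit 5) (nat_lit 466) (nat_lit 352) (nat_lit 322))))) (XT.nd (nat_lit 234) (nat_lit 760) (nat_lit 0) (XT.nd (nat_lit 78) (nat_lit 304) (nat_lit 0) (XT.lf (nat_lit 0) (nat_lit 2271149906) (nat_lit 380) (nat_lit 7649467665) (nat_lit 76) (nat_lit 692938062) (nat_lit 109) (nat_lit 5) (nat_lit 114) (nat_lit 5) (nat_lit 110) (nat_lit 5) (nat_lit 467) (nat_lit 352) (nat_lit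 321)) (XT.nd (nat_lit 78) (nat_lit 304) (nat_lit 0) (XT.lf (nat_lit 0) (nat_lit 6212907748) (nat_lit 380) (nat_lit 24963534) (nat_lit 76) (nat_lit 4489748628) (nat_lit 109) (nat_lit 5) (nat_lit 114) (nat_lit 5) (nat_lit 110) (nat_lit 5) (nat_lit 468) (nat_lit 352) (nat_lit 320)) (XT.lf (nat_lit 0) (nat_lit 7775240506) (nat_lit 304) (nat_lit 2459263144) (nat_lit 380) (nat_lit 609451026) (nat_lit 105) (nat_lit 5) (nat_lit 109) (nat_lit 5) (nat_lit 110) (nat_lit 5) (nat_lit 469) (nat_lit 352) (nat_lit 319)))) (XT.nd (nat_lit 78) (nat_lit 380) (nat_lit 0) (XT.lf (nat_lit 0) (nat_lit 3320411182) (nat_lit 380) (nat_lit 6241373678) (nat_lit 76) (nat_lit 1400587157) (nat_lit 100) (nat_lit 5) (nat_lit 105) (nat_lit 5) (nat_lit 101) (nat_lit 5) (nat_lit 470) (nat_lit 352) (nat_lit 318)) (XT.nd (nat_lit 78) (nat_lit 76) (nat_lit 0) (XT.lf (nat_lit 0) (nat_lit 1545987093) (nat_lit 304) (nat_lit 5772700394) (nat_lit 380) (nat_lit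 3764438828) (nat_lit 96) (nat_lit 5) (nat_lit 100) (nat_lit 5) (nat_lit 101) (nat_lit 5) (nat_lit 471) (nat_lit 352) (nat_lit 317)) (XT.lf (nat_lit 0) (nat_lit 181331486) (nat_lit 380) (nat_lit 1712598992) (nat_lit 76) (nat_lit 9312484891) (nat_lit 95) (nat_lit 5) (nat_lit 100) (nat_lit 5) (nat_lit 96) (nat_lit 5) (nat_lit 472) (nat_lit 352) (nat_lit 316)))))) (XT.nd (nat_lit 390) (nat_lit 1064) (nat_lit 0) (XT.nd (nat_lit 156) (nat_lit 608) (nat_lit 0) (XT.nd (nat_lit 78) (nat_lit 304) (nat_lit 0) (XT.lf (nat_lit 0) (nat_lit 4161851388) (nat_lit 380) (nat_lit 5097787320) (nat_lit 76) (nat_lit 2071917261) (nat_lit 91) (nat_lit 5) (nat_lit 96) (nat_lit 5) (nat_lit 92) (nat_lit 5) (nat_lit 473) (nat_lit 352) (nat_lit 315)) (XT.lf (nat_lit 0) (nat_lit 2850045101) (nat_lit 304) (nat_lit 5366796752) (nat_lit 380) (nat_lit 3242468387) (nat_lit 87) (nat_lit 5) (nat_lit 91) (nat_lit 5) (nat_lit 92) (nat_lit 5) (nat_lit 474)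 (nat_lit 352) (nat_lit 314))) (XT.nd (nat_lit 78) (nat_lit 532) (nat_lit 0) (XT.lf (nat_lit 0) (nat_lit 740093518) (nat_lit 380) (nat_lit 646333369) (nat_lit 76) (nat_lit 10203365500) (nat_lit 86) (nat_lit 5) (nat_lit 91) (nat_lit 5) (nat_lit 87) (nat_lit 5) (nat_lit 475) (nat_lit 352) (nat_lit 313)) (XT.nd (nat_lit 78) (nat_lit 304) (nat_lit 0) (XT.lf (nat_lit 0) (nat_lit 4778387205) (nat_lit 304) (nat_lit 4264242416) (nat_lit 76) (nat_lit 2679443553) (nat_lit 83) (nat_lit 5) (nat_lit 87) (nat_lit 5) (nat_lit 84) (nat_lit 5) (nat_lit 476) (nat_lit 352) (nat_lit 312)) (XT.lf (nat_lit 0) (nat_lit 3840226888) (nat_lit 304) (nat_lit 5049219560) (nat_lit 380) (nat_lit 2967720585) (nat_lit 79) (nat_lit 5) (nat_lit 83) (nat_lit 5) (nat_lit 84) (nat_lit 5) (nat_lit 477) (nat_lit 352) (nat_lit 311))))) (XT.nd (nat_lit 234) (nat_lit 532) (nat_lit 0) (XT.nd (nat_lit 78) (nat_lit 228) (nat_lit 0) (XT.lf (nat_lit 0) (nat_lit 87116149)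 (nat_lit 228) (nat_lit 969374366) (nat_lit 304) (nat_lit 10938678311) (nat_lit 75) (nat_lit 5) (nat_lit 78) (nat_lit 5) (nat_lit 79) (nat_lit 5) (nat_lit 478) (nat_lit 352) (nat_lit 310)) (XT.nd (nat_lit 78) (nat_lit 228) (nat_lit 0) (XT.lf (nat_lit 0) (nat_lit 5150201457) (nat_lit 304) (nat_lit 3790858802) (nat_lit 76) (nat_lit 3193910013) (nat_lit 75) (nat_lit 5) (nat_lit 79) (nat_lit 5) (nat_lit 76) (nat_lit 5) (nat_lit 479) (nat_lit 352) (nat_lit 309)) (XT.lf (nat_lit 0) (nat_lit 4465139645) (nat_lit 228) (nat_lit 4850799540) (nat_lit 304) (nat_lit 2961832391) (nat_lit 72) (nat_lit 5) (nat_lit 75) (nat_lit 5) (nat_lit 76) (nat_lit 5) (nat_lit 480) (nat_lit 352) (nat_lit 308)))) (XT.nd (nat_lit 78) (nat_lit 228) (nat_lit 0) (XT.lf (nat_lit 0) (nat_lit 437086620) (nat_lit 228) (nat_lit 672787078) (nat_lit 304) (nat_lit 11313747931) (nat_lit 68) (nat_lit 5) (nat_lit 71) (nat_lit 5) (nat_lit 72) (nat_lit 5) (nat_lit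 481) (nat_lit 352) (nat_lit 307)) (XT.nd (nat_lit 78) (nat_lit 228) (nat_lit 0) (XT.lf (nat_lit 0) (nat_lit 5254503156) (nat_lit 304) (nat_lit 3732895681) (nat_lit 76) (nat_lit 3583981812) (nat_lit 68) (nat_lit 5) (nat_lit 72) (nat_lit 5) (nat_lit 69) (nat_lit 5) (nat_lit 482) (nat_lit 352) (nat_lit 306)) (XT.lf (nat_lit 0) (nat_lit 4668079074) (nat_lit 228) (nat_lit 4804627841) (nat_lit 304) (nat_lit 3249580657) (nat_lit 65) (nat_lit 5) (nat_lit 68) (nat_lit 5) (nat_lit 69) (nat_lit 5) (nat_lit 483) (nat_lit 352) (nat_lit 305))))))) (XT.nd (nat_lit 858) (nat_lit 1216) (nat_lit 0) (XT.nd (nat_lit 390) (nat_lit 912) (nat_lit 0) (XT.nd (nat_lit 156) (nat_lit 456) (nat_lit 0) (XT.nd (nat_lit 78) (nat_lit 0) (nat_lit 0) (XT.lf (nat_lit 0) (nat_lit 335757269) (nat_lit 228) (nat_lit 534915194) (nat_lit 304) (nat_lit 12005761501) (nat_lit 61) (nat_lit 5) (nat_lit 64) (nat_lit 5) (nat_lit 65) (nat_lit 5) (nat_lit 484) (nat_lit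 352) (nat_lit 304)) (XT.lf (nat_lit 0) (nat_lit 5065258119) (nat_lit 304) (nat_lit 4151359100) (nat_lit 76) (nat_lit 3815913673) (nat_lit 61) (nat_lit 5) (nat_lit 65) (nat_lit 5) (nat_lit 62) (nat_lit 5) (nat_lit 485) (nat_lit 352) (nat_lit 303))) (XT.nd (nat_lit 78) (nat_lit 228) (nat_lit 0) (XT.lf (nat_lit 0) (nat_lit 4386402891) (nat_lit 228) (nat_lit 4946403097) (nat_lit 304) (nat_lit 3859168233) (nat_lit 58) (nat_lit 5) (nat_lit 61) (nat_lit 5) (nat_lit 62) (nat_lit 5) (nat_lit 486) (nat_lit 352) (nat_lit 302)) (XT.nd (nat_lit 78) (nat_lit 152) (nat_lit 0) (XT.lf (nat_lit 0) (nat_lit 311928396) (nat_lit 304) (nat_lit 278611447) (nat_lit 76) (nat_lit 12764325775) (nat_lit 57) (nat_lit 5) (nat_lit 61) (nat_lit 5) (nat_lit 58) (nat_lit 5) (nat_lit 487) (nat_lit 352) (nat_lit 301)) (XT.lf (nat_lit 0) (nat_lit 4552887364) (nat_lit 228) (nat_lit 5113669517) (nat_lit 76) (nat_lit 3853191021) (nat_lit 55) (nat_lit 5) (nat_lit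 58) (nat_lit 5) (nat_lit 56) (nat_lit 5) (nat_lit 488) (nat_lit 352) (nat_lit 300))))) (XT.nd (nat_lit 234) (nat_lit 456) (nat_lit 0) (XT.nd (nat_lit 78) (nat_lit 228) (nat_lit 0) (XT.lf (nat_lit 0) (nat_lit 3550842143) (nat_lit 228) (nat_lit 5314807465) (nat_lit 304) (nat_lit 4822543967) (nat_lit 52) (nat_lit 5) (nat_lit 55) (nat_lit 5) (nat_lit 56) (nat_lit 5) (nat_lit 489) (nat_lit 352) (nat_lit 299)) (XT.nd (nat_lit 78) (nat_lit 228) (nat_lit 0) (XT.lf (nat_lit 0) (nat_lit 12386283089) (nat_lit 228) (nat_lit 871191693) (nat_lit 304) (nat_lit 602682545) (nat_lit 52) (nat_lit 5) (nat_lit 55) (nat_lit 5) (nat_lit 56) (nat_lit 5) (nat_lit 490) (nat_lit 352) (nat_lit 298)) (XT.lf (nat_lit 0) (nat_lit 3683930231) (nat_lit 228) (nat_lit 6694396075) (nat_lit 76) (nat_lit 3656140480) (nat_lit 49) (nat_lit 5) (nat_lit 52) (nat_lit 5) (nat_lit 50) (nat_lit 5) (nat_lit 491) (nat_lit 352) (nat_lit 297)))) (XT.nd (nat_lit 78)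 (nat_lit 228) (nat_lit 0) (XT.lf (nat_lit 0) (nat_lit 2084743563) (nat_lit 228) (nat_lit 5951915271) (nat_lit 304) (nat_lit 6175759868) (nat_lit 46) (nat_lit 5) (nat_lit 49) (nat_lit 5) (nat_lit 50) (nat_lit 5) (nat_lit 492) (nat_lit 352) (nat_lit 296)) (XT.nd (nat_lit 78) (nat_lit 228) (nat_lit 0) (XT.lf (nat_lit 0) (nat_lit 11059696617) (nat_lit 228) (nat_lit 1421195742) (nat_lit 304) (nat_lit 1912953204) (nat_lit 46) (nat_lit 5) (nat_lit 49) (nat_lit 5) (nat_lit 50) (nat_lit 5) (nat_lit 493) (nat_lit 352) (nat_lit 295)) (XT.lf (nat_lit 0) (nat_lit 2420668781) (nat_lit 228) (nat_lit 8976064829) (nat_lit 76) (nat_lit 3181505945) (nat_lit 43) (nat_lit 5) (nat_lit 46) (nat_lit 5) (nat_lit 44) (nat_lit 5) (nat_lit 494) (nat_lit 352) (nat_lit 294)))))) (XT.nd (nat_lit 390) (nat_lit 608) (nat_lit 0) (XT.nd (nat_lit 156) (nat_lit 380) (nat_lit 0) (XT.nd (nat_lit 78) (nat_lit 228) (nat_lit 0) (XT.lf (nat_lit 0) (nat_lit 6807501908)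 (nat_lit 228) (nat_lit 95495481) (nat_lit 76) (nat_lit 7863232714) (nat_lit 43) (nat_lit 5) (nat_lit 46) (nat_lit 5) (nat_lit 44) (nat_lit 5) (nat_lit 495) (nat_lit 352) (nat_lit 293)) (XT.lf (nat_lit 0) (nat_lit 9012440875) (nat_lit 228) (nat_lit 2289121293) (nat_lit 304) (nat_lit 3656033024) (nat_lit 40) (nat_lit 5) (nat_lit 43) (nat_lit 5) (nat_lit 44) (nat_lit 5) (nat_lit 496) (nat_lit 352) (nat_lit 292))) (XT.nd (nat_lit 78) (nat_lit 152) (nat_lit 0) (XT.lf (nat_lit 0) (nat_lit 720709680) (nat_lit 228) (nat_lit 12050048936) (nat_lit 76) (nat_lit 2381986118) (nat_lit 37) (nat_lit 5) (nat_lit 40) (nat_lit 5) (nat_lit 38) (nat_lit 5) (nat_lit 497) (nat_lit 352) (nat_lit 291)) (XT.nd (nat_lit 78) (nat_lit 152) (nat_lit 0) (XT.lf (nat_lit 0) (nat_lit 5152567510) (nat_lit 228) (nat_lit 3047195658) (nat_lit 76) (nat_lit 7151224358) (nat_lit 37) (nat_lit 5) (nat_lit 40) (nat_lit 5) (nat_lit 38) (nat_lit 5) (nat_lit 498)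 (nat_lit 352) (nat_lit 290)) (XT.lf (nat_lit 0) (nat_lit 6149055503) (nat_lit 152) (nat_lit 3525861848) (nat_lit 228) (nat_lit 5878244920) (nat_lit 35) (nat_lit 5) (nat_lit 37) (nat_lit 5) (nat_lit 38) (nat_lit 5) (nat_lit 499) (nat_lit 352) (nat_lit 289))))) (XT.nd (nat_lit 234) (nat_lit 228) (nat_lit 0) (XT.nd (nat_lit 78) (nat_lit 380) (nat_lit 0) (XT.lf (nat_lit 0) (nat_lit 14278413118) (nat_lit 228) (nat_lit 264063115) (nat_lit 76) (nat_lit 1217094412) (nat_lit 35) (nat_lit 5) (nat_lit 38) (nat_lit 5) (nat_lit 36) (nat_lit 4) (nat_lit 500) (nat_lit 352) (nat_lit 288)) (XT.nd (nat_lit 78) (nat_lit 152) (nat_lit 0) (XT.lf (nat_lit 0) (nat_lit 3009927638) (nat_lit 228) (nat_lit 6900491754) (nat_lit 76) (nat_lit 6058392636) (nat_lit 32) (nat_lit 5) (nat_lit 35) (nat_lit 5) (nat_lit 33) (nat_lit 5) (nat_lit 501) (nat_lit 352) (nat_lit 287)) (XT.lf (nat_lit 0) (nat_lit 2363735050) (nat_lit 152) (nat_lit 5187269239) (nat_lit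 228) (nat_lit 8631441966) (nat_lit 30) (nat_lit 5) (nat_lit 32) (nat_lit 5) (nat_lit 33) (nat_lit 5) (nat_lit 502) (nat_lit 352) (nat_lit 286)))) (XT.nd (nat_lit 78) (nat_lit 228) (nat_lit 0) (XT.lf (nat_lit 0) (nat_lit 11841046709) (nat_lit 152) (nat_lit 351316519) (nat_lit 228) (nat_lit 4207804522) (nat_lit 30) (nat_lit 5) (nat_lit 32) (nat_lit 5) (nat_lit 33) (nat_lit 5) (nat_lit 503) (nat_lit 352) (nat_lit 285)) (XT.nd (nat_lit 78) (nat_lit 0) (nat_lit 0) (XT.lf (nat_lit 0) (nat_lit 325434060) (nat_lit 228) (nat_lit 11769295618) (nat_lit 76) (nat_lit 4526975745) (nat_lit 27) (nat_lit 5) (nat_lit 30) (nat_lit 5) (nat_lit 28) (nat_lit 5) (nat_lit 504) (nat_lit 352) (nat_lit 284)) (XT.lf (nat_lit 0) (nat_lit 4889914858) (nat_lit 228) (nat_lit 2428534864) (nat_lit 76) (nat_lit 9528733036) (nat_lit 27) (nat_lit 5) (nat_lit 30) (nat_lit 5) (nat_lit 28) (nat_lit 5) (nat_lit 505) (nat_lit 352) (nat_lit 283))))))))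
noncomputable def xc31 : XT := (XT.nd (nat_lit 55302) (nat_lit 0) (nat_lit 4636) (XT.nd (nat_lit 54444) (nat_lit 0) (nat_lit 10944) (XT.nd (nat_lit 53976) (nat_lit 0) (nat_lit 15200) (XT.nd (nat_lit 53742) (nat_lit 0) (nat_lit 18468) (XT.nd (nat_lit 78) (nat_lit 0) (nat_lit 0) (XT.lf (nat_lit 0) (nat_lit 7128762787) (nat_lit 152) (nat_lit 2427662010) (nat_lit 228) (nat_lit 7520533562) (nat_lit 25) (nat_lit 5) (nat_lit 27) (nat_lit 5) (nat_lit 28) (nat_lit 5) (nat_lit 506) (nat_lit 352) (nat_lit 282)) (XT.lf (nat_lit 0) (nat_lit 14313855031) (nat_lit 228) (nat_lit 481492956) (nat_lit 76) (nat_lit 2516033123) (nat_lit 25) (nat_lit 5) (nat_lit 28) (nat_lit 5) (nat_lit 26) (nat_lit 4) (nat_lit 507) (nat_lit 352) (nat_lit 281))) (XT.nd (nat_lit 78) (nat_lit 684) (nat_lit 0) (XT.lf (nat_lit 0) (nat_lit 573688891) (nat_lit 684) (nat_lit 1688339868) (nat_lit 684) (nat_lit 1688339868) (nat_lit 277) (nat_lit 4) (nat_lit 286) (nat_lit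 5) (nat_lit 286) (nat_lit 4) (nat_lit 434) (nat_lit 353) (nat_lit 353)) (XT.nd (nat_lit 78) (nat_lit 608) (nat_lit 0) (XT.lf (nat_lit 0) (nat_lit 329652690) (nat_lit 760) (nat_lit 611833852) (nat_lit 76) (nat_lit 7015851402) (nat_lit 276) (nat_lit 5) (nat_lit 286) (nat_lit 5) (nat_lit 277) (nat_lit 4) (nat_lit 435) (nat_lit 353) (nat_lit 352)) (XT.lf (nat_lit 0) (nat_lit 4046407070) (nat_lit 684) (nat_lit 2402997603) (nat_lit 0) (nat_lit 1565611970) (nat_lit 268) (nat_lit 5) (nat_lit 277) (nat_lit 4) (nat_lit 268) (nat_lit 4) (nat_lit 436) (nat_lit 353) (nat_lit 351))))) (XT.nd (nat_lit 234) (nat_lit 1292) (nat_lit 0) (XT.nd (nat_lit 78) (nat_lit 1292) (nat_lit 0) (XT.lf (nat_lit 0) (nat_lit 3857152480) (nat_lit 684) (nat_lit 3951067436) (nat_lit 684) (nat_lit 266236664) (nat_lit 259) (nat_lit 4) (nat_lit 268) (nat_lit 5) (nat_lit 268) (nat_lit 4) (nat_lit 437) (nat_lit 353) (nat_lit 350)) (XT.nd (nat_lit 78) (nat_lit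 608) (nat_lit 0) (XT.lf (nat_lit 0) (nat_lit 2062077744) (nat_lit 608) (nat_lit 1367296338) (nat_lit 684) (nat_lit 4705972160) (nat_lit 250) (nat_lit 5) (nat_lit 258) (nat_lit 5) (nat_lit 259) (nat_lit 4) (nat_lit 438) (nat_lit 353) (nat_lit 349)) (XT.lf (nat_lit 0) (nat_lit 237233708) (nat_lit 608) (nat_lit 6932583173) (nat_lit 608) (nat_lit 1028132779) (nat_lit 242) (nat_lit 4) (nat_lit 250) (nat_lit 5) (nat_lit 250) (nat_lit 4) (nat_lit 439) (nat_lit 353) (nat_lit 348)))) (XT.nd (nat_lit 78) (nat_lit 1216) (nat_lit 0) (XT.lf (nat_lit 0) (nat_lit 2674123975) (nat_lit 684) (nat_lit 1615062812) (nat_lit 76) (nat_lit 3972553250) (nat_lit 241) (nat_lit 5) (nat_lit 250) (nat_lit 5) (nat_lit 242) (nat_lit 4) (nat_lit 440) (nat_lit 353) (nat_lit 347)) (XT.nd (nat_lit 78) (nat_lit 684) (nat_lit 0) (XT.lf (nat_lit 0) (nat_lit 4832368618) (nat_lit 532) (nat_lit 1573420523) (nat_lit 608) (nat_lit 1921518215) (nat_lit 234) (nat_lit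 5) (nat_lit 241) (nat_lit 5) (nat_lit 242) (nat_lit 4) (nat_lit 441) (nat_lit 353) (nat_lit 346)) (XT.lf (nat_lit 0) (nat_lit 1770257007) (nat_lit 684) (nat_lit 5420624637) (nat_lit 76) (nat_lit 1203563256) (nat_lit 225) (nat_lit 5) (nat_lit 234) (nat_lit 5) (nat_lit 226) (nat_lit 4) (nat_lit 442) (nat_lit 353) (nat_lit 345)))))) (XT.nd (nat_lit 390) (nat_lit 1976) (nat_lit 0) (XT.nd (nat_lit 156) (nat_lit 1672) (nat_lit 0) (XT.nd (nat_lit 78) (nat_lit 76) (nat_lit 0) (XT.lf (nat_lit 0) (nat_lit 1064956939) (nat_lit 532) (nat_lit 4424713151) (nat_lit 608) (nat_lit 2973428971) (nat_lit 218) (nat_lit 5) (nat_lit 225) (nat_lit 5) (nat_lit 226) (nat_lit 4) (nat_lit 443) (nat_lit 353) (nat_lit 344)) (XT.lf (nat_lit 0) (nat_lit 715936821) (nat_lit 608) (nat_lit 866653562) (nat_lit 76) (nat_lit 6950947638) (nat_lit 217) (nat_lit 5) (nat_lit 225) (nat_lit 5) (nat_lit 218) (nat_lit 5) (nat_lit 444) (nat_lit 353) (nat_lit 343)))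 (XT.nd (nat_lit 78) (nat_lit 1140) (nat_lit 0) (XT.lf (nat_lit 0) (nat_lit 4425580320) (nat_lit 608) (nat_lit 2844041921) (nat_lit 76) (nat_lit 1335661791) (nat_lit 210) (nat_lit 5) (nat_lit 218) (nat_lit 5) (nat_lit 211) (nat_lit 4) (nat_lit 445) (nat_lit 353) (nat_lit 342)) (XT.nd (nat_lit 78) (nat_lit 608) (nat_lit 0) (XT.lf (nat_lit 0) (nat_lit 3812805359) (nat_lit 532) (nat_lit 4378230996) (nat_lit 608) (nat_lit 487813324) (nat_lit 203) (nat_lit 5) (nat_lit 210) (nat_lit 5) (nat_lit 211) (nat_lit 4) (nat_lit 446) (nat_lit 353) (nat_lit 341)) (XT.lf (nat_lit 0) (nat_lit 1808099668) (nat_lit 532) (nat_lit 1398537479) (nat_lit 608) (nat_lit 5547406034) (nat_lit 195) (nat_lit 5) (nat_lit 202) (nat_lit 5) (nat_lit 203) (nat_lit 5) (nat_lit 447) (nat_lit 353) (nat_lit 340))))) (XT.nd (nat_lit 234) (nat_lit 988) (nat_lit 0) (XT.nd (nat_lit 78) (nat_lit 988) (nat_lit 0) (XT.lf (nat_lit 0) (nat_lit 6953219359) (nat_lit 608)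 (nat_lit 245041383) (nat_lit 76) (nat_lit 1632735956) (nat_lit 195) (nat_lit 5) (nat_lit 203) (nat_lit 5) (nat_lit 196) (nat_lit 4) (nat_lit 448) (nat_lit 353) (nat_lit 339)) (XT.nd (nat_lit 78) (nat_lit 456) (nat_lit 0) (XT.lf (nat_lit 0) (nat_lit 1835149039) (nat_lit 532) (nat_lit 2335618418) (nat_lit 76) (nat_lit 4738607754) (nat_lit 188) (nat_lit 5) (nat_lit 195) (nat_lit 5) (nat_lit 189) (nat_lit 5) (nat_lit 449) (nat_lit 353) (nat_lit 338)) (XT.lf (nat_lit 0) (nat_lit 4508478824) (nat_lit 456) (nat_lit 1062274919) (nat_lit 532) (nat_lit 3418863238) (nat_lit 182) (nat_lit 5) (nat_lit 188) (nat_lit 5) (nat_lit 189) (nat_lit 5) (nat_lit 450) (nat_lit 353) (nat_lit 337)))) (XT.nd (nat_lit 78) (nat_lit 456) (nat_lit 0) (XT.lf (nat_lit 0) (nat_lit 293468168) (nat_lit 532) (nat_lit 6687813329) (nat_lit 76) (nat_lit 2090398054) (nat_lit 175) (nat_lit 5) (nat_lit 182) (nat_lit 5) (nat_lit 176) (nat_lit 5) (nat_lit 451)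 (nat_lit 353) (nat_lit 336)) (XT.nd (nat_lit 78) (nat_lit 0) (nat_lit 0) (XT.lf (nat_lit 0) (nat_lit 182792156) (nat_lit 456) (nat_lit 3833271646) (nat_lit 532) (nat_lit 5139245988) (nat_lit 169) (nat_lit 5) (nat_lit 175) (nat_lit 5) (nat_lit 176) (nat_lit 5) (nat_lit 452) (nat_lit 353) (nat_lit 335)) (XT.lf (nat_lit 0) (nat_lit 7200142003) (nat_lit 456) (nat_lit 601694312) (nat_lit 532) (nat_lit 1439015856) (nat_lit 169) (nat_lit 5) (nat_lit 175) (nat_lit 5) (nat_lit 176) (nat_lit 5) (nat_lit 453) (nat_lit 353) (nat_lit 334))))))) (XT.nd (nat_lit 858) (nat_lit 2812) (nat_lit 0) (XT.nd (nat_lit 390) (nat_lit 1748) (nat_lit 0) (XT.nd (nat_lit 156) (nat_lit 836) (nat_lit 0) (XT.nd (nat_lit 78) (nat_lit 456) (nat_lit 0) (XT.lf (nat_lit 0) (nat_lit 2299269643) (nat_lit 456) (nat_lit 4346257620) (nat_lit 76) (nat_lit 2682394842) (nat_lit 163) (nat_lit 5) (nat_lit 169) (nat_lit 5) (nat_lit 164) (nat_lit 5) (nat_lit 454) (nat_lit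 353) (nat_lit 333)) (XT.lf (nat_lit 0) (nat_lit 2696553357) (nat_lit 456) (nat_lit 3376768588) (nat_lit 532) (nat_lit 3343629089) (nat_lit 157) (nat_lit 5) (nat_lit 163) (nat_lit 5) (nat_lit 164) (nat_lit 5) (nat_lit 455) (nat_lit 353) (nat_lit 332))) (XT.nd (nat_lit 78) (nat_lit 380) (nat_lit 0) (XT.lf (nat_lit 0) (nat_lit 352588159) (nat_lit 380) (nat_lit 33868288) (nat_lit 456) (nat_lit 9121726792) (nat_lit 151) (nat_lit 5) (nat_lit 156) (nat_lit 5) (nat_lit 157) (nat_lit 5) (nat_lit 456) (nat_lit 353) (nat_lit 331)) (XT.nd (nat_lit 78) (nat_lit 380) (nat_lit 0) (XT.lf (nat_lit 0) (nat_lit 4159268177) (nat_lit 456) (nat_lit 2068067983) (nat_lit 76) (nat_lit 3373216449) (nat_lit 151) (nat_lit 5) (nat_lit 157) (nat_lit 5) (nat_lit 152) (nat_lit 5) (nat_lit 457) (nat_lit 353) (nat_lit 330)) (XT.lf (nat_lit 0) (nat_lit 5148608424) (nat_lit 380) (nat_lit 2839187295) (nat_lit 456) (nat_lit 1707380677) (nat_lit 146) (nat_lit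 5) (nat_lit 151) (nat_lit 5) (nat_lit 152) (nat_lit 5) (nat_lit 458) (nat_lit 353) (nat_lit 329))))) (XT.nd (nat_lit 234) (nat_lit 912) (nat_lit 0) (XT.nd (nat_lit 78) (nat_lit 380) (nat_lit 0) (XT.lf (nat_lit 0) (nat_lit 2055968200) (nat_lit 456) (nat_lit 7108339751) (nat_lit 76) (nat_lit 627477109) (nat_lit 140) (nat_lit 5) (nat_lit 146) (nat_lit 5) (nat_lit 141) (nat_lit 5) (nat_lit 459) (nat_lit 353) (nat_lit 328)) (XT.nd (nat_lit 78) (nat_lit 0) (nat_lit 0) (XT.lf (nat_lit 0) (nat_lit 120786166) (nat_lit 380) (nat_lit 5748385410) (nat_lit 456) (nat_lit 4020991135) (nat_lit 135) (nat_lit 5) (nat_lit 140) (nat_lit 5) (nat_lit 141) (nat_lit 5) (nat_lit 460) (nat_lit 353) (nat_lit 327)) (XT.lf (nat_lit 0) (nat_lit 7510920084) (nat_lit 380) (nat_lit 2243066635) (nat_lit 456) (nat_lit 236625531) (nat_lit 135) (nat_lit 5) (nat_lit 140) (nat_lit 5) (nat_lit 141) (nat_lit 5) (nat_lit 461) (nat_lit 353) (nat_lit 326)))) (XT.nd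 (nat_lit 78) (nat_lit 456) (nat_lit 0) (XT.lf (nat_lit 0) (nat_lit 3564997139) (nat_lit 456) (nat_lit 5184149715) (nat_lit 76) (nat_lit 1343682428) (nat_lit 129) (nat_lit 5) (nat_lit 135) (nat_lit 5) (nat_lit 130) (nat_lit 5) (nat_lit 462) (nat_lit 353) (nat_lit 325)) (XT.nd (nat_lit 78) (nat_lit 76) (nat_lit 0) (XT.lf (nat_lit 0) (nat_lit 2214792563) (nat_lit 380) (nat_lit 5219327492) (nat_lit 456) (nat_lit 2763057231) (nat_lit 124) (nat_lit 5) (nat_lit 129) (nat_lit 5) (nat_lit 130) (nat_lit 5) (nat_lit 463) (nat_lit 353) (nat_lit 324)) (XT.lf (nat_lit 0) (nat_lit 1046702775) (nat_lit 456) (nat_lit 557718304) (nat_lit 76) (nat_lit 8699385245) (nat_lit 123) (nat_lit 5) (nat_lit 129) (nat_lit 5) (nat_lit 124) (nat_lit 5) (nat_lit 464) (nat_lit 353) (nat_lit 323)))))) (XT.nd (nat_lit 390) (nat_lit 1444) (nat_lit 0) (XT.nd (nat_lit 156) (nat_lit 684) (nat_lit 0) (XT.nd (nat_lit 78) (nat_lit 380) (nat_lit 0) (XT.lf (nat_lit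 0) (nat_lit 4904780858) (nat_lit 380) (nat_lit 3414980612) (nat_lit 76) (nat_lit 2092268817) (nat_lit 119) (nat_lit 5) (nat_lit 124) (nat_lit 5) (nat_lit 120) (nat_lit 5) (nat_lit 465) (nat_lit 353) (nat_lit 322)) (XT.lf (nat_lit 0) (nat_lit 4153639243) (nat_lit 380) (nat_lit 4677843036) (nat_lit 456) (nat_lit 1691117041) (nat_lit 114) (nat_lit 5) (nat_lit 119) (nat_lit 5) (nat_lit 120) (nat_lit 5) (nat_lit 466) (nat_lit 353) (nat_lit 321))) (XT.nd (nat_lit 78) (nat_lit 304) (nat_lit 0) (XT.lf (nat_lit 0) (nat_lit 1207927850) (nat_lit 304) (nat_lit 945687322) (nat_lit 380) (nat_lit 8481865195) (nat_lit 109) (nat_lit 5) (nat_lit 113) (nat_lit 5) (nat_lit 114) (nat_lit 5) (nat_lit 467) (nat_lit 353) (nat_lit 320)) (XT.nd (nat_lit 78) (nat_lit 304) (nat_lit 0) (XT.lf (nat_lit 0) (nat_lit 6064738373) (nat_lit 380) (nat_lit 1835900363) (nat_lit 76) (nat_lit 2849523186) (nat_lit 109) (nat_lit 5) (nat_lit 114) (nat_lit 5) (nat_lit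 110) (nat_lit 5) (nat_lit 468) (nat_lit 353) (nat_lit 319)) (XT.lf (nat_lit 0) (nat_lit 5901501800) (nat_lit 304) (nat_lit 4148652595) (nat_lit 380) (nat_lit 817070385) (nat_lit 105) (nat_lit 5) (nat_lit 109) (nat_lit 5) (nat_lit 110) (nat_lit 5) (nat_lit 469) (nat_lit 353) (nat_lit 318))))) (XT.nd (nat_lit 234) (nat_lit 760) (nat_lit 0) (XT.nd (nat_lit 78) (nat_lit 304) (nat_lit 0) (XT.lf (nat_lit 0) (nat_lit 2770736319) (nat_lit 304) (nat_lit 298888743) (nat_lit 380) (nat_lit 7916966134) (nat_lit 100) (nat_lit 5) (nat_lit 104) (nat_lit 5) (nat_lit 105) (nat_lit 5) (nat_lit 470) (nat_lit 353) (nat_lit 317)) (XT.nd (nat_lit 78) (nat_lit 304) (nat_lit 0) (XT.lf (nat_lit 0) (nat_lit 7032100954) (nat_lit 380) (nat_lit 485261908) (nat_lit 76) (nat_lit 3590702874) (nat_lit 100) (nat_lit 5) (nat_lit 105) (nat_lit 5) (nat_lit 101) (nat_lit 5) (nat_lit 471) (nat_lit 353) (nat_lit 316)) (XT.lf (nat_lit 0) (nat_lit 7419155688)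 (nat_lit 304) (nat_lit 3657642742) (nat_lit 380) (nat_lit 155120284) (nat_lit 96) (nat_lit 5) (nat_lit 100) (nat_lit 5) (nat_lit 101) (nat_lit 5) (nat_lit 472) (nat_lit 353) (nat_lit 315)))) (XT.nd (nat_lit 78) (nat_lit 380) (nat_lit 0) (XT.lf (nat_lit 0) (nat_lit 3778433223) (nat_lit 380) (nat_lit 7277716968) (nat_lit 76) (nat_lit 301913274) (nat_lit 91) (nat_lit 5) (nat_lit 96) (nat_lit 5) (nat_lit 92) (nat_lit 5) (nat_lit 473) (nat_lit 353) (nat_lit 314)) (XT.nd (nat_lit 78) (nat_lit 76) (nat_lit 0) (XT.lf (nat_lit 0) (nat_lit 602773758) (nat_lit 304) (nat_lit 7192881443) (nat_lit 380) (nat_lit 3690921816) (nat_lit 87) (nat_lit 5) (nat_lit 91) (nat_lit 5) (nat_lit 92) (nat_lit 5) (nat_lit 474) (nat_lit 353) (nat_lit 313)) (XT.lf (nat_lit 0) (nat_lit 274398254) (nat_lit 380) (nat_lit 2955890084) (nat_lit 76) (nat_lit 8387295288) (nat_lit 86) (nat_lit 5) (nat_lit 91) (nat_lit 5) (nat_lit 87) (nat_lit 5) (nat_lit 475)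 (nat_lit 353) (nat_lit 312))))))))
noncomputable def xc32 : XT := (XT.nd (nat_lit 1638) (nat_lit 1140) (nat_lit 0) (XT.nd (nat_lit 780) (nat_lit 1596) (nat_lit 0) (XT.nd (nat_lit 390) (nat_lit 836) (nat_lit 0) (XT.nd (nat_lit 156) (nat_lit 532) (nat_lit 0) (XT.nd (nat_lit 78) (nat_lit 304) (nat_lit 0) (XT.lf (nat_lit 0) (nat_lit 4262414790) (nat_lit 304) (nat_lit 6658561675) (nat_lit 76) (nat_lit 829897180) (nat_lit 83) (nat_lit 5) (nat_lit 87) (nat_lit 5) (nat_lit 84) (nat_lit 5) (nat_lit 476) (nat_lit 353) (nat_lit 311)) (XT.lf (nat_lit 0) (nat_lit 1376291876) (nat_lit 304) (nat_lit 6958625341) (nat_lit 380) (nat_lit 3551825037) (nat_lit 79) (nat_lit 5) (nat_lit 83) (nat_lit 5) (nat_lit 84) (nat_lit 5) (nat_lit 477) (nat_lit 353) (nat_lit 310))) (XT.nd (nat_lit 78) (nat_lit 456) (nat_lit 0) (XT.lf (nat_lit 0) (nat_lit 456971957) (nat_lit 380) (nat_lit 2441102245) (nat_lit 76) (nat_lit 9127210662) (nat_lit 78) (nat_lit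 5) (nat_lit 83) (nat_lit 5) (nat_lit 79) (nat_lit 5) (nat_lit 478) (nat_lit 353) (nat_lit 309)) (XT.nd (nat_lit 78) (nat_lit 228) (nat_lit 0) (XT.lf (nat_lit 0) (nat_lit 4499589419) (nat_lit 304) (nat_lit 6406792342) (nat_lit 76) (nat_lit 1259729824) (nat_lit 75) (nat_lit 5) (nat_lit 79) (nat_lit 5) (nat_lit 76) (nat_lit 5) (nat_lit 479) (nat_lit 353) (nat_lit 308)) (XT.lf (nat_lit 0) (nat_lit 1777222507) (nat_lit 228) (nat_lit 6848687368) (nat_lit 304) (nat_lit 3683794699) (nat_lit 72) (nat_lit 5) (nat_lit 75) (nat_lit 5) (nat_lit 76) (nat_lit 5) (nat_lit 480) (nat_lit 353) (nat_lit 307))))) (XT.nd (nat_lit 156) (nat_lit 532) (nat_lit 0) (XT.nd (nat_lit 78) (nat_lit 228) (nat_lit 0) (XT.lf (nat_lit 0) (nat_lit 372623038) (nat_lit 304) (nat_lit 2320592459) (nat_lit 76) (nat_lit 9762931230) (nat_lit 71) (nat_lit 5) (nat_lit 75) (nat_lit 5) (nat_lit 72) (nat_lit 5) (nat_lit 481) (nat_lit 353) (nat_lit 306)) (XT.lf (nat_lit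 0) (nat_lit 4466943552) (nat_lit 304) (nat_lit 6577909007) (nat_lit 76) (nat_lit 1560062515) (nat_lit 68) (nat_lit 5) (nat_lit 72) (nat_lit 5) (nat_lit 69) (nat_lit 5) (nat_lit 482) (nat_lit 353) (nat_lit 305))) (XT.nd (nat_lit 78) (nat_lit 304) (nat_lit 0) (XT.lf (nat_lit 0) (nat_lit 1748616252) (nat_lit 228) (nat_lit 6896181048) (nat_lit 304) (nat_lit 4111834782) (nat_lit 65) (nat_lit 5) (nat_lit 68) (nat_lit 5) (nat_lit 69) (nat_lit 5) (nat_lit 483) (nat_lit 353) (nat_lit 304)) (XT.nd (nat_lit 78) (nat_lit 304) (nat_lit 0) (XT.lf (nat_lit 0) (nat_lit 10258274215) (nat_lit 228) (nat_lit 2649233677) (nat_lit 304) (nat_lit 3855653) (nat_lit 65) (nat_lit 5) (nat_lit 68) (nat_lit 5) (nat_lit 69) (nat_lit 5) (nat_lit 484) (nat_lit 353) (nat_lit 303)) (XT.lf (nat_lit 0) (nat_lit 4138219803) (nat_lit 304) (nat_lit 7233175307) (nat_lit 76) (nat_lit 1697119987) (nat_lit 61) (nat_lit 5) (nat_lit 65) (nat_lit 5) (nat_lit 62)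 (nat_lit 5) (nat_lit 485) (nat_lit 353) (nat_lit 302)))))) (XT.nd (nat_lit 390) (nat_lit 912) (nat_lit 0) (XT.nd (nat_lit 156) (nat_lit 456) (nat_lit 0) (XT.nd (nat_lit 78) (nat_lit 0) (nat_lit 0) (XT.lf (nat_lit 0) (nat_lit 1227568834) (nat_lit 228) (nat_lit 7136843437) (nat_lit 304) (nat_lit 4864376113) (nat_lit 58) (nat_lit 5) (nat_lit 61) (nat_lit 5) (nat_lit 62) (nat_lit 5) (nat_lit 486) (nat_lit 353) (nat_lit 301)) (XT.lf (nat_lit 0) (nat_lit 9884158284) (nat_lit 228) (nat_lit 2797761465) (nat_lit 304) (nat_lit 710217209) (nat_lit 58) (nat_lit 5) (nat_lit 61) (nat_lit 5) (nat_lit 62) (nat_lit 5) (nat_lit 487) (nat_lit 353) (nat_lit 300))) (XT.nd (nat_lit 78) (nat_lit 228) (nat_lit 0) (XT.lf (nat_lit 0) (nat_lit 3483614746) (nat_lit 228) (nat_lit 8440286138) (nat_lit 76) (nat_lit 1634342101) (nat_lit 55) (nat_lit 5) (nat_lit 58) (nat_lit 5) (nat_lit 56) (nat_lit 5) (nat_lit 488) (nat_lit 353) (nat_lit 299)) (XT.nd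 (nat_lit 78) (nat_lit 0) (nat_lit 0) (XT.lf (nat_lit 0) (nat_lit 144532338) (nat_lit 228) (nat_lit 7609410636) (nat_lit 304) (nat_lit 5973596998) (nat_lit 52) (nat_lit 5) (nat_lit 55) (nat_lit 5) (nat_lit 56) (nat_lit 5) (nat_lit 489) (nat_lit 353) (nat_lit 298)) (XT.lf (nat_lit 0) (nat_lit 8945184851) (nat_lit 228) (nat_lit 3180437824) (nat_lit 304) (nat_lit 1774286539) (nat_lit 52) (nat_lit 5) (nat_lit 55) (nat_lit 5) (nat_lit 56) (nat_lit 5) (nat_lit 490) (nat_lit 353) (nat_lit 297))))) (XT.nd (nat_lit 234) (nat_lit 456) (nat_lit 0) (XT.nd (nat_lit 78) (nat_lit 228) (nat_lit 0) (XT.lf (nat_lit 0) (nat_lit 2469441422) (nat_lit 228) (nat_lit 10274102053) (nat_lit 76) (nat_lit 1331994829) (nat_lit 49) (nat_lit 5) (nat_lit 52) (nat_lit 5) (nat_lit 50) (nat_lit 5) (nat_lit 491) (nat_lit 353) (nat_lit 296)) (XT.nd (nat_lit 78) (nat_lit 228) (nat_lit 0) (XT.lf (nat_lit 0) (nat_lit 6788825205) (nat_lit 228) (nat_lit 1556754140)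 (nat_lit 76) (nat_lit 5908580203) (nat_lit 49) (nat_lit 5) (nat_lit 52) (nat_lit 5) (nat_lit 50) (nat_lit 5) (nat_lit 492) (nat_lit 353) (nat_lit 295)) (XT.lf (nat_lit 0) (nat_lit 7363287173) (nat_lit 228) (nat_lit 3839886687) (nat_lit 304) (nat_lit 3233012631) (nat_lit 46) (nat_lit 5) (nat_lit 49) (nat_lit 5) (nat_lit 50) (nat_lit 5) (nat_lit 493) (nat_lit 353) (nat_lit 294)))) (XT.nd (nat_lit 78) (nat_lit 228) (nat_lit 0) (XT.lf (nat_lit 0) (nat_lit 1057753163) (nat_lit 228) (nat_lit 12817457667) (nat_lit 76) (nat_lit 746746741) (nat_lit 43) (nat_lit 5) (nat_lit 46) (nat_lit 5) (nat_lit 44) (nat_lit 5) (nat_lit 494) (nat_lit 353) (nat_lit 293)) (XT.nd (nat_lit 78) (nat_lit 228) (nat_lit 0) (XT.lf (nat_lit 0) (nat_lit 5425267343) (nat_lit 228) (nat_lit 3970771567) (nat_lit 76) (nat_lit 5414297835) (nat_lit 43) (nat_lit 5) (nat_lit 46) (nat_lit 5) (nat_lit 44) (nat_lit 5) (nat_lit 495) (nat_lit 353) (nat_lit 292)) (XT.lf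 (nat_lit 0) (nat_lit 5052004079) (nat_lit 228) (nat_lit 4822669599) (nat_lit 304) (nat_lit 5127923438) (nat_lit 40) (nat_lit 5) (nat_lit 43) (nat_lit 5) (nat_lit 44) (nat_lit 5) (nat_lit 496) (nat_lit 353) (nat_lit 291))))))) (XT.nd (nat_lit 54288) (nat_lit 0) (nat_lit 15200) (XT.nd (nat_lit 390) (nat_lit 532) (nat_lit 0) (XT.nd (nat_lit 156) (nat_lit 380) (nat_lit 0) (XT.nd (nat_lit 78) (nat_lit 228) (nat_lit 0) (XT.lf (nat_lit 0) (nat_lit 14242399435) (nat_lit 228) (nat_lit 159372955) (nat_lit 304) (nat_lit 797160583) (nat_lit 40) (nat_lit 5) (nat_lit 43) (nat_lit 5) (nat_lit 44) (nat_lit 5) (nat_lit 497) (nat_lit 353) (nat_lit 290)) (XT.lf (nat_lit 0) (nat_lit 3618936751) (nat_lit 228) (nat_lit 7192518176) (nat_lit 76) (nat_lit 4586350735) (nat_lit 37) (nat_lit 5) (nat_lit 40) (nat_lit 5) (nat_lit 38) (nat_lit 5) (nat_lit 498) (nat_lit 353) (nat_lit 289))) (XT.nd (nat_lit 78) (nat_lit 228) (nat_lit 0) (XT.lf (nat_lit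 0) (nat_lit 1915543655) (nat_lit 152) (nat_lit 6179779712) (nat_lit 228) (nat_lit 7505578340) (nat_lit 35) (nat_lit 5) (nat_lit 37) (nat_lit 5) (nat_lit 38) (nat_lit 5) (nat_lit 499) (nat_lit 353) (nat_lit 288)) (XT.nd (nat_lit 78) (nat_lit 228) (nat_lit 0) (XT.lf (nat_lit 0) (nat_lit 11237711875) (nat_lit 152) (nat_lit 1434775190) (nat_lit 228) (nat_lit 3135351653) (nat_lit 35) (nat_lit 5) (nat_lit 37) (nat_lit 5) (nat_lit 38) (nat_lit 5) (nat_lit 500) (nat_lit 353) (nat_lit 287)) (XT.lf (nat_lit 0) (nat_lit 1321206604) (nat_lit 228) (nat_lit 11325131131) (nat_lit 76) (nat_lit 3372083525) (nat_lit 32) (nat_lit 5) (nat_lit 35) (nat_lit 5) (nat_lit 33) (nat_lit 5) (nat_lit 501) (nat_lit 353) (nat_lit 286))))) (XT.nd (nat_lit 234) (nat_lit 228) (nat_lit 0) (XT.nd (nat_lit 78) (nat_lit 304) (nat_lit 0) (XT.lf (nat_lit 0) (nat_lit 5828907426) (nat_lit 228) (nat_lit 2124021722) (nat_lit 76) (nat_lit 8279795737) (nat_lit 32)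 (nat_lit 5) (nat_lit 35) (nat_lit 5) (nat_lit 33) (nat_lit 5) (nat_lit 502) (nat_lit 353) (nat_lit 285)) (XT.nd (nat_lit 78) (nat_lit 152) (nat_lit 0) (XT.lf (nat_lit 0) (nat_lit 7293157514) (nat_lit 152) (nat_lit 3145252488) (nat_lit 228) (nat_lit 6012675349) (nat_lit 30) (nat_lit 5) (nat_lit 32) (nat_lit 5) (nat_lit 33) (nat_lit 5) (nat_lit 503) (nat_lit 353) (nat_lit 284)) (XT.lf (nat_lit 0) (nat_lit 181090207) (nat_lit 152) (nat_lit 14950358992) (nat_lit 228) (nat_lit 1542540548) (nat_lit 28) (nat_lit 5) (nat_lit 30) (nat_lit 5) (nat_lit 31) (nat_lit 4) (nat_lit 504) (nat_lit 353) (nat_lit 283)))) (XT.nd (nat_lit 78) (nat_lit 152) (nat_lit 0) (XT.lf (nat_lit 0) (nat_lit 3024574346) (nat_lit 228) (nat_lit 7173694542) (nat_lit 76) (nat_lit 6701752167) (nat_lit 27) (nat_lit 5) (nat_lit 30) (nat_lit 5) (nat_lit 28) (nat_lit 5) (nat_lit 505) (nat_lit 353) (nat_lit 282)) (XT.nd (nat_lit 78) (nat_lit 0) (nat_lit 0) (XT.lf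 (nat_lit 0) (nat_lit 2289179187) (nat_lit 152) (nat_lit 5353231744) (nat_lit 228) (nat_lit 9488360895) (nat_lit 25) (nat_lit 5) (nat_lit 27) (nat_lit 5) (nat_lit 28) (nat_lit 5) (nat_lit 506) (nat_lit 353) (nat_lit 281)) (XT.lf (nat_lit 0) (nat_lit 11976440179) (nat_lit 152) (nat_lit 389735196) (nat_lit 228) (nat_lit 4999694188) (nat_lit 25) (nat_lit 5) (nat_lit 27) (nat_lit 5) (nat_lit 28) (nat_lit 5) (nat_lit 507) (nat_lit 353) (nat_lit 280)))))) (XT.nd (nat_lit 390) (nat_lit 3268) (nat_lit 0) (XT.nd (nat_lit 156) (nat_lit 1368) (nat_lit 0) (XT.nd (nat_lit 78) (nat_lit 760) (nat_lit 0) (XT.lf (nat_lit 0) (nat_lit 2329798045) (nat_lit 760) (nat_lit 783045999) (nat_lit 760) (nat_lit 783045999) (nat_lit 296) (nat_lit 4) (nat_lit 306) (nat_lit 5) (nat_lit 306) (nat_lit 4) (nat_lit 432) (nat_lit 354) (nat_lit 354)) (XT.lf (nat_lit 0) (nat_lit 2101511164) (nat_lit 760) (nat_lit 4946138410) (nat_lit 0) (nat_lit 798224230)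 (nat_lit 286) (nat_lit 5) (nat_lit 296) (nat_lit 4) (nat_lit 286) (nat_lit 4) (nat_lit 433) (nat_lit 354) (nat_lit 353))) (XT.nd (nat_lit 78) (nat_lit 684) (nat_lit 0) (XT.lf (nat_lit 0) (nat_lit 1106737054) (nat_lit 684) (nat_lit 4687843169) (nat_lit 684) (nat_lit 2106823947) (nat_lit 277) (nat_lit 4) (nat_lit 286) (nat_lit 5) (nat_lit 286) (nat_lit 4) (nat_lit 434) (nat_lit 354) (nat_lit 352)) (XT.nd (nat_lit 78) (nat_lit 608) (nat_lit 0) (XT.lf (nat_lit 0) (nat_lit 1550508320) (nat_lit 760) (nat_lit 701671127) (nat_lit 76) (nat_lit 5706318606) (nat_lit 276) (nat_lit 5) (nat_lit 286) (nat_lit 5) (nat_lit 277) (nat_lit 4) (nat_lit 435) (nat_lit 354) (nat_lit 351)) (XT.lf (nat_lit 0) (nat_lit 5226134229) (nat_lit 684) (nat_lit 2527304880) (nat_lit 0) (nat_lit 263571169) (nat_lit 268) (nat_lit 5) (nat_lit 277) (nat_lit 4) (nat_lit 268) (nat_lit 4) (nat_lit 436) (nat_lit 354) (nat_lit 350))))) (XT.nd (nat_lit 234) (nat_lit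 1824) (nat_lit 0) (XT.nd (nat_lit 78) (nat_lit 684) (nat_lit 0) (XT.lf (nat_lit 0) (nat_lit 866841228) (nat_lit 760) (nat_lit 4391970907) (nat_lit 76) (nat_lit 2818184276) (nat_lit 258) (nat_lit 5) (nat_lit 268) (nat_lit 5) (nat_lit 259) (nat_lit 4) (nat_lit 437) (nat_lit 354) (nat_lit 349)) (XT.nd (nat_lit 78) (nat_lit 76) (nat_lit 0) (XT.lf (nat_lit 0) (nat_lit 1842821540) (nat_lit 608) (nat_lit 2683462236) (nat_lit 684) (nat_lit 3612231578) (nat_lit 250) (nat_lit 5) (nat_lit 258) (nat_lit 5) (nat_lit 259) (nat_lit 4) (nat_lit 438) (nat_lit 354) (nat_lit 348)) (XT.lf (nat_lit 0) (nat_lit 23714541) (nat_lit 684) (nat_lit 20494592) (nat_lit 76) (nat_lit 8157731701) (nat_lit 249) (nat_lit 5) (nat_lit 258) (nat_lit 5) (nat_lit 250) (nat_lit 5) (nat_lit 439) (nat_lit 354) (nat_lit 347)))) (XT.nd (nat_lit 78) (nat_lit 1216) (nat_lit 0) (XT.lf (nat_lit 0) (nat_lit 3681243678) (nat_lit 684) (nat_lit 1923891930) (nat_lit 76)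 (nat_lit 2661096695) (nat_lit 241) (nat_lit 5) (nat_lit 250) (nat_lit 5) (nat_lit 242) (nat_lit 4) (nat_lit 440) (nat_lit 354) (nat_lit 346)) (XT.nd (nat_lit 78) (nat_lit 684) (nat_lit 0) (XT.lf (nat_lit 0) (nat_lit 4479254230) (nat_lit 532) (nat_lit 2901145577) (nat_lit 608) (nat_lit 952059534) (nat_lit 234) (nat_lit 5) (nat_lit 241) (nat_lit 5) (nat_lit 242) (nat_lit 4) (nat_lit 441) (nat_lit 354) (nat_lit 345)) (XT.lf (nat_lit 0) (nat_lit 2572160059) (nat_lit 608) (nat_lit 114175761) (nat_lit 684) (nat_lit 5713957652) (nat_lit 225) (nat_lit 5) (nat_lit 233) (nat_lit 5) (nat_lit 234) (nat_lit 5) (nat_lit 442) (nat_lit 354) (nat_lit 344))))))))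
noncomputable def xc33 : XT := (XT.nd (nat_lit 1716) (nat_lit 4712) (nat_lit 0) (XT.nd (nat_lit 858) (nat_lit 3496) (nat_lit 0) (XT.nd (nat_lit 390) (nat_lit 1976) (nat_lit 0) (XT.nd (nat_lit 156) (nat_lit 1672) (nat_lit 0) (XT.nd (nat_lit 78) (nat_lit 76) (nat_lit 0) (XT.lf (nat_lit 0) (nat_lit 612170193) (nat_lit 532) (nat_lit 5760080506) (nat_lit 608) (nat_lit 2097375887) (nat_lit 218) (nat_lit 5) (nat_lit 225) (nat_lit 5) (nat_lit 226) (nat_lit 4) (nat_lit 443) (nat_lit 354) (nat_lit 343)) (XT.lf (nat_lit 0) (nat_lit 1550805330) (nat_lit 608) (nat_lit 1371876226) (nat_lit 76) (nat_lit 5617872769) (nat_lit 217) (nat_lit 5) (nat_lit 225) (nat_lit 5) (nat_lit 218) (nat_lit 5) (nat_lit 444) (nat_lit 354) (nat_lit 342))) (XT.nd (nat_lit 78) (nat_lit 1140) (nat_lit 0) (XT.lf (nat_lit 0) (nat_lit 5218312430) (nat_lit 532) (nat_lit 653172) (nat_lit 608) (nat_lit 3394172870) (nat_lit 210) (nat_lit 5) (nat_lit 217) (nat_lit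 5) (nat_lit 218) (nat_lit 5) (nat_lit 445) (nat_lit 354) (nat_lit 341)) (XT.nd (nat_lit 78) (nat_lit 532) (nat_lit 0) (XT.lf (nat_lit 0) (nat_lit 260835303) (nat_lit 608) (nat_lit 5474594318) (nat_lit 76) (nat_lit 2951903531) (nat_lit 202) (nat_lit 5) (nat_lit 210) (nat_lit 5) (nat_lit 203) (nat_lit 5) (nat_lit 446) (nat_lit 354) (nat_lit 340)) (XT.lf (nat_lit 0) (nat_lit 1147905671) (nat_lit 532) (nat_lit 2767945164) (nat_lit 608) (nat_lit 4847281202) (nat_lit 195) (nat_lit 5) (nat_lit 202) (nat_lit 5) (nat_lit 203) (nat_lit 5) (nat_lit 447) (nat_lit 354) (nat_lit 339))))) (XT.nd (nat_lit 234) (nat_lit 988) (nat_lit 0) (XT.nd (nat_lit 78) (nat_lit 988) (nat_lit 0) (XT.lf (nat_lit 0) (nat_lit 7625025946) (nat_lit 608) (nat_lit 945493952) (nat_lit 76) (nat_lit 270321621) (nat_lit 195) (nat_lit 5) (nat_lit 203) (nat_lit 5) (nat_lit 196) (nat_lit 4) (nat_lit 448) (nat_lit 354) (nat_lit 338)) (XT.nd (nat_lit 78) (nat_lit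 456) (nat_lit 0) (XT.lf (nat_lit 0) (nat_lit 2455380621) (nat_lit 532) (nat_lit 3099766329) (nat_lit 76) (nat_lit 3364655616) (nat_lit 188) (nat_lit 5) (nat_lit 195) (nat_lit 5) (nat_lit 189) (nat_lit 5) (nat_lit 449) (nat_lit 354) (nat_lit 337)) (XT.lf (nat_lit 0) (nat_lit 3694257815) (nat_lit 456) (nat_lit 2463588422) (nat_lit 532) (nat_lit 2842868253) (nat_lit 182) (nat_lit 5) (nat_lit 188) (nat_lit 5) (nat_lit 189) (nat_lit 5) (nat_lit 450) (nat_lit 354) (nat_lit 336)))) (XT.nd (nat_lit 78) (nat_lit 456) (nat_lit 0) (XT.lf (nat_lit 0) (nat_lit 819256668) (nat_lit 532) (nat_lit 7570436962) (nat_lit 76) (nat_lit 693868767) (nat_lit 175) (nat_lit 5) (nat_lit 182) (nat_lit 5) (nat_lit 176) (nat_lit 5) (nat_lit 451) (nat_lit 354) (nat_lit 335)) (XT.nd (nat_lit 78) (nat_lit 456) (nat_lit 0) (XT.lf (nat_lit 0) (nat_lit 4513127980) (nat_lit 532) (nat_lit 741959647) (nat_lit 76) (nat_lit 3912686444) (nat_lit 175) (nat_lit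 5) (nat_lit 182) (nat_lit 5) (nat_lit 176) (nat_lit 5) (nat_lit 452) (nat_lit 354) (nat_lit 334)) (XT.lf (nat_lit 0) (nat_lit 6226060513) (nat_lit 456) (nat_lit 2040704841) (nat_lit 532) (nat_lit 987200613) (nat_lit 169) (nat_lit 5) (nat_lit 175) (nat_lit 5) (nat_lit 176) (nat_lit 5) (nat_lit 453) (nat_lit 354) (nat_lit 333)))))) (XT.nd (nat_lit 390) (nat_lit 1748) (nat_lit 0) (XT.nd (nat_lit 156) (nat_lit 836) (nat_lit 0) (XT.nd (nat_lit 78) (nat_lit 456) (nat_lit 0) (XT.lf (nat_lit 0) (nat_lit 2702037941) (nat_lit 456) (nat_lit 5393411157) (nat_lit 76) (nat_lit 1246397106) (nat_lit 163) (nat_lit 5) (nat_lit 169) (nat_lit 5) (nat_lit 164) (nat_lit 5) (nat_lit 454) (nat_lit 354) (nat_lit 332)) (XT.lf (nat_lit 0) (nat_lit 1595699378) (nat_lit 456) (nat_lit 4846536941) (nat_lit 532) (nat_lit 2989322313) (nat_lit 157) (nat_lit 5) (nat_lit 163) (nat_lit 5) (nat_lit 164) (nat_lit 5) (nat_lit 455) (nat_lit 354) (nat_lit 331)))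 (XT.nd (nat_lit 78) (nat_lit 760) (nat_lit 0) (XT.lf (nat_lit 0) (nat_lit 707209870) (nat_lit 532) (nat_lit 809162205) (nat_lit 76) (nat_lit 8006957055) (nat_lit 156) (nat_lit 5) (nat_lit 163) (nat_lit 5) (nat_lit 157) (nat_lit 5) (nat_lit 456) (nat_lit 354) (nat_lit 330)) (XT.nd (nat_lit 78) (nat_lit 380) (nat_lit 0) (XT.lf (nat_lit 0) (nat_lit 4438605385) (nat_lit 456) (nat_lit 3285718773) (nat_lit 76) (nat_lit 1892208716) (nat_lit 151) (nat_lit 5) (nat_lit 157) (nat_lit 5) (nat_lit 152) (nat_lit 5) (nat_lit 457) (nat_lit 354) (nat_lit 329)) (XT.lf (nat_lit 0) (nat_lit 3875480551) (nat_lit 380) (nat_lit 4357472536) (nat_lit 456) (nat_lit 1478893102) (nat_lit 146) (nat_lit 5) (nat_lit 151) (nat_lit 5) (nat_lit 152) (nat_lit 5) (nat_lit 458) (nat_lit 354) (nat_lit 328))))) (XT.nd (nat_lit 234) (nat_lit 912) (nat_lit 0) (XT.nd (nat_lit 78) (nat_lit 380) (nat_lit 0) (XT.lf (nat_lit 0) (nat_lit 1339824156) (nat_lit 380)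 (nat_lit 902924298) (nat_lit 456) (nat_lit 7566456643) (nat_lit 140) (nat_lit 5) (nat_lit 145) (nat_lit 5) (nat_lit 146) (nat_lit 5) (nat_lit 459) (nat_lit 354) (nat_lit 327)) (XT.nd (nat_lit 78) (nat_lit 380) (nat_lit 0) (XT.lf (nat_lit 0) (nat_lit 6023644806) (nat_lit 456) (nat_lit 1275027088) (nat_lit 76) (nat_lit 2609562582) (nat_lit 140) (nat_lit 5) (nat_lit 146) (nat_lit 5) (nat_lit 141) (nat_lit 5) (nat_lit 460) (nat_lit 354) (nat_lit 326)) (XT.lf (nat_lit 0) (nat_lit 6059368983) (nat_lit 380) (nat_lit 3815293482) (nat_lit 456) (nat_lit 134702977) (nat_lit 135) (nat_lit 5) (nat_lit 140) (nat_lit 5) (nat_lit 141) (nat_lit 5) (nat_lit 461) (nat_lit 354) (nat_lit 325)))) (XT.nd (nat_lit 78) (nat_lit 456) (nat_lit 0) (XT.lf (nat_lit 0) (nat_lit 3388300707) (nat_lit 380) (nat_lit 233431184) (nat_lit 456) (nat_lit 6490719636) (nat_lit 129) (nat_lit 5) (nat_lit 134) (nat_lit 5) (nat_lit 135) (nat_lit 5) (nat_lit 462)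 (nat_lit 354) (nat_lit 324)) (XT.nd (nat_lit 78) (nat_lit 76) (nat_lit 0) (XT.lf (nat_lit 0) (nat_lit 616814724) (nat_lit 380) (nat_lit 6837226219) (nat_lit 456) (nat_lit 2763500027) (nat_lit 124) (nat_lit 5) (nat_lit 129) (nat_lit 5) (nat_lit 130) (nat_lit 5) (nat_lit 463) (nat_lit 354) (nat_lit 323)) (XT.lf (nat_lit 0) (nat_lit 1021414328) (nat_lit 456) (nat_lit 2214673218) (nat_lit 76) (nat_lit 7088584512) (nat_lit 123) (nat_lit 5) (nat_lit 129) (nat_lit 5) (nat_lit 124) (nat_lit 5) (nat_lit 464) (nat_lit 354) (nat_lit 322))))))) (XT.nd (nat_lit 858) (nat_lit 1976) (nat_lit 0) (XT.nd (nat_lit 390) (nat_lit 1368) (nat_lit 0) (XT.nd (nat_lit 156) (nat_lit 684) (nat_lit 0) (XT.nd (nat_lit 78) (nat_lit 380) (nat_lit 0) (XT.lf (nat_lit 0) (nat_lit 4833222825) (nat_lit 380) (nat_lit 5143143359) (nat_lit 76) (nat_lit 457460093) (nat_lit 119) (nat_lit 5) (nat_lit 124) (nat_lit 5) (nat_lit 120) (nat_lit 5) (nat_lit 465) (nat_lit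 354) (nat_lit 321)) (XT.lf (nat_lit 0) (nat_lit 2363995116) (nat_lit 380) (nat_lit 6360091424) (nat_lit 456) (nat_lit 1821030296) (nat_lit 114) (nat_lit 5) (nat_lit 119) (nat_lit 5) (nat_lit 120) (nat_lit 5) (nat_lit 466) (nat_lit 354) (nat_lit 320))) (XT.nd (nat_lit 78) (nat_lit 608) (nat_lit 0) (XT.lf (nat_lit 0) (nat_lit 1993411158) (nat_lit 456) (nat_lit 657317861) (nat_lit 76) (nat_lit 8007930209) (nat_lit 113) (nat_lit 5) (nat_lit 119) (nat_lit 5) (nat_lit 114) (nat_lit 5) (nat_lit 467) (nat_lit 354) (nat_lit 319)) (XT.nd (nat_lit 78) (nat_lit 304) (nat_lit 0) (XT.lf (nat_lit 0) (nat_lit 5865096674) (nat_lit 380) (nat_lit 3760275390) (nat_lit 76) (nat_lit 1148761968) (nat_lit 109) (nat_lit 5) (nat_lit 114) (nat_lit 5) (nat_lit 110) (nat_lit 5) (nat_lit 468) (nat_lit 354) (nat_lit 318)) (XT.lf (nat_lit 0) (nat_lit 3913576882) (nat_lit 304) (nat_lit 5900485431) (nat_lit 380) (nat_lit 1077867992) (nat_lit 105) (nat_lit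 5) (nat_lit 109) (nat_lit 5) (nat_lit 110) (nat_lit 5) (nat_lit 469) (nat_lit 354) (nat_lit 317))))) (XT.nd (nat_lit 234) (nat_lit 684) (nat_lit 0) (XT.nd (nat_lit 78) (nat_lit 304) (nat_lit 0) (XT.lf (nat_lit 0) (nat_lit 695028227) (nat_lit 304) (nat_lit 2080260488) (nat_lit 380) (nat_lit 8236785288) (nat_lit 100) (nat_lit 5) (nat_lit 104) (nat_lit 5) (nat_lit 105) (nat_lit 5) (nat_lit 470) (nat_lit 354) (nat_lit 316)) (XT.nd (nat_lit 78) (nat_lit 304) (nat_lit 0) (XT.lf (nat_lit 0) (nat_lit 6702843608) (nat_lit 380) (nat_lit 2612565870) (nat_lit 76) (nat_lit 1818841639) (nat_lit 100) (nat_lit 5) (nat_lit 105) (nat_lit 5) (nat_lit 101) (nat_lit 5) (nat_lit 471) (nat_lit 354) (nat_lit 315)) (XT.lf (nat_lit 0) (nat_lit 5226149955) (nat_lit 304) (nat_lit 5484255473) (nat_lit 380) (nat_lit 548445450) (nat_lit 96) (nat_lit 5) (nat_lit 100) (nat_lit 5) (nat_lit 101) (nat_lit 5) (nat_lit 472) (nat_lit 354) (nat_lit 314))))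 (XT.nd (nat_lit 78) (nat_lit 304) (nat_lit 0) (XT.lf (nat_lit 0) (nat_lit 1798024151) (nat_lit 304) (nat_lit 1552583973) (nat_lit 380) (nat_lit 8035235661) (nat_lit 91) (nat_lit 5) (nat_lit 95) (nat_lit 5) (nat_lit 96) (nat_lit 5) (nat_lit 473) (nat_lit 354) (nat_lit 313)) (XT.nd (nat_lit 78) (nat_lit 304) (nat_lit 0) (XT.lf (nat_lit 0) (nat_lit 7331112847) (nat_lit 380) (nat_lit 1742279799) (nat_lit 76) (nat_lit 2441702874) (nat_lit 91) (nat_lit 5) (nat_lit 96) (nat_lit 5) (nat_lit 92) (nat_lit 5) (nat_lit 474) (nat_lit 354) (nat_lit 312)) (XT.lf (nat_lit 0) (nat_lit 6258445798) (nat_lit 304) (nat_lit 5138696923) (nat_lit 380) (nat_lit 249678863) (nat_lit 87) (nat_lit 5) (nat_lit 91) (nat_lit 5) (nat_lit 92) (nat_lit 5) (nat_lit 475) (nat_lit 354) (nat_lit 311)))))) (XT.nd (nat_lit 390) (nat_lit 1064) (nat_lit 0) (XT.nd (nat_lit 156) (nat_lit 608) (nat_lit 0) (XT.nd (nat_lit 78) (nat_lit 0) (nat_lit 0) (XT.lf (nat_lit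 0) (nat_lit 2597769612) (nat_lit 228) (nat_lit 1099924939) (nat_lit 304) (nat_lit 8083331442) (nat_lit 83) (nat_lit 5) (nat_lit 86) (nat_lit 5) (nat_lit 87) (nat_lit 5) (nat_lit 476) (nat_lit 354) (nat_lit 310)) (XT.lf (nat_lit 0) (nat_lit 7732002761) (nat_lit 304) (nat_lit 1195881118) (nat_lit 76) (nat_lit 2989778153) (nat_lit 83) (nat_lit 5) (nat_lit 87) (nat_lit 5) (nat_lit 84) (nat_lit 5) (nat_lit 477) (nat_lit 354) (nat_lit 309))) (XT.nd (nat_lit 78) (nat_lit 304) (nat_lit 0) (XT.lf (nat_lit 0) (nat_lit 6962854690) (nat_lit 304) (nat_lit 4892833900) (nat_lit 380) (nat_lit 201175389) (nat_lit 79) (nat_lit 5) (nat_lit 83) (nat_lit 5) (nat_lit 84) (nat_lit 5) (nat_lit 478) (nat_lit 354) (nat_lit 308)) (XT.nd (nat_lit 78) (nat_lit 0) (nat_lit 0) (XT.lf (nat_lit 0) (nat_lit 3044548889) (nat_lit 228) (nat_lit 751927895) (nat_lit 304) (nat_lit 8402195455) (nat_lit 75) (nat_lit 5) (nat_lit 78) (nat_lit 5) (nat_lit 79) (nat_lit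 5) (nat_lit 479) (nat_lit 354) (nat_lit 307)) (XT.lf (nat_lit 0) (nat_lit 7884841484) (nat_lit 304) (nat_lit 1024545941) (nat_lit 76) (nat_lit 3433640191) (nat_lit 75) (nat_lit 5) (nat_lit 79) (nat_lit 5) (nat_lit 76) (nat_lit 5) (nat_lit 480) (nat_lit 354) (nat_lit 306))))) (XT.nd (nat_lit 234) (nat_lit 532) (nat_lit 0) (XT.nd (nat_lit 78) (nat_lit 304) (nat_lit 0) (XT.lf (nat_lit 0) (nat_lit 7286896690) (nat_lit 228) (nat_lit 4777720393) (nat_lit 304) (nat_lit 425466631) (nat_lit 72) (nat_lit 5) (nat_lit 75) (nat_lit 5) (nat_lit 76) (nat_lit 5) (nat_lit 481) (nat_lit 354) (nat_lit 305)) (XT.nd (nat_lit 78) (nat_lit 0) (nat_lit 0) (XT.lf (nat_lit 0) (nat_lit 3083545876) (nat_lit 228) (nat_lit 540377627) (nat_lit 304) (nat_lit 9015997100) (nat_lit 68) (nat_lit 5) (nat_lit 71) (nat_lit 5) (nat_lit 72) (nat_lit 5) (nat_lit 482) (nat_lit 354) (nat_lit 304)) (XT.lf (nat_lit 0) (nat_lit 7765940172) (nat_lit 304) (nat_lit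 1284725588) (nat_lit 76) (nat_lit 3741691618) (nat_lit 68) (nat_lit 5) (nat_lit 72) (nat_lit 5) (nat_lit 69) (nat_lit 5) (nat_lit 483) (nat_lit 354) (nat_lit 303)))) (XT.nd (nat_lit 78) (nat_lit 304) (nat_lit 0) (XT.lf (nat_lit 0) (nat_lit 7172641086) (nat_lit 228) (nat_lit 4826764747) (nat_lit 304) (nat_lit 948270872) (nat_lit 65) (nat_lit 5) (nat_lit 68) (nat_lit 5) (nat_lit 69) (nat_lit 5) (nat_lit 484) (nat_lit 354) (nat_lit 302)) (XT.nd (nat_lit 78) (nat_lit 0) (nat_lit 0) (XT.lf (nat_lit 0) (nat_lit 2654240788) (nat_lit 228) (nat_lit 499534004) (nat_lit 304) (nat_lit 9952227270) (nat_lit 61) (nat_lit 5) (nat_lit 64) (nat_lit 5) (nat_lit 65) (nat_lit 5) (nat_lit 485) (nat_lit 354) (nat_lit 301)) (XT.lf (nat_lit 0) (nat_lit 7348316355) (nat_lit 304) (nat_lit 2038764959) (nat_lit 76) (nat_lit 3879829847) (nat_lit 61) (nat_lit 5) (nat_lit 65) (nat_lit 5) (nat_lit 62) (nat_lit 5) (nat_lit 486) (nat_lit 354) (nat_lit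 300))))))))
noncomputable def xc34 : XT := (XT.nd (nat_lit 54990) (nat_lit 0) (nat_lit 11400) (XT.nd (nat_lit 858) (nat_lit 1140) (nat_lit 0) (XT.nd (nat_lit 390) (nat_lit 684) (nat_lit 0) (XT.nd (nat_lit 156) (nat_lit 456) (nat_lit 0) (XT.nd (nat_lit 78) (nat_lit 228) (nat_lit 0) (XT.lf (nat_lit 0) (nat_lit 6556068579) (nat_lit 228) (nat_lit 5076080606) (nat_lit 304) (nat_lit 1798786784) (nat_lit 58) (nat_lit 5) (nat_lit 61) (nat_lit 5) (nat_lit 62) (nat_lit 5) (nat_lit 487) (nat_lit 354) (nat_lit 299)) (XT.lf (nat_lit 0) (nat_lit 1689747158) (nat_lit 152) (nat_lit 666494492) (nat_lit 228) (nat_lit 11242005938) (nat_lit 55) (nat_lit 5) (nat_lit 57) (nat_lit 5) (nat_lit 58) (nat_lit 5) (nat_lit 488) (nat_lit 354) (nat_lit 298))) (XT.nd (nat_lit 78) (nat_lit 456) (nat_lit 0) (XT.lf (nat_lit 0) (nat_lit 6601384553) (nat_lit 228) (nat_lit 3355582372) (nat_lit 76) (nat_lit 3811083938) (nat_lit 55) (nat_lit 5) (nat_lit 58)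 (nat_lit 5) (nat_lit 56) (nat_lit 5) (nat_lit 489) (nat_lit 354) (nat_lit 297)) (XT.nd (nat_lit 78) (nat_lit 228) (nat_lit 0) (XT.lf (nat_lit 0) (nat_lit 5366369911) (nat_lit 228) (nat_lit 5564867682) (nat_lit 304) (nat_lit 3010021578) (nat_lit 52) (nat_lit 5) (nat_lit 55) (nat_lit 5) (nat_lit 56) (nat_lit 5) (nat_lit 490) (nat_lit 354) (nat_lit 296)) (XT.lf (nat_lit 0) (nat_lit 116082598) (nat_lit 152) (nat_lit 1081587874) (nat_lit 228) (nat_lit 12920425541) (nat_lit 49) (nat_lit 5) (nat_lit 51) (nat_lit 5) (nat_lit 52) (nat_lit 5) (nat_lit 491) (nat_lit 354) (nat_lit 295))))) (XT.nd (nat_lit 234) (nat_lit 456) (nat_lit 0) (XT.nd (nat_lit 78) (nat_lit 228) (nat_lit 0) (XT.lf (nat_lit 0) (nat_lit 5490611004) (nat_lit 228) (nat_lit 5311417568) (nat_lit 76) (nat_lit 3495219934) (nat_lit 49) (nat_lit 5) (nat_lit 52) (nat_lit 5) (nat_lit 50) (nat_lit 5) (nat_lit 492) (nat_lit 354) (nat_lit 294)) (XT.nd (nat_lit 78) (nat_lit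 0) (nat_lit 0) (XT.lf (nat_lit 0) (nat_lit 3525173994) (nat_lit 228) (nat_lit 6335826026) (nat_lit 304) (nat_lit 4619156962) (nat_lit 46) (nat_lit 5) (nat_lit 49) (nat_lit 5) (nat_lit 50) (nat_lit 5) (nat_lit 493) (nat_lit 354) (nat_lit 293)) (XT.lf (nat_lit 0) (nat_lit 12544048436) (nat_lit 228) (nat_lit 1772252579) (nat_lit 304) (nat_lit 350477157) (nat_lit 46) (nat_lit 5) (nat_lit 49) (nat_lit 5) (nat_lit 50) (nat_lit 5) (nat_lit 494) (nat_lit 354) (nat_lit 292)))) (XT.nd (nat_lit 78) (nat_lit 228) (nat_lit 0) (XT.lf (nat_lit 0) (nat_lit 3977128998) (nat_lit 228) (nat_lit 7990655291) (nat_lit 76) (nat_lit 2888310862) (nat_lit 43) (nat_lit 5) (nat_lit 46) (nat_lit 5) (nat_lit 44) (nat_lit 5) (nat_lit 495) (nat_lit 354) (nat_lit 291)) (XT.nd (nat_lit 78) (nat_lit 0) (nat_lit 0) (XT.lf (nat_lit 0) (nat_lit 945697890) (nat_lit 228) (nat_lit 7435607811) (nat_lit 304) (nat_lit 6667956574) (nat_lit 40) (nat_lit 5) (nat_lit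 43) (nat_lit 5) (nat_lit 44) (nat_lit 5) (nat_lit 496) (nat_lit 354) (nat_lit 290)) (XT.lf (nat_lit 0) (nat_lit 10103739986) (nat_lit 228) (nat_lit 2786249693) (nat_lit 304) (nat_lit 2355978865) (nat_lit 40) (nat_lit 5) (nat_lit 43) (nat_lit 5) (nat_lit 44) (nat_lit 5) (nat_lit 497) (nat_lit 354) (nat_lit 289)))))) (XT.nd (nat_lit 390) (nat_lit 532) (nat_lit 0) (XT.nd (nat_lit 156) (nat_lit 380) (nat_lit 0) (XT.nd (nat_lit 78) (nat_lit 0) (nat_lit 0) (XT.lf (nat_lit 0) (nat_lit 2017310932) (nat_lit 228) (nat_lit 11486732587) (nat_lit 76) (nat_lit 1942267204) (nat_lit 37) (nat_lit 5) (nat_lit 40) (nat_lit 5) (nat_lit 38) (nat_lit 5) (nat_lit 498) (nat_lit 354) (nat_lit 288)) (XT.lf (nat_lit 0) (nat_lit 6463146395) (nat_lit 228) (nat_lit 2435819003) (nat_lit 76) (nat_lit 6751054389) (nat_lit 37) (nat_lit 5) (nat_lit 40) (nat_lit 5) (nat_lit 38) (nat_lit 5) (nat_lit 499) (nat_lit 354) (nat_lit 287))) (XT.nd (nat_lit 78)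 (nat_lit 228) (nat_lit 0) (XT.lf (nat_lit 0) (nat_lit 6822163608) (nat_lit 152) (nat_lit 4184155801) (nat_lit 228) (nat_lit 4851319157) (nat_lit 35) (nat_lit 5) (nat_lit 37) (nat_lit 5) (nat_lit 38) (nat_lit 5) (nat_lit 500) (nat_lit 354) (nat_lit 286)) (XT.nd (nat_lit 78) (nat_lit 76) (nat_lit 0) (XT.lf (nat_lit 0) (nat_lit 163678801) (nat_lit 152) (nat_lit 15462494338) (nat_lit 228) (nat_lit 443524112) (nat_lit 33) (nat_lit 5) (nat_lit 35) (nat_lit 5) (nat_lit 36) (nat_lit 4) (nat_lit 501) (nat_lit 354) (nat_lit 285)) (XT.lf (nat_lit 0) (nat_lit 4052318222) (nat_lit 228) (nat_lit 6733516237) (nat_lit 76) (nat_lit 5498579361) (nat_lit 32) (nat_lit 5) (nat_lit 35) (nat_lit 5) (nat_lit 33) (nat_lit 5) (nat_lit 502) (nat_lit 354) (nat_lit 284))))) (XT.nd (nat_lit 234) (nat_lit 152) (nat_lit 0) (XT.nd (nat_lit 78) (nat_lit 228) (nat_lit 0) (XT.lf (nat_lit 0) (nat_lit 2591125544) (nat_lit 152) (nat_lit 6022837734) (nat_lit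 228) (nat_lit 7889769966) (nat_lit 30) (nat_lit 5) (nat_lit 32) (nat_lit 5) (nat_lit 33) (nat_lit 5) (nat_lit 503) (nat_lit 354) (nat_lit 283)) (XT.nd (nat_lit 78) (nat_lit 228) (nat_lit 0) (XT.lf (nat_lit 0) (nat_lit 12131588679) (nat_lit 152) (nat_lit 1145717962) (nat_lit 228) (nat_lit 3449926687) (nat_lit 30) (nat_lit 5) (nat_lit 32) (nat_lit 5) (nat_lit 33) (nat_lit 5) (nat_lit 504) (nat_lit 354) (nat_lit 282)) (XT.lf (nat_lit 0) (nat_lit 1087078858) (nat_lit 228) (nat_lit 12076280277) (nat_lit 76) (nat_lit 3791257386) (nat_lit 27) (nat_lit 5) (nat_lit 30) (nat_lit 5) (nat_lit 28) (nat_lit 5) (nat_lit 505) (nat_lit 354) (nat_lit 281)))) (XT.nd (nat_lit 78) (nat_lit 152) (nat_lit 0) (XT.lf (nat_lit 0) (nat_lit 5673139271) (nat_lit 228) (nat_lit 2673774557) (nat_lit 76) (nat_lit 8839090657) (nat_lit 27) (nat_lit 5) (nat_lit 30) (nat_lit 5) (nat_lit 28) (nat_lit 5) (nat_lit 506) (nat_lit 354) (nat_lit 280)) (XT.nd (nat_lit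 53352) (nat_lit 0) (nat_lit 21356) (XT.lf (nat_lit 0) (nat_lit 6947808003) (nat_lit 152) (nat_lit 3414727698) (nat_lit 228) (nat_lit 7059255519) (nat_lit 25) (nat_lit 5) (nat_lit 27) (nat_lit 5) (nat_lit 28) (nat_lit 5) (nat_lit 507) (nat_lit 354) (nat_lit 279)) (XT.lf (nat_lit 0) (nat_lit 117220366) (nat_lit 760) (nat_lit 3609362775) (nat_lit 0) (nat_lit 117220366) (nat_lit 306) (nat_lit 5) (nat_lit 316) (nat_lit 4) (nat_lit 306) (nat_lit 4) (nat_lit 430) (nat_lit 355) (nat_lit 355))))))) (XT.nd (nat_lit 858) (nat_lit 4484) (nat_lit 0) (XT.nd (nat_lit 390) (nat_lit 3192) (nat_lit 0) (XT.nd (nat_lit 156) (nat_lit 1520) (nat_lit 0) (XT.nd (nat_lit 78) (nat_lit 760) (nat_lit 0) (XT.lf (nat_lit 0) (nat_lit 3873024975) (nat_lit 760) (nat_lit 1349034251) (nat_lit 0) (nat_lit 2517085249) (nat_lit 306) (nat_lit 5) (nat_lit 316) (nat_lit 4) (nat_lit 306) (nat_lit 4) (nat_lit 431) (nat_lit 355) (nat_lit 354)) (XT.lf (nat_lit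 0) (nat_lit 4620290173) (nat_lit 760) (nat_lit 2928723348) (nat_lit 760) (nat_lit 243430950) (nat_lit 296) (nat_lit 4) (nat_lit 306) (nat_lit 5) (nat_lit 306) (nat_lit 4) (nat_lit 432) (nat_lit 355) (nat_lit 353))) (XT.nd (nat_lit 78) (nat_lit 760) (nat_lit 0) (XT.lf (nat_lit 0) (nat_lit 2816396002) (nat_lit 684) (nat_lit 552403667) (nat_lit 760) (nat_lit 4478338906) (nat_lit 286) (nat_lit 5) (nat_lit 295) (nat_lit 5) (nat_lit 296) (nat_lit 4) (nat_lit 433) (nat_lit 355) (nat_lit 352)) (XT.nd (nat_lit 78) (nat_lit 76) (nat_lit 0) (XT.lf (nat_lit 0) (nat_lit 984798927) (nat_lit 684) (nat_lit 6040828425) (nat_lit 684) (nat_lit 877777817) (nat_lit 277) (nat_lit 4) (nat_lit 286) (nat_lit 5) (nat_lit 286) (nat_lit 4) (nat_lit 434) (nat_lit 355) (nat_lit 351)) (XT.lf (nat_lit 0) (nat_lit 2731723747) (nat_lit 760) (nat_lit 873085022) (nat_lit 76) (nat_lit 4356175875) (nat_lit 276) (nat_lit 5) (nat_lit 286) (nat_lit 5) (nat_lit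 277) (nat_lit 4) (nat_lit 435) (nat_lit 355) (nat_lit 350))))) (XT.nd (nat_lit 234) (nat_lit 1216) (nat_lit 0) (XT.nd (nat_lit 78) (nat_lit 1368) (nat_lit 0) (XT.lf (nat_lit 0) (nat_lit 5278547053) (nat_lit 608) (nat_lit 1094596371) (nat_lit 684) (nat_lit 1647048312) (nat_lit 268) (nat_lit 5) (nat_lit 276) (nat_lit 5) (nat_lit 277) (nat_lit 4) (nat_lit 436) (nat_lit 355) (nat_lit 349)) (XT.nd (nat_lit 78) (nat_lit 608) (nat_lit 0) (XT.lf (nat_lit 0) (nat_lit 1955888245) (nat_lit 760) (nat_lit 4652664367) (nat_lit 76) (nat_lit 1472282636) (nat_lit 258) (nat_lit 5) (nat_lit 268) (nat_lit 5) (nat_lit 259) (nat_lit 4) (nat_lit 437) (nat_lit 355) (nat_lit 348)) (XT.lf (nat_lit 0) (nat_lit 1538941433) (nat_lit 608) (nat_lit 4043776270) (nat_lit 684) (nat_lit 2560298873) (nat_lit 250) (nat_lit 5) (nat_lit 258) (nat_lit 5) (nat_lit 259) (nat_lit 4) (nat_lit 438) (nat_lit 355) (nat_lit 347)))) (XT.nd (nat_lit 78) (nat_lit 1140)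 (nat_lit 0) (XT.lf (nat_lit 0) (nat_lit 1031348398) (nat_lit 684) (nat_lit 375064159) (nat_lit 76) (nat_lit 6800512683) (nat_lit 249) (nat_lit 5) (nat_lit 258) (nat_lit 5) (nat_lit 250) (nat_lit 5) (nat_lit 439) (nat_lit 355) (nat_lit 346)) (XT.nd (nat_lit 78) (nat_lit 532) (nat_lit 0) (XT.lf (nat_lit 0) (nat_lit 4647468680) (nat_lit 684) (nat_lit 2318998935) (nat_lit 76) (nat_lit 1305586810) (nat_lit 241) (nat_lit 5) (nat_lit 250) (nat_lit 5) (nat_lit 242) (nat_lit 4) (nat_lit 440) (nat_lit 355) (nat_lit 345)) (XT.lf (nat_lit 0) (nat_lit 4039503232) (nat_lit 532) (nat_lit 4274642515) (nat_lit 608) (nat_lit 24794648) (nat_lit 234) (nat_lit 5) (nat_lit 241) (nat_lit 5) (nat_lit 242) (nat_lit 4) (nat_lit 441) (nat_lit 355) (nat_lit 344)))))) (XT.nd (nat_lit 390) (nat_lit 2052) (nat_lit 0) (XT.nd (nat_lit 156) (nat_lit 1216) (nat_lit 0) (XT.nd (nat_lit 78) (nat_lit 532) (nat_lit 0) (XT.lf (nat_lit 0) (nat_lit 2074357012)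 (nat_lit 608) (nat_lit 1494353536) (nat_lit 684) (nat_lit 4838607137) (nat_lit 225) (nat_lit 5) (nat_lit 233) (nat_lit 5) (nat_lit 234) (nat_lit 5) (nat_lit 442) (nat_lit 355) (nat_lit 343)) (XT.lf (nat_lit 0) (nat_lit 69896956) (nat_lit 532) (nat_lit 7143014185) (nat_lit 608) (nat_lit 1264582756) (nat_lit 218) (nat_lit 5) (nat_lit 225) (nat_lit 5) (nat_lit 226) (nat_lit 4) (nat_lit 443) (nat_lit 355) (nat_lit 342))) (XT.nd (nat_lit 78) (nat_lit 1140) (nat_lit 0) (XT.lf (nat_lit 0) (nat_lit 2343563504) (nat_lit 608) (nat_lit 1966855658) (nat_lit 76) (nat_lit 4238485059) (nat_lit 217) (nat_lit 5) (nat_lit 225) (nat_lit 5) (nat_lit 218) (nat_lit 5) (nat_lit 444) (nat_lit 355) (nat_lit 341)) (XT.nd (nat_lit 78) (nat_lit 608) (nat_lit 0) (XT.lf (nat_lit 0) (nat_lit 4576253615) (nat_lit 532) (nat_lit 1402759600) (nat_lit 608) (nat_lit 2643137666) (nat_lit 210) (nat_lit 5) (nat_lit 217) (nat_lit 5) (nat_lit 218) (nat_lit 5)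 (nat_lit 445) (nat_lit 355) (nat_lit 340)) (XT.lf (nat_lit 0) (nat_lit 959854646) (nat_lit 608) (nat_lit 6178978690) (nat_lit 76) (nat_lit 1558266001) (nat_lit 202) (nat_lit 5) (nat_lit 210) (nat_lit 5) (nat_lit 203) (nat_lit 5) (nat_lit 446) (nat_lit 355) (nat_lit 339))))) (XT.nd (nat_lit 234) (nat_lit 988) (nat_lit 0) (XT.nd (nat_lit 78) (nat_lit 532) (nat_lit 0) (XT.lf (nat_lit 0) (nat_lit 394604135) (nat_lit 532) (nat_lit 4187188088) (nat_lit 608) (nat_lit 4191775383) (nat_lit 195) (nat_lit 5) (nat_lit 202) (nat_lit 5) (nat_lit 203) (nat_lit 5) (nat_lit 447) (nat_lit 355) (nat_lit 338)) (XT.nd (nat_lit 78) (nat_lit 532) (nat_lit 0) (XT.lf (nat_lit 0) (nat_lit 7105079379) (nat_lit 532) (nat_lit 1156223398) (nat_lit 608) (nat_lit 590575276) (nat_lit 195) (nat_lit 5) (nat_lit 202) (nat_lit 5) (nat_lit 203) (nat_lit 5) (nat_lit 448) (nat_lit 355) (nat_lit 337)) (XT.lf (nat_lit 0) (nat_lit 3031754532) (nat_lit 532) (nat_lit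 3958773973) (nat_lit 76) (nat_lit 1941050102) (nat_lit 188) (nat_lit 5) (nat_lit 195) (nat_lit 5) (nat_lit 189) (nat_lit 5) (nat_lit 449) (nat_lit 355) (nat_lit 336)))) (XT.nd (nat_lit 78) (nat_lit 532) (nat_lit 0) (XT.lf (nat_lit 0) (nat_lit 2784699142) (nat_lit 456) (nat_lit 3916309054) (nat_lit 532) (nat_lit 2312153805) (nat_lit 182) (nat_lit 5) (nat_lit 188) (nat_lit 5) (nat_lit 189) (nat_lit 5) (nat_lit 450) (nat_lit 355) (nat_lit 335)) (XT.nd (nat_lit 78) (nat_lit 0) (nat_lit 0) (XT.lf (nat_lit 0) (nat_lit 540779755) (nat_lit 456) (nat_lit 764116555) (nat_lit 532) (nat_lit 7791813919) (nat_lit 175) (nat_lit 5) (nat_lit 181) (nat_lit 5) (nat_lit 182) (nat_lit 5) (nat_lit 451) (nat_lit 355) (nat_lit 334)) (XT.lf (nat_lit 0) (nat_lit 4966808907) (nat_lit 532) (nat_lit 1761443791) (nat_lit 76) (nat_lit 2453315191) (nat_lit 175) (nat_lit 5) (nat_lit 182) (nat_lit 5) (nat_lit 176) (nat_lit 5) (nat_lit 452) (nat_lit 355)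 (nat_lit 333))))))))
noncomputable def xc35 : XT := (XT.nd (nat_lit 1716) (nat_lit 3648) (nat_lit 0) (XT.nd (nat_lit 858) (nat_lit 2888) (nat_lit 0) (XT.nd (nat_lit 390) (nat_lit 1672) (nat_lit 0) (XT.nd (nat_lit 156) (nat_lit 912) (nat_lit 0) (XT.nd (nat_lit 78) (nat_lit 456) (nat_lit 0) (XT.lf (nat_lit 0) (nat_lit 5154332440) (nat_lit 456) (nat_lit 3532687274) (nat_lit 532) (nat_lit 581415282) (nat_lit 169) (nat_lit 5) (nat_lit 175) (nat_lit 5) (nat_lit 176) (nat_lit 5) (nat_lit 453) (nat_lit 355) (nat_lit 332)) (XT.lf (nat_lit 0) (nat_lit 2814694673) (nat_lit 380) (nat_lit 245815902) (nat_lit 456) (nat_lit 6296598199) (nat_lit 163) (nat_lit 5) (nat_lit 168) (nat_lit 5) (nat_lit 169) (nat_lit 5) (nat_lit 454) (nat_lit 355) (nat_lit 331))) (XT.nd (nat_lit 78) (nat_lit 456) (nat_lit 0) (XT.lf (nat_lit 0) (nat_lit 394039763) (nat_lit 456) (nat_lit 6371088426) (nat_lit 532) (nat_lit 2682410921) (nat_lit 157) (nat_lit 5)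 (nat_lit 163) (nat_lit 5) (nat_lit 164) (nat_lit 5) (nat_lit 455) (nat_lit 355) (nat_lit 330)) (XT.nd (nat_lit 78) (nat_lit 380) (nat_lit 0) (XT.lf (nat_lit 0) (nat_lit 984000652) (nat_lit 532) (nat_lit 2067387263) (nat_lit 76) (nat_lit 6488409798) (nat_lit 156) (nat_lit 5) (nat_lit 163) (nat_lit 5) (nat_lit 157) (nat_lit 5) (nat_lit 456) (nat_lit 355) (nat_lit 329)) (XT.lf (nat_lit 0) (nat_lit 4671183360) (nat_lit 456) (nat_lit 4606057739) (nat_lit 76) (nat_lit 356650544) (nat_lit 151) (nat_lit 5) (nat_lit 157) (nat_lit 5) (nat_lit 152) (nat_lit 5) (nat_lit 457) (nat_lit 355) (nat_lit 328))))) (XT.nd (nat_lit 234) (nat_lit 836) (nat_lit 0) (XT.nd (nat_lit 78) (nat_lit 456) (nat_lit 0) (XT.lf (nat_lit 0) (nat_lit 2499070323) (nat_lit 380) (nat_lit 5932118435) (nat_lit 456) (nat_lit 1298708860) (nat_lit 146) (nat_lit 5) (nat_lit 151) (nat_lit 5) (nat_lit 152) (nat_lit 5) (nat_lit 458) (nat_lit 355) (nat_lit 327)) (XT.nd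 (nat_lit 78) (nat_lit 380) (nat_lit 0) (XT.lf (nat_lit 0) (nat_lit 2386545513) (nat_lit 456) (nat_lit 111490822) (nat_lit 76) (nat_lit 7329882863) (nat_lit 145) (nat_lit 5) (nat_lit 151) (nat_lit 5) (nat_lit 146) (nat_lit 5) (nat_lit 459) (nat_lit 355) (nat_lit 326)) (XT.lf (nat_lit 0) (nat_lit 6131189716) (nat_lit 456) (nat_lit 2774475734) (nat_lit 76) (nat_lit 1022013649) (nat_lit 140) (nat_lit 5) (nat_lit 146) (nat_lit 5) (nat_lit 141) (nat_lit 5) (nat_lit 460) (nat_lit 355) (nat_lit 325)))) (XT.nd (nat_lit 78) (nat_lit 456) (nat_lit 0) (XT.lf (nat_lit 0) (nat_lit 4501960702) (nat_lit 380) (nat_lit 5445470953) (nat_lit 456) (nat_lit 82079297) (nat_lit 135) (nat_lit 5) (nat_lit 140) (nat_lit 5) (nat_lit 141) (nat_lit 5) (nat_lit 461) (nat_lit 355) (nat_lit 324)) (XT.nd (nat_lit 78) (nat_lit 0) (nat_lit 0) (XT.lf (nat_lit 0) (nat_lit 1751316958) (nat_lit 380) (nat_lit 1887130647) (nat_lit 456) (nat_lit 6494852116) (nat_lit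 129) (nat_lit 5) (nat_lit 134) (nat_lit 5) (nat_lit 135) (nat_lit 5) (nat_lit 462) (nat_lit 355) (nat_lit 323)) (XT.lf (nat_lit 0) (nat_lit 7431580522) (nat_lit 456) (nat_lit 1076148917) (nat_lit 76) (nat_lit 1731448311) (nat_lit 129) (nat_lit 5) (nat_lit 135) (nat_lit 5) (nat_lit 130) (nat_lit 5) (nat_lit 463) (nat_lit 355) (nat_lit 322)))))) (XT.nd (nat_lit 390) (nat_lit 1368) (nat_lit 0) (XT.nd (nat_lit 156) (nat_lit 760) (nat_lit 0) (XT.nd (nat_lit 78) (nat_lit 304) (nat_lit 0) (XT.lf (nat_lit 0) (nat_lit 946404483) (nat_lit 456) (nat_lit 3981242578) (nat_lit 76) (nat_lit 5419302187) (nat_lit 123) (nat_lit 5) (nat_lit 129) (nat_lit 5) (nat_lit 124) (nat_lit 5) (nat_lit 464) (nat_lit 355) (nat_lit 321)) (XT.lf (nat_lit 0) (nat_lit 3466096570) (nat_lit 304) (nat_lit 1253354003) (nat_lit 380) (nat_lit 5737432913) (nat_lit 119) (nat_lit 5) (nat_lit 123) (nat_lit 5) (nat_lit 124) (nat_lit 5) (nat_lit 465) (nat_lit 355)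 (nat_lit 320))) (XT.nd (nat_lit 78) (nat_lit 380) (nat_lit 0) (XT.lf (nat_lit 0) (nat_lit 462283289) (nat_lit 380) (nat_lit 8103802933) (nat_lit 456) (nat_lit 2002977059) (nat_lit 114) (nat_lit 5) (nat_lit 119) (nat_lit 5) (nat_lit 120) (nat_lit 5) (nat_lit 466) (nat_lit 355) (nat_lit 319)) (XT.nd (nat_lit 78) (nat_lit 304) (nat_lit 0) (XT.lf (nat_lit 0) (nat_lit 1790172302) (nat_lit 456) (nat_lit 2619133404) (nat_lit 76) (nat_lit 6273801656) (nat_lit 113) (nat_lit 5) (nat_lit 119) (nat_lit 5) (nat_lit 114) (nat_lit 5) (nat_lit 467) (nat_lit 355) (nat_lit 318)) (XT.lf (nat_lit 0) (nat_lit 4996587461) (nat_lit 304) (nat_lit 621351122) (nat_lit 380) (nat_lit 5181526374) (nat_lit 109) (nat_lit 5) (nat_lit 113) (nat_lit 5) (nat_lit 114) (nat_lit 5) (nat_lit 468) (nat_lit 355) (nat_lit 317))))) (XT.nd (nat_lit 234) (nat_lit 684) (nat_lit 0) (XT.nd (nat_lit 78) (nat_lit 380) (nat_lit 0) (XT.lf (nat_lit 0) (nat_lit 1810686172)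 (nat_lit 304) (nat_lit 7715448645) (nat_lit 380) (nat_lit 1391946119) (nat_lit 105) (nat_lit 5) (nat_lit 109) (nat_lit 5) (nat_lit 110) (nat_lit 5) (nat_lit 469) (nat_lit 355) (nat_lit 316)) (XT.nd (nat_lit 78) (nat_lit 304) (nat_lit 0) (XT.lf (nat_lit 0) (nat_lit 2437795358) (nat_lit 380) (nat_lit 1477900738) (nat_lit 76) (nat_lit 7123124165) (nat_lit 104) (nat_lit 5) (nat_lit 109) (nat_lit 5) (nat_lit 105) (nat_lit 5) (nat_lit 470) (nat_lit 355) (nat_lit 315)) (XT.lf (nat_lit 0) (nat_lit 6304751916) (nat_lit 304) (nat_lit 16101378) (nat_lit 380) (nat_lit 4841038089) (nat_lit 100) (nat_lit 5) (nat_lit 104) (nat_lit 5) (nat_lit 105) (nat_lit 5) (nat_lit 471) (nat_lit 355) (nat_lit 314)))) (XT.nd (nat_lit 78) (nat_lit 380) (nat_lit 0) (XT.lf (nat_lit 0) (nat_lit 2915156004) (nat_lit 304) (nat_lit 7375701820) (nat_lit 380) (nat_lit 996388457) (nat_lit 96) (nat_lit 5) (nat_lit 100) (nat_lit 5) (nat_lit 101) (nat_lit 5)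 (nat_lit 472) (nat_lit 355) (nat_lit 313)) (XT.nd (nat_lit 78) (nat_lit 304) (nat_lit 0) (XT.lf (nat_lit 0) (nat_lit 2874473176) (nat_lit 380) (nat_lit 598317224) (nat_lit 76) (nat_lit 7942192128) (nat_lit 95) (nat_lit 5) (nat_lit 100) (nat_lit 5) (nat_lit 96) (nat_lit 5) (nat_lit 473) (nat_lit 355) (nat_lit 312)) (XT.lf (nat_lit 0) (nat_lit 6816270588) (nat_lit 380) (nat_lit 4199694496) (nat_lit 76) (nat_lit 529047086) (nat_lit 91) (nat_lit 5) (nat_lit 96) (nat_lit 5) (nat_lit 92) (nat_lit 5) (nat_lit 474) (nat_lit 355) (nat_lit 311))))))) (XT.nd (nat_lit 858) (nat_lit 1596) (nat_lit 0) (XT.nd (nat_lit 390) (nat_lit 836) (nat_lit 0) (XT.nd (nat_lit 156) (nat_lit 836) (nat_lit 0) (XT.nd (nat_lit 78) (nat_lit 76) (nat_lit 0) (XT.lf (nat_lit 0) (nat_lit 3732214960) (nat_lit 304) (nat_lit 7111842662) (nat_lit 380) (nat_lit 833449156) (nat_lit 87) (nat_lit 5) (nat_lit 91) (nat_lit 5) (nat_lit 92) (nat_lit 5) (nat_lit 475)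 (nat_lit 355) (nat_lit 310)) (XT.lf (nat_lit 0) (nat_lit 3082924388) (nat_lit 380) (nat_lit 25168934) (nat_lit 76) (nat_lit 8704470335) (nat_lit 86) (nat_lit 5) (nat_lit 91) (nat_lit 5) (nat_lit 87) (nat_lit 5) (nat_lit 476) (nat_lit 355) (nat_lit 309))) (XT.nd (nat_lit 78) (nat_lit 608) (nat_lit 0) (XT.lf (nat_lit 0) (nat_lit 7082344245) (nat_lit 304) (nat_lit 3873508032) (nat_lit 76) (nat_lit 994048661) (nat_lit 83) (nat_lit 5) (nat_lit 87) (nat_lit 5) (nat_lit 84) (nat_lit 5) (nat_lit 477) (nat_lit 355) (nat_lit 308)) (XT.nd (nat_lit 78) (nat_lit 304) (nat_lit 0) (XT.lf (nat_lit 0) (nat_lit 4214027027) (nat_lit 304) (nat_lit 6952897688) (nat_lit 380) (nat_lit 922963684) (nat_lit 79) (nat_lit 5) (nat_lit 83) (nat_lit 5) (nat_lit 84) (nat_lit 5) (nat_lit 478) (nat_lit 355) (nat_lit 307)) (XT.lf (nat_lit 0) (nat_lit 194804941) (nat_lit 228) (nat_lit 2849636651) (nat_lit 304) (nat_lit 9188146332) (nat_lit 75) (nat_lit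 5) (nat_lit 78) (nat_lit 5) (nat_lit 79) (nat_lit 5) (nat_lit 479) (nat_lit 355) (nat_lit 306))))) (XT.nd (nat_lit 234) (nat_lit 532) (nat_lit 0) (XT.nd (nat_lit 78) (nat_lit 304) (nat_lit 0) (XT.lf (nat_lit 0) (nat_lit 7098073994) (nat_lit 304) (nat_lit 3929890625) (nat_lit 76) (nat_lit 1349676539) (nat_lit 75) (nat_lit 5) (nat_lit 79) (nat_lit 5) (nat_lit 76) (nat_lit 5) (nat_lit 480) (nat_lit 355) (nat_lit 305)) (XT.nd (nat_lit 78) (nat_lit 76) (nat_lit 0) (XT.lf (nat_lit 0) (nat_lit 4307869005) (nat_lit 228) (nat_lit 6929940155) (nat_lit 304) (nat_lit 1287692051) (nat_lit 72) (nat_lit 5) (nat_lit 75) (nat_lit 5) (nat_lit 76) (nat_lit 5) (nat_lit 481) (nat_lit 355) (nat_lit 304)) (XT.lf (nat_lit 0) (nat_lit 2732330983) (nat_lit 304) (nat_lit 404746) (nat_lit 76) (nat_lit 9943530866) (nat_lit 71) (nat_lit 5) (nat_lit 75) (nat_lit 5) (nat_lit 72) (nat_lit 5) (nat_lit 482) (nat_lit 355) (nat_lit 303)))) (XT.nd (nat_lit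 78) (nat_lit 304) (nat_lit 0) (XT.lf (nat_lit 0) (nat_lit 6839546598) (nat_lit 304) (nat_lit 4425549446) (nat_lit 76) (nat_lit 1564306313) (nat_lit 68) (nat_lit 5) (nat_lit 72) (nat_lit 5) (nat_lit 69) (nat_lit 5) (nat_lit 483) (nat_lit 355) (nat_lit 302)) (XT.nd (nat_lit 78) (nat_lit 76) (nat_lit 0) (XT.lf (nat_lit 0) (nat_lit 3955549919) (nat_lit 228) (nat_lit 7076413938) (nat_lit 304) (nat_lit 1953581703) (nat_lit 65) (nat_lit 5) (nat_lit 68) (nat_lit 5) (nat_lit 69) (nat_lit 5) (nat_lit 484) (nat_lit 355) (nat_lit 301)) (XT.lf (nat_lit 0) (nat_lit 2124295157) (nat_lit 304) (nat_lit 663123524) (nat_lit 76) (nat_lit 10357332644) (nat_lit 64) (nat_lit 5) (nat_lit 68) (nat_lit 5) (nat_lit 65) (nat_lit 5) (nat_lit 485) (nat_lit 355) (nat_lit 300)))))) (XT.nd (nat_lit 390) (nat_lit 684) (nat_lit 0) (XT.nd (nat_lit 156) (nat_lit 456) (nat_lit 0) (XT.nd (nat_lit 78) (nat_lit 228) (nat_lit 0) (XT.lf (nat_lit 0) (nat_lit 6279554034)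 (nat_lit 304) (nat_lit 5423102197) (nat_lit 76) (nat_lit 1603792588) (nat_lit 61) (nat_lit 5) (nat_lit 65) (nat_lit 5) (nat_lit 62) (nat_lit 5) (nat_lit 486) (nat_lit 355) (nat_lit 299)) (XT.lf (nat_lit 0) (nat_lit 3092773125) (nat_lit 228) (nat_lit 7428483928) (nat_lit 304) (nat_lit 2950061853) (nat_lit 58) (nat_lit 5) (nat_lit 61) (nat_lit 5) (nat_lit 62) (nat_lit 5) (nat_lit 487) (nat_lit 355) (nat_lit 298))) (XT.nd (nat_lit 78) (nat_lit 380) (nat_lit 0) (XT.lf (nat_lit 0) (nat_lit 1189488295) (nat_lit 304) (nat_lit 1862196709) (nat_lit 76) (nat_lit 10587709150) (nat_lit 57) (nat_lit 5) (nat_lit 61) (nat_lit 5) (nat_lit 58) (nat_lit 5) (nat_lit 488) (nat_lit 355) (nat_lit 297)) (XT.nd (nat_lit 78) (nat_lit 228) (nat_lit 0) (XT.lf (nat_lit 0) (nat_lit 5387283508) (nat_lit 228) (nat_lit 6991757069) (nat_lit 76) (nat_lit 1431106337) (nat_lit 55) (nat_lit 5) (nat_lit 58) (nat_lit 5) (nat_lit 56) (nat_lit 5) (nat_lit 489)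 (nat_lit 355) (nat_lit 296)) (XT.lf (nat_lit 0) (nat_lit 1648434811) (nat_lit 228) (nat_lit 8025416336) (nat_lit 304) (nat_lit 4310372263) (nat_lit 52) (nat_lit 5) (nat_lit 55) (nat_lit 5) (nat_lit 56) (nat_lit 5) (nat_lit 490) (nat_lit 355) (nat_lit 295))))) (XT.nd (nat_lit 234) (nat_lit 456) (nat_lit 0) (XT.nd (nat_lit 78) (nat_lit 228) (nat_lit 0) (XT.lf (nat_lit 0) (nat_lit 10489986166) (nat_lit 228) (nat_lit 3564735618) (nat_lit 304) (nat_lit 106893135) (nat_lit 52) (nat_lit 5) (nat_lit 55) (nat_lit 5) (nat_lit 56) (nat_lit 5) (nat_lit 491) (nat_lit 355) (nat_lit 294)) (XT.nd (nat_lit 78) (nat_lit 0) (nat_lit 0) (XT.lf (nat_lit 0) (nat_lit 4127971591) (nat_lit 228) (nat_lit 9208060923) (nat_lit 76) (nat_lit 1005940673) (nat_lit 49) (nat_lit 5) (nat_lit 52) (nat_lit 5) (nat_lit 50) (nat_lit 5) (nat_lit 492) (nat_lit 355) (nat_lit 293)) (XT.lf (nat_lit 0) (nat_lit 8456806110) (nat_lit 228) (nat_lit 450165599) (nat_lit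 76) (nat_lit 5618743334) (nat_lit 49) (nat_lit 5) (nat_lit 52) (nat_lit 5) (nat_lit 50) (nat_lit 5) (nat_lit 493) (nat_lit 355) (nat_lit 292)))) (XT.nd (nat_lit 78) (nat_lit 228) (nat_lit 0) (XT.lf (nat_lit 0) (nat_lit 8530477003) (nat_lit 228) (nat_lit 4360158387) (nat_lit 304) (nat_lit 1822132525) (nat_lit 46) (nat_lit 5) (nat_lit 49) (nat_lit 5) (nat_lit 50) (nat_lit 5) (nat_lit 494) (nat_lit 355) (nat_lit 291)) (XT.nd (nat_lit 78) (nat_lit 0) (nat_lit 0) (XT.lf (nat_lit 0) (nat_lit 2462518973) (nat_lit 228) (nat_lit 12156723081) (nat_lit 76) (nat_lit 284281214) (nat_lit 43) (nat_lit 5) (nat_lit 46) (nat_lit 5) (nat_lit 44) (nat_lit 5) (nat_lit 495) (nat_lit 355) (nat_lit 290)) (XT.lf (nat_lit 0) (nat_lit 6842350904) (nat_lit 228) (nat_lit 3264701837) (nat_lit 76) (nat_lit 4990126663) (nat_lit 43) (nat_lit 5) (nat_lit 46) (nat_lit 5) (nat_lit 44) (nat_lit 5) (nat_lit 496) (nat_lit 355) (nat_lit 289))))))))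
noncomputable def xc36 : XT := (XT.nd (nat_lit 54756) (nat_lit 0) (nat_lit 9120) (XT.nd (nat_lit 780) (nat_lit 152) (nat_lit 0) (XT.nd (nat_lit 390) (nat_lit 608) (nat_lit 0) (XT.nd (nat_lit 156) (nat_lit 304) (nat_lit 0) (XT.nd (nat_lit 78) (nat_lit 76) (nat_lit 0) (XT.lf (nat_lit 0) (nat_lit 5818235206) (nat_lit 228) (nat_lit 5493267714) (nat_lit 304) (nat_lit 3983175470) (nat_lit 40) (nat_lit 5) (nat_lit 43) (nat_lit 5) (nat_lit 44) (nat_lit 5) (nat_lit 497) (nat_lit 355) (nat_lit 288)) (XT.lf (nat_lit 0) (nat_lit 355065507) (nat_lit 304) (nat_lit 434475274) (nat_lit 76) (nat_lit 14706820875) (nat_lit 39) (nat_lit 5) (nat_lit 43) (nat_lit 5) (nat_lit 40) (nat_lit 5) (nat_lit 498) (nat_lit 355) (nat_lit 287))) (XT.nd (nat_lit 78) (nat_lit 152) (nat_lit 0) (XT.lf (nat_lit 0) (nat_lit 4775138434) (nat_lit 228) (nat_lit 6912006908) (nat_lit 76) (nat_lit 4013442585) (nat_lit 37) (nat_lit 5) (nat_lit 40) (nat_lit 5) (nat_lit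 38) (nat_lit 5) (nat_lit 499) (nat_lit 355) (nat_lit 286)) (XT.nd (nat_lit 78) (nat_lit 0) (nat_lit 0) (XT.lf (nat_lit 0) (nat_lit 2255298488) (nat_lit 152) (nat_lit 7015951065) (nat_lit 228) (nat_lit 6637900311) (nat_lit 35) (nat_lit 5) (nat_lit 37) (nat_lit 5) (nat_lit 38) (nat_lit 5) (nat_lit 500) (nat_lit 355) (nat_lit 285)) (XT.lf (nat_lit 0) (nat_lit 11637873585) (nat_lit 152) (nat_lit 2230911288) (nat_lit 228) (nat_lit 2252871924) (nat_lit 35) (nat_lit 5) (nat_lit 37) (nat_lit 5) (nat_lit 38) (nat_lit 5) (nat_lit 501) (nat_lit 355) (nat_lit 284))))) (XT.nd (nat_lit 156) (nat_lit 380) (nat_lit 0) (XT.nd (nat_lit 78) (nat_lit 0) (nat_lit 0) (XT.lf (nat_lit 0) (nat_lit 2205193039) (nat_lit 228) (nat_lit 11497556950) (nat_lit 76) (nat_lit 2635090280) (nat_lit 32) (nat_lit 5) (nat_lit 35) (nat_lit 5) (nat_lit 33) (nat_lit 5) (nat_lit 502) (nat_lit 355) (nat_lit 283)) (XT.lf (nat_lit 0) (nat_lit 6733025761) (nat_lit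 228) (nat_lit 2237162421) (nat_lit 76) (nat_lit 7587649530) (nat_lit 32) (nat_lit 5) (nat_lit 35) (nat_lit 5) (nat_lit 33) (nat_lit 5) (nat_lit 503) (nat_lit 355) (nat_lit 282))) (XT.nd (nat_lit 78) (nat_lit 228) (nat_lit 0) (XT.lf (nat_lit 0) (nat_lit 7243504933) (nat_lit 152) (nat_lit 4121294904) (nat_lit 228) (nat_lit 5417171082) (nat_lit 30) (nat_lit 5) (nat_lit 32) (nat_lit 5) (nat_lit 33) (nat_lit 5) (nat_lit 504) (nat_lit 355) (nat_lit 281)) (XT.nd (nat_lit 78) (nat_lit 228) (nat_lit 0) (XT.lf (nat_lit 0) (nat_lit 16076133331) (nat_lit 228) (nat_lit 131670295) (nat_lit 76) (nat_lit 803048125) (nat_lit 30) (nat_lit 5) (nat_lit 33) (nat_lit 5) (nat_lit 31) (nat_lit 4) (nat_lit 505) (nat_lit 355) (nat_lit 280)) (XT.lf (nat_lit 0) (nat_lit 3646147335) (nat_lit 228) (nat_lit 7765458946) (nat_lit 76) (nat_lit 5831105521) (nat_lit 27) (nat_lit 5) (nat_lit 30) (nat_lit 5) (nat_lit 28) (nat_lit 5) (nat_lit 506) (nat_lit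 355) (nat_lit 279)))))) (XT.nd (nat_lit 53508) (nat_lit 0) (nat_lit 17708) (XT.nd (nat_lit 53274) (nat_lit 0) (nat_lit 21356) (XT.nd (nat_lit 53196) (nat_lit 0) (nat_lit 22876) (XT.lf (nat_lit 0) (nat_lit 1758903519) (nat_lit 152) (nat_lit 6526693898) (nat_lit 228) (nat_lit 9193901652) (nat_lit 25) (nat_lit 5) (nat_lit 27) (nat_lit 5) (nat_lit 28) (nat_lit 5) (nat_lit 507) (nat_lit 355) (nat_lit 278)) (XT.lf (nat_lit 0) (nat_lit 1019220838) (nat_lit 836) (nat_lit 1755292520) (nat_lit 0) (nat_lit 1019220838) (nat_lit 326) (nat_lit 5) (nat_lit 337) (nat_lit 4) (nat_lit 326) (nat_lit 4) (nat_lit 428) (nat_lit 356) (nat_lit 356))) (XT.nd (nat_lit 78) (nat_lit 760) (nat_lit 0) (XT.lf (nat_lit 0) (nat_lit 2259345210) (nat_lit 760) (nat_lit 3394187868) (nat_lit 760) (nat_lit 1983468178) (nat_lit 316) (nat_lit 4) (nat_lit 326) (nat_lit 5) (nat_lit 326) (nat_lit 4) (nat_lit 429) (nat_lit 356) (nat_lit 355)) (XT.nd (nat_lit 78)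 (nat_lit 0) (nat_lit 0) (XT.lf (nat_lit 0) (nat_lit 422240369) (nat_lit 684) (nat_lit 1169848036) (nat_lit 760) (nat_lit 6096039165) (nat_lit 306) (nat_lit 5) (nat_lit 315) (nat_lit 5) (nat_lit 316) (nat_lit 4) (nat_lit 430) (nat_lit 356) (nat_lit 354)) (XT.lf (nat_lit 0) (nat_lit 5190718125) (nat_lit 760) (nat_lit 1427390888) (nat_lit 0) (nat_lit 1122367207) (nat_lit 306) (nat_lit 5) (nat_lit 316) (nat_lit 4) (nat_lit 306) (nat_lit 4) (nat_lit 431) (nat_lit 356) (nat_lit 353))))) (XT.nd (nat_lit 234) (nat_lit 1368) (nat_lit 0) (XT.nd (nat_lit 78) (nat_lit 1444) (nat_lit 0) (XT.lf (nat_lit 0) (nat_lit 1026141605) (nat_lit 836) (nat_lit 3298831810) (nat_lit 76) (nat_lit 3469329449) (nat_lit 295) (nat_lit 5) (nat_lit 306) (nat_lit 5) (nat_lit 296) (nat_lit 4) (nat_lit 432) (nat_lit 356) (nat_lit 352)) (XT.nd (nat_lit 78) (nat_lit 760) (nat_lit 0) (XT.lf (nat_lit 0) (nat_lit 2647715167) (nat_lit 684) (nat_lit 1954802311)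 (nat_lit 760) (nat_lit 3247112521) (nat_lit 286) (nat_lit 5) (nat_lit 295) (nat_lit 5) (nat_lit 296) (nat_lit 4) (nat_lit 433) (nat_lit 356) (nat_lit 351)) (XT.lf (nat_lit 0) (nat_lit 306862590) (nat_lit 760) (nat_lit 7127244286) (nat_lit 76) (nat_lit 472593786) (nat_lit 276) (nat_lit 5) (nat_lit 286) (nat_lit 5) (nat_lit 277) (nat_lit 4) (nat_lit 434) (nat_lit 356) (nat_lit 350)))) (XT.nd (nat_lit 78) (nat_lit 1368) (nat_lit 0) (XT.lf (nat_lit 0) (nat_lit 3873762194) (nat_lit 760) (nat_lit 1126142758) (nat_lit 76) (nat_lit 2964893740) (nat_lit 276) (nat_lit 5) (nat_lit 286) (nat_lit 5) (nat_lit 277) (nat_lit 4) (nat_lit 435) (nat_lit 356) (nat_lit 349)) (XT.nd (nat_lit 78) (nat_lit 760) (nat_lit 0) (XT.lf (nat_lit 0) (nat_lit 4983660478) (nat_lit 608) (nat_lit 2499126650) (nat_lit 684) (nat_lit 541877083) (nat_lit 268) (nat_lit 5) (nat_lit 276) (nat_lit 5) (nat_lit 277) (nat_lit 4) (nat_lit 436) (nat_lit 356) (nat_lit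 348)) (XT.lf (nat_lit 0) (nat_lit 3004823204) (nat_lit 760) (nat_lit 4997758129) (nat_lit 76) (nat_lit 83427838) (nat_lit 258) (nat_lit 5) (nat_lit 268) (nat_lit 5) (nat_lit 259) (nat_lit 4) (nat_lit 437) (nat_lit 356) (nat_lit 347))))))) (XT.nd (nat_lit 858) (nat_lit 3800) (nat_lit 0) (XT.nd (nat_lit 390) (nat_lit 2280) (nat_lit 0) (XT.nd (nat_lit 156) (nat_lit 1824) (nat_lit 0) (XT.nd (nat_lit 78) (nat_lit 76) (nat_lit 0) (XT.lf (nat_lit 0) (nat_lit 1150318256) (nat_lit 608) (nat_lit 5448771895) (nat_lit 684) (nat_lit 1549761522) (nat_lit 250) (nat_lit 5) (nat_lit 258) (nat_lit 5) (nat_lit 259) (nat_lit 4) (nat_lit 438) (nat_lit 356) (nat_lit 346)) (XT.lf (nat_lit 0) (nat_lit 1998727897) (nat_lit 684) (nat_lit 814670173) (nat_lit 76) (nat_lit 5399838673) (nat_lit 249) (nat_lit 5) (nat_lit 258) (nat_lit 5) (nat_lit 250) (nat_lit 5) (nat_lit 439) (nat_lit 356) (nat_lit 345))) (XT.nd (nat_lit 78) (nat_lit 1216) (nat_lit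 0) (XT.lf (nat_lit 0) (nat_lit 5478035717) (nat_lit 608) (nat_lit 95763937) (nat_lit 684) (nat_lit 2705396596) (nat_lit 241) (nat_lit 5) (nat_lit 249) (nat_lit 5) (nat_lit 250) (nat_lit 5) (nat_lit 440) (nat_lit 356) (nat_lit 344)) (XT.nd (nat_lit 78) (nat_lit 608) (nat_lit 0) (XT.lf (nat_lit 0) (nat_lit 849352626) (nat_lit 608) (nat_lit 4839397734) (nat_lit 76) (nat_lit 2657890944) (nat_lit 233) (nat_lit 5) (nat_lit 241) (nat_lit 5) (nat_lit 234) (nat_lit 5) (nat_lit 441) (nat_lit 356) (nat_lit 343)) (XT.lf (nat_lit 0) (nat_lit 1488292451) (nat_lit 608) (nat_lit 2921516592) (nat_lit 684) (nat_lit 4005869615) (nat_lit 225) (nat_lit 5) (nat_lit 233) (nat_lit 5) (nat_lit 234) (nat_lit 5) (nat_lit 442) (nat_lit 356) (nat_lit 342))))) (XT.nd (nat_lit 234) (nat_lit 1140) (nat_lit 0) (XT.nd (nat_lit 78) (nat_lit 1140) (nat_lit 0) (XT.lf (nat_lit 0) (nat_lit 7931365698) (nat_lit 608) (nat_lit 84815436) (nat_lit 684) (nat_lit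 470438946) (nat_lit 225) (nat_lit 5) (nat_lit 233) (nat_lit 5) (nat_lit 234) (nat_lit 5) (nat_lit 443) (nat_lit 356) (nat_lit 341)) (XT.nd (nat_lit 78) (nat_lit 532) (nat_lit 0) (XT.lf (nat_lit 0) (nat_lit 3094522228) (nat_lit 608) (nat_lit 2651825182) (nat_lit 76) (nat_lit 2812243570) (nat_lit 217) (nat_lit 5) (nat_lit 225) (nat_lit 5) (nat_lit 218) (nat_lit 5) (nat_lit 444) (nat_lit 356) (nat_lit 340)) (XT.lf (nat_lit 0) (nat_lit 3843776874) (nat_lit 532) (nat_lit 2853457096) (nat_lit 608) (nat_lit 1935266571) (nat_lit 210) (nat_lit 5) (nat_lit 217) (nat_lit 5) (nat_lit 218) (nat_lit 5) (nat_lit 445) (nat_lit 356) (nat_lit 339)))) (XT.nd (nat_lit 78) (nat_lit 532) (nat_lit 0) (XT.lf (nat_lit 0) (nat_lit 1615916592) (nat_lit 608) (nat_lit 6976306457) (nat_lit 76) (nat_lit 115992361) (nat_lit 202) (nat_lit 5) (nat_lit 210) (nat_lit 5) (nat_lit 203) (nat_lit 5) (nat_lit 446) (nat_lit 356) (nat_lit 338)) (XT.nd (nat_lit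 78) (nat_lit 532) (nat_lit 0) (XT.lf (nat_lit 0) (nat_lit 5207657801) (nat_lit 608) (nat_lit 446170974) (nat_lit 76) (nat_lit 3131466502) (nat_lit 202) (nat_lit 5) (nat_lit 210) (nat_lit 5) (nat_lit 203) (nat_lit 5) (nat_lit 447) (nat_lit 356) (nat_lit 337)) (XT.lf (nat_lit 0) (nat_lit 6220354644) (nat_lit 532) (nat_lit 2636539037) (nat_lit 608) (nat_lit 7325058) (nat_lit 195) (nat_lit 5) (nat_lit 202) (nat_lit 5) (nat_lit 203) (nat_lit 5) (nat_lit 448) (nat_lit 356) (nat_lit 336)))))) (XT.nd (nat_lit 390) (nat_lit 1824) (nat_lit 0) (XT.nd (nat_lit 156) (nat_lit 988) (nat_lit 0) (XT.nd (nat_lit 78) (nat_lit 456) (nat_lit 0) (XT.lf (nat_lit 0) (nat_lit 3564496802) (nat_lit 532) (nat_lit 4912978218) (nat_lit 76) (nat_lit 467232936) (nat_lit 188) (nat_lit 5) (nat_lit 195) (nat_lit 5) (nat_lit 189) (nat_lit 5) (nat_lit 449) (nat_lit 356) (nat_lit 335)) (XT.lf (nat_lit 0) (nat_lit 1779446114) (nat_lit 456) (nat_lit 5421006509)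 (nat_lit 532) (nat_lit 1826511771) (nat_lit 182) (nat_lit 5) (nat_lit 188) (nat_lit 5) (nat_lit 189) (nat_lit 5) (nat_lit 450) (nat_lit 356) (nat_lit 334))) (XT.nd (nat_lit 78) (nat_lit 912) (nat_lit 0) (XT.lf (nat_lit 0) (nat_lit 1753985294) (nat_lit 532) (nat_lit 526498076) (nat_lit 76) (nat_lit 6830576675) (nat_lit 181) (nat_lit 5) (nat_lit 188) (nat_lit 5) (nat_lit 182) (nat_lit 5) (nat_lit 451) (nat_lit 356) (nat_lit 333)) (XT.nd (nat_lit 78) (nat_lit 456) (nat_lit 0) (XT.lf (nat_lit 0) (nat_lit 5376097691) (nat_lit 532) (nat_lit 2878457425) (nat_lit 76) (nat_lit 942165274) (nat_lit 175) (nat_lit 5) (nat_lit 182) (nat_lit 5) (nat_lit 176) (nat_lit 5) (nat_lit 452) (nat_lit 356) (nat_lit 332)) (XT.lf (nat_lit 0) (nat_lit 3984537497) (nat_lit 456) (nat_lit 5078226701) (nat_lit 532) (nat_lit 221500732) (nat_lit 169) (nat_lit 5) (nat_lit 175) (nat_lit 5) (nat_lit 176) (nat_lit 5) (nat_lit 453) (nat_lit 356) (nat_lit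 331))))) (XT.nd (nat_lit 234) (nat_lit 836) (nat_lit 0) (XT.nd (nat_lit 78) (nat_lit 532) (nat_lit 0) (XT.lf (nat_lit 0) (nat_lit 1572903817) (nat_lit 380) (nat_lit 1808880132) (nat_lit 456) (nat_lit 5991792733) (nat_lit 163) (nat_lit 5) (nat_lit 168) (nat_lit 5) (nat_lit 169) (nat_lit 5) (nat_lit 454) (nat_lit 356) (nat_lit 330)) (XT.nd (nat_lit 78) (nat_lit 532) (nat_lit 0) (XT.lf (nat_lit 0) (nat_lit 7048025341) (nat_lit 456) (nat_lit 896976383) (nat_lit 76) (nat_lit 1519778989) (nat_lit 163) (nat_lit 5) (nat_lit 169) (nat_lit 5) (nat_lit 164) (nat_lit 5) (nat_lit 455) (nat_lit 356) (nat_lit 329)) (XT.lf (nat_lit 0) (nat_lit 1214648103) (nat_lit 532) (nat_lit 3427204691) (nat_lit 76) (nat_lit 4915788436) (nat_lit 156) (nat_lit 5) (nat_lit 163) (nat_lit 5) (nat_lit 157) (nat_lit 5) (nat_lit 456) (nat_lit 356) (nat_lit 328)))) (XT.nd (nat_lit 78) (nat_lit 456) (nat_lit 0) (XT.lf (nat_lit 0) (nat_lit 3614751870) (nat_lit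 380) (nat_lit 1250460255) (nat_lit 456) (nat_lit 4787261223) (nat_lit 151) (nat_lit 5) (nat_lit 156) (nat_lit 5) (nat_lit 157) (nat_lit 5) (nat_lit 457) (nat_lit 356) (nat_lit 327)) (XT.nd (nat_lit 78) (nat_lit 76) (nat_lit 0) (XT.lf (nat_lit 0) (nat_lit 1018837971) (nat_lit 380) (nat_lit 7563742501) (nat_lit 456) (nat_lit 1166757292) (nat_lit 146) (nat_lit 5) (nat_lit 151) (nat_lit 5) (nat_lit 152) (nat_lit 5) (nat_lit 458) (nat_lit 356) (nat_lit 326)) (XT.lf (nat_lit 0) (nat_lit 2491938074) (nat_lit 456) (nat_lit 1649384165) (nat_lit 76) (nat_lit 5706522018) (nat_lit 145) (nat_lit 5) (nat_lit 151) (nat_lit 5) (nat_lit 146) (nat_lit 5) (nat_lit 459) (nat_lit 356) (nat_lit 325))))))))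
noncomputable def xc37 : XT := (XT.nd (nat_lit 1716) (nat_lit 3040) (nat_lit 0) (XT.nd (nat_lit 858) (nat_lit 2432) (nat_lit 0) (XT.nd (nat_lit 390) (nat_lit 1444) (nat_lit 0) (XT.nd (nat_lit 156) (nat_lit 912) (nat_lit 0) (XT.nd (nat_lit 78) (nat_lit 380) (nat_lit 0) (XT.lf (nat_lit 0) (nat_lit 5564612166) (nat_lit 380) (nat_lit 630546014) (nat_lit 456) (nat_lit 3753279831) (nat_lit 140) (nat_lit 5) (nat_lit 145) (nat_lit 5) (nat_lit 146) (nat_lit 5) (nat_lit 460) (nat_lit 356) (nat_lit 324)) (XT.lf (nat_lit 0) (nat_lit 2838084492) (nat_lit 380) (nat_lit 7134238331) (nat_lit 456) (nat_lit 78733853) (nat_lit 135) (nat_lit 5) (nat_lit 140) (nat_lit 5) (nat_lit 141) (nat_lit 5) (nat_lit 461) (nat_lit 356) (nat_lit 323))) (XT.nd (nat_lit 78) (nat_lit 456) (nat_lit 0) (XT.lf (nat_lit 0) (nat_lit 6103182) (nat_lit 380) (nat_lit 3600207638) (nat_lit 456) (nat_lit 6549248020) (nat_lit 129) (nat_lit 5) (nat_lit 134) (nat_lit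 5) (nat_lit 135) (nat_lit 5) (nat_lit 462) (nat_lit 356) (nat_lit 322)) (XT.nd (nat_lit 78) (nat_lit 456) (nat_lit 0) (XT.lf (nat_lit 0) (nat_lit 7364365959) (nat_lit 456) (nat_lit 2869537592) (nat_lit 76) (nat_lit 28239835) (nat_lit 129) (nat_lit 5) (nat_lit 135) (nat_lit 5) (nat_lit 130) (nat_lit 5) (nat_lit 463) (nat_lit 356) (nat_lit 321)) (XT.lf (nat_lit 0) (nat_lit 821643822) (nat_lit 456) (nat_lit 5858119156) (nat_lit 76) (nat_lit 3690883651) (nat_lit 123) (nat_lit 5) (nat_lit 129) (nat_lit 5) (nat_lit 124) (nat_lit 5) (nat_lit 464) (nat_lit 356) (nat_lit 320))))) (XT.nd (nat_lit 234) (nat_lit 684) (nat_lit 0) (XT.nd (nat_lit 78) (nat_lit 456) (nat_lit 0) (XT.lf (nat_lit 0) (nat_lit 1527404732) (nat_lit 304) (nat_lit 3031279824) (nat_lit 380) (nat_lit 5922621094) (nat_lit 119) (nat_lit 5) (nat_lit 123) (nat_lit 5) (nat_lit 124) (nat_lit 5) (nat_lit 465) (nat_lit 356) (nat_lit 319)) (XT.nd (nat_lit 78) (nat_lit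 456) (nat_lit 0) (XT.lf (nat_lit 0) (nat_lit 8367497551) (nat_lit 380) (nat_lit 1531884073) (nat_lit 76) (nat_lit 694864858) (nat_lit 119) (nat_lit 5) (nat_lit 124) (nat_lit 5) (nat_lit 120) (nat_lit 5) (nat_lit 466) (nat_lit 356) (nat_lit 318)) (XT.lf (nat_lit 0) (nat_lit 1535976233) (nat_lit 456) (nat_lit 4694130307) (nat_lit 76) (nat_lit 4478884668) (nat_lit 113) (nat_lit 5) (nat_lit 119) (nat_lit 5) (nat_lit 114) (nat_lit 5) (nat_lit 467) (nat_lit 356) (nat_lit 317)))) (XT.nd (nat_lit 78) (nat_lit 380) (nat_lit 0) (XT.lf (nat_lit 0) (nat_lit 2857649313) (nat_lit 304) (nat_lit 2469446897) (nat_lit 380) (nat_lit 5498989838) (nat_lit 109) (nat_lit 5) (nat_lit 113) (nat_lit 5) (nat_lit 114) (nat_lit 5) (nat_lit 468) (nat_lit 356) (nat_lit 316)) (XT.nd (nat_lit 78) (nat_lit 380) (nat_lit 0) (XT.lf (nat_lit 0) (nat_lit 9188907971) (nat_lit 380) (nat_lit 402644063) (nat_lit 76) (nat_lit 1354081919) (nat_lit 109) (nat_lit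 5) (nat_lit 114) (nat_lit 5) (nat_lit 110) (nat_lit 5) (nat_lit 469) (nat_lit 356) (nat_lit 315)) (XT.lf (nat_lit 0) (nat_lit 2052562702) (nat_lit 380) (nat_lit 3757891577) (nat_lit 76) (nat_lit 5256475176) (nat_lit 104) (nat_lit 5) (nat_lit 109) (nat_lit 5) (nat_lit 105) (nat_lit 5) (nat_lit 470) (nat_lit 356) (nat_lit 314)))))) (XT.nd (nat_lit 390) (nat_lit 1140) (nat_lit 0) (XT.nd (nat_lit 156) (nat_lit 684) (nat_lit 0) (XT.nd (nat_lit 78) (nat_lit 304) (nat_lit 0) (XT.lf (nat_lit 0) (nat_lit 3958609015) (nat_lit 304) (nat_lit 1939651037) (nat_lit 380) (nat_lit 5292491729) (nat_lit 100) (nat_lit 5) (nat_lit 104) (nat_lit 5) (nat_lit 105) (nat_lit 5) (nat_lit 471) (nat_lit 356) (nat_lit 313)) (XT.lf (nat_lit 0) (nat_lit 485267565) (nat_lit 304) (nat_lit 9332723527) (nat_lit 380) (nat_lit 1499124969) (nat_lit 96) (nat_lit 5) (nat_lit 100) (nat_lit 5) (nat_lit 101) (nat_lit 5) (nat_lit 472) (nat_lit 356) (nat_lit 312)))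 (XT.nd (nat_lit 78) (nat_lit 608) (nat_lit 0) (XT.lf (nat_lit 0) (nat_lit 2356376390) (nat_lit 380) (nat_lit 3090378946) (nat_lit 76) (nat_lit 5998605089) (nat_lit 95) (nat_lit 5) (nat_lit 100) (nat_lit 5) (nat_lit 96) (nat_lit 5) (nat_lit 473) (nat_lit 356) (nat_lit 311)) (XT.nd (nat_lit 78) (nat_lit 304) (nat_lit 0) (XT.lf (nat_lit 0) (nat_lit 4788354343) (nat_lit 304) (nat_lit 1468191045) (nat_lit 380) (nat_lit 5319680934) (nat_lit 91) (nat_lit 5) (nat_lit 95) (nat_lit 5) (nat_lit 96) (nat_lit 5) (nat_lit 474) (nat_lit 356) (nat_lit 310)) (XT.lf (nat_lit 0) (nat_lit 1083851705) (nat_lit 304) (nat_lit 9152340696) (nat_lit 380) (nat_lit 1473494945) (nat_lit 87) (nat_lit 5) (nat_lit 91) (nat_lit 5) (nat_lit 92) (nat_lit 5) (nat_lit 475) (nat_lit 356) (nat_lit 309))))) (XT.nd (nat_lit 234) (nat_lit 532) (nat_lit 0) (XT.nd (nat_lit 78) (nat_lit 532) (nat_lit 0) (XT.lf (nat_lit 0) (nat_lit 2429910483) (nat_lit 380) (nat_lit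 2736598844) (nat_lit 76) (nat_lit 6678748733) (nat_lit 86) (nat_lit 5) (nat_lit 91) (nat_lit 5) (nat_lit 87) (nat_lit 5) (nat_lit 476) (nat_lit 356) (nat_lit 308)) (XT.nd (nat_lit 78) (nat_lit 304) (nat_lit 0) (XT.lf (nat_lit 0) (nat_lit 5300788957) (nat_lit 228) (nat_lit 1082993657) (nat_lit 304) (nat_lit 5599727087) (nat_lit 83) (nat_lit 5) (nat_lit 86) (nat_lit 5) (nat_lit 87) (nat_lit 5) (nat_lit 477) (nat_lit 356) (nat_lit 307)) (XT.lf (nat_lit 0) (nat_lit 1339688181) (nat_lit 304) (nat_lit 9082139956) (nat_lit 380) (nat_lit 1702603064) (nat_lit 79) (nat_lit 5) (nat_lit 83) (nat_lit 5) (nat_lit 84) (nat_lit 5) (nat_lit 478) (nat_lit 356) (nat_lit 306)))) (XT.nd (nat_lit 78) (nat_lit 456) (nat_lit 0) (XT.lf (nat_lit 0) (nat_lit 2252967568) (nat_lit 380) (nat_lit 2746082700) (nat_lit 76) (nat_lit 7268626102) (nat_lit 78) (nat_lit 5) (nat_lit 83) (nat_lit 5) (nat_lit 79) (nat_lit 5) (nat_lit 479) (nat_lit 356) (nat_lit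 305)) (XT.nd (nat_lit 78) (nat_lit 228) (nat_lit 0) (XT.lf (nat_lit 0) (nat_lit 5445139969) (nat_lit 228) (nat_lit 813904401) (nat_lit 304) (nat_lit 6154639494) (nat_lit 75) (nat_lit 5) (nat_lit 78) (nat_lit 5) (nat_lit 79) (nat_lit 5) (nat_lit 480) (nat_lit 356) (nat_lit 304)) (XT.lf (nat_lit 0) (nat_lit 1199803464) (nat_lit 228) (nat_lit 9153219287) (nat_lit 304) (nat_lit 2209439387) (nat_lit 72) (nat_lit 5) (nat_lit 75) (nat_lit 5) (nat_lit 76) (nat_lit 5) (nat_lit 481) (nat_lit 356) (nat_lit 303))))))) (XT.nd (nat_lit 858) (nat_lit 1292) (nat_lit 0) (XT.nd (nat_lit 390) (nat_lit 912) (nat_lit 0) (XT.nd (nat_lit 156) (nat_lit 532) (nat_lit 0) (XT.nd (nat_lit 78) (nat_lit 228) (nat_lit 0) (XT.lf (nat_lit 0) (nat_lit 1802422612) (nat_lit 304) (nat_lit 3173429286) (nat_lit 76) (nat_lit 7737903279) (nat_lit 71) (nat_lit 5) (nat_lit 75) (nat_lit 5) (nat_lit 72) (nat_lit 5) (nat_lit 482) (nat_lit 356) (nat_lit 302)) (XT.lf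 (nat_lit 0) (nat_lit 5165398766) (nat_lit 228) (nat_lit 693000762) (nat_lit 304) (nat_lit 7009519090) (nat_lit 68) (nat_lit 5) (nat_lit 71) (nat_lit 5) (nat_lit 72) (nat_lit 5) (nat_lit 483) (nat_lit 356) (nat_lit 301))) (XT.nd (nat_lit 78) (nat_lit 304) (nat_lit 0) (XT.lf (nat_lit 0) (nat_lit 605739109) (nat_lit 228) (nat_lit 9399063463) (nat_lit 304) (nat_lit 3020182383) (nat_lit 65) (nat_lit 5) (nat_lit 68) (nat_lit 5) (nat_lit 69) (nat_lit 5) (nat_lit 484) (nat_lit 356) (nat_lit 300)) (XT.nd (nat_lit 78) (nat_lit 228) (nat_lit 0) (XT.lf (nat_lit 0) (nat_lit 1051957110) (nat_lit 304) (nat_lit 4078900211) (nat_lit 76) (nat_lit 8053869162) (nat_lit 64) (nat_lit 5) (nat_lit 68) (nat_lit 5) (nat_lit 65) (nat_lit 5) (nat_lit 485) (nat_lit 356) (nat_lit 299)) (XT.lf (nat_lit 0) (nat_lit 4399706868) (nat_lit 228) (nat_lit 754930635) (nat_lit 304) (nat_lit 8192840729) (nat_lit 61) (nat_lit 5) (nat_lit 64) (nat_lit 5) (nat_lit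 65) (nat_lit 5) (nat_lit 486) (nat_lit 356) (nat_lit 298))))) (XT.nd (nat_lit 234) (nat_lit 456) (nat_lit 0) (XT.nd (nat_lit 78) (nat_lit 456) (nat_lit 0) (XT.lf (nat_lit 0) (nat_lit 9352100052) (nat_lit 304) (nat_lit 500435702) (nat_lit 76) (nat_lit 3660700009) (nat_lit 61) (nat_lit 5) (nat_lit 65) (nat_lit 5) (nat_lit 62) (nat_lit 5) (nat_lit 487) (nat_lit 356) (nat_lit 297)) (XT.nd (nat_lit 78) (nat_lit 228) (nat_lit 0) (XT.lf (nat_lit 0) (nat_lit 8152657596) (nat_lit 228) (nat_lit 5500646625) (nat_lit 304) (nat_lit 28613592) (nat_lit 58) (nat_lit 5) (nat_lit 61) (nat_lit 5) (nat_lit 62) (nat_lit 5) (nat_lit 488) (nat_lit 356) (nat_lit 296)) (XT.lf (nat_lit 0) (nat_lit 3079680731) (nat_lit 152) (nat_lit 1037279295) (nat_lit 228) (nat_lit 9736768681) (nat_lit 55) (nat_lit 5) (nat_lit 57) (nat_lit 5) (nat_lit 58) (nat_lit 5) (nat_lit 489) (nat_lit 356) (nat_lit 295)))) (XT.nd (nat_lit 78) (nat_lit 456) (nat_lit 0) (XT.lf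 (nat_lit 0) (nat_lit 8367319543) (nat_lit 228) (nat_lit 2181092884) (nat_lit 76) (nat_lit 3480119372) (nat_lit 55) (nat_lit 5) (nat_lit 58) (nat_lit 5) (nat_lit 56) (nat_lit 5) (nat_lit 490) (nat_lit 356) (nat_lit 294)) (XT.nd (nat_lit 78) (nat_lit 228) (nat_lit 0) (XT.lf (nat_lit 0) (nat_lit 6599333759) (nat_lit 228) (nat_lit 6115895822) (nat_lit 304) (nat_lit 1491355322) (nat_lit 52) (nat_lit 5) (nat_lit 55) (nat_lit 5) (nat_lit 56) (nat_lit 5) (nat_lit 491) (nat_lit 356) (nat_lit 293)) (XT.lf (nat_lit 0) (nat_lit 1129668837) (nat_lit 152) (nat_lit 1580968455) (nat_lit 228) (nat_lit 11677508540) (nat_lit 49) (nat_lit 5) (nat_lit 51) (nat_lit 5) (nat_lit 52) (nat_lit 5) (nat_lit 492) (nat_lit 356) (nat_lit 292)))))) (XT.nd (nat_lit 390) (nat_lit 608) (nat_lit 0) (XT.nd (nat_lit 156) (nat_lit 456) (nat_lit 0) (XT.nd (nat_lit 78) (nat_lit 228) (nat_lit 0) (XT.lf (nat_lit 0) (nat_lit 7010906401) (nat_lit 228) (nat_lit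 4522143396) (nat_lit 76) (nat_lit 3039411448) (nat_lit 49) (nat_lit 5) (nat_lit 52) (nat_lit 5) (nat_lit 50) (nat_lit 5) (nat_lit 493) (nat_lit 356) (nat_lit 291)) (XT.lf (nat_lit 0) (nat_lit 4372767729) (nat_lit 228) (nat_lit 7027031468) (nat_lit 304) (nat_lit 3360615853) (nat_lit 46) (nat_lit 5) (nat_lit 49) (nat_lit 5) (nat_lit 50) (nat_lit 5) (nat_lit 494) (nat_lit 356) (nat_lit 290))) (XT.nd (nat_lit 78) (nat_lit 380) (nat_lit 0) (XT.lf (nat_lit 0) (nat_lit 906585141) (nat_lit 304) (nat_lit 1513946729) (nat_lit 76) (nat_lit 12531592986) (nat_lit 45) (nat_lit 5) (nat_lit 49) (nat_lit 5) (nat_lit 46) (nat_lit 5) (nat_lit 495) (nat_lit 356) (nat_lit 289)) (XT.nd (nat_lit 78) (nat_lit 228) (nat_lit 0) (XT.lf (nat_lit 0) (nat_lit 5242827516) (nat_lit 228) (nat_lit 7609890327) (nat_lit 76) (nat_lit 2293937018) (nat_lit 43) (nat_lit 5) (nat_lit 46) (nat_lit 5) (nat_lit 44) (nat_lit 5) (nat_lit 496) (nat_lit 356) (nat_lit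 288)) (XT.lf (nat_lit 0) (nat_lit 1384204505) (nat_lit 228) (nat_lit 8281488593) (nat_lit 304) (nat_lit 5679388512) (nat_lit 40) (nat_lit 5) (nat_lit 43) (nat_lit 5) (nat_lit 44) (nat_lit 5) (nat_lit 497) (nat_lit 356) (nat_lit 287))))) (XT.nd (nat_lit 234) (nat_lit 380) (nat_lit 0) (XT.nd (nat_lit 78) (nat_lit 228) (nat_lit 0) (XT.lf (nat_lit 0) (nat_lit 10599751159) (nat_lit 228) (nat_lit 3593278922) (nat_lit 304) (nat_lit 1354130563) (nat_lit 40) (nat_lit 5) (nat_lit 43) (nat_lit 5) (nat_lit 44) (nat_lit 5) (nat_lit 498) (nat_lit 356) (nat_lit 286)) (XT.nd (nat_lit 78) (nat_lit 0) (nat_lit 0) (XT.lf (nat_lit 0) (nat_lit 3018200541) (nat_lit 228) (nat_lit 11539898126) (nat_lit 76) (nat_lit 1194776034) (nat_lit 37) (nat_lit 5) (nat_lit 40) (nat_lit 5) (nat_lit 38) (nat_lit 5) (nat_lit 499) (nat_lit 356) (nat_lit 285)) (XT.lf (nat_lit 0) (nat_lit 7482599375) (nat_lit 228) (nat_lit 2432349765) (nat_lit 76) (nat_lit 6047123622)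 (nat_lit 37) (nat_lit 5) (nat_lit 40) (nat_lit 5) (nat_lit 38) (nat_lit 5) (nat_lit 500) (nat_lit 356) (nat_lit 284)))) (XT.nd (nat_lit 78) (nat_lit 228) (nat_lit 0) (XT.lf (nat_lit 0) (nat_lit 6887920835) (nat_lit 152) (nat_lit 5159282215) (nat_lit 228) (nat_lit 4128037125) (nat_lit 35) (nat_lit 5) (nat_lit 37) (nat_lit 5) (nat_lit 38) (nat_lit 5) (nat_lit 501) (nat_lit 356) (nat_lit 283)) (XT.nd (nat_lit 78) (nat_lit 152) (nat_lit 0) (XT.lf (nat_lit 0) (nat_lit 289034610) (nat_lit 228) (nat_lit 26724083) (nat_lit 76) (nat_lit 16077221948) (nat_lit 34) (nat_lit 5) (nat_lit 37) (nat_lit 5) (nat_lit 35) (nat_lit 5) (nat_lit 502) (nat_lit 356) (nat_lit 282)) (XT.lf (nat_lit 0) (nat_lit 4797984326) (nat_lit 228) (nat_lit 7187288343) (nat_lit 76) (nat_lit 4628084813) (nat_lit 32) (nat_lit 5) (nat_lit 35) (nat_lit 5) (nat_lit 33) (nat_lit 5) (nat_lit 503) (nat_lit 356) (nat_lit 281))))))))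
noncomputable def xc38 : XT := (XT.nd (nat_lit 54678) (nat_lit 0) (nat_lit 7296) (XT.nd (nat_lit 53820) (nat_lit 0) (nat_lit 14972) (XT.nd (nat_lit 53352) (nat_lit 0) (nat_lit 20368) (XT.nd (nat_lit 156) (nat_lit 228) (nat_lit 0) (XT.nd (nat_lit 78) (nat_lit 0) (nat_lit 0) (XT.lf (nat_lit 0) (nat_lit 2198118884) (nat_lit 152) (nat_lit 7182552200) (nat_lit 228) (nat_lit 7457803053) (nat_lit 30) (nat_lit 5) (nat_lit 32) (nat_lit 5) (nat_lit 33) (nat_lit 5) (nat_lit 504) (nat_lit 356) (nat_lit 280)) (XT.lf (nat_lit 0) (nat_lit 11810286678) (nat_lit 152) (nat_lit 2260237926) (nat_lit 228) (nat_lit 2997261636) (nat_lit 30) (nat_lit 5) (nat_lit 32) (nat_lit 5) (nat_lit 33) (nat_lit 5) (nat_lit 505) (nat_lit 356) (nat_lit 279))) (XT.nd (nat_lit 78) (nat_lit 0) (nat_lit 0) (XT.lf (nat_lit 0) (nat_lit 1545777354) (nat_lit 228) (nat_lit 13017893714) (nat_lit 76) (nat_lit 2737542204) (nat_lit 27) (nat_lit 5) (nat_lit 30) (nat_lit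 5) (nat_lit 28) (nat_lit 5) (nat_lit 506) (nat_lit 356) (nat_lit 278)) (XT.nd (nat_lit 53040) (nat_lit 0) (nat_lit 23560) (XT.lf (nat_lit 0) (nat_lit 6157869686) (nat_lit 228) (nat_lit 3545194367) (nat_lit 76) (nat_lit 7835485213) (nat_lit 27) (nat_lit 5) (nat_lit 30) (nat_lit 5) (nat_lit 28) (nat_lit 5) (nat_lit 507) (nat_lit 356) (nat_lit 277)) (XT.lf (nat_lit 0) (nat_lit 95309561) (nat_lit 836) (nat_lit 1825373444) (nat_lit 836) (nat_lit 1825373444) (nat_lit 337) (nat_lit 4) (nat_lit 348) (nat_lit 5) (nat_lit 348) (nat_lit 4) (nat_lit 426) (nat_lit 357) (nat_lit 357))))) (XT.nd (nat_lit 234) (nat_lit 1596) (nat_lit 0) (XT.nd (nat_lit 78) (nat_lit 1596) (nat_lit 0) (XT.lf (nat_lit 0) (nat_lit 5876438428) (nat_lit 836) (nat_lit 1565392595) (nat_lit 836) (nat_lit 97679829) (nat_lit 337) (nat_lit 4) (nat_lit 348) (nat_lit 5) (nat_lit 348) (nat_lit 4) (nat_lit 427) (nat_lit 357) (nat_lit 356)) (XT.nd (nat_lit 78) (nat_lit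 760) (nat_lit 0) (XT.lf (nat_lit 0) (nat_lit 3444490318) (nat_lit 836) (nat_lit 3548812082) (nat_lit 0) (nat_lit 594836543) (nat_lit 326) (nat_lit 5) (nat_lit 337) (nat_lit 4) (nat_lit 326) (nat_lit 4) (nat_lit 428) (nat_lit 357) (nat_lit 355)) (XT.lf (nat_lit 0) (nat_lit 2182634605) (nat_lit 760) (nat_lit 4844208427) (nat_lit 760) (nat_lit 611496131) (nat_lit 316) (nat_lit 4) (nat_lit 326) (nat_lit 5) (nat_lit 326) (nat_lit 4) (nat_lit 429) (nat_lit 357) (nat_lit 354)))) (XT.nd (nat_lit 78) (nat_lit 836) (nat_lit 0) (XT.lf (nat_lit 0) (nat_lit 295958633) (nat_lit 684) (nat_lit 2617214958) (nat_lit 760) (nat_lit 4776783693) (nat_lit 306) (nat_lit 5) (nat_lit 315) (nat_lit 5) (nat_lit 316) (nat_lit 4) (nat_lit 430) (nat_lit 357) (nat_lit 353)) (XT.nd (nat_lit 78) (nat_lit 836) (nat_lit 0) (XT.lf (nat_lit 0) (nat_lit 6156913832) (nat_lit 684) (nat_lit 315818111) (nat_lit 760) (nat_lit 1270367278) (nat_lit 306) (nat_lit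 5) (nat_lit 315) (nat_lit 5) (nat_lit 316) (nat_lit 4) (nat_lit 431) (nat_lit 357) (nat_lit 352)) (XT.lf (nat_lit 0) (nat_lit 2254083942) (nat_lit 836) (nat_lit 3506840266) (nat_lit 76) (nat_lit 2036540303) (nat_lit 295) (nat_lit 5) (nat_lit 306) (nat_lit 5) (nat_lit 296) (nat_lit 4) (nat_lit 432) (nat_lit 357) (nat_lit 351)))))) (XT.nd (nat_lit 390) (nat_lit 2584) (nat_lit 0) (XT.nd (nat_lit 156) (nat_lit 1368) (nat_lit 0) (XT.nd (nat_lit 78) (nat_lit 760) (nat_lit 0) (XT.lf (nat_lit 0) (nat_lit 2398983244) (nat_lit 684) (nat_lit 3398913680) (nat_lit 760) (nat_lit 2055557158) (nat_lit 286) (nat_lit 5) (nat_lit 295) (nat_lit 5) (nat_lit 296) (nat_lit 4) (nat_lit 433) (nat_lit 357) (nat_lit 350)) (XT.lf (nat_lit 0) (nat_lit 480741206) (nat_lit 684) (nat_lit 966183959) (nat_lit 760) (nat_lit 6464172901) (nat_lit 276) (nat_lit 5) (nat_lit 285) (nat_lit 5) (nat_lit 286) (nat_lit 5) (nat_lit 434) (nat_lit 357) (nat_lit 349)))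 (XT.nd (nat_lit 78) (nat_lit 1368) (nat_lit 0) (XT.lf (nat_lit 0) (nat_lit 4977071518) (nat_lit 760) (nat_lit 1460943574) (nat_lit 76) (nat_lit 1531926601) (nat_lit 276) (nat_lit 5) (nat_lit 286) (nat_lit 5) (nat_lit 277) (nat_lit 4) (nat_lit 435) (nat_lit 357) (nat_lit 348)) (XT.nd (nat_lit 78) (nat_lit 684) (nat_lit 0) (XT.lf (nat_lit 0) (nat_lit 516439131) (nat_lit 684) (nat_lit 3427163030) (nat_lit 76) (nat_lit 4086794023) (nat_lit 267) (nat_lit 5) (nat_lit 276) (nat_lit 5) (nat_lit 268) (nat_lit 5) (nat_lit 436) (nat_lit 357) (nat_lit 347)) (XT.lf (nat_lit 0) (nat_lit 2656080688) (nat_lit 684) (nat_lit 1366851267) (nat_lit 760) (nat_lit 4069410760) (nat_lit 258) (nat_lit 5) (nat_lit 267) (nat_lit 5) (nat_lit 268) (nat_lit 5) (nat_lit 437) (nat_lit 357) (nat_lit 346))))) (XT.nd (nat_lit 234) (nat_lit 1292) (nat_lit 0) (XT.nd (nat_lit 78) (nat_lit 684) (nat_lit 0) (XT.lf (nat_lit 0) (nat_lit 676799606) (nat_lit 608)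 (nat_lit 6899000090) (nat_lit 684) (nat_lit 580223236) (nat_lit 250) (nat_lit 5) (nat_lit 258) (nat_lit 5) (nat_lit 259) (nat_lit 4) (nat_lit 438) (nat_lit 357) (nat_lit 345)) (XT.nd (nat_lit 78) (nat_lit 608) (nat_lit 0) (XT.lf (nat_lit 0) (nat_lit 2926232403) (nat_lit 684) (nat_lit 1339485027) (nat_lit 76) (nat_lit 3955160388) (nat_lit 249) (nat_lit 5) (nat_lit 258) (nat_lit 5) (nat_lit 250) (nat_lit 5) (nat_lit 439) (nat_lit 357) (nat_lit 344)) (XT.lf (nat_lit 0) (nat_lit 4908665172) (nat_lit 608) (nat_lit 1560199012) (nat_lit 684) (nat_lit 1818631109) (nat_lit 241) (nat_lit 5) (nat_lit 249) (nat_lit 5) (nat_lit 250) (nat_lit 5) (nat_lit 440) (nat_lit 357) (nat_lit 343)))) (XT.nd (nat_lit 78) (nat_lit 684) (nat_lit 0) (XT.lf (nat_lit 0) (nat_lit 1682235839) (nat_lit 608) (nat_lit 5467600183) (nat_lit 76) (nat_lit 1205843032) (nat_lit 233) (nat_lit 5) (nat_lit 241) (nat_lit 5) (nat_lit 234) (nat_lit 5) (nat_lit 441)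 (nat_lit 357) (nat_lit 342)) (XT.nd (nat_lit 78) (nat_lit 76) (nat_lit 0) (XT.lf (nat_lit 0) (nat_lit 813736545) (nat_lit 608) (nat_lit 4396224601) (nat_lit 684) (nat_lit 3215418523) (nat_lit 225) (nat_lit 5) (nat_lit 233) (nat_lit 5) (nat_lit 234) (nat_lit 5) (nat_lit 442) (nat_lit 357) (nat_lit 341)) (XT.lf (nat_lit 0) (nat_lit 287583640) (nat_lit 684) (nat_lit 1279232298) (nat_lit 76) (nat_lit 6930036533) (nat_lit 224) (nat_lit 5) (nat_lit 233) (nat_lit 5) (nat_lit 225) (nat_lit 5) (nat_lit 443) (nat_lit 357) (nat_lit 340))))))) (XT.nd (nat_lit 858) (nat_lit 3040) (nat_lit 0) (XT.nd (nat_lit 390) (nat_lit 2356) (nat_lit 0) (XT.nd (nat_lit 156) (nat_lit 1216) (nat_lit 0) (XT.nd (nat_lit 78) (nat_lit 532) (nat_lit 0) (XT.lf (nat_lit 0) (nat_lit 3803975994) (nat_lit 608) (nat_lit 3427053415) (nat_lit 76) (nat_lit 1338588994) (nat_lit 217) (nat_lit 5) (nat_lit 225) (nat_lit 5) (nat_lit 218) (nat_lit 5) (nat_lit 444) (nat_lit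 357) (nat_lit 339)) (XT.lf (nat_lit 0) (nat_lit 3020594960) (nat_lit 532) (nat_lit 4353314562) (nat_lit 608) (nat_lit 1270281988) (nat_lit 210) (nat_lit 5) (nat_lit 217) (nat_lit 5) (nat_lit 218) (nat_lit 5) (nat_lit 445) (nat_lit 357) (nat_lit 338))) (XT.nd (nat_lit 78) (nat_lit 608) (nat_lit 0) (XT.lf (nat_lit 0) (nat_lit 844565216) (nat_lit 532) (nat_lit 1393762431) (nat_lit 608) (nat_lit 6482177095) (nat_lit 202) (nat_lit 5) (nat_lit 209) (nat_lit 5) (nat_lit 210) (nat_lit 5) (nat_lit 446) (nat_lit 357) (nat_lit 337)) (XT.nd (nat_lit 78) (nat_lit 608) (nat_lit 0) (XT.lf (nat_lit 0) (nat_lit 5793927141) (nat_lit 608) (nat_lit 1374276420) (nat_lit 76) (nat_lit 1630111405) (nat_lit 202) (nat_lit 5) (nat_lit 210) (nat_lit 5) (nat_lit 203) (nat_lit 5) (nat_lit 447) (nat_lit 357) (nat_lit 336)) (XT.lf (nat_lit 0) (nat_lit 525367940) (nat_lit 608) (nat_lit 3638719942) (nat_lit 76) (nat_lit 4713746975) (nat_lit 194) (nat_lit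 5) (nat_lit 202) (nat_lit 5) (nat_lit 195) (nat_lit 5) (nat_lit 448) (nat_lit 357) (nat_lit 335))))) (XT.nd (nat_lit 234) (nat_lit 1368) (nat_lit 0) (XT.nd (nat_lit 78) (nat_lit 532) (nat_lit 0) (XT.lf (nat_lit 0) (nat_lit 2989346965) (nat_lit 456) (nat_lit 1071425791) (nat_lit 532) (nat_lit 4898283876) (nat_lit 188) (nat_lit 5) (nat_lit 194) (nat_lit 5) (nat_lit 195) (nat_lit 5) (nat_lit 449) (nat_lit 357) (nat_lit 334)) (XT.nd (nat_lit 78) (nat_lit 76) (nat_lit 0) (XT.lf (nat_lit 0) (nat_lit 678104514) (nat_lit 456) (nat_lit 6978270865) (nat_lit 532) (nat_lit 1385751702) (nat_lit 182) (nat_lit 5) (nat_lit 188) (nat_lit 5) (nat_lit 189) (nat_lit 5) (nat_lit 450) (nat_lit 357) (nat_lit 333)) (XT.lf (nat_lit 0) (nat_lit 2162815043) (nat_lit 532) (nat_lit 1683096303) (nat_lit 76) (nat_lit 5280783826) (nat_lit 181) (nat_lit 5) (nat_lit 188) (nat_lit 5) (nat_lit 182) (nat_lit 5) (nat_lit 451) (nat_lit 357) (nat_lit 332))))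 (XT.nd (nat_lit 78) (nat_lit 912) (nat_lit 0) (XT.lf (nat_lit 0) (nat_lit 5115629299) (nat_lit 456) (nat_lit 629613406) (nat_lit 532) (nat_lit 3467913054) (nat_lit 175) (nat_lit 5) (nat_lit 181) (nat_lit 5) (nat_lit 182) (nat_lit 5) (nat_lit 452) (nat_lit 357) (nat_lit 331)) (XT.nd (nat_lit 78) (nat_lit 380) (nat_lit 0) (XT.lf (nat_lit 0) (nat_lit 91468609) (nat_lit 532) (nat_lit 6585846805) (nat_lit 76) (nat_lit 2624134530) (nat_lit 168) (nat_lit 5) (nat_lit 175) (nat_lit 5) (nat_lit 169) (nat_lit 5) (nat_lit 453) (nat_lit 357) (nat_lit 330)) (XT.lf (nat_lit 0) (nat_lit 230939484) (nat_lit 380) (nat_lit 3426844588) (nat_lit 456) (nat_lit 5733636316) (nat_lit 163) (nat_lit 5) (nat_lit 168) (nat_lit 5) (nat_lit 169) (nat_lit 5) (nat_lit 454) (nat_lit 357) (nat_lit 329)))))) (XT.nd (nat_lit 390) (nat_lit 1672) (nat_lit 0) (XT.nd (nat_lit 156) (nat_lit 836) (nat_lit 0) (XT.nd (nat_lit 78) (nat_lit 532) (nat_lit 0) (XT.lf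 (nat_lit 0) (nat_lit 7199473934) (nat_lit 380) (nat_lit 89461388) (nat_lit 456) (nat_lit 2194396948) (nat_lit 163) (nat_lit 5) (nat_lit 168) (nat_lit 5) (nat_lit 169) (nat_lit 5) (nat_lit 455) (nat_lit 357) (nat_lit 328)) (XT.lf (nat_lit 0) (nat_lit 1399242671) (nat_lit 532) (nat_lit 4889147753) (nat_lit 76) (nat_lit 3288476254) (nat_lit 156) (nat_lit 5) (nat_lit 163) (nat_lit 5) (nat_lit 157) (nat_lit 5) (nat_lit 456) (nat_lit 357) (nat_lit 327))) (XT.nd (nat_lit 78) (nat_lit 456) (nat_lit 0) (XT.lf (nat_lit 0) (nat_lit 2096530687) (nat_lit 380) (nat_lit 2918828419) (nat_lit 456) (nat_lit 4657034343) (nat_lit 151) (nat_lit 5) (nat_lit 156) (nat_lit 5) (nat_lit 157) (nat_lit 5) (nat_lit 457) (nat_lit 357) (nat_lit 326)) (XT.nd (nat_lit 78) (nat_lit 456) (nat_lit 0) (XT.lf (nat_lit 0) (nat_lit 8690861129) (nat_lit 456) (nat_lit 558376457) (nat_lit 76) (nat_lit 520863193) (nat_lit 151) (nat_lit 5) (nat_lit 157) (nat_lit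 5) (nat_lit 152) (nat_lit 5) (nat_lit 458) (nat_lit 357) (nat_lit 325)) (XT.lf (nat_lit 0) (nat_lit 2550268442) (nat_lit 456) (nat_lit 3292031003) (nat_lit 76) (nat_lit 4026862624) (nat_lit 145) (nat_lit 5) (nat_lit 151) (nat_lit 5) (nat_lit 146) (nat_lit 5) (nat_lit 459) (nat_lit 357) (nat_lit 324))))) (XT.nd (nat_lit 234) (nat_lit 836) (nat_lit 0) (XT.nd (nat_lit 78) (nat_lit 456) (nat_lit 0) (XT.lf (nat_lit 0) (nat_lit 3863744915) (nat_lit 380) (nat_lit 2354836154) (nat_lit 456) (nat_lit 3751878169) (nat_lit 140) (nat_lit 5) (nat_lit 145) (nat_lit 5) (nat_lit 146) (nat_lit 5) (nat_lit 460) (nat_lit 357) (nat_lit 323)) (XT.nd (nat_lit 78) (nat_lit 76) (nat_lit 0) (XT.lf (nat_lit 0) (nat_lit 1067087853) (nat_lit 380) (nat_lit 8882257879) (nat_lit 456) (nat_lit 124665333) (nat_lit 135) (nat_lit 5) (nat_lit 140) (nat_lit 5) (nat_lit 141) (nat_lit 5) (nat_lit 461) (nat_lit 357) (nat_lit 322)) (XT.lf (nat_lit 0) (nat_lit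 3537307538) (nat_lit 456) (nat_lit 1823787837) (nat_lit 76) (nat_lit 4817902266) (nat_lit 134) (nat_lit 5) (nat_lit 140) (nat_lit 5) (nat_lit 135) (nat_lit 5) (nat_lit 462) (nat_lit 357) (nat_lit 321)))) (XT.nd (nat_lit 78) (nat_lit 456) (nat_lit 0) (XT.lf (nat_lit 0) (nat_lit 5502746816) (nat_lit 380) (nat_lit 1757027096) (nat_lit 456) (nat_lit 3026524915) (nat_lit 129) (nat_lit 5) (nat_lit 134) (nat_lit 5) (nat_lit 135) (nat_lit 5) (nat_lit 463) (nat_lit 357) (nat_lit 320)) (XT.nd (nat_lit 78) (nat_lit 0) (nat_lit 0) (XT.lf (nat_lit 0) (nat_lit 647083420) (nat_lit 456) (nat_lit 7846038982) (nat_lit 76) (nat_lit 1902651091) (nat_lit 123) (nat_lit 5) (nat_lit 129) (nat_lit 5) (nat_lit 124) (nat_lit 5) (nat_lit 464) (nat_lit 357) (nat_lit 319)) (XT.lf (nat_lit 0) (nat_lit 4351248325) (nat_lit 456) (nat_lit 516222741) (nat_lit 76) (nat_lit 5639623549) (nat_lit 123) (nat_lit 5) (nat_lit 129) (nat_lit 5) (nat_lit 124) (nat_lit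 5) (nat_lit 465) (nat_lit 357) (nat_lit 318))))))))
noncomputable def xc39 : XT := (XT.nd (nat_lit 1716) (nat_lit 2584) (nat_lit 0) (XT.nd (nat_lit 858) (nat_lit 1900) (nat_lit 0) (XT.nd (nat_lit 390) (nat_lit 1368) (nat_lit 0) (XT.nd (nat_lit 156) (nat_lit 684) (nat_lit 0) (XT.nd (nat_lit 78) (nat_lit 456) (nat_lit 0) (XT.lf (nat_lit 0) (nat_lit 6981096764) (nat_lit 304) (nat_lit 1148258039) (nat_lit 380) (nat_lit 2491299270) (nat_lit 119) (nat_lit 5) (nat_lit 123) (nat_lit 5) (nat_lit 124) (nat_lit 5) (nat_lit 466) (nat_lit 357) (nat_lit 317)) (XT.lf (nat_lit 0) (nat_lit 1230723267) (nat_lit 456) (nat_lit 6883122294) (nat_lit 76) (nat_lit 2622475354) (nat_lit 113) (nat_lit 5) (nat_lit 119) (nat_lit 5) (nat_lit 114) (nat_lit 5) (nat_lit 467) (nat_lit 357) (nat_lit 316))) (XT.nd (nat_lit 78) (nat_lit 380) (nat_lit 0) (XT.lf (nat_lit 0) (nat_lit 603914198) (nat_lit 304) (nat_lit 4380983657) (nat_lit 380) (nat_lit 5869261044)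 (nat_lit 109) (nat_lit 5) (nat_lit 113) (nat_lit 5) (nat_lit 114) (nat_lit 5) (nat_lit 468) (nat_lit 357) (nat_lit 315)) (XT.nd (nat_lit 78) (nat_lit 380) (nat_lit 0) (XT.lf (nat_lit 0) (nat_lit 8263387871) (nat_lit 304) (nat_lit 552311226) (nat_lit 380) (nat_lit 2158632070) (nat_lit 109) (nat_lit 5) (nat_lit 113) (nat_lit 5) (nat_lit 114) (nat_lit 5) (nat_lit 469) (nat_lit 357) (nat_lit 314)) (XT.lf (nat_lit 0) (nat_lit 1614927094) (nat_lit 380) (nat_lit 6154953823) (nat_lit 76) (nat_lit 3326621943) (nat_lit 104) (nat_lit 5) (nat_lit 109) (nat_lit 5) (nat_lit 105) (nat_lit 5) (nat_lit 470) (nat_lit 357) (nat_lit 313))))) (XT.nd (nat_lit 234) (nat_lit 684) (nat_lit 0) (XT.nd (nat_lit 78) (nat_lit 380) (nat_lit 0) (XT.lf (nat_lit 0) (nat_lit 1494541873) (nat_lit 304) (nat_lit 3928390220) (nat_lit 380) (nat_lit 5798150853) (nat_lit 100) (nat_lit 5) (nat_lit 104) (nat_lit 5) (nat_lit 105) (nat_lit 5) (nat_lit 471) (nat_lit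 357) (nat_lit 312)) (XT.nd (nat_lit 78) (nat_lit 380) (nat_lit 0) (XT.lf (nat_lit 0) (nat_lit 9305023691) (nat_lit 380) (nat_lit 2037392387) (nat_lit 76) (nat_lit 5787775) (nat_lit 100) (nat_lit 5) (nat_lit 105) (nat_lit 5) (nat_lit 101) (nat_lit 5) (nat_lit 472) (nat_lit 357) (nat_lit 311)) (XT.lf (nat_lit 0) (nat_lit 1784440626) (nat_lit 380) (nat_lit 5702719703) (nat_lit 76) (nat_lit 3990062540) (nat_lit 95) (nat_lit 5) (nat_lit 100) (nat_lit 5) (nat_lit 96) (nat_lit 5) (nat_lit 473) (nat_lit 357) (nat_lit 310)))) (XT.nd (nat_lit 78) (nat_lit 380) (nat_lit 0) (XT.lf (nat_lit 0) (nat_lit 2106656162) (nat_lit 304) (nat_lit 3539440836) (nat_lit 380) (nat_lit 5962765636) (nat_lit 91) (nat_lit 5) (nat_lit 95) (nat_lit 5) (nat_lit 96) (nat_lit 5) (nat_lit 474) (nat_lit 357) (nat_lit 309)) (XT.nd (nat_lit 78) (nat_lit 380) (nat_lit 0) (XT.lf (nat_lit 0) (nat_lit 9584266233) (nat_lit 380) (nat_lit 1665548279) (nat_lit 76)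 (nat_lit 493342245) (nat_lit 91) (nat_lit 5) (nat_lit 96) (nat_lit 5) (nat_lit 92) (nat_lit 5) (nat_lit 475) (nat_lit 357) (nat_lit 308)) (XT.lf (nat_lit 0) (nat_lit 1721530310) (nat_lit 380) (nat_lit 5571653639) (nat_lit 76) (nat_lit 4586275403) (nat_lit 86) (nat_lit 5) (nat_lit 91) (nat_lit 5) (nat_lit 87) (nat_lit 5) (nat_lit 476) (nat_lit 357) (nat_lit 307)))))) (XT.nd (nat_lit 390) (nat_lit 1064) (nat_lit 0) (XT.nd (nat_lit 156) (nat_lit 608) (nat_lit 0) (XT.nd (nat_lit 78) (nat_lit 0) (nat_lit 0) (XT.lf (nat_lit 0) (nat_lit 2393929196) (nat_lit 228) (nat_lit 3242067081) (nat_lit 304) (nat_lit 6382506178) (nat_lit 83) (nat_lit 5) (nat_lit 86) (nat_lit 5) (nat_lit 87) (nat_lit 5) (nat_lit 477) (nat_lit 357) (nat_lit 306)) (XT.lf (nat_lit 0) (nat_lit 9630892852) (nat_lit 304) (nat_lit 1639500934) (nat_lit 76) (nat_lit 889896422) (nat_lit 83) (nat_lit 5) (nat_lit 87) (nat_lit 5) (nat_lit 84) (nat_lit 5) (nat_lit 478)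 (nat_lit 357) (nat_lit 305))) (XT.nd (nat_lit 78) (nat_lit 228) (nat_lit 0) (XT.lf (nat_lit 0) (nat_lit 1405772001) (nat_lit 380) (nat_lit 5811531426) (nat_lit 76) (nat_lit 5086967356) (nat_lit 78) (nat_lit 5) (nat_lit 83) (nat_lit 5) (nat_lit 79) (nat_lit 5) (nat_lit 479) (nat_lit 357) (nat_lit 304)) (XT.nd (nat_lit 78) (nat_lit 0) (nat_lit 0) (XT.lf (nat_lit 0) (nat_lit 2305339348) (nat_lit 228) (nat_lit 3066136327) (nat_lit 304) (nat_lit 7079613148) (nat_lit 75) (nat_lit 5) (nat_lit 78) (nat_lit 5) (nat_lit 79) (nat_lit 5) (nat_lit 480) (nat_lit 357) (nat_lit 303)) (XT.lf (nat_lit 0) (nat_lit 9423146296) (nat_lit 304) (nat_lit 2011783242) (nat_lit 76) (nat_lit 1165786740) (nat_lit 75) (nat_lit 5) (nat_lit 79) (nat_lit 5) (nat_lit 76) (nat_lit 5) (nat_lit 481) (nat_lit 357) (nat_lit 302))))) (XT.nd (nat_lit 234) (nat_lit 532) (nat_lit 0) (XT.nd (nat_lit 78) (nat_lit 228) (nat_lit 0) (XT.lf (nat_lit 0) (nat_lit 813813294)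 (nat_lit 304) (nat_lit 6477213325) (nat_lit 76) (nat_lit 5461774838) (nat_lit 71) (nat_lit 5) (nat_lit 75) (nat_lit 5) (nat_lit 72) (nat_lit 5) (nat_lit 482) (nat_lit 357) (nat_lit 301)) (XT.nd (nat_lit 78) (nat_lit 0) (nat_lit 0) (XT.lf (nat_lit 0) (nat_lit 1784612021) (nat_lit 228) (nat_lit 3043764291) (nat_lit 304) (nat_lit 8079419716) (nat_lit 68) (nat_lit 5) (nat_lit 71) (nat_lit 5) (nat_lit 72) (nat_lit 5) (nat_lit 483) (nat_lit 357) (nat_lit 300)) (XT.lf (nat_lit 0) (nat_lit 8936205741) (nat_lit 304) (nat_lit 2840358128) (nat_lit 76) (nat_lit 1289072763) (nat_lit 68) (nat_lit 5) (nat_lit 72) (nat_lit 5) (nat_lit 69) (nat_lit 5) (nat_lit 484) (nat_lit 357) (nat_lit 299)))) (XT.nd (nat_lit 78) (nat_lit 304) (nat_lit 0) (XT.lf (nat_lit 0) (nat_lit 5596505403) (nat_lit 228) (nat_lit 7547803842) (nat_lit 304) (nat_lit 81967988) (nat_lit 65) (nat_lit 5) (nat_lit 68) (nat_lit 5) (nat_lit 69) (nat_lit 5) (nat_lit 485)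 (nat_lit 357) (nat_lit 298)) (XT.nd (nat_lit 78) (nat_lit 0) (nat_lit 0) (XT.lf (nat_lit 0) (nat_lit 769605411) (nat_lit 228) (nat_lit 3209652951) (nat_lit 304) (nat_lit 9410634477) (nat_lit 61) (nat_lit 5) (nat_lit 64) (nat_lit 5) (nat_lit 65) (nat_lit 5) (nat_lit 486) (nat_lit 357) (nat_lit 297)) (XT.lf (nat_lit 0) (nat_lit 8141902221) (nat_lit 304) (nat_lit 4189248292) (nat_lit 76) (nat_lit 1225198814) (nat_lit 61) (nat_lit 5) (nat_lit 65) (nat_lit 5) (nat_lit 62) (nat_lit 5) (nat_lit 487) (nat_lit 357) (nat_lit 296))))))) (XT.nd (nat_lit 858) (nat_lit 988) (nat_lit 0) (XT.nd (nat_lit 390) (nat_lit 836) (nat_lit 0) (XT.nd (nat_lit 156) (nat_lit 456) (nat_lit 0) (XT.nd (nat_lit 78) (nat_lit 76) (nat_lit 0) (XT.lf (nat_lit 0) (nat_lit 4382800485) (nat_lit 228) (nat_lit 8017318702) (nat_lit 304) (nat_lit 1325774464) (nat_lit 58) (nat_lit 5) (nat_lit 61) (nat_lit 5) (nat_lit 62) (nat_lit 5) (nat_lit 488) (nat_lit 357)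 (nat_lit 295)) (XT.lf (nat_lit 0) (nat_lit 2798340673) (nat_lit 304) (nat_lit 797762978) (nat_lit 76) (nat_lit 10302541186) (nat_lit 57) (nat_lit 5) (nat_lit 61) (nat_lit 5) (nat_lit 58) (nat_lit 5) (nat_lit 489) (nat_lit 357) (nat_lit 294))) (XT.nd (nat_lit 78) (nat_lit 304) (nat_lit 0) (XT.lf (nat_lit 0) (nat_lit 7008400773) (nat_lit 228) (nat_lit 6129228825) (nat_lit 76) (nat_lit 936626705) (nat_lit 55) (nat_lit 5) (nat_lit 58) (nat_lit 5) (nat_lit 56) (nat_lit 5) (nat_lit 490) (nat_lit 357) (nat_lit 293)) (XT.nd (nat_lit 78) (nat_lit 76) (nat_lit 0) (XT.lf (nat_lit 0) (nat_lit 2567220216) (nat_lit 228) (nat_lit 8744869643) (nat_lit 304) (nat_lit 2941106306) (nat_lit 52) (nat_lit 5) (nat_lit 55) (nat_lit 5) (nat_lit 56) (nat_lit 5) (nat_lit 491) (nat_lit 357) (nat_lit 292)) (XT.lf (nat_lit 0) (nat_lit 1254556162) (nat_lit 304) (nat_lit 2985591746) (nat_lit 76) (nat_lit 10195306566) (nat_lit 51) (nat_lit 5) (nat_lit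 55) (nat_lit 5) (nat_lit 52) (nat_lit 5) (nat_lit 492) (nat_lit 357) (nat_lit 291))))) (XT.nd (nat_lit 234) (nat_lit 456) (nat_lit 0) (XT.nd (nat_lit 78) (nat_lit 228) (nat_lit 0) (XT.lf (nat_lit 0) (nat_lit 5499846105) (nat_lit 228) (nat_lit 8738589540) (nat_lit 76) (nat_lit 382436027) (nat_lit 49) (nat_lit 5) (nat_lit 52) (nat_lit 5) (nat_lit 50) (nat_lit 5) (nat_lit 493) (nat_lit 357) (nat_lit 290)) (XT.nd (nat_lit 78) (nat_lit 0) (nat_lit 0) (XT.lf (nat_lit 0) (nat_lit 69290141) (nat_lit 228) (nat_lit 9773917654) (nat_lit 304) (nat_lit 4966530465) (nat_lit 46) (nat_lit 5) (nat_lit 49) (nat_lit 5) (nat_lit 50) (nat_lit 5) (nat_lit 494) (nat_lit 357) (nat_lit 289)) (XT.lf (nat_lit 0) (nat_lit 9110394896) (nat_lit 228) (nat_lit 5186448548) (nat_lit 304) (nat_lit 705074878) (nat_lit 46) (nat_lit 5) (nat_lit 49) (nat_lit 5) (nat_lit 50) (nat_lit 5) (nat_lit 495) (nat_lit 357) (nat_lit 288)))) (XT.nd (nat_lit 78) (nat_lit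 228) (nat_lit 0) (XT.lf (nat_lit 0) (nat_lit 3090621053) (nat_lit 152) (nat_lit 488518910) (nat_lit 228) (nat_lit 11618627449) (nat_lit 43) (nat_lit 5) (nat_lit 45) (nat_lit 5) (nat_lit 46) (nat_lit 5) (nat_lit 496) (nat_lit 357) (nat_lit 287)) (XT.nd (nat_lit 78) (nat_lit 228) (nat_lit 0) (XT.lf (nat_lit 0) (nat_lit 7972691912) (nat_lit 228) (nat_lit 3158121183) (nat_lit 76) (nat_lit 4265969335) (nat_lit 43) (nat_lit 5) (nat_lit 46) (nat_lit 5) (nat_lit 44) (nat_lit 5) (nat_lit 497) (nat_lit 357) (nat_lit 286)) (XT.lf (nat_lit 0) (nat_lit 5985566290) (nat_lit 228) (nat_lit 6476673124) (nat_lit 304) (nat_lit 3137379795) (nat_lit 40) (nat_lit 5) (nat_lit 43) (nat_lit 5) (nat_lit 44) (nat_lit 5) (nat_lit 498) (nat_lit 357) (nat_lit 285)))))) (XT.nd (nat_lit 390) (nat_lit 380) (nat_lit 0) (XT.nd (nat_lit 156) (nat_lit 380) (nat_lit 0) (XT.nd (nat_lit 78) (nat_lit 152) (nat_lit 0) (XT.lf (nat_lit 0) (nat_lit 1206281940)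 (nat_lit 304) (nat_lit 518958713) (nat_lit 76) (nat_lit 14081367194) (nat_lit 39) (nat_lit 5) (nat_lit 43) (nat_lit 5) (nat_lit 40) (nat_lit 5) (nat_lit 499) (nat_lit 357) (nat_lit 284)) (XT.lf (nat_lit 0) (nat_lit 5639307858) (nat_lit 228) (nat_lit 7243345814) (nat_lit 76) (nat_lit 3133781540) (nat_lit 37) (nat_lit 5) (nat_lit 40) (nat_lit 5) (nat_lit 38) (nat_lit 5) (nat_lit 500) (nat_lit 357) (nat_lit 283))) (XT.nd (nat_lit 78) (nat_lit 228) (nat_lit 0) (XT.lf (nat_lit 0) (nat_lit 1983597173) (nat_lit 152) (nat_lit 8172065672) (nat_lit 228) (nat_lit 6074906559) (nat_lit 35) (nat_lit 5) (nat_lit 37) (nat_lit 5) (nat_lit 38) (nat_lit 5) (nat_lit 501) (nat_lit 357) (nat_lit 282)) (XT.nd (nat_lit 78) (nat_lit 228) (nat_lit 0) (XT.lf (nat_lit 0) (nat_lit 11435056777) (nat_lit 152) (nat_lit 3343025460) (nat_lit 228) (nat_lit 1670592876) (nat_lit 35) (nat_lit 5) (nat_lit 37) (nat_lit 5) (nat_lit 38) (nat_lit 5) (nat_lit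 502) (nat_lit 357) (nat_lit 281)) (XT.lf (nat_lit 0) (nat_lit 2791256827) (nat_lit 228) (nat_lit 12295176524) (nat_lit 76) (nat_lit 1584217440) (nat_lit 32) (nat_lit 5) (nat_lit 35) (nat_lit 5) (nat_lit 33) (nat_lit 5) (nat_lit 503) (nat_lit 357) (nat_lit 280))))) (XT.nd (nat_lit 234) (nat_lit 228) (nat_lit 0) (XT.nd (nat_lit 78) (nat_lit 152) (nat_lit 0) (XT.lf (nat_lit 0) (nat_lit 7343662799) (nat_lit 228) (nat_lit 2967116629) (nat_lit 76) (nat_lit 6585595305) (nat_lit 32) (nat_lit 5) (nat_lit 35) (nat_lit 5) (nat_lit 33) (nat_lit 5) (nat_lit 504) (nat_lit 357) (nat_lit 279)) (XT.nd (nat_lit 78) (nat_lit 0) (nat_lit 0) (XT.lf (nat_lit 0) (nat_lit 6577288759) (nat_lit 152) (nat_lit 5420827875) (nat_lit 228) (nat_lit 5128279833) (nat_lit 30) (nat_lit 5) (nat_lit 32) (nat_lit 5) (nat_lit 33) (nat_lit 5) (nat_lit 505) (nat_lit 357) (nat_lit 278)) (XT.lf (nat_lit 0) (nat_lit 16296695840) (nat_lit 152) (nat_lit 437427616)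 (nat_lit 228) (nat_lit 627129142) (nat_lit 30) (nat_lit 5) (nat_lit 32) (nat_lit 5) (nat_lit 33) (nat_lit 5) (nat_lit 506) (nat_lit 357) (nat_lit 277)))) (XT.nd (nat_lit 52884) (nat_lit 0) (nat_lit 24396) (XT.lf (nat_lit 0) (nat_lit 3967672709) (nat_lit 228) (nat_lit 8988473395) (nat_lit 76) (nat_lit 4643035774) (nat_lit 27) (nat_lit 5) (nat_lit 30) (nat_lit 5) (nat_lit 28) (nat_lit 5) (nat_lit 507) (nat_lit 357) (nat_lit 276)) (XT.nd (nat_lit 78) (nat_lit 912) (nat_lit 0) (XT.lf (nat_lit 0) (nat_lit 1968964742) (nat_lit 836) (nat_lit 865783411) (nat_lit 836) (nat_lit 865783411) (nat_lit 360) (nat_lit 4) (nat_lit 371) (nat_lit 5) (nat_lit 371) (nat_lit 4) (nat_lit 424) (nat_lit 358) (nat_lit 358)) (XT.lf (nat_lit 0) (nat_lit 1778586426) (nat_lit 912) (nat_lit 5386164516) (nat_lit 0) (nat_lit 281519404) (nat_lit 348) (nat_lit 5) (nat_lit 360) (nat_lit 4) (nat_lit 348) (nat_lit 4) (nat_lit 425) (nat_lit 358) (nat_lit 357))))))))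
noncomputable def xc40 : XT := (XT.nd (nat_lit 1638) (nat_lit 7296) (nat_lit 0) (XT.nd (nat_lit 780) (nat_lit 5092) (nat_lit 0) (XT.nd (nat_lit 390) (nat_lit 2280) (nat_lit 0) (XT.nd (nat_lit 156) (nat_lit 2280) (nat_lit 0) (XT.nd (nat_lit 78) (nat_lit 76) (nat_lit 0) (XT.lf (nat_lit 0) (nat_lit 153237497) (nat_lit 836) (nat_lit 5152164582) (nat_lit 836) (nat_lit 2187384794) (nat_lit 337) (nat_lit 4) (nat_lit 348) (nat_lit 5) (nat_lit 348) (nat_lit 4) (nat_lit 426) (nat_lit 358) (nat_lit 356)) (XT.lf (nat_lit 0) (nat_lit 1315160427) (nat_lit 912) (nat_lit 1747089808) (nat_lit 76) (nat_lit 4478422306) (nat_lit 336) (nat_lit 5) (nat_lit 348) (nat_lit 5) (nat_lit 337) (nat_lit 4) (nat_lit 427) (nat_lit 358) (nat_lit 355))) (XT.nd (nat_lit 78) (nat_lit 1520) (nat_lit 0) (XT.lf (nat_lit 0) (nat_lit 3920691144) (nat_lit 760) (nat_lit 898677522) (nat_lit 836) (nat_lit 2770665484) (nat_lit 326) (nat_lit 5) (nat_lit 336) (nat_lit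 5) (nat_lit 337) (nat_lit 4) (nat_lit 428) (nat_lit 358) (nat_lit 354)) (XT.nd (nat_lit 78) (nat_lit 684) (nat_lit 0) (XT.lf (nat_lit 0) (nat_lit 712793645) (nat_lit 836) (nat_lit 5616521623) (nat_lit 76) (nat_lit 1311606445) (nat_lit 315) (nat_lit 5) (nat_lit 326) (nat_lit 5) (nat_lit 316) (nat_lit 4) (nat_lit 429) (nat_lit 358) (nat_lit 353)) (XT.lf (nat_lit 0) (nat_lit 91559954) (nat_lit 684) (nat_lit 4105112032) (nat_lit 760) (nat_lit 3496455732) (nat_lit 306) (nat_lit 5) (nat_lit 315) (nat_lit 5) (nat_lit 316) (nat_lit 4) (nat_lit 430) (nat_lit 358) (nat_lit 352))))) (XT.nd (nat_lit 156) (nat_lit 1444) (nat_lit 0) (XT.nd (nat_lit 78) (nat_lit 836) (nat_lit 0) (XT.lf (nat_lit 0) (nat_lit 5915827467) (nat_lit 684) (nat_lit 1809336820) (nat_lit 760) (nat_lit 21738318) (nat_lit 306) (nat_lit 5) (nat_lit 315) (nat_lit 5) (nat_lit 316) (nat_lit 4) (nat_lit 431) (nat_lit 358) (nat_lit 351)) (XT.lf (nat_lit 0) (nat_lit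 3444070250) (nat_lit 836) (nat_lit 3794680723) (nat_lit 76) (nat_lit 563211293) (nat_lit 295) (nat_lit 5) (nat_lit 306) (nat_lit 5) (nat_lit 296) (nat_lit 4) (nat_lit 432) (nat_lit 358) (nat_lit 350))) (XT.nd (nat_lit 78) (nat_lit 760) (nat_lit 0) (XT.lf (nat_lit 0) (nat_lit 2070102691) (nat_lit 684) (nat_lit 4885304093) (nat_lit 760) (nat_lit 903205538) (nat_lit 286) (nat_lit 5) (nat_lit 295) (nat_lit 5) (nat_lit 296) (nat_lit 4) (nat_lit 433) (nat_lit 358) (nat_lit 349)) (XT.nd (nat_lit 78) (nat_lit 0) (nat_lit 0) (XT.lf (nat_lit 0) (nat_lit 97294697) (nat_lit 684) (nat_lit 2454186937) (nat_lit 760) (nat_lit 5365289206) (nat_lit 276) (nat_lit 5) (nat_lit 285) (nat_lit 5) (nat_lit 286) (nat_lit 5) (nat_lit 434) (nat_lit 358) (nat_lit 348)) (XT.lf (nat_lit 0) (nat_lit 6042084390) (nat_lit 760) (nat_lit 1877618763) (nat_lit 76) (nat_lit 56712510) (nat_lit 276) (nat_lit 5) (nat_lit 286) (nat_lit 5) (nat_lit 277) (nat_lit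 4) (nat_lit 435) (nat_lit 358) (nat_lit 347)))))) (XT.nd (nat_lit 390) (nat_lit 2432) (nat_lit 0) (XT.nd (nat_lit 156) (nat_lit 1292) (nat_lit 0) (XT.nd (nat_lit 78) (nat_lit 684) (nat_lit 0) (XT.lf (nat_lit 0) (nat_lit 1528593458) (nat_lit 684) (nat_lit 3900136334) (nat_lit 76) (nat_lit 2608662864) (nat_lit 267) (nat_lit 5) (nat_lit 276) (nat_lit 5) (nat_lit 268) (nat_lit 5) (nat_lit 436) (nat_lit 358) (nat_lit 346)) (XT.lf (nat_lit 0) (nat_lit 2139690380) (nat_lit 684) (nat_lit 2862884129) (nat_lit 760) (nat_lit 3097424645) (nat_lit 258) (nat_lit 5) (nat_lit 267) (nat_lit 5) (nat_lit 268) (nat_lit 5) (nat_lit 437) (nat_lit 358) (nat_lit 345))) (XT.nd (nat_lit 78) (nat_lit 608) (nat_lit 0) (XT.lf (nat_lit 0) (nat_lit 114358983) (nat_lit 608) (nat_lit 231265526) (nat_lit 684) (nat_lit 7818833346) (nat_lit 249) (nat_lit 5) (nat_lit 257) (nat_lit 5) (nat_lit 258) (nat_lit 5) (nat_lit 438) (nat_lit 358) (nat_lit 344)) (XT.nd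 (nat_lit 78) (nat_lit 608) (nat_lit 0) (XT.lf (nat_lit 0) (nat_lit 3814225644) (nat_lit 684) (nat_lit 1949714533) (nat_lit 76) (nat_lit 2465911286) (nat_lit 249) (nat_lit 5) (nat_lit 258) (nat_lit 5) (nat_lit 250) (nat_lit 5) (nat_lit 439) (nat_lit 358) (nat_lit 343)) (XT.lf (nat_lit 0) (nat_lit 4253481746) (nat_lit 608) (nat_lit 3070942141) (nat_lit 684) (nat_lit 972702710) (nat_lit 241) (nat_lit 5) (nat_lit 249) (nat_lit 5) (nat_lit 250) (nat_lit 5) (nat_lit 440) (nat_lit 358) (nat_lit 342))))) (XT.nd (nat_lit 234) (nat_lit 1140) (nat_lit 0) (XT.nd (nat_lit 78) (nat_lit 684) (nat_lit 0) (XT.lf (nat_lit 0) (nat_lit 2179967188) (nat_lit 532) (nat_lit 296464452) (nat_lit 608) (nat_lit 5889590273) (nat_lit 233) (nat_lit 5) (nat_lit 240) (nat_lit 5) (nat_lit 241) (nat_lit 5) (nat_lit 441) (nat_lit 358) (nat_lit 341)) (XT.nd (nat_lit 78) (nat_lit 76) (nat_lit 0) (XT.lf (nat_lit 0) (nat_lit 50424764) (nat_lit 608) (nat_lit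 5919055880) (nat_lit 684) (nat_lit 2466943881) (nat_lit 225) (nat_lit 5) (nat_lit 233) (nat_lit 5) (nat_lit 234) (nat_lit 5) (nat_lit 442) (nat_lit 358) (nat_lit 340)) (XT.lf (nat_lit 0) (nat_lit 998563974) (nat_lit 684) (nat_lit 2095353692) (nat_lit 76) (nat_lit 5414444168) (nat_lit 224) (nat_lit 5) (nat_lit 233) (nat_lit 5) (nat_lit 225) (nat_lit 5) (nat_lit 443) (nat_lit 358) (nat_lit 339)))) (XT.nd (nat_lit 78) (nat_lit 608) (nat_lit 0) (XT.lf (nat_lit 0) (nat_lit 4287918041) (nat_lit 532) (nat_lit 185489299) (nat_lit 608) (nat_lit 4108559387) (nat_lit 217) (nat_lit 5) (nat_lit 224) (nat_lit 5) (nat_lit 225) (nat_lit 5) (nat_lit 444) (nat_lit 358) (nat_lit 338)) (XT.nd (nat_lit 78) (nat_lit 76) (nat_lit 0) (XT.lf (nat_lit 0) (nat_lit 2106385057) (nat_lit 532) (nat_lit 5902920177) (nat_lit 608) (nat_lit 647923139) (nat_lit 210) (nat_lit 5) (nat_lit 217) (nat_lit 5) (nat_lit 218) (nat_lit 5) (nat_lit 445) (nat_lit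 358) (nat_lit 337)) (XT.lf (nat_lit 0) (nat_lit 2820253663) (nat_lit 608) (nat_lit 134351706) (nat_lit 76) (nat_lit 5779508352) (nat_lit 209) (nat_lit 5) (nat_lit 217) (nat_lit 5) (nat_lit 210) (nat_lit 5) (nat_lit 446) (nat_lit 358) (nat_lit 336))))))) (XT.nd (nat_lit 858) (nat_lit 2888) (nat_lit 0) (XT.nd (nat_lit 390) (nat_lit 2280) (nat_lit 0) (XT.nd (nat_lit 156) (nat_lit 988) (nat_lit 0) (XT.nd (nat_lit 78) (nat_lit 608) (nat_lit 0) (XT.lf (nat_lit 0) (nat_lit 6338268121) (nat_lit 608) (nat_lit 2395251469) (nat_lit 76) (nat_lit 79163429) (nat_lit 202) (nat_lit 5) (nat_lit 210) (nat_lit 5) (nat_lit 203) (nat_lit 5) (nat_lit 447) (nat_lit 358) (nat_lit 335)) (XT.lf (nat_lit 0) (nat_lit 1015169876) (nat_lit 608) (nat_lit 4728064644) (nat_lit 76) (nat_lit 3149571065) (nat_lit 194) (nat_lit 5) (nat_lit 202) (nat_lit 5) (nat_lit 195) (nat_lit 5) (nat_lit 448) (nat_lit 358) (nat_lit 334))) (XT.nd (nat_lit 78) (nat_lit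 532) (nat_lit 0) (XT.lf (nat_lit 0) (nat_lit 1848865637) (nat_lit 456) (nat_lit 2668364215) (nat_lit 532) (nat_lit 4457471351) (nat_lit 188) (nat_lit 5) (nat_lit 194) (nat_lit 5) (nat_lit 195) (nat_lit 5) (nat_lit 449) (nat_lit 358) (nat_lit 333)) (XT.nd (nat_lit 78) (nat_lit 532) (nat_lit 0) (XT.lf (nat_lit 0) (nat_lit 8072329869) (nat_lit 532) (nat_lit 512940840) (nat_lit 76) (nat_lit 473317809) (nat_lit 188) (nat_lit 5) (nat_lit 195) (nat_lit 5) (nat_lit 189) (nat_lit 5) (nat_lit 450) (nat_lit 358) (nat_lit 332)) (XT.lf (nat_lit 0) (nat_lit 2528034779) (nat_lit 532) (nat_lit 2936560915) (nat_lit 76) (nat_lit 3679096264) (nat_lit 181) (nat_lit 5) (nat_lit 188) (nat_lit 5) (nat_lit 182) (nat_lit 5) (nat_lit 451) (nat_lit 358) (nat_lit 331))))) (XT.nd (nat_lit 234) (nat_lit 1292) (nat_lit 0) (XT.nd (nat_lit 78) (nat_lit 532) (nat_lit 0) (XT.lf (nat_lit 0) (nat_lit 3809244759) (nat_lit 456) (nat_lit 2267601518) (nat_lit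 532) (nat_lit 3153985011) (nat_lit 175) (nat_lit 5) (nat_lit 181) (nat_lit 5) (nat_lit 182) (nat_lit 5) (nat_lit 452) (nat_lit 358) (nat_lit 330)) (XT.nd (nat_lit 78) (nat_lit 0) (nat_lit 0) (XT.lf (nat_lit 0) (nat_lit 356524638) (nat_lit 532) (nat_lit 7973505050) (nat_lit 76) (nat_lit 989956287) (nat_lit 168) (nat_lit 5) (nat_lit 175) (nat_lit 5) (nat_lit 169) (nat_lit 5) (nat_lit 453) (nat_lit 358) (nat_lit 329)) (XT.lf (nat_lit 0) (nat_lit 3896486496) (nat_lit 532) (nat_lit 1195832602) (nat_lit 76) (nat_lit 4318170442) (nat_lit 168) (nat_lit 5) (nat_lit 175) (nat_lit 5) (nat_lit 169) (nat_lit 5) (nat_lit 454) (nat_lit 358) (nat_lit 328)))) (XT.nd (nat_lit 78) (nat_lit 912) (nat_lit 0) (XT.lf (nat_lit 0) (nat_lit 5720962234) (nat_lit 380) (nat_lit 1774208591) (nat_lit 456) (nat_lit 2007885866) (nat_lit 163) (nat_lit 5) (nat_lit 168) (nat_lit 5) (nat_lit 169) (nat_lit 5) (nat_lit 455) (nat_lit 358) (nat_lit 327)) (XT.nd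 (nat_lit 78) (nat_lit 380) (nat_lit 0) (XT.lf (nat_lit 0) (nat_lit 1537856748) (nat_lit 532) (nat_lit 6453789758) (nat_lit 76) (nat_lit 1605835092) (nat_lit 156) (nat_lit 5) (nat_lit 163) (nat_lit 5) (nat_lit 157) (nat_lit 5) (nat_lit 456) (nat_lit 358) (nat_lit 326)) (XT.lf (nat_lit 0) (nat_lit 474968288) (nat_lit 380) (nat_lit 4644368510) (nat_lit 456) (nat_lit 4574369886) (nat_lit 151) (nat_lit 5) (nat_lit 156) (nat_lit 5) (nat_lit 157) (nat_lit 5) (nat_lit 457) (nat_lit 358) (nat_lit 325)))))) (XT.nd (nat_lit 390) (nat_lit 1596) (nat_lit 0) (XT.nd (nat_lit 156) (nat_lit 836) (nat_lit 0) (XT.nd (nat_lit 78) (nat_lit 456) (nat_lit 0) (XT.lf (nat_lit 0) (nat_lit 7558238440) (nat_lit 380) (nat_lit 1209308270) (nat_lit 456) (nat_lit 1024418627) (nat_lit 151) (nat_lit 5) (nat_lit 156) (nat_lit 5) (nat_lit 157) (nat_lit 5) (nat_lit 458) (nat_lit 358) (nat_lit 324)) (XT.lf (nat_lit 0) (nat_lit 2561559491) (nat_lit 456) (nat_lit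 5040075509) (nat_lit 76) (nat_lit 2290245993) (nat_lit 145) (nat_lit 5) (nat_lit 151) (nat_lit 5) (nat_lit 146) (nat_lit 5) (nat_lit 459) (nat_lit 358) (nat_lit 323))) (XT.nd (nat_lit 78) (nat_lit 456) (nat_lit 0) (XT.lf (nat_lit 0) (nat_lit 2056792855) (nat_lit 380) (nat_lit 4137950941) (nat_lit 456) (nat_lit 3799142097) (nat_lit 140) (nat_lit 5) (nat_lit 145) (nat_lit 5) (nat_lit 146) (nat_lit 5) (nat_lit 460) (nat_lit 358) (nat_lit 322)) (XT.nd (nat_lit 78) (nat_lit 456) (nat_lit 0) (XT.lf (nat_lit 0) (nat_lit 9293263760) (nat_lit 380) (nat_lit 594356819) (nat_lit 456) (nat_lit 210579960) (nat_lit 140) (nat_lit 5) (nat_lit 145) (nat_lit 5) (nat_lit 146) (nat_lit 5) (nat_lit 461) (nat_lit 358) (nat_lit 321)) (XT.lf (nat_lit 0) (nat_lit 3420158879) (nat_lit 456) (nat_lit 3761802379) (nat_lit 76) (nat_lit 3021889093) (nat_lit 134) (nat_lit 5) (nat_lit 140) (nat_lit 5) (nat_lit 135) (nat_lit 5) (nat_lit 462) (nat_lit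 358) (nat_lit 320))))) (XT.nd (nat_lit 234) (nat_lit 760) (nat_lit 0) (XT.nd (nat_lit 78) (nat_lit 456) (nat_lit 0) (XT.lf (nat_lit 0) (nat_lit 3503761118) (nat_lit 380) (nat_lit 3603168577) (nat_lit 456) (nat_lit 3204940523) (nat_lit 129) (nat_lit 5) (nat_lit 134) (nat_lit 5) (nat_lit 135) (nat_lit 5) (nat_lit 463) (nat_lit 358) (nat_lit 319)) (XT.nd (nat_lit 78) (nat_lit 0) (nat_lit 0) (XT.lf (nat_lit 0) (nat_lit 422654823) (nat_lit 456) (nat_lit 9945781633) (nat_lit 76) (nat_lit 53903240) (nat_lit 123) (nat_lit 5) (nat_lit 129) (nat_lit 5) (nat_lit 124) (nat_lit 5) (nat_lit 464) (nat_lit 358) (nat_lit 318)) (XT.lf (nat_lit 0) (nat_lit 4104310997) (nat_lit 456) (nat_lit 2650941332) (nat_lit 76) (nat_lit 3778863157) (nat_lit 123) (nat_lit 5) (nat_lit 129) (nat_lit 5) (nat_lit 124) (nat_lit 5) (nat_lit 465) (nat_lit 358) (nat_lit 317)))) (XT.nd (nat_lit 78) (nat_lit 456) (nat_lit 0) (XT.lf (nat_lit 0) (nat_lit 4783263051)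 (nat_lit 304) (nat_lit 3062817247) (nat_lit 380) (nat_lit 2802325796) (nat_lit 119) (nat_lit 5) (nat_lit 123) (nat_lit 5) (nat_lit 124) (nat_lit 5) (nat_lit 466) (nat_lit 358) (nat_lit 316)) (XT.nd (nat_lit 78) (nat_lit 0) (nat_lit 0) (XT.lf (nat_lit 0) (nat_lit 874293697) (nat_lit 456) (nat_lit 9186967794) (nat_lit 76) (nat_lit 703845713) (nat_lit 113) (nat_lit 5) (nat_lit 119) (nat_lit 5) (nat_lit 114) (nat_lit 5) (nat_lit 467) (nat_lit 358) (nat_lit 315)) (XT.lf (nat_lit 0) (nat_lit 4602672131) (nat_lit 456) (nat_lit 1742346830) (nat_lit 76) (nat_lit 4538446302) (nat_lit 113) (nat_lit 5) (nat_lit 119) (nat_lit 5) (nat_lit 114) (nat_lit 5) (nat_lit 468) (nat_lit 358) (nat_lit 314))))))))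
noncomputable def xc41 : XT := (XT.nd (nat_lit 1716) (nat_lit 2128) (nat_lit 0) (XT.nd (nat_lit 858) (nat_lit 1748) (nat_lit 0) (XT.nd (nat_lit 390) (nat_lit 1292) (nat_lit 0) (XT.nd (nat_lit 156) (nat_lit 684) (nat_lit 0) (XT.nd (nat_lit 78) (nat_lit 380) (nat_lit 0) (XT.lf (nat_lit 0) (nat_lit 5859703826) (nat_lit 304) (nat_lit 2540638028) (nat_lit 380) (nat_lit 2603962378) (nat_lit 109) (nat_lit 5) (nat_lit 113) (nat_lit 5) (nat_lit 114) (nat_lit 5) (nat_lit 469) (nat_lit 358) (nat_lit 313)) (XT.lf (nat_lit 0) (nat_lit 1124716910) (nat_lit 380) (nat_lit 8670027502) (nat_lit 76) (nat_lit 1332807664) (nat_lit 104) (nat_lit 5) (nat_lit 109) (nat_lit 5) (nat_lit 105) (nat_lit 5) (nat_lit 470) (nat_lit 358) (nat_lit 312))) (XT.nd (nat_lit 78) (nat_lit 684) (nat_lit 0) (XT.lf (nat_lit 0) (nat_lit 4901749734) (nat_lit 380) (nat_lit 1074141040) (nat_lit 76) (nat_lit 5276864667) (nat_lit 104) (nat_lit 5) (nat_lit 109) (nat_lit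 5) (nat_lit 105) (nat_lit 5) (nat_lit 471) (nat_lit 358) (nat_lit 311)) (XT.nd (nat_lit 78) (nat_lit 380) (nat_lit 0) (XT.lf (nat_lit 0) (nat_lit 6694108308) (nat_lit 304) (nat_lit 2061557289) (nat_lit 380) (nat_lit 2624778024) (nat_lit 100) (nat_lit 5) (nat_lit 104) (nat_lit 5) (nat_lit 105) (nat_lit 5) (nat_lit 472) (nat_lit 358) (nat_lit 310)) (XT.lf (nat_lit 0) (nat_lit 1158441596) (nat_lit 380) (nat_lit 8436363944) (nat_lit 76) (nat_lit 1915776816) (nat_lit 95) (nat_lit 5) (nat_lit 100) (nat_lit 5) (nat_lit 96) (nat_lit 5) (nat_lit 473) (nat_lit 358) (nat_lit 309))))) (XT.nd (nat_lit 234) (nat_lit 608) (nat_lit 0) (XT.nd (nat_lit 78) (nat_lit 684) (nat_lit 0) (XT.lf (nat_lit 0) (nat_lit 4985732645) (nat_lit 380) (nat_lit 688133398) (nat_lit 76) (nat_lit 5969046926) (nat_lit 95) (nat_lit 5) (nat_lit 100) (nat_lit 5) (nat_lit 96) (nat_lit 5) (nat_lit 474) (nat_lit 358) (nat_lit 308)) (XT.nd (nat_lit 78) (nat_lit 380)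 (nat_lit 0) (XT.lf (nat_lit 0) (nat_lit 7243688927) (nat_lit 304) (nat_lit 1651942034) (nat_lit 380) (nat_lit 2882145025) (nat_lit 91) (nat_lit 5) (nat_lit 95) (nat_lit 5) (nat_lit 96) (nat_lit 5) (nat_lit 475) (nat_lit 358) (nat_lit 307)) (XT.lf (nat_lit 0) (nat_lit 957506072) (nat_lit 380) (nat_lit 8531445104) (nat_lit 76) (nat_lit 2426229769) (nat_lit 86) (nat_lit 5) (nat_lit 91) (nat_lit 5) (nat_lit 87) (nat_lit 5) (nat_lit 476) (nat_lit 358) (nat_lit 306)))) (XT.nd (nat_lit 78) (nat_lit 608) (nat_lit 0) (XT.lf (nat_lit 0) (nat_lit 4836298768) (nat_lit 380) (nat_lit 630279647) (nat_lit 76) (nat_lit 6588362373) (nat_lit 86) (nat_lit 5) (nat_lit 91) (nat_lit 5) (nat_lit 87) (nat_lit 5) (nat_lit 477) (nat_lit 358) (nat_lit 305)) (XT.nd (nat_lit 78) (nat_lit 380) (nat_lit 0) (XT.lf (nat_lit 0) (nat_lit 7461372694) (nat_lit 228) (nat_lit 1339872925) (nat_lit 304) (nat_lit 3396085127) (nat_lit 83) (nat_lit 5) (nat_lit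 86) (nat_lit 5) (nat_lit 87) (nat_lit 5) (nat_lit 478) (nat_lit 358) (nat_lit 304)) (XT.lf (nat_lit 0) (nat_lit 501257856) (nat_lit 380) (nat_lit 9005298273) (nat_lit 76) (nat_lit 2835854681) (nat_lit 78) (nat_lit 5) (nat_lit 83) (nat_lit 5) (nat_lit 79) (nat_lit 5) (nat_lit 479) (nat_lit 358) (nat_lit 303)))))) (XT.nd (nat_lit 390) (nat_lit 988) (nat_lit 0) (XT.nd (nat_lit 156) (nat_lit 532) (nat_lit 0) (XT.nd (nat_lit 78) (nat_lit 228) (nat_lit 0) (XT.lf (nat_lit 0) (nat_lit 4432398191) (nat_lit 380) (nat_lit 951184835) (nat_lit 76) (nat_lit 7106340116) (nat_lit 78) (nat_lit 5) (nat_lit 83) (nat_lit 5) (nat_lit 79) (nat_lit 5) (nat_lit 480) (nat_lit 358) (nat_lit 302)) (XT.lf (nat_lit 0) (nat_lit 7295282715) (nat_lit 228) (nat_lit 1155437562) (nat_lit 304) (nat_lit 4189500256) (nat_lit 75) (nat_lit 5) (nat_lit 78) (nat_lit 5) (nat_lit 79) (nat_lit 5) (nat_lit 481) (nat_lit 358) (nat_lit 301))) (XT.nd (nat_lit 78) (nat_lit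 304) (nat_lit 0) (XT.lf (nat_lit 0) (nat_lit 2878798797) (nat_lit 228) (nat_lit 9677598318) (nat_lit 304) (nat_lit 236992862) (nat_lit 72) (nat_lit 5) (nat_lit 75) (nat_lit 5) (nat_lit 76) (nat_lit 5) (nat_lit 482) (nat_lit 358) (nat_lit 300)) (XT.nd (nat_lit 78) (nat_lit 228) (nat_lit 0) (XT.lf (nat_lit 0) (nat_lit 3750009525) (nat_lit 304) (nat_lit 1706655252) (nat_lit 76) (nat_lit 7492366716) (nat_lit 71) (nat_lit 5) (nat_lit 75) (nat_lit 5) (nat_lit 72) (nat_lit 5) (nat_lit 483) (nat_lit 358) (nat_lit 299)) (XT.lf (nat_lit 0) (nat_lit 6688169086) (nat_lit 228) (nat_lit 1131046792) (nat_lit 304) (nat_lit 5288431420) (nat_lit 68) (nat_lit 5) (nat_lit 71) (nat_lit 5) (nat_lit 72) (nat_lit 5) (nat_lit 484) (nat_lit 358) (nat_lit 298))))) (XT.nd (nat_lit 234) (nat_lit 456) (nat_lit 0) (XT.nd (nat_lit 78) (nat_lit 304) (nat_lit 0) (XT.lf (nat_lit 0) (nat_lit 1945363800) (nat_lit 228) (nat_lit 10032280876) (nat_lit 304)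 (nat_lit 1291639402) (nat_lit 65) (nat_lit 5) (nat_lit 68) (nat_lit 5) (nat_lit 69) (nat_lit 5) (nat_lit 485) (nat_lit 358) (nat_lit 297)) (XT.nd (nat_lit 78) (nat_lit 228) (nat_lit 0) (XT.lf (nat_lit 0) (nat_lit 2761866943) (nat_lit 304) (nat_lit 2958304713) (nat_lit 76) (nat_lit 7713359392) (nat_lit 64) (nat_lit 5) (nat_lit 68) (nat_lit 5) (nat_lit 65) (nat_lit 5) (nat_lit 486) (nat_lit 358) (nat_lit 296)) (XT.lf (nat_lit 0) (nat_lit 5576783557) (nat_lit 228) (nat_lit 1301777079) (nat_lit 304) (nat_lit 6722348433) (nat_lit 61) (nat_lit 5) (nat_lit 64) (nat_lit 5) (nat_lit 65) (nat_lit 5) (nat_lit 487) (nat_lit 358) (nat_lit 295)))) (XT.nd (nat_lit 78) (nat_lit 228) (nat_lit 0) (XT.lf (nat_lit 0) (nat_lit 474129829) (nat_lit 228) (nat_lit 10610670258) (nat_lit 304) (nat_lit 2686695338) (nat_lit 58) (nat_lit 5) (nat_lit 61) (nat_lit 5) (nat_lit 62) (nat_lit 5) (nat_lit 488) (nat_lit 358) (nat_lit 294)) (XT.nd (nat_lit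 78) (nat_lit 152) (nat_lit 0) (XT.lf (nat_lit 0) (nat_lit 1437155140) (nat_lit 304) (nat_lit 4774221194) (nat_lit 76) (nat_lit 7733411650) (nat_lit 57) (nat_lit 5) (nat_lit 61) (nat_lit 5) (nat_lit 58) (nat_lit 5) (nat_lit 489) (nat_lit 358) (nat_lit 293)) (XT.lf (nat_lit 0) (nat_lit 3891191787) (nat_lit 152) (nat_lit 1705742219) (nat_lit 228) (nat_lit 8524473406) (nat_lit 55) (nat_lit 5) (nat_lit 57) (nat_lit 5) (nat_lit 58) (nat_lit 5) (nat_lit 490) (nat_lit 358) (nat_lit 292))))))) (XT.nd (nat_lit 858) (nat_lit 760) (nat_lit 0) (XT.nd (nat_lit 390) (nat_lit 684) (nat_lit 0) (XT.nd (nat_lit 156) (nat_lit 456) (nat_lit 0) (XT.nd (nat_lit 78) (nat_lit 228) (nat_lit 0) (XT.lf (nat_lit 0) (nat_lit 9855192150) (nat_lit 228) (nat_lit 1586847319) (nat_lit 76) (nat_lit 2859218717) (nat_lit 55) (nat_lit 5) (nat_lit 58) (nat_lit 5) (nat_lit 56) (nat_lit 5) (nat_lit 491) (nat_lit 358) (nat_lit 291)) (XT.lf (nat_lit 0) (nat_lit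 7252840136) (nat_lit 228) (nat_lit 6969132625) (nat_lit 304) (nat_lit 262270606) (nat_lit 52) (nat_lit 5) (nat_lit 55) (nat_lit 5) (nat_lit 56) (nat_lit 5) (nat_lit 492) (nat_lit 358) (nat_lit 290))) (XT.nd (nat_lit 78) (nat_lit 228) (nat_lit 0) (XT.lf (nat_lit 0) (nat_lit 1554016393) (nat_lit 152) (nat_lit 2384498000) (nat_lit 228) (nat_lit 10732141284) (nat_lit 49) (nat_lit 5) (nat_lit 51) (nat_lit 5) (nat_lit 52) (nat_lit 5) (nat_lit 493) (nat_lit 358) (nat_lit 289)) (XT.nd (nat_lit 78) (nat_lit 228) (nat_lit 0) (XT.lf (nat_lit 0) (nat_lit 8248699291) (nat_lit 228) (nat_lit 4324177358) (nat_lit 76) (nat_lit 2287311269) (nat_lit 49) (nat_lit 5) (nat_lit 52) (nat_lit 5) (nat_lit 50) (nat_lit 5) (nat_lit 494) (nat_lit 358) (nat_lit 288)) (XT.lf (nat_lit 0) (nat_lit 4629667917) (nat_lit 228) (nat_lit 8027118018) (nat_lit 304) (nat_lit 2396495102) (nat_lit 46) (nat_lit 5) (nat_lit 49) (nat_lit 5) (nat_lit 50) (nat_lit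 5) (nat_lit 495) (nat_lit 358) (nat_lit 287))))) (XT.nd (nat_lit 234) (nat_lit 228) (nat_lit 0) (XT.nd (nat_lit 78) (nat_lit 380) (nat_lit 0) (XT.lf (nat_lit 0) (nat_lit 1872958455) (nat_lit 304) (nat_lit 1500456420) (nat_lit 76) (nat_lit 11876675776) (nat_lit 45) (nat_lit 5) (nat_lit 49) (nat_lit 5) (nat_lit 46) (nat_lit 5) (nat_lit 496) (nat_lit 358) (nat_lit 286)) (XT.nd (nat_lit 78) (nat_lit 228) (nat_lit 0) (XT.lf (nat_lit 0) (nat_lit 6221024642) (nat_lit 228) (nat_lit 7832360974) (nat_lit 76) (nat_lit 1396631723) (nat_lit 43) (nat_lit 5) (nat_lit 46) (nat_lit 5) (nat_lit 44) (nat_lit 5) (nat_lit 497) (nat_lit 358) (nat_lit 285)) (XT.lf (nat_lit 0) (nat_lit 1219904968) (nat_lit 228) (nat_lit 9443236806) (nat_lit 304) (nat_lit 4990662869) (nat_lit 40) (nat_lit 5) (nat_lit 43) (nat_lit 5) (nat_lit 44) (nat_lit 5) (nat_lit 498) (nat_lit 358) (nat_lit 284)))) (XT.nd (nat_lit 78) (nat_lit 228) (nat_lit 0) (XT.lf (nat_lit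 0) (nat_lit 10501353831) (nat_lit 228) (nat_lit 4712276136) (nat_lit 304) (nat_lit 647650953) (nat_lit 40) (nat_lit 5) (nat_lit 43) (nat_lit 5) (nat_lit 44) (nat_lit 5) (nat_lit 499) (nat_lit 358) (nat_lit 283)) (XT.nd (nat_lit 78) (nat_lit 0) (nat_lit 0) (XT.lf (nat_lit 0) (nat_lit 3726009249) (nat_lit 228) (nat_lit 12209154967) (nat_lit 76) (nat_lit 137387171) (nat_lit 37) (nat_lit 5) (nat_lit 40) (nat_lit 5) (nat_lit 38) (nat_lit 5) (nat_lit 500) (nat_lit 358) (nat_lit 282)) (XT.lf (nat_lit 0) (nat_lit 8213400539) (nat_lit 228) (nat_lit 3036664984) (nat_lit 76) (nat_lit 5037201102) (nat_lit 37) (nat_lit 5) (nat_lit 40) (nat_lit 5) (nat_lit 38) (nat_lit 5) (nat_lit 501) (nat_lit 358) (nat_lit 281)))))) (XT.nd (nat_lit 390) (nat_lit 228) (nat_lit 0) (XT.nd (nat_lit 156) (nat_lit 304) (nat_lit 0) (XT.nd (nat_lit 78) (nat_lit 76) (nat_lit 0) (XT.lf (nat_lit 0) (nat_lit 6346188259) (nat_lit 152) (nat_lit 6453700712) (nat_lit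 228) (nat_lit 3706203719) (nat_lit 35) (nat_lit 5) (nat_lit 37) (nat_lit 5) (nat_lit 38) (nat_lit 5) (nat_lit 502) (nat_lit 358) (nat_lit 280)) (XT.lf (nat_lit 0) (nat_lit 727698043) (nat_lit 228) (nat_lit 832396579) (nat_lit 76) (nat_lit 15169332654) (nat_lit 34) (nat_lit 5) (nat_lit 37) (nat_lit 5) (nat_lit 35) (nat_lit 5) (nat_lit 503) (nat_lit 358) (nat_lit 279))) (XT.nd (nat_lit 78) (nat_lit 152) (nat_lit 0) (XT.lf (nat_lit 0) (nat_lit 5248767049) (nat_lit 228) (nat_lit 8262729584) (nat_lit 76) (nat_lit 3444282962) (nat_lit 32) (nat_lit 5) (nat_lit 35) (nat_lit 5) (nat_lit 33) (nat_lit 5) (nat_lit 504) (nat_lit 358) (nat_lit 278)) (XT.nd (nat_lit 78) (nat_lit 0) (nat_lit 0) (XT.lf (nat_lit 0) (nat_lit 1183524419) (nat_lit 152) (nat_lit 8669289082) (nat_lit 228) (nat_lit 7333997579) (nat_lit 30) (nat_lit 5) (nat_lit 32) (nat_lit 5) (nat_lit 33) (nat_lit 5) (nat_lit 505) (nat_lit 358) (nat_lit 277)) (XT.lf (nat_lit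 0) (nat_lit 10875700640) (nat_lit 152) (nat_lit 3697857111) (nat_lit 228) (nat_lit 2848416285) (nat_lit 30) (nat_lit 5) (nat_lit 32) (nat_lit 5) (nat_lit 33) (nat_lit 5) (nat_lit 506) (nat_lit 358) (nat_lit 276))))) (XT.nd (nat_lit 52884) (nat_lit 0) (nat_lit 23560) (XT.nd (nat_lit 52728) (nat_lit 0) (nat_lit 26144) (XT.lf (nat_lit 0) (nat_lit 1702727618) (nat_lit 228) (nat_lit 14596136518) (nat_lit 76) (nat_lit 1362784946) (nat_lit 27) (nat_lit 5) (nat_lit 30) (nat_lit 5) (nat_lit 28) (nat_lit 5) (nat_lit 507) (nat_lit 358) (nat_lit 275)) (XT.nd (nat_lit 78) (nat_lit 0) (nat_lit 0) (XT.lf (nat_lit 0) (nat_lit 95292943) (nat_lit 912) (nat_lit 3466738045) (nat_lit 0) (nat_lit 95292943) (nat_lit 371) (nat_lit 5) (nat_lit 383) (nat_lit 4) (nat_lit 371) (nat_lit 4) (nat_lit 422) (nat_lit 359) (nat_lit 359)) (XT.lf (nat_lit 0) (nat_lit 3677843648) (nat_lit 912) (nat_lit 1559204669) (nat_lit 0) (nat_lit 2120295119) (nat_lit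 371) (nat_lit 5) (nat_lit 383) (nat_lit 4) (nat_lit 371) (nat_lit 4) (nat_lit 423) (nat_lit 359) (nat_lit 358)))) (XT.nd (nat_lit 78) (nat_lit 1748) (nat_lit 0) (XT.lf (nat_lit 0) (nat_lit 3901898750) (nat_lit 836) (nat_lit 3292197074) (nat_lit 836) (nat_lit 207640182) (nat_lit 360) (nat_lit 4) (nat_lit 371) (nat_lit 5) (nat_lit 371) (nat_lit 4) (nat_lit 424) (nat_lit 359) (nat_lit 357)) (XT.nd (nat_lit 78) (nat_lit 836) (nat_lit 0) (XT.lf (nat_lit 0) (nat_lit 1978532478) (nat_lit 836) (nat_lit 1269069695) (nat_lit 912) (nat_lit 4199855005) (nat_lit 348) (nat_lit 5) (nat_lit 359) (nat_lit 5) (nat_lit 360) (nat_lit 4) (nat_lit 425) (nat_lit 359) (nat_lit 356)) (XT.lf (nat_lit 0) (nat_lit 41077964) (nat_lit 836) (nat_lit 6692226668) (nat_lit 836) (nat_lit 761504433) (nat_lit 337) (nat_lit 4) (nat_lit 348) (nat_lit 5) (nat_lit 348) (nat_lit 4) (nat_lit 426) (nat_lit 359) (nat_lit 355))))))))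
noncomputable def xc42 : XT := (XT.nd (nat_lit 1716) (nat_lit 6536) (nat_lit 0) (XT.nd (nat_lit 858) (nat_lit 4864) (nat_lit 0) (XT.nd (nat_lit 390) (nat_lit 3572) (nat_lit 0) (XT.nd (nat_lit 156) (nat_lit 1596) (nat_lit 0) (XT.nd (nat_lit 78) (nat_lit 760) (nat_lit 0) (XT.lf (nat_lit 0) (nat_lit 2690368868) (nat_lit 912) (nat_lit 1906896811) (nat_lit 76) (nat_lit 2945895910) (nat_lit 336) (nat_lit 5) (nat_lit 348) (nat_lit 5) (nat_lit 337) (nat_lit 4) (nat_lit 427) (nat_lit 359) (nat_lit 354)) (XT.lf (nat_lit 0) (nat_lit 3722632132) (nat_lit 760) (nat_lit 2439314688) (nat_lit 836) (nat_lit 1431241322) (nat_lit 326) (nat_lit 5) (nat_lit 336) (nat_lit 5) (nat_lit 337) (nat_lit 4) (nat_lit 428) (nat_lit 359) (nat_lit 353))) (XT.nd (nat_lit 78) (nat_lit 760) (nat_lit 0) (XT.lf (nat_lit 0) (nat_lit 1784180222) (nat_lit 760) (nat_lit 209048293) (nat_lit 836) (nat_lit 5651513573) (nat_lit 315) (nat_lit 5) (nat_lit 325) (nat_lit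 5) (nat_lit 326) (nat_lit 5) (nat_lit 429) (nat_lit 359) (nat_lit 352)) (XT.nd (nat_lit 78) (nat_lit 760) (nat_lit 0) (XT.lf (nat_lit 0) (nat_lit 5444327258) (nat_lit 836) (nat_lit 188530353) (nat_lit 76) (nat_lit 2064757702) (nat_lit 315) (nat_lit 5) (nat_lit 326) (nat_lit 5) (nat_lit 316) (nat_lit 4) (nat_lit 430) (nat_lit 359) (nat_lit 351)) (XT.lf (nat_lit 0) (nat_lit 1173491682) (nat_lit 760) (nat_lit 2162492513) (nat_lit 76) (nat_lit 4415896942) (nat_lit 305) (nat_lit 5) (nat_lit 315) (nat_lit 5) (nat_lit 306) (nat_lit 5) (nat_lit 431) (nat_lit 359) (nat_lit 350))))) (XT.nd (nat_lit 234) (nat_lit 2052) (nat_lit 0) (XT.nd (nat_lit 78) (nat_lit 760) (nat_lit 0) (XT.lf (nat_lit 0) (nat_lit 3638948542) (nat_lit 760) (nat_lit 963876773) (nat_lit 836) (nat_lit 3204847414) (nat_lit 295) (nat_lit 5) (nat_lit 305) (nat_lit 5) (nat_lit 306) (nat_lit 5) (nat_lit 432) (nat_lit 359) (nat_lit 349)) (XT.nd (nat_lit 78) (nat_lit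 0) (nat_lit 0) (XT.lf (nat_lit 0) (nat_lit 207634880) (nat_lit 760) (nat_lit 6205528228) (nat_lit 76) (nat_lit 1451916317) (nat_lit 285) (nat_lit 5) (nat_lit 295) (nat_lit 5) (nat_lit 286) (nat_lit 5) (nat_lit 433) (nat_lit 359) (nat_lit 348)) (XT.lf (nat_lit 0) (nat_lit 3620244391) (nat_lit 760) (nat_lit 363037592) (nat_lit 76) (nat_lit 3940453638) (nat_lit 285) (nat_lit 5) (nat_lit 295) (nat_lit 5) (nat_lit 286) (nat_lit 5) (nat_lit 434) (nat_lit 359) (nat_lit 347)))) (XT.nd (nat_lit 78) (nat_lit 1368) (nat_lit 0) (XT.lf (nat_lit 0) (nat_lit 5598085141) (nat_lit 684) (nat_lit 1480747315) (nat_lit 760) (nat_lit 905198407) (nat_lit 276) (nat_lit 5) (nat_lit 285) (nat_lit 5) (nat_lit 286) (nat_lit 5) (nat_lit 435) (nat_lit 359) (nat_lit 346)) (XT.nd (nat_lit 78) (nat_lit 684) (nat_lit 0) (XT.lf (nat_lit 0) (nat_lit 2502089639) (nat_lit 684) (nat_lit 4456590899) (nat_lit 76) (nat_lit 1087046199) (nat_lit 267) (nat_lit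 5) (nat_lit 276) (nat_lit 5) (nat_lit 268) (nat_lit 5) (nat_lit 436) (nat_lit 359) (nat_lit 345)) (XT.lf (nat_lit 0) (nat_lit 1539437454) (nat_lit 684) (nat_lit 4404148713) (nat_lit 760) (nat_lit 2165406296) (nat_lit 258) (nat_lit 5) (nat_lit 267) (nat_lit 5) (nat_lit 268) (nat_lit 5) (nat_lit 437) (nat_lit 359) (nat_lit 344)))))) (XT.nd (nat_lit 390) (nat_lit 2964) (nat_lit 0) (XT.nd (nat_lit 156) (nat_lit 1216) (nat_lit 0) (XT.nd (nat_lit 78) (nat_lit 608) (nat_lit 0) (XT.lf (nat_lit 0) (nat_lit 1236221938) (nat_lit 760) (nat_lit 538515269) (nat_lit 76) (nat_lit 6399186048) (nat_lit 257) (nat_lit 5) (nat_lit 267) (nat_lit 5) (nat_lit 258) (nat_lit 5) (nat_lit 438) (nat_lit 359) (nat_lit 343)) (XT.lf (nat_lit 0) (nat_lit 4663055852) (nat_lit 684) (nat_lit 2645597994) (nat_lit 76) (nat_lit 931507349) (nat_lit 249) (nat_lit 5) (nat_lit 258) (nat_lit 5) (nat_lit 250) (nat_lit 5) (nat_lit 439) (nat_lit 359) (nat_lit 342)))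 (XT.nd (nat_lit 78) (nat_lit 608) (nat_lit 0) (XT.lf (nat_lit 0) (nat_lit 3512228504) (nat_lit 608) (nat_lit 4628585772) (nat_lit 684) (nat_lit 167279662) (nat_lit 241) (nat_lit 5) (nat_lit 249) (nat_lit 5) (nat_lit 250) (nat_lit 5) (nat_lit 440) (nat_lit 359) (nat_lit 341)) (XT.nd (nat_lit 78) (nat_lit 0) (nat_lit 0) (XT.lf (nat_lit 0) (nat_lit 1376187980) (nat_lit 532) (nat_lit 1862380020) (nat_lit 608) (nat_lit 5138979606) (nat_lit 233) (nat_lit 5) (nat_lit 240) (nat_lit 5) (nat_lit 241) (nat_lit 5) (nat_lit 441) (nat_lit 359) (nat_lit 340)) (XT.lf (nat_lit 0) (nat_lit 6693872126) (nat_lit 608) (nat_lit 791424614) (nat_lit 76) (nat_lit 963416679) (nat_lit 233) (nat_lit 5) (nat_lit 241) (nat_lit 5) (nat_lit 234) (nat_lit 5) (nat_lit 442) (nat_lit 359) (nat_lit 339))))) (XT.nd (nat_lit 234) (nat_lit 1216) (nat_lit 0) (XT.nd (nat_lit 78) (nat_lit 1064) (nat_lit 0) (XT.lf (nat_lit 0) (nat_lit 1668950761) (nat_lit 684)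 (nat_lit 3000884210) (nat_lit 76) (nat_lit 3851378799) (nat_lit 224) (nat_lit 5) (nat_lit 233) (nat_lit 5) (nat_lit 225) (nat_lit 5) (nat_lit 443) (nat_lit 359) (nat_lit 338)) (XT.nd (nat_lit 78) (nat_lit 532) (nat_lit 0) (XT.lf (nat_lit 0) (nat_lit 3334410002) (nat_lit 532) (nat_lit 1776590158) (nat_lit 608) (nat_lit 3484482208) (nat_lit 217) (nat_lit 5) (nat_lit 224) (nat_lit 5) (nat_lit 225) (nat_lit 5) (nat_lit 444) (nat_lit 359) (nat_lit 337)) (XT.lf (nat_lit 0) (nat_lit 1100788651) (nat_lit 532) (nat_lit 7502881629) (nat_lit 608) (nat_lit 67945960) (nat_lit 210) (nat_lit 5) (nat_lit 217) (nat_lit 5) (nat_lit 218) (nat_lit 5) (nat_lit 445) (nat_lit 359) (nat_lit 336)))) (XT.nd (nat_lit 78) (nat_lit 1140) (nat_lit 0) (XT.lf (nat_lit 0) (nat_lit 3366362562) (nat_lit 608) (nat_lit 1193937622) (nat_lit 76) (nat_lit 4188658701) (nat_lit 209) (nat_lit 5) (nat_lit 217) (nat_lit 5) (nat_lit 210) (nat_lit 5) (nat_lit 446)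 (nat_lit 359) (nat_lit 335)) (XT.nd (nat_lit 78) (nat_lit 608) (nat_lit 0) (XT.lf (nat_lit 0) (nat_lit 5308695241) (nat_lit 532) (nat_lit 1542212029) (nat_lit 608) (nat_lit 1977297537) (nat_lit 202) (nat_lit 5) (nat_lit 209) (nat_lit 5) (nat_lit 210) (nat_lit 5) (nat_lit 447) (nat_lit 359) (nat_lit 334)) (XT.lf (nat_lit 0) (nat_lit 1462368895) (nat_lit 608) (nat_lit 5912277836) (nat_lit 76) (nat_lit 1534491011) (nat_lit 194) (nat_lit 5) (nat_lit 202) (nat_lit 5) (nat_lit 195) (nat_lit 5) (nat_lit 448) (nat_lit 359) (nat_lit 333))))))) (XT.nd (nat_lit 858) (nat_lit 2812) (nat_lit 0) (XT.nd (nat_lit 390) (nat_lit 2204) (nat_lit 0) (XT.nd (nat_lit 156) (nat_lit 1064) (nat_lit 0) (XT.nd (nat_lit 78) (nat_lit 0) (nat_lit 0) (XT.lf (nat_lit 0) (nat_lit 612973887) (nat_lit 456) (nat_lit 4317999308) (nat_lit 532) (nat_lit 4060736090) (nat_lit 188) (nat_lit 5) (nat_lit 194) (nat_lit 5) (nat_lit 195) (nat_lit 5) (nat_lit 449)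 (nat_lit 359) (nat_lit 332)) (XT.lf (nat_lit 0) (nat_lit 7277695877) (nat_lit 456) (nat_lit 1180101832) (nat_lit 532) (nat_lit 618371079) (nat_lit 188) (nat_lit 5) (nat_lit 194) (nat_lit 5) (nat_lit 195) (nat_lit 5) (nat_lit 450) (nat_lit 359) (nat_lit 331))) (XT.nd (nat_lit 78) (nat_lit 532) (nat_lit 0) (XT.lf (nat_lit 0) (nat_lit 2849787727) (nat_lit 532) (nat_lit 4287383469) (nat_lit 76) (nat_lit 2024885876) (nat_lit 181) (nat_lit 5) (nat_lit 188) (nat_lit 5) (nat_lit 182) (nat_lit 5) (nat_lit 451) (nat_lit 359) (nat_lit 330)) (XT.nd (nat_lit 78) (nat_lit 76) (nat_lit 0) (XT.lf (nat_lit 0) (nat_lit 2404919462) (nat_lit 456) (nat_lit 3959920531) (nat_lit 532) (nat_lit 2885037886) (nat_lit 175) (nat_lit 5) (nat_lit 181) (nat_lit 5) (nat_lit 182) (nat_lit 5) (nat_lit 452) (nat_lit 359) (nat_lit 329)) (XT.lf (nat_lit 0) (nat_lit 582094097) (nat_lit 532) (nat_lit 124926759) (nat_lit 76) (nat_lit 8632779843) (nat_lit 174)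 (nat_lit 5) (nat_lit 181) (nat_lit 5) (nat_lit 175) (nat_lit 5) (nat_lit 453) (nat_lit 359) (nat_lit 328))))) (XT.nd (nat_lit 234) (nat_lit 836) (nat_lit 0) (XT.nd (nat_lit 78) (nat_lit 912) (nat_lit 0) (XT.lf (nat_lit 0) (nat_lit 4092271322) (nat_lit 532) (nat_lit 2719513249) (nat_lit 76) (nat_lit 2619121316) (nat_lit 168) (nat_lit 5) (nat_lit 175) (nat_lit 5) (nat_lit 169) (nat_lit 5) (nat_lit 454) (nat_lit 359) (nat_lit 327)) (XT.nd (nat_lit 78) (nat_lit 532) (nat_lit 0) (XT.lf (nat_lit 0) (nat_lit 4141887940) (nat_lit 380) (nat_lit 3514926239) (nat_lit 456) (nat_lit 1867347503) (nat_lit 163) (nat_lit 5) (nat_lit 168) (nat_lit 5) (nat_lit 169) (nat_lit 5) (nat_lit 455) (nat_lit 359) (nat_lit 326)) (XT.lf (nat_lit 0) (nat_lit 1496858657) (nat_lit 456) (nat_lit 134559685) (nat_lit 532) (nat_lit 7988058258) (nat_lit 156) (nat_lit 5) (nat_lit 162) (nat_lit 5) (nat_lit 163) (nat_lit 5) (nat_lit 456) (nat_lit 359) (nat_lit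 325)))) (XT.nd (nat_lit 78) (nat_lit 836) (nat_lit 0) (XT.lf (nat_lit 0) (nat_lit 5185305516) (nat_lit 532) (nat_lit 1234169767) (nat_lit 76) (nat_lit 3296783741) (nat_lit 156) (nat_lit 5) (nat_lit 163) (nat_lit 5) (nat_lit 157) (nat_lit 5) (nat_lit 457) (nat_lit 359) (nat_lit 324)) (XT.nd (nat_lit 78) (nat_lit 456) (nat_lit 0) (XT.lf (nat_lit 0) (nat_lit 5797974653) (nat_lit 380) (nat_lit 3004023804) (nat_lit 456) (nat_lit 1013154928) (nat_lit 151) (nat_lit 5) (nat_lit 156) (nat_lit 5) (nat_lit 157) (nat_lit 5) (nat_lit 458) (nat_lit 359) (nat_lit 323)) (XT.lf (nat_lit 0) (nat_lit 2525815649) (nat_lit 456) (nat_lit 6894203193) (nat_lit 76) (nat_lit 495991097) (nat_lit 145) (nat_lit 5) (nat_lit 151) (nat_lit 5) (nat_lit 146) (nat_lit 5) (nat_lit 459) (nat_lit 359) (nat_lit 322)))))) (XT.nd (nat_lit 390) (nat_lit 1520) (nat_lit 0) (XT.nd (nat_lit 156) (nat_lit 912) (nat_lit 0) (XT.nd (nat_lit 78) (nat_lit 0) (nat_lit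 0) (XT.lf (nat_lit 0) (nat_lit 143047376) (nat_lit 380) (nat_lit 5980589633) (nat_lit 456) (nat_lit 3895090150) (nat_lit 140) (nat_lit 5) (nat_lit 145) (nat_lit 5) (nat_lit 146) (nat_lit 5) (nat_lit 460) (nat_lit 359) (nat_lit 321)) (XT.lf (nat_lit 0) (nat_lit 7345226698) (nat_lit 380) (nat_lit 2448576569) (nat_lit 456) (nat_lit 329697710) (nat_lit 140) (nat_lit 5) (nat_lit 145) (nat_lit 5) (nat_lit 146) (nat_lit 5) (nat_lit 461) (nat_lit 359) (nat_lit 320))) (XT.nd (nat_lit 78) (nat_lit 456) (nat_lit 0) (XT.lf (nat_lit 0) (nat_lit 3254779277) (nat_lit 456) (nat_lit 5808780491) (nat_lit 76) (nat_lit 1166567741) (nat_lit 134) (nat_lit 5) (nat_lit 140) (nat_lit 5) (nat_lit 135) (nat_lit 5) (nat_lit 462) (nat_lit 359) (nat_lit 319)) (XT.nd (nat_lit 78) (nat_lit 76) (nat_lit 0) (XT.lf (nat_lit 0) (nat_lit 1395054290) (nat_lit 380) (nat_lit 5510533292) (nat_lit 456) (nat_lit 3433283722) (nat_lit 129) (nat_lit 5) (nat_lit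 134) (nat_lit 5) (nat_lit 135) (nat_lit 5) (nat_lit 463) (nat_lit 359) (nat_lit 318)) (XT.lf (nat_lit 0) (nat_lit 171650238) (nat_lit 456) (nat_lit 1697708535) (nat_lit 76) (nat_lit 8580529276) (nat_lit 128) (nat_lit 5) (nat_lit 134) (nat_lit 5) (nat_lit 129) (nat_lit 5) (nat_lit 464) (nat_lit 359) (nat_lit 317))))) (XT.nd (nat_lit 234) (nat_lit 760) (nat_lit 0) (XT.nd (nat_lit 78) (nat_lit 380) (nat_lit 0) (XT.lf (nat_lit 0) (nat_lit 3807858810) (nat_lit 456) (nat_lit 4897620373) (nat_lit 76) (nat_lit 1857098015) (nat_lit 123) (nat_lit 5) (nat_lit 129) (nat_lit 5) (nat_lit 124) (nat_lit 5) (nat_lit 465) (nat_lit 359) (nat_lit 316)) (XT.nd (nat_lit 78) (nat_lit 76) (nat_lit 0) (XT.lf (nat_lit 0) (nat_lit 2472662282) (nat_lit 304) (nat_lit 5040329187) (nat_lit 380) (nat_lit 3164613390) (nat_lit 119) (nat_lit 5) (nat_lit 123) (nat_lit 5) (nat_lit 124) (nat_lit 5) (nat_lit 466) (nat_lit 359) (nat_lit 315)) (XT.lf (nat_lit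 0) (nat_lit 480276618) (nat_lit 380) (nat_lit 809031727) (nat_lit 76) (nat_lit 9505778440) (nat_lit 118) (nat_lit 5) (nat_lit 123) (nat_lit 5) (nat_lit 119) (nat_lit 5) (nat_lit 467) (nat_lit 359) (nat_lit 314)))) (XT.nd (nat_lit 78) (nat_lit 380) (nat_lit 0) (XT.lf (nat_lit 0) (nat_lit 4173479962) (nat_lit 456) (nat_lit 4195768023) (nat_lit 76) (nat_lit 2544904432) (nat_lit 113) (nat_lit 5) (nat_lit 119) (nat_lit 5) (nat_lit 114) (nat_lit 5) (nat_lit 468) (nat_lit 359) (nat_lit 313)) (XT.nd (nat_lit 78) (nat_lit 76) (nat_lit 0) (XT.lf (nat_lit 0) (nat_lit 3340081737) (nat_lit 304) (nat_lit 4593683185) (nat_lit 380) (nat_lit 3101978149) (nat_lit 109) (nat_lit 5) (nat_lit 113) (nat_lit 5) (nat_lit 114) (nat_lit 5) (nat_lit 469) (nat_lit 359) (nat_lit 312)) (XT.lf (nat_lit 0) (nat_lit 587481207) (nat_lit 380) (nat_lit 146927214) (nat_lit 76) (nat_lit 10425566029) (nat_lit 108) (nat_lit 5) (nat_lit 113) (nat_lit 5) (nat_lit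 109) (nat_lit 5) (nat_lit 470) (nat_lit 359) (nat_lit 311))))))))
noncomputable def xc43 : XT := (XT.nd (nat_lit 1716) (nat_lit 1672) (nat_lit 0) (XT.nd (nat_lit 858) (nat_lit 1748) (nat_lit 0) (XT.nd (nat_lit 390) (nat_lit 1216) (nat_lit 0) (XT.nd (nat_lit 156) (nat_lit 684) (nat_lit 0) (XT.nd (nat_lit 78) (nat_lit 304) (nat_lit 0) (XT.lf (nat_lit 0) (nat_lit 4337921148) (nat_lit 380) (nat_lit 3741553679) (nat_lit 76) (nat_lit 3206238606) (nat_lit 104) (nat_lit 5) (nat_lit 109) (nat_lit 5) (nat_lit 105) (nat_lit 5) (nat_lit 471) (nat_lit 359) (nat_lit 310)) (XT.lf (nat_lit 0) (nat_lit 3958125283) (nat_lit 304) (nat_lit 4195505180) (nat_lit 380) (nat_lit 3260538970) (nat_lit 100) (nat_lit 5) (nat_lit 104) (nat_lit 5) (nat_lit 105) (nat_lit 5) (nat_lit 472) (nat_lit 359) (nat_lit 309))) (XT.nd (nat_lit 78) (nat_lit 304) (nat_lit 0) (XT.lf (nat_lit 0) (nat_lit 251557973) (nat_lit 304) (nat_lit 228056530) (nat_lit 380)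 (nat_lit 11065807849) (nat_lit 95) (nat_lit 5) (nat_lit 99) (nat_lit 5) (nat_lit 100) (nat_lit 5) (nat_lit 473) (nat_lit 359) (nat_lit 308)) (XT.nd (nat_lit 78) (nat_lit 304) (nat_lit 0) (XT.lf (nat_lit 0) (nat_lit 4285142983) (nat_lit 380) (nat_lit 3577012106) (nat_lit 76) (nat_lit 3816036602) (nat_lit 95) (nat_lit 5) (nat_lit 100) (nat_lit 5) (nat_lit 96) (nat_lit 5) (nat_lit 474) (nat_lit 359) (nat_lit 307)) (XT.lf (nat_lit 0) (nat_lit 4283775752) (nat_lit 304) (nat_lit 3872163635) (nat_lit 380) (nat_lit 3657900764) (nat_lit 91) (nat_lit 5) (nat_lit 95) (nat_lit 5) (nat_lit 96) (nat_lit 5) (nat_lit 475) (nat_lit 359) (nat_lit 306))))) (XT.nd (nat_lit 234) (nat_lit 608) (nat_lit 0) (XT.nd (nat_lit 78) (nat_lit 228) (nat_lit 0) (XT.lf (nat_lit 0) (nat_lit 137538152) (nat_lit 380) (nat_lit 11617133943) (nat_lit 76) (nat_lit 197764752) (nat_lit 86) (nat_lit 5) (nat_lit 91) (nat_lit 5) (nat_lit 87) (nat_lit 5) (nat_lit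 476) (nat_lit 359) (nat_lit 305)) (XT.nd (nat_lit 78) (nat_lit 228) (nat_lit 0) (XT.lf (nat_lit 0) (nat_lit 3996595264) (nat_lit 380) (nat_lit 3748341590) (nat_lit 76) (nat_lit 4347657758) (nat_lit 86) (nat_lit 5) (nat_lit 91) (nat_lit 5) (nat_lit 87) (nat_lit 5) (nat_lit 477) (nat_lit 359) (nat_lit 304)) (XT.lf (nat_lit 0) (nat_lit 4269713225) (nat_lit 228) (nat_lit 3651757907) (nat_lit 304) (nat_lit 4314318003) (nat_lit 83) (nat_lit 5) (nat_lit 86) (nat_lit 5) (nat_lit 87) (nat_lit 5) (nat_lit 478) (nat_lit 359) (nat_lit 303)))) (XT.nd (nat_lit 78) (nat_lit 304) (nat_lit 0) (XT.lf (nat_lit 0) (nat_lit 50382628) (nat_lit 304) (nat_lit 11864613041) (nat_lit 380) (nat_lit 467055089) (nat_lit 79) (nat_lit 5) (nat_lit 83) (nat_lit 5) (nat_lit 84) (nat_lit 5) (nat_lit 479) (nat_lit 359) (nat_lit 302)) (XT.nd (nat_lit 78) (nat_lit 228) (nat_lit 0) (XT.lf (nat_lit 0) (nat_lit 3450999434) (nat_lit 380) (nat_lit 4306406965)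 (nat_lit 76) (nat_lit 4772604532) (nat_lit 78) (nat_lit 5) (nat_lit 83) (nat_lit 5) (nat_lit 79) (nat_lit 5) (nat_lit 480) (nat_lit 359) (nat_lit 301)) (XT.lf (nat_lit 0) (nat_lit 3863796513) (nat_lit 228) (nat_lit 3564410893) (nat_lit 304) (nat_lit 5252926104) (nat_lit 75) (nat_lit 5) (nat_lit 78) (nat_lit 5) (nat_lit 79) (nat_lit 5) (nat_lit 481) (nat_lit 359) (nat_lit 300)))))) (XT.nd (nat_lit 390) (nat_lit 912) (nat_lit 0) (XT.nd (nat_lit 156) (nat_lit 532) (nat_lit 0) (XT.nd (nat_lit 78) (nat_lit 304) (nat_lit 0) (XT.lf (nat_lit 0) (nat_lit 11480805153) (nat_lit 304) (nat_lit 647065316) (nat_lit 76) (nat_lit 707496918) (nat_lit 75) (nat_lit 5) (nat_lit 79) (nat_lit 5) (nat_lit 76) (nat_lit 5) (nat_lit 482) (nat_lit 359) (nat_lit 299)) (XT.lf (nat_lit 0) (nat_lit 2624104280) (nat_lit 304) (nat_lit 5307291613) (nat_lit 76) (nat_lit 5060220730) (nat_lit 71) (nat_lit 5) (nat_lit 75) (nat_lit 5) (nat_lit 72) (nat_lit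 5) (nat_lit 483) (nat_lit 359) (nat_lit 298))) (XT.nd (nat_lit 78) (nat_lit 304) (nat_lit 0) (XT.lf (nat_lit 0) (nat_lit 3008493975) (nat_lit 228) (nat_lit 3642584792) (nat_lit 304) (nat_lit 6500000984) (nat_lit 68) (nat_lit 5) (nat_lit 71) (nat_lit 5) (nat_lit 72) (nat_lit 5) (nat_lit 484) (nat_lit 359) (nat_lit 297)) (XT.nd (nat_lit 78) (nat_lit 304) (nat_lit 0) (XT.lf (nat_lit 0) (nat_lit 10762310044) (nat_lit 304) (nat_lit 1817813386) (nat_lit 76) (nat_lit 733539686) (nat_lit 68) (nat_lit 5) (nat_lit 72) (nat_lit 5) (nat_lit 69) (nat_lit 5) (nat_lit 485) (nat_lit 359) (nat_lit 296)) (XT.lf (nat_lit 0) (nat_lit 1488412347) (nat_lit 304) (nat_lit 6812903879) (nat_lit 76) (nat_lit 5177365214) (nat_lit 64) (nat_lit 5) (nat_lit 68) (nat_lit 5) (nat_lit 65) (nat_lit 5) (nat_lit 486) (nat_lit 359) (nat_lit 295))))) (XT.nd (nat_lit 234) (nat_lit 380) (nat_lit 0) (XT.nd (nat_lit 78) (nat_lit 304) (nat_lit 0) (XT.lf (nat_lit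 0) (nat_lit 1640258042) (nat_lit 228) (nat_lit 3921422994) (nat_lit 304) (nat_lit 8085249406) (nat_lit 61) (nat_lit 5) (nat_lit 64) (nat_lit 5) (nat_lit 65) (nat_lit 5) (nat_lit 487) (nat_lit 359) (nat_lit 294)) (XT.nd (nat_lit 78) (nat_lit 304) (nat_lit 0) (XT.lf (nat_lit 0) (nat_lit 9730041649) (nat_lit 304) (nat_lit 3528001895) (nat_lit 76) (nat_lit 560233263) (nat_lit 61) (nat_lit 5) (nat_lit 65) (nat_lit 5) (nat_lit 62) (nat_lit 5) (nat_lit 488) (nat_lit 359) (nat_lit 293)) (XT.lf (nat_lit 0) (nat_lit 12874299) (nat_lit 304) (nat_lit 8891643879) (nat_lit 76) (nat_lit 5088057971) (nat_lit 57) (nat_lit 5) (nat_lit 61) (nat_lit 5) (nat_lit 58) (nat_lit 5) (nat_lit 489) (nat_lit 359) (nat_lit 292)))) (XT.nd (nat_lit 78) (nat_lit 380) (nat_lit 0) (XT.lf (nat_lit 0) (nat_lit 4129978951) (nat_lit 304) (nat_lit 307081750) (nat_lit 76) (nat_lit 9732990652) (nat_lit 57) (nat_lit 5) (nat_lit 61) (nat_lit 5) (nat_lit 58) (nat_lit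 5) (nat_lit 490) (nat_lit 359) (nat_lit 291)) (XT.nd (nat_lit 78) (nat_lit 228) (nat_lit 0) (XT.lf (nat_lit 0) (nat_lit 8351128696) (nat_lit 228) (nat_lit 5850027473) (nat_lit 76) (nat_lit 149490373) (nat_lit 55) (nat_lit 5) (nat_lit 58) (nat_lit 5) (nat_lit 56) (nat_lit 5) (nat_lit 491) (nat_lit 359) (nat_lit 290)) (XT.lf (nat_lit 0) (nat_lit 2903312969) (nat_lit 228) (nat_lit 9769355134) (nat_lit 304) (nat_lit 1861870648) (nat_lit 52) (nat_lit 5) (nat_lit 55) (nat_lit 5) (nat_lit 56) (nat_lit 5) (nat_lit 492) (nat_lit 359) (nat_lit 289))))))) (XT.nd (nat_lit 858) (nat_lit 380) (nat_lit 0) (XT.nd (nat_lit 390) (nat_lit 608) (nat_lit 0) (XT.nd (nat_lit 156) (nat_lit 456) (nat_lit 0) (XT.nd (nat_lit 78) (nat_lit 152) (nat_lit 0) (XT.lf (nat_lit 0) (nat_lit 2332833093) (nat_lit 304) (nat_lit 2885138748) (nat_lit 76) (nat_lit 9503730257) (nat_lit 51) (nat_lit 5) (nat_lit 55) (nat_lit 5) (nat_lit 52) (nat_lit 5) (nat_lit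 493) (nat_lit 359) (nat_lit 288)) (XT.lf (nat_lit 0) (nat_lit 6044718460) (nat_lit 152) (nat_lit 547443192) (nat_lit 228) (nat_lit 8320091890) (nat_lit 49) (nat_lit 5) (nat_lit 51) (nat_lit 5) (nat_lit 52) (nat_lit 5) (nat_lit 494) (nat_lit 359) (nat_lit 287))) (XT.nd (nat_lit 78) (nat_lit 228) (nat_lit 0) (XT.lf (nat_lit 0) (nat_lit 323706) (nat_lit 228) (nat_lit 10949737931) (nat_lit 304) (nat_lit 4156290793) (nat_lit 46) (nat_lit 5) (nat_lit 49) (nat_lit 5) (nat_lit 50) (nat_lit 5) (nat_lit 495) (nat_lit 359) (nat_lit 286)) (XT.nd (nat_lit 78) (nat_lit 152) (nat_lit 0) (XT.lf (nat_lit 0) (nat_lit 119695543) (nat_lit 304) (nat_lit 6200304647) (nat_lit 76) (nat_lit 8983723270) (nat_lit 45) (nat_lit 5) (nat_lit 49) (nat_lit 5) (nat_lit 46) (nat_lit 5) (nat_lit 496) (nat_lit 359) (nat_lit 285)) (XT.lf (nat_lit 0) (nat_lit 2836053237) (nat_lit 152) (nat_lit 1575191134) (nat_lit 228) (nat_lit 11093538043) (nat_lit 43) (nat_lit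 5) (nat_lit 45) (nat_lit 5) (nat_lit 46) (nat_lit 5) (nat_lit 497) (nat_lit 359) (nat_lit 284))))) (XT.nd (nat_lit 234) (nat_lit 304) (nat_lit 0) (XT.nd (nat_lit 78) (nat_lit 304) (nat_lit 0) (XT.lf (nat_lit 0) (nat_lit 8819048657) (nat_lit 228) (nat_lit 3650587308) (nat_lit 76) (nat_lit 3239621892) (nat_lit 43) (nat_lit 5) (nat_lit 46) (nat_lit 5) (nat_lit 44) (nat_lit 5) (nat_lit 498) (nat_lit 359) (nat_lit 283)) (XT.nd (nat_lit 78) (nat_lit 76) (nat_lit 0) (XT.lf (nat_lit 0) (nat_lit 5554181710) (nat_lit 228) (nat_lit 7775306983) (nat_lit 304) (nat_lit 2588048246) (nat_lit 40) (nat_lit 5) (nat_lit 43) (nat_lit 5) (nat_lit 44) (nat_lit 5) (nat_lit 499) (nat_lit 359) (nat_lit 282)) (XT.lf (nat_lit 0) (nat_lit 1769244368) (nat_lit 304) (nat_lit 1205017906) (nat_lit 76) (nat_lit 13155635196) (nat_lit 39) (nat_lit 5) (nat_lit 43) (nat_lit 5) (nat_lit 40) (nat_lit 5) (nat_lit 500) (nat_lit 359) (nat_lit 281)))) (XT.nd (nat_lit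 78) (nat_lit 152) (nat_lit 0) (XT.lf (nat_lit 0) (nat_lit 6213575045) (nat_lit 228) (nat_lit 8187114786) (nat_lit 76) (nat_lit 1944785827) (nat_lit 37) (nat_lit 5) (nat_lit 40) (nat_lit 5) (nat_lit 38) (nat_lit 5) (nat_lit 501) (nat_lit 359) (nat_lit 280)) (XT.nd (nat_lit 78) (nat_lit 0) (nat_lit 0) (XT.lf (nat_lit 0) (nat_lit 1099594944) (nat_lit 152) (nat_lit 9650943896) (nat_lit 228) (nat_lit 5814755079) (nat_lit 35) (nat_lit 5) (nat_lit 37) (nat_lit 5) (nat_lit 38) (nat_lit 5) (nat_lit 502) (nat_lit 359) (nat_lit 279)) (XT.lf (nat_lit 0) (nat_lit 10628166948) (nat_lit 152) (nat_lit 4774041285) (nat_lit 228) (nat_lit 1386824361) (nat_lit 35) (nat_lit 5) (nat_lit 37) (nat_lit 5) (nat_lit 38) (nat_lit 5) (nat_lit 503) (nat_lit 359) (nat_lit 278)))))) (XT.nd (nat_lit 52962) (nat_lit 0) (nat_lit 23256) (XT.nd (nat_lit 156) (nat_lit 152) (nat_lit 0) (XT.nd (nat_lit 78) (nat_lit 0) (nat_lit 0) (XT.lf (nat_lit 0) (nat_lit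 3080890661) (nat_lit 228) (nat_lit 13719625414) (nat_lit 76) (nat_lit 216481375) (nat_lit 32) (nat_lit 5) (nat_lit 35) (nat_lit 5) (nat_lit 33) (nat_lit 5) (nat_lit 504) (nat_lit 359) (nat_lit 277)) (XT.lf (nat_lit 0) (nat_lit 7662167116) (nat_lit 228) (nat_lit 4315767268) (nat_lit 76) (nat_lit 5270551524) (nat_lit 32) (nat_lit 5) (nat_lit 35) (nat_lit 5) (nat_lit 33) (nat_lit 5) (nat_lit 505) (nat_lit 359) (nat_lit 276))) (XT.nd (nat_lit 52650) (nat_lit 0) (nat_lit 26828) (XT.lf (nat_lit 0) (nat_lit 5292357756) (nat_lit 152) (nat_lit 7047197098) (nat_lit 228) (nat_lit 5144962683) (nat_lit 30) (nat_lit 5) (nat_lit 32) (nat_lit 5) (nat_lit 33) (nat_lit 5) (nat_lit 506) (nat_lit 359) (nat_lit 275)) (XT.nd (nat_lit 78) (nat_lit 912) (nat_lit 0) (XT.lf (nat_lit 0) (nat_lit 1065103984) (nat_lit 1216) (nat_lit 1485806286) (nat_lit 0) (nat_lit 1065103984) (nat_lit 395) (nat_lit 5) (nat_lit 411) (nat_lit 4) (nat_lit 395) (nat_lit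 4) (nat_lit 420) (nat_lit 360) (nat_lit 360)) (XT.lf (nat_lit 0) (nat_lit 2305673484) (nat_lit 912) (nat_lit 3293818161) (nat_lit 912) (nat_lit 1673344671) (nat_lit 383) (nat_lit 4) (nat_lit 395) (nat_lit 5) (nat_lit 395) (nat_lit 4) (nat_lit 421) (nat_lit 360) (nat_lit 359))))) (XT.nd (nat_lit 234) (nat_lit 1748) (nat_lit 0) (XT.nd (nat_lit 78) (nat_lit 912) (nat_lit 0) (XT.lf (nat_lit 0) (nat_lit 336187024) (nat_lit 836) (nat_lit 1418941695) (nat_lit 912) (nat_lit 5560016454) (nat_lit 371) (nat_lit 5) (nat_lit 382) (nat_lit 5) (nat_lit 383) (nat_lit 4) (nat_lit 422) (nat_lit 360) (nat_lit 358)) (XT.nd (nat_lit 78) (nat_lit 912) (nat_lit 0) (XT.lf (nat_lit 0) (nat_lit 5200458693) (nat_lit 912) (nat_lit 1631032202) (nat_lit 0) (nat_lit 527202302) (nat_lit 371) (nat_lit 5) (nat_lit 383) (nat_lit 4) (nat_lit 371) (nat_lit 4) (nat_lit 423) (nat_lit 360) (nat_lit 357)) (XT.lf (nat_lit 0) (nat_lit 1263390668) (nat_lit 912)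 (nat_lit 3618274263) (nat_lit 76) (nat_lit 2521923733) (nat_lit 359) (nat_lit 5) (nat_lit 371) (nat_lit 5) (nat_lit 360) (nat_lit 4) (nat_lit 424) (nat_lit 360) (nat_lit 356)))) (XT.nd (nat_lit 78) (nat_lit 912) (nat_lit 0) (XT.lf (nat_lit 0) (nat_lit 1821620864) (nat_lit 836) (nat_lit 2861377671) (nat_lit 912) (nat_lit 2766955658) (nat_lit 348) (nat_lit 5) (nat_lit 359) (nat_lit 5) (nat_lit 360) (nat_lit 4) (nat_lit 425) (nat_lit 360) (nat_lit 355)) (XT.nd (nat_lit 78) (nat_lit 836) (nat_lit 0) (XT.lf (nat_lit 0) (nat_lit 625293070) (nat_lit 912) (nat_lit 153185322) (nat_lit 76) (nat_lit 6719499019) (nat_lit 347) (nat_lit 5) (nat_lit 359) (nat_lit 5) (nat_lit 348) (nat_lit 5) (nat_lit 426) (nat_lit 360) (nat_lit 354)) (XT.lf (nat_lit 0) (nat_lit 4029765877) (nat_lit 912) (nat_lit 2141921901) (nat_lit 76) (nat_lit 1375303876) (nat_lit 336) (nat_lit 5) (nat_lit 348) (nat_lit 5) (nat_lit 337) (nat_lit 4) (nat_lit 427)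 (nat_lit 360) (nat_lit 353))))))))
noncomputable def xc44 : XT := (XT.nd (nat_lit 1638) (nat_lit 6536) (nat_lit 0) (XT.nd (nat_lit 780) (nat_lit 4864) (nat_lit 0) (XT.nd (nat_lit 390) (nat_lit 2812) (nat_lit 0) (XT.nd (nat_lit 156) (nat_lit 1520) (nat_lit 0) (XT.nd (nat_lit 78) (nat_lit 836) (nat_lit 0) (XT.lf (nat_lit 0) (nat_lit 3449063822) (nat_lit 760) (nat_lit 4019774060) (nat_lit 836) (nat_lit 128842543) (nat_lit 326) (nat_lit 5) (nat_lit 336) (nat_lit 5) (nat_lit 337) (nat_lit 4) (nat_lit 428) (nat_lit 360) (nat_lit 352)) (XT.lf (nat_lit 0) (nat_lit 1458245724) (nat_lit 760) (nat_lit 1787618801) (nat_lit 836) (nat_lit 4403865984) (nat_lit 315) (nat_lit 5) (nat_lit 325) (nat_lit 5) (nat_lit 326) (nat_lit 5) (nat_lit 429) (nat_lit 360) (nat_lit 351))) (XT.nd (nat_lit 78) (nat_lit 1520) (nat_lit 0) (XT.lf (nat_lit 0) (nat_lit 6656490758) (nat_lit 836) (nat_lit 544700734) (nat_lit 76) (nat_lit 502233092) (nat_lit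 315) (nat_lit 5) (nat_lit 326) (nat_lit 5) (nat_lit 316) (nat_lit 4) (nat_lit 430) (nat_lit 360) (nat_lit 350)) (XT.nd (nat_lit 78) (nat_lit 760) (nat_lit 0) (XT.lf (nat_lit 0) (nat_lit 2331597119) (nat_lit 760) (nat_lit 2572742889) (nat_lit 76) (nat_lit 2853853252) (nat_lit 305) (nat_lit 5) (nat_lit 315) (nat_lit 5) (nat_lit 306) (nat_lit 5) (nat_lit 431) (nat_lit 360) (nat_lit 349)) (XT.lf (nat_lit 0) (nat_lit 3187807239) (nat_lit 760) (nat_lit 2540715487) (nat_lit 836) (nat_lit 2086121029) (nat_lit 295) (nat_lit 5) (nat_lit 305) (nat_lit 5) (nat_lit 306) (nat_lit 5) (nat_lit 432) (nat_lit 360) (nat_lit 348))))) (XT.nd (nat_lit 156) (nat_lit 2052) (nat_lit 0) (XT.nd (nat_lit 78) (nat_lit 0) (nat_lit 0) (XT.lf (nat_lit 0) (nat_lit 1162122693) (nat_lit 684) (nat_lit 107391534) (nat_lit 760) (nat_lit 6603244775) (nat_lit 285) (nat_lit 5) (nat_lit 294) (nat_lit 5) (nat_lit 295) (nat_lit 5) (nat_lit 433) (nat_lit 360) (nat_lit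 347)) (XT.lf (nat_lit 0) (nat_lit 4652406620) (nat_lit 760) (nat_lit 902912578) (nat_lit 76) (nat_lit 2376700464) (nat_lit 285) (nat_lit 5) (nat_lit 295) (nat_lit 5) (nat_lit 286) (nat_lit 5) (nat_lit 434) (nat_lit 360) (nat_lit 346))) (XT.nd (nat_lit 78) (nat_lit 1292) (nat_lit 0) (XT.lf (nat_lit 0) (nat_lit 84668633) (nat_lit 760) (nat_lit 2977721832) (nat_lit 76) (nat_lit 4930567850) (nat_lit 275) (nat_lit 5) (nat_lit 285) (nat_lit 5) (nat_lit 276) (nat_lit 5) (nat_lit 435) (nat_lit 360) (nat_lit 345)) (XT.nd (nat_lit 78) (nat_lit 684) (nat_lit 0) (XT.lf (nat_lit 0) (nat_lit 2955444738) (nat_lit 608) (nat_lit 485013726) (nat_lit 684) (nat_lit 4614880248) (nat_lit 267) (nat_lit 5) (nat_lit 275) (nat_lit 5) (nat_lit 276) (nat_lit 5) (nat_lit 436) (nat_lit 360) (nat_lit 344)) (XT.lf (nat_lit 0) (nat_lit 855086519) (nat_lit 684) (nat_lit 5991249437) (nat_lit 760) (nat_lit 1272990216) (nat_lit 258) (nat_lit 5) (nat_lit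 267) (nat_lit 5) (nat_lit 268) (nat_lit 5) (nat_lit 437) (nat_lit 360) (nat_lit 343)))))) (XT.nd (nat_lit 390) (nat_lit 2964) (nat_lit 0) (XT.nd (nat_lit 156) (nat_lit 1216) (nat_lit 0) (XT.nd (nat_lit 78) (nat_lit 608) (nat_lit 0) (XT.lf (nat_lit 0) (nat_lit 2089036921) (nat_lit 760) (nat_lit 1274363577) (nat_lit 76) (nat_lit 4821307509) (nat_lit 257) (nat_lit 5) (nat_lit 267) (nat_lit 5) (nat_lit 258) (nat_lit 5) (nat_lit 438) (nat_lit 360) (nat_lit 342)) (XT.lf (nat_lit 0) (nat_lit 4820049947) (nat_lit 608) (nat_lit 657273408) (nat_lit 684) (nat_lit 2774402354) (nat_lit 249) (nat_lit 5) (nat_lit 257) (nat_lit 5) (nat_lit 258) (nat_lit 5) (nat_lit 439) (nat_lit 360) (nat_lit 341))) (XT.nd (nat_lit 78) (nat_lit 532) (nat_lit 0) (XT.lf (nat_lit 0) (nat_lit 590111615) (nat_lit 684) (nat_lit 5639669170) (nat_lit 76) (nat_lit 2090543185) (nat_lit 240) (nat_lit 5) (nat_lit 249) (nat_lit 5) (nat_lit 241) (nat_lit 5) (nat_lit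 440) (nat_lit 360) (nat_lit 340)) (XT.nd (nat_lit 78) (nat_lit 0) (nat_lit 0) (XT.lf (nat_lit 0) (nat_lit 484517879) (nat_lit 532) (nat_lit 3476492738) (nat_lit 608) (nat_lit 4429408699) (nat_lit 233) (nat_lit 5) (nat_lit 240) (nat_lit 5) (nat_lit 241) (nat_lit 5) (nat_lit 441) (nat_lit 360) (nat_lit 339)) (XT.lf (nat_lit 0) (nat_lit 6737228706) (nat_lit 532) (nat_lit 646084757) (nat_lit 608) (nat_lit 1078939834) (nat_lit 233) (nat_lit 5) (nat_lit 240) (nat_lit 5) (nat_lit 241) (nat_lit 5) (nat_lit 442) (nat_lit 360) (nat_lit 338))))) (XT.nd (nat_lit 234) (nat_lit 1672) (nat_lit 0) (XT.nd (nat_lit 78) (nat_lit 608) (nat_lit 0) (XT.lf (nat_lit 0) (nat_lit 2299006899) (nat_lit 684) (nat_lit 3996178963) (nat_lit 76) (nat_lit 2240227458) (nat_lit 224) (nat_lit 5) (nat_lit 233) (nat_lit 5) (nat_lit 225) (nat_lit 5) (nat_lit 443) (nat_lit 360) (nat_lit 337)) (XT.nd (nat_lit 78) (nat_lit 76) (nat_lit 0) (XT.lf (nat_lit 0) (nat_lit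 2290649584) (nat_lit 532) (nat_lit 3417548398) (nat_lit 608) (nat_lit 2902148773) (nat_lit 217) (nat_lit 5) (nat_lit 224) (nat_lit 5) (nat_lit 225) (nat_lit 5) (nat_lit 444) (nat_lit 360) (nat_lit 336)) (XT.lf (nat_lit 0) (nat_lit 466781493) (nat_lit 608) (nat_lit 2773279) (nat_lit 76) (nat_lit 8217683628) (nat_lit 216) (nat_lit 5) (nat_lit 224) (nat_lit 5) (nat_lit 217) (nat_lit 5) (nat_lit 445) (nat_lit 360) (nat_lit 335)))) (XT.nd (nat_lit 78) (nat_lit 1140) (nat_lit 0) (XT.lf (nat_lit 0) (nat_lit 3871385030) (nat_lit 608) (nat_lit 2345684680) (nat_lit 76) (nat_lit 2548086020) (nat_lit 209) (nat_lit 5) (nat_lit 217) (nat_lit 5) (nat_lit 210) (nat_lit 5) (nat_lit 446) (nat_lit 360) (nat_lit 334)) (XT.nd (nat_lit 78) (nat_lit 608) (nat_lit 0) (XT.lf (nat_lit 0) (nat_lit 4106739834) (nat_lit 532) (nat_lit 3216144015) (nat_lit 608) (nat_lit 1522185807) (nat_lit 202) (nat_lit 5) (nat_lit 209) (nat_lit 5) (nat_lit 210)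 (nat_lit 5) (nat_lit 447) (nat_lit 360) (nat_lit 333)) (XT.lf (nat_lit 0) (nat_lit 1734127180) (nat_lit 532) (nat_lit 133882444) (nat_lit 608) (nat_lit 7058810723) (nat_lit 194) (nat_lit 5) (nat_lit 201) (nat_lit 5) (nat_lit 202) (nat_lit 5) (nat_lit 448) (nat_lit 360) (nat_lit 332))))))) (XT.nd (nat_lit 858) (nat_lit 2812) (nat_lit 0) (XT.nd (nat_lit 390) (nat_lit 2204) (nat_lit 0) (XT.nd (nat_lit 156) (nat_lit 1064) (nat_lit 0) (XT.nd (nat_lit 78) (nat_lit 456) (nat_lit 0) (XT.lf (nat_lit 0) (nat_lit 5306832048) (nat_lit 608) (nat_lit 709385586) (nat_lit 76) (nat_lit 2993776575) (nat_lit 194) (nat_lit 5) (nat_lit 202) (nat_lit 5) (nat_lit 195) (nat_lit 5) (nat_lit 449) (nat_lit 360) (nat_lit 331)) (XT.lf (nat_lit 0) (nat_lit 5911363686) (nat_lit 456) (nat_lit 2892957660) (nat_lit 532) (nat_lit 290725617) (nat_lit 188) (nat_lit 5) (nat_lit 194) (nat_lit 5) (nat_lit 195) (nat_lit 5) (nat_lit 450) (nat_lit 360) (nat_lit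 330))) (XT.nd (nat_lit 78) (nat_lit 532) (nat_lit 0) (XT.lf (nat_lit 0) (nat_lit 3128200065) (nat_lit 532) (nat_lit 5736093697) (nat_lit 76) (nat_lit 317503952) (nat_lit 181) (nat_lit 5) (nat_lit 188) (nat_lit 5) (nat_lit 182) (nat_lit 5) (nat_lit 451) (nat_lit 360) (nat_lit 329)) (XT.nd (nat_lit 78) (nat_lit 76) (nat_lit 0) (XT.lf (nat_lit 0) (nat_lit 902102694) (nat_lit 456) (nat_lit 5707234098) (nat_lit 532) (nat_lit 2660966210) (nat_lit 175) (nat_lit 5) (nat_lit 181) (nat_lit 5) (nat_lit 182) (nat_lit 5) (nat_lit 452) (nat_lit 360) (nat_lit 328)) (XT.lf (nat_lit 0) (nat_lit 779156320) (nat_lit 532) (nat_lit 1684119823) (nat_lit 76) (nat_lit 6897407927) (nat_lit 174) (nat_lit 5) (nat_lit 181) (nat_lit 5) (nat_lit 175) (nat_lit 5) (nat_lit 453) (nat_lit 360) (nat_lit 327))))) (XT.nd (nat_lit 234) (nat_lit 1292) (nat_lit 0) (XT.nd (nat_lit 78) (nat_lit 456) (nat_lit 0) (XT.lf (nat_lit 0) (nat_lit 4243715915) (nat_lit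 532) (nat_lit 4343728792) (nat_lit 76) (nat_lit 865262718) (nat_lit 168) (nat_lit 5) (nat_lit 175) (nat_lit 5) (nat_lit 169) (nat_lit 5) (nat_lit 454) (nat_lit 360) (nat_lit 326)) (XT.nd (nat_lit 78) (nat_lit 76) (nat_lit 0) (XT.lf (nat_lit 0) (nat_lit 2461631807) (nat_lit 380) (nat_lit 5312296968) (nat_lit 456) (nat_lit 1772726746) (nat_lit 163) (nat_lit 5) (nat_lit 168) (nat_lit 5) (nat_lit 169) (nat_lit 5) (nat_lit 455) (nat_lit 360) (nat_lit 325)) (XT.lf (nat_lit 0) (nat_lit 1691739748) (nat_lit 456) (nat_lit 260232896) (nat_lit 76) (nat_lit 7690652153) (nat_lit 162) (nat_lit 5) (nat_lit 168) (nat_lit 5) (nat_lit 163) (nat_lit 5) (nat_lit 456) (nat_lit 360) (nat_lit 324)))) (XT.nd (nat_lit 78) (nat_lit 836) (nat_lit 0) (XT.lf (nat_lit 0) (nat_lit 5208931696) (nat_lit 532) (nat_lit 3040359780) (nat_lit 76) (nat_lit 1490855021) (nat_lit 156) (nat_lit 5) (nat_lit 163) (nat_lit 5) (nat_lit 157) (nat_lit 5) (nat_lit 457)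 (nat_lit 360) (nat_lit 323)) (XT.nd (nat_lit 78) (nat_lit 456) (nat_lit 0) (XT.lf (nat_lit 0) (nat_lit 3933737928) (nat_lit 380) (nat_lit 4857065222) (nat_lit 456) (nat_lit 1048939405) (nat_lit 151) (nat_lit 5) (nat_lit 156) (nat_lit 5) (nat_lit 157) (nat_lit 5) (nat_lit 458) (nat_lit 360) (nat_lit 322)) (XT.lf (nat_lit 0) (nat_lit 1077313669) (nat_lit 380) (nat_lit 1374634267) (nat_lit 456) (nat_lit 7489431932) (nat_lit 145) (nat_lit 5) (nat_lit 150) (nat_lit 5) (nat_lit 151) (nat_lit 5) (nat_lit 459) (nat_lit 360) (nat_lit 321)))))) (XT.nd (nat_lit 390) (nat_lit 1596) (nat_lit 0) (XT.nd (nat_lit 156) (nat_lit 836) (nat_lit 0) (XT.nd (nat_lit 78) (nat_lit 380) (nat_lit 0) (XT.lf (nat_lit 0) (nat_lit 6017427619) (nat_lit 456) (nat_lit 1853608527) (nat_lit 76) (nat_lit 2173712738) (nat_lit 145) (nat_lit 5) (nat_lit 151) (nat_lit 5) (nat_lit 146) (nat_lit 5) (nat_lit 460) (nat_lit 360) (nat_lit 320)) (XT.lf (nat_lit 0)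 (nat_lit 5290318114) (nat_lit 380) (nat_lit 4362815748) (nat_lit 456) (nat_lit 497082905) (nat_lit 140) (nat_lit 5) (nat_lit 145) (nat_lit 5) (nat_lit 146) (nat_lit 5) (nat_lit 461) (nat_lit 360) (nat_lit 319))) (XT.nd (nat_lit 78) (nat_lit 380) (nat_lit 0) (XT.lf (nat_lit 0) (nat_lit 2287289739) (nat_lit 380) (nat_lit 758740385) (nat_lit 456) (nat_lit 7211710772) (nat_lit 134) (nat_lit 5) (nat_lit 139) (nat_lit 5) (nat_lit 140) (nat_lit 5) (nat_lit 462) (nat_lit 360) (nat_lit 318)) (XT.nd (nat_lit 78) (nat_lit 380) (nat_lit 0) (XT.lf (nat_lit 0) (nat_lit 6661019871) (nat_lit 456) (nat_lit 813391073) (nat_lit 76) (nat_lit 2892794702) (nat_lit 134) (nat_lit 5) (nat_lit 140) (nat_lit 5) (nat_lit 135) (nat_lit 5) (nat_lit 463) (nat_lit 360) (nat_lit 317)) (XT.lf (nat_lit 0) (nat_lit 6500891687) (nat_lit 380) (nat_lit 3851409338) (nat_lit 456) (nat_lit 126487912) (nat_lit 129) (nat_lit 5) (nat_lit 134) (nat_lit 5) (nat_lit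 135) (nat_lit 5) (nat_lit 464) (nat_lit 360) (nat_lit 316))))) (XT.nd (nat_lit 234) (nat_lit 760) (nat_lit 0) (XT.nd (nat_lit 78) (nat_lit 380) (nat_lit 0) (XT.lf (nat_lit 0) (nat_lit 3334501616) (nat_lit 380) (nat_lit 128105638) (nat_lit 456) (nat_lit 7129867024) (nat_lit 123) (nat_lit 5) (nat_lit 128) (nat_lit 5) (nat_lit 129) (nat_lit 5) (nat_lit 465) (nat_lit 360) (nat_lit 315)) (XT.nd (nat_lit 78) (nat_lit 76) (nat_lit 0) (XT.lf (nat_lit 0) (nat_lit 48388341) (nat_lit 304) (nat_lit 7081569351) (nat_lit 380) (nat_lit 3578304125) (nat_lit 119) (nat_lit 5) (nat_lit 123) (nat_lit 5) (nat_lit 124) (nat_lit 5) (nat_lit 466) (nat_lit 360) (nat_lit 314)) (XT.lf (nat_lit 0) (nat_lit 50861124) (nat_lit 380) (nat_lit 3294303597) (nat_lit 76) (nat_lit 7481059820) (nat_lit 118) (nat_lit 5) (nat_lit 123) (nat_lit 5) (nat_lit 119) (nat_lit 5) (nat_lit 467) (nat_lit 360) (nat_lit 313)))) (XT.nd (nat_lit 78) (nat_lit 380) (nat_lit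 0) (XT.lf (nat_lit 0) (nat_lit 3693232026) (nat_lit 456) (nat_lit 6765231950) (nat_lit 76) (nat_lit 487846838) (nat_lit 113) (nat_lit 5) (nat_lit 119) (nat_lit 5) (nat_lit 114) (nat_lit 5) (nat_lit 468) (nat_lit 360) (nat_lit 312)) (XT.nd (nat_lit 78) (nat_lit 76) (nat_lit 0) (XT.lf (nat_lit 0) (nat_lit 703533518) (nat_lit 304) (nat_lit 6712251813) (nat_lit 380) (nat_lit 3652874683) (nat_lit 109) (nat_lit 5) (nat_lit 113) (nat_lit 5) (nat_lit 114) (nat_lit 5) (nat_lit 469) (nat_lit 360) (nat_lit 311)) (XT.lf (nat_lit 0) (nat_lit 23251860) (nat_lit 380) (nat_lit 2845384192) (nat_lit 76) (nat_lit 8324741796) (nat_lit 108) (nat_lit 5) (nat_lit 113) (nat_lit 5) (nat_lit 109) (nat_lit 5) (nat_lit 470) (nat_lit 360) (nat_lit 310))))))))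
noncomputable def xc45 : XT := (XT.nd (nat_lit 1716) (nat_lit 1748) (nat_lit 0) (XT.nd (nat_lit 858) (nat_lit 1520) (nat_lit 0) (XT.nd (nat_lit 390) (nat_lit 1216) (nat_lit 0) (XT.nd (nat_lit 156) (nat_lit 684) (nat_lit 0) (XT.nd (nat_lit 78) (nat_lit 304) (nat_lit 0) (XT.lf (nat_lit 0) (nat_lit 3721521671) (nat_lit 380) (nat_lit 6528343273) (nat_lit 76) (nat_lit 1070298976) (nat_lit 104) (nat_lit 5) (nat_lit 109) (nat_lit 5) (nat_lit 105) (nat_lit 5) (nat_lit 471) (nat_lit 360) (nat_lit 309)) (XT.lf (nat_lit 0) (nat_lit 1101828295) (nat_lit 304) (nat_lit 6396815822) (nat_lit 380) (nat_lit 3950751156) (nat_lit 100) (nat_lit 5) (nat_lit 104) (nat_lit 5) (nat_lit 105) (nat_lit 5) (nat_lit 472) (nat_lit 360) (nat_lit 308))) (XT.nd (nat_lit 78) (nat_lit 684) (nat_lit 0) (XT.lf (nat_lit 0) (nat_lit 8908788567) (nat_lit 304) (nat_lit 2446220721) (nat_lit 380) (nat_lit 226135116) (nat_lit 100) (nat_lit 5) (nat_lit 104) (nat_lit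 5) (nat_lit 105) (nat_lit 5) (nat_lit 473) (nat_lit 360) (nat_lit 307)) (XT.nd (nat_lit 78) (nat_lit 304) (nat_lit 0) (XT.lf (nat_lit 0) (nat_lit 3530375461) (nat_lit 380) (nat_lit 6588742028) (nat_lit 76) (nat_lit 1595868701) (nat_lit 95) (nat_lit 5) (nat_lit 100) (nat_lit 5) (nat_lit 96) (nat_lit 5) (nat_lit 474) (nat_lit 360) (nat_lit 306)) (XT.lf (nat_lit 0) (nat_lit 1200018790) (nat_lit 304) (nat_lit 6161636974) (nat_lit 380) (nat_lit 4489772548) (nat_lit 91) (nat_lit 5) (nat_lit 95) (nat_lit 5) (nat_lit 96) (nat_lit 5) (nat_lit 475) (nat_lit 360) (nat_lit 305))))) (XT.nd (nat_lit 234) (nat_lit 608) (nat_lit 0) (XT.nd (nat_lit 78) (nat_lit 608) (nat_lit 0) (XT.lf (nat_lit 0) (nat_lit 9170488992) (nat_lit 304) (nat_lit 2104268748) (nat_lit 380) (nat_lit 715744229) (nat_lit 91) (nat_lit 5) (nat_lit 95) (nat_lit 5) (nat_lit 96) (nat_lit 5) (nat_lit 476) (nat_lit 360) (nat_lit 304)) (XT.nd (nat_lit 78) (nat_lit 228)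 (nat_lit 0) (XT.lf (nat_lit 0) (nat_lit 3101013493) (nat_lit 380) (nat_lit 6992876214) (nat_lit 76) (nat_lit 2037899845) (nat_lit 86) (nat_lit 5) (nat_lit 91) (nat_lit 5) (nat_lit 87) (nat_lit 5) (nat_lit 477) (nat_lit 360) (nat_lit 303)) (XT.lf (nat_lit 0) (nat_lit 950530911) (nat_lit 228) (nat_lit 6034838890) (nat_lit 304) (nat_lit 5290427751) (nat_lit 83) (nat_lit 5) (nat_lit 86) (nat_lit 5) (nat_lit 87) (nat_lit 5) (nat_lit 478) (nat_lit 360) (nat_lit 302)))) (XT.nd (nat_lit 78) (nat_lit 608) (nat_lit 0) (XT.lf (nat_lit 0) (nat_lit 9085155617) (nat_lit 228) (nat_lit 1871211582) (nat_lit 304) (nat_lit 1466145544) (nat_lit 83) (nat_lit 5) (nat_lit 86) (nat_lit 5) (nat_lit 87) (nat_lit 5) (nat_lit 479) (nat_lit 360) (nat_lit 301)) (XT.nd (nat_lit 78) (nat_lit 228) (nat_lit 0) (XT.lf (nat_lit 0) (nat_lit 2411926752) (nat_lit 380) (nat_lit 7791877753) (nat_lit 76) (nat_lit 2367862762) (nat_lit 78) (nat_lit 5) (nat_lit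 83) (nat_lit 5) (nat_lit 79) (nat_lit 5) (nat_lit 480) (nat_lit 360) (nat_lit 300)) (XT.lf (nat_lit 0) (nat_lit 300951795) (nat_lit 228) (nat_lit 6046585256) (nat_lit 304) (nat_lit 6376087600) (nat_lit 75) (nat_lit 5) (nat_lit 78) (nat_lit 5) (nat_lit 79) (nat_lit 5) (nat_lit 481) (nat_lit 360) (nat_lit 299)))))) (XT.nd (nat_lit 390) (nat_lit 684) (nat_lit 0) (XT.nd (nat_lit 156) (nat_lit 532) (nat_lit 0) (XT.nd (nat_lit 78) (nat_lit 304) (nat_lit 0) (XT.lf (nat_lit 0) (nat_lit 8599760071) (nat_lit 228) (nat_lit 1777419215) (nat_lit 304) (nat_lit 2501141147) (nat_lit 75) (nat_lit 5) (nat_lit 78) (nat_lit 5) (nat_lit 79) (nat_lit 5) (nat_lit 482) (nat_lit 360) (nat_lit 298)) (XT.lf (nat_lit 0) (nat_lit 1438632162) (nat_lit 304) (nat_lit 9042114582) (nat_lit 76) (nat_lit 2555053112) (nat_lit 71) (nat_lit 5) (nat_lit 75) (nat_lit 5) (nat_lit 72) (nat_lit 5) (nat_lit 483) (nat_lit 360) (nat_lit 297))) (XT.nd (nat_lit 78)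 (nat_lit 532) (nat_lit 0) (XT.lf (nat_lit 0) (nat_lit 5428092164) (nat_lit 304) (nat_lit 795961569) (nat_lit 76) (nat_lit 6971962175) (nat_lit 71) (nat_lit 5) (nat_lit 75) (nat_lit 5) (nat_lit 72) (nat_lit 5) (nat_lit 484) (nat_lit 360) (nat_lit 296)) (XT.nd (nat_lit 78) (nat_lit 304) (nat_lit 0) (XT.lf (nat_lit 0) (nat_lit 7655761599) (nat_lit 228) (nat_lit 1855675928) (nat_lit 304) (nat_lit 3847722044) (nat_lit 68) (nat_lit 5) (nat_lit 71) (nat_lit 5) (nat_lit 72) (nat_lit 5) (nat_lit 485) (nat_lit 360) (nat_lit 295)) (XT.lf (nat_lit 0) (nat_lit 153398390) (nat_lit 304) (nat_lit 10805797209) (nat_lit 76) (nat_lit 2566266058) (nat_lit 64) (nat_lit 5) (nat_lit 68) (nat_lit 5) (nat_lit 65) (nat_lit 5) (nat_lit 486) (nat_lit 360) (nat_lit 294))))) (XT.nd (nat_lit 234) (nat_lit 228) (nat_lit 0) (XT.nd (nat_lit 78) (nat_lit 456) (nat_lit 0) (XT.lf (nat_lit 0) (nat_lit 4198501291) (nat_lit 304) (nat_lit 2403851594) (nat_lit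 76) (nat_lit 7091923524) (nat_lit 64) (nat_lit 5) (nat_lit 68) (nat_lit 5) (nat_lit 65) (nat_lit 5) (nat_lit 487) (nat_lit 360) (nat_lit 293)) (XT.nd (nat_lit 78) (nat_lit 228) (nat_lit 0) (XT.lf (nat_lit 0) (nat_lit 6188470208) (nat_lit 228) (nat_lit 2141526855) (nat_lit 304) (nat_lit 5536365392) (nat_lit 61) (nat_lit 5) (nat_lit 64) (nat_lit 5) (nat_lit 65) (nat_lit 5) (nat_lit 488) (nat_lit 360) (nat_lit 292)) (XT.lf (nat_lit 0) (nat_lit 880483933) (nat_lit 228) (nat_lit 11666686884) (nat_lit 304) (nat_lit 1494663168) (nat_lit 58) (nat_lit 5) (nat_lit 61) (nat_lit 5) (nat_lit 62) (nat_lit 5) (nat_lit 489) (nat_lit 360) (nat_lit 291)))) (XT.nd (nat_lit 78) (nat_lit 152) (nat_lit 0) (XT.lf (nat_lit 0) (nat_lit 2624975616) (nat_lit 304) (nat_lit 4596316102) (nat_lit 76) (nat_lit 6998555180) (nat_lit 57) (nat_lit 5) (nat_lit 61) (nat_lit 5) (nat_lit 58) (nat_lit 5) (nat_lit 490) (nat_lit 360) (nat_lit 290)) (XT.nd (nat_lit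 78) (nat_lit 0) (nat_lit 0) (XT.lf (nat_lit 0) (nat_lit 4126346006) (nat_lit 152) (nat_lit 2673654706) (nat_lit 228) (nat_lit 7601366070) (nat_lit 55) (nat_lit 5) (nat_lit 57) (nat_lit 5) (nat_lit 58) (nat_lit 5) (nat_lit 491) (nat_lit 360) (nat_lit 289)) (XT.lf (nat_lit 0) (nat_lit 11068662915) (nat_lit 228) (nat_lit 1571126293) (nat_lit 76) (nat_lit 1946529487) (nat_lit 55) (nat_lit 5) (nat_lit 58) (nat_lit 5) (nat_lit 56) (nat_lit 5) (nat_lit 492) (nat_lit 360) (nat_lit 288))))))) (XT.nd (nat_lit 858) (nat_lit 228) (nat_lit 0) (XT.nd (nat_lit 390) (nat_lit 760) (nat_lit 0) (XT.nd (nat_lit 156) (nat_lit 304) (nat_lit 0) (XT.nd (nat_lit 78) (nat_lit 152) (nat_lit 0) (XT.lf (nat_lit 0) (nat_lit 671721230) (nat_lit 304) (nat_lit 7450387032) (nat_lit 76) (nat_lit 6652131718) (nat_lit 51) (nat_lit 5) (nat_lit 55) (nat_lit 5) (nat_lit 52) (nat_lit 5) (nat_lit 493) (nat_lit 360) (nat_lit 287)) (XT.lf (nat_lit 0) (nat_lit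 1390227836) (nat_lit 152) (nat_lit 3494290306) (nat_lit 228) (nat_lit 10081205951) (nat_lit 49) (nat_lit 5) (nat_lit 51) (nat_lit 5) (nat_lit 52) (nat_lit 5) (nat_lit 494) (nat_lit 360) (nat_lit 286))) (XT.nd (nat_lit 78) (nat_lit 304) (nat_lit 0) (XT.lf (nat_lit 0) (nat_lit 9207032629) (nat_lit 228) (nat_lit 4716769777) (nat_lit 76) (nat_lit 1236730280) (nat_lit 49) (nat_lit 5) (nat_lit 52) (nat_lit 5) (nat_lit 50) (nat_lit 5) (nat_lit 495) (nat_lit 360) (nat_lit 285)) (XT.nd (nat_lit 78) (nat_lit 76) (nat_lit 0) (XT.lf (nat_lit 0) (nat_lit 4296370139) (nat_lit 228) (nat_lit 9338480761) (nat_lit 304) (nat_lit 1724013434) (nat_lit 46) (nat_lit 5) (nat_lit 49) (nat_lit 5) (nat_lit 50) (nat_lit 5) (nat_lit 496) (nat_lit 360) (nat_lit 284)) (XT.lf (nat_lit 0) (nat_lit 2555827894) (nat_lit 304) (nat_lit 2079875996) (nat_lit 76) (nat_lit 10925131511) (nat_lit 45) (nat_lit 5) (nat_lit 49) (nat_lit 5) (nat_lit 46) (nat_lit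 5) (nat_lit 497) (nat_lit 360) (nat_lit 283))))) (XT.nd (nat_lit 234) (nat_lit 380) (nat_lit 0) (XT.nd (nat_lit 78) (nat_lit 228) (nat_lit 0) (XT.lf (nat_lit 0) (nat_lit 6914139022) (nat_lit 228) (nat_lit 8658318223) (nat_lit 76) (nat_lit 193845306) (nat_lit 43) (nat_lit 5) (nat_lit 46) (nat_lit 5) (nat_lit 44) (nat_lit 5) (nat_lit 498) (nat_lit 360) (nat_lit 282)) (XT.nd (nat_lit 78) (nat_lit 0) (nat_lit 0) (XT.lf (nat_lit 0) (nat_lit 452287491) (nat_lit 228) (nat_lit 10923629171) (nat_lit 304) (nat_lit 4599640026) (nat_lit 40) (nat_lit 5) (nat_lit 43) (nat_lit 5) (nat_lit 44) (nat_lit 5) (nat_lit 499) (nat_lit 360) (nat_lit 281)) (XT.lf (nat_lit 0) (nat_lit 9807786146) (nat_lit 228) (nat_lit 6146120159) (nat_lit 304) (nat_lit 234553655) (nat_lit 40) (nat_lit 5) (nat_lit 43) (nat_lit 5) (nat_lit 44) (nat_lit 5) (nat_lit 500) (nat_lit 360) (nat_lit 280)))) (XT.nd (nat_lit 78) (nat_lit 152) (nat_lit 0) (XT.lf (nat_lit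 0) (nat_lit 2901416695) (nat_lit 152) (nat_lit 1249217341) (nat_lit 228) (nat_lit 12254680655) (nat_lit 37) (nat_lit 5) (nat_lit 39) (nat_lit 5) (nat_lit 40) (nat_lit 5) (nat_lit 501) (nat_lit 360) (nat_lit 279)) (XT.nd (nat_lit 78) (nat_lit 152) (nat_lit 0) (XT.lf (nat_lit 0) (nat_lit 8657190655) (nat_lit 228) (nat_lit 4250296451) (nat_lit 76) (nat_lit 3718255662) (nat_lit 37) (nat_lit 5) (nat_lit 40) (nat_lit 5) (nat_lit 38) (nat_lit 5) (nat_lit 502) (nat_lit 360) (nat_lit 278)) (XT.lf (nat_lit 0) (nat_lit 5195170102) (nat_lit 152) (nat_lit 8070694694) (nat_lit 228) (nat_lit 3584478188) (nat_lit 35) (nat_lit 5) (nat_lit 37) (nat_lit 5) (nat_lit 38) (nat_lit 5) (nat_lit 503) (nat_lit 360) (nat_lit 277)))))) (XT.nd (nat_lit 52806) (nat_lit 0) (nat_lit 24016) (XT.nd (nat_lit 156) (nat_lit 0) (nat_lit 0) (XT.nd (nat_lit 78) (nat_lit 152) (nat_lit 0) (XT.lf (nat_lit 0) (nat_lit 874379880) (nat_lit 228) (nat_lit 2250776563)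 (nat_lit 76) (nat_lit 13954191934) (nat_lit 34) (nat_lit 5) (nat_lit 37) (nat_lit 5) (nat_lit 35) (nat_lit 5) (nat_lit 504) (nat_lit 360) (nat_lit 276)) (XT.lf (nat_lit 0) (nat_lit 5405669970) (nat_lit 228) (nat_lit 9962432718) (nat_lit 76) (nat_lit 1943735417) (nat_lit 32) (nat_lit 5) (nat_lit 35) (nat_lit 5) (nat_lit 33) (nat_lit 5) (nat_lit 505) (nat_lit 360) (nat_lit 275))) (XT.nd (nat_lit 52494) (nat_lit 0) (nat_lit 28728) (XT.lf (nat_lit 0) (nat_lit 10034196239) (nat_lit 228) (nat_lit 449548100) (nat_lit 76) (nat_lit 7065104138) (nat_lit 32) (nat_lit 5) (nat_lit 35) (nat_lit 5) (nat_lit 33) (nat_lit 5) (nat_lit 506) (nat_lit 360) (nat_lit 274)) (XT.nd (nat_lit 78) (nat_lit 76) (nat_lit 0) (XT.lf (nat_lit 0) (nat_lit 509625893) (nat_lit 1748) (nat_lit 1533676992) (nat_lit 1748) (nat_lit 1533676992) (nat_lit 411) (nat_lit 4) (nat_lit 434) (nat_lit 5) (nat_lit 434) (nat_lit 4) (nat_lit 418) (nat_lit 361) (nat_lit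 361)) (XT.lf (nat_lit 0) (nat_lit 345719825) (nat_lit 1824) (nat_lit 987586570) (nat_lit 76) (nat_lit 5859465919) (nat_lit 410) (nat_lit 5) (nat_lit 434) (nat_lit 5) (nat_lit 411) (nat_lit 4) (nat_lit 419) (nat_lit 361) (nat_lit 360))))) (XT.nd (nat_lit 234) (nat_lit 1748) (nat_lit 0) (XT.nd (nat_lit 78) (nat_lit 1824) (nat_lit 0) (XT.lf (nat_lit 0) (nat_lit 3749771241) (nat_lit 1216) (nat_lit 3006523619) (nat_lit 0) (nat_lit 476414792) (nat_lit 395) (nat_lit 5) (nat_lit 411) (nat_lit 4) (nat_lit 395) (nat_lit 4) (nat_lit 420) (nat_lit 361) (nat_lit 359)) (XT.nd (nat_lit 78) (nat_lit 912) (nat_lit 0) (XT.lf (nat_lit 0) (nat_lit 2235617120) (nat_lit 912) (nat_lit 4950316584) (nat_lit 912) (nat_lit 88260634) (nat_lit 383) (nat_lit 4) (nat_lit 395) (nat_lit 5) (nat_lit 395) (nat_lit 4) (nat_lit 421) (nat_lit 361) (nat_lit 358)) (XT.lf (nat_lit 0) (nat_lit 218490812) (nat_lit 836) (nat_lit 3067694975) (nat_lit 912) (nat_lit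 4030790242) (nat_lit 371) (nat_lit 5) (nat_lit 382) (nat_lit 5) (nat_lit 383) (nat_lit 4) (nat_lit 422) (nat_lit 361) (nat_lit 357)))) (XT.nd (nat_lit 78) (nat_lit 1748) (nat_lit 0) (XT.lf (nat_lit 0) (nat_lit 5579282410) (nat_lit 836) (nat_lit 1116705337) (nat_lit 912) (nat_lit 665260490) (nat_lit 371) (nat_lit 5) (nat_lit 382) (nat_lit 5) (nat_lit 383) (nat_lit 4) (nat_lit 423) (nat_lit 361) (nat_lit 356)) (XT.nd (nat_lit 78) (nat_lit 836) (nat_lit 0) (XT.lf (nat_lit 0) (nat_lit 2696641631) (nat_lit 912) (nat_lit 3811293572) (nat_lit 76) (nat_lit 898830576) (nat_lit 359) (nat_lit 5) (nat_lit 371) (nat_lit 5) (nat_lit 360) (nat_lit 4) (nat_lit 424) (nat_lit 361) (nat_lit 355)) (XT.lf (nat_lit 0) (nat_lit 1591198598) (nat_lit 836) (nat_lit 4492287714) (nat_lit 912) (nat_lit 1370313100) (nat_lit 348) (nat_lit 5) (nat_lit 359) (nat_lit 5) (nat_lit 360) (nat_lit 4) (nat_lit 425) (nat_lit 361) (nat_lit 354))))))))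
noncomputable def xc46 : XT := (XT.nd (nat_lit 1716) (nat_lit 6764) (nat_lit 0) (XT.nd (nat_lit 858) (nat_lit 4940) (nat_lit 0) (XT.nd (nat_lit 390) (nat_lit 3572) (nat_lit 0) (XT.nd (nat_lit 156) (nat_lit 1672) (nat_lit 0) (XT.nd (nat_lit 78) (nat_lit 836) (nat_lit 0) (XT.lf (nat_lit 0) (nat_lit 1972525705) (nat_lit 912) (nat_lit 431101018) (nat_lit 76) (nat_lit 5098648740) (nat_lit 347) (nat_lit 5) (nat_lit 359) (nat_lit 5) (nat_lit 348) (nat_lit 5) (nat_lit 426) (nat_lit 361) (nat_lit 353)) (XT.lf (nat_lit 0) (nat_lit 5098336937) (nat_lit 836) (nat_lit 237079047) (nat_lit 912) (nat_lit 2216717471) (nat_lit 336) (nat_lit 5) (nat_lit 347) (nat_lit 5) (nat_lit 348) (nat_lit 5) (nat_lit 427) (nat_lit 361) (nat_lit 352))) (XT.nd (nat_lit 78) (nat_lit 836) (nat_lit 0) (XT.lf (nat_lit 0) (nat_lit 1122129093) (nat_lit 836) (nat_lit 4511016256) (nat_lit 76) (nat_lit 1970219761) (nat_lit 325) (nat_lit 5) (nat_lit 336) (nat_lit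 5) (nat_lit 326) (nat_lit 5) (nat_lit 428) (nat_lit 361) (nat_lit 351)) (XT.nd (nat_lit 78) (nat_lit 76) (nat_lit 0) (XT.lf (nat_lit 0) (nat_lit 1055270348) (nat_lit 760) (nat_lit 3407293566) (nat_lit 836) (nat_lit 3193497598) (nat_lit 315) (nat_lit 5) (nat_lit 325) (nat_lit 5) (nat_lit 326) (nat_lit 5) (nat_lit 429) (nat_lit 361) (nat_lit 350)) (XT.lf (nat_lit 0) (nat_lit 128157248) (nat_lit 836) (nat_lit 986376704) (nat_lit 76) (nat_lit 6595874046) (nat_lit 314) (nat_lit 5) (nat_lit 325) (nat_lit 5) (nat_lit 315) (nat_lit 5) (nat_lit 430) (nat_lit 361) (nat_lit 349))))) (XT.nd (nat_lit 234) (nat_lit 1368) (nat_lit 0) (XT.nd (nat_lit 78) (nat_lit 1520) (nat_lit 0) (XT.lf (nat_lit 0) (nat_lit 3453317252) (nat_lit 760) (nat_lit 3061846010) (nat_lit 76) (nat_lit 1250681012) (nat_lit 305) (nat_lit 5) (nat_lit 315) (nat_lit 5) (nat_lit 306) (nat_lit 5) (nat_lit 431) (nat_lit 361) (nat_lit 348)) (XT.nd (nat_lit 78) (nat_lit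 760) (nat_lit 0) (XT.lf (nat_lit 0) (nat_lit 2657460161) (nat_lit 760) (nat_lit 4160438435) (nat_lit 836) (nat_lit 1005053591) (nat_lit 295) (nat_lit 5) (nat_lit 305) (nat_lit 5) (nat_lit 306) (nat_lit 5) (nat_lit 432) (nat_lit 361) (nat_lit 347)) (XT.lf (nat_lit 0) (nat_lit 574283525) (nat_lit 684) (nat_lit 1729548434) (nat_lit 760) (nat_lit 5577756642) (nat_lit 285) (nat_lit 5) (nat_lit 294) (nat_lit 5) (nat_lit 295) (nat_lit 5) (nat_lit 433) (nat_lit 361) (nat_lit 346)))) (XT.nd (nat_lit 78) (nat_lit 1368) (nat_lit 0) (XT.lf (nat_lit 0) (nat_lit 5647741391) (nat_lit 760) (nat_lit 1523818014) (nat_lit 76) (nat_lit 770079440) (nat_lit 285) (nat_lit 5) (nat_lit 295) (nat_lit 5) (nat_lit 286) (nat_lit 5) (nat_lit 434) (nat_lit 361) (nat_lit 345)) (XT.nd (nat_lit 78) (nat_lit 608) (nat_lit 0) (XT.lf (nat_lit 0) (nat_lit 1025031376) (nat_lit 760) (nat_lit 3657878372) (nat_lit 76) (nat_lit 3320197789) (nat_lit 275) (nat_lit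 5) (nat_lit 285) (nat_lit 5) (nat_lit 276) (nat_lit 5) (nat_lit 435) (nat_lit 361) (nat_lit 344)) (XT.lf (nat_lit 0) (nat_lit 2231553201) (nat_lit 608) (nat_lit 2116810131) (nat_lit 684) (nat_lit 3717783113) (nat_lit 267) (nat_lit 5) (nat_lit 275) (nat_lit 5) (nat_lit 276) (nat_lit 5) (nat_lit 436) (nat_lit 361) (nat_lit 343)))))) (XT.nd (nat_lit 390) (nat_lit 2888) (nat_lit 0) (XT.nd (nat_lit 156) (nat_lit 1292) (nat_lit 0) (XT.nd (nat_lit 78) (nat_lit 76) (nat_lit 0) (XT.lf (nat_lit 0) (nat_lit 86369202) (nat_lit 684) (nat_lit 7624808693) (nat_lit 760) (nat_lit 419826437) (nat_lit 258) (nat_lit 5) (nat_lit 267) (nat_lit 5) (nat_lit 268) (nat_lit 5) (nat_lit 437) (nat_lit 361) (nat_lit 342)) (XT.lf (nat_lit 0) (nat_lit 2903661401) (nat_lit 760) (nat_lit 2094974348) (nat_lit 76) (nat_lit 3198195442) (nat_lit 257) (nat_lit 5) (nat_lit 267) (nat_lit 5) (nat_lit 258) (nat_lit 5) (nat_lit 438) (nat_lit 361) (nat_lit 341)))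 (XT.nd (nat_lit 78) (nat_lit 684) (nat_lit 0) (XT.lf (nat_lit 0) (nat_lit 3954085834) (nat_lit 608) (nat_lit 2305425958) (nat_lit 684) (nat_lit 2004994461) (nat_lit 249) (nat_lit 5) (nat_lit 257) (nat_lit 5) (nat_lit 258) (nat_lit 5) (nat_lit 439) (nat_lit 361) (nat_lit 340)) (XT.nd (nat_lit 78) (nat_lit 0) (nat_lit 0) (XT.lf (nat_lit 0) (nat_lit 1305942740) (nat_lit 684) (nat_lit 6572330231) (nat_lit 76) (nat_lit 455609655) (nat_lit 240) (nat_lit 5) (nat_lit 249) (nat_lit 5) (nat_lit 241) (nat_lit 5) (nat_lit 440) (nat_lit 361) (nat_lit 339)) (XT.lf (nat_lit 0) (nat_lit 4647259221) (nat_lit 684) (nat_lit 488895621) (nat_lit 76) (nat_lit 3268422921) (nat_lit 240) (nat_lit 5) (nat_lit 249) (nat_lit 5) (nat_lit 241) (nat_lit 5) (nat_lit 441) (nat_lit 361) (nat_lit 338))))) (XT.nd (nat_lit 234) (nat_lit 1140) (nat_lit 0) (XT.nd (nat_lit 78) (nat_lit 1216) (nat_lit 0) (XT.lf (nat_lit 0) (nat_lit 5723146440) (nat_lit 532)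 (nat_lit 2317059000) (nat_lit 608) (nat_lit 436801418) (nat_lit 233) (nat_lit 5) (nat_lit 240) (nat_lit 5) (nat_lit 241) (nat_lit 5) (nat_lit 442) (nat_lit 361) (nat_lit 337)) (XT.nd (nat_lit 78) (nat_lit 532) (nat_lit 0) (XT.lf (nat_lit 0) (nat_lit 2888979468) (nat_lit 684) (nat_lit 5081628262) (nat_lit 76) (nat_lit 580358321) (nat_lit 224) (nat_lit 5) (nat_lit 233) (nat_lit 5) (nat_lit 225) (nat_lit 5) (nat_lit 443) (nat_lit 361) (nat_lit 336)) (XT.lf (nat_lit 0) (nat_lit 1156227469) (nat_lit 532) (nat_lit 5109007534) (nat_lit 608) (nat_lit 2361330716) (nat_lit 217) (nat_lit 5) (nat_lit 224) (nat_lit 5) (nat_lit 225) (nat_lit 5) (nat_lit 444) (nat_lit 361) (nat_lit 335)))) (XT.nd (nat_lit 78) (nat_lit 1064) (nat_lit 0) (XT.lf (nat_lit 0) (nat_lit 975043211) (nat_lit 608) (nat_lit 1191141691) (nat_lit 76) (nat_lit 6537718732) (nat_lit 216) (nat_lit 5) (nat_lit 224) (nat_lit 5) (nat_lit 217) (nat_lit 5) (nat_lit 445)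 (nat_lit 361) (nat_lit 334)) (XT.nd (nat_lit 78) (nat_lit 532) (nat_lit 0) (XT.lf (nat_lit 0) (nat_lit 4335519113) (nat_lit 608) (nat_lit 3590044544) (nat_lit 76) (nat_lit 857146946) (nat_lit 209) (nat_lit 5) (nat_lit 217) (nat_lit 5) (nat_lit 210) (nat_lit 5) (nat_lit 446) (nat_lit 361) (nat_lit 333)) (XT.lf (nat_lit 0) (nat_lit 2811625202) (nat_lit 532) (nat_lit 4942236932) (nat_lit 608) (nat_lit 1109432461) (nat_lit 202) (nat_lit 5) (nat_lit 209) (nat_lit 5) (nat_lit 210) (nat_lit 5) (nat_lit 447) (nat_lit 361) (nat_lit 332))))))) (XT.nd (nat_lit 858) (nat_lit 2888) (nat_lit 0) (XT.nd (nat_lit 390) (nat_lit 2280) (nat_lit 0) (XT.nd (nat_lit 156) (nat_lit 988) (nat_lit 0) (XT.nd (nat_lit 78) (nat_lit 0) (nat_lit 0) (XT.lf (nat_lit 0) (nat_lit 366287087) (nat_lit 532) (nat_lit 1875533155) (nat_lit 608) (nat_lit 6703848713) (nat_lit 194) (nat_lit 5) (nat_lit 201) (nat_lit 5) (nat_lit 202) (nat_lit 5) (nat_lit 448) (nat_lit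 361) (nat_lit 331)) (XT.lf (nat_lit 0) (nat_lit 5644890801) (nat_lit 608) (nat_lit 2118858622) (nat_lit 76) (nat_lit 1265814978) (nat_lit 194) (nat_lit 5) (nat_lit 202) (nat_lit 5) (nat_lit 195) (nat_lit 5) (nat_lit 449) (nat_lit 361) (nat_lit 330))) (XT.nd (nat_lit 78) (nat_lit 532) (nat_lit 0) (XT.lf (nat_lit 0) (nat_lit 4449291500) (nat_lit 456) (nat_lit 4659631236) (nat_lit 532) (nat_lit 6369987) (nat_lit 188) (nat_lit 5) (nat_lit 194) (nat_lit 5) (nat_lit 195) (nat_lit 5) (nat_lit 450) (nat_lit 361) (nat_lit 329)) (XT.nd (nat_lit 78) (nat_lit 0) (nat_lit 0) (XT.lf (nat_lit 0) (nat_lit 1909973789) (nat_lit 456) (nat_lit 1462905335) (nat_lit 532) (nat_lit 5829852539) (nat_lit 181) (nat_lit 5) (nat_lit 187) (nat_lit 5) (nat_lit 188) (nat_lit 5) (nat_lit 451) (nat_lit 361) (nat_lit 328)) (XT.lf (nat_lit 0) (nat_lit 6814976087) (nat_lit 532) (nat_lit 690616950) (nat_lit 76) (nat_lit 1786430759) (nat_lit 181) (nat_lit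 5) (nat_lit 188) (nat_lit 5) (nat_lit 182) (nat_lit 5) (nat_lit 452) (nat_lit 361) (nat_lit 327))))) (XT.nd (nat_lit 234) (nat_lit 912) (nat_lit 0) (XT.nd (nat_lit 78) (nat_lit 836) (nat_lit 0) (XT.lf (nat_lit 0) (nat_lit 932490338) (nat_lit 532) (nat_lit 3342813050) (nat_lit 76) (nat_lit 5107646855) (nat_lit 174) (nat_lit 5) (nat_lit 181) (nat_lit 5) (nat_lit 175) (nat_lit 5) (nat_lit 453) (nat_lit 361) (nat_lit 326)) (XT.nd (nat_lit 78) (nat_lit 380) (nat_lit 0) (XT.lf (nat_lit 0) (nat_lit 3400451164) (nat_lit 456) (nat_lit 956639641) (nat_lit 532) (nat_lit 5118687676) (nat_lit 168) (nat_lit 5) (nat_lit 174) (nat_lit 5) (nat_lit 175) (nat_lit 5) (nat_lit 454) (nat_lit 361) (nat_lit 325)) (XT.lf (nat_lit 0) (nat_lit 679534911) (nat_lit 380) (nat_lit 7167025628) (nat_lit 456) (nat_lit 1723986488) (nat_lit 163) (nat_lit 5) (nat_lit 168) (nat_lit 5) (nat_lit 169) (nat_lit 5) (nat_lit 455) (nat_lit 361) (nat_lit 324))))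 (XT.nd (nat_lit 78) (nat_lit 836) (nat_lit 0) (XT.lf (nat_lit 0) (nat_lit 1716958627) (nat_lit 456) (nat_lit 2099964882) (nat_lit 76) (nat_lit 5850049479) (nat_lit 162) (nat_lit 5) (nat_lit 168) (nat_lit 5) (nat_lit 163) (nat_lit 5) (nat_lit 456) (nat_lit 361) (nat_lit 323)) (XT.nd (nat_lit 78) (nat_lit 380) (nat_lit 0) (XT.lf (nat_lit 0) (nat_lit 4812402869) (nat_lit 456) (nat_lit 377186873) (nat_lit 532) (nat_lit 4575801428) (nat_lit 156) (nat_lit 5) (nat_lit 162) (nat_lit 5) (nat_lit 163) (nat_lit 5) (nat_lit 457) (nat_lit 361) (nat_lit 322)) (XT.lf (nat_lit 0) (nat_lit 1964797193) (nat_lit 380) (nat_lit 6769159206) (nat_lit 456) (nat_lit 1131786089) (nat_lit 151) (nat_lit 5) (nat_lit 156) (nat_lit 5) (nat_lit 157) (nat_lit 5) (nat_lit 458) (nat_lit 361) (nat_lit 321)))))) (XT.nd (nat_lit 390) (nat_lit 1596) (nat_lit 0) (XT.nd (nat_lit 156) (nat_lit 836) (nat_lit 0) (XT.nd (nat_lit 78) (nat_lit 380) (nat_lit 0) (XT.lf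 (nat_lit 0) (nat_lit 2340994236) (nat_lit 456) (nat_lit 964239690) (nat_lit 76) (nat_lit 6662745466) (nat_lit 150) (nat_lit 5) (nat_lit 156) (nat_lit 5) (nat_lit 151) (nat_lit 5) (nat_lit 459) (nat_lit 361) (nat_lit 320)) (XT.lf (nat_lit 0) (nat_lit 5865506549) (nat_lit 456) (nat_lit 3955304054) (nat_lit 76) (nat_lit 251362016) (nat_lit 145) (nat_lit 5) (nat_lit 151) (nat_lit 5) (nat_lit 146) (nat_lit 5) (nat_lit 460) (nat_lit 361) (nat_lit 319))) (XT.nd (nat_lit 78) (nat_lit 456) (nat_lit 0) (XT.lf (nat_lit 0) (nat_lit 3127732160) (nat_lit 380) (nat_lit 6337825040) (nat_lit 456) (nat_lit 712801185) (nat_lit 140) (nat_lit 5) (nat_lit 145) (nat_lit 5) (nat_lit 146) (nat_lit 5) (nat_lit 461) (nat_lit 361) (nat_lit 318)) (XT.nd (nat_lit 78) (nat_lit 0) (nat_lit 0) (XT.lf (nat_lit 0) (nat_lit 35829795) (nat_lit 380) (nat_lit 2761146286) (nat_lit 456) (nat_lit 7489662329) (nat_lit 134) (nat_lit 5) (nat_lit 139) (nat_lit 5)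 (nat_lit 140) (nat_lit 5) (nat_lit 462) (nat_lit 361) (nat_lit 317)) (XT.lf (nat_lit 0) (nat_lit 6377558317) (nat_lit 456) (nat_lit 3113497147) (nat_lit 76) (nat_lit 905740340) (nat_lit 134) (nat_lit 5) (nat_lit 140) (nat_lit 5) (nat_lit 135) (nat_lit 5) (nat_lit 463) (nat_lit 361) (nat_lit 316))))) (XT.nd (nat_lit 234) (nat_lit 760) (nat_lit 0) (XT.nd (nat_lit 78) (nat_lit 456) (nat_lit 0) (XT.lf (nat_lit 0) (nat_lit 4137684308) (nat_lit 380) (nat_lit 5894824826) (nat_lit 456) (nat_lit 476600974) (nat_lit 129) (nat_lit 5) (nat_lit 134) (nat_lit 5) (nat_lit 135) (nat_lit 5) (nat_lit 464) (nat_lit 361) (nat_lit 315)) (XT.nd (nat_lit 78) (nat_lit 0) (nat_lit 0) (XT.lf (nat_lit 0) (nat_lit 878861580) (nat_lit 380) (nat_lit 2201356456) (nat_lit 456) (nat_lit 7543364470) (nat_lit 123) (nat_lit 5) (nat_lit 128) (nat_lit 5) (nat_lit 129) (nat_lit 5) (nat_lit 465) (nat_lit 361) (nat_lit 314)) (XT.lf (nat_lit 0) (nat_lit 6712998800)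 (nat_lit 456) (nat_lit 2457845987) (nat_lit 76) (nat_lit 1569220805) (nat_lit 123) (nat_lit 5) (nat_lit 129) (nat_lit 5) (nat_lit 124) (nat_lit 5) (nat_lit 466) (nat_lit 361) (nat_lit 313)))) (XT.nd (nat_lit 78) (nat_lit 456) (nat_lit 0) (XT.lf (nat_lit 0) (nat_lit 4961264659) (nat_lit 304) (nat_lit 5462779421) (nat_lit 380) (nat_lit 434730305) (nat_lit 119) (nat_lit 5) (nat_lit 123) (nat_lit 5) (nat_lit 124) (nat_lit 5) (nat_lit 467) (nat_lit 361) (nat_lit 312)) (XT.nd (nat_lit 78) (nat_lit 0) (nat_lit 0) (XT.lf (nat_lit 0) (nat_lit 1517244955) (nat_lit 380) (nat_lit 1655241964) (nat_lit 456) (nat_lit 7807251207) (nat_lit 113) (nat_lit 5) (nat_lit 118) (nat_lit 5) (nat_lit 119) (nat_lit 5) (nat_lit 468) (nat_lit 361) (nat_lit 311)) (XT.lf (nat_lit 0) (nat_lit 6859516239) (nat_lit 456) (nat_lit 2024075869) (nat_lit 76) (nat_lit 2219209534) (nat_lit 113) (nat_lit 5) (nat_lit 119) (nat_lit 5) (nat_lit 114) (nat_lit 5)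 (nat_lit 469) (nat_lit 361) (nat_lit 310))))))))
noncomputable def xc47 : XT := (XT.nd (nat_lit 1716) (nat_lit 1900) (nat_lit 0) (XT.nd (nat_lit 858) (nat_lit 1596) (nat_lit 0) (XT.nd (nat_lit 390) (nat_lit 1292) (nat_lit 0) (XT.nd (nat_lit 156) (nat_lit 684) (nat_lit 0) (XT.nd (nat_lit 78) (nat_lit 380) (nat_lit 0) (XT.lf (nat_lit 0) (nat_lit 5561982929) (nat_lit 304) (nat_lit 5065354924) (nat_lit 380) (nat_lit 600855140) (nat_lit 109) (nat_lit 5) (nat_lit 113) (nat_lit 5) (nat_lit 114) (nat_lit 5) (nat_lit 470) (nat_lit 361) (nat_lit 309)) (XT.lf (nat_lit 0) (nat_lit 1912922812) (nat_lit 304) (nat_lit 1146832763) (nat_lit 380) (nat_lit 8296215917) (nat_lit 104) (nat_lit 5) (nat_lit 108) (nat_lit 5) (nat_lit 109) (nat_lit 5) (nat_lit 471) (nat_lit 361) (nat_lit 308))) (XT.nd (nat_lit 78) (nat_lit 684) (nat_lit 0) (XT.lf (nat_lit 0) (nat_lit 6802629306) (nat_lit 380) (nat_lit 1851299970) (nat_lit 76) (nat_lit 2831962086)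 (nat_lit 104) (nat_lit 5) (nat_lit 109) (nat_lit 5) (nat_lit 105) (nat_lit 5) (nat_lit 472) (nat_lit 361) (nat_lit 307)) (XT.nd (nat_lit 78) (nat_lit 380) (nat_lit 0) (XT.lf (nat_lit 0) (nat_lit 5899846016) (nat_lit 304) (nat_lit 4727502567) (nat_lit 380) (nat_lit 990928303) (nat_lit 100) (nat_lit 5) (nat_lit 104) (nat_lit 5) (nat_lit 105) (nat_lit 5) (nat_lit 473) (nat_lit 361) (nat_lit 306)) (XT.lf (nat_lit 0) (nat_lit 2024160778) (nat_lit 304) (nat_lit 701528099) (nat_lit 380) (nat_lit 9027530922) (nat_lit 95) (nat_lit 5) (nat_lit 99) (nat_lit 5) (nat_lit 100) (nat_lit 5) (nat_lit 474) (nat_lit 361) (nat_lit 305))))) (XT.nd (nat_lit 234) (nat_lit 608) (nat_lit 0) (XT.nd (nat_lit 78) (nat_lit 684) (nat_lit 0) (XT.lf (nat_lit 0) (nat_lit 6525511013) (nat_lit 380) (nat_lit 1982445617) (nat_lit 76) (nat_lit 3382337728) (nat_lit 95) (nat_lit 5) (nat_lit 100) (nat_lit 5) (nat_lit 96) (nat_lit 5) (nat_lit 475) (nat_lit 361)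 (nat_lit 304)) (XT.nd (nat_lit 78) (nat_lit 380) (nat_lit 0) (XT.lf (nat_lit 0) (nat_lit 5930918896) (nat_lit 304) (nat_lit 4475714655) (nat_lit 380) (nat_lit 1623377263) (nat_lit 91) (nat_lit 5) (nat_lit 95) (nat_lit 5) (nat_lit 96) (nat_lit 5) (nat_lit 476) (nat_lit 361) (nat_lit 303)) (XT.lf (nat_lit 0) (nat_lit 1805091323) (nat_lit 304) (nat_lit 346359722) (nat_lit 380) (nat_lit 10021044959) (nat_lit 86) (nat_lit 5) (nat_lit 90) (nat_lit 5) (nat_lit 91) (nat_lit 5) (nat_lit 477) (nat_lit 361) (nat_lit 302)))) (XT.nd (nat_lit 78) (nat_lit 608) (nat_lit 0) (XT.lf (nat_lit 0) (nat_lit 6008789798) (nat_lit 380) (nat_lit 2464721042) (nat_lit 76) (nat_lit 3843536540) (nat_lit 86) (nat_lit 5) (nat_lit 91) (nat_lit 5) (nat_lit 87) (nat_lit 5) (nat_lit 478) (nat_lit 361) (nat_lit 301)) (XT.nd (nat_lit 78) (nat_lit 380) (nat_lit 0) (XT.lf (nat_lit 0) (nat_lit 5606843615) (nat_lit 228) (nat_lit 4338298920) (nat_lit 304) (nat_lit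 2519315894) (nat_lit 83) (nat_lit 5) (nat_lit 86) (nat_lit 5) (nat_lit 87) (nat_lit 5) (nat_lit 479) (nat_lit 361) (nat_lit 300)) (XT.lf (nat_lit 0) (nat_lit 1205214142) (nat_lit 304) (nat_lit 110274498) (nat_lit 380) (nat_lit 11299405528) (nat_lit 78) (nat_lit 5) (nat_lit 82) (nat_lit 5) (nat_lit 83) (nat_lit 5) (nat_lit 480) (nat_lit 361) (nat_lit 299)))))) (XT.nd (nat_lit 390) (nat_lit 836) (nat_lit 0) (XT.nd (nat_lit 156) (nat_lit 532) (nat_lit 0) (XT.nd (nat_lit 78) (nat_lit 228) (nat_lit 0) (XT.lf (nat_lit 0) (nat_lit 5230325728) (nat_lit 380) (nat_lit 3350127207) (nat_lit 76) (nat_lit 4186816875) (nat_lit 78) (nat_lit 5) (nat_lit 83) (nat_lit 5) (nat_lit 79) (nat_lit 5) (nat_lit 481) (nat_lit 361) (nat_lit 298)) (XT.lf (nat_lit 0) (nat_lit 4874311641) (nat_lit 228) (nat_lit 4345673926) (nat_lit 304) (nat_lit 3702782411) (nat_lit 75) (nat_lit 5) (nat_lit 78) (nat_lit 5) (nat_lit 79) (nat_lit 5) (nat_lit 482) (nat_lit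 361) (nat_lit 297))) (XT.nd (nat_lit 78) (nat_lit 228) (nat_lit 0) (XT.lf (nat_lit 0) (nat_lit 168847876) (nat_lit 228) (nat_lit 24439078) (nat_lit 304) (nat_lit 12888308393) (nat_lit 71) (nat_lit 5) (nat_lit 74) (nat_lit 5) (nat_lit 75) (nat_lit 5) (nat_lit 483) (nat_lit 361) (nat_lit 296)) (XT.nd (nat_lit 78) (nat_lit 228) (nat_lit 0) (XT.lf (nat_lit 0) (nat_lit 4164959509) (nat_lit 304) (nat_lit 4696019741) (nat_lit 76) (nat_lit 4381190479) (nat_lit 71) (nat_lit 5) (nat_lit 75) (nat_lit 5) (nat_lit 72) (nat_lit 5) (nat_lit 484) (nat_lit 361) (nat_lit 295)) (XT.lf (nat_lit 0) (nat_lit 3674484382) (nat_lit 228) (nat_lit 4530688289) (nat_lit 304) (nat_lit 5201005897) (nat_lit 68) (nat_lit 5) (nat_lit 71) (nat_lit 5) (nat_lit 72) (nat_lit 5) (nat_lit 485) (nat_lit 361) (nat_lit 294))))) (XT.nd (nat_lit 234) (nat_lit 304) (nat_lit 0) (XT.nd (nat_lit 78) (nat_lit 532) (nat_lit 0) (XT.lf (nat_lit 0) (nat_lit 12217851981)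 (nat_lit 228) (nat_lit 105245655) (nat_lit 304) (nat_lit 1250436809) (nat_lit 68) (nat_lit 5) (nat_lit 71) (nat_lit 5) (nat_lit 72) (nat_lit 5) (nat_lit 486) (nat_lit 361) (nat_lit 293)) (XT.nd (nat_lit 78) (nat_lit 228) (nat_lit 0) (XT.lf (nat_lit 0) (nat_lit 2784231748) (nat_lit 304) (nat_lit 6565726522) (nat_lit 76) (nat_lit 4393092365) (nat_lit 64) (nat_lit 5) (nat_lit 68) (nat_lit 5) (nat_lit 65) (nat_lit 5) (nat_lit 487) (nat_lit 361) (nat_lit 292)) (XT.lf (nat_lit 0) (nat_lit 1942356146) (nat_lit 228) (nat_lit 4928966813) (nat_lit 304) (nat_lit 7044704153) (nat_lit 61) (nat_lit 5) (nat_lit 64) (nat_lit 5) (nat_lit 65) (nat_lit 5) (nat_lit 488) (nat_lit 361) (nat_lit 291)))) (XT.nd (nat_lit 78) (nat_lit 304) (nat_lit 0) (XT.lf (nat_lit 0) (nat_lit 10652307860) (nat_lit 228) (nat_lit 398193803) (nat_lit 304) (nat_lit 3041759172) (nat_lit 61) (nat_lit 5) (nat_lit 64) (nat_lit 5) (nat_lit 65) (nat_lit 5) (nat_lit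 489) (nat_lit 361) (nat_lit 290)) (XT.nd (nat_lit 78) (nat_lit 0) (nat_lit 0) (XT.lf (nat_lit 0) (nat_lit 1056069606) (nat_lit 304) (nat_lit 9029227000) (nat_lit 76) (nat_lit 4186022249) (nat_lit 57) (nat_lit 5) (nat_lit 61) (nat_lit 5) (nat_lit 58) (nat_lit 5) (nat_lit 490) (nat_lit 361) (nat_lit 289)) (XT.lf (nat_lit 0) (nat_lit 5187897880) (nat_lit 304) (nat_lit 388780049) (nat_lit 76) (nat_lit 8877026907) (nat_lit 57) (nat_lit 5) (nat_lit 61) (nat_lit 5) (nat_lit 58) (nat_lit 5) (nat_lit 491) (nat_lit 361) (nat_lit 288))))))) (XT.nd (nat_lit 858) (nat_lit 380) (nat_lit 0) (XT.nd (nat_lit 390) (nat_lit 912) (nat_lit 0) (XT.nd (nat_lit 156) (nat_lit 228) (nat_lit 0) (XT.nd (nat_lit 78) (nat_lit 228) (nat_lit 0) (XT.lf (nat_lit 0) (nat_lit 8480049365) (nat_lit 152) (nat_lit 944881448) (nat_lit 228) (nat_lit 5214360640) (nat_lit 55) (nat_lit 5) (nat_lit 57) (nat_lit 5) (nat_lit 58) (nat_lit 5) (nat_lit 492) (nat_lit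 361) (nat_lit 287)) (XT.lf (nat_lit 0) (nat_lit 2657508388) (nat_lit 228) (nat_lit 11101254261) (nat_lit 304) (nat_lit 1069590182) (nat_lit 52) (nat_lit 5) (nat_lit 55) (nat_lit 5) (nat_lit 56) (nat_lit 5) (nat_lit 493) (nat_lit 361) (nat_lit 286))) (XT.nd (nat_lit 78) (nat_lit 152) (nat_lit 0) (XT.lf (nat_lit 0) (nat_lit 3132216543) (nat_lit 304) (nat_lit 3369163134) (nat_lit 76) (nat_lit 8519098513) (nat_lit 51) (nat_lit 5) (nat_lit 55) (nat_lit 5) (nat_lit 52) (nat_lit 5) (nat_lit 494) (nat_lit 361) (nat_lit 285)) (XT.nd (nat_lit 78) (nat_lit 0) (nat_lit 0) (XT.lf (nat_lit 0) (nat_lit 5620433560) (nat_lit 152) (nat_lit 1788139022) (nat_lit 228) (nat_lit 7807639326) (nat_lit 49) (nat_lit 5) (nat_lit 51) (nat_lit 5) (nat_lit 52) (nat_lit 5) (nat_lit 495) (nat_lit 361) (nat_lit 284)) (XT.lf (nat_lit 0) (nat_lit 11781266702) (nat_lit 228) (nat_lit 654539857) (nat_lit 76) (nat_lit 2979841399) (nat_lit 49) (nat_lit 5) (nat_lit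 52) (nat_lit 5) (nat_lit 50) (nat_lit 5) (nat_lit 496) (nat_lit 361) (nat_lit 283))))) (XT.nd (nat_lit 234) (nat_lit 456) (nat_lit 0) (XT.nd (nat_lit 78) (nat_lit 152) (nat_lit 0) (XT.lf (nat_lit 0) (nat_lit 650587337) (nat_lit 304) (nat_lit 7111116238) (nat_lit 76) (nat_lit 7856563913) (nat_lit 45) (nat_lit 5) (nat_lit 49) (nat_lit 5) (nat_lit 46) (nat_lit 5) (nat_lit 497) (nat_lit 361) (nat_lit 282)) (XT.nd (nat_lit 78) (nat_lit 0) (nat_lit 0) (XT.lf (nat_lit 0) (nat_lit 1984167364) (nat_lit 152) (nat_lit 2974893030) (nat_lit 228) (nat_lit 10865672813) (nat_lit 43) (nat_lit 5) (nat_lit 45) (nat_lit 5) (nat_lit 46) (nat_lit 5) (nat_lit 498) (nat_lit 361) (nat_lit 281)) (XT.lf (nat_lit 0) (nat_lit 9383353648) (nat_lit 228) (nat_lit 4743293691) (nat_lit 76) (nat_lit 1908091465) (nat_lit 43) (nat_lit 5) (nat_lit 46) (nat_lit 5) (nat_lit 44) (nat_lit 5) (nat_lit 499) (nat_lit 361) (nat_lit 280)))) (XT.nd (nat_lit 78) (nat_lit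 228) (nat_lit 0) (XT.lf (nat_lit 0) (nat_lit 4522628145) (nat_lit 228) (nat_lit 9392402770) (nat_lit 304) (nat_lit 2333539144) (nat_lit 40) (nat_lit 5) (nat_lit 43) (nat_lit 5) (nat_lit 44) (nat_lit 5) (nat_lit 500) (nat_lit 361) (nat_lit 279)) (XT.nd (nat_lit 78) (nat_lit 152) (nat_lit 0) (XT.lf (nat_lit 0) (nat_lit 2045429146) (nat_lit 304) (nat_lit 2494496348) (nat_lit 76) (nat_lit 11926448487) (nat_lit 39) (nat_lit 5) (nat_lit 43) (nat_lit 5) (nat_lit 40) (nat_lit 5) (nat_lit 501) (nat_lit 361) (nat_lit 278)) (XT.lf (nat_lit 0) (nat_lit 6499240529) (nat_lit 228) (nat_lit 9745545513) (nat_lit 76) (nat_lit 443072556) (nat_lit 37) (nat_lit 5) (nat_lit 40) (nat_lit 5) (nat_lit 38) (nat_lit 5) (nat_lit 502) (nat_lit 361) (nat_lit 277)))))) (XT.nd (nat_lit 52650) (nat_lit 0) (nat_lit 25764) (XT.nd (nat_lit 156) (nat_lit 228) (nat_lit 0) (XT.nd (nat_lit 78) (nat_lit 152) (nat_lit 0) (XT.lf (nat_lit 0) (nat_lit 11059615619)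 (nat_lit 228) (nat_lit 393971516) (nat_lit 76) (nat_lit 5459839266) (nat_lit 37) (nat_lit 5) (nat_lit 40) (nat_lit 5) (nat_lit 38) (nat_lit 5) (nat_lit 503) (nat_lit 361) (nat_lit 276)) (XT.lf (nat_lit 0) (nat_lit 9214474559) (nat_lit 152) (nat_lit 6527698668) (nat_lit 228) (nat_lit 1400716009) (nat_lit 35) (nat_lit 5) (nat_lit 37) (nat_lit 5) (nat_lit 38) (nat_lit 5) (nat_lit 504) (nat_lit 361) (nat_lit 275))) (XT.nd (nat_lit 78) (nat_lit 0) (nat_lit 0) (XT.lf (nat_lit 0) (nat_lit 1592960429) (nat_lit 152) (nat_lit 1491476159) (nat_lit 228) (nat_lit 14292415939) (nat_lit 32) (nat_lit 5) (nat_lit 34) (nat_lit 5) (nat_lit 35) (nat_lit 5) (nat_lit 505) (nat_lit 361) (nat_lit 274)) (XT.nd (nat_lit 52338) (nat_lit 0) (nat_lit 32300) (XT.lf (nat_lit 0) (nat_lit 7689063547) (nat_lit 228) (nat_lit 6286647536) (nat_lit 76) (nat_lit 3638631286) (nat_lit 32) (nat_lit 5) (nat_lit 35) (nat_lit 5) (nat_lit 33) (nat_lit 5) (nat_lit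 506) (nat_lit 361) (nat_lit 273)) (XT.lf (nat_lit 0) (nat_lit 2536842099) (nat_lit 1596) (nat_lit 501620340) (nat_lit 1596) (nat_lit 501620340) (nat_lit 457) (nat_lit 4) (nat_lit 478) (nat_lit 5) (nat_lit 478) (nat_lit 4) (nat_lit 416) (nat_lit 362) (nat_lit 362))))) (XT.nd (nat_lit 234) (nat_lit 2964) (nat_lit 0) (XT.nd (nat_lit 78) (nat_lit 1824) (nat_lit 0) (XT.lf (nat_lit 0) (nat_lit 2377983414) (nat_lit 1748) (nat_lit 4080377224) (nat_lit 0) (nat_lit 658323983) (nat_lit 434) (nat_lit 5) (nat_lit 457) (nat_lit 4) (nat_lit 434) (nat_lit 4) (nat_lit 417) (nat_lit 362) (nat_lit 361)) (XT.nd (nat_lit 78) (nat_lit 76) (nat_lit 0) (XT.lf (nat_lit 0) (nat_lit 985252649) (nat_lit 1748) (nat_lit 4787496410) (nat_lit 1748) (nat_lit 1381896360) (nat_lit 411) (nat_lit 4) (nat_lit 434) (nat_lit 5) (nat_lit 434) (nat_lit 4) (nat_lit 418) (nat_lit 362) (nat_lit 360)) (XT.lf (nat_lit 0) (nat_lit 1975980952) (nat_lit 1824) (nat_lit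 1067001484) (nat_lit 76) (nat_lit 4150933257) (nat_lit 410) (nat_lit 5) (nat_lit 434) (nat_lit 5) (nat_lit 411) (nat_lit 4) (nat_lit 419) (nat_lit 362) (nat_lit 359)))) (XT.nd (nat_lit 78) (nat_lit 1824) (nat_lit 0) (XT.lf (nat_lit 0) (nat_lit 4115348012) (nat_lit 1140) (nat_lit 1228367092) (nat_lit 1216) (nat_lit 1890878729) (nat_lit 395) (nat_lit 5) (nat_lit 410) (nat_lit 5) (nat_lit 411) (nat_lit 4) (nat_lit 420) (nat_lit 362) (nat_lit 358)) (XT.nd (nat_lit 78) (nat_lit 836) (nat_lit 0) (XT.lf (nat_lit 0) (nat_lit 1442880428) (nat_lit 988) (nat_lit 5190926631) (nat_lit 76) (nat_lit 642914005) (nat_lit 382) (nat_lit 5) (nat_lit 395) (nat_lit 5) (nat_lit 383) (nat_lit 4) (nat_lit 421) (nat_lit 362) (nat_lit 357)) (XT.lf (nat_lit 0) (nat_lit 29315917) (nat_lit 836) (nat_lit 4753787734) (nat_lit 912) (nat_lit 2537062579) (nat_lit 371) (nat_lit 5) (nat_lit 382) (nat_lit 5) (nat_lit 383) (nat_lit 4) (nat_lit 422) (nat_lit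 362) (nat_lit 356))))))))
noncomputable def xc48 : XT := (XT.nd (nat_lit 1638) (nat_lit 7296) (nat_lit 0) (XT.nd (nat_lit 780) (nat_lit 5320) (nat_lit 0) (XT.nd (nat_lit 390) (nat_lit 3192) (nat_lit 0) (XT.nd (nat_lit 156) (nat_lit 1748) (nat_lit 0) (XT.nd (nat_lit 78) (nat_lit 836) (nat_lit 0) (XT.lf (nat_lit 0) (nat_lit 785949385) (nat_lit 912) (nat_lit 2013692813) (nat_lit 76) (nat_lit 4565334801) (nat_lit 370) (nat_lit 5) (nat_lit 382) (nat_lit 5) (nat_lit 371) (nat_lit 5) (nat_lit 423) (nat_lit 362) (nat_lit 355)) (XT.lf (nat_lit 0) (nat_lit 3328561246) (nat_lit 836) (nat_lit 771848109) (nat_lit 912) (nat_lit 3310785982) (nat_lit 359) (nat_lit 5) (nat_lit 370) (nat_lit 5) (nat_lit 371) (nat_lit 5) (nat_lit 424) (nat_lit 362) (nat_lit 354))) (XT.nd (nat_lit 78) (nat_lit 912) (nat_lit 0) (XT.lf (nat_lit 0) (nat_lit 1287175318) (nat_lit 836) (nat_lit 6162439395) (nat_lit 912) (nat_lit 9379628) (nat_lit 348) (nat_lit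 5) (nat_lit 359) (nat_lit 5) (nat_lit 360) (nat_lit 4) (nat_lit 425) (nat_lit 362) (nat_lit 353)) (XT.nd (nat_lit 78) (nat_lit 836) (nat_lit 0) (XT.lf (nat_lit 0) (nat_lit 3285127247) (nat_lit 912) (nat_lit 783057548) (nat_lit 76) (nat_lit 3439730635) (nat_lit 347) (nat_lit 5) (nat_lit 359) (nat_lit 5) (nat_lit 348) (nat_lit 5) (nat_lit 426) (nat_lit 362) (nat_lit 352)) (XT.lf (nat_lit 0) (nat_lit 4708023894) (nat_lit 836) (nat_lit 1907574124) (nat_lit 912) (nat_lit 942835654) (nat_lit 336) (nat_lit 5) (nat_lit 347) (nat_lit 5) (nat_lit 348) (nat_lit 5) (nat_lit 427) (nat_lit 362) (nat_lit 351))))) (XT.nd (nat_lit 156) (nat_lit 1596) (nat_lit 0) (XT.nd (nat_lit 78) (nat_lit 760) (nat_lit 0) (XT.lf (nat_lit 0) (nat_lit 2335865110) (nat_lit 836) (nat_lit 4951114440) (nat_lit 76) (nat_lit 323400530) (nat_lit 325) (nat_lit 5) (nat_lit 336) (nat_lit 5) (nat_lit 326) (nat_lit 5) (nat_lit 428) (nat_lit 362) (nat_lit 350)) (XT.lf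 (nat_lit 0) (nat_lit 575096065) (nat_lit 760) (nat_lit 5068707755) (nat_lit 836) (nat_lit 2019933762) (nat_lit 315) (nat_lit 5) (nat_lit 325) (nat_lit 5) (nat_lit 326) (nat_lit 5) (nat_lit 429) (nat_lit 362) (nat_lit 349))) (XT.nd (nat_lit 78) (nat_lit 1520) (nat_lit 0) (XT.lf (nat_lit 0) (nat_lit 1257106262) (nat_lit 836) (nat_lit 1515802016) (nat_lit 76) (nat_lit 4945618608) (nat_lit 314) (nat_lit 5) (nat_lit 325) (nat_lit 5) (nat_lit 315) (nat_lit 5) (nat_lit 430) (nat_lit 362) (nat_lit 348)) (XT.nd (nat_lit 78) (nat_lit 836) (nat_lit 0) (XT.lf (nat_lit 0) (nat_lit 4142197883) (nat_lit 684) (nat_lit 399487829) (nat_lit 760) (nat_lit 3233099591) (nat_lit 305) (nat_lit 5) (nat_lit 314) (nat_lit 5) (nat_lit 315) (nat_lit 5) (nat_lit 431) (nat_lit 362) (nat_lit 347)) (XT.lf (nat_lit 0) (nat_lit 38270258) (nat_lit 836) (nat_lit 5785153730) (nat_lit 76) (nat_lit 2009172256) (nat_lit 294) (nat_lit 5) (nat_lit 305) (nat_lit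 5) (nat_lit 295) (nat_lit 5) (nat_lit 432) (nat_lit 362) (nat_lit 346)))))) (XT.nd (nat_lit 390) (nat_lit 3192) (nat_lit 0) (XT.nd (nat_lit 156) (nat_lit 1444) (nat_lit 0) (XT.nd (nat_lit 78) (nat_lit 684) (nat_lit 0) (XT.lf (nat_lit 0) (nat_lit 3302054867) (nat_lit 836) (nat_lit 93214931) (nat_lit 76) (nat_lit 4496480665) (nat_lit 294) (nat_lit 5) (nat_lit 305) (nat_lit 5) (nat_lit 295) (nat_lit 5) (nat_lit 433) (nat_lit 362) (nat_lit 345)) (XT.lf (nat_lit 0) (nat_lit 5720694022) (nat_lit 684) (nat_lit 891734740) (nat_lit 760) (nat_lit 1340052386) (nat_lit 285) (nat_lit 5) (nat_lit 294) (nat_lit 5) (nat_lit 295) (nat_lit 5) (nat_lit 434) (nat_lit 362) (nat_lit 344))) (XT.nd (nat_lit 78) (nat_lit 684) (nat_lit 0) (XT.lf (nat_lit 0) (nat_lit 1928130434) (nat_lit 760) (nat_lit 4420804922) (nat_lit 76) (nat_lit 1665664700) (nat_lit 275) (nat_lit 5) (nat_lit 285) (nat_lit 5) (nat_lit 276) (nat_lit 5) (nat_lit 435) (nat_lit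 362) (nat_lit 343)) (XT.nd (nat_lit 78) (nat_lit 76) (nat_lit 0) (XT.lf (nat_lit 0) (nat_lit 1424472001) (nat_lit 608) (nat_lit 3794536663) (nat_lit 684) (nat_lit 2859288542) (nat_lit 267) (nat_lit 5) (nat_lit 275) (nat_lit 5) (nat_lit 276) (nat_lit 5) (nat_lit 436) (nat_lit 362) (nat_lit 342)) (XT.lf (nat_lit 0) (nat_lit 401918331) (nat_lit 684) (nat_lit 767208863) (nat_lit 76) (nat_lit 6974599679) (nat_lit 266) (nat_lit 5) (nat_lit 275) (nat_lit 5) (nat_lit 267) (nat_lit 5) (nat_lit 437) (nat_lit 362) (nat_lit 341))))) (XT.nd (nat_lit 234) (nat_lit 1216) (nat_lit 0) (XT.nd (nat_lit 78) (nat_lit 1292) (nat_lit 0) (XT.lf (nat_lit 0) (nat_lit 3680414839) (nat_lit 760) (nat_lit 3000669389) (nat_lit 76) (nat_lit 1529213334) (nat_lit 257) (nat_lit 5) (nat_lit 267) (nat_lit 5) (nat_lit 258) (nat_lit 5) (nat_lit 438) (nat_lit 362) (nat_lit 340)) (XT.nd (nat_lit 78) (nat_lit 684) (nat_lit 0) (XT.lf (nat_lit 0) (nat_lit 3002582175)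 (nat_lit 608) (nat_lit 4001217391) (nat_lit 684) (nat_lit 1274830842) (nat_lit 249) (nat_lit 5) (nat_lit 257) (nat_lit 5) (nat_lit 258) (nat_lit 5) (nat_lit 439) (nat_lit 362) (nat_lit 339)) (XT.lf (nat_lit 0) (nat_lit 747434722) (nat_lit 608) (nat_lit 1243326109) (nat_lit 684) (nat_lit 6357874663) (nat_lit 240) (nat_lit 5) (nat_lit 248) (nat_lit 5) (nat_lit 249) (nat_lit 5) (nat_lit 440) (nat_lit 362) (nat_lit 338)))) (XT.nd (nat_lit 78) (nat_lit 1216) (nat_lit 0) (XT.lf (nat_lit 0) (nat_lit 5298086471) (nat_lit 684) (nat_lit 1543417097) (nat_lit 76) (nat_lit 1578514861) (nat_lit 240) (nat_lit 5) (nat_lit 249) (nat_lit 5) (nat_lit 241) (nat_lit 5) (nat_lit 441) (nat_lit 362) (nat_lit 337)) (XT.nd (nat_lit 78) (nat_lit 608) (nat_lit 0) (XT.lf (nat_lit 0) (nat_lit 163192003) (nat_lit 608) (nat_lit 3873070927) (nat_lit 76) (nat_lit 4456822252) (nat_lit 232) (nat_lit 5) (nat_lit 240) (nat_lit 5) (nat_lit 233) (nat_lit 5)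 (nat_lit 442) (nat_lit 362) (nat_lit 336)) (XT.lf (nat_lit 0) (nat_lit 2302644914) (nat_lit 608) (nat_lit 1143881755) (nat_lit 684) (nat_lit 5121202857) (nat_lit 224) (nat_lit 5) (nat_lit 232) (nat_lit 5) (nat_lit 233) (nat_lit 5) (nat_lit 443) (nat_lit 362) (nat_lit 335))))))) (XT.nd (nat_lit 858) (nat_lit 3040) (nat_lit 0) (XT.nd (nat_lit 390) (nat_lit 2508) (nat_lit 0) (XT.nd (nat_lit 156) (nat_lit 1140) (nat_lit 0) (XT.nd (nat_lit 78) (nat_lit 608) (nat_lit 0) (XT.lf (nat_lit 0) (nat_lit 6782779617) (nat_lit 684) (nat_lit 68392317) (nat_lit 76) (nat_lit 1792964686) (nat_lit 224) (nat_lit 5) (nat_lit 233) (nat_lit 5) (nat_lit 225) (nat_lit 5) (nat_lit 444) (nat_lit 362) (nat_lit 334)) (XT.lf (nat_lit 0) (nat_lit 1443042619) (nat_lit 608) (nat_lit 2471038539) (nat_lit 76) (nat_lit 4807843883) (nat_lit 216) (nat_lit 5) (nat_lit 224) (nat_lit 5) (nat_lit 217) (nat_lit 5) (nat_lit 445) (nat_lit 362) (nat_lit 333))) (XT.nd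 (nat_lit 78) (nat_lit 608) (nat_lit 0) (XT.lf (nat_lit 0) (nat_lit 3868187572) (nat_lit 532) (nat_lit 896580447) (nat_lit 608) (nat_lit 4036745948) (nat_lit 209) (nat_lit 5) (nat_lit 216) (nat_lit 5) (nat_lit 217) (nat_lit 5) (nat_lit 446) (nat_lit 362) (nat_lit 332)) (XT.nd (nat_lit 78) (nat_lit 76) (nat_lit 0) (XT.lf (nat_lit 0) (nat_lit 1422843456) (nat_lit 532) (nat_lit 6721167678) (nat_lit 608) (nat_lit 738875636) (nat_lit 202) (nat_lit 5) (nat_lit 209) (nat_lit 5) (nat_lit 210) (nat_lit 5) (nat_lit 447) (nat_lit 362) (nat_lit 331)) (XT.lf (nat_lit 0) (nat_lit 2580973806) (nat_lit 608) (nat_lit 1082513502) (nat_lit 76) (nat_lit 5302263120) (nat_lit 201) (nat_lit 5) (nat_lit 209) (nat_lit 5) (nat_lit 202) (nat_lit 5) (nat_lit 448) (nat_lit 362) (nat_lit 330))))) (XT.nd (nat_lit 234) (nat_lit 988) (nat_lit 0) (XT.nd (nat_lit 78) (nat_lit 988) (nat_lit 0) (XT.lf (nat_lit 0) (nat_lit 5423015124) (nat_lit 532) (nat_lit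 521674125) (nat_lit 608) (nat_lit 3105750145) (nat_lit 194) (nat_lit 5) (nat_lit 201) (nat_lit 5) (nat_lit 202) (nat_lit 5) (nat_lit 449) (nat_lit 362) (nat_lit 329)) (XT.nd (nat_lit 78) (nat_lit 456) (nat_lit 0) (XT.lf (nat_lit 0) (nat_lit 231727783) (nat_lit 532) (nat_lit 6247532575) (nat_lit 76) (nat_lit 2657623158) (nat_lit 187) (nat_lit 5) (nat_lit 194) (nat_lit 5) (nat_lit 188) (nat_lit 5) (nat_lit 450) (nat_lit 362) (nat_lit 328)) (XT.lf (nat_lit 0) (nat_lit 274076031) (nat_lit 456) (nat_lit 3302790555) (nat_lit 532) (nat_lit 5648141628) (nat_lit 181) (nat_lit 5) (nat_lit 187) (nat_lit 5) (nat_lit 188) (nat_lit 5) (nat_lit 451) (nat_lit 362) (nat_lit 327)))) (XT.nd (nat_lit 78) (nat_lit 988) (nat_lit 0) (XT.lf (nat_lit 0) (nat_lit 6944843273) (nat_lit 456) (nat_lit 39208929) (nat_lit 532) (nat_lit 2330952301) (nat_lit 181) (nat_lit 5) (nat_lit 187) (nat_lit 5) (nat_lit 188) (nat_lit 5) (nat_lit 452) (nat_lit 362)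 (nat_lit 326)) (XT.nd (nat_lit 78) (nat_lit 456) (nat_lit 0) (XT.lf (nat_lit 0) (nat_lit 1042156280) (nat_lit 532) (nat_lit 5101656908) (nat_lit 76) (nat_lit 3262794759) (nat_lit 174) (nat_lit 5) (nat_lit 181) (nat_lit 5) (nat_lit 175) (nat_lit 5) (nat_lit 453) (nat_lit 362) (nat_lit 325)) (XT.lf (nat_lit 0) (nat_lit 1585294518) (nat_lit 456) (nat_lit 2846994658) (nat_lit 532) (nat_lit 5067841949) (nat_lit 168) (nat_lit 5) (nat_lit 174) (nat_lit 5) (nat_lit 175) (nat_lit 5) (nat_lit 454) (nat_lit 362) (nat_lit 324)))))) (XT.nd (nat_lit 390) (nat_lit 1672) (nat_lit 0) (XT.nd (nat_lit 156) (nat_lit 912) (nat_lit 0) (XT.nd (nat_lit 78) (nat_lit 456) (nat_lit 0) (XT.lf (nat_lit 0) (nat_lit 7882562273) (nat_lit 532) (nat_lit 1189296485) (nat_lit 76) (nat_lit 523830325) (nat_lit 168) (nat_lit 5) (nat_lit 175) (nat_lit 5) (nat_lit 169) (nat_lit 5) (nat_lit 455) (nat_lit 362) (nat_lit 323)) (XT.lf (nat_lit 0) (nat_lit 1697366271)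 (nat_lit 456) (nat_lit 4042690334) (nat_lit 76) (nat_lit 3952668489) (nat_lit 162) (nat_lit 5) (nat_lit 168) (nat_lit 5) (nat_lit 163) (nat_lit 5) (nat_lit 456) (nat_lit 362) (nat_lit 322))) (XT.nd (nat_lit 78) (nat_lit 456) (nat_lit 0) (XT.lf (nat_lit 0) (nat_lit 2811303527) (nat_lit 456) (nat_lit 2323707795) (nat_lit 532) (nat_lit 4656836838) (nat_lit 156) (nat_lit 5) (nat_lit 162) (nat_lit 5) (nat_lit 163) (nat_lit 5) (nat_lit 457) (nat_lit 362) (nat_lit 321)) (XT.nd (nat_lit 78) (nat_lit 456) (nat_lit 0) (XT.lf (nat_lit 0) (nat_lit 8632147634) (nat_lit 532) (nat_lit 108182004) (nat_lit 76) (nat_lit 1152819507) (nat_lit 156) (nat_lit 5) (nat_lit 163) (nat_lit 5) (nat_lit 157) (nat_lit 5) (nat_lit 458) (nat_lit 362) (nat_lit 320)) (XT.lf (nat_lit 0) (nat_lit 2190993403) (nat_lit 456) (nat_lit 3097607741) (nat_lit 76) (nat_lit 4707256151) (nat_lit 150) (nat_lit 5) (nat_lit 156) (nat_lit 5) (nat_lit 151) (nat_lit 5)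 (nat_lit 459) (nat_lit 362) (nat_lit 319))))) (XT.nd (nat_lit 234) (nat_lit 836) (nat_lit 0) (XT.nd (nat_lit 78) (nat_lit 456) (nat_lit 0) (XT.lf (nat_lit 0) (nat_lit 3924674988) (nat_lit 380) (nat_lit 1753595985) (nat_lit 456) (nat_lit 4422529014) (nat_lit 145) (nat_lit 5) (nat_lit 150) (nat_lit 5) (nat_lit 151) (nat_lit 5) (nat_lit 460) (nat_lit 362) (nat_lit 318)) (XT.nd (nat_lit 78) (nat_lit 76) (nat_lit 0) (XT.lf (nat_lit 0) (nat_lit 856620765) (nat_lit 380) (nat_lit 8374378958) (nat_lit 456) (nat_lit 976937145) (nat_lit 140) (nat_lit 5) (nat_lit 145) (nat_lit 5) (nat_lit 146) (nat_lit 5) (nat_lit 461) (nat_lit 362) (nat_lit 317)) (XT.lf (nat_lit 0) (nat_lit 2514947194) (nat_lit 456) (nat_lit 2295580400) (nat_lit 76) (nat_lit 5506155233) (nat_lit 139) (nat_lit 5) (nat_lit 145) (nat_lit 5) (nat_lit 140) (nat_lit 5) (nat_lit 462) (nat_lit 362) (nat_lit 316)))) (XT.nd (nat_lit 78) (nat_lit 456) (nat_lit 0) (XT.lf (nat_lit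 0) (nat_lit 4895704350) (nat_lit 380) (nat_lit 1157847303) (nat_lit 456) (nat_lit 4374132530) (nat_lit 134) (nat_lit 5) (nat_lit 139) (nat_lit 5) (nat_lit 140) (nat_lit 5) (nat_lit 463) (nat_lit 362) (nat_lit 315)) (XT.nd (nat_lit 78) (nat_lit 76) (nat_lit 0) (XT.lf (nat_lit 0) (nat_lit 1662782492) (nat_lit 380) (nat_lit 8001558442) (nat_lit 456) (nat_lit 876545105) (nat_lit 129) (nat_lit 5) (nat_lit 134) (nat_lit 5) (nat_lit 135) (nat_lit 5) (nat_lit 464) (nat_lit 362) (nat_lit 314)) (XT.lf (nat_lit 0) (nat_lit 2659299066) (nat_lit 456) (nat_lit 1668293431) (nat_lit 76) (nat_lit 6328346430) (nat_lit 128) (nat_lit 5) (nat_lit 134) (nat_lit 5) (nat_lit 129) (nat_lit 5) (nat_lit 465) (nat_lit 362) (nat_lit 313))))))))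
noncomputable def xc49 : XT := (XT.nd (nat_lit 1716) (nat_lit 2432) (nat_lit 0) (XT.nd (nat_lit 858) (nat_lit 2052) (nat_lit 0) (XT.nd (nat_lit 390) (nat_lit 1368) (nat_lit 0) (XT.nd (nat_lit 156) (nat_lit 760) (nat_lit 0) (XT.nd (nat_lit 78) (nat_lit 304) (nat_lit 0) (XT.lf (nat_lit 0) (nat_lit 5692084160) (nat_lit 380) (nat_lit 558380963) (nat_lit 456) (nat_lit 4522793256) (nat_lit 123) (nat_lit 5) (nat_lit 128) (nat_lit 5) (nat_lit 129) (nat_lit 5) (nat_lit 466) (nat_lit 362) (nat_lit 312)) (XT.lf (nat_lit 0) (nat_lit 2275276961) (nat_lit 304) (nat_lit 7645181740) (nat_lit 380) (nat_lit 972333495) (nat_lit 119) (nat_lit 5) (nat_lit 123) (nat_lit 5) (nat_lit 124) (nat_lit 5) (nat_lit 467) (nat_lit 362) (nat_lit 311))) (XT.nd (nat_lit 78) (nat_lit 684) (nat_lit 0) (XT.lf (nat_lit 0) (nat_lit 2612153050) (nat_lit 380) (nat_lit 1250291026) (nat_lit 76) (nat_lit 7151981135) (nat_lit 118) (nat_lit 5) (nat_lit 123) (nat_lit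 5) (nat_lit 119) (nat_lit 5) (nat_lit 468) (nat_lit 362) (nat_lit 310)) (XT.nd (nat_lit 78) (nat_lit 304) (nat_lit 0) (XT.lf (nat_lit 0) (nat_lit 6256758685) (nat_lit 456) (nat_lit 4859937325) (nat_lit 76) (nat_lit 21644952) (nat_lit 113) (nat_lit 5) (nat_lit 119) (nat_lit 5) (nat_lit 114) (nat_lit 5) (nat_lit 469) (nat_lit 362) (nat_lit 309)) (XT.lf (nat_lit 0) (nat_lit 2657396654) (nat_lit 304) (nat_lit 7328900643) (nat_lit 380) (nat_lit 1278204362) (nat_lit 109) (nat_lit 5) (nat_lit 113) (nat_lit 5) (nat_lit 114) (nat_lit 5) (nat_lit 470) (nat_lit 362) (nat_lit 308))))) (XT.nd (nat_lit 234) (nat_lit 684) (nat_lit 0) (XT.nd (nat_lit 78) (nat_lit 608) (nat_lit 0) (XT.lf (nat_lit 0) (nat_lit 2359497760) (nat_lit 380) (nat_lit 1079352776) (nat_lit 76) (nat_lit 7954156966) (nat_lit 108) (nat_lit 5) (nat_lit 113) (nat_lit 5) (nat_lit 109) (nat_lit 5) (nat_lit 471) (nat_lit 362) (nat_lit 307)) (XT.nd (nat_lit 78) (nat_lit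 304) (nat_lit 0) (XT.lf (nat_lit 0) (nat_lit 6061078515) (nat_lit 380) (nat_lit 4910971432) (nat_lit 76) (nat_lit 551706759) (nat_lit 104) (nat_lit 5) (nat_lit 109) (nat_lit 5) (nat_lit 105) (nat_lit 5) (nat_lit 472) (nat_lit 362) (nat_lit 306)) (XT.lf (nat_lit 0) (nat_lit 2768913637) (nat_lit 304) (nat_lit 7077670140) (nat_lit 380) (nat_lit 1810346139) (nat_lit 100) (nat_lit 5) (nat_lit 104) (nat_lit 5) (nat_lit 105) (nat_lit 5) (nat_lit 473) (nat_lit 362) (nat_lit 305)))) (XT.nd (nat_lit 78) (nat_lit 608) (nat_lit 0) (XT.lf (nat_lit 0) (nat_lit 1885038064) (nat_lit 380) (nat_lit 1196904778) (nat_lit 76) (nat_lit 8710679261) (nat_lit 99) (nat_lit 5) (nat_lit 104) (nat_lit 5) (nat_lit 100) (nat_lit 5) (nat_lit 474) (nat_lit 362) (nat_lit 304)) (XT.nd (nat_lit 78) (nat_lit 304) (nat_lit 0) (XT.lf (nat_lit 0) (nat_lit 5642741129) (nat_lit 380) (nat_lit 5273826426) (nat_lit 76) (nat_lit 1013974698) (nat_lit 95) (nat_lit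 5) (nat_lit 100) (nat_lit 5) (nat_lit 96) (nat_lit 5) (nat_lit 475) (nat_lit 362) (nat_lit 303)) (XT.lf (nat_lit 0) (nat_lit 2565640476) (nat_lit 304) (nat_lit 6918003651) (nat_lit 380) (nat_lit 2587422119) (nat_lit 91) (nat_lit 5) (nat_lit 95) (nat_lit 5) (nat_lit 96) (nat_lit 5) (nat_lit 476) (nat_lit 362) (nat_lit 302)))))) (XT.nd (nat_lit 390) (nat_lit 1064) (nat_lit 0) (XT.nd (nat_lit 156) (nat_lit 608) (nat_lit 0) (XT.nd (nat_lit 78) (nat_lit 304) (nat_lit 0) (XT.lf (nat_lit 0) (nat_lit 1170004691) (nat_lit 380) (nat_lit 1648469546) (nat_lit 76) (nat_lit 9395806312) (nat_lit 90) (nat_lit 5) (nat_lit 95) (nat_lit 5) (nat_lit 91) (nat_lit 5) (nat_lit 477) (nat_lit 362) (nat_lit 301)) (XT.lf (nat_lit 0) (nat_lit 4982143191) (nat_lit 380) (nat_lit 5995975967) (nat_lit 76) (nat_lit 1381619737) (nat_lit 86) (nat_lit 5) (nat_lit 91) (nat_lit 5) (nat_lit 87) (nat_lit 5) (nat_lit 478) (nat_lit 362) (nat_lit 300))) (XT.nd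 (nat_lit 78) (nat_lit 380) (nat_lit 0) (XT.lf (nat_lit 0) (nat_lit 1998949188) (nat_lit 228) (nat_lit 6878246770) (nat_lit 304) (nat_lit 3630782894) (nat_lit 83) (nat_lit 5) (nat_lit 86) (nat_lit 5) (nat_lit 87) (nat_lit 5) (nat_lit 479) (nat_lit 362) (nat_lit 299)) (XT.nd (nat_lit 78) (nat_lit 304) (nat_lit 0) (XT.lf (nat_lit 0) (nat_lit 192939804) (nat_lit 304) (nat_lit 2484159137) (nat_lit 76) (nat_lit 9981975950) (nat_lit 82) (nat_lit 5) (nat_lit 86) (nat_lit 5) (nat_lit 83) (nat_lit 5) (nat_lit 480) (nat_lit 362) (nat_lit 298)) (XT.lf (nat_lit 0) (nat_lit 4056911688) (nat_lit 380) (nat_lit 7129704017) (nat_lit 76) (nat_lit 1625854870) (nat_lit 78) (nat_lit 5) (nat_lit 83) (nat_lit 5) (nat_lit 79) (nat_lit 5) (nat_lit 481) (nat_lit 362) (nat_lit 297))))) (XT.nd (nat_lit 234) (nat_lit 532) (nat_lit 0) (XT.nd (nat_lit 78) (nat_lit 304) (nat_lit 0) (XT.lf (nat_lit 0) (nat_lit 1015243500) (nat_lit 228) (nat_lit 6988872111)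 (nat_lit 304) (nat_lit 4964704937) (nat_lit 75) (nat_lit 5) (nat_lit 78) (nat_lit 5) (nat_lit 79) (nat_lit 5) (nat_lit 482) (nat_lit 362) (nat_lit 296)) (XT.nd (nat_lit 78) (nat_lit 304) (nat_lit 0) (XT.lf (nat_lit 0) (nat_lit 9361783275) (nat_lit 228) (nat_lit 2681488754) (nat_lit 304) (nat_lit 1084770642) (nat_lit 75) (nat_lit 5) (nat_lit 78) (nat_lit 5) (nat_lit 79) (nat_lit 5) (nat_lit 483) (nat_lit 362) (nat_lit 295)) (XT.lf (nat_lit 0) (nat_lit 2841652320) (nat_lit 304) (nat_lit 8732666912) (nat_lit 76) (nat_lit 1715630744) (nat_lit 71) (nat_lit 5) (nat_lit 75) (nat_lit 5) (nat_lit 72) (nat_lit 5) (nat_lit 484) (nat_lit 362) (nat_lit 294)))) (XT.nd (nat_lit 78) (nat_lit 532) (nat_lit 0) (XT.lf (nat_lit 0) (nat_lit 6841064066) (nat_lit 304) (nat_lit 438789489) (nat_lit 76) (nat_lit 6174923770) (nat_lit 71) (nat_lit 5) (nat_lit 75) (nat_lit 5) (nat_lit 72) (nat_lit 5) (nat_lit 485) (nat_lit 362) (nat_lit 293)) (XT.nd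 (nat_lit 78) (nat_lit 304) (nat_lit 0) (XT.lf (nat_lit 0) (nat_lit 8070498725) (nat_lit 228) (nat_lit 2868808142) (nat_lit 304) (nat_lit 2683222410) (nat_lit 68) (nat_lit 5) (nat_lit 71) (nat_lit 5) (nat_lit 72) (nat_lit 5) (nat_lit 486) (nat_lit 362) (nat_lit 292)) (XT.lf (nat_lit 0) (nat_lit 1307668148) (nat_lit 304) (nat_lit 10868511130) (nat_lit 76) (nat_lit 1617305965) (nat_lit 64) (nat_lit 5) (nat_lit 68) (nat_lit 5) (nat_lit 65) (nat_lit 5) (nat_lit 487) (nat_lit 362) (nat_lit 291))))))) (XT.nd (nat_lit 858) (nat_lit 988) (nat_lit 0) (XT.nd (nat_lit 390) (nat_lit 760) (nat_lit 0) (XT.nd (nat_lit 156) (nat_lit 456) (nat_lit 0) (XT.nd (nat_lit 78) (nat_lit 228) (nat_lit 0) (XT.lf (nat_lit 0) (nat_lit 5365642439) (nat_lit 304) (nat_lit 2413893580) (nat_lit 76) (nat_lit 6187510331) (nat_lit 64) (nat_lit 5) (nat_lit 68) (nat_lit 5) (nat_lit 65) (nat_lit 5) (nat_lit 488) (nat_lit 362) (nat_lit 290)) (XT.lf (nat_lit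 0) (nat_lit 6236172139) (nat_lit 228) (nat_lit 3276405375) (nat_lit 304) (nat_lit 4631349680) (nat_lit 61) (nat_lit 5) (nat_lit 64) (nat_lit 5) (nat_lit 65) (nat_lit 5) (nat_lit 489) (nat_lit 362) (nat_lit 289))) (XT.nd (nat_lit 78) (nat_lit 228) (nat_lit 0) (XT.lf (nat_lit 0) (nat_lit 713060220) (nat_lit 228) (nat_lit 13026324154) (nat_lit 304) (nat_lit 585027069) (nat_lit 58) (nat_lit 5) (nat_lit 61) (nat_lit 5) (nat_lit 62) (nat_lit 5) (nat_lit 490) (nat_lit 362) (nat_lit 288)) (XT.nd (nat_lit 78) (nat_lit 152) (nat_lit 0) (XT.lf (nat_lit 0) (nat_lit 3538389775) (nat_lit 304) (nat_lit 4994652348) (nat_lit 76) (nat_lit 5974155070) (nat_lit 57) (nat_lit 5) (nat_lit 61) (nat_lit 5) (nat_lit 58) (nat_lit 5) (nat_lit 491) (nat_lit 362) (nat_lit 287)) (XT.lf (nat_lit 0) (nat_lit 3785602214) (nat_lit 152) (nat_lit 3943572241) (nat_lit 228) (nat_lit 6964536397) (nat_lit 55) (nat_lit 5) (nat_lit 57) (nat_lit 5) (nat_lit 58)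 (nat_lit 5) (nat_lit 492) (nat_lit 362) (nat_lit 286))))) (XT.nd (nat_lit 234) (nat_lit 304) (nat_lit 0) (XT.nd (nat_lit 78) (nat_lit 456) (nat_lit 0) (XT.lf (nat_lit 0) (nat_lit 12010576024) (nat_lit 228) (nat_lit 2133813058) (nat_lit 76) (nat_lit 739433789) (nat_lit 55) (nat_lit 5) (nat_lit 58) (nat_lit 5) (nat_lit 56) (nat_lit 5) (nat_lit 493) (nat_lit 362) (nat_lit 285)) (XT.nd (nat_lit 78) (nat_lit 152) (nat_lit 0) (XT.lf (nat_lit 0) (nat_lit 1322405740) (nat_lit 304) (nat_lit 8259892034) (nat_lit 76) (nat_lit 5494482811) (nat_lit 51) (nat_lit 5) (nat_lit 55) (nat_lit 5) (nat_lit 52) (nat_lit 5) (nat_lit 494) (nat_lit 362) (nat_lit 284)) (XT.lf (nat_lit 0) (nat_lit 637784855) (nat_lit 152) (nat_lit 4913255473) (nat_lit 228) (nat_lit 9722430323) (nat_lit 49) (nat_lit 5) (nat_lit 51) (nat_lit 5) (nat_lit 52) (nat_lit 5) (nat_lit 495) (nat_lit 362) (nat_lit 283)))) (XT.nd (nat_lit 78) (nat_lit 304) (nat_lit 0) (XT.lf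 (nat_lit 0) (nat_lit 9772059040) (nat_lit 152) (nat_lit 116830398) (nat_lit 228) (nat_lit 5584716042) (nat_lit 49) (nat_lit 5) (nat_lit 51) (nat_lit 5) (nat_lit 52) (nat_lit 5) (nat_lit 496) (nat_lit 362) (nat_lit 282)) (XT.nd (nat_lit 78) (nat_lit 76) (nat_lit 0) (XT.lf (nat_lit 0) (nat_lit 3371751289) (nat_lit 228) (nat_lit 10964315572) (nat_lit 304) (nat_lit 1341228442) (nat_lit 46) (nat_lit 5) (nat_lit 49) (nat_lit 5) (nat_lit 50) (nat_lit 5) (nat_lit 497) (nat_lit 362) (nat_lit 281)) (XT.lf (nat_lit 0) (nat_lit 2956965174) (nat_lit 304) (nat_lit 3253712907) (nat_lit 76) (nat_lit 9673816274) (nat_lit 45) (nat_lit 5) (nat_lit 49) (nat_lit 5) (nat_lit 46) (nat_lit 5) (nat_lit 498) (nat_lit 362) (nat_lit 280)))))) (XT.nd (nat_lit 390) (nat_lit 380) (nat_lit 0) (XT.nd (nat_lit 156) (nat_lit 456) (nat_lit 0) (XT.nd (nat_lit 78) (nat_lit 0) (nat_lit 0) (XT.lf (nat_lit 0) (nat_lit 5997163041) (nat_lit 152) (nat_lit 1335274067)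 (nat_lit 228) (nat_lit 8763041008) (nat_lit 43) (nat_lit 5) (nat_lit 45) (nat_lit 5) (nat_lit 46) (nat_lit 5) (nat_lit 499) (nat_lit 362) (nat_lit 279)) (XT.lf (nat_lit 0) (nat_lit 11811439642) (nat_lit 228) (nat_lit 908718103) (nat_lit 76) (nat_lit 3590206825) (nat_lit 43) (nat_lit 5) (nat_lit 46) (nat_lit 5) (nat_lit 44) (nat_lit 5) (nat_lit 500) (nat_lit 362) (nat_lit 278))) (XT.nd (nat_lit 78) (nat_lit 228) (nat_lit 0) (XT.lf (nat_lit 0) (nat_lit 8516670581) (nat_lit 228) (nat_lit 7898494786) (nat_lit 304) (nat_lit 113683896) (nat_lit 40) (nat_lit 5) (nat_lit 43) (nat_lit 5) (nat_lit 44) (nat_lit 5) (nat_lit 501) (nat_lit 362) (nat_lit 277)) (XT.nd (nat_lit 78) (nat_lit 0) (nat_lit 0) (XT.lf (nat_lit 0) (nat_lit 1329487725) (nat_lit 152) (nat_lit 2958423228) (nat_lit 228) (nat_lit 12463513444) (nat_lit 37) (nat_lit 5) (nat_lit 39) (nat_lit 5) (nat_lit 40) (nat_lit 5) (nat_lit 502) (nat_lit 362) (nat_lit 276)) (XT.lf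 (nat_lit 0) (nat_lit 8814795095) (nat_lit 228) (nat_lit 6076406557) (nat_lit 76) (nat_lit 2086461940) (nat_lit 37) (nat_lit 5) (nat_lit 40) (nat_lit 5) (nat_lit 38) (nat_lit 5) (nat_lit 503) (nat_lit 362) (nat_lit 275))))) (XT.nd (nat_lit 52338) (nat_lit 0) (nat_lit 32224) (XT.nd (nat_lit 78) (nat_lit 228) (nat_lit 0) (XT.lf (nat_lit 0) (nat_lit 3431437152) (nat_lit 152) (nat_lit 10014365392) (nat_lit 228) (nat_lit 3762356430) (nat_lit 35) (nat_lit 5) (nat_lit 37) (nat_lit 5) (nat_lit 38) (nat_lit 5) (nat_lit 504) (nat_lit 362) (nat_lit 274)) (XT.nd (nat_lit 78) (nat_lit 152) (nat_lit 0) (XT.lf (nat_lit 0) (nat_lit 729445525) (nat_lit 228) (nat_lit 4285686547) (nat_lit 76) (nat_lit 12427784822) (nat_lit 34) (nat_lit 5) (nat_lit 37) (nat_lit 5) (nat_lit 35) (nat_lit 5) (nat_lit 505) (nat_lit 362) (nat_lit 273)) (XT.lf (nat_lit 0) (nat_lit 5268875620) (nat_lit 228) (nat_lit 12290639835) (nat_lit 76) (nat_lit 122196671)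 (nat_lit 32) (nat_lit 5) (nat_lit 35) (nat_lit 5) (nat_lit 33) (nat_lit 5) (nat_lit 506) (nat_lit 362) (nat_lit 272)))) (XT.nd (nat_lit 78) (nat_lit 1672) (nat_lit 0) (XT.lf (nat_lit 0) (nat_lit 540864508) (nat_lit 1596) (nat_lit 2423503382) (nat_lit 0) (nat_lit 540864508) (nat_lit 478) (nat_lit 5) (nat_lit 499) (nat_lit 4) (nat_lit 478) (nat_lit 4) (nat_lit 414) (nat_lit 363) (nat_lit 363)) (XT.nd (nat_lit 78) (nat_lit 76) (nat_lit 0) (XT.lf (nat_lit 0) (nat_lit 48173264) (nat_lit 1596) (nat_lit 4392953053) (nat_lit 1596) (nat_lit 2603819381) (nat_lit 457) (nat_lit 4) (nat_lit 478) (nat_lit 5) (nat_lit 478) (nat_lit 4) (nat_lit 415) (nat_lit 363) (nat_lit 362)) (XT.lf (nat_lit 0) (nat_lit 741839393) (nat_lit 1672) (nat_lit 2044670716) (nat_lit 76) (nat_lit 4294243977) (nat_lit 456) (nat_lit 5) (nat_lit 478) (nat_lit 5) (nat_lit 457) (nat_lit 4) (nat_lit 416) (nat_lit 363) (nat_lit 361))))))))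
noncomputable def xc50 : XT := (XT.nd (nat_lit 1716) (nat_lit 8512) (nat_lit 0) (XT.nd (nat_lit 858) (nat_lit 5928) (nat_lit 0) (XT.nd (nat_lit 390) (nat_lit 3572) (nat_lit 0) (XT.nd (nat_lit 156) (nat_lit 2128) (nat_lit 0) (XT.nd (nat_lit 78) (nat_lit 1824) (nat_lit 0) (XT.lf (nat_lit 0) (nat_lit 2962558817) (nat_lit 1672) (nat_lit 1109423628) (nat_lit 1748) (nat_lit 3045934240) (nat_lit 434) (nat_lit 5) (nat_lit 456) (nat_lit 5) (nat_lit 457) (nat_lit 4) (nat_lit 417) (nat_lit 363) (nat_lit 360)) (XT.lf (nat_lit 0) (nat_lit 266002391) (nat_lit 1824) (nat_lit 6275210798) (nat_lit 76) (nat_lit 615454496) (nat_lit 410) (nat_lit 5) (nat_lit 434) (nat_lit 5) (nat_lit 411) (nat_lit 4) (nat_lit 418) (nat_lit 363) (nat_lit 359))) (XT.nd (nat_lit 78) (nat_lit 2128) (nat_lit 0) (XT.lf (nat_lit 0) (nat_lit 3573313321) (nat_lit 1824) (nat_lit 1214916210) (nat_lit 76) (nat_lit 2408192293) (nat_lit 410) (nat_lit 5) (nat_lit 434)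 (nat_lit 5) (nat_lit 411) (nat_lit 4) (nat_lit 419) (nat_lit 363) (nat_lit 358)) (XT.nd (nat_lit 78) (nat_lit 988) (nat_lit 0) (XT.lf (nat_lit 0) (nat_lit 3932560990) (nat_lit 1140) (nat_lit 2975493271) (nat_lit 1216) (nat_lit 329719740) (nat_lit 395) (nat_lit 5) (nat_lit 410) (nat_lit 5) (nat_lit 411) (nat_lit 4) (nat_lit 420) (nat_lit 363) (nat_lit 357)) (XT.lf (nat_lit 0) (nat_lit 1858269729) (nat_lit 912) (nat_lit 1087946004) (nat_lit 988) (nat_lit 4334243377) (nat_lit 382) (nat_lit 5) (nat_lit 394) (nat_lit 5) (nat_lit 395) (nat_lit 5) (nat_lit 421) (nat_lit 363) (nat_lit 356))))) (XT.nd (nat_lit 234) (nat_lit 1824) (nat_lit 0) (XT.nd (nat_lit 78) (nat_lit 1748) (nat_lit 0) (XT.lf (nat_lit 0) (nat_lit 6247971817) (nat_lit 988) (nat_lit 228376840) (nat_lit 76) (nat_lit 848338319) (nat_lit 382) (nat_lit 5) (nat_lit 395) (nat_lit 5) (nat_lit 383) (nat_lit 4) (nat_lit 422) (nat_lit 363) (nat_lit 355)) (XT.nd (nat_lit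 78) (nat_lit 836) (nat_lit 0) (XT.lf (nat_lit 0) (nat_lit 2194599998) (nat_lit 912) (nat_lit 2321759568) (nat_lit 76) (nat_lit 2853612268) (nat_lit 370) (nat_lit 5) (nat_lit 382) (nat_lit 5) (nat_lit 371) (nat_lit 5) (nat_lit 423) (nat_lit 363) (nat_lit 354)) (XT.lf (nat_lit 0) (nat_lit 2983303035) (nat_lit 836) (nat_lit 2493092093) (nat_lit 912) (nat_lit 1940460926) (nat_lit 359) (nat_lit 5) (nat_lit 370) (nat_lit 5) (nat_lit 371) (nat_lit 5) (nat_lit 424) (nat_lit 363) (nat_lit 353)))) (XT.nd (nat_lit 78) (nat_lit 912) (nat_lit 0) (XT.lf (nat_lit 0) (nat_lit 898040588) (nat_lit 836) (nat_lit 403694379) (nat_lit 912) (nat_lit 6163582694) (nat_lit 347) (nat_lit 5) (nat_lit 358) (nat_lit 5) (nat_lit 359) (nat_lit 5) (nat_lit 425) (nat_lit 363) (nat_lit 352)) (XT.nd (nat_lit 78) (nat_lit 912) (nat_lit 0) (XT.lf (nat_lit 0) (nat_lit 4563612439) (nat_lit 912) (nat_lit 1209192933) (nat_lit 76) (nat_lit 1742094148) (nat_lit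 347) (nat_lit 5) (nat_lit 359) (nat_lit 5) (nat_lit 348) (nat_lit 5) (nat_lit 426) (nat_lit 363) (nat_lit 351)) (XT.lf (nat_lit 0) (nat_lit 291812192) (nat_lit 912) (nat_lit 3324788979) (nat_lit 76) (nat_lit 3949436168) (nat_lit 335) (nat_lit 5) (nat_lit 347) (nat_lit 5) (nat_lit 336) (nat_lit 5) (nat_lit 427) (nat_lit 363) (nat_lit 350)))))) (XT.nd (nat_lit 390) (nat_lit 2812) (nat_lit 0) (XT.nd (nat_lit 156) (nat_lit 1596) (nat_lit 0) (XT.nd (nat_lit 78) (nat_lit 760) (nat_lit 0) (XT.lf (nat_lit 0) (nat_lit 2141344223) (nat_lit 760) (nat_lit 1382160957) (nat_lit 836) (nat_lit 4095060160) (nat_lit 325) (nat_lit 5) (nat_lit 335) (nat_lit 5) (nat_lit 336) (nat_lit 5) (nat_lit 428) (nat_lit 363) (nat_lit 349)) (XT.lf (nat_lit 0) (nat_lit 17534571) (nat_lit 760) (nat_lit 6772512902) (nat_lit 836) (nat_lit 882714252) (nat_lit 315) (nat_lit 5) (nat_lit 325) (nat_lit 5) (nat_lit 326) (nat_lit 5) (nat_lit 429) (nat_lit 363)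 (nat_lit 348))) (XT.nd (nat_lit 78) (nat_lit 1520) (nat_lit 0) (XT.lf (nat_lit 0) (nat_lit 2350760616) (nat_lit 836) (nat_lit 2123060850) (nat_lit 76) (nat_lit 3254165431) (nat_lit 314) (nat_lit 5) (nat_lit 325) (nat_lit 5) (nat_lit 315) (nat_lit 5) (nat_lit 430) (nat_lit 363) (nat_lit 347)) (XT.nd (nat_lit 78) (nat_lit 836) (nat_lit 0) (XT.lf (nat_lit 0) (nat_lit 3493798297) (nat_lit 684) (nat_lit 2109243383) (nat_lit 760) (nat_lit 2181859927) (nat_lit 305) (nat_lit 5) (nat_lit 314) (nat_lit 5) (nat_lit 315) (nat_lit 5) (nat_lit 431) (nat_lit 363) (nat_lit 346)) (XT.lf (nat_lit 0) (nat_lit 1032069972) (nat_lit 836) (nat_lit 6492099134) (nat_lit 76) (nat_lit 319289914) (nat_lit 294) (nat_lit 5) (nat_lit 305) (nat_lit 5) (nat_lit 295) (nat_lit 5) (nat_lit 432) (nat_lit 363) (nat_lit 345))))) (XT.nd (nat_lit 234) (nat_lit 1368) (nat_lit 0) (XT.nd (nat_lit 78) (nat_lit 1444) (nat_lit 0) (XT.lf (nat_lit 0) (nat_lit 4268216489)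 (nat_lit 836) (nat_lit 833277440) (nat_lit 76) (nat_lit 2801681801) (nat_lit 294) (nat_lit 5) (nat_lit 305) (nat_lit 5) (nat_lit 295) (nat_lit 5) (nat_lit 433) (nat_lit 363) (nat_lit 344)) (XT.nd (nat_lit 78) (nat_lit 760) (nat_lit 0) (XT.lf (nat_lit 0) (nat_lit 4937897243) (nat_lit 684) (nat_lit 2608514537) (nat_lit 760) (nat_lit 418147747) (nat_lit 285) (nat_lit 5) (nat_lit 294) (nat_lit 5) (nat_lit 295) (nat_lit 5) (nat_lit 434) (nat_lit 363) (nat_lit 343)) (XT.lf (nat_lit 0) (nat_lit 2760413694) (nat_lit 684) (nat_lit 34127847) (nat_lit 760) (nat_lit 5232894401) (nat_lit 275) (nat_lit 5) (nat_lit 284) (nat_lit 5) (nat_lit 285) (nat_lit 5) (nat_lit 435) (nat_lit 363) (nat_lit 342)))) (XT.nd (nat_lit 78) (nat_lit 760) (nat_lit 0) (XT.lf (nat_lit 0) (nat_lit 533884634) (nat_lit 608) (nat_lit 5518851254) (nat_lit 684) (nat_lit 2039059870) (nat_lit 267) (nat_lit 5) (nat_lit 275) (nat_lit 5) (nat_lit 276) (nat_lit 5) (nat_lit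 436) (nat_lit 363) (nat_lit 341)) (XT.nd (nat_lit 78) (nat_lit 684) (nat_lit 0) (XT.lf (nat_lit 0) (nat_lit 1184837071) (nat_lit 684) (nat_lit 1709676646) (nat_lit 76) (nat_lit 5263144890) (nat_lit 266) (nat_lit 5) (nat_lit 275) (nat_lit 5) (nat_lit 267) (nat_lit 5) (nat_lit 437) (nat_lit 363) (nat_lit 340)) (XT.lf (nat_lit 0) (nat_lit 4232058399) (nat_lit 684) (nat_lit 188769059) (nat_lit 760) (nat_lit 3804260429) (nat_lit 257) (nat_lit 5) (nat_lit 266) (nat_lit 5) (nat_lit 267) (nat_lit 5) (nat_lit 438) (nat_lit 363) (nat_lit 339))))))) (XT.nd (nat_lit 858) (nat_lit 3724) (nat_lit 0) (XT.nd (nat_lit 390) (nat_lit 2280) (nat_lit 0) (XT.nd (nat_lit 156) (nat_lit 1824) (nat_lit 0) (XT.nd (nat_lit 78) (nat_lit 76) (nat_lit 0) (XT.lf (nat_lit 0) (nat_lit 1965165829) (nat_lit 608) (nat_lit 5745312723) (nat_lit 684) (nat_lit 583625157) (nat_lit 249) (nat_lit 5) (nat_lit 257) (nat_lit 5) (nat_lit 258) (nat_lit 5) (nat_lit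 439) (nat_lit 363) (nat_lit 338)) (XT.lf (nat_lit 0) (nat_lit 2642393785) (nat_lit 684) (nat_lit 352555334) (nat_lit 76) (nat_lit 5369688052) (nat_lit 248) (nat_lit 5) (nat_lit 257) (nat_lit 5) (nat_lit 249) (nat_lit 5) (nat_lit 440) (nat_lit 363) (nat_lit 337))) (XT.nd (nat_lit 78) (nat_lit 1216) (nat_lit 0) (XT.lf (nat_lit 0) (nat_lit 5749924618) (nat_lit 608) (nat_lit 161727204) (nat_lit 684) (nat_lit 2525137461) (nat_lit 240) (nat_lit 5) (nat_lit 248) (nat_lit 5) (nat_lit 249) (nat_lit 5) (nat_lit 441) (nat_lit 363) (nat_lit 336)) (XT.nd (nat_lit 78) (nat_lit 608) (nat_lit 0) (XT.lf (nat_lit 0) (nat_lit 718237777) (nat_lit 608) (nat_lit 5084598955) (nat_lit 76) (nat_lit 2707627763) (nat_lit 232) (nat_lit 5) (nat_lit 240) (nat_lit 5) (nat_lit 233) (nat_lit 5) (nat_lit 442) (nat_lit 363) (nat_lit 335)) (XT.lf (nat_lit 0) (nat_lit 1042046253) (nat_lit 608) (nat_lit 2926538494) (nat_lit 684) (nat_lit 4617191220) (nat_lit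 224) (nat_lit 5) (nat_lit 232) (nat_lit 5) (nat_lit 233) (nat_lit 5) (nat_lit 443) (nat_lit 363) (nat_lit 334))))) (XT.nd (nat_lit 234) (nat_lit 1140) (nat_lit 0) (XT.nd (nat_lit 78) (nat_lit 1140) (nat_lit 0) (XT.lf (nat_lit 0) (nat_lit 7268686297) (nat_lit 684) (nat_lit 1368233957) (nat_lit 76) (nat_lit 25993063) (nat_lit 224) (nat_lit 5) (nat_lit 233) (nat_lit 5) (nat_lit 225) (nat_lit 5) (nat_lit 444) (nat_lit 363) (nat_lit 333)) (XT.nd (nat_lit 78) (nat_lit 532) (nat_lit 0) (XT.lf (nat_lit 0) (nat_lit 1870963246) (nat_lit 608) (nat_lit 3842965741) (nat_lit 76) (nat_lit 3027380699) (nat_lit 216) (nat_lit 5) (nat_lit 224) (nat_lit 5) (nat_lit 217) (nat_lit 5) (nat_lit 445) (nat_lit 363) (nat_lit 332)) (XT.lf (nat_lit 0) (nat_lit 2445357207) (nat_lit 532) (nat_lit 2714098737) (nat_lit 608) (nat_lit 3662114135) (nat_lit 209) (nat_lit 5) (nat_lit 216) (nat_lit 5) (nat_lit 217) (nat_lit 5) (nat_lit 446) (nat_lit 363)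 (nat_lit 331)))) (XT.nd (nat_lit 78) (nat_lit 1140) (nat_lit 0) (XT.lf (nat_lit 0) (nat_lit 8493874385) (nat_lit 608) (nat_lit 59361144) (nat_lit 76) (nat_lit 350610525) (nat_lit 209) (nat_lit 5) (nat_lit 217) (nat_lit 5) (nat_lit 210) (nat_lit 5) (nat_lit 447) (nat_lit 363) (nat_lit 330)) (XT.nd (nat_lit 78) (nat_lit 532) (nat_lit 0) (XT.lf (nat_lit 0) (nat_lit 2881479679) (nat_lit 608) (nat_lit 2621172489) (nat_lit 76) (nat_lit 3484502942) (nat_lit 201) (nat_lit 5) (nat_lit 209) (nat_lit 5) (nat_lit 202) (nat_lit 5) (nat_lit 448) (nat_lit 363) (nat_lit 329)) (XT.lf (nat_lit 0) (nat_lit 3831556878) (nat_lit 532) (nat_lit 2380078639) (nat_lit 608) (nat_lit 2860886045) (nat_lit 194) (nat_lit 5) (nat_lit 201) (nat_lit 5) (nat_lit 202) (nat_lit 5) (nat_lit 449) (nat_lit 363) (nat_lit 328)))))) (XT.nd (nat_lit 390) (nat_lit 2204) (nat_lit 0) (XT.nd (nat_lit 156) (nat_lit 988) (nat_lit 0) (XT.nd (nat_lit 78) (nat_lit 0) (nat_lit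 0) (XT.lf (nat_lit 0) (nat_lit 427223321) (nat_lit 532) (nat_lit 7927134049) (nat_lit 76) (nat_lit 805505710) (nat_lit 187) (nat_lit 5) (nat_lit 194) (nat_lit 5) (nat_lit 188) (nat_lit 5) (nat_lit 450) (nat_lit 363) (nat_lit 327)) (XT.lf (nat_lit 0) (nat_lit 3747636139) (nat_lit 532) (nat_lit 1441345444) (nat_lit 76) (nat_lit 4059506644) (nat_lit 187) (nat_lit 5) (nat_lit 194) (nat_lit 5) (nat_lit 188) (nat_lit 5) (nat_lit 451) (nat_lit 363) (nat_lit 326))) (XT.nd (nat_lit 78) (nat_lit 532) (nat_lit 0) (XT.lf (nat_lit 0) (nat_lit 5178253638) (nat_lit 456) (nat_lit 1944381158) (nat_lit 532) (nat_lit 2216499275) (nat_lit 181) (nat_lit 5) (nat_lit 187) (nat_lit 5) (nat_lit 188) (nat_lit 5) (nat_lit 452) (nat_lit 363) (nat_lit 325)) (XT.nd (nat_lit 78) (nat_lit 0) (nat_lit 0) (XT.lf (nat_lit 0) (nat_lit 1108197155) (nat_lit 532) (nat_lit 6961341139) (nat_lit 76) (nat_lit 1362128169) (nat_lit 174) (nat_lit 5) (nat_lit 181)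 (nat_lit 5) (nat_lit 175) (nat_lit 5) (nat_lit 453) (nat_lit 363) (nat_lit 324)) (XT.lf (nat_lit 0) (nat_lit 4465799650) (nat_lit 532) (nat_lit 327050431) (nat_lit 76) (nat_lit 4732995647) (nat_lit 174) (nat_lit 5) (nat_lit 181) (nat_lit 5) (nat_lit 175) (nat_lit 5) (nat_lit 454) (nat_lit 363) (nat_lit 323))))) (XT.nd (nat_lit 234) (nat_lit 836) (nat_lit 0) (XT.nd (nat_lit 78) (nat_lit 912) (nat_lit 0) (XT.lf (nat_lit 0) (nat_lit 6461556868) (nat_lit 456) (nat_lit 1426910837) (nat_lit 532) (nat_lit 1733493453) (nat_lit 168) (nat_lit 5) (nat_lit 174) (nat_lit 5) (nat_lit 175) (nat_lit 5) (nat_lit 455) (nat_lit 363) (nat_lit 322)) (XT.nd (nat_lit 78) (nat_lit 456) (nat_lit 0) (XT.lf (nat_lit 0) (nat_lit 1632954995) (nat_lit 456) (nat_lit 6089171104) (nat_lit 76) (nat_lit 1997765112) (nat_lit 162) (nat_lit 5) (nat_lit 168) (nat_lit 5) (nat_lit 163) (nat_lit 5) (nat_lit 456) (nat_lit 363) (nat_lit 321)) (XT.lf (nat_lit 0)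 (nat_lit 705708367) (nat_lit 456) (nat_lit 4329658406) (nat_lit 532) (nat_lit 4784357231) (nat_lit 156) (nat_lit 5) (nat_lit 162) (nat_lit 5) (nat_lit 163) (nat_lit 5) (nat_lit 457) (nat_lit 363) (nat_lit 320)))) (XT.nd (nat_lit 78) (nat_lit 836) (nat_lit 0) (XT.lf (nat_lit 0) (nat_lit 7655816107) (nat_lit 456) (nat_lit 847759909) (nat_lit 532) (nat_lit 1418032476) (nat_lit 156) (nat_lit 5) (nat_lit 162) (nat_lit 5) (nat_lit 163) (nat_lit 5) (nat_lit 458) (nat_lit 363) (nat_lit 319)) (XT.nd (nat_lit 78) (nat_lit 380) (nat_lit 0) (XT.lf (nat_lit 0) (nat_lit 1994891979) (nat_lit 456) (nat_lit 5337756262) (nat_lit 76) (nat_lit 2692516162) (nat_lit 150) (nat_lit 5) (nat_lit 156) (nat_lit 5) (nat_lit 151) (nat_lit 5) (nat_lit 459) (nat_lit 363) (nat_lit 318)) (XT.lf (nat_lit 0) (nat_lit 1623225720) (nat_lit 380) (nat_lit 3823082746) (nat_lit 456) (nat_lit 4684520527) (nat_lit 145) (nat_lit 5) (nat_lit 150) (nat_lit 5) (nat_lit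 151) (nat_lit 5) (nat_lit 460) (nat_lit 363) (nat_lit 317))))))))
noncomputable def xc51 : XT := (XT.nd (nat_lit 1716) (nat_lit 3116) (nat_lit 0) (XT.nd (nat_lit 858) (nat_lit 2280) (nat_lit 0) (XT.nd (nat_lit 390) (nat_lit 1520) (nat_lit 0) (XT.nd (nat_lit 156) (nat_lit 836) (nat_lit 0) (XT.nd (nat_lit 78) (nat_lit 456) (nat_lit 0) (XT.lf (nat_lit 0) (nat_lit 8733339572) (nat_lit 380) (nat_lit 227400521) (nat_lit 456) (nat_lit 1277996307) (nat_lit 145) (nat_lit 5) (nat_lit 150) (nat_lit 5) (nat_lit 151) (nat_lit 5) (nat_lit 461) (nat_lit 363) (nat_lit 316)) (XT.lf (nat_lit 0) (nat_lit 2185680246) (nat_lit 456) (nat_lit 4736443415) (nat_lit 76) (nat_lit 3426045323) (nat_lit 139) (nat_lit 5) (nat_lit 145) (nat_lit 5) (nat_lit 140) (nat_lit 5) (nat_lit 462) (nat_lit 363) (nat_lit 315))) (XT.nd (nat_lit 78) (nat_lit 456) (nat_lit 0) (XT.lf (nat_lit 0) (nat_lit 2391271147) (nat_lit 380) (nat_lit 3296448920) (nat_lit 456)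 (nat_lit 4772185887) (nat_lit 134) (nat_lit 5) (nat_lit 139) (nat_lit 5) (nat_lit 140) (nat_lit 5) (nat_lit 463) (nat_lit 363) (nat_lit 314)) (XT.nd (nat_lit 78) (nat_lit 456) (nat_lit 0) (XT.lf (nat_lit 0) (nat_lit 9253656357) (nat_lit 456) (nat_lit 912655596) (nat_lit 76) (nat_lit 407697150) (nat_lit 134) (nat_lit 5) (nat_lit 140) (nat_lit 5) (nat_lit 135) (nat_lit 5) (nat_lit 464) (nat_lit 363) (nat_lit 313)) (XT.lf (nat_lit 0) (nat_lit 2195156174) (nat_lit 456) (nat_lit 4317111087) (nat_lit 76) (nat_lit 4177379549) (nat_lit 128) (nat_lit 5) (nat_lit 134) (nat_lit 5) (nat_lit 129) (nat_lit 5) (nat_lit 465) (nat_lit 363) (nat_lit 312))))) (XT.nd (nat_lit 234) (nat_lit 760) (nat_lit 0) (XT.nd (nat_lit 78) (nat_lit 380) (nat_lit 0) (XT.lf (nat_lit 0) (nat_lit 2977339630) (nat_lit 380) (nat_lit 2771639236) (nat_lit 456) (nat_lit 5058738253) (nat_lit 123) (nat_lit 5) (nat_lit 128) (nat_lit 5) (nat_lit 129) (nat_lit 5)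 (nat_lit 466) (nat_lit 363) (nat_lit 311)) (XT.nd (nat_lit 78) (nat_lit 380) (nat_lit 0) (XT.lf (nat_lit 0) (nat_lit 9370234694) (nat_lit 456) (nat_lit 519845696) (nat_lit 76) (nat_lit 1038149215) (nat_lit 123) (nat_lit 5) (nat_lit 129) (nat_lit 5) (nat_lit 124) (nat_lit 5) (nat_lit 467) (nat_lit 363) (nat_lit 310)) (XT.lf (nat_lit 0) (nat_lit 2011190312) (nat_lit 380) (nat_lit 4114514591) (nat_lit 76) (nat_lit 4924697174) (nat_lit 118) (nat_lit 5) (nat_lit 123) (nat_lit 5) (nat_lit 119) (nat_lit 5) (nat_lit 468) (nat_lit 363) (nat_lit 309)))) (XT.nd (nat_lit 78) (nat_lit 380) (nat_lit 0) (XT.lf (nat_lit 0) (nat_lit 3345950259) (nat_lit 380) (nat_lit 2271506355) (nat_lit 456) (nat_lit 5557631690) (nat_lit 113) (nat_lit 5) (nat_lit 118) (nat_lit 5) (nat_lit 119) (nat_lit 5) (nat_lit 469) (nat_lit 363) (nat_lit 308)) (XT.nd (nat_lit 78) (nat_lit 380) (nat_lit 0) (XT.lf (nat_lit 0) (nat_lit 9295949890) (nat_lit 456) (nat_lit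 361938222) (nat_lit 76) (nat_lit 1644385410) (nat_lit 113) (nat_lit 5) (nat_lit 119) (nat_lit 5) (nat_lit 114) (nat_lit 5) (nat_lit 470) (nat_lit 363) (nat_lit 307)) (XT.lf (nat_lit 0) (nat_lit 1619538623) (nat_lit 380) (nat_lit 4166662258) (nat_lit 76) (nat_lit 5645104292) (nat_lit 108) (nat_lit 5) (nat_lit 113) (nat_lit 5) (nat_lit 109) (nat_lit 5) (nat_lit 471) (nat_lit 363) (nat_lit 306)))))) (XT.nd (nat_lit 390) (nat_lit 1292) (nat_lit 0) (XT.nd (nat_lit 156) (nat_lit 684) (nat_lit 0) (XT.nd (nat_lit 78) (nat_lit 0) (nat_lit 0) (XT.lf (nat_lit 0) (nat_lit 3458258912) (nat_lit 304) (nat_lit 1820105560) (nat_lit 380) (nat_lit 6284548410) (nat_lit 104) (nat_lit 5) (nat_lit 108) (nat_lit 5) (nat_lit 109) (nat_lit 5) (nat_lit 472) (nat_lit 363) (nat_lit 305)) (XT.lf (nat_lit 0) (nat_lit 9015559166) (nat_lit 380) (nat_lit 478872422) (nat_lit 76) (nat_lit 2202624056) (nat_lit 104) (nat_lit 5) (nat_lit 109) (nat_lit 5)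 (nat_lit 105) (nat_lit 5) (nat_lit 473) (nat_lit 363) (nat_lit 304))) (XT.nd (nat_lit 78) (nat_lit 304) (nat_lit 0) (XT.lf (nat_lit 0) (nat_lit 1003673447) (nat_lit 380) (nat_lit 4515226508) (nat_lit 76) (nat_lit 6314396997) (nat_lit 99) (nat_lit 5) (nat_lit 104) (nat_lit 5) (nat_lit 100) (nat_lit 5) (nat_lit 474) (nat_lit 363) (nat_lit 303)) (XT.nd (nat_lit 78) (nat_lit 0) (nat_lit 0) (XT.lf (nat_lit 0) (nat_lit 3271634863) (nat_lit 304) (nat_lit 1442942285) (nat_lit 380) (nat_lit 7257579089) (nat_lit 95) (nat_lit 5) (nat_lit 99) (nat_lit 5) (nat_lit 100) (nat_lit 5) (nat_lit 475) (nat_lit 363) (nat_lit 302)) (XT.lf (nat_lit 0) (nat_lit 8511444044) (nat_lit 380) (nat_lit 914512592) (nat_lit 76) (nat_lit 2687607401) (nat_lit 95) (nat_lit 5) (nat_lit 100) (nat_lit 5) (nat_lit 96) (nat_lit 5) (nat_lit 476) (nat_lit 363) (nat_lit 301))))) (XT.nd (nat_lit 234) (nat_lit 608) (nat_lit 0) (XT.nd (nat_lit 78) (nat_lit 304) (nat_lit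 0) (XT.lf (nat_lit 0) (nat_lit 144592436) (nat_lit 380) (nat_lit 5205993777) (nat_lit 76) (nat_lit 6906807300) (nat_lit 90) (nat_lit 5) (nat_lit 95) (nat_lit 5) (nat_lit 91) (nat_lit 5) (nat_lit 477) (nat_lit 363) (nat_lit 300)) (XT.nd (nat_lit 78) (nat_lit 0) (nat_lit 0) (XT.lf (nat_lit 0) (nat_lit 2739197168) (nat_lit 304) (nat_lit 1167237205) (nat_lit 380) (nat_lit 8497426326) (nat_lit 86) (nat_lit 5) (nat_lit 90) (nat_lit 5) (nat_lit 91) (nat_lit 5) (nat_lit 478) (nat_lit 363) (nat_lit 299)) (XT.lf (nat_lit 0) (nat_lit 7763405525) (nat_lit 380) (nat_lit 1717122865) (nat_lit 76) (nat_lit 3072336747) (nat_lit 86) (nat_lit 5) (nat_lit 91) (nat_lit 5) (nat_lit 87) (nat_lit 5) (nat_lit 479) (nat_lit 363) (nat_lit 298)))) (XT.nd (nat_lit 78) (nat_lit 380) (nat_lit 0) (XT.lf (nat_lit 0) (nat_lit 6408761499) (nat_lit 228) (nat_lit 5303388931) (nat_lit 304) (nat_lit 992412194) (nat_lit 83) (nat_lit 5) (nat_lit 86) (nat_lit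 5) (nat_lit 87) (nat_lit 5) (nat_lit 480) (nat_lit 363) (nat_lit 297)) (XT.nd (nat_lit 78) (nat_lit 0) (nat_lit 0) (XT.lf (nat_lit 0) (nat_lit 1809306284) (nat_lit 304) (nat_lit 1022211380) (nat_lit 380) (nat_lit 10027633353) (nat_lit 78) (nat_lit 5) (nat_lit 82) (nat_lit 5) (nat_lit 83) (nat_lit 5) (nat_lit 481) (nat_lit 363) (nat_lit 296)) (XT.lf (nat_lit 0) (nat_lit 6748433975) (nat_lit 380) (nat_lit 2939888145) (nat_lit 76) (nat_lit 3327787254) (nat_lit 78) (nat_lit 5) (nat_lit 83) (nat_lit 5) (nat_lit 79) (nat_lit 5) (nat_lit 482) (nat_lit 363) (nat_lit 295))))))) (XT.nd (nat_lit 858) (nat_lit 1368) (nat_lit 0) (XT.nd (nat_lit 390) (nat_lit 988) (nat_lit 0) (XT.nd (nat_lit 156) (nat_lit 228) (nat_lit 0) (XT.nd (nat_lit 78) (nat_lit 304) (nat_lit 0) (XT.lf (nat_lit 0) (nat_lit 5339455626) (nat_lit 228) (nat_lit 5411886171) (nat_lit 304) (nat_lit 2424717254) (nat_lit 75) (nat_lit 5) (nat_lit 78) (nat_lit 5) (nat_lit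 79) (nat_lit 5) (nat_lit 483) (nat_lit 363) (nat_lit 294)) (XT.lf (nat_lit 0) (nat_lit 425005900) (nat_lit 228) (nat_lit 1039394187) (nat_lit 304) (nat_lit 11874840332) (nat_lit 71) (nat_lit 5) (nat_lit 74) (nat_lit 5) (nat_lit 75) (nat_lit 5) (nat_lit 484) (nat_lit 363) (nat_lit 293))) (XT.nd (nat_lit 78) (nat_lit 228) (nat_lit 0) (XT.lf (nat_lit 0) (nat_lit 5440451412) (nat_lit 304) (nat_lit 4641486283) (nat_lit 76) (nat_lit 3422599713) (nat_lit 71) (nat_lit 5) (nat_lit 75) (nat_lit 5) (nat_lit 72) (nat_lit 5) (nat_lit 485) (nat_lit 363) (nat_lit 292)) (XT.nd (nat_lit 78) (nat_lit 0) (nat_lit 0) (XT.lf (nat_lit 0) (nat_lit 3784256084) (nat_lit 228) (nat_lit 5710322738) (nat_lit 304) (nat_lit 4178595232) (nat_lit 68) (nat_lit 5) (nat_lit 71) (nat_lit 5) (nat_lit 72) (nat_lit 5) (nat_lit 486) (nat_lit 363) (nat_lit 291)) (XT.lf (nat_lit 0) (nat_lit 12386584455) (nat_lit 228) (nat_lit 1241741866) (nat_lit 304) (nat_lit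 216891083) (nat_lit 68) (nat_lit 5) (nat_lit 71) (nat_lit 5) (nat_lit 72) (nat_lit 5) (nat_lit 487) (nat_lit 363) (nat_lit 290))))) (XT.nd (nat_lit 234) (nat_lit 456) (nat_lit 0) (XT.nd (nat_lit 78) (nat_lit 228) (nat_lit 0) (XT.lf (nat_lit 0) (nat_lit 3810023528) (nat_lit 304) (nat_lit 6886717163) (nat_lit 76) (nat_lit 3322746318) (nat_lit 64) (nat_lit 5) (nat_lit 68) (nat_lit 5) (nat_lit 65) (nat_lit 5) (nat_lit 488) (nat_lit 363) (nat_lit 289)) (XT.nd (nat_lit 78) (nat_lit 0) (nat_lit 0) (XT.lf (nat_lit 0) (nat_lit 1676645693) (nat_lit 228) (nat_lit 6234844526) (nat_lit 304) (nat_lit 6285789204) (nat_lit 61) (nat_lit 5) (nat_lit 64) (nat_lit 5) (nat_lit 65) (nat_lit 5) (nat_lit 489) (nat_lit 363) (nat_lit 288)) (XT.lf (nat_lit 0) (nat_lit 10450638826) (nat_lit 228) (nat_lit 1658791639) (nat_lit 304) (nat_lit 2268912701) (nat_lit 61) (nat_lit 5) (nat_lit 64) (nat_lit 5) (nat_lit 65) (nat_lit 5) (nat_lit 490) (nat_lit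 363) (nat_lit 287)))) (XT.nd (nat_lit 78) (nat_lit 152) (nat_lit 0) (XT.lf (nat_lit 0) (nat_lit 1824038555) (nat_lit 304) (nat_lit 9747194886) (nat_lit 76) (nat_lit 2991167209) (nat_lit 57) (nat_lit 5) (nat_lit 61) (nat_lit 5) (nat_lit 58) (nat_lit 5) (nat_lit 491) (nat_lit 363) (nat_lit 286)) (XT.nd (nat_lit 78) (nat_lit 152) (nat_lit 0) (XT.lf (nat_lit 0) (nat_lit 5974784999) (nat_lit 304) (nat_lit 1043065973) (nat_lit 76) (nat_lit 7731866137) (nat_lit 57) (nat_lit 5) (nat_lit 61) (nat_lit 5) (nat_lit 58) (nat_lit 5) (nat_lit 492) (nat_lit 363) (nat_lit 285)) (XT.lf (nat_lit 0) (nat_lit 7886139211) (nat_lit 152) (nat_lit 2342993143) (nat_lit 228) (nat_lit 4711239854) (nat_lit 55) (nat_lit 5) (nat_lit 57) (nat_lit 5) (nat_lit 58) (nat_lit 5) (nat_lit 493) (nat_lit 363) (nat_lit 284)))))) (XT.nd (nat_lit 390) (nat_lit 608) (nat_lit 0) (XT.nd (nat_lit 156) (nat_lit 456) (nat_lit 0) (XT.nd (nat_lit 78) (nat_lit 76) (nat_lit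 0) (XT.lf (nat_lit 0) (nat_lit 1829002004) (nat_lit 228) (nat_lit 12743737612) (nat_lit 304) (nat_lit 562021287) (nat_lit 52) (nat_lit 5) (nat_lit 55) (nat_lit 5) (nat_lit 56) (nat_lit 5) (nat_lit 494) (nat_lit 363) (nat_lit 283)) (XT.lf (nat_lit 0) (nat_lit 3654773985) (nat_lit 304) (nat_lit 4438848121) (nat_lit 76) (nat_lit 7238287931) (nat_lit 51) (nat_lit 5) (nat_lit 55) (nat_lit 5) (nat_lit 52) (nat_lit 5) (nat_lit 495) (nat_lit 363) (nat_lit 282))) (XT.nd (nat_lit 78) (nat_lit 304) (nat_lit 0) (XT.lf (nat_lit 0) (nat_lit 4610557031) (nat_lit 152) (nat_lit 3337921166) (nat_lit 228) (nat_lit 7584451409) (nat_lit 49) (nat_lit 5) (nat_lit 51) (nat_lit 5) (nat_lit 52) (nat_lit 5) (nat_lit 496) (nat_lit 363) (nat_lit 281)) (XT.nd (nat_lit 78) (nat_lit 304) (nat_lit 0) (XT.lf (nat_lit 0) (nat_lit 12338131929) (nat_lit 228) (nat_lit 1897979325) (nat_lit 76) (nat_lit 1501660457) (nat_lit 49) (nat_lit 5) (nat_lit 52) (nat_lit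 5) (nat_lit 50) (nat_lit 5) (nat_lit 497) (nat_lit 363) (nat_lit 280)) (XT.lf (nat_lit 0) (nat_lit 898287376) (nat_lit 304) (nat_lit 8621570964) (nat_lit 76) (nat_lit 6425926709) (nat_lit 45) (nat_lit 5) (nat_lit 49) (nat_lit 5) (nat_lit 46) (nat_lit 5) (nat_lit 498) (nat_lit 363) (nat_lit 279))))) (XT.nd (nat_lit 234) (nat_lit 228) (nat_lit 0) (XT.nd (nat_lit 78) (nat_lit 228) (nat_lit 0) (XT.lf (nat_lit 0) (nat_lit 532512144) (nat_lit 152) (nat_lit 4691361644) (nat_lit 228) (nat_lit 10933894436) (nat_lit 43) (nat_lit 5) (nat_lit 45) (nat_lit 5) (nat_lit 46) (nat_lit 5) (nat_lit 499) (nat_lit 363) (nat_lit 278)) (XT.nd (nat_lit 78) (nat_lit 228) (nat_lit 0) (XT.lf (nat_lit 0) (nat_lit 9666732114) (nat_lit 228) (nat_lit 6439044913) (nat_lit 76) (nat_lit 267602205) (nat_lit 43) (nat_lit 5) (nat_lit 46) (nat_lit 5) (nat_lit 44) (nat_lit 5) (nat_lit 500) (nat_lit 363) (nat_lit 277)) (XT.lf (nat_lit 0) (nat_lit 2887838516)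 (nat_lit 228) (nat_lit 11332000405) (nat_lit 304) (nat_lit 2373039019) (nat_lit 40) (nat_lit 5) (nat_lit 43) (nat_lit 5) (nat_lit 44) (nat_lit 5) (nat_lit 501) (nat_lit 363) (nat_lit 276)))) (XT.nd (nat_lit 78) (nat_lit 152) (nat_lit 0) (XT.lf (nat_lit 0) (nat_lit 2035505689) (nat_lit 304) (nat_lit 4390848274) (nat_lit 76) (nat_lit 10389847710) (nat_lit 39) (nat_lit 5) (nat_lit 43) (nat_lit 5) (nat_lit 40) (nat_lit 5) (nat_lit 502) (nat_lit 363) (nat_lit 275)) (XT.nd (nat_lit 78) (nat_lit 0) (nat_lit 0) (XT.lf (nat_lit 0) (nat_lit 5112024764) (nat_lit 152) (nat_lit 1393817234) (nat_lit 228) (nat_lit 10537731368) (nat_lit 37) (nat_lit 5) (nat_lit 39) (nat_lit 5) (nat_lit 40) (nat_lit 5) (nat_lit 503) (nat_lit 363) (nat_lit 274)) (XT.lf (nat_lit 0) (nat_lit 11091792415) (nat_lit 228) (nat_lit 2483930587) (nat_lit 76) (nat_lit 3699248400) (nat_lit 37) (nat_lit 5) (nat_lit 40) (nat_lit 5) (nat_lit 38) (nat_lit 5) (nat_lit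 504) (nat_lit 363) (nat_lit 273))))))))
noncomputable def xc52 : XT := (XT.nd (nat_lit 53586) (nat_lit 0) (nat_lit 11172) (XT.nd (nat_lit 52728) (nat_lit 0) (nat_lit 21280) (XT.nd (nat_lit 52338) (nat_lit 0) (nat_lit 28576) (XT.nd (nat_lit 52104) (nat_lit 0) (nat_lit 33744) (XT.nd (nat_lit 78) (nat_lit 76) (nat_lit 0) (XT.lf (nat_lit 0) (nat_lit 7189635758) (nat_lit 152) (nat_lit 8608549165) (nat_lit 228) (nat_lit 1712241008) (nat_lit 35) (nat_lit 5) (nat_lit 37) (nat_lit 5) (nat_lit 38) (nat_lit 5) (nat_lit 505) (nat_lit 363) (nat_lit 272)) (XT.lf (nat_lit 0) (nat_lit 2800395259) (nat_lit 228) (nat_lit 726628884) (nat_lit 76) (nat_lit 14223405789) (nat_lit 34) (nat_lit 5) (nat_lit 37) (nat_lit 5) (nat_lit 35) (nat_lit 5) (nat_lit 506) (nat_lit 363) (nat_lit 271))) (XT.nd (nat_lit 78) (nat_lit 3040) (nat_lit 0) (XT.lf (nat_lit 0) (nat_lit 1595578697) (nat_lit 1444) (nat_lit 281284638) (nat_lit 0) (nat_lit 1595578697)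 (nat_lit 518) (nat_lit 5) (nat_lit 537) (nat_lit 4) (nat_lit 518) (nat_lit 4) (nat_lit 412) (nat_lit 364) (nat_lit 364)) (XT.nd (nat_lit 78) (nat_lit 1596) (nat_lit 0) (XT.lf (nat_lit 0) (nat_lit 4262711051) (nat_lit 1444) (nat_lit 2288011436) (nat_lit 1444) (nat_lit 426596764) (nat_lit 499) (nat_lit 4) (nat_lit 518) (nat_lit 5) (nat_lit 518) (nat_lit 4) (nat_lit 413) (nat_lit 364) (nat_lit 363)) (XT.lf (nat_lit 0) (nat_lit 2126339867) (nat_lit 1520) (nat_lit 751219977) (nat_lit 1596) (nat_lit 4133502946) (nat_lit 478) (nat_lit 5) (nat_lit 498) (nat_lit 5) (nat_lit 499) (nat_lit 4) (nat_lit 414) (nat_lit 364) (nat_lit 362))))) (XT.nd (nat_lit 156) (nat_lit 3496) (nat_lit 0) (XT.nd (nat_lit 78) (nat_lit 1672) (nat_lit 0) (XT.lf (nat_lit 0) (nat_lit 6198469958) (nat_lit 1596) (nat_lit 17492118) (nat_lit 0) (nat_lit 830367320) (nat_lit 478) (nat_lit 5) (nat_lit 499) (nat_lit 4) (nat_lit 478) (nat_lit 4) (nat_lit 415) (nat_lit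 364) (nat_lit 361)) (XT.lf (nat_lit 0) (nat_lit 2441568989) (nat_lit 1672) (nat_lit 2155792710) (nat_lit 76) (nat_lit 2485227423) (nat_lit 456) (nat_lit 5) (nat_lit 478) (nat_lit 5) (nat_lit 457) (nat_lit 4) (nat_lit 416) (nat_lit 364) (nat_lit 360))) (XT.nd (nat_lit 78) (nat_lit 1824) (nat_lit 0) (XT.lf (nat_lit 0) (nat_lit 2817735422) (nat_lit 1672) (nat_lit 2920600275) (nat_lit 1748) (nat_lit 1382098592) (nat_lit 434) (nat_lit 5) (nat_lit 456) (nat_lit 5) (nat_lit 457) (nat_lit 4) (nat_lit 417) (nat_lit 364) (nat_lit 359)) (XT.nd (nat_lit 78) (nat_lit 0) (nat_lit 0) (XT.lf (nat_lit 0) (nat_lit 692880212) (nat_lit 1748) (nat_lit 1177604418) (nat_lit 1824) (nat_lit 5289249700) (nat_lit 410) (nat_lit 5) (nat_lit 433) (nat_lit 5) (nat_lit 434) (nat_lit 5) (nat_lit 418) (nat_lit 364) (nat_lit 358)) (XT.lf (nat_lit 0) (nat_lit 5138343335) (nat_lit 1824) (nat_lit 1431388753) (nat_lit 76) (nat_lit 630559600) (nat_lit 410)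 (nat_lit 5) (nat_lit 434) (nat_lit 5) (nat_lit 411) (nat_lit 4) (nat_lit 419) (nat_lit 364) (nat_lit 357)))))) (XT.nd (nat_lit 390) (nat_lit 3420) (nat_lit 0) (XT.nd (nat_lit 156) (nat_lit 1748) (nat_lit 0) (XT.nd (nat_lit 78) (nat_lit 912) (nat_lit 0) (XT.lf (nat_lit 0) (nat_lit 1182242401) (nat_lit 1216) (nat_lit 3569141721) (nat_lit 76) (nat_lit 2490774411) (nat_lit 394) (nat_lit 5) (nat_lit 410) (nat_lit 5) (nat_lit 395) (nat_lit 5) (nat_lit 420) (nat_lit 364) (nat_lit 356)) (XT.lf (nat_lit 0) (nat_lit 1556184322) (nat_lit 912) (nat_lit 2864713907) (nat_lit 988) (nat_lit 2864575059) (nat_lit 382) (nat_lit 5) (nat_lit 394) (nat_lit 5) (nat_lit 395) (nat_lit 5) (nat_lit 421) (nat_lit 364) (nat_lit 355))) (XT.nd (nat_lit 78) (nat_lit 1672) (nat_lit 0) (XT.lf (nat_lit 0) (nat_lit 351372851) (nat_lit 988) (nat_lit 564675023) (nat_lit 76) (nat_lit 6414343625) (nat_lit 381) (nat_lit 5) (nat_lit 394) (nat_lit 5) (nat_lit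 382) (nat_lit 5) (nat_lit 422) (nat_lit 364) (nat_lit 354)) (XT.nd (nat_lit 78) (nat_lit 836) (nat_lit 0) (XT.lf (nat_lit 0) (nat_lit 3569968772) (nat_lit 912) (nat_lit 2701967589) (nat_lit 76) (nat_lit 1104384726) (nat_lit 370) (nat_lit 5) (nat_lit 382) (nat_lit 5) (nat_lit 371) (nat_lit 5) (nat_lit 423) (nat_lit 364) (nat_lit 353)) (XT.lf (nat_lit 0) (nat_lit 2565593807) (nat_lit 836) (nat_lit 4253631388) (nat_lit 912) (nat_lit 604643226) (nat_lit 359) (nat_lit 5) (nat_lit 370) (nat_lit 5) (nat_lit 371) (nat_lit 5) (nat_lit 424) (nat_lit 364) (nat_lit 352))))) (XT.nd (nat_lit 234) (nat_lit 1596) (nat_lit 0) (XT.nd (nat_lit 78) (nat_lit 912) (nat_lit 0) (XT.lf (nat_lit 0) (nat_lit 426240068) (nat_lit 836) (nat_lit 2161074537) (nat_lit 912) (nat_lit 4885508195) (nat_lit 347) (nat_lit 5) (nat_lit 358) (nat_lit 5) (nat_lit 359) (nat_lit 5) (nat_lit 425) (nat_lit 364) (nat_lit 351)) (XT.nd (nat_lit 78) (nat_lit 912) (nat_lit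 0) (XT.lf (nat_lit 0) (nat_lit 5808482650) (nat_lit 912) (nat_lit 1709674286) (nat_lit 76) (nat_lit 5073539) (nat_lit 347) (nat_lit 5) (nat_lit 359) (nat_lit 5) (nat_lit 348) (nat_lit 5) (nat_lit 426) (nat_lit 364) (nat_lit 350)) (XT.lf (nat_lit 0) (nat_lit 1479681665) (nat_lit 912) (nat_lit 3881094696) (nat_lit 76) (nat_lit 2214091587) (nat_lit 335) (nat_lit 5) (nat_lit 347) (nat_lit 5) (nat_lit 336) (nat_lit 5) (nat_lit 427) (nat_lit 364) (nat_lit 349)))) (XT.nd (nat_lit 78) (nat_lit 836) (nat_lit 0) (XT.lf (nat_lit 0) (nat_lit 1545091291) (nat_lit 760) (nat_lit 3133845523) (nat_lit 836) (nat_lit 2949118849) (nat_lit 325) (nat_lit 5) (nat_lit 335) (nat_lit 5) (nat_lit 336) (nat_lit 5) (nat_lit 428) (nat_lit 364) (nat_lit 348)) (XT.nd (nat_lit 78) (nat_lit 760) (nat_lit 0) (XT.lf (nat_lit 0) (nat_lit 225287920) (nat_lit 836) (nat_lit 616489771) (nat_lit 76) (nat_lit 6841140445) (nat_lit 324) (nat_lit 5) (nat_lit 335)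 (nat_lit 5) (nat_lit 325) (nat_lit 5) (nat_lit 429) (nat_lit 364) (nat_lit 347)) (XT.lf (nat_lit 0) (nat_lit 3409549195) (nat_lit 836) (nat_lit 2808391348) (nat_lit 76) (nat_lit 1520851199) (nat_lit 314) (nat_lit 5) (nat_lit 325) (nat_lit 5) (nat_lit 315) (nat_lit 5) (nat_lit 430) (nat_lit 364) (nat_lit 346))))))) (XT.nd (nat_lit 858) (nat_lit 4484) (nat_lit 0) (XT.nd (nat_lit 390) (nat_lit 2660) (nat_lit 0) (XT.nd (nat_lit 156) (nat_lit 1444) (nat_lit 0) (XT.nd (nat_lit 78) (nat_lit 836) (nat_lit 0) (XT.lf (nat_lit 0) (nat_lit 2766937960) (nat_lit 684) (nat_lit 3862635251) (nat_lit 760) (nat_lit 1166788506) (nat_lit 305) (nat_lit 5) (nat_lit 314) (nat_lit 5) (nat_lit 315) (nat_lit 5) (nat_lit 431) (nat_lit 364) (nat_lit 345)) (XT.lf (nat_lit 0) (nat_lit 566104446) (nat_lit 760) (nat_lit 1433117034) (nat_lit 836) (nat_lit 5856267710) (nat_lit 294) (nat_lit 5) (nat_lit 304) (nat_lit 5) (nat_lit 305) (nat_lit 5) (nat_lit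 432) (nat_lit 364) (nat_lit 344))) (XT.nd (nat_lit 78) (nat_lit 1444) (nat_lit 0) (XT.lf (nat_lit 0) (nat_lit 5198967083) (nat_lit 836) (nat_lit 1653726054) (nat_lit 76) (nat_lit 1063250320) (nat_lit 294) (nat_lit 5) (nat_lit 305) (nat_lit 5) (nat_lit 295) (nat_lit 5) (nat_lit 433) (nat_lit 364) (nat_lit 343)) (XT.nd (nat_lit 78) (nat_lit 684) (nat_lit 0) (XT.lf (nat_lit 0) (nat_lit 460885429) (nat_lit 760) (nat_lit 3906721033) (nat_lit 76) (nat_lit 3610312940) (nat_lit 284) (nat_lit 5) (nat_lit 294) (nat_lit 5) (nat_lit 285) (nat_lit 5) (nat_lit 434) (nat_lit 364) (nat_lit 342)) (XT.lf (nat_lit 0) (nat_lit 1833501462) (nat_lit 684) (nat_lit 1802138859) (nat_lit 760) (nat_lit 4405759194) (nat_lit 275) (nat_lit 5) (nat_lit 284) (nat_lit 5) (nat_lit 285) (nat_lit 5) (nat_lit 435) (nat_lit 364) (nat_lit 341))))) (XT.nd (nat_lit 234) (nat_lit 1292) (nat_lit 0) (XT.nd (nat_lit 78) (nat_lit 1368) (nat_lit 0) (XT.lf (nat_lit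 0) (nat_lit 6852732353) (nat_lit 760) (nat_lit 434780150) (nat_lit 76) (nat_lit 819077687) (nat_lit 275) (nat_lit 5) (nat_lit 285) (nat_lit 5) (nat_lit 276) (nat_lit 5) (nat_lit 436) (nat_lit 364) (nat_lit 340)) (XT.nd (nat_lit 78) (nat_lit 684) (nat_lit 0) (XT.lf (nat_lit 0) (nat_lit 1930829852) (nat_lit 684) (nat_lit 2736458407) (nat_lit 76) (nat_lit 3505649512) (nat_lit 266) (nat_lit 5) (nat_lit 275) (nat_lit 5) (nat_lit 267) (nat_lit 5) (nat_lit 437) (nat_lit 364) (nat_lit 339)) (XT.lf (nat_lit 0) (nat_lit 3159436232) (nat_lit 684) (nat_lit 1974898413) (nat_lit 760) (nat_lit 3106690422) (nat_lit 257) (nat_lit 5) (nat_lit 266) (nat_lit 5) (nat_lit 267) (nat_lit 5) (nat_lit 438) (nat_lit 364) (nat_lit 338)))) (XT.nd (nat_lit 78) (nat_lit 608) (nat_lit 0) (XT.lf (nat_lit 0) (nat_lit 67990100) (nat_lit 684) (nat_lit 7469949564) (nat_lit 76) (nat_lit 772983617) (nat_lit 248) (nat_lit 5) (nat_lit 257) (nat_lit 5) (nat_lit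 249) (nat_lit 5) (nat_lit 439) (nat_lit 364) (nat_lit 337)) (XT.nd (nat_lit 78) (nat_lit 608) (nat_lit 0) (XT.lf (nat_lit 0) (nat_lit 3261203123) (nat_lit 684) (nat_lit 1529522870) (nat_lit 76) (nat_lit 3591165820) (nat_lit 248) (nat_lit 5) (nat_lit 257) (nat_lit 5) (nat_lit 249) (nat_lit 5) (nat_lit 440) (nat_lit 364) (nat_lit 336)) (XT.lf (nat_lit 0) (nat_lit 4525360854) (nat_lit 608) (nat_lit 1972491224) (nat_lit 684) (nat_lit 1956851702) (nat_lit 240) (nat_lit 5) (nat_lit 248) (nat_lit 5) (nat_lit 249) (nat_lit 5) (nat_lit 441) (nat_lit 364) (nat_lit 335)))))) (XT.nd (nat_lit 390) (nat_lit 2128) (nat_lit 0) (XT.nd (nat_lit 156) (nat_lit 1748) (nat_lit 0) (XT.nd (nat_lit 78) (nat_lit 0) (nat_lit 0) (XT.lf (nat_lit 0) (nat_lit 1234282299) (nat_lit 608) (nat_lit 6386083606) (nat_lit 76) (nat_lit 908842428) (nat_lit 232) (nat_lit 5) (nat_lit 240) (nat_lit 5) (nat_lit 233) (nat_lit 5) (nat_lit 442) (nat_lit 364) (nat_lit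 334)) (XT.lf (nat_lit 0) (nat_lit 4453546895) (nat_lit 608) (nat_lit 305004683) (nat_lit 76) (nat_lit 3846597103) (nat_lit 232) (nat_lit 5) (nat_lit 240) (nat_lit 5) (nat_lit 233) (nat_lit 5) (nat_lit 443) (nat_lit 364) (nat_lit 333))) (XT.nd (nat_lit 78) (nat_lit 1140) (nat_lit 0) (XT.lf (nat_lit 0) (nat_lit 5912059703) (nat_lit 608) (nat_lit 1815365452) (nat_lit 684) (nat_lit 955392431) (nat_lit 224) (nat_lit 5) (nat_lit 232) (nat_lit 5) (nat_lit 233) (nat_lit 5) (nat_lit 444) (nat_lit 364) (nat_lit 332)) (XT.nd (nat_lit 78) (nat_lit 532) (nat_lit 0) (XT.lf (nat_lit 0) (nat_lit 2258972904) (nat_lit 608) (nat_lit 5307461310) (nat_lit 76) (nat_lit 1195630959) (nat_lit 216) (nat_lit 5) (nat_lit 224) (nat_lit 5) (nat_lit 217) (nat_lit 5) (nat_lit 445) (nat_lit 364) (nat_lit 331)) (XT.lf (nat_lit 0) (nat_lit 929368899) (nat_lit 532) (nat_lit 4584729645) (nat_lit 608) (nat_lit 3328901042) (nat_lit 209) (nat_lit 5) (nat_lit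 216) (nat_lit 5) (nat_lit 217) (nat_lit 5) (nat_lit 446) (nat_lit 364) (nat_lit 330))))) (XT.nd (nat_lit 234) (nat_lit 988) (nat_lit 0) (XT.nd (nat_lit 78) (nat_lit 1140) (nat_lit 0) (XT.lf (nat_lit 0) (nat_lit 7299447066) (nat_lit 532) (nat_lit 1523496387) (nat_lit 608) (nat_lit 102850126) (nat_lit 209) (nat_lit 5) (nat_lit 216) (nat_lit 5) (nat_lit 217) (nat_lit 5) (nat_lit 447) (nat_lit 364) (nat_lit 329)) (XT.nd (nat_lit 78) (nat_lit 532) (nat_lit 0) (XT.lf (nat_lit 0) (nat_lit 3141077531) (nat_lit 608) (nat_lit 4255097190) (nat_lit 76) (nat_lit 1613764242) (nat_lit 201) (nat_lit 5) (nat_lit 209) (nat_lit 5) (nat_lit 202) (nat_lit 5) (nat_lit 448) (nat_lit 364) (nat_lit 328)) (XT.lf (nat_lit 0) (nat_lit 2144201227) (nat_lit 532) (nat_lit 4293305335) (nat_lit 608) (nat_lit 2658479559) (nat_lit 194) (nat_lit 5) (nat_lit 201) (nat_lit 5) (nat_lit 202) (nat_lit 5) (nat_lit 449) (nat_lit 364) (nat_lit 327)))) (XT.nd (nat_lit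 78) (nat_lit 912) (nat_lit 0) (XT.lf (nat_lit 0) (nat_lit 590955120) (nat_lit 608) (nat_lit 521640734) (nat_lit 76) (nat_lit 8071431834) (nat_lit 193) (nat_lit 5) (nat_lit 201) (nat_lit 5) (nat_lit 194) (nat_lit 5) (nat_lit 450) (nat_lit 364) (nat_lit 326)) (XT.nd (nat_lit 78) (nat_lit 456) (nat_lit 0) (XT.lf (nat_lit 0) (nat_lit 3878193082) (nat_lit 532) (nat_lit 3251227924) (nat_lit 76) (nat_lit 2143901141) (nat_lit 187) (nat_lit 5) (nat_lit 194) (nat_lit 5) (nat_lit 188) (nat_lit 5) (nat_lit 451) (nat_lit 364) (nat_lit 325)) (XT.lf (nat_lit 0) (nat_lit 3312933051) (nat_lit 456) (nat_lit 3906092328) (nat_lit 532) (nat_lit 2145631639) (nat_lit 181) (nat_lit 5) (nat_lit 187) (nat_lit 5) (nat_lit 188) (nat_lit 5) (nat_lit 452) (nat_lit 364) (nat_lit 324))))))))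
noncomputable def xc53 : XT := (XT.nd (nat_lit 1716) (nat_lit 3648) (nat_lit 0) (XT.nd (nat_lit 858) (nat_lit 3040) (nat_lit 0) (XT.nd (nat_lit 390) (nat_lit 1748) (nat_lit 0) (XT.nd (nat_lit 156) (nat_lit 912) (nat_lit 0) (XT.nd (nat_lit 78) (nat_lit 0) (nat_lit 0) (XT.lf (nat_lit 0) (nat_lit 531547161) (nat_lit 456) (nat_lit 603006818) (nat_lit 532) (nat_lit 8323503335) (nat_lit 174) (nat_lit 5) (nat_lit 180) (nat_lit 5) (nat_lit 181) (nat_lit 5) (nat_lit 453) (nat_lit 364) (nat_lit 323)) (XT.lf (nat_lit 0) (nat_lit 4466439769) (nat_lit 532) (nat_lit 2319548732) (nat_lit 76) (nat_lit 2766767783) (nat_lit 174) (nat_lit 5) (nat_lit 181) (nat_lit 5) (nat_lit 175) (nat_lit 5) (nat_lit 454) (nat_lit 364) (nat_lit 322))) (XT.nd (nat_lit 78) (nat_lit 456) (nat_lit 0) (XT.lf (nat_lit 0) (nat_lit 4411540461) (nat_lit 456) (nat_lit 3442883192) (nat_lit 532) (nat_lit 1795147010) (nat_lit 168) (nat_lit 5) (nat_lit 174) (nat_lit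 5) (nat_lit 175) (nat_lit 5) (nat_lit 455) (nat_lit 364) (nat_lit 321)) (XT.nd (nat_lit 78) (nat_lit 0) (nat_lit 0) (XT.lf (nat_lit 0) (nat_lit 1508168735) (nat_lit 380) (nat_lit 15632300) (nat_lit 456) (nat_lit 8224678928) (nat_lit 162) (nat_lit 5) (nat_lit 167) (nat_lit 5) (nat_lit 168) (nat_lit 5) (nat_lit 456) (nat_lit 364) (nat_lit 320)) (XT.lf (nat_lit 0) (nat_lit 4900389830) (nat_lit 456) (nat_lit 1485467255) (nat_lit 76) (nat_lit 3462977094) (nat_lit 162) (nat_lit 5) (nat_lit 168) (nat_lit 5) (nat_lit 163) (nat_lit 5) (nat_lit 457) (nat_lit 364) (nat_lit 319))))) (XT.nd (nat_lit 234) (nat_lit 836) (nat_lit 0) (XT.nd (nat_lit 78) (nat_lit 456) (nat_lit 0) (XT.lf (nat_lit 0) (nat_lit 5414221073) (nat_lit 456) (nat_lit 2923680944) (nat_lit 532) (nat_lit 1613435456) (nat_lit 156) (nat_lit 5) (nat_lit 162) (nat_lit 5) (nat_lit 163) (nat_lit 5) (nat_lit 458) (nat_lit 364) (nat_lit 318)) (XT.nd (nat_lit 78) (nat_lit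 0) (nat_lit 0) (XT.lf (nat_lit 0) (nat_lit 1752613060) (nat_lit 456) (nat_lit 7685563741) (nat_lit 76) (nat_lit 617735406) (nat_lit 150) (nat_lit 5) (nat_lit 156) (nat_lit 5) (nat_lit 151) (nat_lit 5) (nat_lit 459) (nat_lit 364) (nat_lit 317)) (XT.lf (nat_lit 0) (nat_lit 5172982110) (nat_lit 456) (nat_lit 776377348) (nat_lit 76) (nat_lit 4212842874) (nat_lit 150) (nat_lit 5) (nat_lit 156) (nat_lit 5) (nat_lit 151) (nat_lit 5) (nat_lit 460) (nat_lit 364) (nat_lit 316)))) (XT.nd (nat_lit 78) (nat_lit 456) (nat_lit 0) (XT.lf (nat_lit 0) (nat_lit 6293112866) (nat_lit 380) (nat_lit 2368890102) (nat_lit 456) (nat_lit 1608619479) (nat_lit 145) (nat_lit 5) (nat_lit 150) (nat_lit 5) (nat_lit 151) (nat_lit 5) (nat_lit 461) (nat_lit 364) (nat_lit 315)) (XT.nd (nat_lit 78) (nat_lit 0) (nat_lit 0) (XT.lf (nat_lit 0) (nat_lit 1808813481) (nat_lit 456) (nat_lit 7288186364) (nat_lit 76) (nat_lit 1284114035) (nat_lit 139) (nat_lit 5)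 (nat_lit 145) (nat_lit 5) (nat_lit 140) (nat_lit 5) (nat_lit 462) (nat_lit 364) (nat_lit 314)) (XT.lf (nat_lit 0) (nat_lit 5275421508) (nat_lit 456) (nat_lit 221955416) (nat_lit 76) (nat_lit 4996186796) (nat_lit 139) (nat_lit 5) (nat_lit 145) (nat_lit 5) (nat_lit 140) (nat_lit 5) (nat_lit 463) (nat_lit 364) (nat_lit 313)))))) (XT.nd (nat_lit 390) (nat_lit 1444) (nat_lit 0) (XT.nd (nat_lit 156) (nat_lit 760) (nat_lit 0) (XT.nd (nat_lit 78) (nat_lit 456) (nat_lit 0) (XT.lf (nat_lit 0) (nat_lit 7017989641) (nat_lit 380) (nat_lit 1799515662) (nat_lit 456) (nat_lit 1790642770) (nat_lit 134) (nat_lit 5) (nat_lit 139) (nat_lit 5) (nat_lit 140) (nat_lit 5) (nat_lit 464) (nat_lit 364) (nat_lit 312)) (XT.lf (nat_lit 0) (nat_lit 1681901191) (nat_lit 456) (nat_lit 7080156568) (nat_lit 76) (nat_lit 1962775737) (nat_lit 128) (nat_lit 5) (nat_lit 134) (nat_lit 5) (nat_lit 129) (nat_lit 5) (nat_lit 465) (nat_lit 364) (nat_lit 311)))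 (XT.nd (nat_lit 78) (nat_lit 380) (nat_lit 0) (XT.lf (nat_lit 0) (nat_lit 147451708) (nat_lit 380) (nat_lit 5050567841) (nat_lit 456) (nat_lit 5645642257) (nat_lit 123) (nat_lit 5) (nat_lit 128) (nat_lit 5) (nat_lit 129) (nat_lit 5) (nat_lit 466) (nat_lit 364) (nat_lit 310)) (XT.nd (nat_lit 78) (nat_lit 380) (nat_lit 0) (XT.lf (nat_lit 0) (nat_lit 7555930142) (nat_lit 380) (nat_lit 1237371771) (nat_lit 456) (nat_lit 2171395683) (nat_lit 123) (nat_lit 5) (nat_lit 128) (nat_lit 5) (nat_lit 129) (nat_lit 5) (nat_lit 467) (nat_lit 364) (nat_lit 309)) (XT.lf (nat_lit 0) (nat_lit 1359512075) (nat_lit 380) (nat_lit 7096447906) (nat_lit 76) (nat_lit 2631919875) (nat_lit 118) (nat_lit 5) (nat_lit 123) (nat_lit 5) (nat_lit 119) (nat_lit 5) (nat_lit 468) (nat_lit 364) (nat_lit 308))))) (XT.nd (nat_lit 234) (nat_lit 684) (nat_lit 0) (XT.nd (nat_lit 78) (nat_lit 380) (nat_lit 0) (XT.lf (nat_lit 0) (nat_lit 294671915) (nat_lit 380)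 (nat_lit 4632514600) (nat_lit 456) (nat_lit 6286155018) (nat_lit 113) (nat_lit 5) (nat_lit 118) (nat_lit 5) (nat_lit 119) (nat_lit 5) (nat_lit 469) (nat_lit 364) (nat_lit 307)) (XT.nd (nat_lit 78) (nat_lit 380) (nat_lit 0) (XT.lf (nat_lit 0) (nat_lit 7870957625) (nat_lit 380) (nat_lit 705301999) (nat_lit 456) (nat_lit 2764859075) (nat_lit 113) (nat_lit 5) (nat_lit 118) (nat_lit 5) (nat_lit 119) (nat_lit 5) (nat_lit 470) (nat_lit 364) (nat_lit 306)) (XT.lf (nat_lit 0) (nat_lit 827168021) (nat_lit 380) (nat_lit 7375304671) (nat_lit 76) (nat_lit 3268655232) (nat_lit 108) (nat_lit 5) (nat_lit 113) (nat_lit 5) (nat_lit 109) (nat_lit 5) (nat_lit 471) (nat_lit 364) (nat_lit 305)))) (XT.nd (nat_lit 78) (nat_lit 380) (nat_lit 0) (XT.lf (nat_lit 0) (nat_lit 177671013) (nat_lit 304) (nat_lit 4268768260) (nat_lit 380) (nat_lit 7157090791) (nat_lit 104) (nat_lit 5) (nat_lit 108) (nat_lit 5) (nat_lit 109) (nat_lit 5) (nat_lit 472)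 (nat_lit 364) (nat_lit 304)) (XT.nd (nat_lit 78) (nat_lit 380) (nat_lit 0) (XT.lf (nat_lit 0) (nat_lit 7923646366) (nat_lit 304) (nat_lit 227413214) (nat_lit 380) (nat_lit 3587268008) (nat_lit 104) (nat_lit 5) (nat_lit 108) (nat_lit 5) (nat_lit 109) (nat_lit 5) (nat_lit 473) (nat_lit 364) (nat_lit 303)) (XT.lf (nat_lit 0) (nat_lit 68107199) (nat_lit 380) (nat_lit 7958652946) (nat_lit 76) (nat_lit 3848762997) (nat_lit 99) (nat_lit 5) (nat_lit 104) (nat_lit 5) (nat_lit 100) (nat_lit 5) (nat_lit 474) (nat_lit 364) (nat_lit 302))))))) (XT.nd (nat_lit 858) (nat_lit 1520) (nat_lit 0) (XT.nd (nat_lit 390) (nat_lit 1140) (nat_lit 0) (XT.nd (nat_lit 156) (nat_lit 684) (nat_lit 0) (XT.nd (nat_lit 78) (nat_lit 304) (nat_lit 0) (XT.lf (nat_lit 0) (nat_lit 3740018190) (nat_lit 380) (nat_lit 243207844) (nat_lit 76) (nat_lit 8031939332) (nat_lit 99) (nat_lit 5) (nat_lit 104) (nat_lit 5) (nat_lit 100) (nat_lit 5) (nat_lit 475) (nat_lit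 364) (nat_lit 301)) (XT.lf (nat_lit 0) (nat_lit 7501124638) (nat_lit 380) (nat_lit 4487730439) (nat_lit 76) (nat_lit 168436323) (nat_lit 95) (nat_lit 5) (nat_lit 100) (nat_lit 5) (nat_lit 96) (nat_lit 5) (nat_lit 476) (nat_lit 364) (nat_lit 300))) (XT.nd (nat_lit 78) (nat_lit 380) (nat_lit 0) (XT.lf (nat_lit 0) (nat_lit 3403248483) (nat_lit 304) (nat_lit 7949355741) (nat_lit 380) (nat_lit 949358702) (nat_lit 91) (nat_lit 5) (nat_lit 95) (nat_lit 5) (nat_lit 96) (nat_lit 5) (nat_lit 477) (nat_lit 364) (nat_lit 299)) (XT.nd (nat_lit 78) (nat_lit 304) (nat_lit 0) (XT.lf (nat_lit 0) (nat_lit 2789881249) (nat_lit 380) (nat_lit 1011377338) (nat_lit 76) (nat_lit 8647998712) (nat_lit 90) (nat_lit 5) (nat_lit 95) (nat_lit 5) (nat_lit 91) (nat_lit 5) (nat_lit 478) (nat_lit 364) (nat_lit 298)) (XT.lf (nat_lit 0) (nat_lit 6605871710) (nat_lit 380) (nat_lit 5537704577) (nat_lit 76) (nat_lit 455507859) (nat_lit 86) (nat_lit 5) (nat_lit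 91) (nat_lit 5) (nat_lit 87) (nat_lit 5) (nat_lit 479) (nat_lit 364) (nat_lit 297))))) (XT.nd (nat_lit 234) (nat_lit 532) (nat_lit 0) (XT.nd (nat_lit 78) (nat_lit 380) (nat_lit 0) (XT.lf (nat_lit 0) (nat_lit 2509408945) (nat_lit 228) (nat_lit 8003046355) (nat_lit 304) (nat_lit 2239172297) (nat_lit 83) (nat_lit 5) (nat_lit 86) (nat_lit 5) (nat_lit 87) (nat_lit 5) (nat_lit 480) (nat_lit 364) (nat_lit 296)) (XT.nd (nat_lit 78) (nat_lit 304) (nat_lit 0) (XT.lf (nat_lit 0) (nat_lit 1572556566) (nat_lit 304) (nat_lit 2180420149) (nat_lit 76) (nat_lit 9153974854) (nat_lit 82) (nat_lit 5) (nat_lit 86) (nat_lit 5) (nat_lit 83) (nat_lit 5) (nat_lit 481) (nat_lit 364) (nat_lit 295)) (XT.lf (nat_lit 0) (nat_lit 5440578458) (nat_lit 380) (nat_lit 7016611278) (nat_lit 76) (nat_lit 607700661) (nat_lit 78) (nat_lit 5) (nat_lit 83) (nat_lit 5) (nat_lit 79) (nat_lit 5) (nat_lit 482) (nat_lit 364) (nat_lit 294)))) (XT.nd (nat_lit 78) (nat_lit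 304) (nat_lit 0) (XT.lf (nat_lit 0) (nat_lit 1180980051) (nat_lit 228) (nat_lit 8219109969) (nat_lit 304) (nat_lit 3825620510) (nat_lit 75) (nat_lit 5) (nat_lit 78) (nat_lit 5) (nat_lit 79) (nat_lit 5) (nat_lit 483) (nat_lit 364) (nat_lit 293)) (XT.nd (nat_lit 78) (nat_lit 228) (nat_lit 0) (XT.lf (nat_lit 0) (nat_lit 62749742) (nat_lit 304) (nat_lit 3806853700) (nat_lit 76) (nat_lit 9519855204) (nat_lit 74) (nat_lit 5) (nat_lit 78) (nat_lit 5) (nat_lit 75) (nat_lit 5) (nat_lit 484) (nat_lit 364) (nat_lit 292)) (XT.lf (nat_lit 0) (nat_lit 3978928259) (nat_lit 304) (nat_lit 8983445641) (nat_lit 76) (nat_lit 593581577) (nat_lit 71) (nat_lit 5) (nat_lit 75) (nat_lit 5) (nat_lit 72) (nat_lit 5) (nat_lit 485) (nat_lit 364) (nat_lit 291)))))) (XT.nd (nat_lit 390) (nat_lit 760) (nat_lit 0) (XT.nd (nat_lit 156) (nat_lit 532) (nat_lit 0) (XT.nd (nat_lit 78) (nat_lit 228) (nat_lit 0) (XT.lf (nat_lit 0) (nat_lit 7992518847) (nat_lit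 304) (nat_lit 634129573) (nat_lit 76) (nat_lit 5098756777) (nat_lit 71) (nat_lit 5) (nat_lit 75) (nat_lit 5) (nat_lit 72) (nat_lit 5) (nat_lit 486) (nat_lit 364) (nat_lit 290)) (XT.lf (nat_lit 0) (nat_lit 7933152731) (nat_lit 228) (nat_lit 4173115037) (nat_lit 304) (nat_lit 1791583043) (nat_lit 68) (nat_lit 5) (nat_lit 71) (nat_lit 5) (nat_lit 72) (nat_lit 5) (nat_lit 487) (nat_lit 364) (nat_lit 289))) (XT.nd (nat_lit 78) (nat_lit 228) (nat_lit 0) (XT.lf (nat_lit 0) (nat_lit 2191245113) (nat_lit 304) (nat_lit 11503343002) (nat_lit 76) (nat_lit 379033759) (nat_lit 64) (nat_lit 5) (nat_lit 68) (nat_lit 5) (nat_lit 65) (nat_lit 5) (nat_lit 488) (nat_lit 364) (nat_lit 288)) (XT.nd (nat_lit 78) (nat_lit 228) (nat_lit 0) (XT.lf (nat_lit 0) (nat_lit 6266272073) (nat_lit 304) (nat_lit 2988345981) (nat_lit 76) (nat_lit 4997327190) (nat_lit 64) (nat_lit 5) (nat_lit 68) (nat_lit 5) (nat_lit 65) (nat_lit 5) (nat_lit 489) (nat_lit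 364) (nat_lit 287)) (XT.lf (nat_lit 0) (nat_lit 5719730807) (nat_lit 228) (nat_lit 4709402354) (nat_lit 304) (nat_lit 4004579525) (nat_lit 61) (nat_lit 5) (nat_lit 64) (nat_lit 5) (nat_lit 65) (nat_lit 5) (nat_lit 490) (nat_lit 364) (nat_lit 286))))) (XT.nd (nat_lit 234) (nat_lit 304) (nat_lit 0) (XT.nd (nat_lit 78) (nat_lit 380) (nat_lit 0) (XT.lf (nat_lit 0) (nat_lit 44843938) (nat_lit 304) (nat_lit 29039212) (nat_lit 76) (nat_lit 14545440267) (nat_lit 60) (nat_lit 5) (nat_lit 64) (nat_lit 5) (nat_lit 61) (nat_lit 5) (nat_lit 491) (nat_lit 364) (nat_lit 285)) (XT.nd (nat_lit 78) (nat_lit 152) (nat_lit 0) (XT.lf (nat_lit 0) (nat_lit 4179761903) (nat_lit 304) (nat_lit 5970100134) (nat_lit 76) (nat_lit 4657096403) (nat_lit 57) (nat_lit 5) (nat_lit 61) (nat_lit 5) (nat_lit 58) (nat_lit 5) (nat_lit 492) (nat_lit 364) (nat_lit 284)) (XT.lf (nat_lit 0) (nat_lit 2867840489) (nat_lit 152) (nat_lit 5518827364) (nat_lit 228)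 (nat_lit 6611896471) (nat_lit 55) (nat_lit 5) (nat_lit 57) (nat_lit 5) (nat_lit 58) (nat_lit 5) (nat_lit 493) (nat_lit 364) (nat_lit 283)))) (XT.nd (nat_lit 78) (nat_lit 304) (nat_lit 0) (XT.lf (nat_lit 0) (nat_lit 11912398089) (nat_lit 152) (nat_lit 775617575) (nat_lit 228) (nat_lit 2505784461) (nat_lit 55) (nat_lit 5) (nat_lit 57) (nat_lit 5) (nat_lit 58) (nat_lit 5) (nat_lit 494) (nat_lit 364) (nat_lit 282)) (XT.nd (nat_lit 78) (nat_lit 0) (nat_lit 0) (XT.lf (nat_lit 0) (nat_lit 1694962726) (nat_lit 304) (nat_lit 9660071931) (nat_lit 76) (nat_lit 4036999667) (nat_lit 51) (nat_lit 5) (nat_lit 55) (nat_lit 5) (nat_lit 52) (nat_lit 5) (nat_lit 495) (nat_lit 364) (nat_lit 281)) (XT.lf (nat_lit 0) (nat_lit 5944247905) (nat_lit 304) (nat_lit 696173955) (nat_lit 76) (nat_lit 8953522224) (nat_lit 51) (nat_lit 5) (nat_lit 55) (nat_lit 5) (nat_lit 52) (nat_lit 5) (nat_lit 496) (nat_lit 364) (nat_lit 280))))))))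
noncomputable def xc54 : XT := (XT.nd (nat_lit 53508) (nat_lit 0) (nat_lit 15048) (XT.nd (nat_lit 52650) (nat_lit 0) (nat_lit 26448) (XT.nd (nat_lit 390) (nat_lit 684) (nat_lit 0) (XT.nd (nat_lit 156) (nat_lit 228) (nat_lit 0) (XT.nd (nat_lit 78) (nat_lit 228) (nat_lit 0) (XT.lf (nat_lit 0) (nat_lit 8509012385) (nat_lit 152) (nat_lit 1796068078) (nat_lit 228) (nat_lit 5494283920) (nat_lit 49) (nat_lit 5) (nat_lit 51) (nat_lit 5) (nat_lit 52) (nat_lit 5) (nat_lit 497) (nat_lit 364) (nat_lit 279)) (XT.lf (nat_lit 0) (nat_lit 1853094019) (nat_lit 228) (nat_lit 12908613313) (nat_lit 304) (nat_lit 1247017714) (nat_lit 46) (nat_lit 5) (nat_lit 49) (nat_lit 5) (nat_lit 50) (nat_lit 5) (nat_lit 498) (nat_lit 364) (nat_lit 278))) (XT.nd (nat_lit 78) (nat_lit 152) (nat_lit 0) (XT.lf (nat_lit 0) (nat_lit 3077343211) (nat_lit 304) (nat_lit 5025065798) (nat_lit 76) (nat_lit 8118814418) (nat_lit 45) (nat_lit 5) (nat_lit 49) (nat_lit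 5) (nat_lit 46) (nat_lit 5) (nat_lit 499) (nat_lit 364) (nat_lit 277)) (XT.nd (nat_lit 78) (nat_lit 0) (nat_lit 0) (XT.lf (nat_lit 0) (nat_lit 4287303337) (nat_lit 152) (nat_lit 3184073144) (nat_lit 228) (nat_lit 8966436091) (nat_lit 43) (nat_lit 5) (nat_lit 45) (nat_lit 5) (nat_lit 46) (nat_lit 5) (nat_lit 500) (nat_lit 364) (nat_lit 276)) (XT.lf (nat_lit 0) (nat_lit 11971263544) (nat_lit 228) (nat_lit 2865025359) (nat_lit 76) (nat_lit 1822088378) (nat_lit 43) (nat_lit 5) (nat_lit 46) (nat_lit 5) (nat_lit 44) (nat_lit 5) (nat_lit 501) (nat_lit 364) (nat_lit 275))))) (XT.nd (nat_lit 234) (nat_lit 228) (nat_lit 0) (XT.nd (nat_lit 78) (nat_lit 228) (nat_lit 0) (XT.lf (nat_lit 0) (nat_lit 6624035209) (nat_lit 228) (nat_lit 9973884135) (nat_lit 304) (nat_lit 284701698) (nat_lit 40) (nat_lit 5) (nat_lit 43) (nat_lit 5) (nat_lit 44) (nat_lit 5) (nat_lit 502) (nat_lit 364) (nat_lit 274)) (XT.nd (nat_lit 78) (nat_lit 152) (nat_lit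 0) (XT.lf (nat_lit 0) (nat_lit 4142673376) (nat_lit 304) (nat_lit 844658023) (nat_lit 76) (nat_lit 12123633722) (nat_lit 39) (nat_lit 5) (nat_lit 43) (nat_lit 5) (nat_lit 40) (nat_lit 5) (nat_lit 503) (nat_lit 364) (nat_lit 273)) (XT.lf (nat_lit 0) (nat_lit 8686239455) (nat_lit 228) (nat_lit 8519768506) (nat_lit 76) (nat_lit 137204365) (nat_lit 37) (nat_lit 5) (nat_lit 40) (nat_lit 5) (nat_lit 38) (nat_lit 5) (nat_lit 504) (nat_lit 364) (nat_lit 272)))) (XT.nd (nat_lit 78) (nat_lit 76) (nat_lit 0) (XT.lf (nat_lit 0) (nat_lit 1049945824) (nat_lit 152) (nat_lit 12289628005) (nat_lit 228) (nat_lit 4240155642) (nat_lit 35) (nat_lit 5) (nat_lit 37) (nat_lit 5) (nat_lit 38) (nat_lit 5) (nat_lit 505) (nat_lit 364) (nat_lit 271)) (XT.nd (nat_lit 51870) (nat_lit 0) (nat_lit 38228) (XT.lf (nat_lit 0) (nat_lit 292459669) (nat_lit 228) (nat_lit 6942561343) (nat_lit 76) (nat_lit 10585305614) (nat_lit 34) (nat_lit 5) (nat_lit 37)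 (nat_lit 5) (nat_lit 35) (nat_lit 5) (nat_lit 506) (nat_lit 364) (nat_lit 270)) (XT.lf (nat_lit 0) (nat_lit 1905334497) (nat_lit 1292) (nat_lit 768197234) (nat_lit 1292) (nat_lit 768197234) (nat_lit 537) (nat_lit 4) (nat_lit 554) (nat_lit 5) (nat_lit 554) (nat_lit 4) (nat_lit 410) (nat_lit 365) (nat_lit 365)))))) (XT.nd (nat_lit 390) (nat_lit 7220) (nat_lit 0) (XT.nd (nat_lit 156) (nat_lit 3116) (nat_lit 0) (XT.nd (nat_lit 78) (nat_lit 0) (nat_lit 0) (XT.lf (nat_lit 0) (nat_lit 1612251846) (nat_lit 1368) (nat_lit 144613337) (nat_lit 1444) (nat_lit 5157038104) (nat_lit 518) (nat_lit 5) (nat_lit 536) (nat_lit 5) (nat_lit 537) (nat_lit 4) (nat_lit 411) (nat_lit 365) (nat_lit 364)) (XT.lf (nat_lit 0) (nat_lit 5055808856) (nat_lit 1444) (nat_lit 594020760) (nat_lit 0) (nat_lit 1295751217) (nat_lit 518) (nat_lit 5) (nat_lit 537) (nat_lit 4) (nat_lit 518) (nat_lit 4) (nat_lit 412) (nat_lit 365) (nat_lit 363))) (XT.nd (nat_lit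 78) (nat_lit 1596) (nat_lit 0) (XT.lf (nat_lit 0) (nat_lit 1384532140) (nat_lit 1520) (nat_lit 2788219060) (nat_lit 76) (nat_lit 2805773948) (nat_lit 498) (nat_lit 5) (nat_lit 518) (nat_lit 5) (nat_lit 499) (nat_lit 4) (nat_lit 413) (nat_lit 365) (nat_lit 362)) (XT.nd (nat_lit 78) (nat_lit 76) (nat_lit 0) (XT.lf (nat_lit 0) (nat_lit 2017443232) (nat_lit 1520) (nat_lit 2631839385) (nat_lit 1596) (nat_lit 2363622861) (nat_lit 478) (nat_lit 5) (nat_lit 498) (nat_lit 5) (nat_lit 499) (nat_lit 4) (nat_lit 414) (nat_lit 365) (nat_lit 361)) (XT.lf (nat_lit 0) (nat_lit 871541730) (nat_lit 1596) (nat_lit 160054390) (nat_lit 76) (nat_lit 6017239310) (nat_lit 477) (nat_lit 5) (nat_lit 498) (nat_lit 5) (nat_lit 478) (nat_lit 5) (nat_lit 415) (nat_lit 365) (nat_lit 360))))) (XT.nd (nat_lit 234) (nat_lit 2128) (nat_lit 0) (XT.nd (nat_lit 78) (nat_lit 3496) (nat_lit 0) (XT.lf (nat_lit 0) (nat_lit 4109772348) (nat_lit 1672) (nat_lit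 2333377216) (nat_lit 76) (nat_lit 642652096) (nat_lit 456) (nat_lit 5) (nat_lit 478) (nat_lit 5) (nat_lit 457) (nat_lit 4) (nat_lit 416) (nat_lit 365) (nat_lit 359)) (XT.nd (nat_lit 78) (nat_lit 1748) (nat_lit 0) (XT.lf (nat_lit 0) (nat_lit 245774308) (nat_lit 1748) (nat_lit 4519743860) (nat_lit 76) (nat_lit 2358774537) (nat_lit 433) (nat_lit 5) (nat_lit 456) (nat_lit 5) (nat_lit 434) (nat_lit 5) (nat_lit 417) (nat_lit 365) (nat_lit 358)) (XT.lf (nat_lit 0) (nat_lit 432033221) (nat_lit 1748) (nat_lit 3014904559) (nat_lit 1824) (nat_lit 3717155536) (nat_lit 410) (nat_lit 5) (nat_lit 433) (nat_lit 5) (nat_lit 434) (nat_lit 5) (nat_lit 418) (nat_lit 365) (nat_lit 357)))) (XT.nd (nat_lit 78) (nat_lit 2128) (nat_lit 0) (XT.lf (nat_lit 0) (nat_lit 5481086516) (nat_lit 1748) (nat_lit 1198378887) (nat_lit 1824) (nat_lit 525905789) (nat_lit 410) (nat_lit 5) (nat_lit 433) (nat_lit 5) (nat_lit 434) (nat_lit 5) (nat_lit 419) (nat_lit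 365) (nat_lit 356)) (XT.nd (nat_lit 78) (nat_lit 912) (nat_lit 0) (XT.lf (nat_lit 0) (nat_lit 2657425139) (nat_lit 1216) (nat_lit 3905281728) (nat_lit 76) (nat_lit 685159351) (nat_lit 394) (nat_lit 5) (nat_lit 410) (nat_lit 5) (nat_lit 395) (nat_lit 5) (nat_lit 420) (nat_lit 365) (nat_lit 355)) (XT.lf (nat_lit 0) (nat_lit 1183734038) (nat_lit 912) (nat_lit 4679542488) (nat_lit 988) (nat_lit 1428573633) (nat_lit 382) (nat_lit 5) (nat_lit 394) (nat_lit 5) (nat_lit 395) (nat_lit 5) (nat_lit 421) (nat_lit 365) (nat_lit 354))))))) (XT.nd (nat_lit 858) (nat_lit 5472) (nat_lit 0) (XT.nd (nat_lit 390) (nat_lit 3268) (nat_lit 0) (XT.nd (nat_lit 156) (nat_lit 1748) (nat_lit 0) (XT.nd (nat_lit 78) (nat_lit 836) (nat_lit 0) (XT.lf (nat_lit 0) (nat_lit 1738336428) (nat_lit 988) (nat_lit 984458416) (nat_lit 76) (nat_lit 4614403731) (nat_lit 381) (nat_lit 5) (nat_lit 394) (nat_lit 5) (nat_lit 382) (nat_lit 5) (nat_lit 422) (nat_lit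 365) (nat_lit 353)) (XT.lf (nat_lit 0) (nat_lit 4224977754) (nat_lit 836) (nat_lit 692110954) (nat_lit 912) (nat_lit 2466848667) (nat_lit 370) (nat_lit 5) (nat_lit 381) (nat_lit 5) (nat_lit 382) (nat_lit 5) (nat_lit 423) (nat_lit 365) (nat_lit 352))) (XT.nd (nat_lit 78) (nat_lit 836) (nat_lit 0) (XT.lf (nat_lit 0) (nat_lit 688047184) (nat_lit 912) (nat_lit 5361492058) (nat_lit 76) (nat_lit 1382605411) (nat_lit 358) (nat_lit 5) (nat_lit 370) (nat_lit 5) (nat_lit 359) (nat_lit 5) (nat_lit 424) (nat_lit 365) (nat_lit 351)) (XT.nd (nat_lit 78) (nat_lit 836) (nat_lit 0) (XT.lf (nat_lit 0) (nat_lit 3840233723) (nat_lit 912) (nat_lit 118079769) (nat_lit 76) (nat_lit 3523355478) (nat_lit 358) (nat_lit 5) (nat_lit 370) (nat_lit 5) (nat_lit 359) (nat_lit 5) (nat_lit 425) (nat_lit 365) (nat_lit 350)) (XT.lf (nat_lit 0) (nat_lit 5236322551) (nat_lit 836) (nat_lit 1795561487) (nat_lit 912) (nat_lit 500794362) (nat_lit 347) (nat_lit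 5) (nat_lit 358) (nat_lit 5) (nat_lit 359) (nat_lit 5) (nat_lit 426) (nat_lit 365) (nat_lit 349))))) (XT.nd (nat_lit 234) (nat_lit 1520) (nat_lit 0) (XT.nd (nat_lit 78) (nat_lit 836) (nat_lit 0) (XT.lf (nat_lit 0) (nat_lit 2633604055) (nat_lit 912) (nat_lit 4513423574) (nat_lit 76) (nat_lit 438023763) (nat_lit 335) (nat_lit 5) (nat_lit 347) (nat_lit 5) (nat_lit 336) (nat_lit 5) (nat_lit 427) (nat_lit 365) (nat_lit 348)) (XT.nd (nat_lit 78) (nat_lit 76) (nat_lit 0) (XT.lf (nat_lit 0) (nat_lit 872443208) (nat_lit 760) (nat_lit 4928042277) (nat_lit 836) (nat_lit 1838411839) (nat_lit 325) (nat_lit 5) (nat_lit 335) (nat_lit 5) (nat_lit 336) (nat_lit 5) (nat_lit 428) (nat_lit 365) (nat_lit 347)) (XT.lf (nat_lit 0) (nat_lit 1293573782) (nat_lit 836) (nat_lit 1338861537) (nat_lit 76) (nat_lit 5061747655) (nat_lit 324) (nat_lit 5) (nat_lit 335) (nat_lit 5) (nat_lit 325) (nat_lit 5) (nat_lit 429) (nat_lit 365) (nat_lit 346))))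 (XT.nd (nat_lit 78) (nat_lit 760) (nat_lit 0) (XT.lf (nat_lit 0) (nat_lit 4177172184) (nat_lit 760) (nat_lit 258392683) (nat_lit 836) (nat_lit 3315347239) (nat_lit 314) (nat_lit 5) (nat_lit 324) (nat_lit 5) (nat_lit 325) (nat_lit 5) (nat_lit 430) (nat_lit 365) (nat_lit 345)) (XT.nd (nat_lit 78) (nat_lit 76) (nat_lit 0) (XT.lf (nat_lit 0) (nat_lit 1961331827) (nat_lit 684) (nat_lit 5660351037) (nat_lit 760) (nat_lit 187487261) (nat_lit 305) (nat_lit 5) (nat_lit 314) (nat_lit 5) (nat_lit 315) (nat_lit 5) (nat_lit 431) (nat_lit 365) (nat_lit 344)) (XT.lf (nat_lit 0) (nat_lit 2935146463) (nat_lit 760) (nat_lit 297622550) (nat_lit 76) (nat_lit 4636021610) (nat_lit 304) (nat_lit 5) (nat_lit 314) (nat_lit 5) (nat_lit 305) (nat_lit 5) (nat_lit 432) (nat_lit 365) (nat_lit 343)))))) (XT.nd (nat_lit 390) (nat_lit 2584) (nat_lit 0) (XT.nd (nat_lit 156) (nat_lit 1368) (nat_lit 0) (XT.nd (nat_lit 78) (nat_lit 760) (nat_lit 0) (XT.lf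 (nat_lit 0) (nat_lit 5370347940) (nat_lit 760) (nat_lit 729057232) (nat_lit 836) (nat_lit 1830558808) (nat_lit 294) (nat_lit 5) (nat_lit 304) (nat_lit 5) (nat_lit 305) (nat_lit 5) (nat_lit 433) (nat_lit 365) (nat_lit 342)) (XT.lf (nat_lit 0) (nat_lit 1298512490) (nat_lit 760) (nat_lit 4871753728) (nat_lit 76) (nat_lit 1822310890) (nat_lit 284) (nat_lit 5) (nat_lit 294) (nat_lit 5) (nat_lit 285) (nat_lit 5) (nat_lit 434) (nat_lit 365) (nat_lit 341))) (XT.nd (nat_lit 78) (nat_lit 684) (nat_lit 0) (XT.lf (nat_lit 0) (nat_lit 823872428) (nat_lit 684) (nat_lit 3616925866) (nat_lit 760) (nat_lit 3615917121) (nat_lit 275) (nat_lit 5) (nat_lit 284) (nat_lit 5) (nat_lit 285) (nat_lit 5) (nat_lit 435) (nat_lit 365) (nat_lit 340)) (XT.nd (nat_lit 78) (nat_lit 684) (nat_lit 0) (XT.lf (nat_lit 0) (nat_lit 6636528858) (nat_lit 684) (nat_lit 990364771) (nat_lit 760) (nat_lit 495641035) (nat_lit 275) (nat_lit 5) (nat_lit 284) (nat_lit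 5) (nat_lit 285) (nat_lit 5) (nat_lit 436) (nat_lit 365) (nat_lit 339)) (XT.lf (nat_lit 0) (nat_lit 2640189220) (nat_lit 684) (nat_lit 3847956806) (nat_lit 76) (nat_lit 1701424332) (nat_lit 266) (nat_lit 5) (nat_lit 275) (nat_lit 5) (nat_lit 267) (nat_lit 5) (nat_lit 437) (nat_lit 365) (nat_lit 338))))) (XT.nd (nat_lit 234) (nat_lit 1216) (nat_lit 0) (XT.nd (nat_lit 78) (nat_lit 684) (nat_lit 0) (XT.lf (nat_lit 0) (nat_lit 2001602862) (nat_lit 684) (nat_lit 3809552729) (nat_lit 760) (nat_lit 2447160973) (nat_lit 257) (nat_lit 5) (nat_lit 266) (nat_lit 5) (nat_lit 267) (nat_lit 5) (nat_lit 438) (nat_lit 365) (nat_lit 337)) (XT.nd (nat_lit 78) (nat_lit 608) (nat_lit 0) (XT.lf (nat_lit 0) (nat_lit 683387479) (nat_lit 760) (nat_lit 375627293) (nat_lit 76) (nat_lit 7269831833) (nat_lit 256) (nat_lit 5) (nat_lit 266) (nat_lit 5) (nat_lit 257) (nat_lit 5) (nat_lit 439) (nat_lit 365) (nat_lit 336)) (XT.lf (nat_lit 0) (nat_lit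 3842578676) (nat_lit 684) (nat_lit 2793732182) (nat_lit 76) (nat_lit 1764192389) (nat_lit 248) (nat_lit 5) (nat_lit 257) (nat_lit 5) (nat_lit 249) (nat_lit 5) (nat_lit 440) (nat_lit 365) (nat_lit 335)))) (XT.nd (nat_lit 78) (nat_lit 608) (nat_lit 0) (XT.lf (nat_lit 0) (nat_lit 3213022484) (nat_lit 608) (nat_lit 3833509670) (nat_lit 684) (nat_lit 1427444489) (nat_lit 240) (nat_lit 5) (nat_lit 248) (nat_lit 5) (nat_lit 249) (nat_lit 5) (nat_lit 441) (nat_lit 365) (nat_lit 334)) (XT.nd (nat_lit 78) (nat_lit 0) (nat_lit 0) (XT.lf (nat_lit 0) (nat_lit 764979280) (nat_lit 532) (nat_lit 952734443) (nat_lit 608) (nat_lit 6831486608) (nat_lit 232) (nat_lit 5) (nat_lit 239) (nat_lit 5) (nat_lit 240) (nat_lit 5) (nat_lit 442) (nat_lit 365) (nat_lit 333)) (XT.lf (nat_lit 0) (nat_lit 4906952614) (nat_lit 608) (nat_lit 1728230523) (nat_lit 76) (nat_lit 1990565144) (nat_lit 232) (nat_lit 5) (nat_lit 240) (nat_lit 5) (nat_lit 233) (nat_lit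 5) (nat_lit 443) (nat_lit 365) (nat_lit 332))))))))
noncomputable def xc55 : XT := (XT.nd (nat_lit 1716) (nat_lit 4560) (nat_lit 0) (XT.nd (nat_lit 858) (nat_lit 3496) (nat_lit 0) (XT.nd (nat_lit 390) (nat_lit 2052) (nat_lit 0) (XT.nd (nat_lit 156) (nat_lit 1140) (nat_lit 0) (XT.nd (nat_lit 78) (nat_lit 608) (nat_lit 0) (XT.lf (nat_lit 0) (nat_lit 4438851514) (nat_lit 608) (nat_lit 3709041844) (nat_lit 684) (nat_lit 556189525) (nat_lit 224) (nat_lit 5) (nat_lit 232) (nat_lit 5) (nat_lit 233) (nat_lit 5) (nat_lit 444) (nat_lit 365) (nat_lit 331)) (XT.lf (nat_lit 0) (nat_lit 1914482413) (nat_lit 532) (nat_lit 697268471) (nat_lit 608) (nat_lit 6172358214) (nat_lit 216) (nat_lit 5) (nat_lit 223) (nat_lit 5) (nat_lit 224) (nat_lit 5) (nat_lit 445) (nat_lit 365) (nat_lit 330))) (XT.nd (nat_lit 78) (nat_lit 1140) (nat_lit 0) (XT.lf (nat_lit 0) (nat_lit 5833252318) (nat_lit 608) (nat_lit 671448658) (nat_lit 76) (nat_lit 2361021568)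 (nat_lit 216) (nat_lit 5) (nat_lit 224) (nat_lit 5) (nat_lit 217) (nat_lit 5) (nat_lit 446) (nat_lit 365) (nat_lit 329)) (XT.nd (nat_lit 78) (nat_lit 532) (nat_lit 0) (XT.lf (nat_lit 0) (nat_lit 163627095) (nat_lit 608) (nat_lit 3291224289) (nat_lit 76) (nat_lit 5494194603) (nat_lit 208) (nat_lit 5) (nat_lit 216) (nat_lit 5) (nat_lit 209) (nat_lit 5) (nat_lit 447) (nat_lit 365) (nat_lit 328)) (XT.lf (nat_lit 0) (nat_lit 3047097690) (nat_lit 532) (nat_lit 314815463) (nat_lit 608) (nat_lit 5672156887) (nat_lit 201) (nat_lit 5) (nat_lit 208) (nat_lit 5) (nat_lit 209) (nat_lit 5) (nat_lit 448) (nat_lit 365) (nat_lit 327))))) (XT.nd (nat_lit 234) (nat_lit 988) (nat_lit 0) (XT.nd (nat_lit 78) (nat_lit 532) (nat_lit 0) (XT.lf (nat_lit 0) (nat_lit 360286462) (nat_lit 532) (nat_lit 6262104498) (nat_lit 608) (nat_lit 2498451312) (nat_lit 194) (nat_lit 5) (nat_lit 201) (nat_lit 5) (nat_lit 202) (nat_lit 5) (nat_lit 449) (nat_lit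 365) (nat_lit 326)) (XT.nd (nat_lit 78) (nat_lit 456) (nat_lit 0) (XT.lf (nat_lit 0) (nat_lit 726647391) (nat_lit 608) (nat_lit 2362237337) (nat_lit 76) (nat_lit 6120428888) (nat_lit 193) (nat_lit 5) (nat_lit 201) (nat_lit 5) (nat_lit 194) (nat_lit 5) (nat_lit 450) (nat_lit 365) (nat_lit 325)) (XT.lf (nat_lit 0) (nat_lit 3966809131) (nat_lit 532) (nat_lit 5159875720) (nat_lit 76) (nat_lit 172870448) (nat_lit 187) (nat_lit 5) (nat_lit 194) (nat_lit 5) (nat_lit 188) (nat_lit 5) (nat_lit 451) (nat_lit 365) (nat_lit 324)))) (XT.nd (nat_lit 78) (nat_lit 532) (nat_lit 0) (XT.lf (nat_lit 0) (nat_lit 1348150014) (nat_lit 456) (nat_lit 5925111738) (nat_lit 532) (nat_lit 2118321601) (nat_lit 181) (nat_lit 5) (nat_lit 187) (nat_lit 5) (nat_lit 188) (nat_lit 5) (nat_lit 452) (nat_lit 365) (nat_lit 323)) (XT.nd (nat_lit 78) (nat_lit 456) (nat_lit 0) (XT.lf (nat_lit 0) (nat_lit 1136512704) (nat_lit 532) (nat_lit 1497769491) (nat_lit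 76) (nat_lit 6851203141) (nat_lit 180) (nat_lit 5) (nat_lit 187) (nat_lit 5) (nat_lit 181) (nat_lit 5) (nat_lit 453) (nat_lit 365) (nat_lit 322)) (XT.lf (nat_lit 0) (nat_lit 4423917000) (nat_lit 532) (nat_lit 4413773178) (nat_lit 76) (nat_lit 743389024) (nat_lit 174) (nat_lit 5) (nat_lit 181) (nat_lit 5) (nat_lit 175) (nat_lit 5) (nat_lit 454) (nat_lit 365) (nat_lit 321)))))) (XT.nd (nat_lit 390) (nat_lit 2052) (nat_lit 0) (XT.nd (nat_lit 156) (nat_lit 912) (nat_lit 0) (XT.nd (nat_lit 78) (nat_lit 76) (nat_lit 0) (XT.lf (nat_lit 0) (nat_lit 2259054627) (nat_lit 456) (nat_lit 5517915888) (nat_lit 532) (nat_lit 1901626837) (nat_lit 168) (nat_lit 5) (nat_lit 174) (nat_lit 5) (nat_lit 175) (nat_lit 5) (nat_lit 455) (nat_lit 365) (nat_lit 320)) (XT.lf (nat_lit 0) (nat_lit 1388045526) (nat_lit 532) (nat_lit 722548378) (nat_lit 76) (nat_lit 7667544981) (nat_lit 167) (nat_lit 5) (nat_lit 174) (nat_lit 5) (nat_lit 168) (nat_lit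 5) (nat_lit 456) (nat_lit 365) (nat_lit 319))) (XT.nd (nat_lit 78) (nat_lit 532) (nat_lit 0) (XT.lf (nat_lit 0) (nat_lit 4725522291) (nat_lit 456) (nat_lit 3772183270) (nat_lit 76) (nat_lit 1381574644) (nat_lit 162) (nat_lit 5) (nat_lit 168) (nat_lit 5) (nat_lit 163) (nat_lit 5) (nat_lit 457) (nat_lit 365) (nat_lit 318)) (XT.nd (nat_lit 78) (nat_lit 76) (nat_lit 0) (XT.lf (nat_lit 0) (nat_lit 3067039008) (nat_lit 456) (nat_lit 5060437321) (nat_lit 532) (nat_lit 1855023104) (nat_lit 156) (nat_lit 5) (nat_lit 162) (nat_lit 5) (nat_lit 163) (nat_lit 5) (nat_lit 458) (nat_lit 365) (nat_lit 317)) (XT.lf (nat_lit 0) (nat_lit 1474463504) (nat_lit 532) (nat_lit 63184340) (nat_lit 76) (nat_lit 8550256886) (nat_lit 155) (nat_lit 5) (nat_lit 162) (nat_lit 5) (nat_lit 156) (nat_lit 5) (nat_lit 459) (nat_lit 365) (nat_lit 316))))) (XT.nd (nat_lit 234) (nat_lit 836) (nat_lit 0) (XT.nd (nat_lit 78) (nat_lit 836) (nat_lit 0) (XT.lf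 (nat_lit 0) (nat_lit 4864324430) (nat_lit 456) (nat_lit 3262673017) (nat_lit 76) (nat_lit 2067812064) (nat_lit 150) (nat_lit 5) (nat_lit 156) (nat_lit 5) (nat_lit 151) (nat_lit 5) (nat_lit 460) (nat_lit 365) (nat_lit 315)) (XT.nd (nat_lit 78) (nat_lit 456) (nat_lit 0) (XT.lf (nat_lit 0) (nat_lit 3744063881) (nat_lit 380) (nat_lit 4573019277) (nat_lit 456) (nat_lit 1986876119) (nat_lit 145) (nat_lit 5) (nat_lit 150) (nat_lit 5) (nat_lit 151) (nat_lit 5) (nat_lit 461) (nat_lit 365) (nat_lit 314)) (XT.lf (nat_lit 0) (nat_lit 457543607) (nat_lit 380) (nat_lit 932711281) (nat_lit 456) (nat_lit 9025154431) (nat_lit 139) (nat_lit 5) (nat_lit 144) (nat_lit 5) (nat_lit 145) (nat_lit 5) (nat_lit 462) (nat_lit 365) (nat_lit 313)))) (XT.nd (nat_lit 78) (nat_lit 836) (nat_lit 0) (XT.lf (nat_lit 0) (nat_lit 4831291375) (nat_lit 456) (nat_lit 2915110026) (nat_lit 76) (nat_lit 2781973342) (nat_lit 139) (nat_lit 5) (nat_lit 145) (nat_lit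 5) (nat_lit 140) (nat_lit 5) (nat_lit 463) (nat_lit 365) (nat_lit 312)) (XT.nd (nat_lit 78) (nat_lit 456) (nat_lit 0) (XT.lf (nat_lit 0) (nat_lit 4259707665) (nat_lit 380) (nat_lit 4076625811) (nat_lit 456) (nat_lit 2307370524) (nat_lit 134) (nat_lit 5) (nat_lit 139) (nat_lit 5) (nat_lit 140) (nat_lit 5) (nat_lit 464) (nat_lit 365) (nat_lit 311)) (XT.lf (nat_lit 0) (nat_lit 800876602) (nat_lit 380) (nat_lit 320537381) (nat_lit 456) (nat_lit 9640057181) (nat_lit 128) (nat_lit 5) (nat_lit 133) (nat_lit 5) (nat_lit 134) (nat_lit 5) (nat_lit 465) (nat_lit 365) (nat_lit 310))))))) (XT.nd (nat_lit 858) (nat_lit 2052) (nat_lit 0) (XT.nd (nat_lit 390) (nat_lit 1368) (nat_lit 0) (XT.nd (nat_lit 156) (nat_lit 760) (nat_lit 0) (XT.nd (nat_lit 78) (nat_lit 380) (nat_lit 0) (XT.lf (nat_lit 0) (nat_lit 4615542056) (nat_lit 456) (nat_lit 2761984051) (nat_lit 76) (nat_lit 3503217008) (nat_lit 128) (nat_lit 5) (nat_lit 134) (nat_lit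 5) (nat_lit 129) (nat_lit 5) (nat_lit 466) (nat_lit 365) (nat_lit 309)) (XT.lf (nat_lit 0) (nat_lit 4580835762) (nat_lit 380) (nat_lit 3593049541) (nat_lit 456) (nat_lit 2828636146) (nat_lit 123) (nat_lit 5) (nat_lit 128) (nat_lit 5) (nat_lit 129) (nat_lit 5) (nat_lit 467) (nat_lit 365) (nat_lit 308))) (XT.nd (nat_lit 78) (nat_lit 380) (nat_lit 0) (XT.lf (nat_lit 0) (nat_lit 656862777) (nat_lit 380) (nat_lit 10197260356) (nat_lit 76) (nat_lit 272750108) (nat_lit 118) (nat_lit 5) (nat_lit 123) (nat_lit 5) (nat_lit 119) (nat_lit 5) (nat_lit 468) (nat_lit 365) (nat_lit 307)) (XT.nd (nat_lit 78) (nat_lit 380) (nat_lit 0) (XT.lf (nat_lit 0) (nat_lit 4204211327) (nat_lit 380) (nat_lit 2838757135) (nat_lit 76) (nat_lit 4209776518) (nat_lit 118) (nat_lit 5) (nat_lit 123) (nat_lit 5) (nat_lit 119) (nat_lit 5) (nat_lit 469) (nat_lit 365) (nat_lit 306)) (XT.lf (nat_lit 0) (nat_lit 4671240217) (nat_lit 380) (nat_lit 3145131085)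 (nat_lit 456) (nat_lit 3564892581) (nat_lit 113) (nat_lit 5) (nat_lit 118) (nat_lit 5) (nat_lit 119) (nat_lit 5) (nat_lit 470) (nat_lit 365) (nat_lit 305))))) (XT.nd (nat_lit 234) (nat_lit 684) (nat_lit 0) (XT.nd (nat_lit 78) (nat_lit 380) (nat_lit 0) (XT.lf (nat_lit 0) (nat_lit 805832784) (nat_lit 304) (nat_lit 10688493242) (nat_lit 380) (nat_lit 18162988) (nat_lit 109) (nat_lit 5) (nat_lit 113) (nat_lit 5) (nat_lit 114) (nat_lit 5) (nat_lit 471) (nat_lit 365) (nat_lit 304)) (XT.nd (nat_lit 78) (nat_lit 304) (nat_lit 0) (XT.lf (nat_lit 0) (nat_lit 3582296009) (nat_lit 380) (nat_lit 3184245735) (nat_lit 76) (nat_lit 4878736051) (nat_lit 108) (nat_lit 5) (nat_lit 113) (nat_lit 5) (nat_lit 109) (nat_lit 5) (nat_lit 472) (nat_lit 365) (nat_lit 303)) (XT.lf (nat_lit 0) (nat_lit 4491246272) (nat_lit 304) (nat_lit 2756992197) (nat_lit 380) (nat_lit 4532613617) (nat_lit 104) (nat_lit 5) (nat_lit 108) (nat_lit 5) (nat_lit 109)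 (nat_lit 5) (nat_lit 473) (nat_lit 365) (nat_lit 302)))) (XT.nd (nat_lit 78) (nat_lit 380) (nat_lit 0) (XT.lf (nat_lit 0) (nat_lit 384595486) (nat_lit 304) (nat_lit 10600319598) (nat_lit 380) (nat_lit 934280830) (nat_lit 100) (nat_lit 5) (nat_lit 104) (nat_lit 5) (nat_lit 105) (nat_lit 5) (nat_lit 474) (nat_lit 365) (nat_lit 301)) (XT.nd (nat_lit 78) (nat_lit 304) (nat_lit 0) (XT.lf (nat_lit 0) (nat_lit 2732480396) (nat_lit 380) (nat_lit 3841038561) (nat_lit 76) (nat_lit 5485791585) (nat_lit 99) (nat_lit 5) (nat_lit 104) (nat_lit 5) (nat_lit 100) (nat_lit 5) (nat_lit 475) (nat_lit 365) (nat_lit 300)) (XT.lf (nat_lit 0) (nat_lit 3997281936) (nat_lit 304) (nat_lit 2454284773) (nat_lit 380) (nat_lit 5750713235) (nat_lit 95) (nat_lit 5) (nat_lit 99) (nat_lit 5) (nat_lit 100) (nat_lit 5) (nat_lit 476) (nat_lit 365) (nat_lit 299)))))) (XT.nd (nat_lit 390) (nat_lit 1064) (nat_lit 0) (XT.nd (nat_lit 156) (nat_lit 608) (nat_lit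 0) (XT.nd (nat_lit 78) (nat_lit 380) (nat_lit 0) (XT.lf (nat_lit 0) (nat_lit 10248044340) (nat_lit 380) (nat_lit 370213370) (nat_lit 76) (nat_lit 1729796706) (nat_lit 95) (nat_lit 5) (nat_lit 100) (nat_lit 5) (nat_lit 96) (nat_lit 5) (nat_lit 477) (nat_lit 365) (nat_lit 298)) (XT.lf (nat_lit 0) (nat_lit 1634939413) (nat_lit 380) (nat_lit 4855954220) (nat_lit 76) (nat_lit 6004994995) (nat_lit 90) (nat_lit 5) (nat_lit 95) (nat_lit 5) (nat_lit 91) (nat_lit 5) (nat_lit 478) (nat_lit 365) (nat_lit 297))) (XT.nd (nat_lit 78) (nat_lit 304) (nat_lit 0) (XT.lf (nat_lit 0) (nat_lit 3141406369) (nat_lit 304) (nat_lit 2264458068) (nat_lit 380) (nat_lit 7240755086) (nat_lit 86) (nat_lit 5) (nat_lit 90) (nat_lit 5) (nat_lit 91) (nat_lit 5) (nat_lit 479) (nat_lit 365) (nat_lit 296)) (XT.nd (nat_lit 78) (nat_lit 304) (nat_lit 0) (XT.lf (nat_lit 0) (nat_lit 9264939064) (nat_lit 380) (nat_lit 1503396983) (nat_lit 76) (nat_lit 2031779793)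 (nat_lit 86) (nat_lit 5) (nat_lit 91) (nat_lit 5) (nat_lit 87) (nat_lit 5) (nat_lit 480) (nat_lit 365) (nat_lit 295)) (XT.lf (nat_lit 0) (nat_lit 267117401) (nat_lit 304) (nat_lit 6280543156) (nat_lit 76) (nat_lit 6408478767) (nat_lit 82) (nat_lit 5) (nat_lit 86) (nat_lit 5) (nat_lit 83) (nat_lit 5) (nat_lit 481) (nat_lit 365) (nat_lit 294))))) (XT.nd (nat_lit 234) (nat_lit 532) (nat_lit 0) (XT.nd (nat_lit 78) (nat_lit 228) (nat_lit 0) (XT.lf (nat_lit 0) (nat_lit 1870792436) (nat_lit 304) (nat_lit 2217046641) (nat_lit 380) (nat_lit 9027187610) (nat_lit 78) (nat_lit 5) (nat_lit 82) (nat_lit 5) (nat_lit 83) (nat_lit 5) (nat_lit 482) (nat_lit 365) (nat_lit 293)) (XT.nd (nat_lit 78) (nat_lit 228) (nat_lit 0) (XT.lf (nat_lit 0) (nat_lit 8009213223) (nat_lit 380) (nat_lit 3074416843) (nat_lit 76) (nat_lit 2192981984) (nat_lit 78) (nat_lit 5) (nat_lit 83) (nat_lit 5) (nat_lit 79) (nat_lit 5) (nat_lit 483) (nat_lit 365) (nat_lit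 292)) (XT.lf (nat_lit 0) (nat_lit 5260267584) (nat_lit 228) (nat_lit 6765747690) (nat_lit 304) (nat_lit 1415078750) (nat_lit 75) (nat_lit 5) (nat_lit 78) (nat_lit 5) (nat_lit 79) (nat_lit 5) (nat_lit 484) (nat_lit 365) (nat_lit 291)))) (XT.nd (nat_lit 78) (nat_lit 228) (nat_lit 0) (XT.lf (nat_lit 0) (nat_lit 127158344) (nat_lit 228) (nat_lit 2343981799) (nat_lit 304) (nat_lit 11137607175) (nat_lit 71) (nat_lit 5) (nat_lit 74) (nat_lit 5) (nat_lit 75) (nat_lit 5) (nat_lit 485) (nat_lit 365) (nat_lit 290)) (XT.nd (nat_lit 78) (nat_lit 228) (nat_lit 0) (XT.lf (nat_lit 0) (nat_lit 6453858202) (nat_lit 304) (nat_lit 5143323930) (nat_lit 76) (nat_lit 2181634649) (nat_lit 71) (nat_lit 5) (nat_lit 75) (nat_lit 5) (nat_lit 72) (nat_lit 5) (nat_lit 486) (nat_lit 365) (nat_lit 289)) (XT.lf (nat_lit 0) (nat_lit 3337936674) (nat_lit 228) (nat_lit 7184488353) (nat_lit 304) (nat_lit 3429743260) (nat_lit 68) (nat_lit 5) (nat_lit 71)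 (nat_lit 5) (nat_lit 72) (nat_lit 5) (nat_lit 487) (nat_lit 365) (nat_lit 288))))))))
noncomputable def xc56 : XT := (XT.nd (nat_lit 53274) (nat_lit 0) (nat_lit 20444) (XT.nd (nat_lit 780) (nat_lit 1064) (nat_lit 0) (XT.nd (nat_lit 390) (nat_lit 608) (nat_lit 0) (XT.nd (nat_lit 156) (nat_lit 532) (nat_lit 0) (XT.nd (nat_lit 78) (nat_lit 228) (nat_lit 0) (XT.lf (nat_lit 0) (nat_lit 540056530) (nat_lit 304) (nat_lit 2125609013) (nat_lit 76) (nat_lit 11463178949) (nat_lit 67) (nat_lit 5) (nat_lit 71) (nat_lit 5) (nat_lit 68) (nat_lit 5) (nat_lit 488) (nat_lit 365) (nat_lit 287)) (XT.lf (nat_lit 0) (nat_lit 4568450480) (nat_lit 304) (nat_lit 7776443660) (nat_lit 76) (nat_lit 1963208499) (nat_lit 64) (nat_lit 5) (nat_lit 68) (nat_lit 5) (nat_lit 65) (nat_lit 5) (nat_lit 489) (nat_lit 365) (nat_lit 286))) (XT.nd (nat_lit 78) (nat_lit 304) (nat_lit 0) (XT.lf (nat_lit 0) (nat_lit 842312811) (nat_lit 228) (nat_lit 7842381462)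 (nat_lit 304) (nat_lit 5806110230) (nat_lit 61) (nat_lit 5) (nat_lit 64) (nat_lit 5) (nat_lit 65) (nat_lit 5) (nat_lit 490) (nat_lit 365) (nat_lit 285)) (XT.nd (nat_lit 78) (nat_lit 304) (nat_lit 0) (XT.lf (nat_lit 0) (nat_lit 9687981824) (nat_lit 228) (nat_lit 3217528249) (nat_lit 304) (nat_lit 1771209502) (nat_lit 61) (nat_lit 5) (nat_lit 64) (nat_lit 5) (nat_lit 65) (nat_lit 5) (nat_lit 491) (nat_lit 365) (nat_lit 284)) (XT.lf (nat_lit 0) (nat_lit 2318822598) (nat_lit 304) (nat_lit 11047081292) (nat_lit 76) (nat_lit 1500044975) (nat_lit 57) (nat_lit 5) (nat_lit 61) (nat_lit 5) (nat_lit 58) (nat_lit 5) (nat_lit 492) (nat_lit 365) (nat_lit 283))))) (XT.nd (nat_lit 156) (nat_lit 456) (nat_lit 0) (XT.nd (nat_lit 78) (nat_lit 152) (nat_lit 0) (XT.lf (nat_lit 0) (nat_lit 6492540703) (nat_lit 304) (nat_lit 2271702589) (nat_lit 76) (nat_lit 6293977133) (nat_lit 57) (nat_lit 5) (nat_lit 61) (nat_lit 5) (nat_lit 58) (nat_lit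 5) (nat_lit 493) (nat_lit 365) (nat_lit 282)) (XT.lf (nat_lit 0) (nat_lit 6717879744) (nat_lit 152) (nat_lit 4046620156) (nat_lit 228) (nat_lit 4489545978) (nat_lit 55) (nat_lit 5) (nat_lit 57) (nat_lit 5) (nat_lit 58) (nat_lit 5) (nat_lit 494) (nat_lit 365) (nat_lit 281))) (XT.nd (nat_lit 78) (nat_lit 228) (nat_lit 0) (XT.lf (nat_lit 0) (nat_lit 415414496) (nat_lit 228) (nat_lit 14700759218) (nat_lit 304) (nat_lit 337732342) (nat_lit 52) (nat_lit 5) (nat_lit 55) (nat_lit 5) (nat_lit 56) (nat_lit 5) (nat_lit 495) (nat_lit 365) (nat_lit 280)) (XT.nd (nat_lit 78) (nat_lit 152) (nat_lit 0) (XT.lf (nat_lit 0) (nat_lit 3901782020) (nat_lit 304) (nat_lit 6096948735) (nat_lit 76) (nat_lit 5657414694) (nat_lit 51) (nat_lit 5) (nat_lit 55) (nat_lit 5) (nat_lit 52) (nat_lit 5) (nat_lit 496) (nat_lit 365) (nat_lit 279)) (XT.lf (nat_lit 0) (nat_lit 3012077717) (nat_lit 152) (nat_lit 5200925315) (nat_lit 228) (nat_lit 7649556684)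 (nat_lit 49) (nat_lit 5) (nat_lit 51) (nat_lit 5) (nat_lit 52) (nat_lit 5) (nat_lit 497) (nat_lit 365) (nat_lit 278)))))) (XT.nd (nat_lit 390) (nat_lit 380) (nat_lit 0) (XT.nd (nat_lit 156) (nat_lit 380) (nat_lit 0) (XT.nd (nat_lit 78) (nat_lit 304) (nat_lit 0) (XT.lf (nat_lit 0) (nat_lit 12337635744) (nat_lit 152) (nat_lit 285842274) (nat_lit 228) (nat_lit 3449367102) (nat_lit 49) (nat_lit 5) (nat_lit 51) (nat_lit 5) (nat_lit 52) (nat_lit 5) (nat_lit 498) (nat_lit 365) (nat_lit 277)) (XT.lf (nat_lit 0) (nat_lit 863439662) (nat_lit 304) (nat_lit 10735449384) (nat_lit 76) (nat_lit 4687550842) (nat_lit 45) (nat_lit 5) (nat_lit 49) (nat_lit 5) (nat_lit 46) (nat_lit 5) (nat_lit 499) (nat_lit 365) (nat_lit 276))) (XT.nd (nat_lit 78) (nat_lit 380) (nat_lit 0) (XT.lf (nat_lit 0) (nat_lit 5216062401) (nat_lit 304) (nat_lit 1502982929) (nat_lit 76) (nat_lit 9784813520) (nat_lit 45) (nat_lit 5) (nat_lit 49) (nat_lit 5) (nat_lit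 46) (nat_lit 5) (nat_lit 500) (nat_lit 365) (nat_lit 275)) (XT.nd (nat_lit 78) (nat_lit 228) (nat_lit 0) (XT.lf (nat_lit 0) (nat_lit 7971800798) (nat_lit 152) (nat_lit 1708812151) (nat_lit 228) (nat_lit 7044518913) (nat_lit 43) (nat_lit 5) (nat_lit 45) (nat_lit 5) (nat_lit 46) (nat_lit 5) (nat_lit 501) (nat_lit 365) (nat_lit 274)) (XT.lf (nat_lit 0) (nat_lit 645151609) (nat_lit 228) (nat_lit 13598942401) (nat_lit 304) (nat_lit 2706546650) (nat_lit 40) (nat_lit 5) (nat_lit 43) (nat_lit 5) (nat_lit 44) (nat_lit 5) (nat_lit 502) (nat_lit 365) (nat_lit 273))))) (XT.nd (nat_lit 234) (nat_lit 152) (nat_lit 0) (XT.nd (nat_lit 78) (nat_lit 152) (nat_lit 0) (XT.lf (nat_lit 0) (nat_lit 1739351656) (nat_lit 304) (nat_lit 6899119936) (nat_lit 76) (nat_lit 8541093908) (nat_lit 39) (nat_lit 5) (nat_lit 43) (nat_lit 5) (nat_lit 40) (nat_lit 5) (nat_lit 503) (nat_lit 365) (nat_lit 272)) (XT.nd (nat_lit 78) (nat_lit 0) (nat_lit 0) (XT.lf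 (nat_lit 0) (nat_lit 2666312268) (nat_lit 152) (nat_lit 3562740550) (nat_lit 228) (nat_lit 11183838639) (nat_lit 37) (nat_lit 5) (nat_lit 39) (nat_lit 5) (nat_lit 40) (nat_lit 5) (nat_lit 504) (nat_lit 365) (nat_lit 271)) (XT.lf (nat_lit 0) (nat_lit 10839502109) (nat_lit 228) (nat_lit 5190374861) (nat_lit 76) (nat_lit 1620390760) (nat_lit 37) (nat_lit 5) (nat_lit 40) (nat_lit 5) (nat_lit 38) (nat_lit 5) (nat_lit 505) (nat_lit 365) (nat_lit 270)))) (XT.nd (nat_lit 51714) (nat_lit 0) (nat_lit 39444) (XT.lf (nat_lit 0) (nat_lit 4547708828) (nat_lit 152) (nat_lit 11021953333) (nat_lit 228) (nat_lit 2322182154) (nat_lit 35) (nat_lit 5) (nat_lit 37) (nat_lit 5) (nat_lit 38) (nat_lit 5) (nat_lit 506) (nat_lit 365) (nat_lit 269)) (XT.nd (nat_lit 78) (nat_lit 0) (nat_lit 0) (XT.lf (nat_lit 0) (nat_lit 355325391) (nat_lit 1292) (nat_lit 2702469434) (nat_lit 0) (nat_lit 355325391) (nat_lit 554) (nat_lit 5) (nat_lit 571) (nat_lit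 4) (nat_lit 554) (nat_lit 4) (nat_lit 408) (nat_lit 366) (nat_lit 366)) (XT.lf (nat_lit 0) (nat_lit 3988743828) (nat_lit 1292) (nat_lit 852318632) (nat_lit 0) (nat_lit 2013395686) (nat_lit 554) (nat_lit 5) (nat_lit 571) (nat_lit 4) (nat_lit 554) (nat_lit 4) (nat_lit 409) (nat_lit 366) (nat_lit 365))))))) (XT.nd (nat_lit 858) (nat_lit 6840) (nat_lit 0) (XT.nd (nat_lit 390) (nat_lit 6384) (nat_lit 0) (XT.nd (nat_lit 156) (nat_lit 3040) (nat_lit 0) (XT.nd (nat_lit 78) (nat_lit 1368) (nat_lit 0) (XT.lf (nat_lit 0) (nat_lit 398707192) (nat_lit 1368) (nat_lit 3106575439) (nat_lit 76) (nat_lit 3378825369) (nat_lit 536) (nat_lit 5) (nat_lit 554) (nat_lit 5) (nat_lit 537) (nat_lit 4) (nat_lit 410) (nat_lit 366) (nat_lit 364)) (XT.lf (nat_lit 0) (nat_lit 1537175488) (nat_lit 1368) (nat_lit 2100340561) (nat_lit 1444) (nat_lit 3277540754) (nat_lit 518) (nat_lit 5) (nat_lit 536) (nat_lit 5) (nat_lit 537) (nat_lit 4) (nat_lit 411)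 (nat_lit 366) (nat_lit 363))) (XT.nd (nat_lit 78) (nat_lit 3040) (nat_lit 0) (XT.lf (nat_lit 0) (nat_lit 6255048503) (nat_lit 1368) (nat_lit 639540659) (nat_lit 1444) (nat_lit 52999207) (nat_lit 518) (nat_lit 5) (nat_lit 536) (nat_lit 5) (nat_lit 537) (nat_lit 4) (nat_lit 412) (nat_lit 366) (nat_lit 362)) (XT.nd (nat_lit 78) (nat_lit 1520) (nat_lit 0) (XT.lf (nat_lit 0) (nat_lit 3159306331) (nat_lit 1520) (nat_lit 2928924692) (nat_lit 76) (nat_lit 892837292) (nat_lit 498) (nat_lit 5) (nat_lit 518) (nat_lit 5) (nat_lit 499) (nat_lit 4) (nat_lit 413) (nat_lit 366) (nat_lit 361)) (XT.lf (nat_lit 0) (nat_lit 1843984394) (nat_lit 1520) (nat_lit 4546491098) (nat_lit 1596) (nat_lit 625660428) (nat_lit 478) (nat_lit 5) (nat_lit 498) (nat_lit 5) (nat_lit 499) (nat_lit 4) (nat_lit 414) (nat_lit 366) (nat_lit 360))))) (XT.nd (nat_lit 234) (nat_lit 2964) (nat_lit 0) (XT.nd (nat_lit 78) (nat_lit 3344) (nat_lit 0) (XT.lf (nat_lit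 0) (nat_lit 2554467995) (nat_lit 1596) (nat_lit 378748949) (nat_lit 76) (nat_lit 4119283139) (nat_lit 477) (nat_lit 5) (nat_lit 498) (nat_lit 5) (nat_lit 478) (nat_lit 5) (nat_lit 415) (nat_lit 366) (nat_lit 359)) (XT.nd (nat_lit 78) (nat_lit 1748) (nat_lit 0) (XT.lf (nat_lit 0) (nat_lit 4504616923) (nat_lit 1596) (nat_lit 1250606512) (nat_lit 1672) (nat_lit 1335007128) (nat_lit 456) (nat_lit 5) (nat_lit 477) (nat_lit 5) (nat_lit 478) (nat_lit 5) (nat_lit 416) (nat_lit 366) (nat_lit 358)) (XT.lf (nat_lit 0) (nat_lit 1823884295) (nat_lit 1748) (nat_lit 4813725758) (nat_lit 76) (nat_lit 491740435) (nat_lit 433) (nat_lit 5) (nat_lit 456) (nat_lit 5) (nat_lit 434) (nat_lit 5) (nat_lit 417) (nat_lit 366) (nat_lit 357)))) (XT.nd (nat_lit 78) (nat_lit 1216) (nat_lit 0) (XT.lf (nat_lit 0) (nat_lit 102943643) (nat_lit 1748) (nat_lit 4888987370) (nat_lit 1824) (nat_lit 2177896318) (nat_lit 410) (nat_lit 5) (nat_lit 433) (nat_lit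 5) (nat_lit 434) (nat_lit 5) (nat_lit 418) (nat_lit 366) (nat_lit 356)) (XT.nd (nat_lit 78) (nat_lit 1140) (nat_lit 0) (XT.lf (nat_lit 0) (nat_lit 969275974) (nat_lit 1824) (nat_lit 2096699167) (nat_lit 76) (nat_lit 4145627577) (nat_lit 409) (nat_lit 5) (nat_lit 433) (nat_lit 5) (nat_lit 410) (nat_lit 5) (nat_lit 419) (nat_lit 366) (nat_lit 355)) (XT.lf (nat_lit 0) (nat_lit 2935551168) (nat_lit 1140) (nat_lit 1172794704) (nat_lit 1216) (nat_lit 3146443952) (nat_lit 394) (nat_lit 5) (nat_lit 409) (nat_lit 5) (nat_lit 410) (nat_lit 5) (nat_lit 420) (nat_lit 366) (nat_lit 354)))))) (XT.nd (nat_lit 390) (nat_lit 4104) (nat_lit 0) (XT.nd (nat_lit 156) (nat_lit 1748) (nat_lit 0) (XT.nd (nat_lit 78) (nat_lit 76) (nat_lit 0) (XT.lf (nat_lit 0) (nat_lit 740772818) (nat_lit 912) (nat_lit 6533143442) (nat_lit 988) (nat_lit 25675962) (nat_lit 382) (nat_lit 5) (nat_lit 394) (nat_lit 5) (nat_lit 395) (nat_lit 5) (nat_lit 421) (nat_lit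 366) (nat_lit 353)) (XT.lf (nat_lit 0) (nat_lit 3093222656) (nat_lit 988) (nat_lit 1475282756) (nat_lit 76) (nat_lit 2776857638) (nat_lit 381) (nat_lit 5) (nat_lit 394) (nat_lit 5) (nat_lit 382) (nat_lit 5) (nat_lit 422) (nat_lit 366) (nat_lit 352))) (XT.nd (nat_lit 78) (nat_lit 912) (nat_lit 0) (XT.lf (nat_lit 0) (nat_lit 3696822132) (nat_lit 836) (nat_lit 2542692110) (nat_lit 912) (nat_lit 1153248919) (nat_lit 370) (nat_lit 5) (nat_lit 381) (nat_lit 5) (nat_lit 382) (nat_lit 5) (nat_lit 423) (nat_lit 366) (nat_lit 351)) (XT.nd (nat_lit 78) (nat_lit 0) (nat_lit 0) (XT.lf (nat_lit 0) (nat_lit 1496164684) (nat_lit 836) (nat_lit 446507952) (nat_lit 912) (nat_lit 5498973780) (nat_lit 358) (nat_lit 5) (nat_lit 369) (nat_lit 5) (nat_lit 370) (nat_lit 5) (nat_lit 424) (nat_lit 366) (nat_lit 350)) (XT.lf (nat_lit 0) (nat_lit 5063456372) (nat_lit 912) (nat_lit 730137510) (nat_lit 76) (nat_lit 1698216308) (nat_lit 358) (nat_lit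 5) (nat_lit 370) (nat_lit 5) (nat_lit 359) (nat_lit 5) (nat_lit 425) (nat_lit 366) (nat_lit 349))))) (XT.nd (nat_lit 234) (nat_lit 1596) (nat_lit 0) (XT.nd (nat_lit 78) (nat_lit 1596) (nat_lit 0) (XT.lf (nat_lit 0) (nat_lit 670549896) (nat_lit 912) (nat_lit 2962518211) (nat_lit 76) (nat_lit 3910317886) (nat_lit 346) (nat_lit 5) (nat_lit 358) (nat_lit 5) (nat_lit 347) (nat_lit 5) (nat_lit 426) (nat_lit 366) (nat_lit 348)) (XT.nd (nat_lit 78) (nat_lit 760) (nat_lit 0) (XT.lf (nat_lit 0) (nat_lit 2365311152) (nat_lit 836) (nat_lit 1397796148) (nat_lit 912) (nat_lit 3833302855) (nat_lit 335) (nat_lit 5) (nat_lit 346) (nat_lit 5) (nat_lit 347) (nat_lit 5) (nat_lit 427) (nat_lit 366) (nat_lit 347)) (XT.lf (nat_lit 0) (nat_lit 123136191) (nat_lit 760) (nat_lit 6765454826) (nat_lit 836) (nat_lit 762503556) (nat_lit 325) (nat_lit 5) (nat_lit 335) (nat_lit 5) (nat_lit 336) (nat_lit 5) (nat_lit 428) (nat_lit 366) (nat_lit 346))))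 (XT.nd (nat_lit 78) (nat_lit 1520) (nat_lit 0) (XT.lf (nat_lit 0) (nat_lit 2328063464) (nat_lit 836) (nat_lit 2138400898) (nat_lit 76) (nat_lit 3240332432) (nat_lit 324) (nat_lit 5) (nat_lit 335) (nat_lit 5) (nat_lit 325) (nat_lit 5) (nat_lit 429) (nat_lit 366) (nat_lit 345)) (XT.nd (nat_lit 78) (nat_lit 760) (nat_lit 0) (XT.lf (nat_lit 0) (nat_lit 3336162054) (nat_lit 760) (nat_lit 2101659678) (nat_lit 836) (nat_lit 2326358774) (nat_lit 314) (nat_lit 5) (nat_lit 324) (nat_lit 5) (nat_lit 325) (nat_lit 5) (nat_lit 430) (nat_lit 366) (nat_lit 344)) (XT.lf (nat_lit 0) (nat_lit 746507159) (nat_lit 760) (nat_lit 6751579112) (nat_lit 76) (nat_lit 325147360) (nat_lit 304) (nat_lit 5) (nat_lit 314) (nat_lit 5) (nat_lit 305) (nat_lit 5) (nat_lit 431) (nat_lit 366) (nat_lit 343))))))))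
noncomputable def xc57 : XT := (XT.nd (nat_lit 1716) (nat_lit 6156) (nat_lit 0) (XT.nd (nat_lit 858) (nat_lit 4484) (nat_lit 0) (XT.nd (nat_lit 390) (nat_lit 2660) (nat_lit 0) (XT.nd (nat_lit 156) (nat_lit 1520) (nat_lit 0) (XT.nd (nat_lit 78) (nat_lit 760) (nat_lit 0) (XT.lf (nat_lit 0) (nat_lit 3840351538) (nat_lit 760) (nat_lit 1233492048) (nat_lit 76) (nat_lit 2809522157) (nat_lit 304) (nat_lit 5) (nat_lit 314) (nat_lit 5) (nat_lit 305) (nat_lit 5) (nat_lit 432) (nat_lit 366) (nat_lit 342)) (XT.lf (nat_lit 0) (nat_lit 4391333200) (nat_lit 760) (nat_lit 2581106499) (nat_lit 836) (nat_lit 972751980) (nat_lit 294) (nat_lit 5) (nat_lit 304) (nat_lit 5) (nat_lit 305) (nat_lit 5) (nat_lit 433) (nat_lit 366) (nat_lit 341))) (XT.nd (nat_lit 78) (nat_lit 760) (nat_lit 0) (XT.lf (nat_lit 0) (nat_lit 2089092425) (nat_lit 684) (nat_lit 11528426) (nat_lit 760) (nat_lit 5907970343) (nat_lit 284) (nat_lit 5) (nat_lit 293) (nat_lit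 5) (nat_lit 294) (nat_lit 5) (nat_lit 434) (nat_lit 366) (nat_lit 340)) (XT.nd (nat_lit 78) (nat_lit 760) (nat_lit 0) (XT.lf (nat_lit 0) (nat_lit 5212076888) (nat_lit 760) (nat_lit 265343069) (nat_lit 76) (nat_lit 2595934778) (nat_lit 284) (nat_lit 5) (nat_lit 294) (nat_lit 5) (nat_lit 285) (nat_lit 5) (nat_lit 435) (nat_lit 366) (nat_lit 339)) (XT.lf (nat_lit 0) (nat_lit 228563656) (nat_lit 760) (nat_lit 2627973939) (nat_lit 76) (nat_lit 5283151817) (nat_lit 274) (nat_lit 5) (nat_lit 284) (nat_lit 5) (nat_lit 275) (nat_lit 5) (nat_lit 436) (nat_lit 366) (nat_lit 338))))) (XT.nd (nat_lit 234) (nat_lit 1292) (nat_lit 0) (XT.nd (nat_lit 78) (nat_lit 760) (nat_lit 0) (XT.lf (nat_lit 0) (nat_lit 3161946988) (nat_lit 608) (nat_lit 152234776) (nat_lit 684) (nat_lit 4893361357) (nat_lit 266) (nat_lit 5) (nat_lit 274) (nat_lit 5) (nat_lit 275) (nat_lit 5) (nat_lit 437) (nat_lit 366) (nat_lit 337)) (XT.nd (nat_lit 78) (nat_lit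 76) (nat_lit 0) (XT.lf (nat_lit 0) (nat_lit 758104236) (nat_lit 684) (nat_lit 5693451480) (nat_lit 760) (nat_lit 1825413441) (nat_lit 257) (nat_lit 5) (nat_lit 266) (nat_lit 5) (nat_lit 267) (nat_lit 5) (nat_lit 438) (nat_lit 366) (nat_lit 336)) (XT.lf (nat_lit 0) (nat_lit 1272566007) (nat_lit 760) (nat_lit 1672485524) (nat_lit 76) (nat_lit 5402862899) (nat_lit 256) (nat_lit 5) (nat_lit 266) (nat_lit 5) (nat_lit 257) (nat_lit 5) (nat_lit 439) (nat_lit 366) (nat_lit 335)))) (XT.nd (nat_lit 78) (nat_lit 684) (nat_lit 0) (XT.lf (nat_lit 0) (nat_lit 4274048495) (nat_lit 608) (nat_lit 113436441) (nat_lit 684) (nat_lit 4032979100) (nat_lit 248) (nat_lit 5) (nat_lit 256) (nat_lit 5) (nat_lit 257) (nat_lit 5) (nat_lit 440) (nat_lit 366) (nat_lit 334)) (XT.nd (nat_lit 78) (nat_lit 76) (nat_lit 0) (XT.lf (nat_lit 0) (nat_lit 1812394867) (nat_lit 608) (nat_lit 5745512353) (nat_lit 684) (nat_lit 936708211) (nat_lit 240) (nat_lit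 5) (nat_lit 248) (nat_lit 5) (nat_lit 249) (nat_lit 5) (nat_lit 441) (nat_lit 366) (nat_lit 333)) (XT.lf (nat_lit 0) (nat_lit 2173453173) (nat_lit 684) (nat_lit 699938652) (nat_lit 76) (nat_lit 5696961872) (nat_lit 239) (nat_lit 5) (nat_lit 248) (nat_lit 5) (nat_lit 240) (nat_lit 5) (nat_lit 442) (nat_lit 366) (nat_lit 332)))))) (XT.nd (nat_lit 390) (nat_lit 2128) (nat_lit 0) (XT.nd (nat_lit 156) (nat_lit 1216) (nat_lit 0) (XT.nd (nat_lit 78) (nat_lit 608) (nat_lit 0) (XT.lf (nat_lit 0) (nat_lit 5322214055) (nat_lit 608) (nat_lit 3241856016) (nat_lit 76) (nat_lit 83648083) (nat_lit 232) (nat_lit 5) (nat_lit 240) (nat_lit 5) (nat_lit 233) (nat_lit 5) (nat_lit 443) (nat_lit 366) (nat_lit 331)) (XT.lf (nat_lit 0) (nat_lit 2874651492) (nat_lit 608) (nat_lit 5655433295) (nat_lit 684) (nat_lit 196636183) (nat_lit 224) (nat_lit 5) (nat_lit 232) (nat_lit 5) (nat_lit 233) (nat_lit 5) (nat_lit 444) (nat_lit 366) (nat_lit 330)))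 (XT.nd (nat_lit 78) (nat_lit 608) (nat_lit 0) (XT.lf (nat_lit 0) (nat_lit 273617856) (nat_lit 532) (nat_lit 2659501760) (nat_lit 608) (nat_lit 5874256808) (nat_lit 216) (nat_lit 5) (nat_lit 223) (nat_lit 5) (nat_lit 224) (nat_lit 5) (nat_lit 445) (nat_lit 366) (nat_lit 329)) (XT.nd (nat_lit 78) (nat_lit 608) (nat_lit 0) (XT.lf (nat_lit 0) (nat_lit 6119270147) (nat_lit 608) (nat_lit 2353223235) (nat_lit 76) (nat_lit 417209924) (nat_lit 216) (nat_lit 5) (nat_lit 224) (nat_lit 5) (nat_lit 217) (nat_lit 5) (nat_lit 446) (nat_lit 366) (nat_lit 328)) (XT.lf (nat_lit 0) (nat_lit 388572204) (nat_lit 608) (nat_lit 5051667207) (nat_lit 76) (nat_lit 3533432590) (nat_lit 208) (nat_lit 5) (nat_lit 216) (nat_lit 5) (nat_lit 209) (nat_lit 5) (nat_lit 447) (nat_lit 366) (nat_lit 327))))) (XT.nd (nat_lit 234) (nat_lit 988) (nat_lit 0) (XT.nd (nat_lit 78) (nat_lit 608) (nat_lit 0) (XT.lf (nat_lit 0) (nat_lit 1232971648) (nat_lit 532)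 (nat_lit 2320031914) (nat_lit 608) (nat_lit 5506375634) (nat_lit 201) (nat_lit 5) (nat_lit 208) (nat_lit 5) (nat_lit 209) (nat_lit 5) (nat_lit 448) (nat_lit 366) (nat_lit 326)) (XT.nd (nat_lit 78) (nat_lit 608) (nat_lit 0) (XT.lf (nat_lit 0) (nat_lit 6776235821) (nat_lit 608) (nat_lit 1500940285) (nat_lit 76) (nat_lit 869726164) (nat_lit 201) (nat_lit 5) (nat_lit 209) (nat_lit 5) (nat_lit 202) (nat_lit 5) (nat_lit 449) (nat_lit 366) (nat_lit 325)) (XT.lf (nat_lit 0) (nat_lit 821015177) (nat_lit 608) (nat_lit 4300615567) (nat_lit 76) (nat_lit 4114366799) (nat_lit 193) (nat_lit 5) (nat_lit 201) (nat_lit 5) (nat_lit 194) (nat_lit 5) (nat_lit 450) (nat_lit 366) (nat_lit 324)))) (XT.nd (nat_lit 78) (nat_lit 532) (nat_lit 0) (XT.lf (nat_lit 0) (nat_lit 2146716930) (nat_lit 456) (nat_lit 1879001834) (nat_lit 532) (nat_lit 5301235215) (nat_lit 187) (nat_lit 5) (nat_lit 193) (nat_lit 5) (nat_lit 194) (nat_lit 5) (nat_lit 451)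 (nat_lit 366) (nat_lit 323)) (XT.nd (nat_lit 78) (nat_lit 532) (nat_lit 0) (XT.lf (nat_lit 0) (nat_lit 7290019553) (nat_lit 532) (nat_lit 707464149) (nat_lit 76) (nat_lit 1422346844) (nat_lit 187) (nat_lit 5) (nat_lit 194) (nat_lit 5) (nat_lit 188) (nat_lit 5) (nat_lit 452) (nat_lit 366) (nat_lit 322)) (XT.lf (nat_lit 0) (nat_lit 1099369215) (nat_lit 532) (nat_lit 3620881744) (nat_lit 76) (nat_lit 4794004425) (nat_lit 180) (nat_lit 5) (nat_lit 187) (nat_lit 5) (nat_lit 181) (nat_lit 5) (nat_lit 453) (nat_lit 366) (nat_lit 321))))))) (XT.nd (nat_lit 858) (nat_lit 2660) (nat_lit 0) (XT.nd (nat_lit 390) (nat_lit 1672) (nat_lit 0) (XT.nd (nat_lit 156) (nat_lit 912) (nat_lit 0) (XT.nd (nat_lit 78) (nat_lit 456) (nat_lit 0) (XT.lf (nat_lit 0) (nat_lit 2991302314) (nat_lit 456) (nat_lit 1355714552) (nat_lit 532) (nat_lit 5263632681) (nat_lit 174) (nat_lit 5) (nat_lit 180) (nat_lit 5) (nat_lit 181) (nat_lit 5) (nat_lit 454)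 (nat_lit 366) (nat_lit 320)) (XT.lf (nat_lit 0) (nat_lit 3255253) (nat_lit 456) (nat_lit 7652822663) (nat_lit 532) (nat_lit 2052974691) (nat_lit 168) (nat_lit 5) (nat_lit 174) (nat_lit 5) (nat_lit 175) (nat_lit 5) (nat_lit 455) (nat_lit 366) (nat_lit 319))) (XT.nd (nat_lit 78) (nat_lit 836) (nat_lit 0) (XT.lf (nat_lit 0) (nat_lit 1218211889) (nat_lit 532) (nat_lit 3037345870) (nat_lit 76) (nat_lit 5553470313) (nat_lit 167) (nat_lit 5) (nat_lit 174) (nat_lit 5) (nat_lit 168) (nat_lit 5) (nat_lit 456) (nat_lit 366) (nat_lit 318)) (XT.nd (nat_lit 78) (nat_lit 456) (nat_lit 0) (XT.lf (nat_lit 0) (nat_lit 3741476829) (nat_lit 380) (nat_lit 769633798) (nat_lit 456) (nat_lit 5399955096) (nat_lit 162) (nat_lit 5) (nat_lit 167) (nat_lit 5) (nat_lit 168) (nat_lit 5) (nat_lit 457) (nat_lit 366) (nat_lit 317)) (XT.lf (nat_lit 0) (nat_lit 613349449) (nat_lit 456) (nat_lit 7258866982) (nat_lit 532) (nat_lit 2142890161) (nat_lit 156)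 (nat_lit 5) (nat_lit 162) (nat_lit 5) (nat_lit 163) (nat_lit 5) (nat_lit 458) (nat_lit 366) (nat_lit 316))))) (XT.nd (nat_lit 234) (nat_lit 836) (nat_lit 0) (XT.nd (nat_lit 78) (nat_lit 760) (nat_lit 0) (XT.lf (nat_lit 0) (nat_lit 1170519389) (nat_lit 532) (nat_lit 2576789236) (nat_lit 76) (nat_lit 6373642188) (nat_lit 155) (nat_lit 5) (nat_lit 162) (nat_lit 5) (nat_lit 156) (nat_lit 5) (nat_lit 459) (nat_lit 366) (nat_lit 315)) (XT.nd (nat_lit 78) (nat_lit 380) (nat_lit 0) (XT.lf (nat_lit 0) (nat_lit 4370017972) (nat_lit 380) (nat_lit 140570029) (nat_lit 456) (nat_lit 5718267846) (nat_lit 150) (nat_lit 5) (nat_lit 155) (nat_lit 5) (nat_lit 156) (nat_lit 5) (nat_lit 460) (nat_lit 366) (nat_lit 314)) (XT.lf (nat_lit 0) (nat_lit 1085192989) (nat_lit 380) (nat_lit 6840652408) (nat_lit 456) (nat_lit 2412914562) (nat_lit 145) (nat_lit 5) (nat_lit 150) (nat_lit 5) (nat_lit 151) (nat_lit 5) (nat_lit 461) (nat_lit 366) (nat_lit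 313)))) (XT.nd (nat_lit 78) (nat_lit 760) (nat_lit 0) (XT.lf (nat_lit 0) (nat_lit 947570467) (nat_lit 456) (nat_lit 2268180766) (nat_lit 76) (nat_lit 7234962914) (nat_lit 144) (nat_lit 5) (nat_lit 150) (nat_lit 5) (nat_lit 145) (nat_lit 5) (nat_lit 462) (nat_lit 366) (nat_lit 312)) (XT.nd (nat_lit 78) (nat_lit 380) (nat_lit 0) (XT.lf (nat_lit 0) (nat_lit 4339629781) (nat_lit 456) (nat_lit 5720610772) (nat_lit 76) (nat_lit 504422632) (nat_lit 139) (nat_lit 5) (nat_lit 145) (nat_lit 5) (nat_lit 140) (nat_lit 5) (nat_lit 463) (nat_lit 366) (nat_lit 311)) (XT.lf (nat_lit 0) (nat_lit 1388161762) (nat_lit 380) (nat_lit 6419108200) (nat_lit 456) (nat_lit 2873474510) (nat_lit 134) (nat_lit 5) (nat_lit 139) (nat_lit 5) (nat_lit 140) (nat_lit 5) (nat_lit 464) (nat_lit 366) (nat_lit 310)))))) (XT.nd (nat_lit 390) (nat_lit 1444) (nat_lit 0) (XT.nd (nat_lit 156) (nat_lit 760) (nat_lit 0) (XT.nd (nat_lit 78) (nat_lit 380) (nat_lit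 0) (XT.lf (nat_lit 0) (nat_lit 538834653) (nat_lit 456) (nat_lit 2142987818) (nat_lit 76) (nat_lit 8117244510) (nat_lit 133) (nat_lit 5) (nat_lit 139) (nat_lit 5) (nat_lit 134) (nat_lit 5) (nat_lit 465) (nat_lit 366) (nat_lit 309)) (XT.lf (nat_lit 0) (nat_lit 3984859539) (nat_lit 456) (nat_lit 5785354622) (nat_lit 76) (nat_lit 1149090595) (nat_lit 128) (nat_lit 5) (nat_lit 134) (nat_lit 5) (nat_lit 129) (nat_lit 5) (nat_lit 466) (nat_lit 366) (nat_lit 308))) (XT.nd (nat_lit 78) (nat_lit 380) (nat_lit 0) (XT.lf (nat_lit 0) (nat_lit 1488900591) (nat_lit 380) (nat_lit 6016011432) (nat_lit 456) (nat_lit 3536940570) (nat_lit 123) (nat_lit 5) (nat_lit 128) (nat_lit 5) (nat_lit 129) (nat_lit 5) (nat_lit 467) (nat_lit 366) (nat_lit 307)) (XT.nd (nat_lit 78) (nat_lit 380) (nat_lit 0) (XT.lf (nat_lit 0) (nat_lit 8930848305) (nat_lit 380) (nat_lit 2166900481) (nat_lit 456) (nat_lit 69062238) (nat_lit 123) (nat_lit 5) (nat_lit 128)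 (nat_lit 5) (nat_lit 129) (nat_lit 5) (nat_lit 468) (nat_lit 366) (nat_lit 306)) (XT.lf (nat_lit 0) (nat_lit 3432263769) (nat_lit 380) (nat_lit 6087852887) (nat_lit 76) (nat_lit 1773517115) (nat_lit 118) (nat_lit 5) (nat_lit 123) (nat_lit 5) (nat_lit 119) (nat_lit 5) (nat_lit 469) (nat_lit 366) (nat_lit 305))))) (XT.nd (nat_lit 234) (nat_lit 684) (nat_lit 0) (XT.nd (nat_lit 78) (nat_lit 380) (nat_lit 0) (XT.lf (nat_lit 0) (nat_lit 1350962977) (nat_lit 380) (nat_lit 5654205626) (nat_lit 456) (nat_lit 4417772580) (nat_lit 113) (nat_lit 5) (nat_lit 118) (nat_lit 5) (nat_lit 119) (nat_lit 5) (nat_lit 470) (nat_lit 366) (nat_lit 304)) (XT.nd (nat_lit 78) (nat_lit 380) (nat_lit 0) (XT.lf (nat_lit 0) (nat_lit 8965621252) (nat_lit 380) (nat_lit 1689354539) (nat_lit 456) (nat_lit 899756813) (nat_lit 113) (nat_lit 5) (nat_lit 118) (nat_lit 5) (nat_lit 119) (nat_lit 5) (nat_lit 471) (nat_lit 366) (nat_lit 303)) (XT.lf (nat_lit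 0) (nat_lit 2666603616) (nat_lit 380) (nat_lit 6667173943) (nat_lit 76) (nat_lit 2354774731) (nat_lit 108) (nat_lit 5) (nat_lit 113) (nat_lit 5) (nat_lit 109) (nat_lit 5) (nat_lit 472) (nat_lit 366) (nat_lit 302)))) (XT.nd (nat_lit 78) (nat_lit 380) (nat_lit 0) (XT.lf (nat_lit 0) (nat_lit 934417667) (nat_lit 304) (nat_lit 5357833170) (nat_lit 380) (nat_lit 5532684795) (nat_lit 104) (nat_lit 5) (nat_lit 108) (nat_lit 5) (nat_lit 109) (nat_lit 5) (nat_lit 473) (nat_lit 366) (nat_lit 301)) (XT.nd (nat_lit 78) (nat_lit 380) (nat_lit 0) (XT.lf (nat_lit 0) (nat_lit 8723729635) (nat_lit 304) (nat_lit 1276999949) (nat_lit 380) (nat_lit 1963116918) (nat_lit 104) (nat_lit 5) (nat_lit 108) (nat_lit 5) (nat_lit 109) (nat_lit 5) (nat_lit 474) (nat_lit 366) (nat_lit 300)) (XT.lf (nat_lit 0) (nat_lit 1670327030) (nat_lit 380) (nat_lit 7566176279) (nat_lit 76) (nat_lit 2868530599) (nat_lit 99) (nat_lit 5) (nat_lit 104) (nat_lit 5) (nat_lit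 100) (nat_lit 5) (nat_lit 475) (nat_lit 366) (nat_lit 299))))))))
noncomputable def xc58 : XT := (XT.nd (nat_lit 1716) (nat_lit 1064) (nat_lit 0) (XT.nd (nat_lit 858) (nat_lit 1520) (nat_lit 0) (XT.nd (nat_lit 390) (nat_lit 1140) (nat_lit 0) (XT.nd (nat_lit 156) (nat_lit 684) (nat_lit 0) (XT.nd (nat_lit 78) (nat_lit 0) (nat_lit 0) (XT.lf (nat_lit 0) (nat_lit 195418188) (nat_lit 304) (nat_lit 5152583689) (nat_lit 380) (nat_lit 6900832570) (nat_lit 95) (nat_lit 5) (nat_lit 99) (nat_lit 5) (nat_lit 100) (nat_lit 5) (nat_lit 476) (nat_lit 366) (nat_lit 298)) (XT.lf (nat_lit 0) (nat_lit 8160897976) (nat_lit 304) (nat_lit 955628758) (nat_lit 380) (nat_lit 3278644090) (nat_lit 95) (nat_lit 5) (nat_lit 99) (nat_lit 5) (nat_lit 100) (nat_lit 5) (nat_lit 477) (nat_lit 366) (nat_lit 297))) (XT.nd (nat_lit 78) (nat_lit 304) (nat_lit 0) (XT.lf (nat_lit 0) (nat_lit 423371262) (nat_lit 380) (nat_lit 8831966220) (nat_lit 76) (nat_lit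 3288791186) (nat_lit 90) (nat_lit 5) (nat_lit 95) (nat_lit 5) (nat_lit 91) (nat_lit 5) (nat_lit 478) (nat_lit 366) (nat_lit 296)) (XT.nd (nat_lit 78) (nat_lit 304) (nat_lit 0) (XT.lf (nat_lit 0) (nat_lit 4157627877) (nat_lit 380) (nat_lit 902278064) (nat_lit 76) (nat_lit 7635689675) (nat_lit 90) (nat_lit 5) (nat_lit 95) (nat_lit 5) (nat_lit 91) (nat_lit 5) (nat_lit 479) (nat_lit 366) (nat_lit 295)) (XT.lf (nat_lit 0) (nat_lit 7228379769) (nat_lit 304) (nat_lit 752895727) (nat_lit 380) (nat_lit 4868527611) (nat_lit 86) (nat_lit 5) (nat_lit 90) (nat_lit 5) (nat_lit 91) (nat_lit 5) (nat_lit 480) (nat_lit 366) (nat_lit 294))))) (XT.nd (nat_lit 234) (nat_lit 532) (nat_lit 0) (XT.nd (nat_lit 78) (nat_lit 380) (nat_lit 0) (XT.lf (nat_lit 0) (nat_lit 2483206667) (nat_lit 228) (nat_lit 9411979177) (nat_lit 304) (nat_lit 1111638322) (nat_lit 83) (nat_lit 5) (nat_lit 86) (nat_lit 5) (nat_lit 87) (nat_lit 5) (nat_lit 481) (nat_lit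 366) (nat_lit 293)) (XT.nd (nat_lit 78) (nat_lit 304) (nat_lit 0) (XT.lf (nat_lit 0) (nat_lit 2695680293) (nat_lit 304) (nat_lit 2415678323) (nat_lit 76) (nat_lit 8055059392) (nat_lit 82) (nat_lit 5) (nat_lit 86) (nat_lit 5) (nat_lit 83) (nat_lit 5) (nat_lit 482) (nat_lit 366) (nat_lit 292)) (XT.lf (nat_lit 0) (nat_lit 5872430851) (nat_lit 304) (nat_lit 698609786) (nat_lit 380) (nat_lit 6757885442) (nat_lit 78) (nat_lit 5) (nat_lit 82) (nat_lit 5) (nat_lit 83) (nat_lit 5) (nat_lit 483) (nat_lit 366) (nat_lit 291)))) (XT.nd (nat_lit 78) (nat_lit 304) (nat_lit 0) (XT.lf (nat_lit 0) (nat_lit 798565321) (nat_lit 228) (nat_lit 9740322244) (nat_lit 304) (nat_lit 2955501976) (nat_lit 75) (nat_lit 5) (nat_lit 78) (nat_lit 5) (nat_lit 79) (nat_lit 5) (nat_lit 484) (nat_lit 366) (nat_lit 290)) (XT.nd (nat_lit 78) (nat_lit 228) (nat_lit 0) (XT.lf (nat_lit 0) (nat_lit 934677132) (nat_lit 304) (nat_lit 4405187847) (nat_lit 76) (nat_lit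 8322705032) (nat_lit 74) (nat_lit 5) (nat_lit 78) (nat_lit 5) (nat_lit 75) (nat_lit 5) (nat_lit 485) (nat_lit 366) (nat_lit 289)) (XT.lf (nat_lit 0) (nat_lit 4033730753) (nat_lit 228) (nat_lit 825049609) (nat_lit 304) (nat_lit 8975033656) (nat_lit 71) (nat_lit 5) (nat_lit 74) (nat_lit 5) (nat_lit 75) (nat_lit 5) (nat_lit 486) (nat_lit 366) (nat_lit 288)))))) (XT.nd (nat_lit 390) (nat_lit 760) (nat_lit 0) (XT.nd (nat_lit 156) (nat_lit 532) (nat_lit 0) (XT.nd (nat_lit 78) (nat_lit 228) (nat_lit 0) (XT.lf (nat_lit 0) (nat_lit 8885272332) (nat_lit 304) (nat_lit 1382493155) (nat_lit 76) (nat_lit 3740243737) (nat_lit 71) (nat_lit 5) (nat_lit 75) (nat_lit 5) (nat_lit 72) (nat_lit 5) (nat_lit 487) (nat_lit 366) (nat_lit 287)) (XT.lf (nat_lit 0) (nat_lit 7242973600) (nat_lit 228) (nat_lit 5772013678) (nat_lit 304) (nat_lit 1170251554) (nat_lit 68) (nat_lit 5) (nat_lit 71) (nat_lit 5) (nat_lit 72) (nat_lit 5) (nat_lit 488) (nat_lit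 366) (nat_lit 286))) (XT.nd (nat_lit 78) (nat_lit 228) (nat_lit 0) (XT.lf (nat_lit 0) (nat_lit 1646746307) (nat_lit 228) (nat_lit 1167306354) (nat_lit 304) (nat_lit 11551787112) (nat_lit 64) (nat_lit 5) (nat_lit 67) (nat_lit 5) (nat_lit 68) (nat_lit 5) (nat_lit 489) (nat_lit 366) (nat_lit 285)) (XT.nd (nat_lit 78) (nat_lit 228) (nat_lit 0) (XT.lf (nat_lit 0) (nat_lit 6902591947) (nat_lit 304) (nat_lit 4128660152) (nat_lit 76) (nat_lit 3517845664) (nat_lit 64) (nat_lit 5) (nat_lit 68) (nat_lit 5) (nat_lit 65) (nat_lit 5) (nat_lit 490) (nat_lit 366) (nat_lit 284)) (XT.lf (nat_lit 0) (nat_lit 4637449657) (nat_lit 228) (nat_lit 6444266198) (nat_lit 304) (nat_lit 3654132814) (nat_lit 61) (nat_lit 5) (nat_lit 64) (nat_lit 5) (nat_lit 65) (nat_lit 5) (nat_lit 491) (nat_lit 366) (nat_lit 283))))) (XT.nd (nat_lit 234) (nat_lit 304) (nat_lit 0) (XT.nd (nat_lit 78) (nat_lit 380) (nat_lit 0) (XT.lf (nat_lit 0) (nat_lit 411524444)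 (nat_lit 304) (nat_lit 1343119399) (nat_lit 76) (nat_lit 13171661931) (nat_lit 60) (nat_lit 5) (nat_lit 64) (nat_lit 5) (nat_lit 61) (nat_lit 5) (nat_lit 492) (nat_lit 366) (nat_lit 282)) (XT.nd (nat_lit 78) (nat_lit 152) (nat_lit 0) (XT.lf (nat_lit 0) (nat_lit 4550673129) (nat_lit 304) (nat_lit 7525082185) (nat_lit 76) (nat_lit 3043515288) (nat_lit 57) (nat_lit 5) (nat_lit 61) (nat_lit 5) (nat_lit 58) (nat_lit 5) (nat_lit 493) (nat_lit 366) (nat_lit 281)) (XT.lf (nat_lit 0) (nat_lit 1370385955) (nat_lit 152) (nat_lit 7403524662) (nat_lit 228) (nat_lit 6542161717) (nat_lit 55) (nat_lit 5) (nat_lit 57) (nat_lit 5) (nat_lit 58) (nat_lit 5) (nat_lit 494) (nat_lit 366) (nat_lit 280)))) (XT.nd (nat_lit 78) (nat_lit 304) (nat_lit 0) (XT.lf (nat_lit 0) (nat_lit 10497645303) (nat_lit 152) (nat_lit 2606422459) (nat_lit 228) (nat_lit 2412296892) (nat_lit 55) (nat_lit 5) (nat_lit 57) (nat_lit 5) (nat_lit 58) (nat_lit 5) (nat_lit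 495) (nat_lit 366) (nat_lit 279)) (XT.nd (nat_lit 78) (nat_lit 0) (nat_lit 0) (XT.lf (nat_lit 0) (nat_lit 1790344783) (nat_lit 304) (nat_lit 11654353543) (nat_lit 76) (nat_lit 2275458465) (nat_lit 51) (nat_lit 5) (nat_lit 55) (nat_lit 5) (nat_lit 52) (nat_lit 5) (nat_lit 496) (nat_lit 366) (nat_lit 278)) (XT.lf (nat_lit 0) (nat_lit 6068360567) (nat_lit 304) (nat_lit 2608425737) (nat_lit 76) (nat_lit 7250450563) (nat_lit 51) (nat_lit 5) (nat_lit 55) (nat_lit 5) (nat_lit 52) (nat_lit 5) (nat_lit 497) (nat_lit 366) (nat_lit 277))))))) (XT.nd (nat_lit 52338) (nat_lit 0) (nat_lit 30096) (XT.nd (nat_lit 390) (nat_lit 456) (nat_lit 0) (XT.nd (nat_lit 156) (nat_lit 456) (nat_lit 0) (XT.nd (nat_lit 78) (nat_lit 0) (nat_lit 0) (XT.lf (nat_lit 0) (nat_lit 6659028204) (nat_lit 152) (nat_lit 3789113267) (nat_lit 228) (nat_lit 5689996351) (nat_lit 49) (nat_lit 5) (nat_lit 51) (nat_lit 5) (nat_lit 52) (nat_lit 5) (nat_lit 498) (nat_lit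 366) (nat_lit 276)) (XT.lf (nat_lit 0) (nat_lit 14913976304) (nat_lit 228) (nat_lit 260432095) (nat_lit 76) (nat_lit 1178882538) (nat_lit 49) (nat_lit 5) (nat_lit 52) (nat_lit 5) (nat_lit 50) (nat_lit 5) (nat_lit 499) (nat_lit 366) (nat_lit 275))) (XT.nd (nat_lit 78) (nat_lit 152) (nat_lit 0) (XT.lf (nat_lit 0) (nat_lit 2917151911) (nat_lit 304) (nat_lit 7398605250) (nat_lit 76) (nat_lit 6255441872) (nat_lit 45) (nat_lit 5) (nat_lit 49) (nat_lit 5) (nat_lit 46) (nat_lit 5) (nat_lit 500) (nat_lit 366) (nat_lit 274)) (XT.nd (nat_lit 78) (nat_lit 0) (nat_lit 0) (XT.lf (nat_lit 0) (nat_lit 1974771724) (nat_lit 152) (nat_lit 5354946645) (nat_lit 228) (nat_lit 9463794901) (nat_lit 43) (nat_lit 5) (nat_lit 45) (nat_lit 5) (nat_lit 46) (nat_lit 5) (nat_lit 501) (nat_lit 366) (nat_lit 273)) (XT.lf (nat_lit 0) (nat_lit 11590244305) (nat_lit 152) (nat_lit 263804948) (nat_lit 228) (nat_lit 5165757331) (nat_lit 43) (nat_lit 5) (nat_lit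 45) (nat_lit 5) (nat_lit 46) (nat_lit 5) (nat_lit 502) (nat_lit 366) (nat_lit 272))))) (XT.nd (nat_lit 234) (nat_lit 0) (nat_lit 0) (XT.nd (nat_lit 78) (nat_lit 228) (nat_lit 0) (XT.lf (nat_lit 0) (nat_lit 4124330736) (nat_lit 228) (nat_lit 12377570014) (nat_lit 304) (nat_lit 748067331) (nat_lit 40) (nat_lit 5) (nat_lit 43) (nat_lit 5) (nat_lit 44) (nat_lit 5) (nat_lit 503) (nat_lit 366) (nat_lit 271)) (XT.nd (nat_lit 78) (nat_lit 152) (nat_lit 0) (XT.lf (nat_lit 0) (nat_lit 3721407814) (nat_lit 304) (nat_lit 3612696170) (nat_lit 76) (nat_lit 10149889358) (nat_lit 39) (nat_lit 5) (nat_lit 43) (nat_lit 5) (nat_lit 40) (nat_lit 5) (nat_lit 504) (nat_lit 366) (nat_lit 270)) (XT.lf (nat_lit 0) (nat_lit 6121515689) (nat_lit 152) (nat_lit 2163292805) (nat_lit 228) (nat_lit 9437503491) (nat_lit 37) (nat_lit 5) (nat_lit 39) (nat_lit 5) (nat_lit 40) (nat_lit 5) (nat_lit 505) (nat_lit 366) (nat_lit 269)))) (XT.nd (nat_lit 51558)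 (nat_lit 0) (nat_lit 40584) (XT.lf (nat_lit 0) (nat_lit 12958962147) (nat_lit 228) (nat_lit 1930294416) (nat_lit 76) (nat_lit 3075753504) (nat_lit 37) (nat_lit 5) (nat_lit 40) (nat_lit 5) (nat_lit 38) (nat_lit 5) (nat_lit 506) (nat_lit 366) (nat_lit 268)) (XT.nd (nat_lit 78) (nat_lit 1140) (nat_lit 0) (XT.lf (nat_lit 0) (nat_lit 1496586226) (nat_lit 1140) (nat_lit 393263565) (nat_lit 0) (nat_lit 1496586226) (nat_lit 586) (nat_lit 5) (nat_lit 601) (nat_lit 4) (nat_lit 586) (nat_lit 4) (nat_lit 406) (nat_lit 367) (nat_lit 367)) (XT.lf (nat_lit 0) (nat_lit 3690728564) (nat_lit 1140) (nat_lit 2581797710) (nat_lit 1140) (nat_lit 526645503) (nat_lit 571) (nat_lit 4) (nat_lit 586) (nat_lit 5) (nat_lit 586) (nat_lit 4) (nat_lit 407) (nat_lit 367) (nat_lit 366)))))) (XT.nd (nat_lit 390) (nat_lit 6384) (nat_lit 0) (XT.nd (nat_lit 156) (nat_lit 2812) (nat_lit 0) (XT.nd (nat_lit 78) (nat_lit 0) (nat_lit 0) (XT.lf (nat_lit 0) (nat_lit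 1382631656) (nat_lit 1216) (nat_lit 1316694565) (nat_lit 1292) (nat_lit 4127455783) (nat_lit 554) (nat_lit 5) (nat_lit 570) (nat_lit 5) (nat_lit 571) (nat_lit 4) (nat_lit 408) (nat_lit 367) (nat_lit 365)) (XT.lf (nat_lit 0) (nat_lit 5934822843) (nat_lit 1292) (nat_lit 913042654) (nat_lit 0) (nat_lit 8003771) (nat_lit 554) (nat_lit 5) (nat_lit 571) (nat_lit 4) (nat_lit 554) (nat_lit 4) (nat_lit 409) (nat_lit 367) (nat_lit 364))) (XT.nd (nat_lit 78) (nat_lit 1444) (nat_lit 0) (XT.lf (nat_lit 0) (nat_lit 2283655010) (nat_lit 1368) (nat_lit 3212478916) (nat_lit 76) (nat_lit 1389833921) (nat_lit 536) (nat_lit 5) (nat_lit 554) (nat_lit 5) (nat_lit 537) (nat_lit 4) (nat_lit 410) (nat_lit 367) (nat_lit 363)) (XT.nd (nat_lit 78) (nat_lit 76) (nat_lit 0) (XT.lf (nat_lit 0) (nat_lit 1399734224) (nat_lit 1368) (nat_lit 4088687030) (nat_lit 1444) (nat_lit 1429192858) (nat_lit 518) (nat_lit 5) (nat_lit 536) (nat_lit 5) (nat_lit 537)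 (nat_lit 4) (nat_lit 411) (nat_lit 367) (nat_lit 362)) (XT.lf (nat_lit 0) (nat_lit 1738877756) (nat_lit 1444) (nat_lit 874188141) (nat_lit 76) (nat_lit 4337521103) (nat_lit 517) (nat_lit 5) (nat_lit 536) (nat_lit 5) (nat_lit 518) (nat_lit 5) (nat_lit 412) (nat_lit 367) (nat_lit 361))))) (XT.nd (nat_lit 234) (nat_lit 3344) (nat_lit 0) (XT.nd (nat_lit 78) (nat_lit 1596) (nat_lit 0) (XT.lf (nat_lit 0) (nat_lit 3843928285) (nat_lit 1444) (nat_lit 1067016183) (nat_lit 1520) (nat_lit 2073922119) (nat_lit 498) (nat_lit 5) (nat_lit 517) (nat_lit 5) (nat_lit 518) (nat_lit 5) (nat_lit 413) (nat_lit 367) (nat_lit 360)) (XT.nd (nat_lit 78) (nat_lit 0) (nat_lit 0) (XT.lf (nat_lit 0) (nat_lit 1066887532) (nat_lit 1596) (nat_lit 5421879049) (nat_lit 76) (nat_lit 531848421) (nat_lit 477) (nat_lit 5) (nat_lit 498) (nat_lit 5) (nat_lit 478) (nat_lit 5) (nat_lit 414) (nat_lit 367) (nat_lit 359)) (XT.lf (nat_lit 0) (nat_lit 4207200034)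 (nat_lit 1596) (nat_lit 662657570) (nat_lit 76) (nat_lit 2187687268) (nat_lit 477) (nat_lit 5) (nat_lit 498) (nat_lit 5) (nat_lit 478) (nat_lit 5) (nat_lit 415) (nat_lit 367) (nat_lit 358)))) (XT.nd (nat_lit 78) (nat_lit 1672) (nat_lit 0) (XT.lf (nat_lit 0) (nat_lit 275293557) (nat_lit 1672) (nat_lit 2910747445) (nat_lit 76) (nat_lit 3909873638) (nat_lit 455) (nat_lit 5) (nat_lit 477) (nat_lit 5) (nat_lit 456) (nat_lit 5) (nat_lit 416) (nat_lit 367) (nat_lit 357)) (XT.nd (nat_lit 78) (nat_lit 0) (nat_lit 0) (XT.lf (nat_lit 0) (nat_lit 1950534369) (nat_lit 1672) (nat_lit 1429725062) (nat_lit 1748) (nat_lit 3755344009) (nat_lit 433) (nat_lit 5) (nat_lit 455) (nat_lit 5) (nat_lit 456) (nat_lit 5) (nat_lit 417) (nat_lit 367) (nat_lit 356)) (XT.lf (nat_lit 0) (nat_lit 6507982413) (nat_lit 1748) (nat_lit 290654923) (nat_lit 76) (nat_lit 378263043) (nat_lit 433) (nat_lit 5) (nat_lit 456) (nat_lit 5) (nat_lit 434) (nat_lit 5)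 (nat_lit 418) (nat_lit 367) (nat_lit 355))))))))
noncomputable def xc59 : XT := (XT.nd (nat_lit 1716) (nat_lit 7904) (nat_lit 0) (XT.nd (nat_lit 858) (nat_lit 5776) (nat_lit 0) (XT.nd (nat_lit 390) (nat_lit 3420) (nat_lit 0) (XT.nd (nat_lit 156) (nat_lit 1900) (nat_lit 0) (XT.nd (nat_lit 78) (nat_lit 1140) (nat_lit 0) (XT.lf (nat_lit 0) (nat_lit 2426355463) (nat_lit 1824) (nat_lit 2541459770) (nat_lit 76) (nat_lit 2251319850) (nat_lit 409) (nat_lit 5) (nat_lit 433) (nat_lit 5) (nat_lit 410) (nat_lit 5) (nat_lit 419) (nat_lit 367) (nat_lit 354)) (XT.lf (nat_lit 0) (nat_lit 2454676487) (nat_lit 1140) (nat_lit 3078035077) (nat_lit 1216) (nat_lit 1730277739) (nat_lit 394) (nat_lit 5) (nat_lit 409) (nat_lit 5) (nat_lit 410) (nat_lit 5) (nat_lit 420) (nat_lit 367) (nat_lit 353))) (XT.nd (nat_lit 78) (nat_lit 912) (nat_lit 0) (XT.lf (nat_lit 0) (nat_lit 210781161) (nat_lit 912) (nat_lit 1123546192) (nat_lit 988) (nat_lit 5974054655)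 (nat_lit 381) (nat_lit 5) (nat_lit 393) (nat_lit 5) (nat_lit 394) (nat_lit 5) (nat_lit 421) (nat_lit 367) (nat_lit 352)) (XT.nd (nat_lit 78) (nat_lit 912) (nat_lit 0) (XT.lf (nat_lit 0) (nat_lit 4416562863) (nat_lit 988) (nat_lit 2037340522) (nat_lit 76) (nat_lit 900984741) (nat_lit 381) (nat_lit 5) (nat_lit 394) (nat_lit 5) (nat_lit 382) (nat_lit 5) (nat_lit 422) (nat_lit 367) (nat_lit 351)) (XT.lf (nat_lit 0) (nat_lit 125878205) (nat_lit 912) (nat_lit 4306684851) (nat_lit 76) (nat_lit 2970367603) (nat_lit 369) (nat_lit 5) (nat_lit 381) (nat_lit 5) (nat_lit 370) (nat_lit 5) (nat_lit 423) (nat_lit 367) (nat_lit 350))))) (XT.nd (nat_lit 234) (nat_lit 1672) (nat_lit 0) (XT.nd (nat_lit 78) (nat_lit 912) (nat_lit 0) (XT.lf (nat_lit 0) (nat_lit 839318990) (nat_lit 836) (nat_lit 2334796994) (nat_lit 912) (nat_lit 4278210751) (nat_lit 358) (nat_lit 5) (nat_lit 369) (nat_lit 5) (nat_lit 370) (nat_lit 5) (nat_lit 424) (nat_lit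 367) (nat_lit 349)) (XT.nd (nat_lit 78) (nat_lit 912) (nat_lit 0) (XT.lf (nat_lit 0) (nat_lit 6086420711) (nat_lit 836) (nat_lit 169373789) (nat_lit 912) (nat_lit 1247489289) (nat_lit 358) (nat_lit 5) (nat_lit 369) (nat_lit 5) (nat_lit 370) (nat_lit 5) (nat_lit 425) (nat_lit 367) (nat_lit 348)) (XT.lf (nat_lit 0) (nat_lit 1802493327) (nat_lit 912) (nat_lit 3707011472) (nat_lit 76) (nat_lit 2045880872) (nat_lit 346) (nat_lit 5) (nat_lit 358) (nat_lit 5) (nat_lit 347) (nat_lit 5) (nat_lit 426) (nat_lit 367) (nat_lit 347)))) (XT.nd (nat_lit 78) (nat_lit 836) (nat_lit 0) (XT.lf (nat_lit 0) (nat_lit 1580584724) (nat_lit 836) (nat_lit 3282129564) (nat_lit 912) (nat_lit 2746352807) (nat_lit 335) (nat_lit 5) (nat_lit 346) (nat_lit 5) (nat_lit 347) (nat_lit 5) (nat_lit 427) (nat_lit 367) (nat_lit 346)) (XT.nd (nat_lit 78) (nat_lit 760) (nat_lit 0) (XT.lf (nat_lit 0) (nat_lit 286437879) (nat_lit 912) (nat_lit 702217962) (nat_lit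 76) (nat_lit 6675738733) (nat_lit 334) (nat_lit 5) (nat_lit 346) (nat_lit 5) (nat_lit 335) (nat_lit 5) (nat_lit 428) (nat_lit 367) (nat_lit 345)) (XT.lf (nat_lit 0) (nat_lit 3329162648) (nat_lit 836) (nat_lit 3015421400) (nat_lit 76) (nat_lit 1376180494) (nat_lit 324) (nat_lit 5) (nat_lit 335) (nat_lit 5) (nat_lit 325) (nat_lit 5) (nat_lit 429) (nat_lit 367) (nat_lit 344)))))) (XT.nd (nat_lit 390) (nat_lit 2736) (nat_lit 0) (XT.nd (nat_lit 156) (nat_lit 1520) (nat_lit 0) (XT.nd (nat_lit 78) (nat_lit 760) (nat_lit 0) (XT.lf (nat_lit 0) (nat_lit 2417245911) (nat_lit 760) (nat_lit 3989461321) (nat_lit 836) (nat_lit 1372095026) (nat_lit 314) (nat_lit 5) (nat_lit 324) (nat_lit 5) (nat_lit 325) (nat_lit 5) (nat_lit 430) (nat_lit 367) (nat_lit 343)) (XT.lf (nat_lit 0) (nat_lit 91211679) (nat_lit 684) (nat_lit 1562418497) (nat_lit 760) (nat_lit 6184803152) (nat_lit 304) (nat_lit 5) (nat_lit 313) (nat_lit 5) (nat_lit 314) (nat_lit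 5) (nat_lit 431) (nat_lit 367) (nat_lit 342))) (XT.nd (nat_lit 78) (nat_lit 1520) (nat_lit 0) (XT.lf (nat_lit 0) (nat_lit 4711516162) (nat_lit 760) (nat_lit 2249295616) (nat_lit 76) (nat_lit 938481997) (nat_lit 304) (nat_lit 5) (nat_lit 314) (nat_lit 5) (nat_lit 305) (nat_lit 5) (nat_lit 432) (nat_lit 367) (nat_lit 341)) (XT.nd (nat_lit 78) (nat_lit 760) (nat_lit 0) (XT.lf (nat_lit 0) (nat_lit 3331924226) (nat_lit 760) (nat_lit 4479493737) (nat_lit 836) (nat_lit 150354465) (nat_lit 294) (nat_lit 5) (nat_lit 304) (nat_lit 5) (nat_lit 305) (nat_lit 5) (nat_lit 433) (nat_lit 367) (nat_lit 340)) (XT.lf (nat_lit 0) (nat_lit 963137210) (nat_lit 684) (nat_lit 1916607159) (nat_lit 760) (nat_lit 5145979185) (nat_lit 284) (nat_lit 5) (nat_lit 293) (nat_lit 5) (nat_lit 294) (nat_lit 5) (nat_lit 434) (nat_lit 367) (nat_lit 339))))) (XT.nd (nat_lit 234) (nat_lit 1368) (nat_lit 0) (XT.nd (nat_lit 78) (nat_lit 1368) (nat_lit 0) (XT.lf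 (nat_lit 0) (nat_lit 5953923733) (nat_lit 760) (nat_lit 1426198934) (nat_lit 76) (nat_lit 711118432) (nat_lit 284) (nat_lit 5) (nat_lit 294) (nat_lit 5) (nat_lit 285) (nat_lit 5) (nat_lit 435) (nat_lit 367) (nat_lit 338)) (XT.nd (nat_lit 78) (nat_lit 608) (nat_lit 0) (XT.lf (nat_lit 0) (nat_lit 910556641) (nat_lit 760) (nat_lit 3857222502) (nat_lit 76) (nat_lit 3390360218) (nat_lit 274) (nat_lit 5) (nat_lit 284) (nat_lit 5) (nat_lit 275) (nat_lit 5) (nat_lit 436) (nat_lit 367) (nat_lit 337)) (XT.lf (nat_lit 0) (nat_lit 1886284975) (nat_lit 608) (nat_lit 2077308470) (nat_lit 684) (nat_lit 4263059232) (nat_lit 266) (nat_lit 5) (nat_lit 274) (nat_lit 5) (nat_lit 275) (nat_lit 5) (nat_lit 437) (nat_lit 367) (nat_lit 336)))) (XT.nd (nat_lit 78) (nat_lit 1368) (nat_lit 0) (XT.lf (nat_lit 0) (nat_lit 7059497024) (nat_lit 684) (nat_lit 564051344) (nat_lit 76) (nat_lit 673367579) (nat_lit 266) (nat_lit 5) (nat_lit 275) (nat_lit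 5) (nat_lit 267) (nat_lit 5) (nat_lit 438) (nat_lit 367) (nat_lit 335)) (XT.nd (nat_lit 78) (nat_lit 608) (nat_lit 0) (XT.lf (nat_lit 0) (nat_lit 1825177477) (nat_lit 760) (nat_lit 3056019969) (nat_lit 76) (nat_lit 3487148369) (nat_lit 256) (nat_lit 5) (nat_lit 266) (nat_lit 5) (nat_lit 257) (nat_lit 5) (nat_lit 439) (nat_lit 367) (nat_lit 334)) (XT.lf (nat_lit 0) (nat_lit 2842256589) (nat_lit 608) (nat_lit 2065077052) (nat_lit 684) (nat_lit 3534224410) (nat_lit 248) (nat_lit 5) (nat_lit 256) (nat_lit 5) (nat_lit 257) (nat_lit 5) (nat_lit 440) (nat_lit 367) (nat_lit 333))))))) (XT.nd (nat_lit 858) (nat_lit 3268) (nat_lit 0) (XT.nd (nat_lit 390) (nat_lit 2736) (nat_lit 0) (XT.nd (nat_lit 156) (nat_lit 1216) (nat_lit 0) (XT.nd (nat_lit 78) (nat_lit 76) (nat_lit 0) (XT.lf (nat_lit 0) (nat_lit 322928736) (nat_lit 608) (nat_lit 7709249077) (nat_lit 684) (nat_lit 484450423) (nat_lit 240) (nat_lit 5) (nat_lit 248) (nat_lit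 5) (nat_lit 249) (nat_lit 5) (nat_lit 441) (nat_lit 367) (nat_lit 332)) (XT.lf (nat_lit 0) (nat_lit 2596648165) (nat_lit 684) (nat_lit 2244189731) (nat_lit 76) (nat_lit 3751939455) (nat_lit 239) (nat_lit 5) (nat_lit 248) (nat_lit 5) (nat_lit 240) (nat_lit 5) (nat_lit 442) (nat_lit 367) (nat_lit 331))) (XT.nd (nat_lit 78) (nat_lit 684) (nat_lit 0) (XT.lf (nat_lit 0) (nat_lit 3812010601) (nat_lit 532) (nat_lit 1899818346) (nat_lit 608) (nat_lit 2958991277) (nat_lit 232) (nat_lit 5) (nat_lit 239) (nat_lit 5) (nat_lit 240) (nat_lit 5) (nat_lit 443) (nat_lit 367) (nat_lit 330)) (XT.nd (nat_lit 78) (nat_lit 0) (nat_lit 0) (XT.lf (nat_lit 0) (nat_lit 121790071) (nat_lit 684) (nat_lit 7532695751) (nat_lit 76) (nat_lit 1096238878) (nat_lit 223) (nat_lit 5) (nat_lit 232) (nat_lit 5) (nat_lit 224) (nat_lit 5) (nat_lit 444) (nat_lit 367) (nat_lit 329)) (XT.lf (nat_lit 0) (nat_lit 3224822382) (nat_lit 684) (nat_lit 1441453807) (nat_lit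 76) (nat_lit 4165567741) (nat_lit 223) (nat_lit 5) (nat_lit 232) (nat_lit 5) (nat_lit 224) (nat_lit 5) (nat_lit 445) (nat_lit 367) (nat_lit 328))))) (XT.nd (nat_lit 234) (nat_lit 1596) (nat_lit 0) (XT.nd (nat_lit 78) (nat_lit 608) (nat_lit 0) (XT.lf (nat_lit 0) (nat_lit 4775666398) (nat_lit 532) (nat_lit 1600958201) (nat_lit 608) (nat_lit 2538239474) (nat_lit 216) (nat_lit 5) (nat_lit 223) (nat_lit 5) (nat_lit 224) (nat_lit 5) (nat_lit 446) (nat_lit 367) (nat_lit 327)) (XT.nd (nat_lit 78) (nat_lit 0) (nat_lit 0) (XT.lf (nat_lit 0) (nat_lit 573422310) (nat_lit 608) (nat_lit 6907697865) (nat_lit 76) (nat_lit 1518574456) (nat_lit 208) (nat_lit 5) (nat_lit 216) (nat_lit 5) (nat_lit 209) (nat_lit 5) (nat_lit 447) (nat_lit 367) (nat_lit 326)) (XT.lf (nat_lit 0) (nat_lit 3708205074) (nat_lit 608) (nat_lit 668534101) (nat_lit 76) (nat_lit 4709261553) (nat_lit 208) (nat_lit 5) (nat_lit 216) (nat_lit 5) (nat_lit 209) (nat_lit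 5) (nat_lit 448) (nat_lit 367) (nat_lit 325)))) (XT.nd (nat_lit 78) (nat_lit 1064) (nat_lit 0) (XT.lf (nat_lit 0) (nat_lit 5712296435) (nat_lit 532) (nat_lit 1187612807) (nat_lit 608) (nat_lit 2274250936) (nat_lit 201) (nat_lit 5) (nat_lit 208) (nat_lit 5) (nat_lit 209) (nat_lit 5) (nat_lit 449) (nat_lit 367) (nat_lit 324)) (XT.nd (nat_lit 78) (nat_lit 456) (nat_lit 0) (XT.lf (nat_lit 0) (nat_lit 874095485) (nat_lit 608) (nat_lit 6337535573) (nat_lit 76) (nat_lit 2052458877) (nat_lit 193) (nat_lit 5) (nat_lit 201) (nat_lit 5) (nat_lit 194) (nat_lit 5) (nat_lit 450) (nat_lit 367) (nat_lit 323)) (XT.lf (nat_lit 0) (nat_lit 53330814) (nat_lit 456) (nat_lit 3990922018) (nat_lit 532) (nat_lit 5311489941) (nat_lit 187) (nat_lit 5) (nat_lit 193) (nat_lit 5) (nat_lit 194) (nat_lit 5) (nat_lit 451) (nat_lit 367) (nat_lit 322)))))) (XT.nd (nat_lit 390) (nat_lit 1748) (nat_lit 0) (XT.nd (nat_lit 156) (nat_lit 988) (nat_lit 0) (XT.nd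 (nat_lit 78) (nat_lit 532) (nat_lit 0) (XT.lf (nat_lit 0) (nat_lit 6599704866) (nat_lit 456) (nat_lit 678760377) (nat_lit 532) (nat_lit 2170761238) (nat_lit 187) (nat_lit 5) (nat_lit 193) (nat_lit 5) (nat_lit 194) (nat_lit 5) (nat_lit 452) (nat_lit 367) (nat_lit 321)) (XT.lf (nat_lit 0) (nat_lit 1019657788) (nat_lit 532) (nat_lit 5845593527) (nat_lit 76) (nat_lit 2679196448) (nat_lit 180) (nat_lit 5) (nat_lit 187) (nat_lit 5) (nat_lit 181) (nat_lit 5) (nat_lit 453) (nat_lit 367) (nat_lit 320))) (XT.nd (nat_lit 78) (nat_lit 532) (nat_lit 0) (XT.lf (nat_lit 0) (nat_lit 707942002) (nat_lit 456) (nat_lit 3524238858) (nat_lit 532) (nat_lit 5409368619) (nat_lit 174) (nat_lit 5) (nat_lit 180) (nat_lit 5) (nat_lit 181) (nat_lit 5) (nat_lit 454) (nat_lit 367) (nat_lit 319)) (XT.nd (nat_lit 78) (nat_lit 532) (nat_lit 0) (XT.lf (nat_lit 0) (nat_lit 7414190504) (nat_lit 456) (nat_lit 93415996) (nat_lit 532) (nat_lit 2233023710)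 (nat_lit 174) (nat_lit 5) (nat_lit 180) (nat_lit 5) (nat_lit 181) (nat_lit 5) (nat_lit 455) (nat_lit 367) (nat_lit 318)) (XT.lf (nat_lit 0) (nat_lit 1004441491) (nat_lit 532) (nat_lit 5456911408) (nat_lit 76) (nat_lit 3380002581) (nat_lit 167) (nat_lit 5) (nat_lit 174) (nat_lit 5) (nat_lit 168) (nat_lit 5) (nat_lit 456) (nat_lit 367) (nat_lit 317))))) (XT.nd (nat_lit 234) (nat_lit 836) (nat_lit 0) (XT.nd (nat_lit 78) (nat_lit 532) (nat_lit 0) (XT.lf (nat_lit 0) (nat_lit 1261000394) (nat_lit 380) (nat_lit 3000559103) (nat_lit 456) (nat_lit 5682553926) (nat_lit 162) (nat_lit 5) (nat_lit 167) (nat_lit 5) (nat_lit 168) (nat_lit 5) (nat_lit 457) (nat_lit 367) (nat_lit 316)) (XT.nd (nat_lit 78) (nat_lit 532) (nat_lit 0) (XT.lf (nat_lit 0) (nat_lit 7584668695) (nat_lit 456) (nat_lit 1922263959) (nat_lit 76) (nat_lit 541986153) (nat_lit 162) (nat_lit 5) (nat_lit 168) (nat_lit 5) (nat_lit 163) (nat_lit 5) (nat_lit 458) (nat_lit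 367) (nat_lit 315)) (XT.lf (nat_lit 0) (nat_lit 821180685) (nat_lit 532) (nat_lit 5198448533) (nat_lit 76) (nat_lit 4135823816) (nat_lit 155) (nat_lit 5) (nat_lit 162) (nat_lit 5) (nat_lit 156) (nat_lit 5) (nat_lit 459) (nat_lit 367) (nat_lit 314)))) (XT.nd (nat_lit 78) (nat_lit 456) (nat_lit 0) (XT.lf (nat_lit 0) (nat_lit 1685101294) (nat_lit 380) (nat_lit 2439634152) (nat_lit 456) (nat_lit 6139357218) (nat_lit 150) (nat_lit 5) (nat_lit 155) (nat_lit 5) (nat_lit 156) (nat_lit 5) (nat_lit 460) (nat_lit 367) (nat_lit 313)) (XT.nd (nat_lit 78) (nat_lit 456) (nat_lit 0) (XT.lf (nat_lit 0) (nat_lit 7499073428) (nat_lit 456) (nat_lit 1662449425) (nat_lit 76) (nat_lit 1213296547) (nat_lit 150) (nat_lit 5) (nat_lit 156) (nat_lit 5) (nat_lit 151) (nat_lit 5) (nat_lit 461) (nat_lit 367) (nat_lit 312)) (XT.lf (nat_lit 0) (nat_lit 460914406) (nat_lit 456) (nat_lit 5099370099) (nat_lit 76) (nat_lit 4927151150) (nat_lit 144) (nat_lit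 5) (nat_lit 150) (nat_lit 5) (nat_lit 145) (nat_lit 5) (nat_lit 462) (nat_lit 367) (nat_lit 311))))))))
noncomputable def xc60 : XT := (XT.nd (nat_lit 1716) (nat_lit 3116) (nat_lit 0) (XT.nd (nat_lit 858) (nat_lit 2280) (nat_lit 0) (XT.nd (nat_lit 390) (nat_lit 1520) (nat_lit 0) (XT.nd (nat_lit 156) (nat_lit 836) (nat_lit 0) (XT.nd (nat_lit 78) (nat_lit 0) (nat_lit 0) (XT.lf (nat_lit 0) (nat_lit 1950555787) (nat_lit 380) (nat_lit 1861776015) (nat_lit 456) (nat_lit 6789869720) (nat_lit 139) (nat_lit 5) (nat_lit 144) (nat_lit 5) (nat_lit 145) (nat_lit 5) (nat_lit 463) (nat_lit 367) (nat_lit 310)) (XT.lf (nat_lit 0) (nat_lit 7240481095) (nat_lit 456) (nat_lit 1576819067) (nat_lit 76) (nat_lit 1901776377) (nat_lit 139) (nat_lit 5) (nat_lit 145) (nat_lit 5) (nat_lit 140) (nat_lit 5) (nat_lit 464) (nat_lit 367) (nat_lit 309))) (XT.nd (nat_lit 78) (nat_lit 456) (nat_lit 0) (XT.lf (nat_lit 0) (nat_lit 5646114418) (nat_lit 380)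 (nat_lit 5103647235) (nat_lit 456) (nat_lit 88283787) (nat_lit 134) (nat_lit 5) (nat_lit 139) (nat_lit 5) (nat_lit 140) (nat_lit 5) (nat_lit 465) (nat_lit 367) (nat_lit 308)) (XT.nd (nat_lit 78) (nat_lit 0) (nat_lit 0) (XT.lf (nat_lit 0) (nat_lit 2025071311) (nat_lit 380) (nat_lit 1288058938) (nat_lit 456) (nat_lit 7646083491) (nat_lit 128) (nat_lit 5) (nat_lit 133) (nat_lit 5) (nat_lit 134) (nat_lit 5) (nat_lit 466) (nat_lit 367) (nat_lit 307)) (XT.lf (nat_lit 0) (nat_lit 6797294177) (nat_lit 456) (nat_lit 1698515514) (nat_lit 76) (nat_lit 2586673273) (nat_lit 128) (nat_lit 5) (nat_lit 134) (nat_lit 5) (nat_lit 129) (nat_lit 5) (nat_lit 467) (nat_lit 367) (nat_lit 306))))) (XT.nd (nat_lit 234) (nat_lit 760) (nat_lit 0) (XT.nd (nat_lit 78) (nat_lit 380) (nat_lit 0) (XT.lf (nat_lit 0) (nat_lit 5693576474) (nat_lit 380) (nat_lit 4667694356) (nat_lit 456) (nat_lit 846751311) (nat_lit 123) (nat_lit 5) (nat_lit 128) (nat_lit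 5) (nat_lit 129) (nat_lit 5) (nat_lit 468) (nat_lit 367) (nat_lit 305)) (XT.nd (nat_lit 78) (nat_lit 0) (nat_lit 0) (XT.lf (nat_lit 0) (nat_lit 1873403850) (nat_lit 304) (nat_lit 740532085) (nat_lit 380) (nat_lit 8722030111) (nat_lit 118) (nat_lit 5) (nat_lit 122) (nat_lit 5) (nat_lit 123) (nat_lit 5) (nat_lit 469) (nat_lit 367) (nat_lit 304)) (XT.lf (nat_lit 0) (nat_lit 6155910713) (nat_lit 380) (nat_lit 2063750010) (nat_lit 76) (nat_lit 3246234676) (nat_lit 118) (nat_lit 5) (nat_lit 123) (nat_lit 5) (nat_lit 119) (nat_lit 5) (nat_lit 470) (nat_lit 367) (nat_lit 303)))) (XT.nd (nat_lit 78) (nat_lit 380) (nat_lit 0) (XT.lf (nat_lit 0) (nat_lit 5496566778) (nat_lit 380) (nat_lit 4278388593) (nat_lit 456) (nat_lit 1823349973) (nat_lit 113) (nat_lit 5) (nat_lit 118) (nat_lit 5) (nat_lit 119) (nat_lit 5) (nat_lit 471) (nat_lit 367) (nat_lit 302)) (XT.nd (nat_lit 78) (nat_lit 0) (nat_lit 0) (XT.lf (nat_lit 0) (nat_lit 1456978341)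 (nat_lit 304) (nat_lit 242445214) (nat_lit 380) (nat_lit 10033938554) (nat_lit 108) (nat_lit 5) (nat_lit 112) (nat_lit 5) (nat_lit 113) (nat_lit 5) (nat_lit 472) (nat_lit 367) (nat_lit 301)) (XT.lf (nat_lit 0) (nat_lit 5300565148) (nat_lit 380) (nat_lit 2712190695) (nat_lit 76) (nat_lit 3857482806) (nat_lit 108) (nat_lit 5) (nat_lit 113) (nat_lit 5) (nat_lit 109) (nat_lit 5) (nat_lit 473) (nat_lit 367) (nat_lit 300)))))) (XT.nd (nat_lit 390) (nat_lit 1292) (nat_lit 0) (XT.nd (nat_lit 156) (nat_lit 304) (nat_lit 0) (XT.nd (nat_lit 78) (nat_lit 380) (nat_lit 0) (XT.lf (nat_lit 0) (nat_lit 5014535862) (nat_lit 304) (nat_lit 3959958371) (nat_lit 380) (nat_lit 3035349304) (nat_lit 104) (nat_lit 5) (nat_lit 108) (nat_lit 5) (nat_lit 109) (nat_lit 5) (nat_lit 474) (nat_lit 367) (nat_lit 299)) (XT.lf (nat_lit 0) (nat_lit 553141560) (nat_lit 380) (nat_lit 11420081837) (nat_lit 76) (nat_lit 179129996) (nat_lit 99) (nat_lit 5)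 (nat_lit 104) (nat_lit 5) (nat_lit 100) (nat_lit 5) (nat_lit 475) (nat_lit 367) (nat_lit 298))) (XT.nd (nat_lit 78) (nat_lit 304) (nat_lit 0) (XT.lf (nat_lit 0) (nat_lit 4213148363) (nat_lit 380) (nat_lit 3687387475) (nat_lit 76) (nat_lit 4395974305) (nat_lit 99) (nat_lit 5) (nat_lit 104) (nat_lit 5) (nat_lit 100) (nat_lit 5) (nat_lit 476) (nat_lit 367) (nat_lit 297)) (XT.nd (nat_lit 78) (nat_lit 0) (nat_lit 0) (XT.lf (nat_lit 0) (nat_lit 4202924984) (nat_lit 304) (nat_lit 3738241528) (nat_lit 380) (nat_lit 4502492937) (nat_lit 95) (nat_lit 5) (nat_lit 99) (nat_lit 5) (nat_lit 100) (nat_lit 5) (nat_lit 477) (nat_lit 367) (nat_lit 296)) (XT.lf (nat_lit 0) (nat_lit 11739642842) (nat_lit 380) (nat_lit 348023568) (nat_lit 76) (nat_lit 506172909) (nat_lit 95) (nat_lit 5) (nat_lit 100) (nat_lit 5) (nat_lit 96) (nat_lit 5) (nat_lit 478) (nat_lit 367) (nat_lit 295))))) (XT.nd (nat_lit 234) (nat_lit 608) (nat_lit 0) (XT.nd (nat_lit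 78) (nat_lit 304) (nat_lit 0) (XT.lf (nat_lit 0) (nat_lit 2873005036) (nat_lit 380) (nat_lit 5037237662) (nat_lit 76) (nat_lit 4835542284) (nat_lit 90) (nat_lit 5) (nat_lit 95) (nat_lit 5) (nat_lit 91) (nat_lit 5) (nat_lit 479) (nat_lit 367) (nat_lit 294)) (XT.nd (nat_lit 78) (nat_lit 0) (nat_lit 0) (XT.lf (nat_lit 0) (nat_lit 3012686219) (nat_lit 304) (nat_lit 3640954915) (nat_lit 380) (nat_lit 6247214150) (nat_lit 86) (nat_lit 5) (nat_lit 90) (nat_lit 5) (nat_lit 91) (nat_lit 5) (nat_lit 480) (nat_lit 367) (nat_lit 293)) (XT.lf (nat_lit 0) (nat_lit 10517116289) (nat_lit 380) (nat_lit 1822881536) (nat_lit 76) (nat_lit 718889752) (nat_lit 86) (nat_lit 5) (nat_lit 91) (nat_lit 5) (nat_lit 87) (nat_lit 5) (nat_lit 481) (nat_lit 367) (nat_lit 292)))) (XT.nd (nat_lit 78) (nat_lit 304) (nat_lit 0) (XT.lf (nat_lit 0) (nat_lit 1256706250) (nat_lit 304) (nat_lit 6814496931) (nat_lit 76) (nat_lit 5148018329) (nat_lit 82) (nat_lit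 5) (nat_lit 86) (nat_lit 5) (nat_lit 83) (nat_lit 5) (nat_lit 482) (nat_lit 367) (nat_lit 291)) (XT.nd (nat_lit 78) (nat_lit 0) (nat_lit 0) (XT.lf (nat_lit 0) (nat_lit 1389755666) (nat_lit 304) (nat_lit 3697985385) (nat_lit 380) (nat_lit 8294877427) (nat_lit 78) (nat_lit 5) (nat_lit 82) (nat_lit 5) (nat_lit 83) (nat_lit 5) (nat_lit 483) (nat_lit 367) (nat_lit 290)) (XT.lf (nat_lit 0) (nat_lit 9015781232) (nat_lit 380) (nat_lit 3753942524) (nat_lit 76) (nat_lit 779156657) (nat_lit 78) (nat_lit 5) (nat_lit 83) (nat_lit 5) (nat_lit 79) (nat_lit 5) (nat_lit 484) (nat_lit 367) (nat_lit 289))))))) (XT.nd (nat_lit 858) (nat_lit 1368) (nat_lit 0) (XT.nd (nat_lit 390) (nat_lit 912) (nat_lit 0) (XT.nd (nat_lit 156) (nat_lit 532) (nat_lit 0) (XT.nd (nat_lit 78) (nat_lit 76) (nat_lit 0) (XT.lf (nat_lit 0) (nat_lit 4636283102) (nat_lit 228) (nat_lit 8410691935) (nat_lit 304) (nat_lit 671005324) (nat_lit 75) (nat_lit 5) (nat_lit 78)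 (nat_lit 5) (nat_lit 79) (nat_lit 5) (nat_lit 485) (nat_lit 367) (nat_lit 288)) (XT.lf (nat_lit 0) (nat_lit 3220890154) (nat_lit 304) (nat_lit 716010039) (nat_lit 76) (nat_lit 9953233674) (nat_lit 74) (nat_lit 5) (nat_lit 78) (nat_lit 5) (nat_lit 75) (nat_lit 5) (nat_lit 486) (nat_lit 367) (nat_lit 287))) (XT.nd (nat_lit 78) (nat_lit 304) (nat_lit 0) (XT.lf (nat_lit 0) (nat_lit 7207685169) (nat_lit 304) (nat_lit 6202682542) (nat_lit 76) (nat_lit 654757460) (nat_lit 71) (nat_lit 5) (nat_lit 75) (nat_lit 5) (nat_lit 72) (nat_lit 5) (nat_lit 487) (nat_lit 367) (nat_lit 286)) (XT.nd (nat_lit 78) (nat_lit 76) (nat_lit 0) (XT.lf (nat_lit 0) (nat_lit 2334134759) (nat_lit 228) (nat_lit 8956932185) (nat_lit 304) (nat_lit 2952216617) (nat_lit 68) (nat_lit 5) (nat_lit 71) (nat_lit 5) (nat_lit 72) (nat_lit 5) (nat_lit 488) (nat_lit 367) (nat_lit 285)) (XT.lf (nat_lit 0) (nat_lit 1030334936) (nat_lit 304) (nat_lit 3354468245) (nat_lit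 76) (nat_lit 10039817219) (nat_lit 67) (nat_lit 5) (nat_lit 71) (nat_lit 5) (nat_lit 68) (nat_lit 5) (nat_lit 489) (nat_lit 367) (nat_lit 284))))) (XT.nd (nat_lit 234) (nat_lit 456) (nat_lit 0) (XT.nd (nat_lit 78) (nat_lit 228) (nat_lit 0) (XT.lf (nat_lit 0) (nat_lit 5061399736) (nat_lit 304) (nat_lit 9237007201) (nat_lit 76) (nat_lit 310622939) (nat_lit 64) (nat_lit 5) (nat_lit 68) (nat_lit 5) (nat_lit 65) (nat_lit 5) (nat_lit 490) (nat_lit 367) (nat_lit 283)) (XT.nd (nat_lit 78) (nat_lit 228) (nat_lit 0) (XT.lf (nat_lit 0) (nat_lit 9196326656) (nat_lit 304) (nat_lit 555608229) (nat_lit 76) (nat_lit 5044731792) (nat_lit 64) (nat_lit 5) (nat_lit 68) (nat_lit 5) (nat_lit 65) (nat_lit 5) (nat_lit 491) (nat_lit 367) (nat_lit 282)) (XT.lf (nat_lit 0) (nat_lit 8361773611) (nat_lit 228) (nat_lit 5078569732) (nat_lit 304) (nat_lit 1547188921) (nat_lit 61) (nat_lit 5) (nat_lit 64) (nat_lit 5) (nat_lit 65) (nat_lit 5) (nat_lit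 492) (nat_lit 367) (nat_lit 281)))) (XT.nd (nat_lit 78) (nat_lit 152) (nat_lit 0) (XT.lf (nat_lit 0) (nat_lit 2248184099) (nat_lit 228) (nat_lit 295417641) (nat_lit 304) (nat_lit 12638471097) (nat_lit 57) (nat_lit 5) (nat_lit 60) (nat_lit 5) (nat_lit 61) (nat_lit 5) (nat_lit 493) (nat_lit 367) (nat_lit 280)) (XT.nd (nat_lit 78) (nat_lit 152) (nat_lit 0) (XT.lf (nat_lit 0) (nat_lit 6742296049) (nat_lit 304) (nat_lit 4077986046) (nat_lit 76) (nat_lit 4559085145) (nat_lit 57) (nat_lit 5) (nat_lit 61) (nat_lit 5) (nat_lit 58) (nat_lit 5) (nat_lit 494) (nat_lit 367) (nat_lit 279)) (XT.lf (nat_lit 0) (nat_lit 4971723050) (nat_lit 152) (nat_lit 6060291136) (nat_lit 228) (nat_lit 4548455926) (nat_lit 55) (nat_lit 5) (nat_lit 57) (nat_lit 5) (nat_lit 58) (nat_lit 5) (nat_lit 495) (nat_lit 367) (nat_lit 278)))))) (XT.nd (nat_lit 390) (nat_lit 608) (nat_lit 0) (XT.nd (nat_lit 156) (nat_lit 456) (nat_lit 0) (XT.nd (nat_lit 78) (nat_lit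 304) (nat_lit 0) (XT.lf (nat_lit 0) (nat_lit 14211450539) (nat_lit 152) (nat_lit 1196488144) (nat_lit 228) (nat_lit 377651629) (nat_lit 55) (nat_lit 5) (nat_lit 57) (nat_lit 5) (nat_lit 58) (nat_lit 5) (nat_lit 496) (nat_lit 367) (nat_lit 277)) (XT.lf (nat_lit 0) (nat_lit 3873742763) (nat_lit 304) (nat_lit 8347772014) (nat_lit 76) (nat_lit 3771837807) (nat_lit 51) (nat_lit 5) (nat_lit 55) (nat_lit 5) (nat_lit 52) (nat_lit 5) (nat_lit 497) (nat_lit 367) (nat_lit 276))) (XT.nd (nat_lit 78) (nat_lit 304) (nat_lit 0) (XT.lf (nat_lit 0) (nat_lit 820429156) (nat_lit 152) (nat_lit 7382067631) (nat_lit 228) (nat_lit 8002778926) (nat_lit 49) (nat_lit 5) (nat_lit 51) (nat_lit 5) (nat_lit 52) (nat_lit 5) (nat_lit 498) (nat_lit 367) (nat_lit 275)) (XT.nd (nat_lit 78) (nat_lit 304) (nat_lit 0) (XT.lf (nat_lit 0) (nat_lit 10239641422) (nat_lit 152) (nat_lit 2407926526) (nat_lit 228) (nat_lit 3773277759) (nat_lit 49) (nat_lit 5) (nat_lit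 51) (nat_lit 5) (nat_lit 52) (nat_lit 5) (nat_lit 499) (nat_lit 367) (nat_lit 274)) (XT.lf (nat_lit 0) (nat_lit 545907463) (nat_lit 304) (nat_lit 13458104388) (nat_lit 76) (nat_lit 2636404401) (nat_lit 45) (nat_lit 5) (nat_lit 49) (nat_lit 5) (nat_lit 46) (nat_lit 5) (nat_lit 500) (nat_lit 367) (nat_lit 273))))) (XT.nd (nat_lit 234) (nat_lit 456) (nat_lit 0) (XT.nd (nat_lit 78) (nat_lit 152) (nat_lit 0) (XT.lf (nat_lit 0) (nat_lit 4932860824) (nat_lit 304) (nat_lit 4132935369) (nat_lit 76) (nat_lit 7797448069) (nat_lit 45) (nat_lit 5) (nat_lit 49) (nat_lit 5) (nat_lit 46) (nat_lit 5) (nat_lit 501) (nat_lit 367) (nat_lit 272)) (XT.nd (nat_lit 78) (nat_lit 0) (nat_lit 0) (XT.lf (nat_lit 0) (nat_lit 5405450973) (nat_lit 152) (nat_lit 4011865729) (nat_lit 228) (nat_lit 7673019858) (nat_lit 43) (nat_lit 5) (nat_lit 45) (nat_lit 5) (nat_lit 46) (nat_lit 5) (nat_lit 502) (nat_lit 367) (nat_lit 271)) (XT.lf (nat_lit 0) (nat_lit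 14001559163) (nat_lit 228) (nat_lit 2182666021) (nat_lit 76) (nat_lit 1137546507) (nat_lit 43) (nat_lit 5) (nat_lit 46) (nat_lit 5) (nat_lit 44) (nat_lit 5) (nat_lit 503) (nat_lit 367) (nat_lit 270)))) (XT.nd (nat_lit 78) (nat_lit 152) (nat_lit 0) (XT.lf (nat_lit 0) (nat_lit 1156065957) (nat_lit 304) (nat_lit 10025935058) (nat_lit 76) (nat_lit 6374669952) (nat_lit 39) (nat_lit 5) (nat_lit 43) (nat_lit 5) (nat_lit 40) (nat_lit 5) (nat_lit 504) (nat_lit 367) (nat_lit 269)) (XT.nd (nat_lit 78) (nat_lit 152) (nat_lit 0) (XT.lf (nat_lit 0) (nat_lit 5667490262) (nat_lit 304) (nat_lit 393517795) (nat_lit 76) (nat_lit 11735022451) (nat_lit 39) (nat_lit 5) (nat_lit 43) (nat_lit 5) (nat_lit 40) (nat_lit 5) (nat_lit 505) (nat_lit 367) (nat_lit 268)) (XT.lf (nat_lit 0) (nat_lit 9513724142) (nat_lit 152) (nat_lit 792965278) (nat_lit 228) (nat_lit 7732739603) (nat_lit 37) (nat_lit 5) (nat_lit 39) (nat_lit 5) (nat_lit 40) (nat_lit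 5) (nat_lit 506) (nat_lit 367) (nat_lit 267))))))))
noncomputable def xc61 : XT := (XT.nd (nat_lit 1716) (nat_lit 11400) (nat_lit 0) (XT.nd (nat_lit 858) (nat_lit 9044) (nat_lit 0) (XT.nd (nat_lit 390) (nat_lit 5852) (nat_lit 0) (XT.nd (nat_lit 156) (nat_lit 2432) (nat_lit 0) (XT.nd (nat_lit 78) (nat_lit 1140) (nat_lit 0) (XT.lf (nat_lit 0) (nat_lit 1968593091) (nat_lit 988) (nat_lit 696620259) (nat_lit 988) (nat_lit 696620259) (nat_lit 601) (nat_lit 4) (nat_lit 614) (nat_lit 5) (nat_lit 614) (nat_lit 4) (nat_lit 404) (nat_lit 368) (nat_lit 368)) (XT.lf (nat_lit 0) (nat_lit 1559794096) (nat_lit 1064) (nat_lit 270886325) (nat_lit 1140) (nat_lit 4917318477) (nat_lit 586) (nat_lit 5) (nat_lit 600) (nat_lit 5) (nat_lit 601) (nat_lit 4) (nat_lit 405) (nat_lit 368) (nat_lit 367))) (XT.nd (nat_lit 78) (nat_lit 2432) (nat_lit 0) (XT.lf (nat_lit 0) (nat_lit 5054613341) (nat_lit 1140) (nat_lit 815767798) (nat_lit 0) (nat_lit 903205883)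 (nat_lit 586) (nat_lit 5) (nat_lit 601) (nat_lit 4) (nat_lit 586) (nat_lit 4) (nat_lit 406) (nat_lit 368) (nat_lit 366)) (XT.nd (nat_lit 78) (nat_lit 1216) (nat_lit 0) (XT.lf (nat_lit 0) (nat_lit 1479201298) (nat_lit 1216) (nat_lit 3178275939) (nat_lit 76) (nat_lit 2142923489) (nat_lit 570) (nat_lit 5) (nat_lit 586) (nat_lit 5) (nat_lit 571) (nat_lit 4) (nat_lit 407) (nat_lit 368) (nat_lit 365)) (XT.lf (nat_lit 0) (nat_lit 1279074733) (nat_lit 1216) (nat_lit 3384630928) (nat_lit 1292) (nat_lit 2164945734) (nat_lit 554) (nat_lit 5) (nat_lit 570) (nat_lit 5) (nat_lit 571) (nat_lit 4) (nat_lit 408) (nat_lit 368) (nat_lit 364))))) (XT.nd (nat_lit 234) (nat_lit 3040) (nat_lit 0) (XT.nd (nat_lit 78) (nat_lit 2736) (nat_lit 0) (XT.lf (nat_lit 0) (nat_lit 994103138) (nat_lit 1292) (nat_lit 1054398206) (nat_lit 76) (nat_lit 4809793048) (nat_lit 553) (nat_lit 5) (nat_lit 570) (nat_lit 5) (nat_lit 554) (nat_lit 5) (nat_lit 409)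 (nat_lit 368) (nat_lit 363)) (XT.nd (nat_lit 78) (nat_lit 1444) (nat_lit 0) (XT.lf (nat_lit 0) (nat_lit 3504440000) (nat_lit 1292) (nat_lit 639047390) (nat_lit 1368) (nat_lit 2745667337) (nat_lit 536) (nat_lit 5) (nat_lit 553) (nat_lit 5) (nat_lit 554) (nat_lit 5) (nat_lit 410) (nat_lit 368) (nat_lit 362)) (XT.lf (nat_lit 0) (nat_lit 383632159) (nat_lit 1444) (nat_lit 5724225954) (nat_lit 76) (nat_lit 813667622) (nat_lit 517) (nat_lit 5) (nat_lit 536) (nat_lit 5) (nat_lit 518) (nat_lit 5) (nat_lit 411) (nat_lit 368) (nat_lit 361)))) (XT.nd (nat_lit 78) (nat_lit 3040) (nat_lit 0) (XT.lf (nat_lit 0) (nat_lit 3500679620) (nat_lit 1444) (nat_lit 1119218482) (nat_lit 76) (nat_lit 2335076166) (nat_lit 517) (nat_lit 5) (nat_lit 536) (nat_lit 5) (nat_lit 518) (nat_lit 5) (nat_lit 412) (nat_lit 368) (nat_lit 360)) (XT.nd (nat_lit 78) (nat_lit 1596) (nat_lit 0) (XT.lf (nat_lit 0) (nat_lit 3566430066) (nat_lit 1444) (nat_lit 3072868454)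 (nat_lit 1520) (nat_lit 350639633) (nat_lit 498) (nat_lit 5) (nat_lit 517) (nat_lit 5) (nat_lit 518) (nat_lit 5) (nat_lit 413) (nat_lit 368) (nat_lit 359)) (XT.lf (nat_lit 0) (nat_lit 1275184968) (nat_lit 1520) (nat_lit 1455327925) (nat_lit 1596) (nat_lit 4295705768) (nat_lit 477) (nat_lit 5) (nat_lit 497) (nat_lit 5) (nat_lit 498) (nat_lit 5) (nat_lit 414) (nat_lit 368) (nat_lit 358)))))) (XT.nd (nat_lit 390) (nat_lit 3876) (nat_lit 0) (XT.nd (nat_lit 156) (nat_lit 3496) (nat_lit 0) (XT.nd (nat_lit 78) (nat_lit 1672) (nat_lit 0) (XT.lf (nat_lit 0) (nat_lit 5830385979) (nat_lit 1596) (nat_lit 1011891591) (nat_lit 76) (nat_lit 221694208) (nat_lit 477) (nat_lit 5) (nat_lit 498) (nat_lit 5) (nat_lit 478) (nat_lit 5) (nat_lit 415) (nat_lit 368) (nat_lit 357)) (XT.lf (nat_lit 0) (nat_lit 1837745979) (nat_lit 1672) (nat_lit 3311334454) (nat_lit 76) (nat_lit 1953727116) (nat_lit 455) (nat_lit 5) (nat_lit 477) (nat_lit 5) (nat_lit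 456) (nat_lit 5) (nat_lit 416) (nat_lit 368) (nat_lit 356))) (XT.nd (nat_lit 78) (nat_lit 1824) (nat_lit 0) (XT.lf (nat_lit 0) (nat_lit 1515062399) (nat_lit 1672) (nat_lit 3394636077) (nat_lit 1748) (nat_lit 2233471764) (nat_lit 433) (nat_lit 5) (nat_lit 455) (nat_lit 5) (nat_lit 456) (nat_lit 5) (nat_lit 417) (nat_lit 368) (nat_lit 355)) (XT.nd (nat_lit 78) (nat_lit 1748) (nat_lit 0) (XT.lf (nat_lit 0) (nat_lit 809269870) (nat_lit 1748) (nat_lit 766120003) (nat_lit 76) (nat_lit 5609629600) (nat_lit 432) (nat_lit 5) (nat_lit 455) (nat_lit 5) (nat_lit 433) (nat_lit 5) (nat_lit 418) (nat_lit 368) (nat_lit 354)) (XT.lf (nat_lit 0) (nat_lit 3852801430) (nat_lit 1824) (nat_lit 3055326371) (nat_lit 76) (nat_lit 319911729) (nat_lit 409) (nat_lit 5) (nat_lit 433) (nat_lit 5) (nat_lit 410) (nat_lit 5) (nat_lit 419) (nat_lit 368) (nat_lit 353))))) (XT.nd (nat_lit 234) (nat_lit 1748) (nat_lit 0) (XT.nd (nat_lit 78) (nat_lit 988)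 (nat_lit 0) (XT.lf (nat_lit 0) (nat_lit 1904369650) (nat_lit 1140) (nat_lit 5022203513) (nat_lit 1216) (nat_lit 345984861) (nat_lit 394) (nat_lit 5) (nat_lit 409) (nat_lit 5) (nat_lit 410) (nat_lit 5) (nat_lit 420) (nat_lit 368) (nat_lit 352)) (XT.nd (nat_lit 78) (nat_lit 912) (nat_lit 0) (XT.lf (nat_lit 0) (nat_lit 2670263617) (nat_lit 1216) (nat_lit 390272454) (nat_lit 76) (nat_lit 4257851028) (nat_lit 393) (nat_lit 5) (nat_lit 409) (nat_lit 5) (nat_lit 394) (nat_lit 5) (nat_lit 421) (nat_lit 368) (nat_lit 351)) (XT.lf (nat_lit 0) (nat_lit 4688121268) (nat_lit 912) (nat_lit 1027425465) (nat_lit 988) (nat_lit 1650097392) (nat_lit 381) (nat_lit 5) (nat_lit 393) (nat_lit 5) (nat_lit 394) (nat_lit 5) (nat_lit 422) (nat_lit 368) (nat_lit 350)))) (XT.nd (nat_lit 78) (nat_lit 836) (nat_lit 0) (XT.lf (nat_lit 0) (nat_lit 1358006359) (nat_lit 912) (nat_lit 4997880083) (nat_lit 76) (nat_lit 1058428423) (nat_lit 369) (nat_lit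 5) (nat_lit 381) (nat_lit 5) (nat_lit 370) (nat_lit 5) (nat_lit 423) (nat_lit 368) (nat_lit 349)) (XT.nd (nat_lit 78) (nat_lit 0) (nat_lit 0) (XT.lf (nat_lit 0) (nat_lit 109135937) (nat_lit 836) (nat_lit 4264628120) (nat_lit 912) (nat_lit 3090607661) (nat_lit 358) (nat_lit 5) (nat_lit 369) (nat_lit 5) (nat_lit 370) (nat_lit 5) (nat_lit 424) (nat_lit 368) (nat_lit 348)) (XT.lf (nat_lit 0) (nat_lit 5327019814) (nat_lit 836) (nat_lit 2101037716) (nat_lit 912) (nat_lit 87829900) (nat_lit 358) (nat_lit 5) (nat_lit 369) (nat_lit 5) (nat_lit 370) (nat_lit 5) (nat_lit 425) (nat_lit 368) (nat_lit 347))))))) (XT.nd (nat_lit 858) (nat_lit 5016) (nat_lit 0) (XT.nd (nat_lit 390) (nat_lit 3040) (nat_lit 0) (XT.nd (nat_lit 156) (nat_lit 1596) (nat_lit 0) (XT.nd (nat_lit 78) (nat_lit 836) (nat_lit 0) (XT.lf (nat_lit 0) (nat_lit 2902047838) (nat_lit 912) (nat_lit 4526876103) (nat_lit 76) (nat_lit 139823232) (nat_lit 346) (nat_lit 5)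 (nat_lit 358) (nat_lit 5) (nat_lit 347) (nat_lit 5) (nat_lit 426) (nat_lit 368) (nat_lit 346)) (XT.lf (nat_lit 0) (nat_lit 720080168) (nat_lit 836) (nat_lit 5209894333) (nat_lit 912) (nat_lit 1693110308) (nat_lit 335) (nat_lit 5) (nat_lit 346) (nat_lit 5) (nat_lit 347) (nat_lit 5) (nat_lit 427) (nat_lit 368) (nat_lit 345))) (XT.nd (nat_lit 78) (nat_lit 1520) (nat_lit 0) (XT.lf (nat_lit 0) (nat_lit 1299309275) (nat_lit 912) (nat_lit 1613102575) (nat_lit 76) (nat_lit 4766404747) (nat_lit 334) (nat_lit 5) (nat_lit 346) (nat_lit 5) (nat_lit 335) (nat_lit 5) (nat_lit 428) (nat_lit 368) (nat_lit 344)) (XT.nd (nat_lit 78) (nat_lit 760) (nat_lit 0) (XT.lf (nat_lit 0) (nat_lit 3762258490) (nat_lit 760) (nat_lit 538501744) (nat_lit 836) (nat_lit 3435261538) (nat_lit 324) (nat_lit 5) (nat_lit 334) (nat_lit 5) (nat_lit 335) (nat_lit 5) (nat_lit 429) (nat_lit 368) (nat_lit 343)) (XT.lf (nat_lit 0) (nat_lit 1420063394) (nat_lit 760)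 (nat_lit 5922537927) (nat_lit 836) (nat_lit 452181774) (nat_lit 314) (nat_lit 5) (nat_lit 324) (nat_lit 5) (nat_lit 325) (nat_lit 5) (nat_lit 430) (nat_lit 368) (nat_lit 342))))) (XT.nd (nat_lit 234) (nat_lit 1444) (nat_lit 0) (XT.nd (nat_lit 78) (nat_lit 1520) (nat_lit 0) (XT.lf (nat_lit 0) (nat_lit 2535291872) (nat_lit 836) (nat_lit 958536151) (nat_lit 76) (nat_lit 4360999592) (nat_lit 313) (nat_lit 5) (nat_lit 324) (nat_lit 5) (nat_lit 314) (nat_lit 5) (nat_lit 431) (nat_lit 368) (nat_lit 341)) (XT.nd (nat_lit 78) (nat_lit 836) (nat_lit 0) (XT.lf (nat_lit 0) (nat_lit 4564587589) (nat_lit 684) (nat_lit 990827490) (nat_lit 760) (nat_lit 2361037228) (nat_lit 304) (nat_lit 5) (nat_lit 313) (nat_lit 5) (nat_lit 314) (nat_lit 5) (nat_lit 432) (nat_lit 368) (nat_lit 340)) (XT.lf (nat_lit 0) (nat_lit 628602448) (nat_lit 836) (nat_lit 5792142709) (nat_lit 76) (nat_lit 1558884862) (nat_lit 293) (nat_lit 5) (nat_lit 304) (nat_lit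 5) (nat_lit 294) (nat_lit 5) (nat_lit 433) (nat_lit 368) (nat_lit 339)))) (XT.nd (nat_lit 78) (nat_lit 1444) (nat_lit 0) (XT.lf (nat_lit 0) (nat_lit 3625792055) (nat_lit 836) (nat_lit 242038583) (nat_lit 76) (nat_lit 4176358200) (nat_lit 293) (nat_lit 5) (nat_lit 304) (nat_lit 5) (nat_lit 294) (nat_lit 5) (nat_lit 434) (nat_lit 368) (nat_lit 338)) (XT.nd (nat_lit 78) (nat_lit 760) (nat_lit 0) (XT.lf (nat_lit 0) (nat_lit 5432341005) (nat_lit 684) (nat_lit 1236970853) (nat_lit 760) (nat_lit 1441016020) (nat_lit 284) (nat_lit 5) (nat_lit 293) (nat_lit 5) (nat_lit 294) (nat_lit 5) (nat_lit 435) (nat_lit 368) (nat_lit 337)) (XT.lf (nat_lit 0) (nat_lit 1557105790) (nat_lit 760) (nat_lit 5171015520) (nat_lit 76) (nat_lit 1449834796) (nat_lit 274) (nat_lit 5) (nat_lit 284) (nat_lit 5) (nat_lit 275) (nat_lit 5) (nat_lit 436) (nat_lit 368) (nat_lit 336)))))) (XT.nd (nat_lit 390) (nat_lit 3040) (nat_lit 0) (XT.nd (nat_lit 156)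 (nat_lit 1368) (nat_lit 0) (XT.nd (nat_lit 78) (nat_lit 0) (nat_lit 0) (XT.lf (nat_lit 0) (nat_lit 525544708) (nat_lit 608) (nat_lit 4051940647) (nat_lit 684) (nat_lit 3669645038) (nat_lit 266) (nat_lit 5) (nat_lit 274) (nat_lit 5) (nat_lit 275) (nat_lit 5) (nat_lit 437) (nat_lit 368) (nat_lit 335)) (XT.lf (nat_lit 0) (nat_lit 6347733544) (nat_lit 608) (nat_lit 1297682334) (nat_lit 684) (nat_lit 672544917) (nat_lit 266) (nat_lit 5) (nat_lit 274) (nat_lit 5) (nat_lit 275) (nat_lit 5) (nat_lit 438) (nat_lit 368) (nat_lit 334))) (XT.nd (nat_lit 78) (nat_lit 608) (nat_lit 0) (XT.lf (nat_lit 0) (nat_lit 2341438599) (nat_lit 760) (nat_lit 4526773193) (nat_lit 76) (nat_lit 1521936982) (nat_lit 256) (nat_lit 5) (nat_lit 266) (nat_lit 5) (nat_lit 257) (nat_lit 5) (nat_lit 439) (nat_lit 368) (nat_lit 333)) (XT.nd (nat_lit 78) (nat_lit 0) (nat_lit 0) (XT.lf (nat_lit 0) (nat_lit 1322672520) (nat_lit 608) (nat_lit 4068049604) (nat_lit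 684) (nat_lit 3073303569) (nat_lit 248) (nat_lit 5) (nat_lit 256) (nat_lit 5) (nat_lit 257) (nat_lit 5) (nat_lit 440) (nat_lit 368) (nat_lit 332)) (XT.lf (nat_lit 0) (nat_lit 7292472352) (nat_lit 608) (nat_lit 1192957570) (nat_lit 684) (nat_lit 54275771) (nat_lit 248) (nat_lit 5) (nat_lit 256) (nat_lit 5) (nat_lit 257) (nat_lit 5) (nat_lit 441) (nat_lit 368) (nat_lit 331))))) (XT.nd (nat_lit 234) (nat_lit 1748) (nat_lit 0) (XT.nd (nat_lit 78) (nat_lit 608) (nat_lit 0) (XT.lf (nat_lit 0) (nat_lit 2982497905) (nat_lit 684) (nat_lit 3878412388) (nat_lit 76) (nat_lit 1755669129) (nat_lit 239) (nat_lit 5) (nat_lit 248) (nat_lit 5) (nat_lit 240) (nat_lit 5) (nat_lit 442) (nat_lit 368) (nat_lit 330)) (XT.nd (nat_lit 78) (nat_lit 76) (nat_lit 0) (XT.lf (nat_lit 0) (nat_lit 2127011654) (nat_lit 532) (nat_lit 3937493767) (nat_lit 608) (nat_lit 2630787017) (nat_lit 232) (nat_lit 5) (nat_lit 239) (nat_lit 5) (nat_lit 240) (nat_lit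 5) (nat_lit 443) (nat_lit 368) (nat_lit 329)) (XT.lf (nat_lit 0) (nat_lit 408387564) (nat_lit 608) (nat_lit 531077070) (nat_lit 76) (nat_lit 7836442129) (nat_lit 231) (nat_lit 5) (nat_lit 239) (nat_lit 5) (nat_lit 232) (nat_lit 5) (nat_lit 444) (nat_lit 368) (nat_lit 328)))) (XT.nd (nat_lit 78) (nat_lit 1140) (nat_lit 0) (XT.lf (nat_lit 0) (nat_lit 3479873708) (nat_lit 684) (nat_lit 3245746886) (nat_lit 76) (nat_lit 2132042615) (nat_lit 223) (nat_lit 5) (nat_lit 232) (nat_lit 5) (nat_lit 224) (nat_lit 5) (nat_lit 445) (nat_lit 368) (nat_lit 327)) (XT.nd (nat_lit 78) (nat_lit 608) (nat_lit 0) (XT.lf (nat_lit 0) (nat_lit 2918585855) (nat_lit 532) (nat_lit 3679533189) (nat_lit 608) (nat_lit 2343241616) (nat_lit 216) (nat_lit 5) (nat_lit 223) (nat_lit 5) (nat_lit 224) (nat_lit 5) (nat_lit 446) (nat_lit 368) (nat_lit 326)) (XT.lf (nat_lit 0) (nat_lit 163381325) (nat_lit 532) (nat_lit 558494696) (nat_lit 608) (nat_lit 8305175540)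 (nat_lit 208) (nat_lit 5) (nat_lit 215) (nat_lit 5) (nat_lit 216) (nat_lit 5) (nat_lit 447) (nat_lit 368) (nat_lit 325))))))))
noncomputable def xc62 : XT := (XT.nd (nat_lit 1716) (nat_lit 4408) (nat_lit 0) (XT.nd (nat_lit 858) (nat_lit 3040) (nat_lit 0) (XT.nd (nat_lit 390) (nat_lit 1900) (nat_lit 0) (XT.nd (nat_lit 156) (nat_lit 1064) (nat_lit 0) (XT.nd (nat_lit 78) (nat_lit 532) (nat_lit 0) (XT.lf (nat_lit 0) (nat_lit 3831813723) (nat_lit 608) (nat_lit 2649610205) (nat_lit 76) (nat_lit 2632436447) (nat_lit 208) (nat_lit 5) (nat_lit 216) (nat_lit 5) (nat_lit 209) (nat_lit 5) (nat_lit 448) (nat_lit 368) (nat_lit 324)) (XT.lf (nat_lit 0) (nat_lit 3676352035) (nat_lit 532) (nat_lit 3313144267) (nat_lit 608) (nat_lit 2213209654) (nat_lit 201) (nat_lit 5) (nat_lit 208) (nat_lit 5) (nat_lit 209) (nat_lit 5) (nat_lit 449) (nat_lit 368) (nat_lit 323))) (XT.nd (nat_lit 78) (nat_lit 456) (nat_lit 0) (XT.lf (nat_lit 0) (nat_lit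 819362071) (nat_lit 532) (nat_lit 66981950) (nat_lit 608) (nat_lit 8407249087) (nat_lit 193) (nat_lit 5) (nat_lit 200) (nat_lit 5) (nat_lit 201) (nat_lit 5) (nat_lit 450) (nat_lit 368) (nat_lit 322)) (XT.nd (nat_lit 78) (nat_lit 456) (nat_lit 0) (XT.lf (nat_lit 0) (nat_lit 4035176506) (nat_lit 608) (nat_lit 2112071333) (nat_lit 76) (nat_lit 3238429978) (nat_lit 193) (nat_lit 5) (nat_lit 201) (nat_lit 5) (nat_lit 194) (nat_lit 5) (nat_lit 451) (nat_lit 368) (nat_lit 321)) (XT.lf (nat_lit 0) (nat_lit 4377979389) (nat_lit 456) (nat_lit 2857189974) (nat_lit 532) (nat_lit 2244681817) (nat_lit 187) (nat_lit 5) (nat_lit 193) (nat_lit 5) (nat_lit 194) (nat_lit 5) (nat_lit 452) (nat_lit 368) (nat_lit 320))))) (XT.nd (nat_lit 234) (nat_lit 912) (nat_lit 0) (XT.nd (nat_lit 78) (nat_lit 456) (nat_lit 0) (XT.lf (nat_lit 0) (nat_lit 897347165) (nat_lit 532) (nat_lit 8172777277) (nat_lit 76) (nat_lit 505949872) (nat_lit 180) (nat_lit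 5) (nat_lit 187) (nat_lit 5) (nat_lit 181) (nat_lit 5) (nat_lit 453) (nat_lit 368) (nat_lit 319)) (XT.nd (nat_lit 78) (nat_lit 456) (nat_lit 0) (XT.lf (nat_lit 0) (nat_lit 4085372348) (nat_lit 532) (nat_lit 1656665598) (nat_lit 76) (nat_lit 3931633003) (nat_lit 180) (nat_lit 5) (nat_lit 187) (nat_lit 5) (nat_lit 181) (nat_lit 5) (nat_lit 454) (nat_lit 368) (nat_lit 318)) (XT.lf (nat_lit 0) (nat_lit 4999612748) (nat_lit 456) (nat_lit 2330593393) (nat_lit 532) (nat_lit 2443162241) (nat_lit 174) (nat_lit 5) (nat_lit 180) (nat_lit 5) (nat_lit 181) (nat_lit 5) (nat_lit 455) (nat_lit 368) (nat_lit 317)))) (XT.nd (nat_lit 78) (nat_lit 380) (nat_lit 0) (XT.lf (nat_lit 0) (nat_lit 746650500) (nat_lit 532) (nat_lit 7982193842) (nat_lit 76) (nat_lit 1146289444) (nat_lit 167) (nat_lit 5) (nat_lit 174) (nat_lit 5) (nat_lit 168) (nat_lit 5) (nat_lit 456) (nat_lit 368) (nat_lit 316)) (XT.nd (nat_lit 78) (nat_lit 380) (nat_lit 0) (XT.lf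 (nat_lit 0) (nat_lit 3976291222) (nat_lit 532) (nat_lit 1308642837) (nat_lit 76) (nat_lit 4693511799) (nat_lit 167) (nat_lit 5) (nat_lit 174) (nat_lit 5) (nat_lit 168) (nat_lit 5) (nat_lit 457) (nat_lit 368) (nat_lit 315)) (XT.lf (nat_lit 0) (nat_lit 5515617946) (nat_lit 380) (nat_lit 1752516031) (nat_lit 456) (nat_lit 2815747089) (nat_lit 162) (nat_lit 5) (nat_lit 167) (nat_lit 5) (nat_lit 168) (nat_lit 5) (nat_lit 458) (nat_lit 368) (nat_lit 314)))))) (XT.nd (nat_lit 390) (nat_lit 1672) (nat_lit 0) (XT.nd (nat_lit 156) (nat_lit 836) (nat_lit 0) (XT.nd (nat_lit 78) (nat_lit 0) (nat_lit 0) (XT.lf (nat_lit 0) (nat_lit 426310394) (nat_lit 532) (nat_lit 7929190332) (nat_lit 76) (nat_lit 1835924195) (nat_lit 155) (nat_lit 5) (nat_lit 162) (nat_lit 5) (nat_lit 156) (nat_lit 5) (nat_lit 459) (nat_lit 368) (nat_lit 313)) (XT.lf (nat_lit 0) (nat_lit 3700216920) (nat_lit 532) (nat_lit 1095235239) (nat_lit 76) (nat_lit 5505209592)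 (nat_lit 155) (nat_lit 5) (nat_lit 162) (nat_lit 5) (nat_lit 156) (nat_lit 5) (nat_lit 460) (nat_lit 368) (nat_lit 312))) (XT.nd (nat_lit 78) (nat_lit 456) (nat_lit 0) (XT.lf (nat_lit 0) (nat_lit 5898306754) (nat_lit 380) (nat_lit 1142542473) (nat_lit 456) (nat_lit 3371217527) (nat_lit 150) (nat_lit 5) (nat_lit 155) (nat_lit 5) (nat_lit 156) (nat_lit 5) (nat_lit 461) (nat_lit 368) (nat_lit 311)) (XT.nd (nat_lit 78) (nat_lit 76) (nat_lit 0) (XT.lf (nat_lit 0) (nat_lit 2482023201) (nat_lit 380) (nat_lit 7969771583) (nat_lit 456) (nat_lit 73843283) (nat_lit 145) (nat_lit 5) (nat_lit 150) (nat_lit 5) (nat_lit 151) (nat_lit 5) (nat_lit 462) (nat_lit 368) (nat_lit 310)) (XT.lf (nat_lit 0) (nat_lit 3247726444) (nat_lit 456) (nat_lit 1045947423) (nat_lit 76) (nat_lit 6347359891) (nat_lit 144) (nat_lit 5) (nat_lit 150) (nat_lit 5) (nat_lit 145) (nat_lit 5) (nat_lit 463) (nat_lit 368) (nat_lit 309))))) (XT.nd (nat_lit 234) (nat_lit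 836) (nat_lit 0) (XT.nd (nat_lit 78) (nat_lit 456) (nat_lit 0) (XT.lf (nat_lit 0) (nat_lit 6117638756) (nat_lit 380) (nat_lit 520872989) (nat_lit 456) (nat_lit 4120148146) (nat_lit 139) (nat_lit 5) (nat_lit 144) (nat_lit 5) (nat_lit 145) (nat_lit 5) (nat_lit 464) (nat_lit 368) (nat_lit 308)) (XT.nd (nat_lit 78) (nat_lit 76) (nat_lit 0) (XT.lf (nat_lit 0) (nat_lit 2517514883) (nat_lit 380) (nat_lit 7588906599) (nat_lit 456) (nat_lit 772038487) (nat_lit 134) (nat_lit 5) (nat_lit 139) (nat_lit 5) (nat_lit 140) (nat_lit 5) (nat_lit 465) (nat_lit 368) (nat_lit 307)) (XT.lf (nat_lit 0) (nat_lit 2607573509) (nat_lit 456) (nat_lit 1192871539) (nat_lit 76) (nat_lit 7199891016) (nat_lit 133) (nat_lit 5) (nat_lit 139) (nat_lit 5) (nat_lit 134) (nat_lit 5) (nat_lit 466) (nat_lit 368) (nat_lit 306)))) (XT.nd (nat_lit 78) (nat_lit 456) (nat_lit 0) (XT.lf (nat_lit 0) (nat_lit 6050017023) (nat_lit 456) (nat_lit 4984151753) (nat_lit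 76) (nat_lit 90274463) (nat_lit 128) (nat_lit 5) (nat_lit 134) (nat_lit 5) (nat_lit 129) (nat_lit 5) (nat_lit 467) (nat_lit 368) (nat_lit 305)) (XT.nd (nat_lit 78) (nat_lit 76) (nat_lit 0) (XT.lf (nat_lit 0) (nat_lit 2337527478) (nat_lit 380) (nat_lit 7237511282) (nat_lit 456) (nat_lit 1675726229) (nat_lit 123) (nat_lit 5) (nat_lit 128) (nat_lit 5) (nat_lit 129) (nat_lit 5) (nat_lit 468) (nat_lit 368) (nat_lit 304)) (XT.lf (nat_lit 0) (nat_lit 1766554945) (nat_lit 456) (nat_lit 1571030456) (nat_lit 76) (nat_lit 8041820043) (nat_lit 122) (nat_lit 5) (nat_lit 128) (nat_lit 5) (nat_lit 123) (nat_lit 5) (nat_lit 469) (nat_lit 368) (nat_lit 303))))))) (XT.nd (nat_lit 858) (nat_lit 1976) (nat_lit 0) (XT.nd (nat_lit 390) (nat_lit 1064) (nat_lit 0) (XT.nd (nat_lit 156) (nat_lit 684) (nat_lit 0) (XT.nd (nat_lit 78) (nat_lit 380) (nat_lit 0) (XT.lf (nat_lit 0) (nat_lit 5264253280) (nat_lit 380) (nat_lit 5582340691) (nat_lit 76)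 (nat_lit 663629628) (nat_lit 118) (nat_lit 5) (nat_lit 123) (nat_lit 5) (nat_lit 119) (nat_lit 5) (nat_lit 470) (nat_lit 368) (nat_lit 302)) (XT.lf (nat_lit 0) (nat_lit 1904828295) (nat_lit 380) (nat_lit 6938472759) (nat_lit 456) (nat_lit 2800135639) (nat_lit 113) (nat_lit 5) (nat_lit 118) (nat_lit 5) (nat_lit 119) (nat_lit 5) (nat_lit 471) (nat_lit 368) (nat_lit 301))) (XT.nd (nat_lit 78) (nat_lit 608) (nat_lit 0) (XT.lf (nat_lit 0) (nat_lit 709358541) (nat_lit 456) (nat_lit 2218752355) (nat_lit 76) (nat_lit 8851034286) (nat_lit 112) (nat_lit 5) (nat_lit 118) (nat_lit 5) (nat_lit 113) (nat_lit 5) (nat_lit 472) (nat_lit 368) (nat_lit 300)) (XT.nd (nat_lit 78) (nat_lit 304) (nat_lit 0) (XT.lf (nat_lit 0) (nat_lit 4261835311) (nat_lit 380) (nat_lit 6472142388) (nat_lit 76) (nat_lit 1183020344) (nat_lit 108) (nat_lit 5) (nat_lit 113) (nat_lit 5) (nat_lit 109) (nat_lit 5) (nat_lit 473) (nat_lit 368) (nat_lit 299)) (XT.lf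 (nat_lit 0) (nat_lit 1178594993) (nat_lit 304) (nat_lit 6716054150) (nat_lit 380) (nat_lit 4162779058) (nat_lit 104) (nat_lit 5) (nat_lit 108) (nat_lit 5) (nat_lit 109) (nat_lit 5) (nat_lit 474) (nat_lit 368) (nat_lit 298))))) (XT.nd (nat_lit 234) (nat_lit 380) (nat_lit 0) (XT.nd (nat_lit 78) (nat_lit 684) (nat_lit 0) (XT.lf (nat_lit 0) (nat_lit 9018546149) (nat_lit 304) (nat_lit 2592568282) (nat_lit 380) (nat_lit 589338500) (nat_lit 104) (nat_lit 5) (nat_lit 108) (nat_lit 5) (nat_lit 109) (nat_lit 5) (nat_lit 475) (nat_lit 368) (nat_lit 297)) (XT.nd (nat_lit 78) (nat_lit 304) (nat_lit 0) (XT.lf (nat_lit 0) (nat_lit 3024414973) (nat_lit 380) (nat_lit 7697392955) (nat_lit 76) (nat_lit 1623960728) (nat_lit 99) (nat_lit 5) (nat_lit 104) (nat_lit 5) (nat_lit 100) (nat_lit 5) (nat_lit 476) (nat_lit 368) (nat_lit 296)) (XT.lf (nat_lit 0) (nat_lit 113977769) (nat_lit 304) (nat_lit 6596144738) (nat_lit 380) (nat_lit 5783644406)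 (nat_lit 95) (nat_lit 5) (nat_lit 99) (nat_lit 5) (nat_lit 100) (nat_lit 5) (nat_lit 477) (nat_lit 368) (nat_lit 295)))) (XT.nd (nat_lit 78) (nat_lit 380) (nat_lit 0) (XT.lf (nat_lit 0) (nat_lit 8135117309) (nat_lit 304) (nat_lit 2354534777) (nat_lit 380) (nat_lit 2154676318) (nat_lit 95) (nat_lit 5) (nat_lit 99) (nat_lit 5) (nat_lit 100) (nat_lit 5) (nat_lit 478) (nat_lit 368) (nat_lit 294)) (XT.nd (nat_lit 78) (nat_lit 0) (nat_lit 0) (XT.lf (nat_lit 0) (nat_lit 1531096046) (nat_lit 380) (nat_lit 9306294084) (nat_lit 76) (nat_lit 1960225093) (nat_lit 90) (nat_lit 5) (nat_lit 95) (nat_lit 5) (nat_lit 91) (nat_lit 5) (nat_lit 479) (nat_lit 368) (nat_lit 293)) (XT.lf (nat_lit 0) (nat_lit 5276838021) (nat_lit 380) (nat_lit 1320827587) (nat_lit 76) (nat_lit 6355720330) (nat_lit 90) (nat_lit 5) (nat_lit 95) (nat_lit 5) (nat_lit 91) (nat_lit 5) (nat_lit 480) (nat_lit 368) (nat_lit 292)))))) (XT.nd (nat_lit 390) (nat_lit 1064)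 (nat_lit 0) (XT.nd (nat_lit 156) (nat_lit 380) (nat_lit 0) (XT.nd (nat_lit 78) (nat_lit 228) (nat_lit 0) (XT.lf (nat_lit 0) (nat_lit 6864981911) (nat_lit 304) (nat_lit 2246718071) (nat_lit 380) (nat_lit 4000292996) (nat_lit 86) (nat_lit 5) (nat_lit 90) (nat_lit 5) (nat_lit 91) (nat_lit 5) (nat_lit 481) (nat_lit 368) (nat_lit 291)) (XT.lf (nat_lit 0) (nat_lit 1920154075) (nat_lit 228) (nat_lit 11108507850) (nat_lit 304) (nat_lit 245007091) (nat_lit 83) (nat_lit 5) (nat_lit 86) (nat_lit 5) (nat_lit 87) (nat_lit 5) (nat_lit 482) (nat_lit 368) (nat_lit 290))) (XT.nd (nat_lit 78) (nat_lit 304) (nat_lit 0) (XT.lf (nat_lit 0) (nat_lit 3565295215) (nat_lit 304) (nat_lit 3190472497) (nat_lit 76) (nat_lit 6681811341) (nat_lit 82) (nat_lit 5) (nat_lit 86) (nat_lit 5) (nat_lit 83) (nat_lit 5) (nat_lit 483) (nat_lit 368) (nat_lit 289)) (XT.nd (nat_lit 78) (nat_lit 0) (nat_lit 0) (XT.lf (nat_lit 0) (nat_lit 5153126242) (nat_lit 304)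 (nat_lit 2299304679) (nat_lit 380) (nat_lit 6152230448) (nat_lit 78) (nat_lit 5) (nat_lit 82) (nat_lit 5) (nat_lit 83) (nat_lit 5) (nat_lit 484) (nat_lit 368) (nat_lit 288)) (XT.lf (nat_lit 0) (nat_lit 11424034511) (nat_lit 380) (nat_lit 131351196) (nat_lit 76) (nat_lit 2219569663) (nat_lit 78) (nat_lit 5) (nat_lit 83) (nat_lit 5) (nat_lit 79) (nat_lit 5) (nat_lit 485) (nat_lit 368) (nat_lit 287))))) (XT.nd (nat_lit 234) (nat_lit 532) (nat_lit 0) (XT.nd (nat_lit 78) (nat_lit 228) (nat_lit 0) (XT.lf (nat_lit 0) (nat_lit 1547609244) (nat_lit 304) (nat_lit 5555670241) (nat_lit 76) (nat_lit 6844357649) (nat_lit 74) (nat_lit 5) (nat_lit 78) (nat_lit 5) (nat_lit 75) (nat_lit 5) (nat_lit 486) (nat_lit 368) (nat_lit 286)) (XT.nd (nat_lit 78) (nat_lit 0) (nat_lit 0) (XT.lf (nat_lit 0) (nat_lit 2938818003) (nat_lit 228) (nat_lit 2545039642) (nat_lit 304) (nat_lit 8639783841) (nat_lit 71) (nat_lit 5) (nat_lit 74) (nat_lit 5) (nat_lit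 75) (nat_lit 5) (nat_lit 487) (nat_lit 368) (nat_lit 285)) (XT.lf (nat_lit 0) (nat_lit 9521382416) (nat_lit 304) (nat_lit 2685887977) (nat_lit 76) (nat_lit 2095448702) (nat_lit 71) (nat_lit 5) (nat_lit 75) (nat_lit 5) (nat_lit 72) (nat_lit 5) (nat_lit 488) (nat_lit 368) (nat_lit 284)))) (XT.nd (nat_lit 78) (nat_lit 304) (nat_lit 0) (XT.lf (nat_lit 0) (nat_lit 5997712722) (nat_lit 228) (nat_lit 7669662318) (nat_lit 304) (nat_lit 817452977) (nat_lit 68) (nat_lit 5) (nat_lit 71) (nat_lit 5) (nat_lit 72) (nat_lit 5) (nat_lit 489) (nat_lit 368) (nat_lit 283)) (XT.nd (nat_lit 78) (nat_lit 0) (nat_lit 0) (XT.lf (nat_lit 0) (nat_lit 154957852) (nat_lit 228) (nat_lit 3019573976) (nat_lit 304) (nat_lit 11495809792) (nat_lit 64) (nat_lit 5) (nat_lit 67) (nat_lit 5) (nat_lit 68) (nat_lit 5) (nat_lit 490) (nat_lit 368) (nat_lit 282)) (XT.lf (nat_lit 0) (nat_lit 7276042309) (nat_lit 304) (nat_lit 5837801143) (nat_lit 76) (nat_lit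 1744805216) (nat_lit 64) (nat_lit 5) (nat_lit 68) (nat_lit 5) (nat_lit 65) (nat_lit 5) (nat_lit 491) (nat_lit 368) (nat_lit 281))))))))
noncomputable def xc63 : XT := (XT.nd (nat_lit 52884) (nat_lit 0) (nat_lit 20976) (XT.nd (nat_lit 858) (nat_lit 608) (nat_lit 0) (XT.nd (nat_lit 390) (nat_lit 760) (nat_lit 0) (XT.nd (nat_lit 156) (nat_lit 380) (nat_lit 0) (XT.nd (nat_lit 78) (nat_lit 76) (nat_lit 0) (XT.lf (nat_lit 0) (nat_lit 2986115798) (nat_lit 228) (nat_lit 8485500311) (nat_lit 304) (nat_lit 3578868884) (nat_lit 61) (nat_lit 5) (nat_lit 64) (nat_lit 5) (nat_lit 65) (nat_lit 5) (nat_lit 492) (nat_lit 368) (nat_lit 280)) (XT.lf (nat_lit 0) (nat_lit 510457055) (nat_lit 304) (nat_lit 3229713279) (nat_lit 76) (nat_lit 11505683072) (nat_lit 60) (nat_lit 5) (nat_lit 64) (nat_lit 5) (nat_lit 61) (nat_lit 5) (nat_lit 493) (nat_lit 368) (nat_lit 279))) (XT.nd (nat_lit 78) (nat_lit 152) (nat_lit 0) (XT.lf (nat_lit 0) (nat_lit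 4651938405) (nat_lit 304) (nat_lit 9663553455) (nat_lit 76) (nat_lit 1128801980) (nat_lit 57) (nat_lit 5) (nat_lit 61) (nat_lit 5) (nat_lit 58) (nat_lit 5) (nat_lit 494) (nat_lit 368) (nat_lit 278)) (XT.nd (nat_lit 78) (nat_lit 152) (nat_lit 0) (XT.lf (nat_lit 0) (nat_lit 8896182202) (nat_lit 304) (nat_lit 701647091) (nat_lit 76) (nat_lit 6048478643) (nat_lit 57) (nat_lit 5) (nat_lit 61) (nat_lit 5) (nat_lit 58) (nat_lit 5) (nat_lit 495) (nat_lit 368) (nat_lit 277)) (XT.lf (nat_lit 0) (nat_lit 8506306854) (nat_lit 152) (nat_lit 4748102092) (nat_lit 228) (nat_lit 2597374847) (nat_lit 55) (nat_lit 5) (nat_lit 57) (nat_lit 5) (nat_lit 58) (nat_lit 5) (nat_lit 496) (nat_lit 368) (nat_lit 276))))) (XT.nd (nat_lit 234) (nat_lit 304) (nat_lit 0) (XT.nd (nat_lit 78) (nat_lit 152) (nat_lit 0) (XT.lf (nat_lit 0) (nat_lit 1608732581) (nat_lit 304) (nat_lit 14247715776) (nat_lit 76) (nat_lit 204875564) (nat_lit 51) (nat_lit 5) (nat_lit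 55) (nat_lit 5) (nat_lit 52) (nat_lit 5) (nat_lit 497) (nat_lit 368) (nat_lit 275)) (XT.nd (nat_lit 78) (nat_lit 152) (nat_lit 0) (XT.lf (nat_lit 0) (nat_lit 5919298245) (nat_lit 304) (nat_lit 5112508500) (nat_lit 76) (nat_lit 5241805678) (nat_lit 51) (nat_lit 5) (nat_lit 55) (nat_lit 5) (nat_lit 52) (nat_lit 5) (nat_lit 498) (nat_lit 368) (nat_lit 274)) (XT.lf (nat_lit 0) (nat_lit 4216673674) (nat_lit 152) (nat_lit 6101307997) (nat_lit 228) (nat_lit 6172130074) (nat_lit 49) (nat_lit 5) (nat_lit 51) (nat_lit 5) (nat_lit 52) (nat_lit 5) (nat_lit 499) (nat_lit 368) (nat_lit 273)))) (XT.nd (nat_lit 78) (nat_lit 304) (nat_lit 0) (XT.lf (nat_lit 0) (nat_lit 13757998892) (nat_lit 152) (nat_lit 1055691931) (nat_lit 228) (nat_lit 1897072304) (nat_lit 49) (nat_lit 5) (nat_lit 51) (nat_lit 5) (nat_lit 52) (nat_lit 5) (nat_lit 500) (nat_lit 368) (nat_lit 272)) (XT.nd (nat_lit 78) (nat_lit 0) (nat_lit 0) (XT.lf (nat_lit 0) (nat_lit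 2475811764) (nat_lit 304) (nat_lit 10380558646) (nat_lit 76) (nat_lit 4078247547) (nat_lit 45) (nat_lit 5) (nat_lit 49) (nat_lit 5) (nat_lit 46) (nat_lit 5) (nat_lit 501) (nat_lit 368) (nat_lit 271)) (XT.lf (nat_lit 0) (nat_lit 6912877013) (nat_lit 304) (nat_lit 934507969) (nat_lit 76) (nat_lit 9315274539) (nat_lit 45) (nat_lit 5) (nat_lit 49) (nat_lit 5) (nat_lit 46) (nat_lit 5) (nat_lit 502) (nat_lit 368) (nat_lit 270)))))) (XT.nd (nat_lit 51558) (nat_lit 0) (nat_lit 39292) (XT.nd (nat_lit 156) (nat_lit 228) (nat_lit 0) (XT.nd (nat_lit 78) (nat_lit 228) (nat_lit 0) (XT.lf (nat_lit 0) (nat_lit 8773060007) (nat_lit 152) (nat_lit 2698235446) (nat_lit 228) (nat_lit 5923317104) (nat_lit 43) (nat_lit 5) (nat_lit 45) (nat_lit 5) (nat_lit 46) (nat_lit 5) (nat_lit 503) (nat_lit 368) (nat_lit 269)) (XT.lf (nat_lit 0) (nat_lit 1010443428) (nat_lit 228) (nat_lit 15115631240) (nat_lit 304) (nat_lit 1505028961) (nat_lit 40) (nat_lit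 5) (nat_lit 43) (nat_lit 5) (nat_lit 44) (nat_lit 5) (nat_lit 504) (nat_lit 368) (nat_lit 268))) (XT.nd (nat_lit 78) (nat_lit 152) (nat_lit 0) (XT.lf (nat_lit 0) (nat_lit 3014142464) (nat_lit 304) (nat_lit 6999559349) (nat_lit 76) (nat_lit 7857197964) (nat_lit 39) (nat_lit 5) (nat_lit 43) (nat_lit 5) (nat_lit 40) (nat_lit 5) (nat_lit 505) (nat_lit 368) (nat_lit 267)) (XT.nd (nat_lit 51246) (nat_lit 0) (nat_lit 43852) (XT.lf (nat_lit 0) (nat_lit 2798942454) (nat_lit 152) (nat_lit 4799045878) (nat_lit 228) (nat_lit 10517418344) (nat_lit 37) (nat_lit 5) (nat_lit 39) (nat_lit 5) (nat_lit 40) (nat_lit 5) (nat_lit 506) (nat_lit 368) (nat_lit 266)) (XT.lf (nat_lit 0) (nat_lit 517014983) (nat_lit 988) (nat_lit 2305226537) (nat_lit 0) (nat_lit 517014983) (nat_lit 614) (nat_lit 5) (nat_lit 627) (nat_lit 4) (nat_lit 614) (nat_lit 4) (nat_lit 402) (nat_lit 369) (nat_lit 369))))) (XT.nd (nat_lit 234) (nat_lit 2432) (nat_lit 0) (XT.nd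 (nat_lit 78) (nat_lit 2128) (nat_lit 0) (XT.lf (nat_lit 0) (nat_lit 4245617076) (nat_lit 988) (nat_lit 390466906) (nat_lit 0) (nat_lit 2064673113) (nat_lit 614) (nat_lit 5) (nat_lit 627) (nat_lit 4) (nat_lit 614) (nat_lit 4) (nat_lit 403) (nat_lit 369) (nat_lit 368)) (XT.nd (nat_lit 78) (nat_lit 1064) (nat_lit 0) (XT.lf (nat_lit 0) (nat_lit 742008355) (nat_lit 1064) (nat_lit 2820267441) (nat_lit 76) (nat_lit 3162015498) (nat_lit 600) (nat_lit 5) (nat_lit 614) (nat_lit 5) (nat_lit 601) (nat_lit 4) (nat_lit 404) (nat_lit 369) (nat_lit 367)) (XT.lf (nat_lit 0) (nat_lit 1487909153) (nat_lit 1064) (nat_lit 2424610016) (nat_lit 1140) (nat_lit 2836644340) (nat_lit 586) (nat_lit 5) (nat_lit 600) (nat_lit 5) (nat_lit 601) (nat_lit 4) (nat_lit 405) (nat_lit 369) (nat_lit 366)))) (XT.nd (nat_lit 78) (nat_lit 2356) (nat_lit 0) (XT.lf (nat_lit 0) (nat_lit 316558501) (nat_lit 1140) (nat_lit 913584591) (nat_lit 76) (nat_lit 5545387515)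 (nat_lit 585) (nat_lit 5) (nat_lit 600) (nat_lit 5) (nat_lit 586) (nat_lit 5) (nat_lit 406) (nat_lit 369) (nat_lit 365)) (XT.nd (nat_lit 78) (nat_lit 1216) (nat_lit 0) (XT.lf (nat_lit 0) (nat_lit 3449666183) (nat_lit 1216) (nat_lit 3311465368) (nat_lit 76) (nat_lit 41857620) (nat_lit 570) (nat_lit 5) (nat_lit 586) (nat_lit 5) (nat_lit 571) (nat_lit 4) (nat_lit 407) (nat_lit 369) (nat_lit 364)) (XT.lf (nat_lit 0) (nat_lit 1115359027) (nat_lit 1216) (nat_lit 5484525088) (nat_lit 1292) (nat_lit 232058734) (nat_lit 554) (nat_lit 5) (nat_lit 570) (nat_lit 5) (nat_lit 571) (nat_lit 4) (nat_lit 408) (nat_lit 369) (nat_lit 363))))))) (XT.nd (nat_lit 858) (nat_lit 7296) (nat_lit 0) (XT.nd (nat_lit 390) (nat_lit 6688) (nat_lit 0) (XT.nd (nat_lit 156) (nat_lit 2964) (nat_lit 0) (XT.nd (nat_lit 78) (nat_lit 1292) (nat_lit 0) (XT.lf (nat_lit 0) (nat_lit 2868651254) (nat_lit 1292) (nat_lit 1262602371) (nat_lit 76) (nat_lit 2730757609)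 (nat_lit 553) (nat_lit 5) (nat_lit 570) (nat_lit 5) (nat_lit 554) (nat_lit 5) (nat_lit 409) (nat_lit 369) (nat_lit 362)) (XT.lf (nat_lit 0) (nat_lit 3265009960) (nat_lit 1292) (nat_lit 2719129123) (nat_lit 1368) (nat_lit 909426696) (nat_lit 536) (nat_lit 5) (nat_lit 553) (nat_lit 5) (nat_lit 554) (nat_lit 5) (nat_lit 410) (nat_lit 369) (nat_lit 361))) (XT.nd (nat_lit 78) (nat_lit 1520) (nat_lit 0) (XT.lf (nat_lit 0) (nat_lit 914877722) (nat_lit 1368) (nat_lit 1241574432) (nat_lit 1444) (nat_lit 4770048602) (nat_lit 517) (nat_lit 5) (nat_lit 535) (nat_lit 5) (nat_lit 536) (nat_lit 5) (nat_lit 411) (nat_lit 369) (nat_lit 360)) (XT.nd (nat_lit 78) (nat_lit 1520) (nat_lit 0) (XT.lf (nat_lit 0) (nat_lit 5233792383) (nat_lit 1444) (nat_lit 1427382874) (nat_lit 76) (nat_lit 299583519) (nat_lit 517) (nat_lit 5) (nat_lit 536) (nat_lit 5) (nat_lit 518) (nat_lit 5) (nat_lit 412) (nat_lit 369) (nat_lit 359)) (XT.lf (nat_lit 0) (nat_lit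 1325159195) (nat_lit 1520) (nat_lit 3779589081) (nat_lit 76) (nat_lit 1891479842) (nat_lit 497) (nat_lit 5) (nat_lit 517) (nat_lit 5) (nat_lit 498) (nat_lit 5) (nat_lit 413) (nat_lit 369) (nat_lit 358))))) (XT.nd (nat_lit 234) (nat_lit 3496) (nat_lit 0) (XT.nd (nat_lit 78) (nat_lit 1672) (nat_lit 0) (XT.lf (nat_lit 0) (nat_lit 883185010) (nat_lit 1520) (nat_lit 3485166139) (nat_lit 1596) (nat_lit 2664793640) (nat_lit 477) (nat_lit 5) (nat_lit 497) (nat_lit 5) (nat_lit 498) (nat_lit 5) (nat_lit 414) (nat_lit 369) (nat_lit 357)) (XT.nd (nat_lit 78) (nat_lit 1596) (nat_lit 0) (XT.lf (nat_lit 0) (nat_lit 360035530) (nat_lit 1596) (nat_lit 1440663639) (nat_lit 76) (nat_lit 5270802636) (nat_lit 476) (nat_lit 5) (nat_lit 497) (nat_lit 5) (nat_lit 477) (nat_lit 5) (nat_lit 415) (nat_lit 369) (nat_lit 356)) (XT.lf (nat_lit 0) (nat_lit 3331964663) (nat_lit 1596) (nat_lit 38758707) (nat_lit 1672) (nat_lit 3740356950) (nat_lit 455)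 (nat_lit 5) (nat_lit 476) (nat_lit 5) (nat_lit 477) (nat_lit 5) (nat_lit 416) (nat_lit 369) (nat_lit 355)))) (XT.nd (nat_lit 78) (nat_lit 1824) (nat_lit 0) (XT.lf (nat_lit 0) (nat_lit 1012337887) (nat_lit 1672) (nat_lit 5397228191) (nat_lit 1748) (nat_lit 742552485) (nat_lit 433) (nat_lit 5) (nat_lit 455) (nat_lit 5) (nat_lit 456) (nat_lit 5) (nat_lit 417) (nat_lit 369) (nat_lit 354)) (XT.nd (nat_lit 78) (nat_lit 1748) (nat_lit 0) (XT.lf (nat_lit 0) (nat_lit 2251230861) (nat_lit 1748) (nat_lit 1316289950) (nat_lit 76) (nat_lit 3626854313) (nat_lit 432) (nat_lit 5) (nat_lit 455) (nat_lit 5) (nat_lit 433) (nat_lit 5) (nat_lit 418) (nat_lit 369) (nat_lit 353)) (XT.lf (nat_lit 0) (nat_lit 3588751030) (nat_lit 1748) (nat_lit 1671273249) (nat_lit 1824) (nat_lit 1978078252) (nat_lit 409) (nat_lit 5) (nat_lit 432) (nat_lit 5) (nat_lit 433) (nat_lit 5) (nat_lit 419) (nat_lit 369) (nat_lit 352)))))) (XT.nd (nat_lit 390) (nat_lit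 4256) (nat_lit 0) (XT.nd (nat_lit 156) (nat_lit 1824) (nat_lit 0) (XT.nd (nat_lit 78) (nat_lit 0) (nat_lit 0) (XT.lf (nat_lit 0) (nat_lit 993770849) (nat_lit 1216) (nat_lit 6005622856) (nat_lit 76) (nat_lit 283975275) (nat_lit 393) (nat_lit 5) (nat_lit 409) (nat_lit 5) (nat_lit 394) (nat_lit 5) (nat_lit 420) (nat_lit 369) (nat_lit 351)) (XT.lf (nat_lit 0) (nat_lit 3977214190) (nat_lit 1216) (nat_lit 1058802199) (nat_lit 76) (nat_lit 2293713948) (nat_lit 393) (nat_lit 5) (nat_lit 409) (nat_lit 5) (nat_lit 394) (nat_lit 5) (nat_lit 421) (nat_lit 369) (nat_lit 350))) (XT.nd (nat_lit 78) (nat_lit 912) (nat_lit 0) (XT.lf (nat_lit 0) (nat_lit 3982048010) (nat_lit 912) (nat_lit 3008151782) (nat_lit 988) (nat_lit 387445151) (nat_lit 381) (nat_lit 5) (nat_lit 393) (nat_lit 5) (nat_lit 394) (nat_lit 5) (nat_lit 422) (nat_lit 369) (nat_lit 349)) (XT.nd (nat_lit 78) (nat_lit 0) (nat_lit 0) (XT.lf (nat_lit 0) (nat_lit 1658760769)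 (nat_lit 836) (nat_lit 905864498) (nat_lit 912) (nat_lit 4862327100) (nat_lit 369) (nat_lit 5) (nat_lit 380) (nat_lit 5) (nat_lit 381) (nat_lit 5) (nat_lit 423) (nat_lit 369) (nat_lit 348)) (XT.lf (nat_lit 0) (nat_lit 5546597570) (nat_lit 912) (nat_lit 685560088) (nat_lit 76) (nat_lit 1245538228) (nat_lit 369) (nat_lit 5) (nat_lit 381) (nat_lit 5) (nat_lit 370) (nat_lit 5) (nat_lit 424) (nat_lit 369) (nat_lit 347))))) (XT.nd (nat_lit 234) (nat_lit 2508) (nat_lit 0) (XT.nd (nat_lit 78) (nat_lit 836) (nat_lit 0) (XT.lf (nat_lit 0) (nat_lit 1026047558) (nat_lit 912) (nat_lit 3042031709) (nat_lit 76) (nat_lit 3461635233) (nat_lit 357) (nat_lit 5) (nat_lit 369) (nat_lit 5) (nat_lit 358) (nat_lit 5) (nat_lit 425) (nat_lit 369) (nat_lit 346)) (XT.nd (nat_lit 78) (nat_lit 0) (nat_lit 0) (XT.lf (nat_lit 0) (nat_lit 2148905445) (nat_lit 836) (nat_lit 1832637883) (nat_lit 912) (nat_lit 3601694436) (nat_lit 346) (nat_lit 5) (nat_lit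 357) (nat_lit 5) (nat_lit 358) (nat_lit 5) (nat_lit 426) (nat_lit 369) (nat_lit 345)) (XT.lf (nat_lit 0) (nat_lit 6966712393) (nat_lit 912) (nat_lit 213700008) (nat_lit 76) (nat_lit 458028274) (nat_lit 346) (nat_lit 5) (nat_lit 358) (nat_lit 5) (nat_lit 347) (nat_lit 5) (nat_lit 427) (nat_lit 369) (nat_lit 344)))) (XT.nd (nat_lit 78) (nat_lit 1596) (nat_lit 0) (XT.lf (nat_lit 0) (nat_lit 2279843559) (nat_lit 912) (nat_lit 2600673969) (nat_lit 76) (nat_lit 2814081077) (nat_lit 334) (nat_lit 5) (nat_lit 346) (nat_lit 5) (nat_lit 335) (nat_lit 5) (nat_lit 428) (nat_lit 369) (nat_lit 343)) (XT.nd (nat_lit 78) (nat_lit 836) (nat_lit 0) (XT.lf (nat_lit 0) (nat_lit 2732808127) (nat_lit 760) (nat_lit 2516276143) (nat_lit 836) (nat_lit 2503373253) (nat_lit 324) (nat_lit 5) (nat_lit 334) (nat_lit 5) (nat_lit 335) (nat_lit 5) (nat_lit 429) (nat_lit 369) (nat_lit 342)) (XT.lf (nat_lit 0) (nat_lit 340769174) (nat_lit 760) (nat_lit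 87854364) (nat_lit 836) (nat_lit 7383438018) (nat_lit 313) (nat_lit 5) (nat_lit 323) (nat_lit 5) (nat_lit 324) (nat_lit 5) (nat_lit 430) (nat_lit 369) (nat_lit 341))))))))
noncomputable def xc64 : XT := (XT.nd (nat_lit 1638) (nat_lit 6460) (nat_lit 0) (XT.nd (nat_lit 780) (nat_lit 4788) (nat_lit 0) (XT.nd (nat_lit 390) (nat_lit 2128) (nat_lit 0) (XT.nd (nat_lit 156) (nat_lit 1520) (nat_lit 0) (XT.nd (nat_lit 78) (nat_lit 684) (nat_lit 0) (XT.lf (nat_lit 0) (nat_lit 3384503664) (nat_lit 836) (nat_lit 2086313043) (nat_lit 76) (nat_lit 2401752901) (nat_lit 313) (nat_lit 5) (nat_lit 324) (nat_lit 5) (nat_lit 314) (nat_lit 5) (nat_lit 431) (nat_lit 369) (nat_lit 340)) (XT.lf (nat_lit 0) (nat_lit 3393174108) (nat_lit 684) (nat_lit 2979246515) (nat_lit 760) (nat_lit 1562426614) (nat_lit 304) (nat_lit 5) (nat_lit 313) (nat_lit 5) (nat_lit 314) (nat_lit 5) (nat_lit 432) (nat_lit 369) (nat_lit 339))) (XT.nd (nat_lit 78) (nat_lit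 684) (nat_lit 0) (XT.lf (nat_lit 0) (nat_lit 958275247) (nat_lit 760) (nat_lit 415689184) (nat_lit 836) (nat_lit 6624820780) (nat_lit 293) (nat_lit 5) (nat_lit 303) (nat_lit 5) (nat_lit 304) (nat_lit 5) (nat_lit 433) (nat_lit 369) (nat_lit 338)) (XT.nd (nat_lit 78) (nat_lit 684) (nat_lit 0) (XT.lf (nat_lit 0) (nat_lit 4344255130) (nat_lit 836) (nat_lit 1516406290) (nat_lit 76) (nat_lit 2203228892) (nat_lit 293) (nat_lit 5) (nat_lit 304) (nat_lit 5) (nat_lit 294) (nat_lit 5) (nat_lit 434) (nat_lit 369) (nat_lit 337)) (XT.lf (nat_lit 0) (nat_lit 4112527053) (nat_lit 684) (nat_lit 3242953305) (nat_lit 760) (nat_lit 775203028) (nat_lit 284) (nat_lit 5) (nat_lit 293) (nat_lit 5) (nat_lit 294) (nat_lit 5) (nat_lit 435) (nat_lit 369) (nat_lit 336))))) (XT.nd (nat_lit 156) (nat_lit 1368) (nat_lit 0) (XT.nd (nat_lit 78) (nat_lit 0) (nat_lit 0) (XT.lf (nat_lit 0) (nat_lit 1625660992) (nat_lit 684) (nat_lit 546350931) (nat_lit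 760) (nat_lit 6027064550) (nat_lit 274) (nat_lit 5) (nat_lit 283) (nat_lit 5) (nat_lit 284) (nat_lit 5) (nat_lit 436) (nat_lit 369) (nat_lit 335)) (XT.lf (nat_lit 0) (nat_lit 5162076725) (nat_lit 760) (nat_lit 908730883) (nat_lit 76) (nat_lit 2198057118) (nat_lit 274) (nat_lit 5) (nat_lit 284) (nat_lit 5) (nat_lit 275) (nat_lit 5) (nat_lit 437) (nat_lit 369) (nat_lit 334))) (XT.nd (nat_lit 78) (nat_lit 760) (nat_lit 0) (XT.lf (nat_lit 0) (nat_lit 4873038807) (nat_lit 608) (nat_lit 3327908571) (nat_lit 684) (nat_lit 139336469) (nat_lit 266) (nat_lit 5) (nat_lit 274) (nat_lit 5) (nat_lit 275) (nat_lit 5) (nat_lit 438) (nat_lit 369) (nat_lit 333)) (XT.nd (nat_lit 78) (nat_lit 0) (nat_lit 0) (XT.lf (nat_lit 0) (nat_lit 2324697973) (nat_lit 684) (nat_lit 500100843) (nat_lit 760) (nat_lit 5588468103) (nat_lit 256) (nat_lit 5) (nat_lit 265) (nat_lit 5) (nat_lit 266) (nat_lit 5) (nat_lit 439) (nat_lit 369) (nat_lit 332)) (XT.lf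 (nat_lit 0) (nat_lit 5839692304) (nat_lit 760) (nat_lit 281557871) (nat_lit 76) (nat_lit 2366588551) (nat_lit 256) (nat_lit 5) (nat_lit 266) (nat_lit 5) (nat_lit 257) (nat_lit 5) (nat_lit 440) (nat_lit 369) (nat_lit 331)))))) (XT.nd (nat_lit 390) (nat_lit 2280) (nat_lit 0) (XT.nd (nat_lit 156) (nat_lit 1216) (nat_lit 0) (XT.nd (nat_lit 78) (nat_lit 608) (nat_lit 0) (XT.lf (nat_lit 0) (nat_lit 341702186) (nat_lit 684) (nat_lit 2909904601) (nat_lit 76) (nat_lit 5312356892) (nat_lit 247) (nat_lit 5) (nat_lit 256) (nat_lit 5) (nat_lit 248) (nat_lit 5) (nat_lit 441) (nat_lit 369) (nat_lit 330)) (XT.lf (nat_lit 0) (nat_lit 3036558037) (nat_lit 608) (nat_lit 296520880) (nat_lit 684) (nat_lit 5308651823) (nat_lit 239) (nat_lit 5) (nat_lit 247) (nat_lit 5) (nat_lit 248) (nat_lit 5) (nat_lit 442) (nat_lit 369) (nat_lit 329))) (XT.nd (nat_lit 78) (nat_lit 684) (nat_lit 0) (XT.lf (nat_lit 0) (nat_lit 350765839) (nat_lit 532) (nat_lit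 6029065628) (nat_lit 608) (nat_lit 2341323937) (nat_lit 232) (nat_lit 5) (nat_lit 239) (nat_lit 5) (nat_lit 240) (nat_lit 5) (nat_lit 443) (nat_lit 369) (nat_lit 328)) (XT.nd (nat_lit 78) (nat_lit 608) (nat_lit 0) (XT.lf (nat_lit 0) (nat_lit 672354091) (nat_lit 608) (nat_lit 2363289875) (nat_lit 76) (nat_lit 5766528472) (nat_lit 231) (nat_lit 5) (nat_lit 239) (nat_lit 5) (nat_lit 232) (nat_lit 5) (nat_lit 444) (nat_lit 369) (nat_lit 327)) (XT.lf (nat_lit 0) (nat_lit 3696597106) (nat_lit 684) (nat_lit 5143557494) (nat_lit 76) (nat_lit 44725316) (nat_lit 223) (nat_lit 5) (nat_lit 232) (nat_lit 5) (nat_lit 224) (nat_lit 5) (nat_lit 445) (nat_lit 369) (nat_lit 326))))) (XT.nd (nat_lit 234) (nat_lit 1140) (nat_lit 0) (XT.nd (nat_lit 78) (nat_lit 608) (nat_lit 0) (XT.lf (nat_lit 0) (nat_lit 967309874) (nat_lit 532) (nat_lit 5813785666) (nat_lit 608) (nat_lit 2188162814) (nat_lit 216) (nat_lit 5) (nat_lit 223) (nat_lit 5) (nat_lit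 224) (nat_lit 5) (nat_lit 446) (nat_lit 369) (nat_lit 325)) (XT.nd (nat_lit 78) (nat_lit 532) (nat_lit 0) (XT.lf (nat_lit 0) (nat_lit 852871844) (nat_lit 608) (nat_lit 1846917393) (nat_lit 76) (nat_lit 6355586677) (nat_lit 215) (nat_lit 5) (nat_lit 223) (nat_lit 5) (nat_lit 216) (nat_lit 5) (nat_lit 447) (nat_lit 369) (nat_lit 324)) (XT.lf (nat_lit 0) (nat_lit 3915872713) (nat_lit 608) (nat_lit 4727204199) (nat_lit 76) (nat_lit 500052253) (nat_lit 208) (nat_lit 5) (nat_lit 216) (nat_lit 5) (nat_lit 209) (nat_lit 5) (nat_lit 448) (nat_lit 369) (nat_lit 323)))) (XT.nd (nat_lit 78) (nat_lit 608) (nat_lit 0) (XT.lf (nat_lit 0) (nat_lit 1543166696) (nat_lit 532) (nat_lit 5496143553) (nat_lit 608) (nat_lit 2193354986) (nat_lit 201) (nat_lit 5) (nat_lit 208) (nat_lit 5) (nat_lit 209) (nat_lit 5) (nat_lit 449) (nat_lit 369) (nat_lit 322)) (XT.nd (nat_lit 78) (nat_lit 532) (nat_lit 0) (XT.lf (nat_lit 0) (nat_lit 880306250) (nat_lit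 608) (nat_lit 1382365409) (nat_lit 76) (nat_lit 7061396163) (nat_lit 200) (nat_lit 5) (nat_lit 208) (nat_lit 5) (nat_lit 201) (nat_lit 5) (nat_lit 450) (nat_lit 369) (nat_lit 321)) (XT.lf (nat_lit 0) (nat_lit 3985587226) (nat_lit 608) (nat_lit 4376394666) (nat_lit 76) (nat_lit 1055046933) (nat_lit 193) (nat_lit 5) (nat_lit 201) (nat_lit 5) (nat_lit 194) (nat_lit 5) (nat_lit 451) (nat_lit 369) (nat_lit 320))))))) (XT.nd (nat_lit 858) (nat_lit 3192) (nat_lit 0) (XT.nd (nat_lit 390) (nat_lit 1748) (nat_lit 0) (XT.nd (nat_lit 156) (nat_lit 988) (nat_lit 0) (XT.nd (nat_lit 78) (nat_lit 76) (nat_lit 0) (XT.lf (nat_lit 0) (nat_lit 2055863398) (nat_lit 456) (nat_lit 5094893992) (nat_lit 532) (nat_lit 2361146417) (nat_lit 187) (nat_lit 5) (nat_lit 193) (nat_lit 5) (nat_lit 194) (nat_lit 5) (nat_lit 452) (nat_lit 369) (nat_lit 319)) (XT.lf (nat_lit 0) (nat_lit 750278729) (nat_lit 532) (nat_lit 992593439) (nat_lit 76) (nat_lit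 7865917484) (nat_lit 186) (nat_lit 5) (nat_lit 193) (nat_lit 5) (nat_lit 187) (nat_lit 5) (nat_lit 453) (nat_lit 369) (nat_lit 318))) (XT.nd (nat_lit 78) (nat_lit 532) (nat_lit 0) (XT.lf (nat_lit 0) (nat_lit 3900903328) (nat_lit 532) (nat_lit 4114821254) (nat_lit 76) (nat_lit 1691414582) (nat_lit 180) (nat_lit 5) (nat_lit 187) (nat_lit 5) (nat_lit 181) (nat_lit 5) (nat_lit 454) (nat_lit 369) (nat_lit 317)) (XT.nd (nat_lit 78) (nat_lit 76) (nat_lit 0) (XT.lf (nat_lit 0) (nat_lit 2481383674) (nat_lit 456) (nat_lit 4628874772) (nat_lit 532) (nat_lit 2697292495) (nat_lit 174) (nat_lit 5) (nat_lit 180) (nat_lit 5) (nat_lit 181) (nat_lit 5) (nat_lit 455) (nat_lit 369) (nat_lit 316)) (XT.lf (nat_lit 0) (nat_lit 456913664) (nat_lit 532) (nat_lit 702182941) (nat_lit 76) (nat_lit 8751036113) (nat_lit 173) (nat_lit 5) (nat_lit 180) (nat_lit 5) (nat_lit 174) (nat_lit 5) (nat_lit 456) (nat_lit 369) (nat_lit 315))))) (XT.nd (nat_lit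 234) (nat_lit 912) (nat_lit 0) (XT.nd (nat_lit 78) (nat_lit 380) (nat_lit 0) (XT.lf (nat_lit 0) (nat_lit 3655466746) (nat_lit 532) (nat_lit 3967909484) (nat_lit 76) (nat_lit 2390694808) (nat_lit 167) (nat_lit 5) (nat_lit 174) (nat_lit 5) (nat_lit 168) (nat_lit 5) (nat_lit 457) (nat_lit 369) (nat_lit 314)) (XT.nd (nat_lit 78) (nat_lit 0) (nat_lit 0) (XT.lf (nat_lit 0) (nat_lit 2793913488) (nat_lit 380) (nat_lit 4117183926) (nat_lit 456) (nat_lit 3209137482) (nat_lit 162) (nat_lit 5) (nat_lit 167) (nat_lit 5) (nat_lit 168) (nat_lit 5) (nat_lit 458) (nat_lit 369) (nat_lit 313)) (XT.lf (nat_lit 0) (nat_lit 9691095188) (nat_lit 380) (nat_lit 530305439) (nat_lit 456) (nat_lit 7338929) (nat_lit 162) (nat_lit 5) (nat_lit 167) (nat_lit 5) (nat_lit 168) (nat_lit 5) (nat_lit 459) (nat_lit 369) (nat_lit 312)))) (XT.nd (nat_lit 78) (nat_lit 380) (nat_lit 0) (XT.lf (nat_lit 0) (nat_lit 3241319565) (nat_lit 532) (nat_lit 3963085644)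 (nat_lit 76) (nat_lit 3134083169) (nat_lit 155) (nat_lit 5) (nat_lit 162) (nat_lit 5) (nat_lit 156) (nat_lit 5) (nat_lit 460) (nat_lit 369) (nat_lit 311)) (XT.nd (nat_lit 78) (nat_lit 0) (nat_lit 0) (XT.lf (nat_lit 0) (nat_lit 2965566239) (nat_lit 380) (nat_lit 3579363328) (nat_lit 456) (nat_lit 3905708330) (nat_lit 150) (nat_lit 5) (nat_lit 155) (nat_lit 5) (nat_lit 156) (nat_lit 5) (nat_lit 461) (nat_lit 369) (nat_lit 310)) (XT.lf (nat_lit 0) (nat_lit 9906084947) (nat_lit 456) (nat_lit 532577091) (nat_lit 76) (nat_lit 126546966) (nat_lit 150) (nat_lit 5) (nat_lit 156) (nat_lit 5) (nat_lit 151) (nat_lit 5) (nat_lit 462) (nat_lit 369) (nat_lit 309)))))) (XT.nd (nat_lit 390) (nat_lit 1520) (nat_lit 0) (XT.nd (nat_lit 156) (nat_lit 836) (nat_lit 0) (XT.nd (nat_lit 78) (nat_lit 380) (nat_lit 0) (XT.lf (nat_lit 0) (nat_lit 2648798814) (nat_lit 456) (nat_lit 4130066686) (nat_lit 76) (nat_lit 3902245490) (nat_lit 144) (nat_lit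 5) (nat_lit 150) (nat_lit 5) (nat_lit 145) (nat_lit 5) (nat_lit 463) (nat_lit 369) (nat_lit 308)) (XT.lf (nat_lit 0) (nat_lit 2966084803) (nat_lit 380) (nat_lit 3035590357) (nat_lit 456) (nat_lit 4797823903) (nat_lit 139) (nat_lit 5) (nat_lit 144) (nat_lit 5) (nat_lit 145) (nat_lit 5) (nat_lit 464) (nat_lit 369) (nat_lit 307))) (XT.nd (nat_lit 78) (nat_lit 836) (nat_lit 0) (XT.lf (nat_lit 0) (nat_lit 9419582872) (nat_lit 456) (nat_lit 717791409) (nat_lit 76) (nat_lit 782928589) (nat_lit 139) (nat_lit 5) (nat_lit 145) (nat_lit 5) (nat_lit 140) (nat_lit 5) (nat_lit 465) (nat_lit 369) (nat_lit 306)) (XT.nd (nat_lit 78) (nat_lit 380) (nat_lit 0) (XT.lf (nat_lit 0) (nat_lit 1866419221) (nat_lit 456) (nat_lit 4501175227) (nat_lit 76) (nat_lit 4675123274) (nat_lit 133) (nat_lit 5) (nat_lit 139) (nat_lit 5) (nat_lit 134) (nat_lit 5) (nat_lit 466) (nat_lit 369) (nat_lit 305)) (XT.lf (nat_lit 0) (nat_lit 2762517556) (nat_lit 380)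 (nat_lit 2506879350) (nat_lit 456) (nat_lit 5898220782) (nat_lit 128) (nat_lit 5) (nat_lit 133) (nat_lit 5) (nat_lit 134) (nat_lit 5) (nat_lit 467) (nat_lit 369) (nat_lit 304))))) (XT.nd (nat_lit 234) (nat_lit 760) (nat_lit 0) (XT.nd (nat_lit 78) (nat_lit 760) (nat_lit 0) (XT.lf (nat_lit 0) (nat_lit 8746136895) (nat_lit 456) (nat_lit 1123681641) (nat_lit 76) (nat_lit 1425089943) (nat_lit 128) (nat_lit 5) (nat_lit 134) (nat_lit 5) (nat_lit 129) (nat_lit 5) (nat_lit 468) (nat_lit 369) (nat_lit 303)) (XT.nd (nat_lit 78) (nat_lit 304) (nat_lit 0) (XT.lf (nat_lit 0) (nat_lit 880738874) (nat_lit 456) (nat_lit 5111682678) (nat_lit 76) (nat_lit 5431728440) (nat_lit 122) (nat_lit 5) (nat_lit 128) (nat_lit 5) (nat_lit 123) (nat_lit 5) (nat_lit 469) (nat_lit 369) (nat_lit 302)) (XT.lf (nat_lit 0) (nat_lit 2318865248) (nat_lit 304) (nat_lit 2015294670) (nat_lit 380) (nat_lit 7221696985) (nat_lit 118) (nat_lit 5) (nat_lit 122) (nat_lit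 5) (nat_lit 123) (nat_lit 5) (nat_lit 470) (nat_lit 369) (nat_lit 301)))) (XT.nd (nat_lit 78) (nat_lit 760) (nat_lit 0) (XT.lf (nat_lit 0) (nat_lit 7871405717) (nat_lit 380) (nat_lit 1787251092) (nat_lit 76) (nat_lit 2031252374) (nat_lit 118) (nat_lit 5) (nat_lit 123) (nat_lit 5) (nat_lit 119) (nat_lit 5) (nat_lit 471) (nat_lit 369) (nat_lit 300)) (XT.nd (nat_lit 78) (nat_lit 380) (nat_lit 0) (XT.lf (nat_lit 0) (nat_lit 5823959061) (nat_lit 380) (nat_lit 5674217411) (nat_lit 456) (nat_lit 328096669) (nat_lit 113) (nat_lit 5) (nat_lit 118) (nat_lit 5) (nat_lit 119) (nat_lit 5) (nat_lit 472) (nat_lit 369) (nat_lit 299)) (XT.lf (nat_lit 0) (nat_lit 1595695292) (nat_lit 304) (nat_lit 1584177360) (nat_lit 380) (nat_lit 8785275128) (nat_lit 108) (nat_lit 5) (nat_lit 112) (nat_lit 5) (nat_lit 113) (nat_lit 5) (nat_lit 473) (nat_lit 369) (nat_lit 298))))))))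
noncomputable def xc65 : XT := (XT.nd (nat_lit 1716) (nat_lit 1368) (nat_lit 0) (XT.nd (nat_lit 858) (nat_lit 1596) (nat_lit 0) (XT.nd (nat_lit 390) (nat_lit 1292) (nat_lit 0) (XT.nd (nat_lit 156) (nat_lit 684) (nat_lit 0) (XT.nd (nat_lit 78) (nat_lit 304) (nat_lit 0) (XT.lf (nat_lit 0) (nat_lit 6778856794) (nat_lit 380) (nat_lit 2749063650) (nat_lit 76) (nat_lit 2578336995) (nat_lit 108) (nat_lit 5) (nat_lit 113) (nat_lit 5) (nat_lit 109) (nat_lit 5) (nat_lit 474) (nat_lit 369) (nat_lit 297)) (XT.lf (nat_lit 0) (nat_lit 5029342943) (nat_lit 304) (nat_lit 5432150472) (nat_lit 380) (nat_lit 1788468179) (nat_lit 104) (nat_lit 5) (nat_lit 108) (nat_lit 5) (nat_lit 109) (nat_lit 5) (nat_lit 475) (nat_lit 369) (nat_lit 296))) (XT.nd (nat_lit 78) (nat_lit 304) (nat_lit 0) (XT.lf (nat_lit 0) (nat_lit 549719686) (nat_lit 304) (nat_lit 1238387497) (nat_lit 380) (nat_lit 10608386682) (nat_lit 99) (nat_lit 5) (nat_lit 103) (nat_lit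 5) (nat_lit 104) (nat_lit 5) (nat_lit 476) (nat_lit 369) (nat_lit 295)) (XT.nd (nat_lit 78) (nat_lit 304) (nat_lit 0) (XT.lf (nat_lit 0) (nat_lit 5449580878) (nat_lit 380) (nat_lit 4053675956) (nat_lit 76) (nat_lit 3041722652) (nat_lit 99) (nat_lit 5) (nat_lit 104) (nat_lit 5) (nat_lit 100) (nat_lit 5) (nat_lit 477) (nat_lit 369) (nat_lit 294)) (XT.lf (nat_lit 0) (nat_lit 3888937545) (nat_lit 304) (nat_lit 5298193533) (nat_lit 380) (nat_lit 3509252119) (nat_lit 95) (nat_lit 5) (nat_lit 99) (nat_lit 5) (nat_lit 100) (nat_lit 5) (nat_lit 478) (nat_lit 369) (nat_lit 293))))) (XT.nd (nat_lit 234) (nat_lit 608) (nat_lit 0) (XT.nd (nat_lit 78) (nat_lit 608) (nat_lit 0) (XT.lf (nat_lit 0) (nat_lit 143523949) (nat_lit 380) (nat_lit 855301048) (nat_lit 76) (nat_lit 11852038683) (nat_lit 94) (nat_lit 5) (nat_lit 99) (nat_lit 5) (nat_lit 95) (nat_lit 5) (nat_lit 479) (nat_lit 369) (nat_lit 292)) (XT.nd (nat_lit 78) (nat_lit 304)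 (nat_lit 0) (XT.lf (nat_lit 0) (nat_lit 3862083540) (nat_lit 380) (nat_lit 5750111311) (nat_lit 76) (nat_lit 3394985673) (nat_lit 90) (nat_lit 5) (nat_lit 95) (nat_lit 5) (nat_lit 91) (nat_lit 5) (nat_lit 480) (nat_lit 369) (nat_lit 291)) (XT.lf (nat_lit 0) (nat_lit 2352539898) (nat_lit 304) (nat_lit 5300369499) (nat_lit 380) (nat_lit 5513761322) (nat_lit 86) (nat_lit 5) (nat_lit 90) (nat_lit 5) (nat_lit 91) (nat_lit 5) (nat_lit 481) (nat_lit 369) (nat_lit 290)))) (XT.nd (nat_lit 78) (nat_lit 608) (nat_lit 0) (XT.lf (nat_lit 0) (nat_lit 10647073905) (nat_lit 304) (nat_lit 881564060) (nat_lit 380) (nat_lit 1800535845) (nat_lit 86) (nat_lit 5) (nat_lit 90) (nat_lit 5) (nat_lit 91) (nat_lit 5) (nat_lit 482) (nat_lit 369) (nat_lit 289)) (XT.nd (nat_lit 78) (nat_lit 304) (nat_lit 0) (XT.lf (nat_lit 0) (nat_lit 1992051560) (nat_lit 304) (nat_lit 7892379958) (nat_lit 76) (nat_lit 3609618929) (nat_lit 82) (nat_lit 5) (nat_lit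 86) (nat_lit 5) (nat_lit 83) (nat_lit 5) (nat_lit 483) (nat_lit 369) (nat_lit 288)) (XT.lf (nat_lit 0) (nat_lit 364799244) (nat_lit 304) (nat_lit 5468955900) (nat_lit 380) (nat_lit 7828288511) (nat_lit 78) (nat_lit 5) (nat_lit 82) (nat_lit 5) (nat_lit 83) (nat_lit 5) (nat_lit 484) (nat_lit 369) (nat_lit 287)))))) (XT.nd (nat_lit 390) (nat_lit 836) (nat_lit 0) (XT.nd (nat_lit 156) (nat_lit 532) (nat_lit 0) (XT.nd (nat_lit 78) (nat_lit 228) (nat_lit 0) (XT.lf (nat_lit 0) (nat_lit 8846707282) (nat_lit 304) (nat_lit 929834781) (nat_lit 380) (nat_lit 4056374128) (nat_lit 78) (nat_lit 5) (nat_lit 82) (nat_lit 5) (nat_lit 83) (nat_lit 5) (nat_lit 485) (nat_lit 369) (nat_lit 286)) (XT.lf (nat_lit 0) (nat_lit 3465558339) (nat_lit 228) (nat_lit 10350881686) (nat_lit 304) (nat_lit 190405412) (nat_lit 75) (nat_lit 5) (nat_lit 78) (nat_lit 5) (nat_lit 79) (nat_lit 5) (nat_lit 486) (nat_lit 369) (nat_lit 285))) (XT.nd (nat_lit 78)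 (nat_lit 456) (nat_lit 0) (XT.lf (nat_lit 0) (nat_lit 3715295677) (nat_lit 304) (nat_lit 2107366863) (nat_lit 76) (nat_lit 8360874941) (nat_lit 74) (nat_lit 5) (nat_lit 78) (nat_lit 5) (nat_lit 75) (nat_lit 5) (nat_lit 487) (nat_lit 369) (nat_lit 284)) (XT.nd (nat_lit 78) (nat_lit 228) (nat_lit 0) (XT.lf (nat_lit 0) (nat_lit 6533593930) (nat_lit 228) (nat_lit 1177736422) (nat_lit 304) (nat_lit 6652116574) (nat_lit 71) (nat_lit 5) (nat_lit 74) (nat_lit 5) (nat_lit 75) (nat_lit 5) (nat_lit 488) (nat_lit 369) (nat_lit 283)) (XT.lf (nat_lit 0) (nat_lit 769962097) (nat_lit 228) (nat_lit 11032144596) (nat_lit 304) (nat_lit 2744555479) (nat_lit 68) (nat_lit 5) (nat_lit 71) (nat_lit 5) (nat_lit 72) (nat_lit 5) (nat_lit 489) (nat_lit 369) (nat_lit 282))))) (XT.nd (nat_lit 234) (nat_lit 532) (nat_lit 0) (XT.nd (nat_lit 78) (nat_lit 228) (nat_lit 0) (XT.lf (nat_lit 0) (nat_lit 1258098234) (nat_lit 304) (nat_lit 5147048749) (nat_lit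 76) (nat_lit 8327573058) (nat_lit 67) (nat_lit 5) (nat_lit 71) (nat_lit 5) (nat_lit 68) (nat_lit 5) (nat_lit 490) (nat_lit 369) (nat_lit 281)) (XT.nd (nat_lit 78) (nat_lit 0) (nat_lit 0) (XT.lf (nat_lit 0) (nat_lit 3639397034) (nat_lit 228) (nat_lit 1661390175) (nat_lit 304) (nat_lit 9621418190) (nat_lit 64) (nat_lit 5) (nat_lit 67) (nat_lit 5) (nat_lit 68) (nat_lit 5) (nat_lit 491) (nat_lit 369) (nat_lit 280)) (XT.lf (nat_lit 0) (nat_lit 9452911270) (nat_lit 304) (nat_lit 2509779963) (nat_lit 76) (nat_lit 3152221331) (nat_lit 64) (nat_lit 5) (nat_lit 68) (nat_lit 5) (nat_lit 65) (nat_lit 5) (nat_lit 492) (nat_lit 369) (nat_lit 279)))) (XT.nd (nat_lit 78) (nat_lit 304) (nat_lit 0) (XT.lf (nat_lit 0) (nat_lit 6467952310) (nat_lit 228) (nat_lit 7246832516) (nat_lit 304) (nat_lit 1596158555) (nat_lit 61) (nat_lit 5) (nat_lit 64) (nat_lit 5) (nat_lit 65) (nat_lit 5) (nat_lit 493) (nat_lit 369) (nat_lit 278)) (XT.nd (nat_lit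 78) (nat_lit 0) (nat_lit 0) (XT.lf (nat_lit 0) (nat_lit 88547605) (nat_lit 228) (nat_lit 2420286985) (nat_lit 304) (nat_lit 13001906672) (nat_lit 57) (nat_lit 5) (nat_lit 60) (nat_lit 5) (nat_lit 61) (nat_lit 5) (nat_lit 494) (nat_lit 369) (nat_lit 277)) (XT.lf (nat_lit 0) (nat_lit 6724428381) (nat_lit 304) (nat_lit 6466727783) (nat_lit 76) (nat_lit 2522173897) (nat_lit 57) (nat_lit 5) (nat_lit 61) (nat_lit 5) (nat_lit 58) (nat_lit 5) (nat_lit 495) (nat_lit 369) (nat_lit 276))))))) (XT.nd (nat_lit 51870) (nat_lit 0) (nat_lit 37696) (XT.nd (nat_lit 390) (nat_lit 760) (nat_lit 0) (XT.nd (nat_lit 156) (nat_lit 456) (nat_lit 0) (XT.nd (nat_lit 78) (nat_lit 0) (nat_lit 0) (XT.lf (nat_lit 0) (nat_lit 2642602429) (nat_lit 152) (nat_lit 8389299384) (nat_lit 228) (nat_lit 4887920842) (nat_lit 55) (nat_lit 5) (nat_lit 57) (nat_lit 5) (nat_lit 58) (nat_lit 5) (nat_lit 496) (nat_lit 369) (nat_lit 275)) (XT.lf (nat_lit 0) (nat_lit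 11978191298) (nat_lit 152) (nat_lit 3465329736) (nat_lit 228) (nat_lit 686567445) (nat_lit 55) (nat_lit 5) (nat_lit 57) (nat_lit 5) (nat_lit 58) (nat_lit 5) (nat_lit 497) (nat_lit 369) (nat_lit 274))) (XT.nd (nat_lit 78) (nat_lit 152) (nat_lit 0) (XT.lf (nat_lit 0) (nat_lit 3570398044) (nat_lit 304) (nat_lit 11197161313) (nat_lit 76) (nat_lit 1576160443) (nat_lit 51) (nat_lit 5) (nat_lit 55) (nat_lit 5) (nat_lit 52) (nat_lit 5) (nat_lit 498) (nat_lit 369) (nat_lit 273)) (XT.nd (nat_lit 78) (nat_lit 152) (nat_lit 0) (XT.lf (nat_lit 0) (nat_lit 7929341868) (nat_lit 304) (nat_lit 1944652025) (nat_lit 76) (nat_lit 6687021564) (nat_lit 51) (nat_lit 5) (nat_lit 55) (nat_lit 5) (nat_lit 52) (nat_lit 5) (nat_lit 499) (nat_lit 369) (nat_lit 272)) (XT.lf (nat_lit 0) (nat_lit 7549599934) (nat_lit 152) (nat_lit 4850399721) (nat_lit 228) (nat_lit 4382169725) (nat_lit 49) (nat_lit 5) (nat_lit 51) (nat_lit 5) (nat_lit 52) (nat_lit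 5) (nat_lit 500) (nat_lit 369) (nat_lit 271))))) (XT.nd (nat_lit 234) (nat_lit 304) (nat_lit 0) (XT.nd (nat_lit 78) (nat_lit 228) (nat_lit 0) (XT.lf (nat_lit 0) (nat_lit 211100620) (nat_lit 228) (nat_lit 16740863240) (nat_lit 304) (nat_lit 55947650) (nat_lit 46) (nat_lit 5) (nat_lit 49) (nat_lit 5) (nat_lit 50) (nat_lit 5) (nat_lit 501) (nat_lit 369) (nat_lit 270)) (XT.nd (nat_lit 78) (nat_lit 152) (nat_lit 0) (XT.lf (nat_lit 0) (nat_lit 4369797580) (nat_lit 304) (nat_lit 7371418733) (nat_lit 76) (nat_lit 5494986526) (nat_lit 45) (nat_lit 5) (nat_lit 49) (nat_lit 5) (nat_lit 46) (nat_lit 5) (nat_lit 502) (nat_lit 369) (nat_lit 269)) (XT.lf (nat_lit 0) (nat_lit 2229722619) (nat_lit 152) (nat_lit 6644192283) (nat_lit 228) (nat_lit 8595328394) (nat_lit 43) (nat_lit 5) (nat_lit 45) (nat_lit 5) (nat_lit 46) (nat_lit 5) (nat_lit 503) (nat_lit 369) (nat_lit 268)))) (XT.nd (nat_lit 78) (nat_lit 304) (nat_lit 0) (XT.lf (nat_lit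 0) (nat_lit 12081450863) (nat_lit 152) (nat_lit 1412458135) (nat_lit 228) (nat_lit 4212522441) (nat_lit 43) (nat_lit 5) (nat_lit 45) (nat_lit 5) (nat_lit 46) (nat_lit 5) (nat_lit 504) (nat_lit 369) (nat_lit 267)) (XT.nd (nat_lit 78) (nat_lit 0) (nat_lit 0) (XT.lf (nat_lit 0) (nat_lit 283979632) (nat_lit 304) (nat_lit 13779484355) (nat_lit 76) (nat_lit 3884280065) (nat_lit 39) (nat_lit 5) (nat_lit 43) (nat_lit 5) (nat_lit 40) (nat_lit 5) (nat_lit 505) (nat_lit 369) (nat_lit 266)) (XT.lf (nat_lit 0) (nat_lit 4838126954) (nat_lit 304) (nat_lit 4037960368) (nat_lit 76) (nat_lit 9316758891) (nat_lit 39) (nat_lit 5) (nat_lit 43) (nat_lit 5) (nat_lit 40) (nat_lit 5) (nat_lit 506) (nat_lit 369) (nat_lit 265)))))) (XT.nd (nat_lit 390) (nat_lit 4940) (nat_lit 0) (XT.nd (nat_lit 156) (nat_lit 1976) (nat_lit 0) (XT.nd (nat_lit 78) (nat_lit 76) (nat_lit 0) (XT.lf (nat_lit 0) (nat_lit 187122907) (nat_lit 836) (nat_lit 1565760251)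 (nat_lit 836) (nat_lit 1565760251) (nat_lit 627) (nat_lit 4) (nat_lit 638) (nat_lit 5) (nat_lit 638) (nat_lit 4) (nat_lit 400) (nat_lit 370) (nat_lit 370)) (XT.lf (nat_lit 0) (nat_lit 67823003) (nat_lit 912) (nat_lit 2132051632) (nat_lit 76) (nat_lit 4457712848) (nat_lit 626) (nat_lit 5) (nat_lit 638) (nat_lit 5) (nat_lit 627) (nat_lit 4) (nat_lit 401) (nat_lit 370) (nat_lit 369))) (XT.nd (nat_lit 78) (nat_lit 1064) (nat_lit 0) (XT.lf (nat_lit 0) (nat_lit 2032487158) (nat_lit 912) (nat_lit 1198257445) (nat_lit 988) (nat_lit 3448345216) (nat_lit 614) (nat_lit 5) (nat_lit 626) (nat_lit 5) (nat_lit 627) (nat_lit 4) (nat_lit 402) (nat_lit 370) (nat_lit 368)) (XT.nd (nat_lit 78) (nat_lit 1064) (nat_lit 0) (XT.lf (nat_lit 0) (nat_lit 6254590754) (nat_lit 912) (nat_lit 145979373) (nat_lit 988) (nat_lit 301618470) (nat_lit 614) (nat_lit 5) (nat_lit 626) (nat_lit 5) (nat_lit 627) (nat_lit 4) (nat_lit 403) (nat_lit 370) (nat_lit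 367)) (XT.lf (nat_lit 0) (nat_lit 2831289136) (nat_lit 1064) (nat_lit 2920738355) (nat_lit 76) (nat_lit 974154303) (nat_lit 600) (nat_lit 5) (nat_lit 614) (nat_lit 5) (nat_lit 601) (nat_lit 4) (nat_lit 404) (nat_lit 370) (nat_lit 366))))) (XT.nd (nat_lit 234) (nat_lit 2660) (nat_lit 0) (XT.nd (nat_lit 78) (nat_lit 1216) (nat_lit 0) (XT.lf (nat_lit 0) (nat_lit 1358178054) (nat_lit 1064) (nat_lit 4608788615) (nat_lit 1140) (nat_lit 784802343) (nat_lit 586) (nat_lit 5) (nat_lit 600) (nat_lit 5) (nat_lit 601) (nat_lit 4) (nat_lit 405) (nat_lit 370) (nat_lit 365)) (XT.nd (nat_lit 78) (nat_lit 1140) (nat_lit 0) (XT.lf (nat_lit 0) (nat_lit 2307748368) (nat_lit 1140) (nat_lit 1087086578) (nat_lit 76) (nat_lit 3383727185) (nat_lit 585) (nat_lit 5) (nat_lit 600) (nat_lit 5) (nat_lit 586) (nat_lit 5) (nat_lit 406) (nat_lit 370) (nat_lit 364)) (XT.lf (nat_lit 0) (nat_lit 3288336668) (nat_lit 1140) (nat_lit 2117842705) (nat_lit 1216)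 (nat_lit 1400552135) (nat_lit 570) (nat_lit 5) (nat_lit 585) (nat_lit 5) (nat_lit 586) (nat_lit 5) (nat_lit 407) (nat_lit 370) (nat_lit 363)))) (XT.nd (nat_lit 78) (nat_lit 1368) (nat_lit 0) (XT.lf (nat_lit 0) (nat_lit 875182724) (nat_lit 1216) (nat_lit 779916122) (nat_lit 1292) (nat_lit 5181240422) (nat_lit 553) (nat_lit 5) (nat_lit 569) (nat_lit 5) (nat_lit 570) (nat_lit 5) (nat_lit 408) (nat_lit 370) (nat_lit 362)) (XT.nd (nat_lit 78) (nat_lit 1368) (nat_lit 0) (XT.lf (nat_lit 0) (nat_lit 4715359726) (nat_lit 1292) (nat_lit 1531703747) (nat_lit 76) (nat_lit 620078441) (nat_lit 553) (nat_lit 5) (nat_lit 570) (nat_lit 5) (nat_lit 554) (nat_lit 5) (nat_lit 409) (nat_lit 370) (nat_lit 361)) (XT.lf (nat_lit 0) (nat_lit 886027816) (nat_lit 1368) (nat_lit 3940783305) (nat_lit 76) (nat_lit 2072457905) (nat_lit 535) (nat_lit 5) (nat_lit 553) (nat_lit 5) (nat_lit 536) (nat_lit 5) (nat_lit 410) (nat_lit 370) (nat_lit 360))))))))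
noncomputable def xc66 : XT := (XT.nd (nat_lit 1716) (nat_lit 9424) (nat_lit 0) (XT.nd (nat_lit 858) (nat_lit 6764) (nat_lit 0) (XT.nd (nat_lit 390) (nat_lit 6308) (nat_lit 0) (XT.nd (nat_lit 156) (nat_lit 3116) (nat_lit 0) (XT.nd (nat_lit 78) (nat_lit 0) (nat_lit 0) (XT.lf (nat_lit 0) (nat_lit 564360913) (nat_lit 1368) (nat_lit 3341856574) (nat_lit 1444) (nat_lit 3026559003) (nat_lit 517) (nat_lit 5) (nat_lit 535) (nat_lit 5) (nat_lit 536) (nat_lit 5) (nat_lit 411) (nat_lit 370) (nat_lit 359)) (XT.lf (nat_lit 0) (nat_lit 5157264637) (nat_lit 1368) (nat_lit 1793274182) (nat_lit 1444) (nat_lit 17171111) (nat_lit 517) (nat_lit 5) (nat_lit 535) (nat_lit 5) (nat_lit 536) (nat_lit 5) (nat_lit 412) (nat_lit 370) (nat_lit 358))) (XT.nd (nat_lit 78) (nat_lit 1596) (nat_lit 0) (XT.lf (nat_lit 0) (nat_lit 2800069066) (nat_lit 1444) (nat_lit 168558825) (nat_lit 1520) (nat_lit 4035221864) (nat_lit 497) (nat_lit 5) (nat_lit 516)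 (nat_lit 5) (nat_lit 517) (nat_lit 5) (nat_lit 413) (nat_lit 370) (nat_lit 357)) (XT.nd (nat_lit 78) (nat_lit 76) (nat_lit 0) (XT.lf (nat_lit 0) (nat_lit 426151338) (nat_lit 1520) (nat_lit 5551394248) (nat_lit 1596) (nat_lit 1063920498) (nat_lit 477) (nat_lit 5) (nat_lit 497) (nat_lit 5) (nat_lit 498) (nat_lit 5) (nat_lit 414) (nat_lit 370) (nat_lit 356)) (XT.lf (nat_lit 0) (nat_lit 1909901543) (nat_lit 1596) (nat_lit 1944583545) (nat_lit 76) (nat_lit 3225743984) (nat_lit 476) (nat_lit 5) (nat_lit 497) (nat_lit 5) (nat_lit 477) (nat_lit 5) (nat_lit 415) (nat_lit 370) (nat_lit 355))))) (XT.nd (nat_lit 234) (nat_lit 2964) (nat_lit 0) (XT.nd (nat_lit 78) (nat_lit 1748) (nat_lit 0) (XT.lf (nat_lit 0) (nat_lit 2793362252) (nat_lit 1596) (nat_lit 2094307235) (nat_lit 1672) (nat_lit 2232809854) (nat_lit 455) (nat_lit 5) (nat_lit 476) (nat_lit 5) (nat_lit 477) (nat_lit 5) (nat_lit 416) (nat_lit 370) (nat_lit 354)) (XT.nd (nat_lit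 78) (nat_lit 0) (nat_lit 0) (XT.lf (nat_lit 0) (nat_lit 435589013) (nat_lit 1672) (nat_lit 274776842) (nat_lit 1748) (nat_lit 6451957146) (nat_lit 432) (nat_lit 5) (nat_lit 454) (nat_lit 5) (nat_lit 455) (nat_lit 5) (nat_lit 417) (nat_lit 370) (nat_lit 353)) (XT.lf (nat_lit 0) (nat_lit 3663798409) (nat_lit 1748) (nat_lit 1934532406) (nat_lit 76) (nat_lit 1606777153) (nat_lit 432) (nat_lit 5) (nat_lit 455) (nat_lit 5) (nat_lit 433) (nat_lit 5) (nat_lit 418) (nat_lit 370) (nat_lit 352)))) (XT.nd (nat_lit 78) (nat_lit 1216) (nat_lit 0) (XT.lf (nat_lit 0) (nat_lit 2934226292) (nat_lit 1748) (nat_lit 3705853131) (nat_lit 1824) (nat_lit 609418540) (nat_lit 409) (nat_lit 5) (nat_lit 432) (nat_lit 5) (nat_lit 433) (nat_lit 5) (nat_lit 419) (nat_lit 370) (nat_lit 351)) (XT.nd (nat_lit 78) (nat_lit 0) (nat_lit 0) (XT.lf (nat_lit 0) (nat_lit 567605792) (nat_lit 1140) (nat_lit 1742299321) (nat_lit 1216) (nat_lit 4985384937) (nat_lit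 393) (nat_lit 5) (nat_lit 408) (nat_lit 5) (nat_lit 409) (nat_lit 5) (nat_lit 420) (nat_lit 370) (nat_lit 350)) (XT.lf (nat_lit 0) (nat_lit 5254323072) (nat_lit 1216) (nat_lit 1797834674) (nat_lit 76) (nat_lit 290285797) (nat_lit 393) (nat_lit 5) (nat_lit 409) (nat_lit 5) (nat_lit 394) (nat_lit 5) (nat_lit 421) (nat_lit 370) (nat_lit 349)))))) (XT.nd (nat_lit 390) (nat_lit 3192) (nat_lit 0) (XT.nd (nat_lit 156) (nat_lit 1748) (nat_lit 0) (XT.nd (nat_lit 78) (nat_lit 836) (nat_lit 0) (XT.lf (nat_lit 0) (nat_lit 833010267) (nat_lit 988) (nat_lit 4191397144) (nat_lit 76) (nat_lit 2366496817) (nat_lit 380) (nat_lit 5) (nat_lit 393) (nat_lit 5) (nat_lit 381) (nat_lit 5) (nat_lit 422) (nat_lit 370) (nat_lit 348)) (XT.lf (nat_lit 0) (nat_lit 821548752) (nat_lit 836) (nat_lit 2926010237) (nat_lit 912) (nat_lit 3693262115) (nat_lit 369) (nat_lit 5) (nat_lit 380) (nat_lit 5) (nat_lit 381) (nat_lit 5) (nat_lit 423) (nat_lit 370)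 (nat_lit 347))) (XT.nd (nat_lit 78) (nat_lit 1748) (nat_lit 0) (XT.lf (nat_lit 0) (nat_lit 5935549586) (nat_lit 836) (nat_lit 759132270) (nat_lit 912) (nat_lit 797590497) (nat_lit 369) (nat_lit 5) (nat_lit 380) (nat_lit 5) (nat_lit 381) (nat_lit 5) (nat_lit 424) (nat_lit 370) (nat_lit 346)) (XT.nd (nat_lit 78) (nat_lit 836) (nat_lit 0) (XT.lf (nat_lit 0) (nat_lit 2107484782) (nat_lit 912) (nat_lit 3970301375) (nat_lit 76) (nat_lit 1467112035) (nat_lit 357) (nat_lit 5) (nat_lit 369) (nat_lit 5) (nat_lit 358) (nat_lit 5) (nat_lit 425) (nat_lit 370) (nat_lit 345)) (XT.lf (nat_lit 0) (nat_lit 1180040848) (nat_lit 836) (nat_lit 3850662568) (nat_lit 912) (nat_lit 2568373706) (nat_lit 346) (nat_lit 5) (nat_lit 357) (nat_lit 5) (nat_lit 358) (nat_lit 5) (nat_lit 426) (nat_lit 370) (nat_lit 344))))) (XT.nd (nat_lit 234) (nat_lit 1520) (nat_lit 0) (XT.nd (nat_lit 78) (nat_lit 1596) (nat_lit 0) (XT.lf (nat_lit 0) (nat_lit 327980130)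 (nat_lit 912) (nat_lit 1225776070) (nat_lit 76) (nat_lit 6101064007) (nat_lit 345) (nat_lit 5) (nat_lit 357) (nat_lit 5) (nat_lit 346) (nat_lit 5) (nat_lit 427) (nat_lit 370) (nat_lit 343)) (XT.nd (nat_lit 78) (nat_lit 760) (nat_lit 0) (XT.lf (nat_lit 0) (nat_lit 3228425256) (nat_lit 912) (nat_lit 3665319425) (nat_lit 76) (nat_lit 818002107) (nat_lit 334) (nat_lit 5) (nat_lit 346) (nat_lit 5) (nat_lit 335) (nat_lit 5) (nat_lit 428) (nat_lit 370) (nat_lit 342)) (XT.lf (nat_lit 0) (nat_lit 1625823246) (nat_lit 760) (nat_lit 4539629585) (nat_lit 836) (nat_lit 1604806490) (nat_lit 324) (nat_lit 5) (nat_lit 334) (nat_lit 5) (nat_lit 335) (nat_lit 5) (nat_lit 429) (nat_lit 370) (nat_lit 341)))) (XT.nd (nat_lit 78) (nat_lit 1444) (nat_lit 0) (XT.lf (nat_lit 0) (nat_lit 1288305619) (nat_lit 836) (nat_lit 822298658) (nat_lit 76) (nat_lit 5719693378) (nat_lit 323) (nat_lit 5) (nat_lit 334) (nat_lit 5) (nat_lit 324) (nat_lit 5)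 (nat_lit 430) (nat_lit 370) (nat_lit 340)) (XT.nd (nat_lit 78) (nat_lit 684) (nat_lit 0) (XT.lf (nat_lit 0) (nat_lit 4201006369) (nat_lit 836) (nat_lit 3293757519) (nat_lit 76) (nat_lit 396914220) (nat_lit 313) (nat_lit 5) (nat_lit 324) (nat_lit 5) (nat_lit 314) (nat_lit 5) (nat_lit 431) (nat_lit 370) (nat_lit 339)) (XT.lf (nat_lit 0) (nat_lit 2141596049) (nat_lit 684) (nat_lit 5015082916) (nat_lit 760) (nat_lit 797930300) (nat_lit 304) (nat_lit 5) (nat_lit 313) (nat_lit 5) (nat_lit 314) (nat_lit 5) (nat_lit 432) (nat_lit 370) (nat_lit 338))))))) (XT.nd (nat_lit 858) (nat_lit 4484) (nat_lit 0) (XT.nd (nat_lit 390) (nat_lit 2660) (nat_lit 0) (XT.nd (nat_lit 156) (nat_lit 1444) (nat_lit 0) (XT.nd (nat_lit 78) (nat_lit 760) (nat_lit 0) (XT.lf (nat_lit 0) (nat_lit 2098222179) (nat_lit 760) (nat_lit 358460081) (nat_lit 76) (nat_lit 5562378250) (nat_lit 303) (nat_lit 5) (nat_lit 313) (nat_lit 5) (nat_lit 304) (nat_lit 5) (nat_lit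 433) (nat_lit 370) (nat_lit 337)) (XT.lf (nat_lit 0) (nat_lit 5029162021) (nat_lit 836) (nat_lit 2873097380) (nat_lit 76) (nat_lit 182701370) (nat_lit 293) (nat_lit 5) (nat_lit 304) (nat_lit 5) (nat_lit 294) (nat_lit 5) (nat_lit 434) (nat_lit 370) (nat_lit 336))) (XT.nd (nat_lit 78) (nat_lit 760) (nat_lit 0) (XT.lf (nat_lit 0) (nat_lit 2709854713) (nat_lit 684) (nat_lit 5298165192) (nat_lit 760) (nat_lit 144389267) (nat_lit 284) (nat_lit 5) (nat_lit 293) (nat_lit 5) (nat_lit 294) (nat_lit 5) (nat_lit 435) (nat_lit 370) (nat_lit 335)) (XT.nd (nat_lit 78) (nat_lit 0) (nat_lit 0) (XT.lf (nat_lit 0) (nat_lit 150096221) (nat_lit 684) (nat_lit 2611733858) (nat_lit 760) (nat_lit 5459552386) (nat_lit 274) (nat_lit 5) (nat_lit 283) (nat_lit 5) (nat_lit 284) (nat_lit 5) (nat_lit 436) (nat_lit 370) (nat_lit 334)) (XT.lf (nat_lit 0) (nat_lit 5715587688) (nat_lit 760) (nat_lit 2421162683) (nat_lit 76) (nat_lit 155154013) (nat_lit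 274) (nat_lit 5) (nat_lit 284) (nat_lit 5) (nat_lit 275) (nat_lit 5) (nat_lit 437) (nat_lit 370) (nat_lit 333))))) (XT.nd (nat_lit 234) (nat_lit 1292) (nat_lit 0) (XT.nd (nat_lit 78) (nat_lit 684) (nat_lit 0) (XT.lf (nat_lit 0) (nat_lit 353202989) (nat_lit 684) (nat_lit 5053585432) (nat_lit 76) (nat_lit 2957147563) (nat_lit 265) (nat_lit 5) (nat_lit 274) (nat_lit 5) (nat_lit 266) (nat_lit 5) (nat_lit 438) (nat_lit 370) (nat_lit 332)) (XT.nd (nat_lit 78) (nat_lit 0) (nat_lit 0) (XT.lf (nat_lit 0) (nat_lit 688447218) (nat_lit 684) (nat_lit 2594100855) (nat_lit 760) (nat_lit 5155019234) (nat_lit 256) (nat_lit 5) (nat_lit 265) (nat_lit 5) (nat_lit 266) (nat_lit 5) (nat_lit 439) (nat_lit 370) (nat_lit 331)) (XT.lf (nat_lit 0) (nat_lit 6261732801) (nat_lit 760) (nat_lit 1956292334) (nat_lit 76) (nat_lit 294835101) (nat_lit 256) (nat_lit 5) (nat_lit 266) (nat_lit 5) (nat_lit 257) (nat_lit 5) (nat_lit 440) (nat_lit 370) (nat_lit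 330)))) (XT.nd (nat_lit 78) (nat_lit 608) (nat_lit 0) (XT.lf (nat_lit 0) (nat_lit 700413053) (nat_lit 684) (nat_lit 4662537402) (nat_lit 76) (nat_lit 3226651882) (nat_lit 247) (nat_lit 5) (nat_lit 256) (nat_lit 5) (nat_lit 248) (nat_lit 5) (nat_lit 441) (nat_lit 370) (nat_lit 329)) (XT.nd (nat_lit 78) (nat_lit 0) (nat_lit 0) (XT.lf (nat_lit 0) (nat_lit 1232921807) (nat_lit 608) (nat_lit 2425578960) (nat_lit 684) (nat_lit 5009540960) (nat_lit 239) (nat_lit 5) (nat_lit 247) (nat_lit 5) (nat_lit 248) (nat_lit 5) (nat_lit 442) (nat_lit 370) (nat_lit 328)) (XT.lf (nat_lit 0) (nat_lit 6667782860) (nat_lit 684) (nat_lit 1497522131) (nat_lit 76) (nat_lit 582917228) (nat_lit 239) (nat_lit 5) (nat_lit 248) (nat_lit 5) (nat_lit 240) (nat_lit 5) (nat_lit 443) (nat_lit 370) (nat_lit 327)))))) (XT.nd (nat_lit 390) (nat_lit 2128) (nat_lit 0) (XT.nd (nat_lit 156) (nat_lit 1140) (nat_lit 0) (XT.nd (nat_lit 78) (nat_lit 608) (nat_lit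 0) (XT.lf (nat_lit 0) (nat_lit 898625056) (nat_lit 608) (nat_lit 4288042788) (nat_lit 76) (nat_lit 3643167544) (nat_lit 231) (nat_lit 5) (nat_lit 239) (nat_lit 5) (nat_lit 232) (nat_lit 5) (nat_lit 444) (nat_lit 370) (nat_lit 326)) (XT.lf (nat_lit 0) (nat_lit 1763801522) (nat_lit 608) (nat_lit 2125073430) (nat_lit 684) (nat_lit 5024353827) (nat_lit 223) (nat_lit 5) (nat_lit 231) (nat_lit 5) (nat_lit 232) (nat_lit 5) (nat_lit 445) (nat_lit 370) (nat_lit 325))) (XT.nd (nat_lit 78) (nat_lit 1140) (nat_lit 0) (XT.lf (nat_lit 0) (nat_lit 6932630951) (nat_lit 684) (nat_lit 1064776433) (nat_lit 76) (nat_lit 1001020611) (nat_lit 223) (nat_lit 5) (nat_lit 232) (nat_lit 5) (nat_lit 224) (nat_lit 5) (nat_lit 446) (nat_lit 370) (nat_lit 324)) (XT.nd (nat_lit 78) (nat_lit 532) (nat_lit 0) (XT.lf (nat_lit 0) (nat_lit 946004488) (nat_lit 608) (nat_lit 3950638707) (nat_lit 76) (nat_lit 4188444736) (nat_lit 215) (nat_lit 5) (nat_lit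 223) (nat_lit 5) (nat_lit 216) (nat_lit 5) (nat_lit 447) (nat_lit 370) (nat_lit 323)) (XT.lf (nat_lit 0) (nat_lit 2260355500) (nat_lit 532) (nat_lit 1711169554) (nat_lit 608) (nat_lit 5202071321) (nat_lit 208) (nat_lit 5) (nat_lit 215) (nat_lit 5) (nat_lit 216) (nat_lit 5) (nat_lit 448) (nat_lit 370) (nat_lit 322))))) (XT.nd (nat_lit 234) (nat_lit 988) (nat_lit 0) (XT.nd (nat_lit 78) (nat_lit 1140) (nat_lit 0) (XT.lf (nat_lit 0) (nat_lit 7053838197) (nat_lit 608) (nat_lit 679071619) (nat_lit 76) (nat_lit 1531050597) (nat_lit 208) (nat_lit 5) (nat_lit 216) (nat_lit 5) (nat_lit 209) (nat_lit 5) (nat_lit 449) (nat_lit 370) (nat_lit 321)) (XT.nd (nat_lit 78) (nat_lit 532) (nat_lit 0) (XT.lf (nat_lit 0) (nat_lit 839347840) (nat_lit 608) (nat_lit 3672038889) (nat_lit 76) (nat_lit 4844471937) (nat_lit 200) (nat_lit 5) (nat_lit 208) (nat_lit 5) (nat_lit 201) (nat_lit 5) (nat_lit 450) (nat_lit 370) (nat_lit 320)) (XT.lf (nat_lit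 0) (nat_lit 2700626179) (nat_lit 532) (nat_lit 1202299234) (nat_lit 608) (nat_lit 5546733487) (nat_lit 193) (nat_lit 5) (nat_lit 200) (nat_lit 5) (nat_lit 201) (nat_lit 5) (nat_lit 451) (nat_lit 370) (nat_lit 319)))) (XT.nd (nat_lit 78) (nat_lit 988) (nat_lit 0) (XT.lf (nat_lit 0) (nat_lit 7027582624) (nat_lit 608) (nat_lit 362733206) (nat_lit 76) (nat_lit 2155033372) (nat_lit 193) (nat_lit 5) (nat_lit 201) (nat_lit 5) (nat_lit 194) (nat_lit 5) (nat_lit 452) (nat_lit 370) (nat_lit 318)) (XT.nd (nat_lit 78) (nat_lit 456) (nat_lit 0) (XT.lf (nat_lit 0) (nat_lit 574026645) (nat_lit 532) (nat_lit 3475357480) (nat_lit 76) (nat_lit 5593309845) (nat_lit 186) (nat_lit 5) (nat_lit 193) (nat_lit 5) (nat_lit 187) (nat_lit 5) (nat_lit 453) (nat_lit 370) (nat_lit 317)) (XT.lf (nat_lit 0) (nat_lit 3061199943) (nat_lit 456) (nat_lit 616910479) (nat_lit 532) (nat_lit 6063868646) (nat_lit 180) (nat_lit 5) (nat_lit 186) (nat_lit 5) (nat_lit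 187) (nat_lit 5) (nat_lit 454) (nat_lit 370) (nat_lit 316))))))))
noncomputable def xc67 : XT := (XT.nd (nat_lit 1716) (nat_lit 3724) (nat_lit 0) (XT.nd (nat_lit 858) (nat_lit 2736) (nat_lit 0) (XT.nd (nat_lit 390) (nat_lit 1748) (nat_lit 0) (XT.nd (nat_lit 156) (nat_lit 836) (nat_lit 0) (XT.nd (nat_lit 78) (nat_lit 532) (nat_lit 0) (XT.lf (nat_lit 0) (nat_lit 6848595770) (nat_lit 532) (nat_lit 139628667) (nat_lit 76) (nat_lit 2854948479) (nat_lit 180) (nat_lit 5) (nat_lit 187) (nat_lit 5) (nat_lit 181) (nat_lit 5) (nat_lit 455) (nat_lit 370) (nat_lit 315)) (XT.lf (nat_lit 0) (nat_lit 143918943) (nat_lit 532) (nat_lit 3385349391) (nat_lit 76) (nat_lit 6416921638) (nat_lit 173) (nat_lit 5) (nat_lit 180) (nat_lit 5) (nat_lit 174) (nat_lit 5) (nat_lit 456) (nat_lit 370) (nat_lit 314))) (XT.nd (nat_lit 78) (nat_lit 380) (nat_lit 0) (XT.lf (nat_lit 0) (nat_lit 3290773006) (nat_lit 532) (nat_lit 6734380643) (nat_lit 76) (nat_lit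 26013029) (nat_lit 167) (nat_lit 5) (nat_lit 174) (nat_lit 5) (nat_lit 168) (nat_lit 5) (nat_lit 457) (nat_lit 370) (nat_lit 313)) (XT.nd (nat_lit 78) (nat_lit 380) (nat_lit 0) (XT.lf (nat_lit 0) (nat_lit 6510086305) (nat_lit 532) (nat_lit 35418160) (nat_lit 76) (nat_lit 3612556738) (nat_lit 167) (nat_lit 5) (nat_lit 174) (nat_lit 5) (nat_lit 168) (nat_lit 5) (nat_lit 458) (nat_lit 370) (nat_lit 312)) (XT.lf (nat_lit 0) (nat_lit 6835247525) (nat_lit 380) (nat_lit 2966918866) (nat_lit 456) (nat_lit 464768171) (nat_lit 162) (nat_lit 5) (nat_lit 167) (nat_lit 5) (nat_lit 168) (nat_lit 5) (nat_lit 459) (nat_lit 370) (nat_lit 311))))) (XT.nd (nat_lit 234) (nat_lit 836) (nat_lit 0) (XT.nd (nat_lit 78) (nat_lit 380) (nat_lit 0) (XT.lf (nat_lit 0) (nat_lit 2736922626) (nat_lit 532) (nat_lit 6941674972) (nat_lit 76) (nat_lit 699208594) (nat_lit 155) (nat_lit 5) (nat_lit 162) (nat_lit 5) (nat_lit 156) (nat_lit 5) (nat_lit 460)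 (nat_lit 370) (nat_lit 310)) (XT.nd (nat_lit 78) (nat_lit 380) (nat_lit 0) (XT.lf (nat_lit 0) (nat_lit 6003649766) (nat_lit 532) (nat_lit 77825543) (nat_lit 76) (nat_lit 4409222050) (nat_lit 155) (nat_lit 5) (nat_lit 162) (nat_lit 5) (nat_lit 156) (nat_lit 5) (nat_lit 461) (nat_lit 370) (nat_lit 309)) (XT.lf (nat_lit 0) (nat_lit 6963316997) (nat_lit 380) (nat_lit 2382693700) (nat_lit 456) (nat_lit 1259637572) (nat_lit 150) (nat_lit 5) (nat_lit 155) (nat_lit 5) (nat_lit 156) (nat_lit 5) (nat_lit 462) (nat_lit 370) (nat_lit 308)))) (XT.nd (nat_lit 78) (nat_lit 380) (nat_lit 0) (XT.lf (nat_lit 0) (nat_lit 2002649739) (nat_lit 456) (nat_lit 7328593350) (nat_lit 76) (nat_lit 1391459133) (nat_lit 144) (nat_lit 5) (nat_lit 150) (nat_lit 5) (nat_lit 145) (nat_lit 5) (nat_lit 463) (nat_lit 370) (nat_lit 307)) (XT.nd (nat_lit 78) (nat_lit 380) (nat_lit 0) (XT.lf (nat_lit 0) (nat_lit 5319163417) (nat_lit 456) (nat_lit 296932294)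 (nat_lit 76) (nat_lit 5225725525) (nat_lit 144) (nat_lit 5) (nat_lit 150) (nat_lit 5) (nat_lit 145) (nat_lit 5) (nat_lit 464) (nat_lit 370) (nat_lit 306)) (XT.lf (nat_lit 0) (nat_lit 6915380806) (nat_lit 380) (nat_lit 1797651432) (nat_lit 456) (nat_lit 2250077197) (nat_lit 139) (nat_lit 5) (nat_lit 144) (nat_lit 5) (nat_lit 145) (nat_lit 5) (nat_lit 465) (nat_lit 370) (nat_lit 305)))))) (XT.nd (nat_lit 390) (nat_lit 1444) (nat_lit 0) (XT.nd (nat_lit 156) (nat_lit 836) (nat_lit 0) (XT.nd (nat_lit 78) (nat_lit 0) (nat_lit 0) (XT.lf (nat_lit 0) (nat_lit 1076228631) (nat_lit 456) (nat_lit 7927696298) (nat_lit 76) (nat_lit 2082713365) (nat_lit 133) (nat_lit 5) (nat_lit 139) (nat_lit 5) (nat_lit 134) (nat_lit 5) (nat_lit 466) (nat_lit 370) (nat_lit 304)) (XT.lf (nat_lit 0) (nat_lit 4444665087) (nat_lit 456) (nat_lit 725497150) (nat_lit 76) (nat_lit 6042070254) (nat_lit 133) (nat_lit 5) (nat_lit 139) (nat_lit 5) (nat_lit 134)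 (nat_lit 5) (nat_lit 467) (nat_lit 370) (nat_lit 303))) (XT.nd (nat_lit 78) (nat_lit 456) (nat_lit 0) (XT.lf (nat_lit 0) (nat_lit 6658037240) (nat_lit 380) (nat_lit 1232776749) (nat_lit 456) (nat_lit 3449324454) (nat_lit 128) (nat_lit 5) (nat_lit 133) (nat_lit 5) (nat_lit 134) (nat_lit 5) (nat_lit 468) (nat_lit 370) (nat_lit 302)) (XT.nd (nat_lit 78) (nat_lit 76) (nat_lit 0) (XT.lf (nat_lit 0) (nat_lit 2695573227) (nat_lit 380) (nat_lit 8718112355) (nat_lit 456) (nat_lit 56767552) (nat_lit 123) (nat_lit 5) (nat_lit 128) (nat_lit 5) (nat_lit 129) (nat_lit 5) (nat_lit 469) (nat_lit 370) (nat_lit 301)) (XT.lf (nat_lit 0) (nat_lit 3366214694) (nat_lit 456) (nat_lit 1399304587) (nat_lit 76) (nat_lit 6837274949) (nat_lit 122) (nat_lit 5) (nat_lit 128) (nat_lit 5) (nat_lit 123) (nat_lit 5) (nat_lit 470) (nat_lit 370) (nat_lit 300))))) (XT.nd (nat_lit 234) (nat_lit 684) (nat_lit 0) (XT.nd (nat_lit 78) (nat_lit 456) (nat_lit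 0) (XT.lf (nat_lit 0) (nat_lit 6154758168) (nat_lit 304) (nat_lit 710160608) (nat_lit 380) (nat_lit 4872701654) (nat_lit 118) (nat_lit 5) (nat_lit 122) (nat_lit 5) (nat_lit 123) (nat_lit 5) (nat_lit 471) (nat_lit 370) (nat_lit 299)) (XT.nd (nat_lit 78) (nat_lit 76) (nat_lit 0) (XT.lf (nat_lit 0) (nat_lit 1957712716) (nat_lit 380) (nat_lit 8488548696) (nat_lit 456) (nat_lit 1428634561) (nat_lit 113) (nat_lit 5) (nat_lit 118) (nat_lit 5) (nat_lit 119) (nat_lit 5) (nat_lit 472) (nat_lit 370) (nat_lit 298)) (XT.lf (nat_lit 0) (nat_lit 2067737004) (nat_lit 456) (nat_lit 2357545511) (nat_lit 76) (nat_lit 7589154545) (nat_lit 112) (nat_lit 5) (nat_lit 118) (nat_lit 5) (nat_lit 113) (nat_lit 5) (nat_lit 473) (nat_lit 370) (nat_lit 297)))) (XT.nd (nat_lit 78) (nat_lit 380) (nat_lit 0) (XT.lf (nat_lit 0) (nat_lit 5365496999) (nat_lit 304) (nat_lit 253228717) (nat_lit 380) (nat_lit 6537783762) (nat_lit 108) (nat_lit 5) (nat_lit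 112) (nat_lit 5) (nat_lit 113) (nat_lit 5) (nat_lit 474) (nat_lit 370) (nat_lit 296)) (XT.nd (nat_lit 78) (nat_lit 76) (nat_lit 0) (XT.lf (nat_lit 0) (nat_lit 910824177) (nat_lit 304) (nat_lit 8346879038) (nat_lit 380) (nat_lit 3043386394) (nat_lit 104) (nat_lit 5) (nat_lit 108) (nat_lit 5) (nat_lit 109) (nat_lit 5) (nat_lit 475) (nat_lit 370) (nat_lit 295)) (XT.lf (nat_lit 0) (nat_lit 530843979) (nat_lit 380) (nat_lit 3643233894) (nat_lit 76) (nat_lit 8274085719) (nat_lit 103) (nat_lit 5) (nat_lit 108) (nat_lit 5) (nat_lit 104) (nat_lit 5) (nat_lit 476) (nat_lit 370) (nat_lit 294))))))) (XT.nd (nat_lit 858) (nat_lit 1520) (nat_lit 0) (XT.nd (nat_lit 390) (nat_lit 1216) (nat_lit 0) (XT.nd (nat_lit 156) (nat_lit 684) (nat_lit 0) (XT.nd (nat_lit 78) (nat_lit 0) (nat_lit 0) (XT.lf (nat_lit 0) (nat_lit 4133979465) (nat_lit 380) (nat_lit 8352307580) (nat_lit 76) (nat_lit 111531564) (nat_lit 99) (nat_lit 5) (nat_lit 104) (nat_lit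 5) (nat_lit 100) (nat_lit 5) (nat_lit 477) (nat_lit 370) (nat_lit 293)) (XT.lf (nat_lit 0) (nat_lit 7831426788) (nat_lit 380) (nat_lit 484552571) (nat_lit 76) (nat_lit 4434047600) (nat_lit 99) (nat_lit 5) (nat_lit 104) (nat_lit 5) (nat_lit 100) (nat_lit 5) (nat_lit 478) (nat_lit 370) (nat_lit 292))) (XT.nd (nat_lit 78) (nat_lit 380) (nat_lit 0) (XT.lf (nat_lit 0) (nat_lit 7592898747) (nat_lit 304) (nat_lit 4029807057) (nat_lit 380) (nat_lit 1282181130) (nat_lit 95) (nat_lit 5) (nat_lit 99) (nat_lit 5) (nat_lit 100) (nat_lit 5) (nat_lit 479) (nat_lit 370) (nat_lit 291)) (XT.nd (nat_lit 78) (nat_lit 0) (nat_lit 0) (XT.lf (nat_lit 0) (nat_lit 2389262529) (nat_lit 380) (nat_lit 10316413847) (nat_lit 76) (nat_lit 356974970) (nat_lit 90) (nat_lit 5) (nat_lit 95) (nat_lit 5) (nat_lit 91) (nat_lit 5) (nat_lit 480) (nat_lit 370) (nat_lit 290)) (XT.lf (nat_lit 0) (nat_lit 6150364786) (nat_lit 380) (nat_lit 2268123289) (nat_lit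 76) (nat_lit 4804250322) (nat_lit 90) (nat_lit 5) (nat_lit 95) (nat_lit 5) (nat_lit 91) (nat_lit 5) (nat_lit 481) (nat_lit 370) (nat_lit 289))))) (XT.nd (nat_lit 234) (nat_lit 608) (nat_lit 0) (XT.nd (nat_lit 78) (nat_lit 304) (nat_lit 0) (XT.lf (nat_lit 0) (nat_lit 5972916535) (nat_lit 304) (nat_lit 4023937309) (nat_lit 380) (nat_lit 3388974773) (nat_lit 86) (nat_lit 5) (nat_lit 90) (nat_lit 5) (nat_lit 91) (nat_lit 5) (nat_lit 482) (nat_lit 370) (nat_lit 288)) (XT.nd (nat_lit 78) (nat_lit 0) (nat_lit 0) (XT.lf (nat_lit 0) (nat_lit 358369913) (nat_lit 304) (nat_lit 12736037499) (nat_lit 76) (nat_lit 457827861) (nat_lit 82) (nat_lit 5) (nat_lit 86) (nat_lit 5) (nat_lit 83) (nat_lit 5) (nat_lit 483) (nat_lit 370) (nat_lit 287)) (XT.lf (nat_lit 0) (nat_lit 4183643087) (nat_lit 304) (nat_lit 4506799338) (nat_lit 76) (nat_lit 5030116866) (nat_lit 82) (nat_lit 5) (nat_lit 86) (nat_lit 5) (nat_lit 83) (nat_lit 5) (nat_lit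 484) (nat_lit 370) (nat_lit 286)))) (XT.nd (nat_lit 78) (nat_lit 304) (nat_lit 0) (XT.lf (nat_lit 0) (nat_lit 3892211420) (nat_lit 304) (nat_lit 4190633065) (nat_lit 380) (nat_lit 5809461214) (nat_lit 78) (nat_lit 5) (nat_lit 82) (nat_lit 5) (nat_lit 83) (nat_lit 5) (nat_lit 485) (nat_lit 370) (nat_lit 285)) (XT.nd (nat_lit 78) (nat_lit 304) (nat_lit 0) (XT.lf (nat_lit 0) (nat_lit 12065350471) (nat_lit 380) (nat_lit 1595378047) (nat_lit 76) (nat_lit 406656383) (nat_lit 78) (nat_lit 5) (nat_lit 83) (nat_lit 5) (nat_lit 79) (nat_lit 5) (nat_lit 486) (nat_lit 370) (nat_lit 284)) (XT.lf (nat_lit 0) (nat_lit 1903171123) (nat_lit 304) (nat_lit 7261227581) (nat_lit 76) (nat_lit 5080400631) (nat_lit 74) (nat_lit 5) (nat_lit 78) (nat_lit 5) (nat_lit 75) (nat_lit 5) (nat_lit 487) (nat_lit 370) (nat_lit 283)))))) (XT.nd (nat_lit 390) (nat_lit 760) (nat_lit 0) (XT.nd (nat_lit 156) (nat_lit 532) (nat_lit 0) (XT.nd (nat_lit 78) (nat_lit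 0) (nat_lit 0) (XT.lf (nat_lit 0) (nat_lit 1288586128) (nat_lit 228) (nat_lit 4563144072) (nat_lit 304) (nat_lit 8573930087) (nat_lit 71) (nat_lit 5) (nat_lit 74) (nat_lit 5) (nat_lit 75) (nat_lit 5) (nat_lit 488) (nat_lit 370) (nat_lit 282)) (XT.lf (nat_lit 0) (nat_lit 9902166718) (nat_lit 304) (nat_lit 4547797887) (nat_lit 76) (nat_lit 159719681) (nat_lit 71) (nat_lit 5) (nat_lit 75) (nat_lit 5) (nat_lit 72) (nat_lit 5) (nat_lit 489) (nat_lit 370) (nat_lit 281))) (XT.nd (nat_lit 78) (nat_lit 304) (nat_lit 0) (XT.lf (nat_lit 0) (nat_lit 4193642532) (nat_lit 228) (nat_lit 9870957997) (nat_lit 304) (nat_lit 732172339) (nat_lit 68) (nat_lit 5) (nat_lit 71) (nat_lit 5) (nat_lit 72) (nat_lit 5) (nat_lit 490) (nat_lit 370) (nat_lit 280)) (XT.nd (nat_lit 78) (nat_lit 228) (nat_lit 0) (XT.lf (nat_lit 0) (nat_lit 3283418607) (nat_lit 304) (nat_lit 1881674406) (nat_lit 76) (nat_lit 9821996145) (nat_lit 67) (nat_lit 5) (nat_lit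 71) (nat_lit 5) (nat_lit 68) (nat_lit 5) (nat_lit 491) (nat_lit 370) (nat_lit 279)) (XT.lf (nat_lit 0) (nat_lit 7058340324) (nat_lit 228) (nat_lit 331127705) (nat_lit 304) (nat_lit 7791251592) (nat_lit 64) (nat_lit 5) (nat_lit 67) (nat_lit 5) (nat_lit 68) (nat_lit 5) (nat_lit 492) (nat_lit 370) (nat_lit 278))))) (XT.nd (nat_lit 234) (nat_lit 228) (nat_lit 0) (XT.nd (nat_lit 78) (nat_lit 304) (nat_lit 0) (XT.lf (nat_lit 0) (nat_lit 761017626) (nat_lit 228) (nat_lit 10838361291) (nat_lit 304) (nat_lit 3778412547) (nat_lit 61) (nat_lit 5) (nat_lit 64) (nat_lit 5) (nat_lit 65) (nat_lit 5) (nat_lit 493) (nat_lit 370) (nat_lit 277)) (XT.nd (nat_lit 78) (nat_lit 228) (nat_lit 0) (XT.lf (nat_lit 0) (nat_lit 341891921) (nat_lit 304) (nat_lit 5693894196) (nat_lit 76) (nat_lit 9542354490) (nat_lit 60) (nat_lit 5) (nat_lit 64) (nat_lit 5) (nat_lit 61) (nat_lit 5) (nat_lit 494) (nat_lit 370) (nat_lit 276)) (XT.lf (nat_lit 0) (nat_lit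 3383892917) (nat_lit 228) (nat_lit 1106915241) (nat_lit 304) (nat_lit 11291256470) (nat_lit 57) (nat_lit 5) (nat_lit 60) (nat_lit 5) (nat_lit 61) (nat_lit 5) (nat_lit 495) (nat_lit 370) (nat_lit 275)))) (XT.nd (nat_lit 78) (nat_lit 228) (nat_lit 0) (XT.lf (nat_lit 0) (nat_lit 8761503653) (nat_lit 304) (nat_lit 3337607186) (nat_lit 76) (nat_lit 3890183578) (nat_lit 57) (nat_lit 5) (nat_lit 61) (nat_lit 5) (nat_lit 58) (nat_lit 5) (nat_lit 496) (nat_lit 370) (nat_lit 274)) (XT.nd (nat_lit 78) (nat_lit 76) (nat_lit 0) (XT.lf (nat_lit 0) (nat_lit 5932472425) (nat_lit 152) (nat_lit 7206365374) (nat_lit 228) (nat_lit 3061409749) (nat_lit 55) (nat_lit 5) (nat_lit 57) (nat_lit 5) (nat_lit 58) (nat_lit 5) (nat_lit 497) (nat_lit 370) (nat_lit 273)) (XT.lf (nat_lit 0) (nat_lit 1170682190) (nat_lit 228) (nat_lit 1031862956) (nat_lit 76) (nat_lit 14212764049) (nat_lit 54) (nat_lit 5) (nat_lit 57) (nat_lit 5) (nat_lit 55) (nat_lit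 5) (nat_lit 498) (nat_lit 370) (nat_lit 272))))))))
noncomputable def xc68 : XT := (XT.nd (nat_lit 52494) (nat_lit 0) (nat_lit 20140) (XT.nd (nat_lit 51636) (nat_lit 0) (nat_lit 37696) (XT.nd (nat_lit 390) (nat_lit 456) (nat_lit 0) (XT.nd (nat_lit 156) (nat_lit 304) (nat_lit 0) (XT.nd (nat_lit 78) (nat_lit 152) (nat_lit 0) (XT.lf (nat_lit 0) (nat_lit 5496372336) (nat_lit 304) (nat_lit 8215117632) (nat_lit 76) (nat_lit 2921781468) (nat_lit 51) (nat_lit 5) (nat_lit 55) (nat_lit 5) (nat_lit 52) (nat_lit 5) (nat_lit 499) (nat_lit 370) (nat_lit 271)) (XT.lf (nat_lit 0) (nat_lit 1174989552) (nat_lit 152) (nat_lit 8738770249) (nat_lit 228) (nat_lit 6941732446) (nat_lit 49) (nat_lit 5) (nat_lit 51) (nat_lit 5) (nat_lit 52) (nat_lit 5) (nat_lit 500) (nat_lit 370) (nat_lit 270))) (XT.nd (nat_lit 78) (nat_lit 304) (nat_lit 0) (XT.lf (nat_lit 0) (nat_lit 10823037901) (nat_lit 152) (nat_lit 3627785997) (nat_lit 228) (nat_lit 2630709937)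 (nat_lit 49) (nat_lit 5) (nat_lit 51) (nat_lit 5) (nat_lit 52) (nat_lit 5) (nat_lit 501) (nat_lit 370) (nat_lit 269)) (XT.nd (nat_lit 78) (nat_lit 0) (nat_lit 0) (XT.lf (nat_lit 0) (nat_lit 1751985345) (nat_lit 304) (nat_lit 13978699059) (nat_lit 76) (nat_lit 1581012867) (nat_lit 45) (nat_lit 5) (nat_lit 49) (nat_lit 5) (nat_lit 46) (nat_lit 5) (nat_lit 502) (nat_lit 370) (nat_lit 268)) (XT.lf (nat_lit 0) (nat_lit 6230040111) (nat_lit 304) (nat_lit 4427006387) (nat_lit 76) (nat_lit 6888213850) (nat_lit 45) (nat_lit 5) (nat_lit 49) (nat_lit 5) (nat_lit 46) (nat_lit 5) (nat_lit 503) (nat_lit 370) (nat_lit 267))))) (XT.nd (nat_lit 156) (nat_lit 304) (nat_lit 0) (XT.nd (nat_lit 78) (nat_lit 0) (nat_lit 0) (XT.lf (nat_lit 0) (nat_lit 5345816734) (nat_lit 152) (nat_lit 5463603560) (nat_lit 228) (nat_lit 6973841819) (nat_lit 43) (nat_lit 5) (nat_lit 45) (nat_lit 5) (nat_lit 46) (nat_lit 5) (nat_lit 504) (nat_lit 370) (nat_lit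 266)) (XT.lf (nat_lit 0) (nat_lit 15334354060) (nat_lit 152) (nat_lit 152989094) (nat_lit 228) (nat_lit 2538544318) (nat_lit 43) (nat_lit 5) (nat_lit 45) (nat_lit 5) (nat_lit 46) (nat_lit 5) (nat_lit 505) (nat_lit 370) (nat_lit 265))) (XT.nd (nat_lit 50934) (nat_lit 0) (nat_lit 45524) (XT.lf (nat_lit 0) (nat_lit 2018778481) (nat_lit 304) (nat_lit 11014299368) (nat_lit 76) (nat_lit 5238845047) (nat_lit 39) (nat_lit 5) (nat_lit 43) (nat_lit 5) (nat_lit 40) (nat_lit 5) (nat_lit 506) (nat_lit 370) (nat_lit 264)) (XT.nd (nat_lit 78) (nat_lit 836) (nat_lit 0) (XT.lf (nat_lit 0) (nat_lit 2744888305) (nat_lit 684) (nat_lit 277602977) (nat_lit 684) (nat_lit 277602977) (nat_lit 649) (nat_lit 4) (nat_lit 658) (nat_lit 5) (nat_lit 658) (nat_lit 4) (nat_lit 398) (nat_lit 371) (nat_lit 371)) (XT.lf (nat_lit 0) (nat_lit 2615941978) (nat_lit 836) (nat_lit 3700904641) (nat_lit 0) (nat_lit 301506797) (nat_lit 638) (nat_lit 5) (nat_lit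 649) (nat_lit 4) (nat_lit 638) (nat_lit 4) (nat_lit 399) (nat_lit 371) (nat_lit 370)))))) (XT.nd (nat_lit 390) (nat_lit 4940) (nat_lit 0) (XT.nd (nat_lit 156) (nat_lit 1976) (nat_lit 0) (XT.nd (nat_lit 78) (nat_lit 76) (nat_lit 0) (XT.lf (nat_lit 0) (nat_lit 346980944) (nat_lit 836) (nat_lit 5437267433) (nat_lit 836) (nat_lit 853778153) (nat_lit 627) (nat_lit 4) (nat_lit 638) (nat_lit 5) (nat_lit 638) (nat_lit 4) (nat_lit 400) (nat_lit 371) (nat_lit 369)) (XT.lf (nat_lit 0) (nat_lit 2280190784) (nat_lit 912) (nat_lit 2202066737) (nat_lit 76) (nat_lit 2176503779) (nat_lit 626) (nat_lit 5) (nat_lit 638) (nat_lit 5) (nat_lit 627) (nat_lit 4) (nat_lit 401) (nat_lit 371) (nat_lit 368))) (XT.nd (nat_lit 78) (nat_lit 1064) (nat_lit 0) (XT.lf (nat_lit 0) (nat_lit 1934498771) (nat_lit 912) (nat_lit 3473171949) (nat_lit 988) (nat_lit 1273321207) (nat_lit 614) (nat_lit 5) (nat_lit 626) (nat_lit 5) (nat_lit 627) (nat_lit 4) (nat_lit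 402) (nat_lit 371) (nat_lit 367)) (XT.nd (nat_lit 78) (nat_lit 988) (nat_lit 0) (XT.lf (nat_lit 0) (nat_lit 1814294405) (nat_lit 988) (nat_lit 586642032) (nat_lit 76) (nat_lit 4303620525) (nat_lit 613) (nat_lit 5) (nat_lit 626) (nat_lit 5) (nat_lit 614) (nat_lit 5) (nat_lit 403) (nat_lit 371) (nat_lit 366)) (XT.lf (nat_lit 0) (nat_lit 3642291449) (nat_lit 988) (nat_lit 1259580332) (nat_lit 1064) (nat_lit 1827485037) (nat_lit 600) (nat_lit 5) (nat_lit 613) (nat_lit 5) (nat_lit 614) (nat_lit 5) (nat_lit 404) (nat_lit 371) (nat_lit 365))))) (XT.nd (nat_lit 234) (nat_lit 2584) (nat_lit 0) (XT.nd (nat_lit 78) (nat_lit 1216) (nat_lit 0) (XT.lf (nat_lit 0) (nat_lit 1161939110) (nat_lit 1064) (nat_lit 61220666) (nat_lit 1140) (nat_lit 5532487811) (nat_lit 585) (nat_lit 5) (nat_lit 599) (nat_lit 5) (nat_lit 600) (nat_lit 5) (nat_lit 405) (nat_lit 371) (nat_lit 364)) (XT.nd (nat_lit 78) (nat_lit 1216) (nat_lit 0) (XT.lf (nat_lit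 0) (nat_lit 4271939930) (nat_lit 1140) (nat_lit 1319199585) (nat_lit 76) (nat_lit 1191886115) (nat_lit 585) (nat_lit 5) (nat_lit 600) (nat_lit 5) (nat_lit 586) (nat_lit 5) (nat_lit 406) (nat_lit 371) (nat_lit 363)) (XT.lf (nat_lit 0) (nat_lit 517464716) (nat_lit 1216) (nat_lit 3789277941) (nat_lit 76) (nat_lit 2505083897) (nat_lit 569) (nat_lit 5) (nat_lit 585) (nat_lit 5) (nat_lit 570) (nat_lit 5) (nat_lit 407) (nat_lit 371) (nat_lit 362)))) (XT.nd (nat_lit 78) (nat_lit 1368) (nat_lit 0) (XT.lf (nat_lit 0) (nat_lit 564095993) (nat_lit 1216) (nat_lit 2956435012) (nat_lit 1292) (nat_lit 3321422048) (nat_lit 553) (nat_lit 5) (nat_lit 569) (nat_lit 5) (nat_lit 570) (nat_lit 5) (nat_lit 408) (nat_lit 371) (nat_lit 361)) (XT.nd (nat_lit 78) (nat_lit 1368) (nat_lit 0) (XT.lf (nat_lit 0) (nat_lit 5001659963) (nat_lit 1216) (nat_lit 1543312998) (nat_lit 1292) (nat_lit 328515079) (nat_lit 553) (nat_lit 5) (nat_lit 569) (nat_lit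 5) (nat_lit 570) (nat_lit 5) (nat_lit 409) (nat_lit 371) (nat_lit 360)) (XT.lf (nat_lit 0) (nat_lit 2584478950) (nat_lit 1292) (nat_lit 57518157) (nat_lit 1368) (nat_lit 4264264338) (nat_lit 535) (nat_lit 5) (nat_lit 552) (nat_lit 5) (nat_lit 553) (nat_lit 5) (nat_lit 410) (nat_lit 371) (nat_lit 359))))))) (XT.nd (nat_lit 858) (nat_lit 6764) (nat_lit 0) (XT.nd (nat_lit 390) (nat_lit 6308) (nat_lit 0) (XT.nd (nat_lit 156) (nat_lit 3040) (nat_lit 0) (XT.nd (nat_lit 78) (nat_lit 76) (nat_lit 0) (XT.lf (nat_lit 0) (nat_lit 151072034) (nat_lit 1368) (nat_lit 5477189230) (nat_lit 1444) (nat_lit 1312201197) (nat_lit 517) (nat_lit 5) (nat_lit 535) (nat_lit 5) (nat_lit 536) (nat_lit 5) (nat_lit 411) (nat_lit 371) (nat_lit 358)) (XT.lf (nat_lit 0) (nat_lit 1644272480) (nat_lit 1444) (nat_lit 2269924803) (nat_lit 76) (nat_lit 3061605796) (nat_lit 516) (nat_lit 5) (nat_lit 535) (nat_lit 5) (nat_lit 517) (nat_lit 5) (nat_lit 412)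 (nat_lit 371) (nat_lit 357))) (XT.nd (nat_lit 78) (nat_lit 1596) (nat_lit 0) (XT.lf (nat_lit 0) (nat_lit 2307065774) (nat_lit 1444) (nat_lit 2289525380) (nat_lit 1520) (nat_lit 2416028797) (nat_lit 497) (nat_lit 5) (nat_lit 516) (nat_lit 5) (nat_lit 517) (nat_lit 5) (nat_lit 413) (nat_lit 371) (nat_lit 356)) (XT.nd (nat_lit 78) (nat_lit 1520) (nat_lit 0) (XT.lf (nat_lit 0) (nat_lit 505506462) (nat_lit 1520) (nat_lit 102127860) (nat_lit 76) (nat_lit 6443393151) (nat_lit 496) (nat_lit 5) (nat_lit 516) (nat_lit 5) (nat_lit 497) (nat_lit 5) (nat_lit 414) (nat_lit 371) (nat_lit 355)) (XT.lf (nat_lit 0) (nat_lit 3431330557) (nat_lit 1596) (nat_lit 2514371495) (nat_lit 76) (nat_lit 1144644501) (nat_lit 476) (nat_lit 5) (nat_lit 497) (nat_lit 5) (nat_lit 477) (nat_lit 5) (nat_lit 415) (nat_lit 371) (nat_lit 354))))) (XT.nd (nat_lit 234) (nat_lit 2964) (nat_lit 0) (XT.nd (nat_lit 78) (nat_lit 1748) (nat_lit 0) (XT.lf (nat_lit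 0) (nat_lit 2188565186) (nat_lit 1596) (nat_lit 4187760561) (nat_lit 1672) (nat_lit 754939626) (nat_lit 455) (nat_lit 5) (nat_lit 476) (nat_lit 5) (nat_lit 477) (nat_lit 5) (nat_lit 416) (nat_lit 371) (nat_lit 353)) (XT.nd (nat_lit 78) (nat_lit 1672) (nat_lit 0) (XT.lf (nat_lit 0) (nat_lit 2137369256) (nat_lit 1672) (nat_lit 222594592) (nat_lit 76) (nat_lit 4813595550) (nat_lit 454) (nat_lit 5) (nat_lit 476) (nat_lit 5) (nat_lit 455) (nat_lit 5) (nat_lit 417) (nat_lit 371) (nat_lit 352)) (XT.lf (nat_lit 0) (nat_lit 4593103300) (nat_lit 1672) (nat_lit 457392857) (nat_lit 1748) (nat_lit 2166666659) (nat_lit 432) (nat_lit 5) (nat_lit 454) (nat_lit 5) (nat_lit 455) (nat_lit 5) (nat_lit 418) (nat_lit 371) (nat_lit 351)))) (XT.nd (nat_lit 78) (nat_lit 1140) (nat_lit 0) (XT.lf (nat_lit 0) (nat_lit 719568305) (nat_lit 1824) (nat_lit 5055977343) (nat_lit 76) (nat_lit 1486632056) (nat_lit 408) (nat_lit 5) (nat_lit 432) (nat_lit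 5) (nat_lit 409) (nat_lit 5) (nat_lit 419) (nat_lit 371) (nat_lit 350)) (XT.nd (nat_lit 78) (nat_lit 1140) (nat_lit 0) (XT.lf (nat_lit 0) (nat_lit 3599680819) (nat_lit 1824) (nat_lit 211854733) (nat_lit 76) (nat_lit 3496991102) (nat_lit 408) (nat_lit 5) (nat_lit 432) (nat_lit 5) (nat_lit 409) (nat_lit 5) (nat_lit 420) (nat_lit 371) (nat_lit 349)) (XT.lf (nat_lit 0) (nat_lit 4737106983) (nat_lit 1140) (nat_lit 1776518442) (nat_lit 1216) (nat_lit 842675589) (nat_lit 393) (nat_lit 5) (nat_lit 408) (nat_lit 5) (nat_lit 409) (nat_lit 5) (nat_lit 421) (nat_lit 371) (nat_lit 348)))))) (XT.nd (nat_lit 390) (nat_lit 3192) (nat_lit 0) (XT.nd (nat_lit 156) (nat_lit 2584) (nat_lit 0) (XT.nd (nat_lit 78) (nat_lit 0) (nat_lit 0) (XT.lf (nat_lit 0) (nat_lit 2018142565) (nat_lit 988) (nat_lit 5062069682) (nat_lit 76) (nat_lit 325278251) (nat_lit 380) (nat_lit 5) (nat_lit 393) (nat_lit 5) (nat_lit 381) (nat_lit 5) (nat_lit 422) (nat_lit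 371) (nat_lit 347)) (XT.lf (nat_lit 0) (nat_lit 4900882201) (nat_lit 988) (nat_lit 87267241) (nat_lit 76) (nat_lit 2467904856) (nat_lit 380) (nat_lit 5) (nat_lit 393) (nat_lit 5) (nat_lit 381) (nat_lit 5) (nat_lit 423) (nat_lit 371) (nat_lit 346))) (XT.nd (nat_lit 78) (nat_lit 1672) (nat_lit 0) (XT.lf (nat_lit 0) (nat_lit 309139967) (nat_lit 912) (nat_lit 2511698809) (nat_lit 76) (nat_lit 4687170759) (nat_lit 368) (nat_lit 5) (nat_lit 380) (nat_lit 5) (nat_lit 369) (nat_lit 5) (nat_lit 424) (nat_lit 371) (nat_lit 345)) (XT.nd (nat_lit 78) (nat_lit 836) (nat_lit 0) (XT.lf (nat_lit 0) (nat_lit 2584159988) (nat_lit 836) (nat_lit 577648255) (nat_lit 912) (nat_lit 4399572612) (nat_lit 357) (nat_lit 5) (nat_lit 368) (nat_lit 5) (nat_lit 369) (nat_lit 5) (nat_lit 425) (nat_lit 371) (nat_lit 344)) (XT.lf (nat_lit 0) (nat_lit 135835619) (nat_lit 836) (nat_lit 5913184027) (nat_lit 912) (nat_lit 1567270208) (nat_lit 346) (nat_lit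 5) (nat_lit 357) (nat_lit 5) (nat_lit 358) (nat_lit 5) (nat_lit 426) (nat_lit 371) (nat_lit 343))))) (XT.nd (nat_lit 234) (nat_lit 1520) (nat_lit 0) (XT.nd (nat_lit 78) (nat_lit 1596) (nat_lit 0) (XT.lf (nat_lit 0) (nat_lit 1290623909) (nat_lit 912) (nat_lit 2321201417) (nat_lit 76) (nat_lit 4060593756) (nat_lit 345) (nat_lit 5) (nat_lit 357) (nat_lit 5) (nat_lit 346) (nat_lit 5) (nat_lit 427) (nat_lit 371) (nat_lit 342)) (XT.nd (nat_lit 78) (nat_lit 760) (nat_lit 0) (XT.lf (nat_lit 0) (nat_lit 2914607028) (nat_lit 836) (nat_lit 1238862848) (nat_lit 912) (nat_lit 3576637123) (nat_lit 334) (nat_lit 5) (nat_lit 345) (nat_lit 5) (nat_lit 346) (nat_lit 5) (nat_lit 428) (nat_lit 371) (nat_lit 341)) (XT.lf (nat_lit 0) (nat_lit 440869733) (nat_lit 760) (nat_lit 6609355543) (nat_lit 836) (nat_lit 739208868) (nat_lit 324) (nat_lit 5) (nat_lit 334) (nat_lit 5) (nat_lit 335) (nat_lit 5) (nat_lit 429) (nat_lit 371) (nat_lit 340))))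 (XT.nd (nat_lit 78) (nat_lit 1444) (nat_lit 0) (XT.lf (nat_lit 0) (nat_lit 2118151440) (nat_lit 836) (nat_lit 2059476258) (nat_lit 76) (nat_lit 3672229179) (nat_lit 323) (nat_lit 5) (nat_lit 334) (nat_lit 5) (nat_lit 324) (nat_lit 5) (nat_lit 430) (nat_lit 371) (nat_lit 339)) (XT.nd (nat_lit 78) (nat_lit 684) (nat_lit 0) (XT.lf (nat_lit 0) (nat_lit 3319716280) (nat_lit 760) (nat_lit 1676287474) (nat_lit 836) (nat_lit 2915939182) (nat_lit 313) (nat_lit 5) (nat_lit 323) (nat_lit 5) (nat_lit 324) (nat_lit 5) (nat_lit 431) (nat_lit 371) (nat_lit 338)) (XT.lf (nat_lit 0) (nat_lit 809362595) (nat_lit 684) (nat_lit 7099135061) (nat_lit 760) (nat_lit 67248482) (nat_lit 304) (nat_lit 5) (nat_lit 313) (nat_lit 5) (nat_lit 314) (nat_lit 5) (nat_lit 432) (nat_lit 371) (nat_lit 337))))))))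
noncomputable def xc69 : XT := (XT.nd (nat_lit 1716) (nat_lit 5776) (nat_lit 0) (XT.nd (nat_lit 858) (nat_lit 4484) (nat_lit 0) (XT.nd (nat_lit 390) (nat_lit 2660) (nat_lit 0) (XT.nd (nat_lit 156) (nat_lit 1444) (nat_lit 0) (XT.nd (nat_lit 78) (nat_lit 760) (nat_lit 0) (XT.lf (nat_lit 0) (nat_lit 2795801070) (nat_lit 760) (nat_lit 1743891807) (nat_lit 76) (nat_lit 3500888166) (nat_lit 303) (nat_lit 5) (nat_lit 313) (nat_lit 5) (nat_lit 304) (nat_lit 5) (nat_lit 433) (nat_lit 371) (nat_lit 336)) (XT.lf (nat_lit 0) (nat_lit 3782108422) (nat_lit 760) (nat_lit 1911080899) (nat_lit 836) (nat_lit 2413970994) (nat_lit 293) (nat_lit 5) (nat_lit 303) (nat_lit 5) (nat_lit 304) (nat_lit 5) (nat_lit 434) (nat_lit 371) (nat_lit 335))) (XT.nd (nat_lit 78) (nat_lit 684) (nat_lit 0) (XT.lf (nat_lit 0) (nat_lit 445748873) (nat_lit 760) (nat_lit 6954672397) (nat_lit 76) (nat_lit 775033837) (nat_lit 283) (nat_lit 5) (nat_lit 293) (nat_lit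 5) (nat_lit 284) (nat_lit 5) (nat_lit 435) (nat_lit 371) (nat_lit 334)) (XT.nd (nat_lit 78) (nat_lit 684) (nat_lit 0) (XT.lf (nat_lit 0) (nat_lit 3326411746) (nat_lit 760) (nat_lit 1392102908) (nat_lit 76) (nat_lit 3526375773) (nat_lit 283) (nat_lit 5) (nat_lit 293) (nat_lit 5) (nat_lit 284) (nat_lit 5) (nat_lit 436) (nat_lit 371) (nat_lit 333)) (XT.lf (nat_lit 0) (nat_lit 4284087023) (nat_lit 684) (nat_lit 1963484341) (nat_lit 760) (nat_lit 2068500316) (nat_lit 274) (nat_lit 5) (nat_lit 283) (nat_lit 5) (nat_lit 284) (nat_lit 5) (nat_lit 437) (nat_lit 371) (nat_lit 332))))) (XT.nd (nat_lit 234) (nat_lit 1292) (nat_lit 0) (XT.nd (nat_lit 78) (nat_lit 684) (nat_lit 0) (XT.lf (nat_lit 0) (nat_lit 808604174) (nat_lit 684) (nat_lit 6728218262) (nat_lit 76) (nat_lit 852137093) (nat_lit 265) (nat_lit 5) (nat_lit 274) (nat_lit 5) (nat_lit 266) (nat_lit 5) (nat_lit 438) (nat_lit 371) (nat_lit 331)) (XT.nd (nat_lit 78) (nat_lit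 684) (nat_lit 0) (XT.lf (nat_lit 0) (nat_lit 3711578269) (nat_lit 684) (nat_lit 1022220579) (nat_lit 76) (nat_lit 3729326370) (nat_lit 265) (nat_lit 5) (nat_lit 274) (nat_lit 5) (nat_lit 266) (nat_lit 5) (nat_lit 439) (nat_lit 371) (nat_lit 330)) (XT.lf (nat_lit 0) (nat_lit 4807465641) (nat_lit 684) (nat_lit 1852986631) (nat_lit 760) (nat_lit 1878578903) (nat_lit 256) (nat_lit 5) (nat_lit 265) (nat_lit 5) (nat_lit 266) (nat_lit 5) (nat_lit 440) (nat_lit 371) (nat_lit 329)))) (XT.nd (nat_lit 78) (nat_lit 608) (nat_lit 0) (XT.lf (nat_lit 0) (nat_lit 1022709336) (nat_lit 684) (nat_lit 6505466659) (nat_lit 76) (nat_lit 1088462776) (nat_lit 247) (nat_lit 5) (nat_lit 256) (nat_lit 5) (nat_lit 248) (nat_lit 5) (nat_lit 441) (nat_lit 371) (nat_lit 328)) (XT.nd (nat_lit 78) (nat_lit 608) (nat_lit 0) (XT.lf (nat_lit 0) (nat_lit 3951636600) (nat_lit 684) (nat_lit 652989611) (nat_lit 76) (nat_lit 4091041578) (nat_lit 247) (nat_lit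 5) (nat_lit 256) (nat_lit 5) (nat_lit 248) (nat_lit 5) (nat_lit 442) (nat_lit 371) (nat_lit 327)) (XT.lf (nat_lit 0) (nat_lit 5333386687) (nat_lit 608) (nat_lit 1598487412) (nat_lit 684) (nat_lit 1844561369) (nat_lit 239) (nat_lit 5) (nat_lit 247) (nat_lit 5) (nat_lit 248) (nat_lit 5) (nat_lit 443) (nat_lit 371) (nat_lit 326)))))) (XT.nd (nat_lit 390) (nat_lit 2128) (nat_lit 0) (XT.nd (nat_lit 156) (nat_lit 1748) (nat_lit 0) (XT.nd (nat_lit 78) (nat_lit 0) (nat_lit 0) (XT.lf (nat_lit 0) (nat_lit 1087289193) (nat_lit 608) (nat_lit 6306090613) (nat_lit 76) (nat_lit 1465526654) (nat_lit 231) (nat_lit 5) (nat_lit 239) (nat_lit 5) (nat_lit 232) (nat_lit 5) (nat_lit 444) (nat_lit 371) (nat_lit 325)) (XT.lf (nat_lit 0) (nat_lit 4045638743) (nat_lit 608) (nat_lit 303975584) (nat_lit 76) (nat_lit 4593329462) (nat_lit 231) (nat_lit 5) (nat_lit 239) (nat_lit 5) (nat_lit 232) (nat_lit 5) (nat_lit 445) (nat_lit 371) (nat_lit 324)))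 (XT.nd (nat_lit 78) (nat_lit 1140) (nat_lit 0) (XT.lf (nat_lit 0) (nat_lit 5842130427) (nat_lit 608) (nat_lit 1218459642) (nat_lit 684) (nat_lit 1968134843) (nat_lit 223) (nat_lit 5) (nat_lit 231) (nat_lit 5) (nat_lit 232) (nat_lit 5) (nat_lit 446) (nat_lit 371) (nat_lit 323)) (XT.nd (nat_lit 78) (nat_lit 532) (nat_lit 0) (XT.lf (nat_lit 0) (nat_lit 1000249697) (nat_lit 608) (nat_lit 6150750378) (nat_lit 76) (nat_lit 1965220403) (nat_lit 215) (nat_lit 5) (nat_lit 223) (nat_lit 5) (nat_lit 216) (nat_lit 5) (nat_lit 447) (nat_lit 371) (nat_lit 322)) (XT.lf (nat_lit 0) (nat_lit 4293330) (nat_lit 532) (nat_lit 3987051326) (nat_lit 608) (nat_lit 5214078259) (nat_lit 208) (nat_lit 5) (nat_lit 215) (nat_lit 5) (nat_lit 216) (nat_lit 5) (nat_lit 448) (nat_lit 371) (nat_lit 321))))) (XT.nd (nat_lit 234) (nat_lit 988) (nat_lit 0) (XT.nd (nat_lit 78) (nat_lit 1140) (nat_lit 0) (XT.lf (nat_lit 0) (nat_lit 6312912374) (nat_lit 532)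 (nat_lit 731112733) (nat_lit 608) (nat_lit 2252359870) (nat_lit 208) (nat_lit 5) (nat_lit 215) (nat_lit 5) (nat_lit 216) (nat_lit 5) (nat_lit 449) (nat_lit 371) (nat_lit 320)) (XT.nd (nat_lit 78) (nat_lit 532) (nat_lit 0) (XT.lf (nat_lit 0) (nat_lit 758132886) (nat_lit 608) (nat_lit 6061302361) (nat_lit 76) (nat_lit 2569649255) (nat_lit 200) (nat_lit 5) (nat_lit 208) (nat_lit 5) (nat_lit 201) (nat_lit 5) (nat_lit 450) (nat_lit 371) (nat_lit 319)) (XT.lf (nat_lit 0) (nat_lit 253153921) (nat_lit 532) (nat_lit 3533525283) (nat_lit 608) (nat_lit 5696911218) (nat_lit 193) (nat_lit 5) (nat_lit 200) (nat_lit 5) (nat_lit 201) (nat_lit 5) (nat_lit 451) (nat_lit 371) (nat_lit 318)))) (XT.nd (nat_lit 78) (nat_lit 988) (nat_lit 0) (XT.lf (nat_lit 0) (nat_lit 6723667175) (nat_lit 532) (nat_lit 154557650) (nat_lit 608) (nat_lit 2701723094) (nat_lit 193) (nat_lit 5) (nat_lit 200) (nat_lit 5) (nat_lit 201) (nat_lit 5) (nat_lit 452)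 (nat_lit 371) (nat_lit 317)) (XT.nd (nat_lit 78) (nat_lit 456) (nat_lit 0) (XT.lf (nat_lit 0) (nat_lit 356059998) (nat_lit 532) (nat_lit 6061022548) (nat_lit 76) (nat_lit 3260967253) (nat_lit 186) (nat_lit 5) (nat_lit 193) (nat_lit 5) (nat_lit 187) (nat_lit 5) (nat_lit 453) (nat_lit 371) (nat_lit 316)) (XT.lf (nat_lit 0) (nat_lit 414986884) (nat_lit 456) (nat_lit 3009440917) (nat_lit 532) (nat_lit 6353626092) (nat_lit 180) (nat_lit 5) (nat_lit 186) (nat_lit 5) (nat_lit 187) (nat_lit 5) (nat_lit 454) (nat_lit 371) (nat_lit 315))))))) (XT.nd (nat_lit 858) (nat_lit 2660) (nat_lit 0) (XT.nd (nat_lit 390) (nat_lit 1748) (nat_lit 0) (XT.nd (nat_lit 156) (nat_lit 912) (nat_lit 0) (XT.nd (nat_lit 78) (nat_lit 456) (nat_lit 0) (XT.lf (nat_lit 0) (nat_lit 6560993381) (nat_lit 532) (nat_lit 2832378804) (nat_lit 76) (nat_lit 486558535) (nat_lit 180) (nat_lit 5) (nat_lit 187) (nat_lit 5) (nat_lit 181) (nat_lit 5) (nat_lit 455) (nat_lit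 371) (nat_lit 314)) (XT.lf (nat_lit 0) (nat_lit 3807445864) (nat_lit 456) (nat_lit 5961083706) (nat_lit 532) (nat_lit 215159808) (nat_lit 174) (nat_lit 5) (nat_lit 180) (nat_lit 5) (nat_lit 181) (nat_lit 5) (nat_lit 456) (nat_lit 371) (nat_lit 313))) (XT.nd (nat_lit 78) (nat_lit 380) (nat_lit 0) (XT.lf (nat_lit 0) (nat_lit 464491056) (nat_lit 456) (nat_lit 2433375012) (nat_lit 532) (nat_lit 7191565277) (nat_lit 167) (nat_lit 5) (nat_lit 173) (nat_lit 5) (nat_lit 174) (nat_lit 5) (nat_lit 457) (nat_lit 371) (nat_lit 312)) (XT.nd (nat_lit 78) (nat_lit 380) (nat_lit 0) (XT.lf (nat_lit 0) (nat_lit 6083559274) (nat_lit 532) (nat_lit 2935882458) (nat_lit 76) (nat_lit 1177560774) (nat_lit 167) (nat_lit 5) (nat_lit 174) (nat_lit 5) (nat_lit 168) (nat_lit 5) (nat_lit 458) (nat_lit 371) (nat_lit 311)) (XT.lf (nat_lit 0) (nat_lit 3870702950) (nat_lit 380) (nat_lit 5468217043) (nat_lit 456) (nat_lit 967694412) (nat_lit 162) (nat_lit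 5) (nat_lit 167) (nat_lit 5) (nat_lit 168) (nat_lit 5) (nat_lit 459) (nat_lit 371) (nat_lit 310))))) (XT.nd (nat_lit 234) (nat_lit 836) (nat_lit 0) (XT.nd (nat_lit 78) (nat_lit 380) (nat_lit 0) (XT.lf (nat_lit 0) (nat_lit 374377892) (nat_lit 456) (nat_lit 1824294941) (nat_lit 532) (nat_lit 8219720890) (nat_lit 155) (nat_lit 5) (nat_lit 161) (nat_lit 5) (nat_lit 162) (nat_lit 5) (nat_lit 460) (nat_lit 371) (nat_lit 309)) (XT.nd (nat_lit 78) (nat_lit 380) (nat_lit 0) (XT.lf (nat_lit 0) (nat_lit 5436272656) (nat_lit 532) (nat_lit 3193722380) (nat_lit 76) (nat_lit 1901876313) (nat_lit 155) (nat_lit 5) (nat_lit 162) (nat_lit 5) (nat_lit 156) (nat_lit 5) (nat_lit 461) (nat_lit 371) (nat_lit 308)) (XT.lf (nat_lit 0) (nat_lit 3780778129) (nat_lit 380) (nat_lit 4960248399) (nat_lit 456) (nat_lit 1906551707) (nat_lit 150) (nat_lit 5) (nat_lit 155) (nat_lit 5) (nat_lit 156) (nat_lit 5) (nat_lit 462) (nat_lit 371) (nat_lit 307))))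 (XT.nd (nat_lit 78) (nat_lit 380) (nat_lit 0) (XT.lf (nat_lit 0) (nat_lit 115083450) (nat_lit 380) (nat_lit 1201744901) (nat_lit 456) (nat_lit 9448839362) (nat_lit 144) (nat_lit 5) (nat_lit 149) (nat_lit 5) (nat_lit 150) (nat_lit 5) (nat_lit 463) (nat_lit 371) (nat_lit 306)) (XT.nd (nat_lit 78) (nat_lit 380) (nat_lit 0) (XT.lf (nat_lit 0) (nat_lit 4608770015) (nat_lit 456) (nat_lit 3636208623) (nat_lit 76) (nat_lit 2640303145) (nat_lit 144) (nat_lit 5) (nat_lit 150) (nat_lit 5) (nat_lit 145) (nat_lit 5) (nat_lit 464) (nat_lit 371) (nat_lit 305)) (XT.lf (nat_lit 0) (nat_lit 3506804364) (nat_lit 380) (nat_lit 4457263056) (nat_lit 456) (nat_lit 3043277533) (nat_lit 139) (nat_lit 5) (nat_lit 144) (nat_lit 5) (nat_lit 145) (nat_lit 5) (nat_lit 465) (nat_lit 371) (nat_lit 304)))))) (XT.nd (nat_lit 390) (nat_lit 1368) (nat_lit 0) (XT.nd (nat_lit 156) (nat_lit 836) (nat_lit 0) (XT.nd (nat_lit 78) (nat_lit 380) (nat_lit 0) (XT.lf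 (nat_lit 0) (nat_lit 242740334) (nat_lit 456) (nat_lit 341012669) (nat_lit 76) (nat_lit 10548241035) (nat_lit 138) (nat_lit 5) (nat_lit 144) (nat_lit 5) (nat_lit 139) (nat_lit 5) (nat_lit 466) (nat_lit 371) (nat_lit 303)) (XT.lf (nat_lit 0) (nat_lit 3588848773) (nat_lit 456) (nat_lit 4296346714) (nat_lit 76) (nat_lit 3372842647) (nat_lit 133) (nat_lit 5) (nat_lit 139) (nat_lit 5) (nat_lit 134) (nat_lit 5) (nat_lit 467) (nat_lit 371) (nat_lit 302))) (XT.nd (nat_lit 78) (nat_lit 456) (nat_lit 0) (XT.lf (nat_lit 0) (nat_lit 3015128536) (nat_lit 380) (nat_lit 3980256625) (nat_lit 456) (nat_lit 4391354450) (nat_lit 128) (nat_lit 5) (nat_lit 133) (nat_lit 5) (nat_lit 134) (nat_lit 5) (nat_lit 468) (nat_lit 371) (nat_lit 301)) (XT.nd (nat_lit 78) (nat_lit 456) (nat_lit 0) (XT.lf (nat_lit 0) (nat_lit 10467058834) (nat_lit 456) (nat_lit 1035838385) (nat_lit 76) (nat_lit 15184252) (nat_lit 128) (nat_lit 5) (nat_lit 134) (nat_lit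 5) (nat_lit 129) (nat_lit 5) (nat_lit 469) (nat_lit 371) (nat_lit 300)) (XT.lf (nat_lit 0) (nat_lit 2362328114) (nat_lit 456) (nat_lit 5210186126) (nat_lit 76) (nat_lit 4078493945) (nat_lit 122) (nat_lit 5) (nat_lit 128) (nat_lit 5) (nat_lit 123) (nat_lit 5) (nat_lit 470) (nat_lit 371) (nat_lit 299))))) (XT.nd (nat_lit 234) (nat_lit 608) (nat_lit 0) (XT.nd (nat_lit 78) (nat_lit 456) (nat_lit 0) (XT.lf (nat_lit 0) (nat_lit 2268952765) (nat_lit 304) (nat_lit 3551348760) (nat_lit 380) (nat_lit 5966350498) (nat_lit 118) (nat_lit 5) (nat_lit 122) (nat_lit 5) (nat_lit 123) (nat_lit 5) (nat_lit 471) (nat_lit 371) (nat_lit 298)) (XT.nd (nat_lit 78) (nat_lit 456) (nat_lit 0) (XT.lf (nat_lit 0) (nat_lit 9355079603) (nat_lit 380) (nat_lit 2008411481) (nat_lit 76) (nat_lit 561370739) (nat_lit 118) (nat_lit 5) (nat_lit 123) (nat_lit 5) (nat_lit 119) (nat_lit 5) (nat_lit 472) (nat_lit 371) (nat_lit 297)) (XT.lf (nat_lit 0) (nat_lit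 912891045) (nat_lit 456) (nat_lit 6417201037) (nat_lit 76) (nat_lit 4735035152) (nat_lit 112) (nat_lit 5) (nat_lit 118) (nat_lit 5) (nat_lit 113) (nat_lit 5) (nat_lit 473) (nat_lit 371) (nat_lit 296)))) (XT.nd (nat_lit 78) (nat_lit 304) (nat_lit 0) (XT.lf (nat_lit 0) (nat_lit 1227942311) (nat_lit 304) (nat_lit 3194011032) (nat_lit 380) (nat_lit 7786087632) (nat_lit 108) (nat_lit 5) (nat_lit 112) (nat_lit 5) (nat_lit 113) (nat_lit 5) (nat_lit 474) (nat_lit 371) (nat_lit 295)) (XT.nd (nat_lit 78) (nat_lit 304) (nat_lit 0) (XT.lf (nat_lit 0) (nat_lit 8020948328) (nat_lit 380) (nat_lit 3294838583) (nat_lit 76) (nat_lit 1037636585) (nat_lit 108) (nat_lit 5) (nat_lit 113) (nat_lit 5) (nat_lit 109) (nat_lit 5) (nat_lit 475) (nat_lit 371) (nat_lit 294)) (XT.lf (nat_lit 0) (nat_lit 4535474130) (nat_lit 304) (nat_lit 7177391751) (nat_lit 380) (nat_lit 788434358) (nat_lit 104) (nat_lit 5) (nat_lit 108) (nat_lit 5) (nat_lit 109)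 (nat_lit 5) (nat_lit 476) (nat_lit 371) (nat_lit 293))))))))
noncomputable def xc70 : XT := (XT.nd (nat_lit 1716) (nat_lit 1140) (nat_lit 0) (XT.nd (nat_lit 858) (nat_lit 1444) (nat_lit 0) (XT.nd (nat_lit 390) (nat_lit 1216) (nat_lit 0) (XT.nd (nat_lit 156) (nat_lit 684) (nat_lit 0) (XT.nd (nat_lit 78) (nat_lit 304) (nat_lit 0) (XT.lf (nat_lit 0) (nat_lit 2782095536) (nat_lit 380) (nat_lit 150207598) (nat_lit 76) (nat_lit 9719616006) (nat_lit 103) (nat_lit 5) (nat_lit 108) (nat_lit 5) (nat_lit 104) (nat_lit 5) (nat_lit 477) (nat_lit 371) (nat_lit 292)) (XT.lf (nat_lit 0) (nat_lit 6444947576) (nat_lit 380) (nat_lit 4940729317) (nat_lit 76) (nat_lit 1419145033) (nat_lit 99) (nat_lit 5) (nat_lit 104) (nat_lit 5) (nat_lit 100) (nat_lit 5) (nat_lit 478) (nat_lit 371) (nat_lit 291))) (XT.nd (nat_lit 78) (nat_lit 380) (nat_lit 0) (XT.lf (nat_lit 0) (nat_lit 3054268972) (nat_lit 304) (nat_lit 7138213282) (nat_lit 380) (nat_lit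 2768077015) (nat_lit 95) (nat_lit 5) (nat_lit 99) (nat_lit 5) (nat_lit 100) (nat_lit 5) (nat_lit 479) (nat_lit 371) (nat_lit 290)) (XT.nd (nat_lit 78) (nat_lit 304) (nat_lit 0) (XT.lf (nat_lit 0) (nat_lit 888419400) (nat_lit 380) (nat_lit 1895039389) (nat_lit 76) (nat_lit 10335748926) (nat_lit 94) (nat_lit 5) (nat_lit 99) (nat_lit 5) (nat_lit 95) (nat_lit 5) (nat_lit 480) (nat_lit 371) (nat_lit 289)) (XT.lf (nat_lit 0) (nat_lit 4604733637) (nat_lit 380) (nat_lit 6996281096) (nat_lit 76) (nat_lit 1679178131) (nat_lit 90) (nat_lit 5) (nat_lit 95) (nat_lit 5) (nat_lit 91) (nat_lit 5) (nat_lit 481) (nat_lit 371) (nat_lit 288))))) (XT.nd (nat_lit 234) (nat_lit 608) (nat_lit 0) (XT.nd (nat_lit 78) (nat_lit 304) (nat_lit 0) (XT.lf (nat_lit 0) (nat_lit 1159029863) (nat_lit 304) (nat_lit 7247049621) (nat_lit 380) (nat_lit 5038108755) (nat_lit 86) (nat_lit 5) (nat_lit 90) (nat_lit 5) (nat_lit 91) (nat_lit 5) (nat_lit 482) (nat_lit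 371) (nat_lit 287)) (XT.nd (nat_lit 78) (nat_lit 304) (nat_lit 0) (XT.lf (nat_lit 0) (nat_lit 9526944107) (nat_lit 304) (nat_lit 2775658288) (nat_lit 380) (nat_lit 1308482665) (nat_lit 86) (nat_lit 5) (nat_lit 90) (nat_lit 5) (nat_lit 91) (nat_lit 5) (nat_lit 483) (nat_lit 371) (nat_lit 286)) (XT.lf (nat_lit 0) (nat_lit 2475096621) (nat_lit 304) (nat_lit 9516809014) (nat_lit 76) (nat_lit 1788852613) (nat_lit 82) (nat_lit 5) (nat_lit 86) (nat_lit 5) (nat_lit 83) (nat_lit 5) (nat_lit 484) (nat_lit 371) (nat_lit 285)))) (XT.nd (nat_lit 78) (nat_lit 608) (nat_lit 0) (XT.lf (nat_lit 0) (nat_lit 6335511351) (nat_lit 304) (nat_lit 1191102742) (nat_lit 76) (nat_lit 6426668413) (nat_lit 82) (nat_lit 5) (nat_lit 86) (nat_lit 5) (nat_lit 83) (nat_lit 5) (nat_lit 485) (nat_lit 371) (nat_lit 284)) (XT.nd (nat_lit 78) (nat_lit 304) (nat_lit 0) (XT.lf (nat_lit 0) (nat_lit 7353481438) (nat_lit 304) (nat_lit 2940629932) (nat_lit 380)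 (nat_lit 3834730534) (nat_lit 78) (nat_lit 5) (nat_lit 82) (nat_lit 5) (nat_lit 83) (nat_lit 5) (nat_lit 486) (nat_lit 371) (nat_lit 283)) (XT.lf (nat_lit 0) (nat_lit 27692591) (nat_lit 304) (nat_lit 12563328398) (nat_lit 76) (nat_lit 1716811698) (nat_lit 74) (nat_lit 5) (nat_lit 78) (nat_lit 5) (nat_lit 75) (nat_lit 5) (nat_lit 487) (nat_lit 371) (nat_lit 282)))))) (XT.nd (nat_lit 390) (nat_lit 684) (nat_lit 0) (XT.nd (nat_lit 156) (nat_lit 532) (nat_lit 0) (XT.nd (nat_lit 78) (nat_lit 228) (nat_lit 0) (XT.lf (nat_lit 0) (nat_lit 3954726951) (nat_lit 304) (nat_lit 4052334201) (nat_lit 76) (nat_lit 6482064938) (nat_lit 74) (nat_lit 5) (nat_lit 78) (nat_lit 5) (nat_lit 75) (nat_lit 5) (nat_lit 488) (nat_lit 371) (nat_lit 281)) (XT.lf (nat_lit 0) (nat_lit 4646409217) (nat_lit 228) (nat_lit 3318001637) (nat_lit 304) (nat_lit 6709556204) (nat_lit 71) (nat_lit 5) (nat_lit 74) (nat_lit 5) (nat_lit 75) (nat_lit 5) (nat_lit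 489) (nat_lit 371) (nat_lit 280))) (XT.nd (nat_lit 78) (nat_lit 532) (nat_lit 0) (XT.lf (nat_lit 0) (nat_lit 12065232484) (nat_lit 304) (nat_lit 1341125441) (nat_lit 76) (nat_lit 1455931839) (nat_lit 71) (nat_lit 5) (nat_lit 75) (nat_lit 5) (nat_lit 72) (nat_lit 5) (nat_lit 490) (nat_lit 371) (nat_lit 279)) (XT.nd (nat_lit 78) (nat_lit 228) (nat_lit 0) (XT.lf (nat_lit 0) (nat_lit 1223918453) (nat_lit 304) (nat_lit 7508074199) (nat_lit 76) (nat_lit 6321317272) (nat_lit 67) (nat_lit 5) (nat_lit 71) (nat_lit 5) (nat_lit 68) (nat_lit 5) (nat_lit 491) (nat_lit 371) (nat_lit 278)) (XT.lf (nat_lit 0) (nat_lit 1335729974) (nat_lit 228) (nat_lit 3944519269) (nat_lit 304) (nat_lit 9967687290) (nat_lit 64) (nat_lit 5) (nat_lit 67) (nat_lit 5) (nat_lit 68) (nat_lit 5) (nat_lit 492) (nat_lit 371) (nat_lit 277))))) (XT.nd (nat_lit 234) (nat_lit 380) (nat_lit 0) (XT.nd (nat_lit 78) (nat_lit 304) (nat_lit 0) (XT.lf (nat_lit 0) (nat_lit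 9449249189) (nat_lit 304) (nat_lit 5036543488) (nat_lit 76) (nat_lit 960035655) (nat_lit 64) (nat_lit 5) (nat_lit 68) (nat_lit 5) (nat_lit 65) (nat_lit 5) (nat_lit 493) (nat_lit 371) (nat_lit 276)) (XT.nd (nat_lit 78) (nat_lit 76) (nat_lit 0) (XT.lf (nat_lit 0) (nat_lit 4000972616) (nat_lit 228) (nat_lit 9727982659) (nat_lit 304) (nat_lit 1918179611) (nat_lit 61) (nat_lit 5) (nat_lit 64) (nat_lit 5) (nat_lit 65) (nat_lit 5) (nat_lit 494) (nat_lit 371) (nat_lit 275)) (XT.lf (nat_lit 0) (nat_lit 2221683492) (nat_lit 304) (nat_lit 2621126453) (nat_lit 76) (nat_lit 11009183889) (nat_lit 60) (nat_lit 5) (nat_lit 64) (nat_lit 5) (nat_lit 61) (nat_lit 5) (nat_lit 495) (nat_lit 371) (nat_lit 274)))) (XT.nd (nat_lit 78) (nat_lit 152) (nat_lit 0) (XT.lf (nat_lit 0) (nat_lit 6438574840) (nat_lit 304) (nat_lit 9444240705) (nat_lit 76) (nat_lit 177485765) (nat_lit 57) (nat_lit 5) (nat_lit 61) (nat_lit 5) (nat_lit 58) (nat_lit 5)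 (nat_lit 496) (nat_lit 371) (nat_lit 273)) (XT.nd (nat_lit 78) (nat_lit 152) (nat_lit 0) (XT.lf (nat_lit 0) (nat_lit 10765440671) (nat_lit 304) (nat_lit 272433961) (nat_lit 76) (nat_lit 5234390751) (nat_lit 57) (nat_lit 5) (nat_lit 61) (nat_lit 5) (nat_lit 58) (nat_lit 5) (nat_lit 497) (nat_lit 371) (nat_lit 272)) (XT.lf (nat_lit 0) (nat_lit 9162442470) (nat_lit 152) (nat_lit 6052222788) (nat_lit 228) (nat_lit 1273090165) (nat_lit 55) (nat_lit 5) (nat_lit 57) (nat_lit 5) (nat_lit 58) (nat_lit 5) (nat_lit 498) (nat_lit 371) (nat_lit 271))))))) (XT.nd (nat_lit 51558) (nat_lit 0) (nat_lit 38912) (XT.nd (nat_lit 390) (nat_lit 380) (nat_lit 0) (XT.nd (nat_lit 156) (nat_lit 456) (nat_lit 0) (XT.nd (nat_lit 78) (nat_lit 0) (nat_lit 0) (XT.lf (nat_lit 0) (nat_lit 2048691468) (nat_lit 228) (nat_lit 948206444) (nat_lit 304) (nat_lit 13710434529) (nat_lit 51) (nat_lit 5) (nat_lit 54) (nat_lit 5) (nat_lit 55) (nat_lit 5) (nat_lit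 499) (nat_lit 371) (nat_lit 270)) (XT.lf (nat_lit 0) (nat_lit 7388851043) (nat_lit 304) (nat_lit 5297925456) (nat_lit 76) (nat_lit 4243286894) (nat_lit 51) (nat_lit 5) (nat_lit 55) (nat_lit 5) (nat_lit 52) (nat_lit 5) (nat_lit 500) (nat_lit 371) (nat_lit 269))) (XT.nd (nat_lit 78) (nat_lit 304) (nat_lit 0) (XT.lf (nat_lit 0) (nat_lit 4259710882) (nat_lit 152) (nat_lit 7619798871) (nat_lit 228) (nat_lit 5277524760) (nat_lit 49) (nat_lit 5) (nat_lit 51) (nat_lit 5) (nat_lit 52) (nat_lit 5) (nat_lit 501) (nat_lit 371) (nat_lit 268)) (XT.nd (nat_lit 78) (nat_lit 304) (nat_lit 0) (XT.lf (nat_lit 0) (nat_lit 14040696246) (nat_lit 152) (nat_lit 2431962518) (nat_lit 228) (nat_lit 915635571) (nat_lit 49) (nat_lit 5) (nat_lit 51) (nat_lit 5) (nat_lit 52) (nat_lit 5) (nat_lit 502) (nat_lit 371) (nat_lit 267)) (XT.lf (nat_lit 0) (nat_lit 3525109934) (nat_lit 304) (nat_lit 11227056648) (nat_lit 76) (nat_lit 2870797431) (nat_lit 45)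 (nat_lit 5) (nat_lit 49) (nat_lit 5) (nat_lit 46) (nat_lit 5) (nat_lit 503) (nat_lit 371) (nat_lit 266))))) (XT.nd (nat_lit 50934) (nat_lit 0) (nat_lit 46208) (XT.nd (nat_lit 78) (nat_lit 380) (nat_lit 0) (XT.lf (nat_lit 0) (nat_lit 8058645699) (nat_lit 304) (nat_lit 1543765738) (nat_lit 76) (nat_lit 8259472546) (nat_lit 45) (nat_lit 5) (nat_lit 49) (nat_lit 5) (nat_lit 46) (nat_lit 5) (nat_lit 504) (nat_lit 371) (nat_lit 265)) (XT.nd (nat_lit 78) (nat_lit 228) (nat_lit 0) (XT.lf (nat_lit 0) (nat_lit 8404962656) (nat_lit 152) (nat_lit 4310406803) (nat_lit 228) (nat_lit 5389565154) (nat_lit 43) (nat_lit 5) (nat_lit 45) (nat_lit 5) (nat_lit 46) (nat_lit 5) (nat_lit 505) (nat_lit 371) (nat_lit 264)) (XT.lf (nat_lit 0) (nat_lit 177611383) (nat_lit 228) (nat_lit 17284282892) (nat_lit 304) (nat_lit 891021208) (nat_lit 40) (nat_lit 5) (nat_lit 43) (nat_lit 5) (nat_lit 44) (nat_lit 5) (nat_lit 506) (nat_lit 371) (nat_lit 263))))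 (XT.nd (nat_lit 78) (nat_lit 760) (nat_lit 0) (XT.lf (nat_lit 0) (nat_lit 1035526876) (nat_lit 684) (nat_lit 1212339664) (nat_lit 0) (nat_lit 1035526876) (nat_lit 658) (nat_lit 5) (nat_lit 667) (nat_lit 4) (nat_lit 658) (nat_lit 4) (nat_lit 396) (nat_lit 372) (nat_lit 372)) (XT.nd (nat_lit 78) (nat_lit 76) (nat_lit 0) (XT.lf (nat_lit 0) (nat_lit 1490112378) (nat_lit 684) (nat_lit 3750466876) (nat_lit 684) (nat_lit 1342528513) (nat_lit 649) (nat_lit 4) (nat_lit 658) (nat_lit 5) (nat_lit 658) (nat_lit 4) (nat_lit 397) (nat_lit 372) (nat_lit 371)) (XT.lf (nat_lit 0) (nat_lit 1792050306) (nat_lit 760) (nat_lit 1148720628) (nat_lit 76) (nat_lit 3659925726) (nat_lit 648) (nat_lit 5) (nat_lit 658) (nat_lit 5) (nat_lit 649) (nat_lit 4) (nat_lit 398) (nat_lit 372) (nat_lit 370)))))) (XT.nd (nat_lit 390) (nat_lit 4636) (nat_lit 0) (XT.nd (nat_lit 156) (nat_lit 988) (nat_lit 0) (XT.nd (nat_lit 78) (nat_lit 912) (nat_lit 0) (XT.lf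 (nat_lit 0) (nat_lit 2850894890) (nat_lit 760) (nat_lit 2066923089) (nat_lit 836) (nat_lit 1701754106) (nat_lit 638) (nat_lit 5) (nat_lit 648) (nat_lit 5) (nat_lit 649) (nat_lit 4) (nat_lit 399) (nat_lit 372) (nat_lit 369)) (XT.lf (nat_lit 0) (nat_lit 248391671) (nat_lit 836) (nat_lit 1137526777) (nat_lit 912) (nat_lit 5253998409) (nat_lit 626) (nat_lit 5) (nat_lit 637) (nat_lit 5) (nat_lit 638) (nat_lit 5) (nat_lit 400) (nat_lit 372) (nat_lit 368))) (XT.nd (nat_lit 78) (nat_lit 988) (nat_lit 0) (XT.lf (nat_lit 0) (nat_lit 4333122783) (nat_lit 836) (nat_lit 134247737) (nat_lit 912) (nat_lit 2194016087) (nat_lit 626) (nat_lit 5) (nat_lit 637) (nat_lit 5) (nat_lit 638) (nat_lit 5) (nat_lit 401) (nat_lit 372) (nat_lit 367)) (XT.nd (nat_lit 78) (nat_lit 0) (nat_lit 0) (XT.lf (nat_lit 0) (nat_lit 863033784) (nat_lit 988) (nat_lit 4909038758) (nat_lit 76) (nat_lit 912170038) (nat_lit 613) (nat_lit 5) (nat_lit 626) (nat_lit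 5) (nat_lit 614) (nat_lit 5) (nat_lit 402) (nat_lit 372) (nat_lit 366)) (XT.lf (nat_lit 0) (nat_lit 3900085755) (nat_lit 988) (nat_lit 783915959) (nat_lit 76) (nat_lit 2024336167) (nat_lit 613) (nat_lit 5) (nat_lit 626) (nat_lit 5) (nat_lit 614) (nat_lit 5) (nat_lit 403) (nat_lit 372) (nat_lit 365))))) (XT.nd (nat_lit 234) (nat_lit 2508) (nat_lit 0) (XT.nd (nat_lit 78) (nat_lit 1064) (nat_lit 0) (XT.lf (nat_lit 0) (nat_lit 216271577) (nat_lit 1064) (nat_lit 3319163060) (nat_lit 76) (nat_lit 3198385988) (nat_lit 599) (nat_lit 5) (nat_lit 613) (nat_lit 5) (nat_lit 600) (nat_lit 5) (nat_lit 404) (nat_lit 372) (nat_lit 364)) (XT.nd (nat_lit 78) (nat_lit 0) (nat_lit 0) (XT.lf (nat_lit 0) (nat_lit 888158764) (nat_lit 1064) (nat_lit 2320062053) (nat_lit 1140) (nat_lit 3552365104) (nat_lit 585) (nat_lit 5) (nat_lit 599) (nat_lit 5) (nat_lit 600) (nat_lit 5) (nat_lit 405) (nat_lit 372) (nat_lit 363)) (XT.lf (nat_lit 0) (nat_lit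 5171989695) (nat_lit 1064) (nat_lit 1044696627) (nat_lit 1140) (nat_lit 572100875) (nat_lit 585) (nat_lit 5) (nat_lit 599) (nat_lit 5) (nat_lit 600) (nat_lit 5) (nat_lit 406) (nat_lit 372) (nat_lit 362)))) (XT.nd (nat_lit 78) (nat_lit 1292) (nat_lit 0) (XT.lf (nat_lit 0) (nat_lit 2390069278) (nat_lit 1216) (nat_lit 4129455206) (nat_lit 76) (nat_lit 298647137) (nat_lit 569) (nat_lit 5) (nat_lit 585) (nat_lit 5) (nat_lit 570) (nat_lit 5) (nat_lit 407) (nat_lit 372) (nat_lit 361)) (XT.nd (nat_lit 78) (nat_lit 76) (nat_lit 0) (XT.lf (nat_lit 0) (nat_lit 192545425) (nat_lit 1216) (nat_lit 5166612674) (nat_lit 1292) (nat_lit 1489835534) (nat_lit 553) (nat_lit 5) (nat_lit 569) (nat_lit 5) (nat_lit 570) (nat_lit 5) (nat_lit 408) (nat_lit 372) (nat_lit 360)) (XT.lf (nat_lit 0) (nat_lit 1452019747) (nat_lit 1292) (nat_lit 2286935985) (nat_lit 76) (nat_lit 3142019825) (nat_lit 552) (nat_lit 5) (nat_lit 569) (nat_lit 5) (nat_lit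 553) (nat_lit 5) (nat_lit 409) (nat_lit 372) (nat_lit 359))))))))
noncomputable def xc71 : XT := (XT.nd (nat_lit 1716) (nat_lit 9652) (nat_lit 0) (XT.nd (nat_lit 858) (nat_lit 7220) (nat_lit 0) (XT.nd (nat_lit 390) (nat_lit 6688) (nat_lit 0) (XT.nd (nat_lit 156) (nat_lit 2888) (nat_lit 0) (XT.nd (nat_lit 78) (nat_lit 76) (nat_lit 0) (XT.lf (nat_lit 0) (nat_lit 2135111409) (nat_lit 1292) (nat_lit 2249470246) (nat_lit 1368) (nat_lit 2529812524) (nat_lit 535) (nat_lit 5) (nat_lit 552) (nat_lit 5) (nat_lit 553) (nat_lit 5) (nat_lit 410) (nat_lit 372) (nat_lit 358)) (XT.lf (nat_lit 0) (nat_lit 375535237) (nat_lit 1368) (nat_lit 327940997) (nat_lit 76) (nat_lit 6245902137) (nat_lit 534) (nat_lit 5) (nat_lit 552) (nat_lit 5) (nat_lit 535) (nat_lit 5) (nat_lit 411) (nat_lit 372) (nat_lit 357))) (XT.nd (nat_lit 78) (nat_lit 1520) (nat_lit 0) (XT.lf (nat_lit 0) (nat_lit 3278005709) (nat_lit 1444) (nat_lit 2793139486) (nat_lit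 76) (nat_lit 914153444) (nat_lit 516) (nat_lit 5) (nat_lit 535) (nat_lit 5) (nat_lit 517) (nat_lit 5) (nat_lit 412) (nat_lit 372) (nat_lit 356)) (XT.nd (nat_lit 78) (nat_lit 76) (nat_lit 0) (XT.lf (nat_lit 0) (nat_lit 1750128653) (nat_lit 1444) (nat_lit 4447114802) (nat_lit 1520) (nat_lit 825547571) (nat_lit 497) (nat_lit 5) (nat_lit 516) (nat_lit 5) (nat_lit 517) (nat_lit 5) (nat_lit 413) (nat_lit 372) (nat_lit 355)) (XT.lf (nat_lit 0) (nat_lit 2045864786) (nat_lit 1520) (nat_lit 706209071) (nat_lit 76) (nat_lit 4309516788) (nat_lit 496) (nat_lit 5) (nat_lit 516) (nat_lit 5) (nat_lit 497) (nat_lit 5) (nat_lit 414) (nat_lit 372) (nat_lit 354))))) (XT.nd (nat_lit 234) (nat_lit 3496) (nat_lit 0) (XT.nd (nat_lit 78) (nat_lit 1672) (nat_lit 0) (XT.lf (nat_lit 0) (nat_lit 3945075843) (nat_lit 1520) (nat_lit 986246733) (nat_lit 1596) (nat_lit 2170407569) (nat_lit 476) (nat_lit 5) (nat_lit 496) (nat_lit 5) (nat_lit 497) (nat_lit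 5) (nat_lit 415) (nat_lit 372) (nat_lit 353)) (XT.nd (nat_lit 78) (nat_lit 0) (nat_lit 0) (XT.lf (nat_lit 0) (nat_lit 684733544) (nat_lit 1672) (nat_lit 5630611178) (nat_lit 76) (nat_lit 828007821) (nat_lit 454) (nat_lit 5) (nat_lit 476) (nat_lit 5) (nat_lit 455) (nat_lit 5) (nat_lit 416) (nat_lit 372) (nat_lit 352)) (XT.lf (nat_lit 0) (nat_lit 3539046980) (nat_lit 1672) (nat_lit 942164375) (nat_lit 76) (nat_lit 2704911406) (nat_lit 454) (nat_lit 5) (nat_lit 476) (nat_lit 5) (nat_lit 455) (nat_lit 5) (nat_lit 417) (nat_lit 372) (nat_lit 351)))) (XT.nd (nat_lit 78) (nat_lit 1824) (nat_lit 0) (XT.lf (nat_lit 0) (nat_lit 3837389625) (nat_lit 1672) (nat_lit 2582334254) (nat_lit 1748) (nat_lit 810663399) (nat_lit 432) (nat_lit 5) (nat_lit 454) (nat_lit 5) (nat_lit 455) (nat_lit 5) (nat_lit 418) (nat_lit 372) (nat_lit 350)) (XT.nd (nat_lit 78) (nat_lit 0) (nat_lit 0) (XT.lf (nat_lit 0) (nat_lit 1401311868) (nat_lit 1748) (nat_lit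 614040159) (nat_lit 1824) (nat_lit 5260734391) (nat_lit 408) (nat_lit 5) (nat_lit 431) (nat_lit 5) (nat_lit 432) (nat_lit 5) (nat_lit 419) (nat_lit 372) (nat_lit 349)) (XT.lf (nat_lit 0) (nat_lit 4864484420) (nat_lit 1824) (nat_lit 1053482687) (nat_lit 76) (nat_lit 1405099264) (nat_lit 408) (nat_lit 5) (nat_lit 432) (nat_lit 5) (nat_lit 409) (nat_lit 5) (nat_lit 420) (nat_lit 372) (nat_lit 348)))))) (XT.nd (nat_lit 390) (nat_lit 3344) (nat_lit 0) (XT.nd (nat_lit 156) (nat_lit 1748) (nat_lit 0) (XT.nd (nat_lit 78) (nat_lit 912) (nat_lit 0) (XT.lf (nat_lit 0) (nat_lit 369844516) (nat_lit 1216) (nat_lit 3516275412) (nat_lit 76) (nat_lit 3485326797) (nat_lit 392) (nat_lit 5) (nat_lit 408) (nat_lit 5) (nat_lit 393) (nat_lit 5) (nat_lit 421) (nat_lit 372) (nat_lit 347)) (XT.lf (nat_lit 0) (nat_lit 1404225743) (nat_lit 912) (nat_lit 1780834530) (nat_lit 988) (nat_lit 4236168265) (nat_lit 380) (nat_lit 5) (nat_lit 392) (nat_lit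 5) (nat_lit 393) (nat_lit 5) (nat_lit 422) (nat_lit 372) (nat_lit 346))) (XT.nd (nat_lit 78) (nat_lit 1748) (nat_lit 0) (XT.lf (nat_lit 0) (nat_lit 6030281622) (nat_lit 988) (nat_lit 1057470050) (nat_lit 76) (nat_lit 384801564) (nat_lit 380) (nat_lit 5) (nat_lit 393) (nat_lit 5) (nat_lit 381) (nat_lit 5) (nat_lit 423) (nat_lit 372) (nat_lit 345)) (XT.nd (nat_lit 78) (nat_lit 836) (nat_lit 0) (XT.lf (nat_lit 0) (nat_lit 1375219462) (nat_lit 912) (nat_lit 3545613634) (nat_lit 76) (nat_lit 2604185487) (nat_lit 368) (nat_lit 5) (nat_lit 380) (nat_lit 5) (nat_lit 369) (nat_lit 5) (nat_lit 424) (nat_lit 372) (nat_lit 344)) (XT.lf (nat_lit 0) (nat_lit 1509674149) (nat_lit 836) (nat_lit 2685943283) (nat_lit 912) (nat_lit 3383427802) (nat_lit 357) (nat_lit 5) (nat_lit 368) (nat_lit 5) (nat_lit 369) (nat_lit 5) (nat_lit 425) (nat_lit 372) (nat_lit 343))))) (XT.nd (nat_lit 234) (nat_lit 1596) (nat_lit 0) (XT.nd (nat_lit 78) (nat_lit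 1748) (nat_lit 0) (XT.lf (nat_lit 0) (nat_lit 6660993848) (nat_lit 836) (nat_lit 384785351) (nat_lit 912) (nat_lit 588925755) (nat_lit 357) (nat_lit 5) (nat_lit 368) (nat_lit 5) (nat_lit 369) (nat_lit 5) (nat_lit 426) (nat_lit 372) (nat_lit 342)) (XT.nd (nat_lit 78) (nat_lit 836) (nat_lit 0) (XT.lf (nat_lit 0) (nat_lit 2222357101) (nat_lit 912) (nat_lit 3493011022) (nat_lit 76) (nat_lit 1976023973) (nat_lit 345) (nat_lit 5) (nat_lit 357) (nat_lit 5) (nat_lit 346) (nat_lit 5) (nat_lit 427) (nat_lit 372) (nat_lit 341)) (XT.lf (nat_lit 0) (nat_lit 1700433918) (nat_lit 836) (nat_lit 3352539463) (nat_lit 912) (nat_lit 2696760393) (nat_lit 334) (nat_lit 5) (nat_lit 345) (nat_lit 5) (nat_lit 346) (nat_lit 5) (nat_lit 428) (nat_lit 372) (nat_lit 340)))) (XT.nd (nat_lit 78) (nat_lit 1520) (nat_lit 0) (XT.lf (nat_lit 0) (nat_lit 103937774) (nat_lit 912) (nat_lit 818406439) (nat_lit 76) (nat_lit 6887404956) (nat_lit 333) (nat_lit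 5) (nat_lit 345) (nat_lit 5) (nat_lit 334) (nat_lit 5) (nat_lit 429) (nat_lit 372) (nat_lit 339)) (XT.nd (nat_lit 78) (nat_lit 760) (nat_lit 0) (XT.lf (nat_lit 0) (nat_lit 2916273932) (nat_lit 836) (nat_lit 3375718040) (nat_lit 76) (nat_lit 1578799168) (nat_lit 323) (nat_lit 5) (nat_lit 334) (nat_lit 5) (nat_lit 324) (nat_lit 5) (nat_lit 430) (nat_lit 372) (nat_lit 338)) (XT.lf (nat_lit 0) (nat_lit 1959267854) (nat_lit 760) (nat_lit 3802573583) (nat_lit 836) (nat_lit 2171689929) (nat_lit 313) (nat_lit 5) (nat_lit 323) (nat_lit 5) (nat_lit 324) (nat_lit 5) (nat_lit 431) (nat_lit 372) (nat_lit 337))))))) (XT.nd (nat_lit 858) (nat_lit 4636) (nat_lit 0) (XT.nd (nat_lit 390) (nat_lit 2736) (nat_lit 0) (XT.nd (nat_lit 156) (nat_lit 1520) (nat_lit 0) (XT.nd (nat_lit 78) (nat_lit 684) (nat_lit 0) (XT.lf (nat_lit 0) (nat_lit 633737824) (nat_lit 836) (nat_lit 608388134) (nat_lit 76) (nat_lit 6755816519) (nat_lit 312) (nat_lit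 5) (nat_lit 323) (nat_lit 5) (nat_lit 313) (nat_lit 5) (nat_lit 432) (nat_lit 372) (nat_lit 336)) (XT.lf (nat_lit 0) (nat_lit 3460752905) (nat_lit 760) (nat_lit 3211131186) (nat_lit 76) (nat_lit 1391595589) (nat_lit 303) (nat_lit 5) (nat_lit 313) (nat_lit 5) (nat_lit 304) (nat_lit 5) (nat_lit 433) (nat_lit 372) (nat_lit 335))) (XT.nd (nat_lit 78) (nat_lit 760) (nat_lit 0) (XT.lf (nat_lit 0) (nat_lit 2268764705) (nat_lit 760) (nat_lit 4056944223) (nat_lit 836) (nat_lit 1805006494) (nat_lit 293) (nat_lit 5) (nat_lit 303) (nat_lit 5) (nat_lit 304) (nat_lit 5) (nat_lit 434) (nat_lit 372) (nat_lit 334)) (XT.nd (nat_lit 78) (nat_lit 684) (nat_lit 0) (XT.lf (nat_lit 0) (nat_lit 1011179734) (nat_lit 836) (nat_lit 357338223) (nat_lit 76) (nat_lit 6831131642) (nat_lit 292) (nat_lit 5) (nat_lit 303) (nat_lit 5) (nat_lit 293) (nat_lit 5) (nat_lit 435) (nat_lit 372) (nat_lit 333)) (XT.lf (nat_lit 0) (nat_lit 3858347413) (nat_lit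 760) (nat_lit 3016955630) (nat_lit 76) (nat_lit 1394459154) (nat_lit 283) (nat_lit 5) (nat_lit 293) (nat_lit 5) (nat_lit 284) (nat_lit 5) (nat_lit 436) (nat_lit 372) (nat_lit 332))))) (XT.nd (nat_lit 234) (nat_lit 1368) (nat_lit 0) (XT.nd (nat_lit 78) (nat_lit 684) (nat_lit 0) (XT.lf (nat_lit 0) (nat_lit 2611173807) (nat_lit 684) (nat_lit 4135664316) (nat_lit 760) (nat_lit 1594765934) (nat_lit 274) (nat_lit 5) (nat_lit 283) (nat_lit 5) (nat_lit 284) (nat_lit 5) (nat_lit 437) (nat_lit 372) (nat_lit 331)) (XT.nd (nat_lit 78) (nat_lit 608) (nat_lit 0) (XT.lf (nat_lit 0) (nat_lit 1238001696) (nat_lit 760) (nat_lit 83161148) (nat_lit 76) (nat_lit 7094036968) (nat_lit 273) (nat_lit 5) (nat_lit 283) (nat_lit 5) (nat_lit 274) (nat_lit 5) (nat_lit 438) (nat_lit 372) (nat_lit 330)) (XT.lf (nat_lit 0) (nat_lit 4110375493) (nat_lit 684) (nat_lit 2811374233) (nat_lit 76) (nat_lit 1568234596) (nat_lit 265) (nat_lit 5) (nat_lit 274)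 (nat_lit 5) (nat_lit 266) (nat_lit 5) (nat_lit 439) (nat_lit 372) (nat_lit 329)))) (XT.nd (nat_lit 78) (nat_lit 684) (nat_lit 0) (XT.lf (nat_lit 0) (nat_lit 2968232931) (nat_lit 684) (nat_lit 4058024362) (nat_lit 760) (nat_lit 1540299509) (nat_lit 256) (nat_lit 5) (nat_lit 265) (nat_lit 5) (nat_lit 266) (nat_lit 5) (nat_lit 440) (nat_lit 372) (nat_lit 328)) (XT.nd (nat_lit 78) (nat_lit 0) (nat_lit 0) (XT.lf (nat_lit 0) (nat_lit 198266458) (nat_lit 608) (nat_lit 1117707868) (nat_lit 684) (nat_lit 7328964120) (nat_lit 247) (nat_lit 5) (nat_lit 255) (nat_lit 5) (nat_lit 256) (nat_lit 5) (nat_lit 441) (nat_lit 372) (nat_lit 327)) (XT.lf (nat_lit 0) (nat_lit 4216903999) (nat_lit 684) (nat_lit 2613224483) (nat_lit 76) (nat_lit 1894405227) (nat_lit 247) (nat_lit 5) (nat_lit 256) (nat_lit 5) (nat_lit 248) (nat_lit 5) (nat_lit 442) (nat_lit 372) (nat_lit 326)))))) (XT.nd (nat_lit 390) (nat_lit 2204) (nat_lit 0) (XT.nd (nat_lit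 156) (nat_lit 1216) (nat_lit 0) (XT.nd (nat_lit 78) (nat_lit 608) (nat_lit 0) (XT.lf (nat_lit 0) (nat_lit 3320987819) (nat_lit 608) (nat_lit 3842753840) (nat_lit 684) (nat_lit 1642233895) (nat_lit 239) (nat_lit 5) (nat_lit 247) (nat_lit 5) (nat_lit 248) (nat_lit 5) (nat_lit 443) (nat_lit 372) (nat_lit 325)) (XT.lf (nat_lit 0) (nat_lit 466023676) (nat_lit 532) (nat_lit 777444498) (nat_lit 608) (nat_lit 7645827930) (nat_lit 231) (nat_lit 5) (nat_lit 238) (nat_lit 5) (nat_lit 239) (nat_lit 5) (nat_lit 444) (nat_lit 372) (nat_lit 324))) (XT.nd (nat_lit 78) (nat_lit 1216) (nat_lit 0) (XT.lf (nat_lit 0) (nat_lit 4176722415) (nat_lit 608) (nat_lit 2442184916) (nat_lit 76) (nat_lit 2354933821) (nat_lit 231) (nat_lit 5) (nat_lit 239) (nat_lit 5) (nat_lit 232) (nat_lit 5) (nat_lit 445) (nat_lit 372) (nat_lit 323)) (XT.nd (nat_lit 78) (nat_lit 608) (nat_lit 0) (XT.lf (nat_lit 0) (nat_lit 3649601763) (nat_lit 608) (nat_lit 3508182094)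 (nat_lit 684) (nat_lit 1902521917) (nat_lit 223) (nat_lit 5) (nat_lit 231) (nat_lit 5) (nat_lit 232) (nat_lit 5) (nat_lit 446) (nat_lit 372) (nat_lit 322)) (XT.lf (nat_lit 0) (nat_lit 698557034) (nat_lit 532) (nat_lit 319143803) (nat_lit 608) (nat_lit 8131043487) (nat_lit 215) (nat_lit 5) (nat_lit 222) (nat_lit 5) (nat_lit 223) (nat_lit 5) (nat_lit 447) (nat_lit 372) (nat_lit 321))))) (XT.nd (nat_lit 234) (nat_lit 1064) (nat_lit 0) (XT.nd (nat_lit 78) (nat_lit 1140) (nat_lit 0) (XT.lf (nat_lit 0) (nat_lit 3987305870) (nat_lit 608) (nat_lit 2318972735) (nat_lit 76) (nat_lit 2932103323) (nat_lit 215) (nat_lit 5) (nat_lit 223) (nat_lit 5) (nat_lit 216) (nat_lit 5) (nat_lit 448) (nat_lit 372) (nat_lit 320)) (XT.nd (nat_lit 78) (nat_lit 608) (nat_lit 0) (XT.lf (nat_lit 0) (nat_lit 3933153474) (nat_lit 532) (nat_lit 3072399988) (nat_lit 608) (nat_lit 2324484453) (nat_lit 208) (nat_lit 5) (nat_lit 215) (nat_lit 5) (nat_lit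 216) (nat_lit 5) (nat_lit 449) (nat_lit 372) (nat_lit 319)) (XT.lf (nat_lit 0) (nat_lit 636629539) (nat_lit 608) (nat_lit 8551092790) (nat_lit 76) (nat_lit 236036031) (nat_lit 200) (nat_lit 5) (nat_lit 208) (nat_lit 5) (nat_lit 201) (nat_lit 5) (nat_lit 450) (nat_lit 372) (nat_lit 318)))) (XT.nd (nat_lit 78) (nat_lit 1064) (nat_lit 0) (XT.lf (nat_lit 0) (nat_lit 3644766882) (nat_lit 608) (nat_lit 2265554457) (nat_lit 76) (nat_lit 3608356084) (nat_lit 200) (nat_lit 5) (nat_lit 208) (nat_lit 5) (nat_lit 201) (nat_lit 5) (nat_lit 451) (nat_lit 372) (nat_lit 317)) (XT.nd (nat_lit 78) (nat_lit 532) (nat_lit 0) (XT.lf (nat_lit 0) (nat_lit 4149421385) (nat_lit 532) (nat_lit 2553423663) (nat_lit 608) (nat_lit 2912864086) (nat_lit 193) (nat_lit 5) (nat_lit 200) (nat_lit 5) (nat_lit 201) (nat_lit 5) (nat_lit 452) (nat_lit 372) (nat_lit 316)) (XT.lf (nat_lit 0) (nat_lit 96293310) (nat_lit 532) (nat_lit 8750602629) (nat_lit 76)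 (nat_lit 867975065) (nat_lit 186) (nat_lit 5) (nat_lit 193) (nat_lit 5) (nat_lit 187) (nat_lit 5) (nat_lit 453) (nat_lit 372) (nat_lit 315))))))))
noncomputable def xc72 : XT := (XT.nd (nat_lit 1638) (nat_lit 4180) (nat_lit 0) (XT.nd (nat_lit 780) (nat_lit 2812) (nat_lit 0) (XT.nd (nat_lit 390) (nat_lit 1368) (nat_lit 0) (XT.nd (nat_lit 156) (nat_lit 988) (nat_lit 0) (XT.nd (nat_lit 78) (nat_lit 456) (nat_lit 0) (XT.lf (nat_lit 0) (nat_lit 3143795171) (nat_lit 532) (nat_lit 2305371542) (nat_lit 76) (nat_lit 4366130289) (nat_lit 186) (nat_lit 5) (nat_lit 193) (nat_lit 5) (nat_lit 187) (nat_lit 5) (nat_lit 454) (nat_lit 372) (nat_lit 314)) (XT.lf (nat_lit 0) (nat_lit 4274652346) (nat_lit 456) (nat_lit 1969361763) (nat_lit 532) (nat_lit 3673891148) (nat_lit 180) (nat_lit 5) (nat_lit 186) (nat_lit 5) (nat_lit 187) (nat_lit 5) (nat_lit 455) (nat_lit 372) (nat_lit 313))) (XT.nd (nat_lit 78) (nat_lit 532) (nat_lit 0) (XT.lf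 (nat_lit 0) (nat_lit 946854302) (nat_lit 456) (nat_lit 8455664809) (nat_lit 532) (nat_lit 620129834) (nat_lit 174) (nat_lit 5) (nat_lit 180) (nat_lit 5) (nat_lit 181) (nat_lit 5) (nat_lit 456) (nat_lit 372) (nat_lit 312)) (XT.nd (nat_lit 78) (nat_lit 456) (nat_lit 0) (XT.lf (nat_lit 0) (nat_lit 2477584863) (nat_lit 532) (nat_lit 2463583140) (nat_lit 76) (nat_lit 5187692179) (nat_lit 173) (nat_lit 5) (nat_lit 180) (nat_lit 5) (nat_lit 174) (nat_lit 5) (nat_lit 457) (nat_lit 372) (nat_lit 311)) (XT.lf (nat_lit 0) (nat_lit 4283312536) (nat_lit 456) (nat_lit 1338587577) (nat_lit 532) (nat_lit 4615362941) (nat_lit 167) (nat_lit 5) (nat_lit 173) (nat_lit 5) (nat_lit 174) (nat_lit 5) (nat_lit 458) (nat_lit 372) (nat_lit 310))))) (XT.nd (nat_lit 156) (nat_lit 912) (nat_lit 0) (XT.nd (nat_lit 78) (nat_lit 76) (nat_lit 0) (XT.lf (nat_lit 0) (nat_lit 796298895) (nat_lit 380) (nat_lit 8035180871) (nat_lit 456) (nat_lit 1516314879)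 (nat_lit 162) (nat_lit 5) (nat_lit 167) (nat_lit 5) (nat_lit 168) (nat_lit 5) (nat_lit 459) (nat_lit 372) (nat_lit 309)) (XT.lf (nat_lit 0) (nat_lit 1637748221) (nat_lit 456) (nat_lit 2767328266) (nat_lit 76) (nat_lit 6054962617) (nat_lit 161) (nat_lit 5) (nat_lit 167) (nat_lit 5) (nat_lit 162) (nat_lit 5) (nat_lit 460) (nat_lit 372) (nat_lit 308))) (XT.nd (nat_lit 78) (nat_lit 456) (nat_lit 0) (XT.lf (nat_lit 0) (nat_lit 4147818212) (nat_lit 456) (nat_lit 679917579) (nat_lit 532) (nat_lit 5746737021) (nat_lit 155) (nat_lit 5) (nat_lit 161) (nat_lit 5) (nat_lit 162) (nat_lit 5) (nat_lit 461) (nat_lit 372) (nat_lit 307)) (XT.nd (nat_lit 78) (nat_lit 76) (nat_lit 0) (XT.lf (nat_lit 0) (nat_lit 484616454) (nat_lit 380) (nat_lit 7605446194) (nat_lit 456) (nat_lit 2600969353) (nat_lit 150) (nat_lit 5) (nat_lit 155) (nat_lit 5) (nat_lit 156) (nat_lit 5) (nat_lit 462) (nat_lit 372) (nat_lit 306)) (XT.lf (nat_lit 0) (nat_lit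 614214962) (nat_lit 456) (nat_lit 3246009902) (nat_lit 76) (nat_lit 6949336465) (nat_lit 149) (nat_lit 5) (nat_lit 155) (nat_lit 5) (nat_lit 150) (nat_lit 5) (nat_lit 463) (nat_lit 372) (nat_lit 305)))))) (XT.nd (nat_lit 390) (nat_lit 1596) (nat_lit 0) (XT.nd (nat_lit 156) (nat_lit 836) (nat_lit 0) (XT.nd (nat_lit 78) (nat_lit 0) (nat_lit 0) (XT.lf (nat_lit 0) (nat_lit 3838243709) (nat_lit 380) (nat_lit 12797963) (nat_lit 456) (nat_lit 7079239569) (nat_lit 144) (nat_lit 5) (nat_lit 149) (nat_lit 5) (nat_lit 150) (nat_lit 5) (nat_lit 464) (nat_lit 372) (nat_lit 304)) (XT.lf (nat_lit 0) (nat_lit 7167369175) (nat_lit 456) (nat_lit 19047565) (nat_lit 76) (nat_lit 3866710542) (nat_lit 144) (nat_lit 5) (nat_lit 150) (nat_lit 5) (nat_lit 145) (nat_lit 5) (nat_lit 465) (nat_lit 372) (nat_lit 303))) (XT.nd (nat_lit 78) (nat_lit 456) (nat_lit 0) (XT.lf (nat_lit 0) (nat_lit 7242550121) (nat_lit 380) (nat_lit 3322660727) (nat_lit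 456) (nat_lit 612922528) (nat_lit 139) (nat_lit 5) (nat_lit 144) (nat_lit 5) (nat_lit 145) (nat_lit 5) (nat_lit 466) (nat_lit 372) (nat_lit 302)) (XT.nd (nat_lit 78) (nat_lit 0) (nat_lit 0) (XT.lf (nat_lit 0) (nat_lit 2683676256) (nat_lit 456) (nat_lit 7987662380) (nat_lit 76) (nat_lit 634072665) (nat_lit 133) (nat_lit 5) (nat_lit 139) (nat_lit 5) (nat_lit 134) (nat_lit 5) (nat_lit 467) (nat_lit 372) (nat_lit 301)) (XT.lf (nat_lit 0) (nat_lit 6054989042) (nat_lit 456) (nat_lit 739536710) (nat_lit 76) (nat_lit 4640294709) (nat_lit 133) (nat_lit 5) (nat_lit 139) (nat_lit 5) (nat_lit 134) (nat_lit 5) (nat_lit 468) (nat_lit 372) (nat_lit 300))))) (XT.nd (nat_lit 234) (nat_lit 760) (nat_lit 0) (XT.nd (nat_lit 78) (nat_lit 456) (nat_lit 0) (XT.lf (nat_lit 0) (nat_lit 6694202670) (nat_lit 380) (nat_lit 2812000652) (nat_lit 456) (nat_lit 2060371331) (nat_lit 128) (nat_lit 5) (nat_lit 133) (nat_lit 5) (nat_lit 134) (nat_lit 5)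 (nat_lit 469) (nat_lit 372) (nat_lit 299)) (XT.nd (nat_lit 78) (nat_lit 0) (nat_lit 0) (XT.lf (nat_lit 0) (nat_lit 1307050884) (nat_lit 456) (nat_lit 9145686166) (nat_lit 76) (nat_lit 1248081737) (nat_lit 122) (nat_lit 5) (nat_lit 128) (nat_lit 5) (nat_lit 123) (nat_lit 5) (nat_lit 470) (nat_lit 372) (nat_lit 298)) (XT.lf (nat_lit 0) (nat_lit 4735095255) (nat_lit 456) (nat_lit 1719796004) (nat_lit 76) (nat_lit 5382172912) (nat_lit 122) (nat_lit 5) (nat_lit 128) (nat_lit 5) (nat_lit 123) (nat_lit 5) (nat_lit 471) (nat_lit 372) (nat_lit 297)))) (XT.nd (nat_lit 78) (nat_lit 456) (nat_lit 0) (XT.lf (nat_lit 0) (nat_lit 5885277021) (nat_lit 304) (nat_lit 2354537615) (nat_lit 380) (nat_lit 3736063416) (nat_lit 118) (nat_lit 5) (nat_lit 122) (nat_lit 5) (nat_lit 123) (nat_lit 5) (nat_lit 472) (nat_lit 372) (nat_lit 296)) (XT.nd (nat_lit 78) (nat_lit 76) (nat_lit 0) (XT.lf (nat_lit 0) (nat_lit 1509671436) (nat_lit 380) (nat_lit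 10308329907) (nat_lit 456) (nat_lit 299405167) (nat_lit 113) (nat_lit 5) (nat_lit 118) (nat_lit 5) (nat_lit 119) (nat_lit 5) (nat_lit 473) (nat_lit 372) (nat_lit 295)) (XT.lf (nat_lit 0) (nat_lit 3190843949) (nat_lit 456) (nat_lit 2999923441) (nat_lit 76) (nat_lit 6070049278) (nat_lit 112) (nat_lit 5) (nat_lit 118) (nat_lit 5) (nat_lit 113) (nat_lit 5) (nat_lit 474) (nat_lit 372) (nat_lit 294))))))) (XT.nd (nat_lit 858) (nat_lit 1900) (nat_lit 0) (XT.nd (nat_lit 390) (nat_lit 1292) (nat_lit 0) (XT.nd (nat_lit 156) (nat_lit 380) (nat_lit 0) (XT.nd (nat_lit 78) (nat_lit 304) (nat_lit 0) (XT.lf (nat_lit 0) (nat_lit 4774796316) (nat_lit 304) (nat_lit 1973852506) (nat_lit 380) (nat_lit 5658376854) (nat_lit 108) (nat_lit 5) (nat_lit 112) (nat_lit 5) (nat_lit 113) (nat_lit 5) (nat_lit 475) (nat_lit 372) (nat_lit 293)) (XT.lf (nat_lit 0) (nat_lit 130321328) (nat_lit 304) (nat_lit 10254434493) (nat_lit 380) (nat_lit 2171265441)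 (nat_lit 104) (nat_lit 5) (nat_lit 108) (nat_lit 5) (nat_lit 109) (nat_lit 5) (nat_lit 476) (nat_lit 372) (nat_lit 292))) (XT.nd (nat_lit 78) (nat_lit 304) (nat_lit 0) (XT.lf (nat_lit 0) (nat_lit 1403044886) (nat_lit 380) (nat_lit 4623949668) (nat_lit 76) (nat_lit 6680114819) (nat_lit 103) (nat_lit 5) (nat_lit 108) (nat_lit 5) (nat_lit 104) (nat_lit 5) (nat_lit 477) (nat_lit 372) (nat_lit 291)) (XT.nd (nat_lit 78) (nat_lit 0) (nat_lit 0) (XT.lf (nat_lit 0) (nat_lit 3317723877) (nat_lit 304) (nat_lit 1695182536) (nat_lit 380) (nat_lit 7848168039) (nat_lit 99) (nat_lit 5) (nat_lit 103) (nat_lit 5) (nat_lit 104) (nat_lit 5) (nat_lit 478) (nat_lit 372) (nat_lit 290)) (XT.lf (nat_lit 0) (nat_lit 8715607891) (nat_lit 380) (nat_lit 1599881835) (nat_lit 76) (nat_lit 2702221164) (nat_lit 99) (nat_lit 5) (nat_lit 104) (nat_lit 5) (nat_lit 100) (nat_lit 5) (nat_lit 479) (nat_lit 372) (nat_lit 289))))) (XT.nd (nat_lit 234) (nat_lit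 608) (nat_lit 0) (XT.nd (nat_lit 78) (nat_lit 380) (nat_lit 0) (XT.lf (nat_lit 0) (nat_lit 6532387064) (nat_lit 304) (nat_lit 5985896520) (nat_lit 380) (nat_lit 658682889) (nat_lit 95) (nat_lit 5) (nat_lit 99) (nat_lit 5) (nat_lit 100) (nat_lit 5) (nat_lit 480) (nat_lit 372) (nat_lit 288)) (XT.nd (nat_lit 78) (nat_lit 0) (nat_lit 0) (XT.lf (nat_lit 0) (nat_lit 1464484112) (nat_lit 304) (nat_lit 1545687083) (nat_lit 380) (nat_lit 10328990228) (nat_lit 90) (nat_lit 5) (nat_lit 94) (nat_lit 5) (nat_lit 95) (nat_lit 5) (nat_lit 481) (nat_lit 372) (nat_lit 287)) (XT.lf (nat_lit 0) (nat_lit 6780340283) (nat_lit 380) (nat_lit 3746682469) (nat_lit 76) (nat_lit 2976759831) (nat_lit 90) (nat_lit 5) (nat_lit 95) (nat_lit 5) (nat_lit 91) (nat_lit 5) (nat_lit 482) (nat_lit 372) (nat_lit 286)))) (XT.nd (nat_lit 78) (nat_lit 304) (nat_lit 0) (XT.lf (nat_lit 0) (nat_lit 4549435207) (nat_lit 304) (nat_lit 6089286921) (nat_lit 380) (nat_lit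 3032722300) (nat_lit 86) (nat_lit 5) (nat_lit 90) (nat_lit 5) (nat_lit 91) (nat_lit 5) (nat_lit 483) (nat_lit 372) (nat_lit 285)) (XT.nd (nat_lit 78) (nat_lit 228) (nat_lit 0) (XT.lf (nat_lit 0) (nat_lit 720622584) (nat_lit 380) (nat_lit 828552630) (nat_lit 76) (nat_lit 12293225380) (nat_lit 85) (nat_lit 5) (nat_lit 90) (nat_lit 5) (nat_lit 86) (nat_lit 5) (nat_lit 484) (nat_lit 372) (nat_lit 284)) (XT.lf (nat_lit 0) (nat_lit 4552241104) (nat_lit 304) (nat_lit 6368093643) (nat_lit 76) (nat_lit 3095168106) (nat_lit 82) (nat_lit 5) (nat_lit 86) (nat_lit 5) (nat_lit 83) (nat_lit 5) (nat_lit 485) (nat_lit 372) (nat_lit 283)))))) (XT.nd (nat_lit 390) (nat_lit 1064) (nat_lit 0) (XT.nd (nat_lit 156) (nat_lit 532) (nat_lit 0) (XT.nd (nat_lit 78) (nat_lit 0) (nat_lit 0) (XT.lf (nat_lit 0) (nat_lit 2086013598) (nat_lit 304) (nat_lit 6377636617) (nat_lit 380) (nat_lit 5728357890) (nat_lit 78) (nat_lit 5) (nat_lit 82) (nat_lit 5)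 (nat_lit 83) (nat_lit 5) (nat_lit 486) (nat_lit 372) (nat_lit 282)) (XT.lf (nat_lit 0) (nat_lit 10752594309) (nat_lit 304) (nat_lit 1717420429) (nat_lit 380) (nat_lit 1901698209) (nat_lit 78) (nat_lit 5) (nat_lit 82) (nat_lit 5) (nat_lit 83) (nat_lit 5) (nat_lit 487) (nat_lit 372) (nat_lit 281))) (XT.nd (nat_lit 78) (nat_lit 228) (nat_lit 0) (XT.lf (nat_lit 0) (nat_lit 2002258605) (nat_lit 304) (nat_lit 9526244052) (nat_lit 76) (nat_lit 3025712926) (nat_lit 74) (nat_lit 5) (nat_lit 78) (nat_lit 5) (nat_lit 75) (nat_lit 5) (nat_lit 488) (nat_lit 372) (nat_lit 280)) (XT.nd (nat_lit 78) (nat_lit 228) (nat_lit 0) (XT.lf (nat_lit 0) (nat_lit 5969127532) (nat_lit 304) (nat_lit 909507440) (nat_lit 76) (nat_lit 7861279760) (nat_lit 74) (nat_lit 5) (nat_lit 78) (nat_lit 5) (nat_lit 75) (nat_lit 5) (nat_lit 489) (nat_lit 372) (nat_lit 279)) (XT.lf (nat_lit 0) (nat_lit 7942001152) (nat_lit 228) (nat_lit 2099850601) (nat_lit 304)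 (nat_lit 4886949477) (nat_lit 71) (nat_lit 5) (nat_lit 74) (nat_lit 5) (nat_lit 75) (nat_lit 5) (nat_lit 490) (nat_lit 372) (nat_lit 278))))) (XT.nd (nat_lit 234) (nat_lit 532) (nat_lit 0) (XT.nd (nat_lit 78) (nat_lit 304) (nat_lit 0) (XT.lf (nat_lit 0) (nat_lit 1825572231) (nat_lit 228) (nat_lit 12381535943) (nat_lit 304) (nat_lit 914139380) (nat_lit 68) (nat_lit 5) (nat_lit 71) (nat_lit 5) (nat_lit 72) (nat_lit 5) (nat_lit 491) (nat_lit 372) (nat_lit 277)) (XT.nd (nat_lit 78) (nat_lit 228) (nat_lit 0) (XT.lf (nat_lit 0) (nat_lit 3133190763) (nat_lit 304) (nat_lit 4484196929) (nat_lit 76) (nat_lit 7699026708) (nat_lit 67) (nat_lit 5) (nat_lit 71) (nat_lit 5) (nat_lit 68) (nat_lit 5) (nat_lit 492) (nat_lit 372) (nat_lit 276)) (XT.lf (nat_lit 0) (nat_lit 4515601494) (nat_lit 228) (nat_lit 2738562317) (nat_lit 304) (nat_lit 8261104630) (nat_lit 64) (nat_lit 5) (nat_lit 67) (nat_lit 5) (nat_lit 68) (nat_lit 5) (nat_lit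 493) (nat_lit 372) (nat_lit 275)))) (XT.nd (nat_lit 78) (nat_lit 532) (nat_lit 0) (XT.lf (nat_lit 0) (nat_lit 11478088745) (nat_lit 304) (nat_lit 2017233512) (nat_lit 76) (nat_lit 2222370029) (nat_lit 64) (nat_lit 5) (nat_lit 68) (nat_lit 5) (nat_lit 65) (nat_lit 5) (nat_lit 494) (nat_lit 372) (nat_lit 274)) (XT.nd (nat_lit 78) (nat_lit 304) (nat_lit 0) (XT.lf (nat_lit 0) (nat_lit 7180506330) (nat_lit 228) (nat_lit 8646931146) (nat_lit 304) (nat_lit 95911534) (nat_lit 61) (nat_lit 5) (nat_lit 64) (nat_lit 5) (nat_lit 65) (nat_lit 5) (nat_lit 495) (nat_lit 372) (nat_lit 273)) (XT.lf (nat_lit 0) (nat_lit 394529638) (nat_lit 228) (nat_lit 3674373727) (nat_lit 304) (nat_lit 12063833837) (nat_lit 57) (nat_lit 5) (nat_lit 60) (nat_lit 5) (nat_lit 61) (nat_lit 5) (nat_lit 496) (nat_lit 372) (nat_lit 272))))))))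
noncomputable def xc73 : XT := (XT.nd (nat_lit 52260) (nat_lit 0) (nat_lit 22952) (XT.nd (nat_lit 51402) (nat_lit 0) (nat_lit 41192) (XT.nd (nat_lit 390) (nat_lit 608) (nat_lit 0) (XT.nd (nat_lit 156) (nat_lit 304) (nat_lit 0) (XT.nd (nat_lit 78) (nat_lit 152) (nat_lit 0) (XT.lf (nat_lit 0) (nat_lit 8360196283) (nat_lit 304) (nat_lit 6562610452) (nat_lit 76) (nat_lit 1422607540) (nat_lit 57) (nat_lit 5) (nat_lit 61) (nat_lit 5) (nat_lit 58) (nat_lit 5) (nat_lit 497) (nat_lit 372) (nat_lit 271)) (XT.lf (nat_lit 0) (nat_lit 2768738755) (nat_lit 152) (nat_lit 9987683242) (nat_lit 228) (nat_lit 3805543809) (nat_lit 55) (nat_lit 5) (nat_lit 57) (nat_lit 5) (nat_lit 58) (nat_lit 5) (nat_lit 498) (nat_lit 372) (nat_lit 270))) (XT.nd (nat_lit 78) (nat_lit 228) (nat_lit 0) (XT.lf (nat_lit 0) (nat_lit 472891141) (nat_lit 228) (nat_lit 4449346263) (nat_lit 76) (nat_lit 11860131055) (nat_lit 54) (nat_lit 5) (nat_lit 57) (nat_lit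 5) (nat_lit 55) (nat_lit 5) (nat_lit 499) (nat_lit 372) (nat_lit 269)) (XT.nd (nat_lit 78) (nat_lit 0) (nat_lit 0) (XT.lf (nat_lit 0) (nat_lit 4798155632) (nat_lit 304) (nat_lit 11924461212) (nat_lit 76) (nat_lit 283817764) (nat_lit 51) (nat_lit 5) (nat_lit 55) (nat_lit 5) (nat_lit 52) (nat_lit 5) (nat_lit 500) (nat_lit 372) (nat_lit 268)) (XT.lf (nat_lit 0) (nat_lit 9249960686) (nat_lit 304) (nat_lit 2442047625) (nat_lit 76) (nat_lit 5542175888) (nat_lit 51) (nat_lit 5) (nat_lit 55) (nat_lit 5) (nat_lit 52) (nat_lit 5) (nat_lit 501) (nat_lit 372) (nat_lit 267))))) (XT.nd (nat_lit 234) (nat_lit 152) (nat_lit 0) (XT.nd (nat_lit 78) (nat_lit 304) (nat_lit 0) (XT.lf (nat_lit 0) (nat_lit 7287255674) (nat_lit 152) (nat_lit 6528685830) (nat_lit 228) (nat_lit 3650047251) (nat_lit 49) (nat_lit 5) (nat_lit 51) (nat_lit 5) (nat_lit 52) (nat_lit 5) (nat_lit 502) (nat_lit 372) (nat_lit 266)) (XT.nd (nat_lit 78) (nat_lit 228) (nat_lit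 0) (XT.lf (nat_lit 0) (nat_lit 755064371) (nat_lit 228) (nat_lit 501344029) (nat_lit 76) (nat_lit 16446036346) (nat_lit 48) (nat_lit 5) (nat_lit 51) (nat_lit 5) (nat_lit 49) (nat_lit 5) (nat_lit 503) (nat_lit 372) (nat_lit 265)) (XT.lf (nat_lit 0) (nat_lit 5266205060) (nat_lit 304) (nat_lit 8538087215) (nat_lit 76) (nat_lit 4137521634) (nat_lit 45) (nat_lit 5) (nat_lit 49) (nat_lit 5) (nat_lit 46) (nat_lit 5) (nat_lit 504) (nat_lit 372) (nat_lit 264)))) (XT.nd (nat_lit 78) (nat_lit 0) (nat_lit 0) (XT.lf (nat_lit 0) (nat_lit 1298775528) (nat_lit 152) (nat_lit 8567311799) (nat_lit 228) (nat_lit 8319915307) (nat_lit 43) (nat_lit 5) (nat_lit 45) (nat_lit 5) (nat_lit 46) (nat_lit 5) (nat_lit 505) (nat_lit 372) (nat_lit 263)) (XT.nd (nat_lit 50622) (nat_lit 0) (nat_lit 47424) (XT.lf (nat_lit 0) (nat_lit 11410652824) (nat_lit 152) (nat_lit 3183169315) (nat_lit 228) (nat_lit 3840538405) (nat_lit 43) (nat_lit 5) (nat_lit 45)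 (nat_lit 5) (nat_lit 46) (nat_lit 5) (nat_lit 506) (nat_lit 372) (nat_lit 262)) (XT.lf (nat_lit 0) (nat_lit 1492118279) (nat_lit 532) (nat_lit 888318133) (nat_lit 532) (nat_lit 888318133) (nat_lit 667) (nat_lit 4) (nat_lit 674) (nat_lit 5) (nat_lit 674) (nat_lit 4) (nat_lit 394) (nat_lit 373) (nat_lit 373)))))) (XT.nd (nat_lit 390) (nat_lit 3952) (nat_lit 0) (XT.nd (nat_lit 156) (nat_lit 1596) (nat_lit 0) (XT.nd (nat_lit 78) (nat_lit 0) (nat_lit 0) (XT.lf (nat_lit 0) (nat_lit 249781072) (nat_lit 608) (nat_lit 1114080385) (nat_lit 684) (nat_lit 5188086091) (nat_lit 658) (nat_lit 5) (nat_lit 666) (nat_lit 5) (nat_lit 667) (nat_lit 4) (nat_lit 395) (nat_lit 373) (nat_lit 372)) (XT.lf (nat_lit 0) (nat_lit 4114410460) (nat_lit 608) (nat_lit 378523531) (nat_lit 684) (nat_lit 2074559096) (nat_lit 658) (nat_lit 5) (nat_lit 666) (nat_lit 5) (nat_lit 667) (nat_lit 4) (nat_lit 396) (nat_lit 373) (nat_lit 371))) (XT.nd (nat_lit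 78) (nat_lit 836) (nat_lit 0) (XT.lf (nat_lit 0) (nat_lit 1025469933) (nat_lit 760) (nat_lit 5153310112) (nat_lit 76) (nat_lit 405695548) (nat_lit 648) (nat_lit 5) (nat_lit 658) (nat_lit 5) (nat_lit 649) (nat_lit 4) (nat_lit 397) (nat_lit 373) (nat_lit 370)) (XT.nd (nat_lit 78) (nat_lit 836) (nat_lit 0) (XT.lf (nat_lit 0) (nat_lit 4106771462) (nat_lit 760) (nat_lit 1243516203) (nat_lit 76) (nat_lit 1252336533) (nat_lit 648) (nat_lit 5) (nat_lit 658) (nat_lit 5) (nat_lit 649) (nat_lit 4) (nat_lit 398) (nat_lit 373) (nat_lit 369)) (XT.lf (nat_lit 0) (nat_lit 567008603) (nat_lit 836) (nat_lit 3896720626) (nat_lit 76) (nat_lit 2158431236) (nat_lit 637) (nat_lit 5) (nat_lit 648) (nat_lit 5) (nat_lit 638) (nat_lit 5) (nat_lit 399) (nat_lit 373) (nat_lit 368))))) (XT.nd (nat_lit 234) (nat_lit 2128) (nat_lit 0) (XT.nd (nat_lit 78) (nat_lit 988) (nat_lit 0) (XT.lf (nat_lit 0) (nat_lit 81537554) (nat_lit 836) (nat_lit 3515046142)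 (nat_lit 912) (nat_lit 3046435594) (nat_lit 626) (nat_lit 5) (nat_lit 637) (nat_lit 5) (nat_lit 638) (nat_lit 5) (nat_lit 400) (nat_lit 373) (nat_lit 367)) (XT.nd (nat_lit 78) (nat_lit 988) (nat_lit 0) (XT.lf (nat_lit 0) (nat_lit 4140863465) (nat_lit 836) (nat_lit 2502992334) (nat_lit 912) (nat_lit 21335918) (nat_lit 626) (nat_lit 5) (nat_lit 637) (nat_lit 5) (nat_lit 638) (nat_lit 5) (nat_lit 401) (nat_lit 373) (nat_lit 366)) (XT.lf (nat_lit 0) (nat_lit 1542649870) (nat_lit 912) (nat_lit 1423268086) (nat_lit 988) (nat_lit 3722691959) (nat_lit 613) (nat_lit 5) (nat_lit 625) (nat_lit 5) (nat_lit 626) (nat_lit 5) (nat_lit 402) (nat_lit 373) (nat_lit 365)))) (XT.nd (nat_lit 78) (nat_lit 2128) (nat_lit 0) (XT.lf (nat_lit 0) (nat_lit 5674124206) (nat_lit 912) (nat_lit 288276794) (nat_lit 988) (nat_lit 751133570) (nat_lit 613) (nat_lit 5) (nat_lit 625) (nat_lit 5) (nat_lit 626) (nat_lit 5) (nat_lit 403) (nat_lit 373) (nat_lit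 364)) (XT.nd (nat_lit 78) (nat_lit 1064) (nat_lit 0) (XT.lf (nat_lit 0) (nat_lit 2209896739) (nat_lit 1064) (nat_lit 3620983252) (nat_lit 76) (nat_lit 908617754) (nat_lit 599) (nat_lit 5) (nat_lit 613) (nat_lit 5) (nat_lit 600) (nat_lit 5) (nat_lit 404) (nat_lit 373) (nat_lit 363)) (XT.lf (nat_lit 0) (nat_lit 556273353) (nat_lit 1064) (nat_lit 4611113675) (nat_lit 1140) (nat_lit 1599582134) (nat_lit 585) (nat_lit 5) (nat_lit 599) (nat_lit 5) (nat_lit 600) (nat_lit 5) (nat_lit 405) (nat_lit 373) (nat_lit 362))))))) (XT.nd (nat_lit 858) (nat_lit 8284) (nat_lit 0) (XT.nd (nat_lit 390) (nat_lit 6156) (nat_lit 0) (XT.nd (nat_lit 156) (nat_lit 2584) (nat_lit 0) (XT.nd (nat_lit 78) (nat_lit 1140) (nat_lit 0) (XT.lf (nat_lit 0) (nat_lit 1330510410) (nat_lit 1140) (nat_lit 1990016172) (nat_lit 76) (nat_lit 3475122127) (nat_lit 584) (nat_lit 5) (nat_lit 599) (nat_lit 5) (nat_lit 585) (nat_lit 5) (nat_lit 406) (nat_lit 373) (nat_lit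 361)) (XT.lf (nat_lit 0) (nat_lit 2282963370) (nat_lit 1140) (nat_lit 1966166686) (nat_lit 1216) (nat_lit 2576565696) (nat_lit 569) (nat_lit 5) (nat_lit 584) (nat_lit 5) (nat_lit 585) (nat_lit 5) (nat_lit 407) (nat_lit 373) (nat_lit 360))) (XT.nd (nat_lit 78) (nat_lit 2508) (nat_lit 0) (XT.lf (nat_lit 0) (nat_lit 315339741) (nat_lit 1216) (nat_lit 242180229) (nat_lit 76) (nat_lit 6299798520) (nat_lit 568) (nat_lit 5) (nat_lit 584) (nat_lit 5) (nat_lit 569) (nat_lit 5) (nat_lit 408) (nat_lit 373) (nat_lit 359)) (XT.nd (nat_lit 78) (nat_lit 1292) (nat_lit 0) (XT.lf (nat_lit 0) (nat_lit 3201707778) (nat_lit 1292) (nat_lit 2765512630) (nat_lit 76) (nat_lit 922620544) (nat_lit 552) (nat_lit 5) (nat_lit 569) (nat_lit 5) (nat_lit 553) (nat_lit 5) (nat_lit 409) (nat_lit 373) (nat_lit 358)) (XT.lf (nat_lit 0) (nat_lit 1624114160) (nat_lit 1292) (nat_lit 4476716076) (nat_lit 1368) (nat_lit 823112874) (nat_lit 535) (nat_lit 5)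 (nat_lit 552) (nat_lit 5) (nat_lit 553) (nat_lit 5) (nat_lit 410) (nat_lit 373) (nat_lit 357))))) (XT.nd (nat_lit 234) (nat_lit 3192) (nat_lit 0) (XT.nd (nat_lit 78) (nat_lit 2888) (nat_lit 0) (XT.lf (nat_lit 0) (nat_lit 2029943296) (nat_lit 1368) (nat_lit 885529419) (nat_lit 76) (nat_lit 4043845299) (nat_lit 534) (nat_lit 5) (nat_lit 552) (nat_lit 5) (nat_lit 535) (nat_lit 5) (nat_lit 411) (nat_lit 373) (nat_lit 356)) (XT.nd (nat_lit 78) (nat_lit 1520) (nat_lit 0) (XT.lf (nat_lit 0) (nat_lit 3607504707) (nat_lit 1368) (nat_lit 1285737612) (nat_lit 1444) (nat_lit 2102793288) (nat_lit 516) (nat_lit 5) (nat_lit 534) (nat_lit 5) (nat_lit 535) (nat_lit 5) (nat_lit 412) (nat_lit 373) (nat_lit 355)) (XT.lf (nat_lit 0) (nat_lit 727181669) (nat_lit 1520) (nat_lit 5910111762) (nat_lit 76) (nat_lit 396977856) (nat_lit 496) (nat_lit 5) (nat_lit 516) (nat_lit 5) (nat_lit 497) (nat_lit 5) (nat_lit 413) (nat_lit 373) (nat_lit 354))))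 (XT.nd (nat_lit 78) (nat_lit 3192) (nat_lit 0) (XT.lf (nat_lit 0) (nat_lit 3559077162) (nat_lit 1520) (nat_lit 1375142536) (nat_lit 76) (nat_lit 2139330896) (nat_lit 496) (nat_lit 5) (nat_lit 516) (nat_lit 5) (nat_lit 497) (nat_lit 5) (nat_lit 414) (nat_lit 373) (nat_lit 353)) (XT.nd (nat_lit 78) (nat_lit 1672) (nat_lit 0) (XT.lf (nat_lit 0) (nat_lit 3241300398) (nat_lit 1520) (nat_lit 3170538057) (nat_lit 1596) (nat_lit 702518406) (nat_lit 476) (nat_lit 5) (nat_lit 496) (nat_lit 5) (nat_lit 497) (nat_lit 5) (nat_lit 415) (nat_lit 373) (nat_lit 352)) (XT.lf (nat_lit 0) (nat_lit 756547627) (nat_lit 1596) (nat_lit 1338493305) (nat_lit 1672) (nat_lit 5061526659) (nat_lit 454) (nat_lit 5) (nat_lit 475) (nat_lit 5) (nat_lit 476) (nat_lit 5) (nat_lit 416) (nat_lit 373) (nat_lit 351)))))) (XT.nd (nat_lit 390) (nat_lit 3572) (nat_lit 0) (XT.nd (nat_lit 156) (nat_lit 2964) (nat_lit 0) (XT.nd (nat_lit 78) (nat_lit 1748) (nat_lit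 0) (XT.lf (nat_lit 0) (nat_lit 4913120575) (nat_lit 1672) (nat_lit 1729115347) (nat_lit 76) (nat_lit 557838662) (nat_lit 454) (nat_lit 5) (nat_lit 476) (nat_lit 5) (nat_lit 455) (nat_lit 5) (nat_lit 417) (nat_lit 373) (nat_lit 350)) (XT.lf (nat_lit 0) (nat_lit 509676335) (nat_lit 1748) (nat_lit 4234430592) (nat_lit 76) (nat_lit 2500823967) (nat_lit 431) (nat_lit 5) (nat_lit 454) (nat_lit 5) (nat_lit 432) (nat_lit 5) (nat_lit 418) (nat_lit 373) (nat_lit 349))) (XT.nd (nat_lit 78) (nat_lit 1216) (nat_lit 0) (XT.lf (nat_lit 0) (nat_lit 517102061) (nat_lit 1748) (nat_lit 2775389185) (nat_lit 1824) (nat_lit 3998696292) (nat_lit 408) (nat_lit 5) (nat_lit 431) (nat_lit 5) (nat_lit 432) (nat_lit 5) (nat_lit 419) (nat_lit 373) (nat_lit 348)) (XT.nd (nat_lit 78) (nat_lit 1216) (nat_lit 0) (XT.lf (nat_lit 0) (nat_lit 5369056406) (nat_lit 1748) (nat_lit 736854385) (nat_lit 1824) (nat_lit 1232982133) (nat_lit 408) (nat_lit 5) (nat_lit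 431) (nat_lit 5) (nat_lit 432) (nat_lit 5) (nat_lit 420) (nat_lit 373) (nat_lit 347)) (XT.lf (nat_lit 0) (nat_lit 1542219139) (nat_lit 1216) (nat_lit 4490366497) (nat_lit 76) (nat_lit 1355282261) (nat_lit 392) (nat_lit 5) (nat_lit 408) (nat_lit 5) (nat_lit 393) (nat_lit 5) (nat_lit 421) (nat_lit 373) (nat_lit 346))))) (XT.nd (nat_lit 234) (nat_lit 1748) (nat_lit 0) (XT.nd (nat_lit 78) (nat_lit 912) (nat_lit 0) (XT.lf (nat_lit 0) (nat_lit 390884770) (nat_lit 912) (nat_lit 3934187982) (nat_lit 988) (nat_lit 3113234733) (nat_lit 380) (nat_lit 5) (nat_lit 392) (nat_lit 5) (nat_lit 393) (nat_lit 5) (nat_lit 422) (nat_lit 373) (nat_lit 345)) (XT.nd (nat_lit 78) (nat_lit 912) (nat_lit 0) (XT.lf (nat_lit 0) (nat_lit 5378535483) (nat_lit 912) (nat_lit 1763782274) (nat_lit 988) (nat_lit 347884277) (nat_lit 380) (nat_lit 5) (nat_lit 392) (nat_lit 5) (nat_lit 393) (nat_lit 5) (nat_lit 423) (nat_lit 373) (nat_lit 344)) (XT.lf (nat_lit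 0) (nat_lit 2411526602) (nat_lit 912) (nat_lit 4653694212) (nat_lit 76) (nat_lit 478188923) (nat_lit 368) (nat_lit 5) (nat_lit 380) (nat_lit 5) (nat_lit 369) (nat_lit 5) (nat_lit 424) (nat_lit 373) (nat_lit 343)))) (XT.nd (nat_lit 78) (nat_lit 912) (nat_lit 0) (XT.lf (nat_lit 0) (nat_lit 360563027) (nat_lit 836) (nat_lit 4839102682) (nat_lit 912) (nat_lit 2398425587) (nat_lit 357) (nat_lit 5) (nat_lit 368) (nat_lit 5) (nat_lit 369) (nat_lit 5) (nat_lit 425) (nat_lit 373) (nat_lit 342)) (XT.nd (nat_lit 78) (nat_lit 836) (nat_lit 0) (XT.lf (nat_lit 0) (nat_lit 366231043) (nat_lit 912) (nat_lit 2170565787) (nat_lit 76) (nat_lit 5117405122) (nat_lit 356) (nat_lit 5) (nat_lit 368) (nat_lit 5) (nat_lit 357) (nat_lit 5) (nat_lit 426) (nat_lit 373) (nat_lit 341)) (XT.lf (nat_lit 0) (nat_lit 2969052451) (nat_lit 836) (nat_lit 155502260) (nat_lit 912) (nat_lit 4587171783) (nat_lit 345) (nat_lit 5) (nat_lit 356) (nat_lit 5) (nat_lit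 357) (nat_lit 5) (nat_lit 427) (nat_lit 373) (nat_lit 340))))))))
noncomputable def xc74 : XT := (XT.nd (nat_lit 1716) (nat_lit 6536) (nat_lit 0) (XT.nd (nat_lit 858) (nat_lit 4940) (nat_lit 0) (XT.nd (nat_lit 390) (nat_lit 2964) (nat_lit 0) (XT.nd (nat_lit 156) (nat_lit 1596) (nat_lit 0) (XT.nd (nat_lit 78) (nat_lit 76) (nat_lit 0) (XT.lf (nat_lit 0) (nat_lit 408921112) (nat_lit 836) (nat_lit 5512985813) (nat_lit 912) (nat_lit 1848835518) (nat_lit 334) (nat_lit 5) (nat_lit 345) (nat_lit 5) (nat_lit 346) (nat_lit 5) (nat_lit 428) (nat_lit 373) (nat_lit 339)) (XT.lf (nat_lit 0) (nat_lit 917008929) (nat_lit 912) (nat_lit 2162507697) (nat_lit 76) (nat_lit 4751614407) (nat_lit 333) (nat_lit 5) (nat_lit 345) (nat_lit 5) (nat_lit 334) (nat_lit 5) (nat_lit 429) (nat_lit 373) (nat_lit 338))) (XT.nd (nat_lit 78) (nat_lit 836) (nat_lit 0) (XT.lf (nat_lit 0) (nat_lit 3117801068) (nat_lit 760) (nat_lit 568878552) (nat_lit 836) (nat_lit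 4206355162) (nat_lit 323) (nat_lit 5) (nat_lit 333) (nat_lit 5) (nat_lit 334) (nat_lit 5) (nat_lit 430) (nat_lit 373) (nat_lit 337)) (XT.nd (nat_lit 78) (nat_lit 76) (nat_lit 0) (XT.lf (nat_lit 0) (nat_lit 518705303) (nat_lit 760) (nat_lit 5977503162) (nat_lit 836) (nat_lit 1460295621) (nat_lit 313) (nat_lit 5) (nat_lit 323) (nat_lit 5) (nat_lit 324) (nat_lit 5) (nat_lit 431) (nat_lit 373) (nat_lit 336)) (XT.lf (nat_lit 0) (nat_lit 1312935726) (nat_lit 836) (nat_lit 2102531239) (nat_lit 76) (nat_lit 4605821163) (nat_lit 312) (nat_lit 5) (nat_lit 323) (nat_lit 5) (nat_lit 313) (nat_lit 5) (nat_lit 432) (nat_lit 373) (nat_lit 335))))) (XT.nd (nat_lit 234) (nat_lit 1444) (nat_lit 0) (XT.nd (nat_lit 78) (nat_lit 836) (nat_lit 0) (XT.lf (nat_lit 0) (nat_lit 3321869341) (nat_lit 684) (nat_lit 776510732) (nat_lit 760) (nat_lit 3989284498) (nat_lit 303) (nat_lit 5) (nat_lit 312) (nat_lit 5) (nat_lit 313) (nat_lit 5) (nat_lit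 433) (nat_lit 373) (nat_lit 334)) (XT.nd (nat_lit 78) (nat_lit 76) (nat_lit 0) (XT.lf (nat_lit 0) (nat_lit 672464796) (nat_lit 760) (nat_lit 6253302110) (nat_lit 836) (nat_lit 1229892464) (nat_lit 293) (nat_lit 5) (nat_lit 303) (nat_lit 5) (nat_lit 304) (nat_lit 5) (nat_lit 434) (nat_lit 373) (nat_lit 333)) (XT.lf (nat_lit 0) (nat_lit 1556703831) (nat_lit 836) (nat_lit 2008188844) (nat_lit 76) (nat_lit 4660074508) (nat_lit 292) (nat_lit 5) (nat_lit 303) (nat_lit 5) (nat_lit 293) (nat_lit 5) (nat_lit 435) (nat_lit 373) (nat_lit 332)))) (XT.nd (nat_lit 78) (nat_lit 760) (nat_lit 0) (XT.lf (nat_lit 0) (nat_lit 3563672037) (nat_lit 684) (nat_lit 798382750) (nat_lit 760) (nat_lit 3933868558) (nat_lit 283) (nat_lit 5) (nat_lit 292) (nat_lit 5) (nat_lit 293) (nat_lit 5) (nat_lit 436) (nat_lit 373) (nat_lit 331)) (XT.nd (nat_lit 78) (nat_lit 76) (nat_lit 0) (XT.lf (nat_lit 0) (nat_lit 852387174) (nat_lit 684) (nat_lit 6360175832)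 (nat_lit 760) (nat_lit 1155968937) (nat_lit 274) (nat_lit 5) (nat_lit 283) (nat_lit 5) (nat_lit 284) (nat_lit 5) (nat_lit 437) (nat_lit 373) (nat_lit 330)) (XT.lf (nat_lit 0) (nat_lit 1649771418) (nat_lit 760) (nat_lit 1897453447) (nat_lit 76) (nat_lit 4895278113) (nat_lit 273) (nat_lit 5) (nat_lit 283) (nat_lit 5) (nat_lit 274) (nat_lit 5) (nat_lit 438) (nat_lit 373) (nat_lit 329)))))) (XT.nd (nat_lit 390) (nat_lit 2356) (nat_lit 0) (XT.nd (nat_lit 156) (nat_lit 1292) (nat_lit 0) (XT.nd (nat_lit 78) (nat_lit 684) (nat_lit 0) (XT.lf (nat_lit 0) (nat_lit 3825170927) (nat_lit 608) (nat_lit 653699601) (nat_lit 684) (nat_lit 4039289131) (nat_lit 265) (nat_lit 5) (nat_lit 273) (nat_lit 5) (nat_lit 274) (nat_lit 5) (nat_lit 439) (nat_lit 373) (nat_lit 328)) (XT.lf (nat_lit 0) (nat_lit 1040127002) (nat_lit 684) (nat_lit 6317224607) (nat_lit 760) (nat_lit 1238135092) (nat_lit 256) (nat_lit 5) (nat_lit 265) (nat_lit 5) (nat_lit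 266) (nat_lit 5) (nat_lit 440) (nat_lit 373) (nat_lit 327))) (XT.nd (nat_lit 78) (nat_lit 1216) (nat_lit 0) (XT.lf (nat_lit 0) (nat_lit 1592349707) (nat_lit 760) (nat_lit 1788891568) (nat_lit 76) (nat_lit 5293030649) (nat_lit 255) (nat_lit 5) (nat_lit 265) (nat_lit 5) (nat_lit 256) (nat_lit 5) (nat_lit 441) (nat_lit 373) (nat_lit 326)) (XT.nd (nat_lit 78) (nat_lit 608) (nat_lit 0) (XT.lf (nat_lit 0) (nat_lit 4087698342) (nat_lit 608) (nat_lit 361047865) (nat_lit 684) (nat_lit 4306017814) (nat_lit 247) (nat_lit 5) (nat_lit 255) (nat_lit 5) (nat_lit 256) (nat_lit 5) (nat_lit 442) (nat_lit 373) (nat_lit 325)) (XT.lf (nat_lit 0) (nat_lit 1216625992) (nat_lit 608) (nat_lit 6143015496) (nat_lit 684) (nat_lit 1477289275) (nat_lit 239) (nat_lit 5) (nat_lit 247) (nat_lit 5) (nat_lit 248) (nat_lit 5) (nat_lit 443) (nat_lit 373) (nat_lit 324))))) (XT.nd (nat_lit 234) (nat_lit 1140) (nat_lit 0) (XT.nd (nat_lit 78) (nat_lit 1140)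 (nat_lit 0) (XT.lf (nat_lit 0) (nat_lit 1383380037) (nat_lit 684) (nat_lit 1701845287) (nat_lit 76) (nat_lit 5835467773) (nat_lit 238) (nat_lit 5) (nat_lit 247) (nat_lit 5) (nat_lit 239) (nat_lit 5) (nat_lit 444) (nat_lit 373) (nat_lit 323)) (XT.nd (nat_lit 78) (nat_lit 608) (nat_lit 0) (XT.lf (nat_lit 0) (nat_lit 4270725602) (nat_lit 608) (nat_lit 4674797561) (nat_lit 76) (nat_lit 60638856) (nat_lit 231) (nat_lit 5) (nat_lit 239) (nat_lit 5) (nat_lit 232) (nat_lit 5) (nat_lit 445) (nat_lit 373) (nat_lit 322)) (XT.lf (nat_lit 0) (nat_lit 1361923130) (nat_lit 608) (nat_lit 5855741636) (nat_lit 684) (nat_lit 1875649909) (nat_lit 223) (nat_lit 5) (nat_lit 231) (nat_lit 5) (nat_lit 232) (nat_lit 5) (nat_lit 446) (nat_lit 373) (nat_lit 321)))) (XT.nd (nat_lit 78) (nat_lit 1064) (nat_lit 0) (XT.lf (nat_lit 0) (nat_lit 1020500355) (nat_lit 684) (nat_lit 1656624781) (nat_lit 76) (nat_lit 6505104372) (nat_lit 222) (nat_lit 5)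 (nat_lit 231) (nat_lit 5) (nat_lit 223) (nat_lit 5) (nat_lit 447) (nat_lit 373) (nat_lit 320)) (XT.nd (nat_lit 78) (nat_lit 532) (nat_lit 0) (XT.lf (nat_lit 0) (nat_lit 3944815024) (nat_lit 608) (nat_lit 4739829804) (nat_lit 76) (nat_lit 588133360) (nat_lit 215) (nat_lit 5) (nat_lit 223) (nat_lit 5) (nat_lit 216) (nat_lit 5) (nat_lit 448) (nat_lit 373) (nat_lit 319)) (XT.lf (nat_lit 0) (nat_lit 1454953012) (nat_lit 532) (nat_lit 5473382462) (nat_lit 608) (nat_lit 2436798406) (nat_lit 208) (nat_lit 5) (nat_lit 215) (nat_lit 5) (nat_lit 216) (nat_lit 5) (nat_lit 449) (nat_lit 373) (nat_lit 318))))))) (XT.nd (nat_lit 858) (nat_lit 2964) (nat_lit 0) (XT.nd (nat_lit 390) (nat_lit 1900) (nat_lit 0) (XT.nd (nat_lit 156) (nat_lit 1064) (nat_lit 0) (XT.nd (nat_lit 78) (nat_lit 532) (nat_lit 0) (XT.lf (nat_lit 0) (nat_lit 500000653) (nat_lit 608) (nat_lit 1674713170) (nat_lit 76) (nat_lit 7284675808) (nat_lit 207) (nat_lit 5)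 (nat_lit 215) (nat_lit 5) (nat_lit 208) (nat_lit 5) (nat_lit 450) (nat_lit 373) (nat_lit 317)) (XT.lf (nat_lit 0) (nat_lit 3464530109) (nat_lit 608) (nat_lit 4881944106) (nat_lit 76) (nat_lit 1208711501) (nat_lit 200) (nat_lit 5) (nat_lit 208) (nat_lit 5) (nat_lit 201) (nat_lit 5) (nat_lit 451) (nat_lit 373) (nat_lit 316))) (XT.nd (nat_lit 78) (nat_lit 532) (nat_lit 0) (XT.lf (nat_lit 0) (nat_lit 1473330526) (nat_lit 532) (nat_lit 5013866140) (nat_lit 608) (nat_lit 3165733763) (nat_lit 193) (nat_lit 5) (nat_lit 200) (nat_lit 5) (nat_lit 201) (nat_lit 5) (nat_lit 452) (nat_lit 373) (nat_lit 315)) (XT.nd (nat_lit 78) (nat_lit 532) (nat_lit 0) (XT.lf (nat_lit 0) (nat_lit 7972513989) (nat_lit 532) (nat_lit 1594522772) (nat_lit 608) (nat_lit 185668315) (nat_lit 193) (nat_lit 5) (nat_lit 200) (nat_lit 5) (nat_lit 201) (nat_lit 5) (nat_lit 453) (nat_lit 373) (nat_lit 314)) (XT.lf (nat_lit 0) (nat_lit 2824311307) (nat_lit 532)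 (nat_lit 5124760312) (nat_lit 76) (nat_lit 1904887205) (nat_lit 186) (nat_lit 5) (nat_lit 193) (nat_lit 5) (nat_lit 187) (nat_lit 5) (nat_lit 454) (nat_lit 373) (nat_lit 313))))) (XT.nd (nat_lit 234) (nat_lit 912) (nat_lit 0) (XT.nd (nat_lit 78) (nat_lit 532) (nat_lit 0) (XT.lf (nat_lit 0) (nat_lit 1393119858) (nat_lit 456) (nat_lit 4495235619) (nat_lit 532) (nat_lit 4068939504) (nat_lit 180) (nat_lit 5) (nat_lit 186) (nat_lit 5) (nat_lit 187) (nat_lit 5) (nat_lit 455) (nat_lit 373) (nat_lit 312)) (XT.nd (nat_lit 78) (nat_lit 532) (nat_lit 0) (XT.lf (nat_lit 0) (nat_lit 8061957892) (nat_lit 456) (nat_lit 951205773) (nat_lit 532) (nat_lit 1049553260) (nat_lit 180) (nat_lit 5) (nat_lit 186) (nat_lit 5) (nat_lit 187) (nat_lit 5) (nat_lit 456) (nat_lit 373) (nat_lit 311)) (XT.lf (nat_lit 0) (nat_lit 2017106062) (nat_lit 532) (nat_lit 5493634750) (nat_lit 76) (nat_lit 2658981010) (nat_lit 173) (nat_lit 5) (nat_lit 180) (nat_lit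 5) (nat_lit 174) (nat_lit 5) (nat_lit 457) (nat_lit 373) (nat_lit 310)))) (XT.nd (nat_lit 78) (nat_lit 456) (nat_lit 0) (XT.lf (nat_lit 0) (nat_lit 1188585639) (nat_lit 456) (nat_lit 3935819692) (nat_lit 532) (nat_lit 5154463756) (nat_lit 167) (nat_lit 5) (nat_lit 173) (nat_lit 5) (nat_lit 174) (nat_lit 5) (nat_lit 458) (nat_lit 373) (nat_lit 309)) (XT.nd (nat_lit 78) (nat_lit 456) (nat_lit 0) (XT.lf (nat_lit 0) (nat_lit 8030581688) (nat_lit 456) (nat_lit 266306142) (nat_lit 532) (nat_lit 2093258781) (nat_lit 167) (nat_lit 5) (nat_lit 173) (nat_lit 5) (nat_lit 174) (nat_lit 5) (nat_lit 459) (nat_lit 373) (nat_lit 308)) (XT.lf (nat_lit 0) (nat_lit 1034281737) (nat_lit 456) (nat_lit 6015922232) (nat_lit 76) (nat_lit 3452947642) (nat_lit 161) (nat_lit 5) (nat_lit 167) (nat_lit 5) (nat_lit 162) (nat_lit 5) (nat_lit 460) (nat_lit 373) (nat_lit 307)))))) (XT.nd (nat_lit 390) (nat_lit 1672) (nat_lit 0) (XT.nd (nat_lit 156)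 (nat_lit 836) (nat_lit 0) (XT.nd (nat_lit 78) (nat_lit 0) (nat_lit 0) (XT.lf (nat_lit 0) (nat_lit 831923855) (nat_lit 456) (nat_lit 3354410573) (nat_lit 532) (nat_lit 6432013349) (nat_lit 155) (nat_lit 5) (nat_lit 161) (nat_lit 5) (nat_lit 162) (nat_lit 5) (nat_lit 461) (nat_lit 373) (nat_lit 306)) (XT.lf (nat_lit 0) (nat_lit 7411864297) (nat_lit 532) (nat_lit 2888079584) (nat_lit 76) (nat_lit 435702710) (nat_lit 155) (nat_lit 5) (nat_lit 162) (nat_lit 5) (nat_lit 156) (nat_lit 5) (nat_lit 462) (nat_lit 373) (nat_lit 305))) (XT.nd (nat_lit 78) (nat_lit 456) (nat_lit 0) (XT.lf (nat_lit 0) (nat_lit 4132818038) (nat_lit 380) (nat_lit 6585881787) (nat_lit 456) (nat_lit 136262957) (nat_lit 150) (nat_lit 5) (nat_lit 155) (nat_lit 5) (nat_lit 156) (nat_lit 5) (nat_lit 463) (nat_lit 373) (nat_lit 304)) (XT.nd (nat_lit 78) (nat_lit 0) (nat_lit 0) (XT.lf (nat_lit 0) (nat_lit 292969959) (nat_lit 380) (nat_lit 2770449566) (nat_lit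 456) (nat_lit 7913062965) (nat_lit 144) (nat_lit 5) (nat_lit 149) (nat_lit 5) (nat_lit 150) (nat_lit 5) (nat_lit 464) (nat_lit 373) (nat_lit 303)) (XT.lf (nat_lit 0) (nat_lit 6346040261) (nat_lit 456) (nat_lit 3616258988) (nat_lit 76) (nat_lit 1137706826) (nat_lit 144) (nat_lit 5) (nat_lit 150) (nat_lit 5) (nat_lit 145) (nat_lit 5) (nat_lit 465) (nat_lit 373) (nat_lit 302))))) (XT.nd (nat_lit 234) (nat_lit 836) (nat_lit 0) (XT.nd (nat_lit 78) (nat_lit 456) (nat_lit 0) (XT.lf (nat_lit 0) (nat_lit 3574048258) (nat_lit 380) (nat_lit 6130522912) (nat_lit 456) (nat_lit 1521230552) (nat_lit 139) (nat_lit 5) (nat_lit 144) (nat_lit 5) (nat_lit 145) (nat_lit 5) (nat_lit 466) (nat_lit 373) (nat_lit 301)) (XT.nd (nat_lit 78) (nat_lit 380) (nat_lit 0) (XT.lf (nat_lit 0) (nat_lit 1746097727) (nat_lit 456) (nat_lit 455071000) (nat_lit 76) (nat_lit 9152855740) (nat_lit 138) (nat_lit 5) (nat_lit 144) (nat_lit 5) (nat_lit 139) (nat_lit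 5) (nat_lit 467) (nat_lit 373) (nat_lit 300)) (XT.lf (nat_lit 0) (nat_lit 5084764774) (nat_lit 456) (nat_lit 4576104904) (nat_lit 76) (nat_lit 1823220009) (nat_lit 133) (nat_lit 5) (nat_lit 139) (nat_lit 5) (nat_lit 134) (nat_lit 5) (nat_lit 468) (nat_lit 373) (nat_lit 299)))) (XT.nd (nat_lit 78) (nat_lit 456) (nat_lit 0) (XT.lf (nat_lit 0) (nat_lit 2783463199) (nat_lit 380) (nat_lit 5712084960) (nat_lit 456) (nat_lit 3121107425) (nat_lit 128) (nat_lit 5) (nat_lit 133) (nat_lit 5) (nat_lit 134) (nat_lit 5) (nat_lit 469) (nat_lit 373) (nat_lit 298)) (XT.nd (nat_lit 78) (nat_lit 380) (nat_lit 0) (XT.lf (nat_lit 0) (nat_lit 220377401) (nat_lit 456) (nat_lit 1446979278) (nat_lit 76) (nat_lit 10084480727) (nat_lit 127) (nat_lit 5) (nat_lit 133) (nat_lit 5) (nat_lit 128) (nat_lit 5) (nat_lit 470) (nat_lit 373) (nat_lit 297)) (XT.lf (nat_lit 0) (nat_lit 3613114038) (nat_lit 456) (nat_lit 5804488277) (nat_lit 76) (nat_lit 2471189536)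 (nat_lit 122) (nat_lit 5) (nat_lit 128) (nat_lit 5) (nat_lit 123) (nat_lit 5) (nat_lit 471) (nat_lit 373) (nat_lit 296))))))))
noncomputable def xc75 : XT := (XT.nd (nat_lit 1716) (nat_lit 1672) (nat_lit 0) (XT.nd (nat_lit 858) (nat_lit 1748) (nat_lit 0) (XT.nd (nat_lit 390) (nat_lit 1368) (nat_lit 0) (XT.nd (nat_lit 156) (nat_lit 760) (nat_lit 0) (XT.nd (nat_lit 78) (nat_lit 0) (nat_lit 0) (XT.lf (nat_lit 0) (nat_lit 1723422455) (nat_lit 304) (nat_lit 5352782087) (nat_lit 380) (nat_lit 4952236618) (nat_lit 118) (nat_lit 5) (nat_lit 122) (nat_lit 5) (nat_lit 123) (nat_lit 5) (nat_lit 472) (nat_lit 373) (nat_lit 295)) (XT.lf (nat_lit 0) (nat_lit 9435263608) (nat_lit 304) (nat_lit 1183021947) (nat_lit 380) (nat_lit 1552408971) (nat_lit 118) (nat_lit 5) (nat_lit 122) (nat_lit 5) (nat_lit 123) (nat_lit 5) (nat_lit 473) (nat_lit 373) (nat_lit 294))) (XT.nd (nat_lit 78) (nat_lit 304) (nat_lit 0) (XT.lf (nat_lit 0) (nat_lit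 1913999352) (nat_lit 456) (nat_lit 7341807336) (nat_lit 76) (nat_lit 3059268872) (nat_lit 112) (nat_lit 5) (nat_lit 118) (nat_lit 5) (nat_lit 113) (nat_lit 5) (nat_lit 474) (nat_lit 373) (nat_lit 293)) (XT.nd (nat_lit 78) (nat_lit 0) (nat_lit 0) (XT.lf (nat_lit 0) (nat_lit 352643885) (nat_lit 304) (nat_lit 5076254908) (nat_lit 380) (nat_lit 7033246517) (nat_lit 108) (nat_lit 5) (nat_lit 112) (nat_lit 5) (nat_lit 113) (nat_lit 5) (nat_lit 475) (nat_lit 373) (nat_lit 292)) (XT.lf (nat_lit 0) (nat_lit 8255812387) (nat_lit 304) (nat_lit 779151599) (nat_lit 380) (nat_lit 3576780328) (nat_lit 108) (nat_lit 5) (nat_lit 112) (nat_lit 5) (nat_lit 113) (nat_lit 5) (nat_lit 476) (nat_lit 373) (nat_lit 291))))) (XT.nd (nat_lit 234) (nat_lit 684) (nat_lit 0) (XT.nd (nat_lit 78) (nat_lit 380) (nat_lit 0) (XT.lf (nat_lit 0) (nat_lit 3531350561) (nat_lit 304) (nat_lit 9200180182) (nat_lit 380) (nat_lit 32442064) (nat_lit 104) (nat_lit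 5) (nat_lit 108) (nat_lit 5) (nat_lit 109) (nat_lit 5) (nat_lit 477) (nat_lit 373) (nat_lit 290)) (XT.nd (nat_lit 78) (nat_lit 304) (nat_lit 0) (XT.lf (nat_lit 0) (nat_lit 3542505884) (nat_lit 380) (nat_lit 1356209954) (nat_lit 76) (nat_lit 8019935474) (nat_lit 103) (nat_lit 5) (nat_lit 108) (nat_lit 5) (nat_lit 104) (nat_lit 5) (nat_lit 478) (nat_lit 373) (nat_lit 289)) (XT.lf (nat_lit 0) (nat_lit 6722190360) (nat_lit 304) (nat_lit 482647516) (nat_lit 380) (nat_lit 5871259650) (nat_lit 99) (nat_lit 5) (nat_lit 103) (nat_lit 5) (nat_lit 104) (nat_lit 5) (nat_lit 479) (nat_lit 373) (nat_lit 288)))) (XT.nd (nat_lit 78) (nat_lit 380) (nat_lit 0) (XT.lf (nat_lit 0) (nat_lit 1696465778) (nat_lit 304) (nat_lit 9263063010) (nat_lit 380) (nat_lit 2276786353) (nat_lit 95) (nat_lit 5) (nat_lit 99) (nat_lit 5) (nat_lit 100) (nat_lit 5) (nat_lit 480) (nat_lit 373) (nat_lit 287)) (XT.nd (nat_lit 78) (nat_lit 304) (nat_lit 0) (XT.lf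 (nat_lit 0) (nat_lit 1390361841) (nat_lit 380) (nat_lit 3461131097) (nat_lit 76) (nat_lit 8547688071) (nat_lit 94) (nat_lit 5) (nat_lit 99) (nat_lit 5) (nat_lit 95) (nat_lit 5) (nat_lit 481) (nat_lit 373) (nat_lit 286)) (XT.lf (nat_lit 0) (nat_lit 4783962229) (nat_lit 304) (nat_lit 320918465) (nat_lit 380) (nat_lit 8460036682) (nat_lit 90) (nat_lit 5) (nat_lit 94) (nat_lit 5) (nat_lit 95) (nat_lit 5) (nat_lit 482) (nat_lit 373) (nat_lit 285)))))) (XT.nd (nat_lit 390) (nat_lit 836) (nat_lit 0) (XT.nd (nat_lit 156) (nat_lit 608) (nat_lit 0) (XT.nd (nat_lit 78) (nat_lit 304) (nat_lit 0) (XT.lf (nat_lit 0) (nat_lit 8918553753) (nat_lit 380) (nat_lit 563711228) (nat_lit 76) (nat_lit 4251210577) (nat_lit 90) (nat_lit 5) (nat_lit 95) (nat_lit 5) (nat_lit 91) (nat_lit 5) (nat_lit 483) (nat_lit 373) (nat_lit 284)) (XT.lf (nat_lit 0) (nat_lit 7876895217) (nat_lit 304) (nat_lit 4958954539) (nat_lit 380) (nat_lit 1069012434) (nat_lit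 86) (nat_lit 5) (nat_lit 90) (nat_lit 5) (nat_lit 91) (nat_lit 5) (nat_lit 484) (nat_lit 373) (nat_lit 283))) (XT.nd (nat_lit 78) (nat_lit 304) (nat_lit 0) (XT.lf (nat_lit 0) (nat_lit 2385514650) (nat_lit 228) (nat_lit 323650308) (nat_lit 304) (nat_lit 11370289571) (nat_lit 82) (nat_lit 5) (nat_lit 85) (nat_lit 5) (nat_lit 86) (nat_lit 5) (nat_lit 485) (nat_lit 373) (nat_lit 282)) (XT.nd (nat_lit 78) (nat_lit 304) (nat_lit 0) (XT.lf (nat_lit 0) (nat_lit 6592192645) (nat_lit 304) (nat_lit 3286063405) (nat_lit 76) (nat_lit 4378273353) (nat_lit 82) (nat_lit 5) (nat_lit 86) (nat_lit 5) (nat_lit 83) (nat_lit 5) (nat_lit 486) (nat_lit 373) (nat_lit 281)) (XT.lf (nat_lit 0) (nat_lit 5316011559) (nat_lit 304) (nat_lit 5248304936) (nat_lit 380) (nat_lit 3872604522) (nat_lit 78) (nat_lit 5) (nat_lit 82) (nat_lit 5) (nat_lit 83) (nat_lit 5) (nat_lit 487) (nat_lit 373) (nat_lit 280))))) (XT.nd (nat_lit 234) (nat_lit 304) (nat_lit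 0) (XT.nd (nat_lit 78) (nat_lit 532) (nat_lit 0) (XT.lf (nat_lit 0) (nat_lit 14093408635) (nat_lit 304) (nat_lit 519529217) (nat_lit 380) (nat_lit 8045384) (nat_lit 78) (nat_lit 5) (nat_lit 82) (nat_lit 5) (nat_lit 83) (nat_lit 5) (nat_lit 488) (nat_lit 373) (nat_lit 279)) (XT.nd (nat_lit 78) (nat_lit 228) (nat_lit 0) (XT.lf (nat_lit 0) (nat_lit 3939662641) (nat_lit 304) (nat_lit 6556108693) (nat_lit 76) (nat_lit 4311299267) (nat_lit 74) (nat_lit 5) (nat_lit 78) (nat_lit 5) (nat_lit 75) (nat_lit 5) (nat_lit 489) (nat_lit 373) (nat_lit 278)) (XT.lf (nat_lit 0) (nat_lit 2199840220) (nat_lit 228) (nat_lit 5763108433) (nat_lit 304) (nat_lit 7033999018) (nat_lit 71) (nat_lit 5) (nat_lit 74) (nat_lit 5) (nat_lit 75) (nat_lit 5) (nat_lit 490) (nat_lit 373) (nat_lit 277)))) (XT.nd (nat_lit 78) (nat_lit 304) (nat_lit 0) (XT.lf (nat_lit 0) (nat_lit 11179141590) (nat_lit 228) (nat_lit 907215674) (nat_lit 304) (nat_lit 3103875460)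 (nat_lit 71) (nat_lit 5) (nat_lit 74) (nat_lit 5) (nat_lit 75) (nat_lit 5) (nat_lit 491) (nat_lit 373) (nat_lit 276)) (XT.nd (nat_lit 78) (nat_lit 0) (nat_lit 0) (XT.lf (nat_lit 0) (nat_lit 927643913) (nat_lit 304) (nat_lit 10443732226) (nat_lit 76) (nat_lit 4015200068) (nat_lit 67) (nat_lit 5) (nat_lit 71) (nat_lit 5) (nat_lit 68) (nat_lit 5) (nat_lit 492) (nat_lit 373) (nat_lit 275)) (XT.lf (nat_lit 0) (nat_lit 5007459673) (nat_lit 304) (nat_lit 1523093906) (nat_lit 76) (nat_lit 9055701485) (nat_lit 67) (nat_lit 5) (nat_lit 71) (nat_lit 5) (nat_lit 68) (nat_lit 5) (nat_lit 493) (nat_lit 373) (nat_lit 274))))))) (XT.nd (nat_lit 858) (nat_lit 0) (nat_lit 0) (XT.nd (nat_lit 390) (nat_lit 912) (nat_lit 0) (XT.nd (nat_lit 156) (nat_lit 304) (nat_lit 0) (XT.nd (nat_lit 78) (nat_lit 228) (nat_lit 0) (XT.lf (nat_lit 0) (nat_lit 7636629518) (nat_lit 228) (nat_lit 1558378414) (nat_lit 304) (nat_lit 6594400149) (nat_lit 64) (nat_lit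 5) (nat_lit 67) (nat_lit 5) (nat_lit 68) (nat_lit 5) (nat_lit 494) (nat_lit 373) (nat_lit 273)) (XT.lf (nat_lit 0) (nat_lit 953817157) (nat_lit 228) (nat_lit 12528436953) (nat_lit 304) (nat_lit 2514054351) (nat_lit 61) (nat_lit 5) (nat_lit 64) (nat_lit 5) (nat_lit 65) (nat_lit 5) (nat_lit 495) (nat_lit 373) (nat_lit 272))) (XT.nd (nat_lit 78) (nat_lit 228) (nat_lit 0) (XT.lf (nat_lit 0) (nat_lit 1668379422) (nat_lit 304) (nat_lit 5914217012) (nat_lit 76) (nat_lit 8623697675) (nat_lit 60) (nat_lit 5) (nat_lit 64) (nat_lit 5) (nat_lit 61) (nat_lit 5) (nat_lit 496) (nat_lit 373) (nat_lit 271)) (XT.nd (nat_lit 78) (nat_lit 0) (nat_lit 0) (XT.lf (nat_lit 0) (nat_lit 3385512003) (nat_lit 228) (nat_lit 2514457379) (nat_lit 304) (nat_lit 10520197372) (nat_lit 57) (nat_lit 5) (nat_lit 60) (nat_lit 5) (nat_lit 61) (nat_lit 5) (nat_lit 497) (nat_lit 373) (nat_lit 270)) (XT.lf (nat_lit 0) (nat_lit 10250631605) (nat_lit 304) (nat_lit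 3742579437) (nat_lit 76) (nat_lit 2644419995) (nat_lit 57) (nat_lit 5) (nat_lit 61) (nat_lit 5) (nat_lit 58) (nat_lit 5) (nat_lit 498) (nat_lit 373) (nat_lit 269))))) (XT.nd (nat_lit 234) (nat_lit 456) (nat_lit 0) (XT.nd (nat_lit 78) (nat_lit 304) (nat_lit 0) (XT.lf (nat_lit 0) (nat_lit 5755980417) (nat_lit 152) (nat_lit 8964048190) (nat_lit 228) (nat_lit 2138784505) (nat_lit 55) (nat_lit 5) (nat_lit 57) (nat_lit 5) (nat_lit 58) (nat_lit 5) (nat_lit 499) (nat_lit 373) (nat_lit 268)) (XT.nd (nat_lit 78) (nat_lit 228) (nat_lit 0) (XT.lf (nat_lit 0) (nat_lit 2168635360) (nat_lit 228) (nat_lit 1641330219) (nat_lit 76) (nat_lit 13274110712) (nat_lit 54) (nat_lit 5) (nat_lit 57) (nat_lit 5) (nat_lit 55) (nat_lit 5) (nat_lit 500) (nat_lit 373) (nat_lit 267)) (XT.lf (nat_lit 0) (nat_lit 6573856610) (nat_lit 304) (nat_lit 9259189319) (nat_lit 76) (nat_lit 1479712999) (nat_lit 51) (nat_lit 5) (nat_lit 55) (nat_lit 5) (nat_lit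 52) (nat_lit 5) (nat_lit 501) (nat_lit 373) (nat_lit 266)))) (XT.nd (nat_lit 78) (nat_lit 304) (nat_lit 0) (XT.lf (nat_lit 0) (nat_lit 360666250) (nat_lit 152) (nat_lit 10723437162) (nat_lit 228) (nat_lit 6461576095) (nat_lit 49) (nat_lit 5) (nat_lit 51) (nat_lit 5) (nat_lit 52) (nat_lit 5) (nat_lit 502) (nat_lit 373) (nat_lit 265)) (XT.nd (nat_lit 78) (nat_lit 304) (nat_lit 0) (XT.lf (nat_lit 0) (nat_lit 10261096304) (nat_lit 152) (nat_lit 5464037499) (nat_lit 228) (nat_lit 2057315781) (nat_lit 49) (nat_lit 5) (nat_lit 51) (nat_lit 5) (nat_lit 52) (nat_lit 5) (nat_lit 503) (nat_lit 373) (nat_lit 264)) (XT.lf (nat_lit 0) (nat_lit 2313221745) (nat_lit 228) (nat_lit 83615858) (nat_lit 304) (nat_lit 15626928946) (nat_lit 45) (nat_lit 5) (nat_lit 48) (nat_lit 5) (nat_lit 49) (nat_lit 5) (nat_lit 504) (nat_lit 373) (nat_lit 263)))))) (XT.nd (nat_lit 50856) (nat_lit 0) (nat_lit 44080) (XT.nd (nat_lit 50622) (nat_lit 0) (nat_lit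 46588) (XT.nd (nat_lit 50544) (nat_lit 0) (nat_lit 47804) (XT.lf (nat_lit 0) (nat_lit 6977250929) (nat_lit 304) (nat_lit 5908473560) (nat_lit 76) (nat_lit 5382621407) (nat_lit 45) (nat_lit 5) (nat_lit 49) (nat_lit 5) (nat_lit 46) (nat_lit 5) (nat_lit 505) (nat_lit 373) (nat_lit 262)) (XT.lf (nat_lit 0) (nat_lit 502767187) (nat_lit 532) (nat_lit 2250581711) (nat_lit 0) (nat_lit 502767187) (nat_lit 674) (nat_lit 5) (nat_lit 681) (nat_lit 4) (nat_lit 674) (nat_lit 4) (nat_lit 392) (nat_lit 374) (nat_lit 374))) (XT.nd (nat_lit 78) (nat_lit 1216) (nat_lit 0) (XT.lf (nat_lit 0) (nat_lit 4138660211) (nat_lit 532) (nat_lit 802556303) (nat_lit 0) (nat_lit 1583336757) (nat_lit 674) (nat_lit 5) (nat_lit 681) (nat_lit 4) (nat_lit 674) (nat_lit 4) (nat_lit 393) (nat_lit 374) (nat_lit 373)) (XT.nd (nat_lit 78) (nat_lit 608) (nat_lit 0) (XT.lf (nat_lit 0) (nat_lit 731155803) (nat_lit 608) (nat_lit 3583607803) (nat_lit 76) (nat_lit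 2223413097) (nat_lit 666) (nat_lit 5) (nat_lit 674) (nat_lit 5) (nat_lit 667) (nat_lit 4) (nat_lit 394) (nat_lit 374) (nat_lit 372)) (XT.lf (nat_lit 0) (nat_lit 182241062) (nat_lit 608) (nat_lit 3629086025) (nat_lit 684) (nat_lit 2741819793) (nat_lit 658) (nat_lit 5) (nat_lit 666) (nat_lit 5) (nat_lit 667) (nat_lit 4) (nat_lit 395) (nat_lit 374) (nat_lit 371))))) (XT.nd (nat_lit 234) (nat_lit 1748) (nat_lit 0) (XT.nd (nat_lit 78) (nat_lit 684) (nat_lit 0) (XT.lf (nat_lit 0) (nat_lit 330542904) (nat_lit 684) (nat_lit 2549359455) (nat_lit 76) (nat_lit 3689488641) (nat_lit 657) (nat_lit 5) (nat_lit 666) (nat_lit 5) (nat_lit 658) (nat_lit 5) (nat_lit 396) (nat_lit 374) (nat_lit 370)) (XT.nd (nat_lit 78) (nat_lit 0) (nat_lit 0) (XT.lf (nat_lit 0) (nat_lit 1297724375) (nat_lit 684) (nat_lit 2066508493) (nat_lit 760) (nat_lit 3222674516) (nat_lit 648) (nat_lit 5) (nat_lit 657) (nat_lit 5) (nat_lit 658) (nat_lit 5) (nat_lit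 397) (nat_lit 374) (nat_lit 369)) (XT.lf (nat_lit 0) (nat_lit 5206878859) (nat_lit 684) (nat_lit 1198046527) (nat_lit 760) (nat_lit 200963028) (nat_lit 648) (nat_lit 5) (nat_lit 657) (nat_lit 5) (nat_lit 658) (nat_lit 5) (nat_lit 398) (nat_lit 374) (nat_lit 368)))) (XT.nd (nat_lit 78) (nat_lit 912) (nat_lit 0) (XT.lf (nat_lit 0) (nat_lit 2534068392) (nat_lit 760) (nat_lit 255889842) (nat_lit 836) (nat_lit 3836024749) (nat_lit 637) (nat_lit 5) (nat_lit 647) (nat_lit 5) (nat_lit 648) (nat_lit 5) (nat_lit 399) (nat_lit 374) (nat_lit 367)) (XT.nd (nat_lit 78) (nat_lit 912) (nat_lit 0) (XT.lf (nat_lit 0) (nat_lit 5783327503) (nat_lit 836) (nat_lit 138136392) (nat_lit 76) (nat_lit 726121107) (nat_lit 637) (nat_lit 5) (nat_lit 648) (nat_lit 5) (nat_lit 638) (nat_lit 5) (nat_lit 400) (nat_lit 374) (nat_lit 366)) (XT.lf (nat_lit 0) (nat_lit 2097837381) (nat_lit 912) (nat_lit 2789819368) (nat_lit 76) (nat_lit 1782531723) (nat_lit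 625) (nat_lit 5) (nat_lit 637) (nat_lit 5) (nat_lit 626) (nat_lit 5) (nat_lit 401) (nat_lit 374) (nat_lit 365))))))))
noncomputable def xc76 : XT := (XT.nd (nat_lit 1638) (nat_lit 11704) (nat_lit 0) (XT.nd (nat_lit 780) (nat_lit 10792) (nat_lit 0) (XT.nd (nat_lit 390) (nat_lit 3800) (nat_lit 0) (XT.nd (nat_lit 156) (nat_lit 2128) (nat_lit 0) (XT.nd (nat_lit 78) (nat_lit 76) (nat_lit 0) (XT.lf (nat_lit 0) (nat_lit 1248283166) (nat_lit 912) (nat_lit 3801528658) (nat_lit 988) (nat_lit 1644510043) (nat_lit 613) (nat_lit 5) (nat_lit 625) (nat_lit 5) (nat_lit 626) (nat_lit 5) (nat_lit 402) (nat_lit 374) (nat_lit 364)) (XT.lf (nat_lit 0) (nat_lit 1276810538) (nat_lit 988) (nat_lit 1373271445) (nat_lit 76) (nat_lit 4069666163) (nat_lit 612) (nat_lit 5) (nat_lit 625) (nat_lit 5) (nat_lit 613) (nat_lit 5) (nat_lit 403) (nat_lit 374) (nat_lit 363))) (XT.nd (nat_lit 78) (nat_lit 1140) (nat_lit 0) (XT.lf (nat_lit 0) (nat_lit 2756371434)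 (nat_lit 988) (nat_lit 1431060014) (nat_lit 1064) (nat_lit 2559010439) (nat_lit 599) (nat_lit 5) (nat_lit 612) (nat_lit 5) (nat_lit 613) (nat_lit 5) (nat_lit 404) (nat_lit 374) (nat_lit 362)) (XT.nd (nat_lit 78) (nat_lit 0) (nat_lit 0) (XT.lf (nat_lit 0) (nat_lit 162926997) (nat_lit 1064) (nat_lit 160457926) (nat_lit 1140) (nat_lit 6451351638) (nat_lit 584) (nat_lit 5) (nat_lit 598) (nat_lit 5) (nat_lit 599) (nat_lit 5) (nat_lit 405) (nat_lit 374) (nat_lit 361)) (XT.lf (nat_lit 0) (nat_lit 3200021774) (nat_lit 1140) (nat_lit 2425949866) (nat_lit 76) (nat_lit 1177902257) (nat_lit 584) (nat_lit 5) (nat_lit 599) (nat_lit 5) (nat_lit 585) (nat_lit 5) (nat_lit 406) (nat_lit 374) (nat_lit 360))))) (XT.nd (nat_lit 156) (nat_lit 2584) (nat_lit 0) (XT.nd (nat_lit 78) (nat_lit 76) (nat_lit 0) (XT.lf (nat_lit 0) (nat_lit 1815927763) (nat_lit 1140) (nat_lit 4268862639) (nat_lit 1216) (nat_lit 749823209) (nat_lit 569) (nat_lit 5)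 (nat_lit 584) (nat_lit 5) (nat_lit 585) (nat_lit 5) (nat_lit 407) (nat_lit 374) (nat_lit 359)) (XT.lf (nat_lit 0) (nat_lit 2087532345) (nat_lit 1216) (nat_lit 755228046) (nat_lit 76) (nat_lit 4023865628) (nat_lit 568) (nat_lit 5) (nat_lit 584) (nat_lit 5) (nat_lit 569) (nat_lit 5) (nat_lit 408) (nat_lit 374) (nat_lit 358))) (XT.nd (nat_lit 78) (nat_lit 1368) (nat_lit 0) (XT.lf (nat_lit 0) (nat_lit 3585585724) (nat_lit 1216) (nat_lit 1348714725) (nat_lit 1292) (nat_lit 1965654776) (nat_lit 552) (nat_lit 5) (nat_lit 568) (nat_lit 5) (nat_lit 569) (nat_lit 5) (nat_lit 409) (nat_lit 374) (nat_lit 357)) (XT.nd (nat_lit 78) (nat_lit 0) (nat_lit 0) (XT.lf (nat_lit 0) (nat_lit 845270701) (nat_lit 1368) (nat_lit 5889186162) (nat_lit 76) (nat_lit 200343898) (nat_lit 534) (nat_lit 5) (nat_lit 552) (nat_lit 5) (nat_lit 535) (nat_lit 5) (nat_lit 410) (nat_lit 374) (nat_lit 356)) (XT.lf (nat_lit 0) (nat_lit 3658210111) (nat_lit 1368)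 (nat_lit 1505682998) (nat_lit 76) (nat_lit 1806775998) (nat_lit 534) (nat_lit 5) (nat_lit 552) (nat_lit 5) (nat_lit 535) (nat_lit 5) (nat_lit 411) (nat_lit 374) (nat_lit 355)))))) (XT.nd (nat_lit 390) (nat_lit 6308) (nat_lit 0) (XT.nd (nat_lit 156) (nat_lit 1596) (nat_lit 0) (XT.nd (nat_lit 78) (nat_lit 1520) (nat_lit 0) (XT.lf (nat_lit 0) (nat_lit 2953824889) (nat_lit 1368) (nat_lit 3534693565) (nat_lit 1444) (nat_lit 519541684) (nat_lit 516) (nat_lit 5) (nat_lit 534) (nat_lit 5) (nat_lit 535) (nat_lit 5) (nat_lit 412) (nat_lit 374) (nat_lit 354)) (XT.lf (nat_lit 0) (nat_lit 416340086) (nat_lit 1444) (nat_lit 1837559198) (nat_lit 1520) (nat_lit 4792919426) (nat_lit 496) (nat_lit 5) (nat_lit 515) (nat_lit 5) (nat_lit 516) (nat_lit 5) (nat_lit 413) (nat_lit 374) (nat_lit 353))) (XT.nd (nat_lit 78) (nat_lit 1596) (nat_lit 0) (XT.lf (nat_lit 0) (nat_lit 4977265007) (nat_lit 1444) (nat_lit 68919468) (nat_lit 1520) (nat_lit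 2040718585) (nat_lit 496) (nat_lit 5) (nat_lit 515) (nat_lit 5) (nat_lit 516) (nat_lit 5) (nat_lit 414) (nat_lit 374) (nat_lit 352)) (XT.nd (nat_lit 78) (nat_lit 0) (nat_lit 0) (XT.lf (nat_lit 0) (nat_lit 727872919) (nat_lit 1596) (nat_lit 4661117003) (nat_lit 76) (nat_lit 1739296570) (nat_lit 475) (nat_lit 5) (nat_lit 496) (nat_lit 5) (nat_lit 476) (nat_lit 5) (nat_lit 415) (nat_lit 374) (nat_lit 351)) (XT.lf (nat_lit 0) (nat_lit 3483917441) (nat_lit 1596) (nat_lit 71316920) (nat_lit 76) (nat_lit 3615829758) (nat_lit 475) (nat_lit 5) (nat_lit 496) (nat_lit 5) (nat_lit 476) (nat_lit 5) (nat_lit 416) (nat_lit 374) (nat_lit 350))))) (XT.nd (nat_lit 234) (nat_lit 2964) (nat_lit 0) (XT.nd (nat_lit 78) (nat_lit 1748) (nat_lit 0) (XT.lf (nat_lit 0) (nat_lit 4620736364) (nat_lit 1596) (nat_lit 1650106110) (nat_lit 1672) (nat_lit 944363590) (nat_lit 454) (nat_lit 5) (nat_lit 475) (nat_lit 5) (nat_lit 476) (nat_lit 5) (nat_lit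 417) (nat_lit 374) (nat_lit 349)) (XT.nd (nat_lit 78) (nat_lit 0) (nat_lit 0) (XT.lf (nat_lit 0) (nat_lit 1791386390) (nat_lit 1748) (nat_lit 5150413026) (nat_lit 76) (nat_lit 318965459) (nat_lit 431) (nat_lit 5) (nat_lit 454) (nat_lit 5) (nat_lit 432) (nat_lit 5) (nat_lit 418) (nat_lit 374) (nat_lit 348)) (XT.lf (nat_lit 0) (nat_lit 4544542322) (nat_lit 1748) (nat_lit 431071017) (nat_lit 76) (nat_lit 2332012536) (nat_lit 431) (nat_lit 5) (nat_lit 454) (nat_lit 5) (nat_lit 432) (nat_lit 5) (nat_lit 419) (nat_lit 374) (nat_lit 347)))) (XT.nd (nat_lit 78) (nat_lit 1216) (nat_lit 0) (XT.lf (nat_lit 0) (nat_lit 4389913024) (nat_lit 1748) (nat_lit 2939263070) (nat_lit 1824) (nat_lit 26741839) (nat_lit 408) (nat_lit 5) (nat_lit 431) (nat_lit 5) (nat_lit 432) (nat_lit 5) (nat_lit 420) (nat_lit 374) (nat_lit 346)) (XT.nd (nat_lit 78) (nat_lit 0) (nat_lit 0) (XT.lf (nat_lit 0) (nat_lit 1863822116) (nat_lit 1140) (nat_lit 827510503)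 (nat_lit 1216) (nat_lit 4714240319) (nat_lit 392) (nat_lit 5) (nat_lit 407) (nat_lit 5) (nat_lit 408) (nat_lit 5) (nat_lit 421) (nat_lit 374) (nat_lit 345)) (XT.lf (nat_lit 0) (nat_lit 5440998288) (nat_lit 1216) (nat_lit 685704056) (nat_lit 76) (nat_lit 1329984266) (nat_lit 392) (nat_lit 5) (nat_lit 408) (nat_lit 5) (nat_lit 393) (nat_lit 5) (nat_lit 422) (nat_lit 374) (nat_lit 344))))))) (XT.nd (nat_lit 858) (nat_lit 4940) (nat_lit 0) (XT.nd (nat_lit 390) (nat_lit 3192) (nat_lit 0) (XT.nd (nat_lit 156) (nat_lit 1748) (nat_lit 0) (XT.nd (nat_lit 78) (nat_lit 836) (nat_lit 0) (XT.lf (nat_lit 0) (nat_lit 710168061) (nat_lit 988) (nat_lit 3246301857) (nat_lit 76) (nat_lit 3552617063) (nat_lit 379) (nat_lit 5) (nat_lit 392) (nat_lit 5) (nat_lit 380) (nat_lit 5) (nat_lit 423) (nat_lit 374) (nat_lit 343)) (XT.lf (nat_lit 0) (nat_lit 1715463246) (nat_lit 836) (nat_lit 1714133828) (nat_lit 912) (nat_lit 4133370551) (nat_lit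 368) (nat_lit 5) (nat_lit 379) (nat_lit 5) (nat_lit 380) (nat_lit 5) (nat_lit 424) (nat_lit 374) (nat_lit 342))) (XT.nd (nat_lit 78) (nat_lit 1748) (nat_lit 0) (XT.lf (nat_lit 0) (nat_lit 6179954039) (nat_lit 912) (nat_lit 852297425) (nat_lit 76) (nat_lit 586162901) (nat_lit 368) (nat_lit 5) (nat_lit 380) (nat_lit 5) (nat_lit 369) (nat_lit 5) (nat_lit 425) (nat_lit 374) (nat_lit 341)) (XT.nd (nat_lit 78) (nat_lit 836) (nat_lit 0) (XT.lf (nat_lit 0) (nat_lit 1283794381) (nat_lit 912) (nat_lit 3446997267) (nat_lit 76) (nat_lit 2944214125) (nat_lit 356) (nat_lit 5) (nat_lit 368) (nat_lit 5) (nat_lit 357) (nat_lit 5) (nat_lit 426) (nat_lit 374) (nat_lit 340)) (XT.lf (nat_lit 0) (nat_lit 1650212748) (nat_lit 836) (nat_lit 2359648939) (nat_lit 912) (nat_lit 3723322744) (nat_lit 345) (nat_lit 5) (nat_lit 356) (nat_lit 5) (nat_lit 357) (nat_lit 5) (nat_lit 427) (nat_lit 374) (nat_lit 339))))) (XT.nd (nat_lit 234) (nat_lit 1520)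 (nat_lit 0) (XT.nd (nat_lit 78) (nat_lit 1672) (nat_lit 0) (XT.lf (nat_lit 0) (nat_lit 6766847064) (nat_lit 912) (nat_lit 947841549) (nat_lit 76) (nat_lit 78327914) (nat_lit 345) (nat_lit 5) (nat_lit 357) (nat_lit 5) (nat_lit 346) (nat_lit 5) (nat_lit 428) (nat_lit 374) (nat_lit 338)) (XT.nd (nat_lit 78) (nat_lit 760) (nat_lit 0) (XT.lf (nat_lit 0) (nat_lit 1699340795) (nat_lit 912) (nat_lit 3585128699) (nat_lit 76) (nat_lit 2569428162) (nat_lit 333) (nat_lit 5) (nat_lit 345) (nat_lit 5) (nat_lit 334) (nat_lit 5) (nat_lit 429) (nat_lit 374) (nat_lit 337)) (XT.lf (nat_lit 0) (nat_lit 1650879132) (nat_lit 760) (nat_lit 2785796673) (nat_lit 836) (nat_lit 3479780619) (nat_lit 323) (nat_lit 5) (nat_lit 333) (nat_lit 5) (nat_lit 334) (nat_lit 5) (nat_lit 430) (nat_lit 374) (nat_lit 336)))) (XT.nd (nat_lit 78) (nat_lit 1520) (nat_lit 0) (XT.lf (nat_lit 0) (nat_lit 6989912329) (nat_lit 760) (nat_lit 217401141) (nat_lit 836)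 (nat_lit 773398223) (nat_lit 323) (nat_lit 5) (nat_lit 333) (nat_lit 5) (nat_lit 334) (nat_lit 5) (nat_lit 431) (nat_lit 374) (nat_lit 335)) (XT.nd (nat_lit 78) (nat_lit 684) (nat_lit 0) (XT.lf (nat_lit 0) (nat_lit 1960433261) (nat_lit 836) (nat_lit 3678025602) (nat_lit 76) (nat_lit 2407563323) (nat_lit 312) (nat_lit 5) (nat_lit 323) (nat_lit 5) (nat_lit 313) (nat_lit 5) (nat_lit 432) (nat_lit 374) (nat_lit 334)) (XT.lf (nat_lit 0) (nat_lit 1700125712) (nat_lit 684) (nat_lit 3013244047) (nat_lit 760) (nat_lit 3399686700) (nat_lit 303) (nat_lit 5) (nat_lit 312) (nat_lit 5) (nat_lit 313) (nat_lit 5) (nat_lit 433) (nat_lit 374) (nat_lit 333)))))) (XT.nd (nat_lit 390) (nat_lit 2660) (nat_lit 0) (XT.nd (nat_lit 156) (nat_lit 1444) (nat_lit 0) (XT.nd (nat_lit 78) (nat_lit 836) (nat_lit 0) (XT.lf (nat_lit 0) (nat_lit 7185569415) (nat_lit 684) (nat_lit 316625720) (nat_lit 760) (nat_lit 679634871) (nat_lit 303) (nat_lit 5) (nat_lit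 312) (nat_lit 5) (nat_lit 313) (nat_lit 5) (nat_lit 434) (nat_lit 374) (nat_lit 332)) (XT.lf (nat_lit 0) (nat_lit 2069476289) (nat_lit 836) (nat_lit 3743294657) (nat_lit 76) (nat_lit 2438908019) (nat_lit 292) (nat_lit 5) (nat_lit 303) (nat_lit 5) (nat_lit 293) (nat_lit 5) (nat_lit 435) (nat_lit 374) (nat_lit 331))) (XT.nd (nat_lit 78) (nat_lit 760) (nat_lit 0) (XT.lf (nat_lit 0) (nat_lit 1780309025) (nat_lit 684) (nat_lit 3061748356) (nat_lit 760) (nat_lit 3481240232) (nat_lit 283) (nat_lit 5) (nat_lit 292) (nat_lit 5) (nat_lit 293) (nat_lit 5) (nat_lit 436) (nat_lit 374) (nat_lit 330)) (XT.nd (nat_lit 78) (nat_lit 760) (nat_lit 0) (XT.lf (nat_lit 0) (nat_lit 7415223101) (nat_lit 684) (nat_lit 237695800) (nat_lit 760) (nat_lit 743787191) (nat_lit 283) (nat_lit 5) (nat_lit 292) (nat_lit 5) (nat_lit 293) (nat_lit 5) (nat_lit 437) (nat_lit 374) (nat_lit 329)) (XT.lf (nat_lit 0) (nat_lit 2027648891) (nat_lit 760) (nat_lit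 3798984747) (nat_lit 76) (nat_lit 2644574614) (nat_lit 273) (nat_lit 5) (nat_lit 283) (nat_lit 5) (nat_lit 274) (nat_lit 5) (nat_lit 438) (nat_lit 374) (nat_lit 328))))) (XT.nd (nat_lit 234) (nat_lit 1292) (nat_lit 0) (XT.nd (nat_lit 78) (nat_lit 760) (nat_lit 0) (XT.lf (nat_lit 0) (nat_lit 1873310894) (nat_lit 608) (nat_lit 2950317995) (nat_lit 684) (nat_lit 3723904973) (nat_lit 265) (nat_lit 5) (nat_lit 273) (nat_lit 5) (nat_lit 274) (nat_lit 5) (nat_lit 439) (nat_lit 374) (nat_lit 327)) (XT.nd (nat_lit 78) (nat_lit 760) (nat_lit 0) (XT.lf (nat_lit 0) (nat_lit 7660212345) (nat_lit 684) (nat_lit 964786755) (nat_lit 76) (nat_lit 706175) (nat_lit 265) (nat_lit 5) (nat_lit 274) (nat_lit 5) (nat_lit 266) (nat_lit 5) (nat_lit 440) (nat_lit 374) (nat_lit 326)) (XT.lf (nat_lit 0) (nat_lit 1834890705) (nat_lit 760) (nat_lit 3863759361) (nat_lit 76) (nat_lit 3006341708) (nat_lit 255) (nat_lit 5) (nat_lit 265) (nat_lit 5) (nat_lit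 256) (nat_lit 5) (nat_lit 441) (nat_lit 374) (nat_lit 325)))) (XT.nd (nat_lit 78) (nat_lit 684) (nat_lit 0) (XT.lf (nat_lit 0) (nat_lit 1960362640) (nat_lit 608) (nat_lit 2697371220) (nat_lit 684) (nat_lit 4128427127) (nat_lit 247) (nat_lit 5) (nat_lit 255) (nat_lit 5) (nat_lit 256) (nat_lit 5) (nat_lit 442) (nat_lit 374) (nat_lit 324)) (XT.nd (nat_lit 78) (nat_lit 684) (nat_lit 0) (XT.lf (nat_lit 0) (nat_lit 7526016622) (nat_lit 684) (nat_lit 967664284) (nat_lit 76) (nat_lit 375505004) (nat_lit 247) (nat_lit 5) (nat_lit 256) (nat_lit 5) (nat_lit 248) (nat_lit 5) (nat_lit 443) (nat_lit 374) (nat_lit 323)) (XT.lf (nat_lit 0) (nat_lit 1489877993) (nat_lit 684) (nat_lit 3957078002) (nat_lit 76) (nat_lit 3506497794) (nat_lit 238) (nat_lit 5) (nat_lit 247) (nat_lit 5) (nat_lit 239) (nat_lit 5) (nat_lit 444) (nat_lit 374) (nat_lit 322))))))))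
noncomputable def xc77 : XT := (XT.nd (nat_lit 1716) (nat_lit 5016) (nat_lit 0) (XT.nd (nat_lit 858) (nat_lit 3192) (nat_lit 0) (XT.nd (nat_lit 390) (nat_lit 2204) (nat_lit 0) (XT.nd (nat_lit 156) (nat_lit 1216) (nat_lit 0) (XT.nd (nat_lit 78) (nat_lit 0) (nat_lit 0) (XT.lf (nat_lit 0) (nat_lit 2021859853) (nat_lit 532) (nat_lit 2320894099) (nat_lit 608) (nat_lit 4696863739) (nat_lit 231) (nat_lit 5) (nat_lit 238) (nat_lit 5) (nat_lit 239) (nat_lit 5) (nat_lit 445) (nat_lit 374) (nat_lit 321)) (XT.lf (nat_lit 0) (nat_lit 7246890502) (nat_lit 608) (nat_lit 1008401475) (nat_lit 76) (nat_lit 872339901) (nat_lit 231) (nat_lit 5) (nat_lit 239) (nat_lit 5) (nat_lit 232) (nat_lit 5) (nat_lit 446) (nat_lit 374) (nat_lit 320))) (XT.nd (nat_lit 78) (nat_lit 532) (nat_lit 0) (XT.lf (nat_lit 0) (nat_lit 989989113) (nat_lit 684) (nat_lit 4099388220) (nat_lit 76) (nat_lit 4127685037) (nat_lit 222) (nat_lit 5) (nat_lit 231) (nat_lit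 5) (nat_lit 223) (nat_lit 5) (nat_lit 447) (nat_lit 374) (nat_lit 319)) (XT.nd (nat_lit 78) (nat_lit 0) (nat_lit 0) (XT.lf (nat_lit 0) (nat_lit 2037166045) (nat_lit 532) (nat_lit 1838598935) (nat_lit 608) (nat_lit 5432622007) (nat_lit 215) (nat_lit 5) (nat_lit 222) (nat_lit 5) (nat_lit 223) (nat_lit 5) (nat_lit 448) (nat_lit 374) (nat_lit 318)) (XT.lf (nat_lit 0) (nat_lit 6819629918) (nat_lit 608) (nat_lit 1107936957) (nat_lit 76) (nat_lit 1473973977) (nat_lit 215) (nat_lit 5) (nat_lit 223) (nat_lit 5) (nat_lit 216) (nat_lit 5) (nat_lit 449) (nat_lit 374) (nat_lit 317))))) (XT.nd (nat_lit 234) (nat_lit 1064) (nat_lit 0) (XT.nd (nat_lit 78) (nat_lit 532) (nat_lit 0) (XT.lf (nat_lit 0) (nat_lit 331258995) (nat_lit 608) (nat_lit 4312330058) (nat_lit 76) (nat_lit 4852741903) (nat_lit 207) (nat_lit 5) (nat_lit 215) (nat_lit 5) (nat_lit 208) (nat_lit 5) (nat_lit 450) (nat_lit 374) (nat_lit 316)) (XT.nd (nat_lit 78) (nat_lit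 0) (nat_lit 0) (XT.lf (nat_lit 0) (nat_lit 1984403362) (nat_lit 532) (nat_lit 1268084445) (nat_lit 608) (nat_lit 6340510018) (nat_lit 200) (nat_lit 5) (nat_lit 207) (nat_lit 5) (nat_lit 208) (nat_lit 5) (nat_lit 451) (nat_lit 374) (nat_lit 315)) (XT.lf (nat_lit 0) (nat_lit 6239672287) (nat_lit 608) (nat_lit 1288530951) (nat_lit 76) (nat_lit 2163253618) (nat_lit 200) (nat_lit 5) (nat_lit 208) (nat_lit 5) (nat_lit 201) (nat_lit 5) (nat_lit 452) (nat_lit 374) (nat_lit 314)))) (XT.nd (nat_lit 78) (nat_lit 532) (nat_lit 0) (XT.lf (nat_lit 0) (nat_lit 5169565937) (nat_lit 532) (nat_lit 4123977419) (nat_lit 608) (nat_lit 498212112) (nat_lit 193) (nat_lit 5) (nat_lit 200) (nat_lit 5) (nat_lit 201) (nat_lit 5) (nat_lit 453) (nat_lit 374) (nat_lit 313)) (XT.nd (nat_lit 78) (nat_lit 0) (nat_lit 0) (XT.lf (nat_lit 0) (nat_lit 1840228400) (nat_lit 456) (nat_lit 626999045) (nat_lit 532) (nat_lit 7426799545) (nat_lit 186) (nat_lit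 5) (nat_lit 192) (nat_lit 5) (nat_lit 193) (nat_lit 5) (nat_lit 454) (nat_lit 374) (nat_lit 312)) (XT.lf (nat_lit 0) (nat_lit 5501032185) (nat_lit 532) (nat_lit 1573992955) (nat_lit 76) (nat_lit 2922947115) (nat_lit 186) (nat_lit 5) (nat_lit 193) (nat_lit 5) (nat_lit 187) (nat_lit 5) (nat_lit 455) (nat_lit 374) (nat_lit 311)))))) (XT.nd (nat_lit 390) (nat_lit 1292) (nat_lit 0) (XT.nd (nat_lit 156) (nat_lit 912) (nat_lit 0) (XT.nd (nat_lit 78) (nat_lit 532) (nat_lit 0) (XT.lf (nat_lit 0) (nat_lit 5050210196) (nat_lit 456) (nat_lit 3548333247) (nat_lit 532) (nat_lit 1505400930) (nat_lit 180) (nat_lit 5) (nat_lit 186) (nat_lit 5) (nat_lit 187) (nat_lit 5) (nat_lit 456) (nat_lit 374) (nat_lit 310)) (XT.lf (nat_lit 0) (nat_lit 1513233302) (nat_lit 532) (nat_lit 8632943915) (nat_lit 76) (nat_lit 65915392) (nat_lit 173) (nat_lit 5) (nat_lit 180) (nat_lit 5) (nat_lit 174) (nat_lit 5) (nat_lit 457) (nat_lit 374) (nat_lit 309)))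 (XT.nd (nat_lit 78) (nat_lit 912) (nat_lit 0) (XT.lf (nat_lit 0) (nat_lit 4596224344) (nat_lit 532) (nat_lit 1989927124) (nat_lit 76) (nat_lit 3735578558) (nat_lit 173) (nat_lit 5) (nat_lit 180) (nat_lit 5) (nat_lit 174) (nat_lit 5) (nat_lit 458) (nat_lit 374) (nat_lit 308)) (XT.nd (nat_lit 78) (nat_lit 456) (nat_lit 0) (XT.lf (nat_lit 0) (nat_lit 4802164118) (nat_lit 456) (nat_lit 2937032961) (nat_lit 532) (nat_lit 2694404581) (nat_lit 167) (nat_lit 5) (nat_lit 173) (nat_lit 5) (nat_lit 174) (nat_lit 5) (nat_lit 459) (nat_lit 374) (nat_lit 307)) (XT.lf (nat_lit 0) (nat_lit 385606018) (nat_lit 456) (nat_lit 9377587994) (nat_lit 76) (nat_lit 784602750) (nat_lit 161) (nat_lit 5) (nat_lit 167) (nat_lit 5) (nat_lit 162) (nat_lit 5) (nat_lit 460) (nat_lit 374) (nat_lit 306))))) (XT.nd (nat_lit 234) (nat_lit 456) (nat_lit 0) (XT.nd (nat_lit 78) (nat_lit 836) (nat_lit 0) (XT.lf (nat_lit 0) (nat_lit 3516173098) (nat_lit 456)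 (nat_lit 2563997679) (nat_lit 76) (nat_lit 4583255549) (nat_lit 161) (nat_lit 5) (nat_lit 167) (nat_lit 5) (nat_lit 162) (nat_lit 5) (nat_lit 461) (nat_lit 374) (nat_lit 305)) (XT.nd (nat_lit 78) (nat_lit 380) (nat_lit 0) (XT.lf (nat_lit 0) (nat_lit 4397303730) (nat_lit 456) (nat_lit 2308744959) (nat_lit 532) (nat_lit 4075393152) (nat_lit 155) (nat_lit 5) (nat_lit 161) (nat_lit 5) (nat_lit 162) (nat_lit 5) (nat_lit 462) (nat_lit 374) (nat_lit 304)) (XT.lf (nat_lit 0) (nat_lit 582176081) (nat_lit 380) (nat_lit 9377011560) (nat_lit 456) (nat_lit 942647867) (nat_lit 150) (nat_lit 5) (nat_lit 155) (nat_lit 5) (nat_lit 156) (nat_lit 5) (nat_lit 463) (nat_lit 374) (nat_lit 303)))) (XT.nd (nat_lit 78) (nat_lit 380) (nat_lit 0) (XT.lf (nat_lit 0) (nat_lit 2250107294) (nat_lit 456) (nat_lit 3326216897) (nat_lit 76) (nat_lit 5447489208) (nat_lit 149) (nat_lit 5) (nat_lit 155) (nat_lit 5) (nat_lit 150) (nat_lit 5) (nat_lit 464)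 (nat_lit 374) (nat_lit 302)) (XT.nd (nat_lit 78) (nat_lit 0) (nat_lit 0) (XT.lf (nat_lit 0) (nat_lit 3805077511) (nat_lit 380) (nat_lit 1682838681) (nat_lit 456) (nat_lit 5660320368) (nat_lit 144) (nat_lit 5) (nat_lit 149) (nat_lit 5) (nat_lit 150) (nat_lit 5) (nat_lit 465) (nat_lit 374) (nat_lit 301)) (XT.lf (nat_lit 0) (nat_lit 8797127262) (nat_lit 456) (nat_lit 211522903) (nat_lit 76) (nat_lit 2266371712) (nat_lit 144) (nat_lit 5) (nat_lit 150) (nat_lit 5) (nat_lit 145) (nat_lit 5) (nat_lit 466) (nat_lit 374) (nat_lit 300))))))) (XT.nd (nat_lit 858) (nat_lit 2280) (nat_lit 0) (XT.nd (nat_lit 390) (nat_lit 1064) (nat_lit 0) (XT.nd (nat_lit 156) (nat_lit 836) (nat_lit 0) (XT.nd (nat_lit 78) (nat_lit 380) (nat_lit 0) (XT.lf (nat_lit 0) (nat_lit 785439529) (nat_lit 456) (nat_lit 4309258443) (nat_lit 76) (nat_lit 6309004843) (nat_lit 138) (nat_lit 5) (nat_lit 144) (nat_lit 5) (nat_lit 139) (nat_lit 5) (nat_lit 467) (nat_lit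 374) (nat_lit 299)) (XT.lf (nat_lit 0) (nat_lit 2992184058) (nat_lit 380) (nat_lit 1079580960) (nat_lit 456) (nat_lit 7463052932) (nat_lit 133) (nat_lit 5) (nat_lit 138) (nat_lit 5) (nat_lit 139) (nat_lit 5) (nat_lit 468) (nat_lit 374) (nat_lit 298))) (XT.nd (nat_lit 78) (nat_lit 836) (nat_lit 0) (XT.lf (nat_lit 0) (nat_lit 7442722077) (nat_lit 456) (nat_lit 1234994627) (nat_lit 76) (nat_lit 2990466695) (nat_lit 133) (nat_lit 5) (nat_lit 139) (nat_lit 5) (nat_lit 134) (nat_lit 5) (nat_lit 469) (nat_lit 374) (nat_lit 297)) (XT.nd (nat_lit 78) (nat_lit 456) (nat_lit 0) (XT.lf (nat_lit 0) (nat_lit 6249181731) (nat_lit 380) (nat_lit 4650439269) (nat_lit 456) (nat_lit 904230691) (nat_lit 128) (nat_lit 5) (nat_lit 133) (nat_lit 5) (nat_lit 134) (nat_lit 5) (nat_lit 470) (nat_lit 374) (nat_lit 296)) (XT.lf (nat_lit 0) (nat_lit 1922220374) (nat_lit 380) (nat_lit 520344382) (nat_lit 456) (nat_lit 9499517655) (nat_lit 122) (nat_lit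 5) (nat_lit 127) (nat_lit 5) (nat_lit 128) (nat_lit 5) (nat_lit 471) (nat_lit 374) (nat_lit 295))))) (XT.nd (nat_lit 234) (nat_lit 304) (nat_lit 0) (XT.nd (nat_lit 78) (nat_lit 760) (nat_lit 0) (XT.lf (nat_lit 0) (nat_lit 5876766300) (nat_lit 456) (nat_lit 2533311979) (nat_lit 76) (nat_lit 3672234015) (nat_lit 122) (nat_lit 5) (nat_lit 128) (nat_lit 5) (nat_lit 123) (nat_lit 5) (nat_lit 472) (nat_lit 374) (nat_lit 294)) (XT.nd (nat_lit 78) (nat_lit 456) (nat_lit 0) (XT.lf (nat_lit 0) (nat_lit 5122872322) (nat_lit 304) (nat_lit 4265125552) (nat_lit 380) (nat_lit 2837187514) (nat_lit 118) (nat_lit 5) (nat_lit 122) (nat_lit 5) (nat_lit 123) (nat_lit 5) (nat_lit 473) (nat_lit 374) (nat_lit 293)) (XT.lf (nat_lit 0) (nat_lit 555297324) (nat_lit 380) (nat_lit 27829578) (nat_lit 456) (nat_lit 11787867866) (nat_lit 112) (nat_lit 5) (nat_lit 117) (nat_lit 5) (nat_lit 118) (nat_lit 5) (nat_lit 474) (nat_lit 374) (nat_lit 292))))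 (XT.nd (nat_lit 78) (nat_lit 304) (nat_lit 0) (XT.lf (nat_lit 0) (nat_lit 4081640484) (nat_lit 456) (nat_lit 4147525044) (nat_lit 76) (nat_lit 4289229289) (nat_lit 112) (nat_lit 5) (nat_lit 118) (nat_lit 5) (nat_lit 113) (nat_lit 5) (nat_lit 475) (nat_lit 374) (nat_lit 291)) (XT.nd (nat_lit 78) (nat_lit 0) (nat_lit 0) (XT.lf (nat_lit 0) (nat_lit 3678834159) (nat_lit 304) (nat_lit 3967801617) (nat_lit 380) (nat_lit 5022181974) (nat_lit 108) (nat_lit 5) (nat_lit 112) (nat_lit 5) (nat_lit 113) (nat_lit 5) (nat_lit 476) (nat_lit 374) (nat_lit 290)) (XT.lf (nat_lit 0) (nat_lit 11286008214) (nat_lit 380) (nat_lit 1149800544) (nat_lit 76) (nat_lit 386383852) (nat_lit 108) (nat_lit 5) (nat_lit 113) (nat_lit 5) (nat_lit 109) (nat_lit 5) (nat_lit 477) (nat_lit 374) (nat_lit 289)))))) (XT.nd (nat_lit 390) (nat_lit 1216) (nat_lit 0) (XT.nd (nat_lit 156) (nat_lit 380) (nat_lit 0) (XT.nd (nat_lit 78) (nat_lit 304) (nat_lit 0) (XT.lf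 (nat_lit 0) (nat_lit 2037343185) (nat_lit 380) (nat_lit 6122727777) (nat_lit 76) (nat_lit 4817420649) (nat_lit 103) (nat_lit 5) (nat_lit 108) (nat_lit 5) (nat_lit 104) (nat_lit 5) (nat_lit 478) (nat_lit 374) (nat_lit 288)) (XT.lf (nat_lit 0) (nat_lit 1870940893) (nat_lit 304) (nat_lit 3783974359) (nat_lit 380) (nat_lit 7480920110) (nat_lit 99) (nat_lit 5) (nat_lit 103) (nat_lit 5) (nat_lit 104) (nat_lit 5) (nat_lit 479) (nat_lit 374) (nat_lit 287))) (XT.nd (nat_lit 78) (nat_lit 380) (nat_lit 0) (XT.lf (nat_lit 0) (nat_lit 9363967861) (nat_lit 380) (nat_lit 3236518579) (nat_lit 76) (nat_lit 696481596) (nat_lit 99) (nat_lit 5) (nat_lit 104) (nat_lit 5) (nat_lit 100) (nat_lit 5) (nat_lit 480) (nat_lit 374) (nat_lit 286)) (XT.nd (nat_lit 78) (nat_lit 76) (nat_lit 0) (XT.lf (nat_lit 0) (nat_lit 4950341336) (nat_lit 304) (nat_lit 8227940493) (nat_lit 380) (nat_lit 282424467) (nat_lit 95) (nat_lit 5) (nat_lit 99) (nat_lit 5)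 (nat_lit 100) (nat_lit 5) (nat_lit 481) (nat_lit 374) (nat_lit 285)) (XT.lf (nat_lit 0) (nat_lit 3391839656) (nat_lit 380) (nat_lit 346984090) (nat_lit 76) (nat_lit 9888536928) (nat_lit 94) (nat_lit 5) (nat_lit 99) (nat_lit 5) (nat_lit 95) (nat_lit 5) (nat_lit 482) (nat_lit 374) (nat_lit 284))))) (XT.nd (nat_lit 234) (nat_lit 532) (nat_lit 0) (XT.nd (nat_lit 78) (nat_lit 380) (nat_lit 0) (XT.lf (nat_lit 0) (nat_lit 7168192888) (nat_lit 380) (nat_lit 5760424559) (nat_lit 76) (nat_lit 868049922) (nat_lit 90) (nat_lit 5) (nat_lit 95) (nat_lit 5) (nat_lit 91) (nat_lit 5) (nat_lit 483) (nat_lit 374) (nat_lit 283)) (XT.nd (nat_lit 78) (nat_lit 76) (nat_lit 0) (XT.lf (nat_lit 0) (nat_lit 2590384377) (nat_lit 304) (nat_lit 8448201951) (nat_lit 380) (nat_lit 2930407802) (nat_lit 86) (nat_lit 5) (nat_lit 90) (nat_lit 5) (nat_lit 91) (nat_lit 5) (nat_lit 484) (nat_lit 374) (nat_lit 282)) (XT.lf (nat_lit 0) (nat_lit 844144854) (nat_lit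 380) (nat_lit 3004827271) (nat_lit 76) (nat_lit 10295418791) (nat_lit 85) (nat_lit 5) (nat_lit 90) (nat_lit 5) (nat_lit 86) (nat_lit 5) (nat_lit 485) (nat_lit 374) (nat_lit 281)))) (XT.nd (nat_lit 78) (nat_lit 304) (nat_lit 0) (XT.lf (nat_lit 0) (nat_lit 4671897739) (nat_lit 304) (nat_lit 8779212443) (nat_lit 76) (nat_lit 871463062) (nat_lit 82) (nat_lit 5) (nat_lit 86) (nat_lit 5) (nat_lit 83) (nat_lit 5) (nat_lit 486) (nat_lit 374) (nat_lit 280)) (XT.nd (nat_lit 78) (nat_lit 304) (nat_lit 0) (XT.lf (nat_lit 0) (nat_lit 8597264794) (nat_lit 304) (nat_lit 267017170) (nat_lit 76) (nat_lit 5639619948) (nat_lit 82) (nat_lit 5) (nat_lit 86) (nat_lit 5) (nat_lit 83) (nat_lit 5) (nat_lit 487) (nat_lit 374) (nat_lit 279)) (XT.lf (nat_lit 0) (nat_lit 8486804770) (nat_lit 304) (nat_lit 4145192975) (nat_lit 380) (nat_lit 2056246035) (nat_lit 78) (nat_lit 5) (nat_lit 82) (nat_lit 5) (nat_lit 83) (nat_lit 5) (nat_lit 488) (nat_lit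 374) (nat_lit 278))))))))
noncomputable def xc78 : XT := (XT.nd (nat_lit 52026) (nat_lit 0) (nat_lit 32680) (XT.nd (nat_lit 858) (nat_lit 912) (nat_lit 0) (XT.nd (nat_lit 390) (nat_lit 760) (nat_lit 0) (XT.nd (nat_lit 156) (nat_lit 532) (nat_lit 0) (XT.nd (nat_lit 78) (nat_lit 0) (nat_lit 0) (XT.lf (nat_lit 0) (nat_lit 1845052744) (nat_lit 304) (nat_lit 12356547388) (nat_lit 76) (nat_lit 674464222) (nat_lit 74) (nat_lit 5) (nat_lit 78) (nat_lit 5) (nat_lit 75) (nat_lit 5) (nat_lit 489) (nat_lit 374) (nat_lit 277)) (XT.lf (nat_lit 0) (nat_lit 5842138001) (nat_lit 304) (nat_lit 3649302917) (nat_lit 76) (nat_lit 5575026292) (nat_lit 74) (nat_lit 5) (nat_lit 78) (nat_lit 5) (nat_lit 75) (nat_lit 5) (nat_lit 490) (nat_lit 374) (nat_lit 276))) (XT.nd (nat_lit 78) (nat_lit 304) (nat_lit 0) (XT.lf (nat_lit 0) (nat_lit 5261778607) (nat_lit 228) (nat_lit 4667947133) (nat_lit 304) (nat_lit 5330744678) (nat_lit 71) (nat_lit 5) (nat_lit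 74) (nat_lit 5) (nat_lit 75) (nat_lit 5) (nat_lit 491) (nat_lit 374) (nat_lit 275)) (XT.nd (nat_lit 78) (nat_lit 304) (nat_lit 0) (XT.lf (nat_lit 0) (nat_lit 14101857716) (nat_lit 304) (nat_lit 1098541261) (nat_lit 76) (nat_lit 257902302) (nat_lit 71) (nat_lit 5) (nat_lit 75) (nat_lit 5) (nat_lit 72) (nat_lit 5) (nat_lit 492) (nat_lit 374) (nat_lit 274)) (XT.lf (nat_lit 0) (nat_lit 2722280217) (nat_lit 304) (nat_lit 7661639262) (nat_lit 76) (nat_lit 5274616072) (nat_lit 67) (nat_lit 5) (nat_lit 71) (nat_lit 5) (nat_lit 68) (nat_lit 5) (nat_lit 493) (nat_lit 374) (nat_lit 273))))) (XT.nd (nat_lit 234) (nat_lit 304) (nat_lit 0) (XT.nd (nat_lit 78) (nat_lit 228) (nat_lit 0) (XT.lf (nat_lit 0) (nat_lit 1397088466) (nat_lit 228) (nat_lit 5460849485) (nat_lit 304) (nat_lit 9004790033) (nat_lit 64) (nat_lit 5) (nat_lit 67) (nat_lit 5) (nat_lit 68) (nat_lit 5) (nat_lit 494) (nat_lit 374) (nat_lit 272)) (XT.nd (nat_lit 78) (nat_lit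 228) (nat_lit 0) (XT.lf (nat_lit 0) (nat_lit 10702391707) (nat_lit 228) (nat_lit 402545646) (nat_lit 304) (nat_lit 4965497521) (nat_lit 64) (nat_lit 5) (nat_lit 67) (nat_lit 5) (nat_lit 68) (nat_lit 5) (nat_lit 495) (nat_lit 374) (nat_lit 271)) (XT.lf (nat_lit 0) (nat_lit 3893635015) (nat_lit 228) (nat_lit 11576968800) (nat_lit 304) (nat_lit 811020660) (nat_lit 61) (nat_lit 5) (nat_lit 64) (nat_lit 5) (nat_lit 65) (nat_lit 5) (nat_lit 496) (nat_lit 374) (nat_lit 270)))) (XT.nd (nat_lit 78) (nat_lit 228) (nat_lit 0) (XT.lf (nat_lit 0) (nat_lit 3398138912) (nat_lit 304) (nat_lit 3146258228) (nat_lit 76) (nat_lit 9951868118) (nat_lit 60) (nat_lit 5) (nat_lit 64) (nat_lit 5) (nat_lit 61) (nat_lit 5) (nat_lit 497) (nat_lit 374) (nat_lit 269)) (XT.nd (nat_lit 78) (nat_lit 0) (nat_lit 0) (XT.lf (nat_lit 0) (nat_lit 6320476926) (nat_lit 228) (nat_lit 1379237277) (nat_lit 304) (nat_lit 9014998530) (nat_lit 57) (nat_lit 5) (nat_lit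 60) (nat_lit 5) (nat_lit 61) (nat_lit 5) (nat_lit 498) (nat_lit 374) (nat_lit 268)) (XT.lf (nat_lit 0) (nat_lit 12111960459) (nat_lit 304) (nat_lit 980749725) (nat_lit 76) (nat_lit 3844329064) (nat_lit 57) (nat_lit 5) (nat_lit 61) (nat_lit 5) (nat_lit 58) (nat_lit 5) (nat_lit 499) (nat_lit 374) (nat_lit 267)))))) (XT.nd (nat_lit 390) (nat_lit 304) (nat_lit 0) (XT.nd (nat_lit 156) (nat_lit 152) (nat_lit 0) (XT.nd (nat_lit 78) (nat_lit 304) (nat_lit 0) (XT.lf (nat_lit 0) (nat_lit 8689118949) (nat_lit 152) (nat_lit 7967446112) (nat_lit 228) (nat_lit 506367787) (nat_lit 55) (nat_lit 5) (nat_lit 57) (nat_lit 5) (nat_lit 58) (nat_lit 5) (nat_lit 500) (nat_lit 374) (nat_lit 266)) (XT.lf (nat_lit 0) (nat_lit 1125107982) (nat_lit 228) (nat_lit 2715010873) (nat_lit 304) (nat_lit 13552871239) (nat_lit 51) (nat_lit 5) (nat_lit 54) (nat_lit 5) (nat_lit 55) (nat_lit 5) (nat_lit 501) (nat_lit 374) (nat_lit 265))) (XT.nd (nat_lit 78)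 (nat_lit 152) (nat_lit 0) (XT.lf (nat_lit 0) (nat_lit 8319845339) (nat_lit 304) (nat_lit 6653368570) (nat_lit 76) (nat_lit 2653308488) (nat_lit 51) (nat_lit 5) (nat_lit 55) (nat_lit 5) (nat_lit 52) (nat_lit 5) (nat_lit 502) (nat_lit 374) (nat_lit 264)) (XT.nd (nat_lit 78) (nat_lit 0) (nat_lit 0) (XT.lf (nat_lit 0) (nat_lit 3140522238) (nat_lit 152) (nat_lit 9766119584) (nat_lit 228) (nat_lit 4957736622) (nat_lit 49) (nat_lit 5) (nat_lit 51) (nat_lit 5) (nat_lit 52) (nat_lit 5) (nat_lit 503) (nat_lit 374) (nat_lit 263)) (XT.lf (nat_lit 0) (nat_lit 13184595351) (nat_lit 152) (nat_lit 4424508130) (nat_lit 228) (nat_lit 497412101) (nat_lit 49) (nat_lit 5) (nat_lit 51) (nat_lit 5) (nat_lit 52) (nat_lit 5) (nat_lit 504) (nat_lit 374) (nat_lit 262))))) (XT.nd (nat_lit 50544) (nat_lit 0) (nat_lit 47196) (XT.nd (nat_lit 50388) (nat_lit 0) (nat_lit 48260) (XT.lf (nat_lit 0) (nat_lit 4018457635) (nat_lit 304) (nat_lit 13278735875)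 (nat_lit 76) (nat_lit 1055388570) (nat_lit 45) (nat_lit 5) (nat_lit 49) (nat_lit 5) (nat_lit 46) (nat_lit 5) (nat_lit 505) (nat_lit 374) (nat_lit 261)) (XT.nd (nat_lit 78) (nat_lit 76) (nat_lit 0) (XT.lf (nat_lit 0) (nat_lit 606455001) (nat_lit 380) (nat_lit 1319458532) (nat_lit 380) (nat_lit 1319458532) (nat_lit 681) (nat_lit 4) (nat_lit 686) (nat_lit 5) (nat_lit 686) (nat_lit 4) (nat_lit 390) (nat_lit 375) (nat_lit 375)) (XT.lf (nat_lit 0) (nat_lit 490805609) (nat_lit 456) (nat_lit 1667131190) (nat_lit 76) (nat_lit 4343251253) (nat_lit 680) (nat_lit 5) (nat_lit 686) (nat_lit 5) (nat_lit 681) (nat_lit 4) (nat_lit 391) (nat_lit 375) (nat_lit 374)))) (XT.nd (nat_lit 78) (nat_lit 608) (nat_lit 0) (XT.lf (nat_lit 0) (nat_lit 1976266960) (nat_lit 456) (nat_lit 1608512942) (nat_lit 532) (nat_lit 2928019213) (nat_lit 674) (nat_lit 5) (nat_lit 680) (nat_lit 5) (nat_lit 681) (nat_lit 4) (nat_lit 392) (nat_lit 375) (nat_lit 373))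 (XT.nd (nat_lit 78) (nat_lit 532) (nat_lit 0) (XT.lf (nat_lit 0) (nat_lit 149186159) (nat_lit 532) (nat_lit 859454727) (nat_lit 76) (nat_lit 5517298064) (nat_lit 673) (nat_lit 5) (nat_lit 680) (nat_lit 5) (nat_lit 674) (nat_lit 5) (nat_lit 393) (nat_lit 375) (nat_lit 372)) (XT.lf (nat_lit 0) (nat_lit 2861566987) (nat_lit 532) (nat_lit 332019715) (nat_lit 608) (nat_lit 3346514915) (nat_lit 666) (nat_lit 5) (nat_lit 673) (nat_lit 5) (nat_lit 674) (nat_lit 5) (nat_lit 394) (nat_lit 375) (nat_lit 371))))))) (XT.nd (nat_lit 858) (nat_lit 9348) (nat_lit 0) (XT.nd (nat_lit 390) (nat_lit 2964) (nat_lit 0) (XT.nd (nat_lit 156) (nat_lit 1520) (nat_lit 0) (XT.nd (nat_lit 78) (nat_lit 76) (nat_lit 0) (XT.lf (nat_lit 0) (nat_lit 63616261) (nat_lit 608) (nat_lit 6171346215) (nat_lit 684) (nat_lit 320906713) (nat_lit 658) (nat_lit 5) (nat_lit 666) (nat_lit 5) (nat_lit 667) (nat_lit 4) (nat_lit 395) (nat_lit 375) (nat_lit 370)) (XT.lf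 (nat_lit 0) (nat_lit 2684127538) (nat_lit 684) (nat_lit 2711056223) (nat_lit 76) (nat_lit 1177347385) (nat_lit 657) (nat_lit 5) (nat_lit 666) (nat_lit 5) (nat_lit 658) (nat_lit 5) (nat_lit 396) (nat_lit 375) (nat_lit 369))) (XT.nd (nat_lit 78) (nat_lit 836) (nat_lit 0) (XT.lf (nat_lit 0) (nat_lit 1109409305) (nat_lit 684) (nat_lit 4572305398) (nat_lit 760) (nat_lit 909075128) (nat_lit 648) (nat_lit 5) (nat_lit 657) (nat_lit 5) (nat_lit 658) (nat_lit 5) (nat_lit 397) (nat_lit 375) (nat_lit 368)) (XT.nd (nat_lit 78) (nat_lit 760) (nat_lit 0) (XT.lf (nat_lit 0) (nat_lit 2050329705) (nat_lit 760) (nat_lit 1629392614) (nat_lit 76) (nat_lit 2930485649) (nat_lit 647) (nat_lit 5) (nat_lit 657) (nat_lit 5) (nat_lit 648) (nat_lit 5) (nat_lit 398) (nat_lit 375) (nat_lit 367)) (XT.lf (nat_lit 0) (nat_lit 2274993613) (nat_lit 760) (nat_lit 2728018967) (nat_lit 836) (nat_lit 1627994993) (nat_lit 637) (nat_lit 5) (nat_lit 647) (nat_lit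 5) (nat_lit 648) (nat_lit 5) (nat_lit 399) (nat_lit 375) (nat_lit 366))))) (XT.nd (nat_lit 234) (nat_lit 1064) (nat_lit 0) (XT.nd (nat_lit 78) (nat_lit 1824) (nat_lit 0) (XT.lf (nat_lit 0) (nat_lit 1287689721) (nat_lit 836) (nat_lit 430448497) (nat_lit 76) (nat_lit 4935084390) (nat_lit 636) (nat_lit 5) (nat_lit 647) (nat_lit 5) (nat_lit 637) (nat_lit 5) (nat_lit 400) (nat_lit 375) (nat_lit 365)) (XT.nd (nat_lit 78) (nat_lit 988) (nat_lit 0) (XT.lf (nat_lit 0) (nat_lit 3561438513) (nat_lit 836) (nat_lit 634954222) (nat_lit 912) (nat_lit 2480180232) (nat_lit 625) (nat_lit 5) (nat_lit 636) (nat_lit 5) (nat_lit 637) (nat_lit 5) (nat_lit 401) (nat_lit 375) (nat_lit 364)) (XT.lf (nat_lit 0) (nat_lit 402679386) (nat_lit 988) (nat_lit 5806040493) (nat_lit 76) (nat_lit 492727836) (nat_lit 612) (nat_lit 5) (nat_lit 625) (nat_lit 5) (nat_lit 613) (nat_lit 5) (nat_lit 402) (nat_lit 375) (nat_lit 363)))) (XT.nd (nat_lit 78) (nat_lit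 1064) (nat_lit 0) (XT.lf (nat_lit 0) (nat_lit 3270242384) (nat_lit 988) (nat_lit 1768623375) (nat_lit 76) (nat_lit 1688455422) (nat_lit 612) (nat_lit 5) (nat_lit 625) (nat_lit 5) (nat_lit 613) (nat_lit 5) (nat_lit 403) (nat_lit 375) (nat_lit 362)) (XT.nd (nat_lit 78) (nat_lit 76) (nat_lit 0) (XT.lf (nat_lit 0) (nat_lit 2331254919) (nat_lit 988) (nat_lit 3815289865) (nat_lit 1064) (nat_lit 608173114) (nat_lit 599) (nat_lit 5) (nat_lit 612) (nat_lit 5) (nat_lit 613) (nat_lit 5) (nat_lit 404) (nat_lit 375) (nat_lit 361)) (XT.lf (nat_lit 0) (nat_lit 2216261238) (nat_lit 1064) (nat_lit 309730600) (nat_lit 76) (nat_lit 4257430884) (nat_lit 598) (nat_lit 5) (nat_lit 612) (nat_lit 5) (nat_lit 599) (nat_lit 5) (nat_lit 405) (nat_lit 375) (nat_lit 360)))))) (XT.nd (nat_lit 390) (nat_lit 4484) (nat_lit 0) (XT.nd (nat_lit 156) (nat_lit 2584) (nat_lit 0) (XT.nd (nat_lit 78) (nat_lit 1216) (nat_lit 0) (XT.lf (nat_lit 0) (nat_lit 3884753433)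 (nat_lit 1064) (nat_lit 1167496290) (nat_lit 1140) (nat_lit 1761138951) (nat_lit 584) (nat_lit 5) (nat_lit 598) (nat_lit 5) (nat_lit 599) (nat_lit 5) (nat_lit 406) (nat_lit 375) (nat_lit 359)) (XT.lf (nat_lit 0) (nat_lit 1037055485) (nat_lit 1216) (nat_lit 5562360200) (nat_lit 76) (nat_lit 245415850) (nat_lit 568) (nat_lit 5) (nat_lit 584) (nat_lit 5) (nat_lit 569) (nat_lit 5) (nat_lit 407) (nat_lit 375) (nat_lit 358))) (XT.nd (nat_lit 78) (nat_lit 2584) (nat_lit 0) (XT.lf (nat_lit 0) (nat_lit 3834584986) (nat_lit 1216) (nat_lit 1328509892) (nat_lit 76) (nat_lit 1714266284) (nat_lit 568) (nat_lit 5) (nat_lit 584) (nat_lit 5) (nat_lit 569) (nat_lit 5) (nat_lit 408) (nat_lit 375) (nat_lit 357)) (XT.nd (nat_lit 78) (nat_lit 1368) (nat_lit 0) (XT.lf (nat_lit 0) (nat_lit 2980108877) (nat_lit 1216) (nat_lit 3667909147) (nat_lit 1292) (nat_lit 263353503) (nat_lit 552) (nat_lit 5) (nat_lit 568) (nat_lit 5) (nat_lit 569) (nat_lit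 5) (nat_lit 409) (nat_lit 375) (nat_lit 356)) (XT.lf (nat_lit 0) (nat_lit 385846474) (nat_lit 1292) (nat_lit 2104599345) (nat_lit 1368) (nat_lit 4456260094) (nat_lit 534) (nat_lit 5) (nat_lit 551) (nat_lit 5) (nat_lit 552) (nat_lit 5) (nat_lit 410) (nat_lit 375) (nat_lit 355))))) (XT.nd (nat_lit 234) (nat_lit 3040) (nat_lit 0) (XT.nd (nat_lit 78) (nat_lit 1444) (nat_lit 0) (XT.lf (nat_lit 0) (nat_lit 4791662839) (nat_lit 1292) (nat_lit 472378372) (nat_lit 1368) (nat_lit 1719333553) (nat_lit 534) (nat_lit 5) (nat_lit 551) (nat_lit 5) (nat_lit 552) (nat_lit 5) (nat_lit 411) (nat_lit 375) (nat_lit 354)) (XT.nd (nat_lit 78) (nat_lit 0) (nat_lit 0) (XT.lf (nat_lit 0) (nat_lit 1023348549) (nat_lit 1444) (nat_lit 4791231982) (nat_lit 76) (nat_lit 1206782049) (nat_lit 515) (nat_lit 5) (nat_lit 534) (nat_lit 5) (nat_lit 516) (nat_lit 5) (nat_lit 412) (nat_lit 375) (nat_lit 353)) (XT.lf (nat_lit 0) (nat_lit 3759287446) (nat_lit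 1444) (nat_lit 354177863) (nat_lit 76) (nat_lit 2947214981) (nat_lit 515) (nat_lit 5) (nat_lit 534) (nat_lit 5) (nat_lit 516) (nat_lit 5) (nat_lit 413) (nat_lit 375) (nat_lit 352)))) (XT.nd (nat_lit 78) (nat_lit 1596) (nat_lit 0) (XT.lf (nat_lit 0) (nat_lit 4177515007) (nat_lit 1444) (nat_lit 2344131972) (nat_lit 1520) (nat_lit 579728761) (nat_lit 496) (nat_lit 5) (nat_lit 515) (nat_lit 5) (nat_lit 516) (nat_lit 5) (nat_lit 414) (nat_lit 375) (nat_lit 351)) (XT.nd (nat_lit 78) (nat_lit 0) (nat_lit 0) (XT.lf (nat_lit 0) (nat_lit 1619443024) (nat_lit 1520) (nat_lit 505990253) (nat_lit 1596) (nat_lit 5018033644) (nat_lit 475) (nat_lit 5) (nat_lit 495) (nat_lit 5) (nat_lit 496) (nat_lit 5) (nat_lit 415) (nat_lit 375) (nat_lit 350)) (XT.lf (nat_lit 0) (nat_lit 4851340464) (nat_lit 1596) (nat_lit 955762644) (nat_lit 76) (nat_lit 1379756047) (nat_lit 475) (nat_lit 5) (nat_lit 496) (nat_lit 5) (nat_lit 476) (nat_lit 5) (nat_lit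 416) (nat_lit 375) (nat_lit 349))))))))
noncomputable def xc79 : XT := (XT.nd (nat_lit 1716) (nat_lit 8056) (nat_lit 0) (XT.nd (nat_lit 858) (nat_lit 5472) (nat_lit 0) (XT.nd (nat_lit 390) (nat_lit 3572) (nat_lit 0) (XT.nd (nat_lit 156) (nat_lit 2964) (nat_lit 0) (XT.nd (nat_lit 78) (nat_lit 1672) (nat_lit 0) (XT.lf (nat_lit 0) (nat_lit 369393203) (nat_lit 1672) (nat_lit 3534212951) (nat_lit 76) (nat_lit 3328004058) (nat_lit 453) (nat_lit 5) (nat_lit 475) (nat_lit 5) (nat_lit 454) (nat_lit 5) (nat_lit 417) (nat_lit 375) (nat_lit 348)) (XT.lf (nat_lit 0) (nat_lit 1129185460) (nat_lit 1672) (nat_lit 1928939889) (nat_lit 1748) (nat_lit 4219624868) (nat_lit 431) (nat_lit 5) (nat_lit 453) (nat_lit 5) (nat_lit 454) (nat_lit 5) (nat_lit 418) (nat_lit 375) (nat_lit 347))) (XT.nd (nat_lit 78) (nat_lit 2964) (nat_lit 0) (XT.lf (nat_lit 0) (nat_lit 5772971431) (nat_lit 1748) (nat_lit 1441609339) (nat_lit 76) (nat_lit 110807601)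 (nat_lit 431) (nat_lit 5) (nat_lit 454) (nat_lit 5) (nat_lit 432) (nat_lit 5) (nat_lit 419) (nat_lit 375) (nat_lit 346)) (XT.nd (nat_lit 78) (nat_lit 1140) (nat_lit 0) (XT.lf (nat_lit 0) (nat_lit 1136085037) (nat_lit 1824) (nat_lit 4040608683) (nat_lit 76) (nat_lit 2197489751) (nat_lit 407) (nat_lit 5) (nat_lit 431) (nat_lit 5) (nat_lit 408) (nat_lit 5) (nat_lit 420) (nat_lit 375) (nat_lit 345)) (XT.lf (nat_lit 0) (nat_lit 749828936) (nat_lit 1140) (nat_lit 3071629364) (nat_lit 1216) (nat_lit 3603034039) (nat_lit 392) (nat_lit 5) (nat_lit 407) (nat_lit 5) (nat_lit 408) (nat_lit 5) (nat_lit 421) (nat_lit 375) (nat_lit 344))))) (XT.nd (nat_lit 234) (nat_lit 1748) (nat_lit 0) (XT.nd (nat_lit 78) (nat_lit 1824) (nat_lit 0) (XT.lf (nat_lit 0) (nat_lit 5641470589) (nat_lit 1140) (nat_lit 896119593) (nat_lit 1216) (nat_lit 938696628) (nat_lit 392) (nat_lit 5) (nat_lit 407) (nat_lit 5) (nat_lit 408) (nat_lit 5) (nat_lit 422)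 (nat_lit 375) (nat_lit 343)) (XT.nd (nat_lit 78) (nat_lit 836) (nat_lit 0) (XT.lf (nat_lit 0) (nat_lit 1734978136) (nat_lit 988) (nat_lit 4456685355) (nat_lit 76) (nat_lit 1337654700) (nat_lit 379) (nat_lit 5) (nat_lit 392) (nat_lit 5) (nat_lit 380) (nat_lit 5) (nat_lit 423) (nat_lit 375) (nat_lit 342)) (XT.lf (nat_lit 0) (nat_lit 464035118) (nat_lit 836) (nat_lit 3958101379) (nat_lit 912) (nat_lit 3161717292) (nat_lit 368) (nat_lit 5) (nat_lit 379) (nat_lit 5) (nat_lit 380) (nat_lit 5) (nat_lit 424) (nat_lit 375) (nat_lit 341)))) (XT.nd (nat_lit 78) (nat_lit 1748) (nat_lit 0) (XT.lf (nat_lit 0) (nat_lit 5494152402) (nat_lit 836) (nat_lit 1650653741) (nat_lit 912) (nat_lit 495057484) (nat_lit 368) (nat_lit 5) (nat_lit 379) (nat_lit 5) (nat_lit 380) (nat_lit 5) (nat_lit 425) (nat_lit 375) (nat_lit 340)) (XT.nd (nat_lit 78) (nat_lit 836) (nat_lit 0) (XT.lf (nat_lit 0) (nat_lit 2171847951) (nat_lit 912) (nat_lit 4799682412)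 (nat_lit 76) (nat_lit 725670682) (nat_lit 356) (nat_lit 5) (nat_lit 368) (nat_lit 5) (nat_lit 357) (nat_lit 5) (nat_lit 426) (nat_lit 375) (nat_lit 339)) (XT.lf (nat_lit 0) (nat_lit 254604931) (nat_lit 836) (nat_lit 4611020113) (nat_lit 912) (nat_lit 2890409276) (nat_lit 345) (nat_lit 5) (nat_lit 356) (nat_lit 5) (nat_lit 357) (nat_lit 5) (nat_lit 427) (nat_lit 375) (nat_lit 338)))))) (XT.nd (nat_lit 390) (nat_lit 2964) (nat_lit 0) (XT.nd (nat_lit 156) (nat_lit 1596) (nat_lit 0) (XT.nd (nat_lit 78) (nat_lit 912) (nat_lit 0) (XT.lf (nat_lit 0) (nat_lit 5425635728) (nat_lit 836) (nat_lit 2173527057) (nat_lit 912) (nat_lit 217181225) (nat_lit 345) (nat_lit 5) (nat_lit 356) (nat_lit 5) (nat_lit 357) (nat_lit 5) (nat_lit 428) (nat_lit 375) (nat_lit 337)) (XT.lf (nat_lit 0) (nat_lit 2451240169) (nat_lit 912) (nat_lit 5086827338) (nat_lit 76) (nat_lit 339990463) (nat_lit 333) (nat_lit 5) (nat_lit 345) (nat_lit 5) (nat_lit 334)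 (nat_lit 5) (nat_lit 429) (nat_lit 375) (nat_lit 336))) (XT.nd (nat_lit 78) (nat_lit 836) (nat_lit 0) (XT.lf (nat_lit 0) (nat_lit 104326602) (nat_lit 760) (nat_lit 5051843166) (nat_lit 836) (nat_lit 2785103219) (nat_lit 323) (nat_lit 5) (nat_lit 333) (nat_lit 5) (nat_lit 334) (nat_lit 5) (nat_lit 430) (nat_lit 375) (nat_lit 335)) (XT.nd (nat_lit 78) (nat_lit 836) (nat_lit 0) (XT.lf (nat_lit 0) (nat_lit 5418950871) (nat_lit 760) (nat_lit 2485772429) (nat_lit 836) (nat_lit 101254621) (nat_lit 323) (nat_lit 5) (nat_lit 333) (nat_lit 5) (nat_lit 334) (nat_lit 5) (nat_lit 431) (nat_lit 375) (nat_lit 334)) (XT.lf (nat_lit 0) (nat_lit 2576484349) (nat_lit 836) (nat_lit 5335489063) (nat_lit 76) (nat_lit 160180938) (nat_lit 312) (nat_lit 5) (nat_lit 323) (nat_lit 5) (nat_lit 313) (nat_lit 5) (nat_lit 432) (nat_lit 375) (nat_lit 333))))) (XT.nd (nat_lit 234) (nat_lit 1444) (nat_lit 0) (XT.nd (nat_lit 78) (nat_lit 1520) (nat_lit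 0) (XT.lf (nat_lit 0) (nat_lit 5296835038) (nat_lit 836) (nat_lit 4125210) (nat_lit 76) (nat_lit 2838887611) (nat_lit 312) (nat_lit 5) (nat_lit 323) (nat_lit 5) (nat_lit 313) (nat_lit 5) (nat_lit 433) (nat_lit 375) (nat_lit 332)) (XT.nd (nat_lit 78) (nat_lit 836) (nat_lit 0) (XT.lf (nat_lit 0) (nat_lit 5456934782) (nat_lit 684) (nat_lit 2607415568) (nat_lit 760) (nat_lit 144704632) (nat_lit 303) (nat_lit 5) (nat_lit 312) (nat_lit 5) (nat_lit 313) (nat_lit 5) (nat_lit 434) (nat_lit 375) (nat_lit 331)) (XT.lf (nat_lit 0) (nat_lit 2549698195) (nat_lit 836) (nat_lit 5563336094) (nat_lit 76) (nat_lit 166761130) (nat_lit 292) (nat_lit 5) (nat_lit 303) (nat_lit 5) (nat_lit 293) (nat_lit 5) (nat_lit 435) (nat_lit 375) (nat_lit 330)))) (XT.nd (nat_lit 78) (nat_lit 1444) (nat_lit 0) (XT.lf (nat_lit 0) (nat_lit 5289944762) (nat_lit 836) (nat_lit 87461948) (nat_lit 76) (nat_lit 2974660995) (nat_lit 292) (nat_lit 5) (nat_lit 303)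 (nat_lit 5) (nat_lit 293) (nat_lit 5) (nat_lit 436) (nat_lit 375) (nat_lit 329)) (XT.nd (nat_lit 78) (nat_lit 760) (nat_lit 0) (XT.lf (nat_lit 0) (nat_lit 5522069737) (nat_lit 684) (nat_lit 2557635670) (nat_lit 760) (nat_lit 346199607) (nat_lit 283) (nat_lit 5) (nat_lit 292) (nat_lit 5) (nat_lit 293) (nat_lit 5) (nat_lit 437) (nat_lit 375) (nat_lit 328)) (XT.lf (nat_lit 0) (nat_lit 2371782302) (nat_lit 760) (nat_lit 5788500744) (nat_lit 76) (nat_lit 341043843) (nat_lit 273) (nat_lit 5) (nat_lit 283) (nat_lit 5) (nat_lit 274) (nat_lit 5) (nat_lit 438) (nat_lit 375) (nat_lit 327))))))) (XT.nd (nat_lit 858) (nat_lit 3648) (nat_lit 0) (XT.nd (nat_lit 390) (nat_lit 2432) (nat_lit 0) (XT.nd (nat_lit 156) (nat_lit 1368) (nat_lit 0) (XT.nd (nat_lit 78) (nat_lit 608) (nat_lit 0) (XT.lf (nat_lit 0) (nat_lit 5135554091) (nat_lit 760) (nat_lit 165018753) (nat_lit 76) (nat_lit 3277730240) (nat_lit 273) (nat_lit 5) (nat_lit 283) (nat_lit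 5) (nat_lit 274) (nat_lit 5) (nat_lit 439) (nat_lit 375) (nat_lit 326)) (XT.lf (nat_lit 0) (nat_lit 5596315263) (nat_lit 608) (nat_lit 2354923223) (nat_lit 684) (nat_lit 705660285) (nat_lit 265) (nat_lit 5) (nat_lit 273) (nat_lit 5) (nat_lit 274) (nat_lit 5) (nat_lit 440) (nat_lit 375) (nat_lit 325))) (XT.nd (nat_lit 78) (nat_lit 608) (nat_lit 0) (XT.lf (nat_lit 0) (nat_lit 2042405157) (nat_lit 760) (nat_lit 6029750896) (nat_lit 76) (nat_lit 664979734) (nat_lit 255) (nat_lit 5) (nat_lit 265) (nat_lit 5) (nat_lit 256) (nat_lit 5) (nat_lit 441) (nat_lit 375) (nat_lit 324)) (XT.nd (nat_lit 78) (nat_lit 608) (nat_lit 0) (XT.lf (nat_lit 0) (nat_lit 4833166152) (nat_lit 760) (nat_lit 255425204) (nat_lit 76) (nat_lit 3730361219) (nat_lit 255) (nat_lit 5) (nat_lit 265) (nat_lit 5) (nat_lit 256) (nat_lit 5) (nat_lit 442) (nat_lit 375) (nat_lit 323)) (XT.lf (nat_lit 0) (nat_lit 5660931808) (nat_lit 608) (nat_lit 2017236202) (nat_lit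 684) (nat_lit 1224280918) (nat_lit 247) (nat_lit 5) (nat_lit 255) (nat_lit 5) (nat_lit 256) (nat_lit 5) (nat_lit 443) (nat_lit 375) (nat_lit 322))))) (XT.nd (nat_lit 234) (nat_lit 1216) (nat_lit 0) (XT.nd (nat_lit 78) (nat_lit 532) (nat_lit 0) (XT.lf (nat_lit 0) (nat_lit 1559978070) (nat_lit 684) (nat_lit 6306670858) (nat_lit 76) (nat_lit 1121002612) (nat_lit 238) (nat_lit 5) (nat_lit 247) (nat_lit 5) (nat_lit 239) (nat_lit 5) (nat_lit 444) (nat_lit 375) (nat_lit 321)) (XT.nd (nat_lit 78) (nat_lit 532) (nat_lit 0) (XT.lf (nat_lit 0) (nat_lit 4381027572) (nat_lit 684) (nat_lit 378155845) (nat_lit 76) (nat_lit 4315274033) (nat_lit 238) (nat_lit 5) (nat_lit 247) (nat_lit 5) (nat_lit 239) (nat_lit 5) (nat_lit 445) (nat_lit 375) (nat_lit 320)) (XT.lf (nat_lit 0) (nat_lit 5696294559) (nat_lit 532) (nat_lit 1562155873) (nat_lit 608) (nat_lit 1904560850) (nat_lit 231) (nat_lit 5) (nat_lit 238) (nat_lit 5) (nat_lit 239) (nat_lit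 5) (nat_lit 446) (nat_lit 375) (nat_lit 319)))) (XT.nd (nat_lit 78) (nat_lit 532) (nat_lit 0) (XT.lf (nat_lit 0) (nat_lit 921619648) (nat_lit 684) (nat_lit 6639852929) (nat_lit 76) (nat_lit 1691874700) (nat_lit 222) (nat_lit 5) (nat_lit 231) (nat_lit 5) (nat_lit 223) (nat_lit 5) (nat_lit 447) (nat_lit 375) (nat_lit 318)) (XT.nd (nat_lit 78) (nat_lit 532) (nat_lit 0) (XT.lf (nat_lit 0) (nat_lit 3776090841) (nat_lit 684) (nat_lit 553723510) (nat_lit 76) (nat_lit 5015488699) (nat_lit 222) (nat_lit 5) (nat_lit 231) (nat_lit 5) (nat_lit 223) (nat_lit 5) (nat_lit 448) (nat_lit 375) (nat_lit 317)) (XT.lf (nat_lit 0) (nat_lit 5681695706) (nat_lit 532) (nat_lit 1007043477) (nat_lit 608) (nat_lit 2750347025) (nat_lit 215) (nat_lit 5) (nat_lit 222) (nat_lit 5) (nat_lit 223) (nat_lit 5) (nat_lit 449) (nat_lit 375) (nat_lit 316)))))) (XT.nd (nat_lit 390) (nat_lit 1900) (nat_lit 0) (XT.nd (nat_lit 156) (nat_lit 1140) (nat_lit 0) (XT.nd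 (nat_lit 78) (nat_lit 0) (nat_lit 0) (XT.lf (nat_lit 0) (nat_lit 123109319) (nat_lit 608) (nat_lit 7051101465) (nat_lit 76) (nat_lit 2360530625) (nat_lit 207) (nat_lit 5) (nat_lit 215) (nat_lit 5) (nat_lit 208) (nat_lit 5) (nat_lit 450) (nat_lit 375) (nat_lit 315)) (XT.lf (nat_lit 0) (nat_lit 3013965625) (nat_lit 608) (nat_lit 803885493) (nat_lit 76) (nat_lit 5814169285) (nat_lit 207) (nat_lit 5) (nat_lit 215) (nat_lit 5) (nat_lit 208) (nat_lit 5) (nat_lit 451) (nat_lit 375) (nat_lit 314))) (XT.nd (nat_lit 78) (nat_lit 608) (nat_lit 0) (XT.lf (nat_lit 0) (nat_lit 5595133312) (nat_lit 532) (nat_lit 369199089) (nat_lit 608) (nat_lit 3766887971) (nat_lit 200) (nat_lit 5) (nat_lit 207) (nat_lit 5) (nat_lit 208) (nat_lit 5) (nat_lit 452) (nat_lit 375) (nat_lit 313)) (XT.nd (nat_lit 78) (nat_lit 76) (nat_lit 0) (XT.lf (nat_lit 0) (nat_lit 2263103426) (nat_lit 532) (nat_lit 6716835936) (nat_lit 608) (nat_lit 852349400) (nat_lit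 193) (nat_lit 5) (nat_lit 200) (nat_lit 5) (nat_lit 201) (nat_lit 5) (nat_lit 453) (nat_lit 375) (nat_lit 312)) (XT.lf (nat_lit 0) (nat_lit 2088858439) (nat_lit 608) (nat_lit 1151864500) (nat_lit 76) (nat_lit 6694465175) (nat_lit 192) (nat_lit 5) (nat_lit 200) (nat_lit 5) (nat_lit 193) (nat_lit 5) (nat_lit 454) (nat_lit 375) (nat_lit 311))))) (XT.nd (nat_lit 234) (nat_lit 912) (nat_lit 0) (XT.nd (nat_lit 78) (nat_lit 532) (nat_lit 0) (XT.lf (nat_lit 0) (nat_lit 5081277184) (nat_lit 532) (nat_lit 4629092287) (nat_lit 76) (nat_lit 329595865) (nat_lit 186) (nat_lit 5) (nat_lit 193) (nat_lit 5) (nat_lit 187) (nat_lit 5) (nat_lit 455) (nat_lit 375) (nat_lit 310)) (XT.nd (nat_lit 78) (nat_lit 76) (nat_lit 0) (XT.lf (nat_lit 0) (nat_lit 1931257904) (nat_lit 456) (nat_lit 6210821677) (nat_lit 532) (nat_lit 2004596201) (nat_lit 180) (nat_lit 5) (nat_lit 186) (nat_lit 5) (nat_lit 187) (nat_lit 5) (nat_lit 456) (nat_lit 375) (nat_lit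 309)) (XT.lf (nat_lit 0) (nat_lit 993499958) (nat_lit 532) (nat_lit 1622586444) (nat_lit 76) (nat_lit 7639348131) (nat_lit 179) (nat_lit 5) (nat_lit 186) (nat_lit 5) (nat_lit 180) (nat_lit 5) (nat_lit 457) (nat_lit 375) (nat_lit 308)))) (XT.nd (nat_lit 78) (nat_lit 456) (nat_lit 0) (XT.lf (nat_lit 0) (nat_lit 4032494203) (nat_lit 532) (nat_lit 5262876988) (nat_lit 76) (nat_lit 1070584609) (nat_lit 173) (nat_lit 5) (nat_lit 180) (nat_lit 5) (nat_lit 174) (nat_lit 5) (nat_lit 458) (nat_lit 375) (nat_lit 307)) (XT.nd (nat_lit 78) (nat_lit 0) (nat_lit 0) (XT.lf (nat_lit 0) (nat_lit 1462718745) (nat_lit 456) (nat_lit 5675119414) (nat_lit 532) (nat_lit 3340745687) (nat_lit 167) (nat_lit 5) (nat_lit 173) (nat_lit 5) (nat_lit 174) (nat_lit 5) (nat_lit 459) (nat_lit 375) (nat_lit 306)) (XT.lf (nat_lit 0) (nat_lit 8348617595) (nat_lit 456) (nat_lit 1960111256) (nat_lit 532) (nat_lit 284674400) (nat_lit 167) (nat_lit 5) (nat_lit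 173) (nat_lit 5) (nat_lit 174) (nat_lit 5) (nat_lit 460) (nat_lit 375) (nat_lit 305))))))))
noncomputable def xc80 : XT := (XT.nd (nat_lit 1638) (nat_lit 3648) (nat_lit 0) (XT.nd (nat_lit 780) (nat_lit 2204) (nat_lit 0) (XT.nd (nat_lit 390) (nat_lit 1596) (nat_lit 0) (XT.nd (nat_lit 156) (nat_lit 456) (nat_lit 0) (XT.nd (nat_lit 78) (nat_lit 456) (nat_lit 0) (XT.lf (nat_lit 0) (nat_lit 2806264929) (nat_lit 456) (nat_lit 6062940738) (nat_lit 76) (nat_lit 1840734956) (nat_lit 161) (nat_lit 5) (nat_lit 167) (nat_lit 5) (nat_lit 162) (nat_lit 5) (nat_lit 461) (nat_lit 375) (nat_lit 304)) (XT.lf (nat_lit 0) (nat_lit 829124936) (nat_lit 456) (nat_lit 5128388961) (nat_lit 532) (nat_lit 4871218317) (nat_lit 155) (nat_lit 5) (nat_lit 161) (nat_lit 5) (nat_lit 162) (nat_lit 5) (nat_lit 462) (nat_lit 375) (nat_lit 303))) (XT.nd (nat_lit 78) (nat_lit 456) (nat_lit 0) (XT.lf (nat_lit 0) (nat_lit 7896189250) (nat_lit 456) (nat_lit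 1285375621) (nat_lit 532) (nat_lit 1768146244) (nat_lit 155) (nat_lit 5) (nat_lit 161) (nat_lit 5) (nat_lit 162) (nat_lit 5) (nat_lit 463) (nat_lit 375) (nat_lit 302)) (XT.nd (nat_lit 78) (nat_lit 0) (nat_lit 0) (XT.lf (nat_lit 0) (nat_lit 1391572819) (nat_lit 456) (nat_lit 7059546838) (nat_lit 76) (nat_lit 2621557134) (nat_lit 149) (nat_lit 5) (nat_lit 155) (nat_lit 5) (nat_lit 150) (nat_lit 5) (nat_lit 464) (nat_lit 375) (nat_lit 301)) (XT.lf (nat_lit 0) (nat_lit 4589681388) (nat_lit 456) (nat_lit 326453) (nat_lit 76) (nat_lit 6607889391) (nat_lit 149) (nat_lit 5) (nat_lit 155) (nat_lit 5) (nat_lit 150) (nat_lit 5) (nat_lit 465) (nat_lit 375) (nat_lit 300))))) (XT.nd (nat_lit 156) (nat_lit 836) (nat_lit 0) (XT.nd (nat_lit 78) (nat_lit 380) (nat_lit 0) (XT.lf (nat_lit 0) (nat_lit 7251275325) (nat_lit 380) (nat_lit 617860434) (nat_lit 456) (nat_lit 3456145136) (nat_lit 144) (nat_lit 5) (nat_lit 149) (nat_lit 5) (nat_lit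 150) (nat_lit 5) (nat_lit 466) (nat_lit 375) (nat_lit 299)) (XT.lf (nat_lit 0) (nat_lit 3167836116) (nat_lit 380) (nat_lit 8059717374) (nat_lit 456) (nat_lit 227397611) (nat_lit 139) (nat_lit 5) (nat_lit 144) (nat_lit 5) (nat_lit 145) (nat_lit 5) (nat_lit 467) (nat_lit 375) (nat_lit 298))) (XT.nd (nat_lit 78) (nat_lit 760) (nat_lit 0) (XT.lf (nat_lit 0) (nat_lit 3027930764) (nat_lit 456) (nat_lit 1045332389) (nat_lit 76) (nat_lit 7513515227) (nat_lit 138) (nat_lit 5) (nat_lit 144) (nat_lit 5) (nat_lit 139) (nat_lit 5) (nat_lit 468) (nat_lit 375) (nat_lit 297)) (XT.nd (nat_lit 78) (nat_lit 380) (nat_lit 0) (XT.lf (nat_lit 0) (nat_lit 6358072353) (nat_lit 456) (nat_lit 5341011169) (nat_lit 76) (nat_lit 21879581) (nat_lit 133) (nat_lit 5) (nat_lit 139) (nat_lit 5) (nat_lit 134) (nat_lit 5) (nat_lit 469) (nat_lit 375) (nat_lit 296)) (XT.lf (nat_lit 0) (nat_lit 2066750359) (nat_lit 380) (nat_lit 7706893477) (nat_lit 456)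 (nat_lit 2083817015) (nat_lit 128) (nat_lit 5) (nat_lit 133) (nat_lit 5) (nat_lit 134) (nat_lit 5) (nat_lit 470) (nat_lit 375) (nat_lit 295)))))) (XT.nd (nat_lit 390) (nat_lit 988) (nat_lit 0) (XT.nd (nat_lit 156) (nat_lit 760) (nat_lit 0) (XT.nd (nat_lit 78) (nat_lit 380) (nat_lit 0) (XT.lf (nat_lit 0) (nat_lit 1251839336) (nat_lit 456) (nat_lit 2352981967) (nat_lit 76) (nat_lit 8391558427) (nat_lit 127) (nat_lit 5) (nat_lit 133) (nat_lit 5) (nat_lit 128) (nat_lit 5) (nat_lit 471) (nat_lit 375) (nat_lit 294)) (XT.lf (nat_lit 0) (nat_lit 4636391612) (nat_lit 456) (nat_lit 6895964207) (nat_lit 76) (nat_lit 605249518) (nat_lit 122) (nat_lit 5) (nat_lit 128) (nat_lit 5) (nat_lit 123) (nat_lit 5) (nat_lit 472) (nat_lit 375) (nat_lit 293))) (XT.nd (nat_lit 78) (nat_lit 456) (nat_lit 0) (XT.lf (nat_lit 0) (nat_lit 680683460) (nat_lit 304) (nat_lit 7424333252) (nat_lit 380) (nat_lit 4176316537) (nat_lit 118) (nat_lit 5) (nat_lit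 122) (nat_lit 5) (nat_lit 123) (nat_lit 5) (nat_lit 473) (nat_lit 375) (nat_lit 292)) (XT.nd (nat_lit 78) (nat_lit 456) (nat_lit 0) (XT.lf (nat_lit 0) (nat_lit 8459644857) (nat_lit 304) (nat_lit 3202108017) (nat_lit 380) (nat_lit 765813390) (nat_lit 118) (nat_lit 5) (nat_lit 122) (nat_lit 5) (nat_lit 123) (nat_lit 5) (nat_lit 474) (nat_lit 375) (nat_lit 291)) (XT.lf (nat_lit 0) (nat_lit 2682214105) (nat_lit 456) (nat_lit 8776220779) (nat_lit 76) (nat_lit 1117844001) (nat_lit 112) (nat_lit 5) (nat_lit 118) (nat_lit 5) (nat_lit 113) (nat_lit 5) (nat_lit 475) (nat_lit 375) (nat_lit 290))))) (XT.nd (nat_lit 234) (nat_lit 304) (nat_lit 0) (XT.nd (nat_lit 78) (nat_lit 684) (nat_lit 0) (XT.lf (nat_lit 0) (nat_lit 6209948751) (nat_lit 456) (nat_lit 1019096806) (nat_lit 76) (nat_lit 5498403955) (nat_lit 112) (nat_lit 5) (nat_lit 118) (nat_lit 5) (nat_lit 113) (nat_lit 5) (nat_lit 476) (nat_lit 375) (nat_lit 289)) (XT.nd (nat_lit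 78) (nat_lit 380) (nat_lit 0) (XT.lf (nat_lit 0) (nat_lit 6942662089) (nat_lit 304) (nat_lit 2884164196) (nat_lit 380) (nat_lit 3054450418) (nat_lit 108) (nat_lit 5) (nat_lit 112) (nat_lit 5) (nat_lit 113) (nat_lit 5) (nat_lit 477) (nat_lit 375) (nat_lit 288)) (XT.lf (nat_lit 0) (nat_lit 475287192) (nat_lit 380) (nat_lit 11027211359) (nat_lit 76) (nat_lit 1535550688) (nat_lit 103) (nat_lit 5) (nat_lit 108) (nat_lit 5) (nat_lit 104) (nat_lit 5) (nat_lit 478) (nat_lit 375) (nat_lit 287)))) (XT.nd (nat_lit 78) (nat_lit 304) (nat_lit 0) (XT.lf (nat_lit 0) (nat_lit 4067709521) (nat_lit 380) (nat_lit 3078773195) (nat_lit 76) (nat_lit 6050415562) (nat_lit 103) (nat_lit 5) (nat_lit 108) (nat_lit 5) (nat_lit 104) (nat_lit 5) (nat_lit 479) (nat_lit 375) (nat_lit 286)) (XT.nd (nat_lit 78) (nat_lit 0) (nat_lit 0) (XT.lf (nat_lit 0) (nat_lit 5053937209) (nat_lit 304) (nat_lit 2685106849) (nat_lit 380) (nat_lit 5619743503) (nat_lit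 99) (nat_lit 5) (nat_lit 103) (nat_lit 5) (nat_lit 104) (nat_lit 5) (nat_lit 480) (nat_lit 375) (nat_lit 285)) (XT.lf (nat_lit 0) (nat_lit 11491106472) (nat_lit 380) (nat_lit 185841040) (nat_lit 76) (nat_lit 1846825544) (nat_lit 99) (nat_lit 5) (nat_lit 104) (nat_lit 5) (nat_lit 100) (nat_lit 5) (nat_lit 481) (nat_lit 375) (nat_lit 284))))))) (XT.nd (nat_lit 858) (nat_lit 1520) (nat_lit 0) (XT.nd (nat_lit 390) (nat_lit 1064) (nat_lit 0) (XT.nd (nat_lit 156) (nat_lit 380) (nat_lit 0) (XT.nd (nat_lit 78) (nat_lit 304) (nat_lit 0) (XT.lf (nat_lit 0) (nat_lit 1650676325) (nat_lit 380) (nat_lit 5557751283) (nat_lit 76) (nat_lit 6482506735) (nat_lit 94) (nat_lit 5) (nat_lit 99) (nat_lit 5) (nat_lit 95) (nat_lit 5) (nat_lit 482) (nat_lit 375) (nat_lit 283)) (XT.lf (nat_lit 0) (nat_lit 2741790814) (nat_lit 304) (nat_lit 2632717703) (nat_lit 380) (nat_lit 8486785020) (nat_lit 90) (nat_lit 5) (nat_lit 94) (nat_lit 5) (nat_lit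 95) (nat_lit 5) (nat_lit 483) (nat_lit 375) (nat_lit 282))) (XT.nd (nat_lit 78) (nat_lit 380) (nat_lit 0) (XT.lf (nat_lit 0) (nat_lit 9198657733) (nat_lit 380) (nat_lit 2805636508) (nat_lit 76) (nat_lit 2030252976) (nat_lit 90) (nat_lit 5) (nat_lit 95) (nat_lit 5) (nat_lit 91) (nat_lit 5) (nat_lit 484) (nat_lit 375) (nat_lit 281)) (XT.nd (nat_lit 78) (nat_lit 76) (nat_lit 0) (XT.lf (nat_lit 0) (nat_lit 5691991261) (nat_lit 304) (nat_lit 7437267119) (nat_lit 380) (nat_lit 1081412253) (nat_lit 86) (nat_lit 5) (nat_lit 90) (nat_lit 5) (nat_lit 91) (nat_lit 5) (nat_lit 485) (nat_lit 375) (nat_lit 280)) (XT.lf (nat_lit 0) (nat_lit 2706699456) (nat_lit 380) (nat_lit 50103084) (nat_lit 76) (nat_lit 11633269246) (nat_lit 85) (nat_lit 5) (nat_lit 90) (nat_lit 5) (nat_lit 86) (nat_lit 5) (nat_lit 486) (nat_lit 375) (nat_lit 279))))) (XT.nd (nat_lit 234) (nat_lit 532) (nat_lit 0) (XT.nd (nat_lit 78) (nat_lit 304) (nat_lit 0) (XT.lf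 (nat_lit 0) (nat_lit 6601834024) (nat_lit 304) (nat_lit 5930514826) (nat_lit 76) (nat_lit 2039658134) (nat_lit 82) (nat_lit 5) (nat_lit 86) (nat_lit 5) (nat_lit 83) (nat_lit 5) (nat_lit 487) (nat_lit 375) (nat_lit 278)) (XT.nd (nat_lit 78) (nat_lit 0) (nat_lit 0) (XT.lf (nat_lit 0) (nat_lit 2728408273) (nat_lit 304) (nat_lit 7859005012) (nat_lit 380) (nat_lit 4169920486) (nat_lit 78) (nat_lit 5) (nat_lit 82) (nat_lit 5) (nat_lit 83) (nat_lit 5) (nat_lit 488) (nat_lit 375) (nat_lit 277)) (XT.lf (nat_lit 0) (nat_lit 11602016626) (nat_lit 304) (nat_lit 3066929918) (nat_lit 380) (nat_lit 277099351) (nat_lit 78) (nat_lit 5) (nat_lit 82) (nat_lit 5) (nat_lit 83) (nat_lit 5) (nat_lit 489) (nat_lit 375) (nat_lit 276)))) (XT.nd (nat_lit 78) (nat_lit 228) (nat_lit 0) (XT.lf (nat_lit 0) (nat_lit 3669877433) (nat_lit 304) (nat_lit 9625317600) (nat_lit 76) (nat_lit 1842366291) (nat_lit 74) (nat_lit 5) (nat_lit 78) (nat_lit 5) (nat_lit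 75) (nat_lit 5) (nat_lit 490) (nat_lit 375) (nat_lit 275)) (XT.nd (nat_lit 78) (nat_lit 228) (nat_lit 0) (XT.lf (nat_lit 0) (nat_lit 7711847070) (nat_lit 304) (nat_lit 802327469) (nat_lit 76) (nat_lit 6818304057) (nat_lit 74) (nat_lit 5) (nat_lit 78) (nat_lit 5) (nat_lit 75) (nat_lit 5) (nat_lit 491) (nat_lit 375) (nat_lit 274)) (XT.lf (nat_lit 0) (nat_lit 8267765412) (nat_lit 228) (nat_lit 3597884824) (nat_lit 304) (nat_lit 3665027469) (nat_lit 71) (nat_lit 5) (nat_lit 74) (nat_lit 5) (nat_lit 75) (nat_lit 5) (nat_lit 492) (nat_lit 375) (nat_lit 273)))))) (XT.nd (nat_lit 390) (nat_lit 684) (nat_lit 0) (XT.nd (nat_lit 156) (nat_lit 532) (nat_lit 0) (XT.nd (nat_lit 78) (nat_lit 0) (nat_lit 0) (XT.lf (nat_lit 0) (nat_lit 368411016) (nat_lit 304) (nat_lit 13961664770) (nat_lit 76) (nat_lit 1402648828) (nat_lit 67) (nat_lit 5) (nat_lit 71) (nat_lit 5) (nat_lit 68) (nat_lit 5) (nat_lit 493) (nat_lit 375) (nat_lit 272)) (XT.lf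 (nat_lit 0) (nat_lit 4483841764) (nat_lit 304) (nat_lit 4940047356) (nat_lit 76) (nat_lit 6513434041) (nat_lit 67) (nat_lit 5) (nat_lit 71) (nat_lit 5) (nat_lit 68) (nat_lit 5) (nat_lit 494) (nat_lit 375) (nat_lit 271))) (XT.nd (nat_lit 78) (nat_lit 304) (nat_lit 0) (XT.lf (nat_lit 0) (nat_lit 4280941607) (nat_lit 228) (nat_lit 4406340656) (nat_lit 304) (nat_lit 7458620508) (nat_lit 64) (nat_lit 5) (nat_lit 67) (nat_lit 5) (nat_lit 68) (nat_lit 5) (nat_lit 495) (nat_lit 375) (nat_lit 270)) (XT.nd (nat_lit 78) (nat_lit 304) (nat_lit 0) (XT.lf (nat_lit 0) (nat_lit 12990783207) (nat_lit 304) (nat_lit 2646821044) (nat_lit 76) (nat_lit 720732945) (nat_lit 64) (nat_lit 5) (nat_lit 68) (nat_lit 5) (nat_lit 65) (nat_lit 5) (nat_lit 496) (nat_lit 375) (nat_lit 269)) (XT.lf (nat_lit 0) (nat_lit 846737656) (nat_lit 304) (nat_lit 9800728130) (nat_lit 76) (nat_lit 5926413566) (nat_lit 60) (nat_lit 5) (nat_lit 64) (nat_lit 5) (nat_lit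 61) (nat_lit 5) (nat_lit 497) (nat_lit 375) (nat_lit 268))))) (XT.nd (nat_lit 234) (nat_lit 304) (nat_lit 0) (XT.nd (nat_lit 78) (nat_lit 380) (nat_lit 0) (XT.lf (nat_lit 0) (nat_lit 5096620626) (nat_lit 304) (nat_lit 435016606) (nat_lit 76) (nat_lit 11261724868) (nat_lit 60) (nat_lit 5) (nat_lit 64) (nat_lit 5) (nat_lit 61) (nat_lit 5) (nat_lit 498) (nat_lit 375) (nat_lit 267)) (XT.nd (nat_lit 78) (nat_lit 152) (nat_lit 0) (XT.lf (nat_lit 0) (nat_lit 9202802154) (nat_lit 228) (nat_lit 267347543) (nat_lit 304) (nat_lit 7546314659) (nat_lit 57) (nat_lit 5) (nat_lit 60) (nat_lit 5) (nat_lit 61) (nat_lit 5) (nat_lit 499) (nat_lit 375) (nat_lit 266)) (XT.lf (nat_lit 0) (nat_lit 1749104609) (nat_lit 152) (nat_lit 12208450851) (nat_lit 228) (nat_lit 3285947842) (nat_lit 55) (nat_lit 5) (nat_lit 57) (nat_lit 5) (nat_lit 58) (nat_lit 5) (nat_lit 500) (nat_lit 375) (nat_lit 265)))) (XT.nd (nat_lit 78) (nat_lit 228) (nat_lit 0)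 (XT.lf (nat_lit 0) (nat_lit 1079304117) (nat_lit 228) (nat_lit 5910026147) (nat_lit 76) (nat_lit 10484946325) (nat_lit 54) (nat_lit 5) (nat_lit 57) (nat_lit 5) (nat_lit 55) (nat_lit 5) (nat_lit 501) (nat_lit 375) (nat_lit 264)) (XT.nd (nat_lit 78) (nat_lit 0) (nat_lit 0) (XT.lf (nat_lit 0) (nat_lit 3859560805) (nat_lit 228) (nat_lit 1632836185) (nat_lit 304) (nat_lit 12216745865) (nat_lit 51) (nat_lit 5) (nat_lit 54) (nat_lit 5) (nat_lit 55) (nat_lit 5) (nat_lit 502) (nat_lit 375) (nat_lit 263)) (XT.lf (nat_lit 0) (nat_lit 10038060389) (nat_lit 304) (nat_lit 4103809514) (nat_lit 76) (nat_lit 3805952926) (nat_lit 51) (nat_lit 5) (nat_lit 55) (nat_lit 5) (nat_lit 52) (nat_lit 5) (nat_lit 503) (nat_lit 375) (nat_lit 262))))))))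
noncomputable def xc81 : XT := (XT.nd (nat_lit 51870) (nat_lit 0) (nat_lit 21660) (XT.nd (nat_lit 51012) (nat_lit 0) (nat_lit 39520) (XT.nd (nat_lit 50544) (nat_lit 0) (nat_lit 46284) (XT.nd (nat_lit 50310) (nat_lit 0) (nat_lit 48032) (XT.nd (nat_lit 78) (nat_lit 76) (nat_lit 0) (XT.lf (nat_lit 0) (nat_lit 5868310251) (nat_lit 152) (nat_lit 8835157546) (nat_lit 228) (nat_lit 3487234496) (nat_lit 49) (nat_lit 5) (nat_lit 51) (nat_lit 5) (nat_lit 52) (nat_lit 5) (nat_lit 504) (nat_lit 375) (nat_lit 261)) (XT.lf (nat_lit 0) (nat_lit 1017990372) (nat_lit 228) (nat_lit 2383976248) (nat_lit 76) (nat_lit 15036188741) (nat_lit 48) (nat_lit 5) (nat_lit 51) (nat_lit 5) (nat_lit 49) (nat_lit 5) (nat_lit 505) (nat_lit 375) (nat_lit 260))) (XT.nd (nat_lit 78) (nat_lit 456) (nat_lit 0) (XT.lf (nat_lit 0) (nat_lit 152651639) (nat_lit 380) (nat_lit 2931413271) (nat_lit 0) (nat_lit 152651639) (nat_lit 686) (nat_lit 5) (nat_lit 691) (nat_lit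 4) (nat_lit 686) (nat_lit 4) (nat_lit 388) (nat_lit 376) (nat_lit 376)) (XT.nd (nat_lit 78) (nat_lit 456) (nat_lit 0) (XT.lf (nat_lit 0) (nat_lit 3418678604) (nat_lit 380) (nat_lit 2356058583) (nat_lit 0) (nat_lit 706948913) (nat_lit 686) (nat_lit 5) (nat_lit 691) (nat_lit 4) (nat_lit 686) (nat_lit 4) (nat_lit 389) (nat_lit 376) (nat_lit 375)) (XT.lf (nat_lit 0) (nat_lit 33546072) (nat_lit 456) (nat_lit 5302525146) (nat_lit 76) (nat_lit 1155453408) (nat_lit 680) (nat_lit 5) (nat_lit 686) (nat_lit 5) (nat_lit 681) (nat_lit 4) (nat_lit 390) (nat_lit 376) (nat_lit 374))))) (XT.nd (nat_lit 234) (nat_lit 1216) (nat_lit 0) (XT.nd (nat_lit 78) (nat_lit 532) (nat_lit 0) (XT.lf (nat_lit 0) (nat_lit 3091098478) (nat_lit 456) (nat_lit 1732699209) (nat_lit 76) (nat_lit 1678602651) (nat_lit 680) (nat_lit 5) (nat_lit 686) (nat_lit 5) (nat_lit 681) (nat_lit 4) (nat_lit 391) (nat_lit 376) (nat_lit 373)) (XT.nd (nat_lit 78) (nat_lit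 76) (nat_lit 0) (XT.lf (nat_lit 0) (nat_lit 1886240381) (nat_lit 456) (nat_lit 4261423960) (nat_lit 532) (nat_lit 367118027) (nat_lit 674) (nat_lit 5) (nat_lit 680) (nat_lit 5) (nat_lit 681) (nat_lit 4) (nat_lit 392) (nat_lit 376) (nat_lit 372)) (XT.lf (nat_lit 0) (nat_lit 2639986506) (nat_lit 532) (nat_lit 991723496) (nat_lit 76) (nat_lit 2896631855) (nat_lit 673) (nat_lit 5) (nat_lit 680) (nat_lit 5) (nat_lit 674) (nat_lit 5) (nat_lit 393) (nat_lit 376) (nat_lit 371)))) (XT.nd (nat_lit 78) (nat_lit 684) (nat_lit 0) (XT.lf (nat_lit 0) (nat_lit 2704064040) (nat_lit 532) (nat_lit 2943502200) (nat_lit 608) (nat_lit 895696184) (nat_lit 666) (nat_lit 5) (nat_lit 673) (nat_lit 5) (nat_lit 674) (nat_lit 5) (nat_lit 394) (nat_lit 376) (nat_lit 370)) (XT.nd (nat_lit 78) (nat_lit 608) (nat_lit 0) (XT.lf (nat_lit 0) (nat_lit 2063518383) (nat_lit 608) (nat_lit 132672622) (nat_lit 76) (nat_lit 4363352253) (nat_lit 665) (nat_lit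 5) (nat_lit 673) (nat_lit 5) (nat_lit 666) (nat_lit 5) (nat_lit 395) (nat_lit 376) (nat_lit 369)) (XT.lf (nat_lit 0) (nat_lit 3643278095) (nat_lit 608) (nat_lit 1380007828) (nat_lit 684) (nat_lit 1553719026) (nat_lit 657) (nat_lit 5) (nat_lit 665) (nat_lit 5) (nat_lit 666) (nat_lit 5) (nat_lit 396) (nat_lit 376) (nat_lit 368)))))) (XT.nd (nat_lit 390) (nat_lit 4332) (nat_lit 0) (XT.nd (nat_lit 156) (nat_lit 1672) (nat_lit 0) (XT.nd (nat_lit 78) (nat_lit 0) (nat_lit 0) (XT.lf (nat_lit 0) (nat_lit 856360248) (nat_lit 684) (nat_lit 508822077) (nat_lit 760) (nat_lit 5230750247) (nat_lit 647) (nat_lit 5) (nat_lit 656) (nat_lit 5) (nat_lit 657) (nat_lit 5) (nat_lit 397) (nat_lit 376) (nat_lit 367)) (XT.lf (nat_lit 0) (nat_lit 4275440229) (nat_lit 760) (nat_lit 1914172243) (nat_lit 76) (nat_lit 426383752) (nat_lit 647) (nat_lit 5) (nat_lit 657) (nat_lit 5) (nat_lit 648) (nat_lit 5) (nat_lit 398) (nat_lit 376) (nat_lit 366)))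 (XT.nd (nat_lit 78) (nat_lit 836) (nat_lit 0) (XT.lf (nat_lit 0) (nat_lit 548035982) (nat_lit 836) (nat_lit 4678527594) (nat_lit 76) (nat_lit 1410884522) (nat_lit 636) (nat_lit 5) (nat_lit 647) (nat_lit 5) (nat_lit 637) (nat_lit 5) (nat_lit 399) (nat_lit 376) (nat_lit 365)) (XT.nd (nat_lit 78) (nat_lit 836) (nat_lit 0) (XT.lf (nat_lit 0) (nat_lit 3409379081) (nat_lit 836) (nat_lit 787352572) (nat_lit 76) (nat_lit 2463397859) (nat_lit 636) (nat_lit 5) (nat_lit 647) (nat_lit 5) (nat_lit 637) (nat_lit 5) (nat_lit 400) (nat_lit 376) (nat_lit 364)) (XT.lf (nat_lit 0) (nat_lit 3176127668) (nat_lit 836) (nat_lit 3107109432) (nat_lit 912) (nat_lit 400957295) (nat_lit 625) (nat_lit 5) (nat_lit 636) (nat_lit 5) (nat_lit 637) (nat_lit 5) (nat_lit 401) (nat_lit 376) (nat_lit 363))))) (XT.nd (nat_lit 234) (nat_lit 2280) (nat_lit 0) (XT.nd (nat_lit 78) (nat_lit 1064) (nat_lit 0) (XT.lf (nat_lit 0) (nat_lit 462923169) (nat_lit 912)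 (nat_lit 1953550909) (nat_lit 988) (nat_lit 4293105188) (nat_lit 612) (nat_lit 5) (nat_lit 624) (nat_lit 5) (nat_lit 625) (nat_lit 5) (nat_lit 402) (nat_lit 376) (nat_lit 362)) (XT.nd (nat_lit 78) (nat_lit 1064) (nat_lit 0) (XT.lf (nat_lit 0) (nat_lit 4510750181) (nat_lit 912) (nat_lit 733809151) (nat_lit 988) (nat_lit 1491699561) (nat_lit 612) (nat_lit 5) (nat_lit 624) (nat_lit 5) (nat_lit 625) (nat_lit 5) (nat_lit 403) (nat_lit 376) (nat_lit 361)) (XT.lf (nat_lit 0) (nat_lit 1300298414) (nat_lit 1064) (nat_lit 4923907637) (nat_lit 76) (nat_lit 540071439) (nat_lit 598) (nat_lit 5) (nat_lit 612) (nat_lit 5) (nat_lit 599) (nat_lit 5) (nat_lit 404) (nat_lit 376) (nat_lit 360)))) (XT.nd (nat_lit 78) (nat_lit 2280) (nat_lit 0) (XT.lf (nat_lit 0) (nat_lit 4086052941) (nat_lit 1064) (nat_lit 838106393) (nat_lit 76) (nat_lit 1869373725) (nat_lit 598) (nat_lit 5) (nat_lit 612) (nat_lit 5) (nat_lit 599) (nat_lit 5) (nat_lit 405)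 (nat_lit 376) (nat_lit 359)) (XT.nd (nat_lit 78) (nat_lit 1140) (nat_lit 0) (XT.lf (nat_lit 0) (nat_lit 63279138) (nat_lit 1140) (nat_lit 3499074203) (nat_lit 76) (nat_lit 3261827333) (nat_lit 583) (nat_lit 5) (nat_lit 598) (nat_lit 5) (nat_lit 584) (nat_lit 5) (nat_lit 406) (nat_lit 376) (nat_lit 358)) (XT.lf (nat_lit 0) (nat_lit 670426784) (nat_lit 1140) (nat_lit 2132475855) (nat_lit 1216) (nat_lit 4053216420) (nat_lit 568) (nat_lit 5) (nat_lit 583) (nat_lit 5) (nat_lit 584) (nat_lit 5) (nat_lit 407) (nat_lit 376) (nat_lit 357))))))) (XT.nd (nat_lit 858) (nat_lit 7448) (nat_lit 0) (XT.nd (nat_lit 390) (nat_lit 6384) (nat_lit 0) (XT.nd (nat_lit 156) (nat_lit 2736) (nat_lit 0) (XT.nd (nat_lit 78) (nat_lit 1292) (nat_lit 0) (XT.lf (nat_lit 0) (nat_lit 4923050552) (nat_lit 1140) (nat_lit 638276344) (nat_lit 1216) (nat_lit 1328118352) (nat_lit 568) (nat_lit 5) (nat_lit 583) (nat_lit 5) (nat_lit 584) (nat_lit 5) (nat_lit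 408) (nat_lit 376) (nat_lit 356)) (XT.lf (nat_lit 0) (nat_lit 1394711953) (nat_lit 1292) (nat_lit 4619539863) (nat_lit 76) (nat_lit 909780402) (nat_lit 551) (nat_lit 5) (nat_lit 568) (nat_lit 5) (nat_lit 552) (nat_lit 5) (nat_lit 409) (nat_lit 376) (nat_lit 355))) (XT.nd (nat_lit 78) (nat_lit 2736) (nat_lit 0) (XT.lf (nat_lit 0) (nat_lit 4113934792) (nat_lit 1292) (nat_lit 333217038) (nat_lit 76) (nat_lit 2512816652) (nat_lit 551) (nat_lit 5) (nat_lit 568) (nat_lit 5) (nat_lit 552) (nat_lit 5) (nat_lit 410) (nat_lit 376) (nat_lit 354)) (XT.nd (nat_lit 78) (nat_lit 1444) (nat_lit 0) (XT.lf (nat_lit 0) (nat_lit 4044313057) (nat_lit 1292) (nat_lit 2812813747) (nat_lit 1368) (nat_lit 140131953) (nat_lit 534) (nat_lit 5) (nat_lit 551) (nat_lit 5) (nat_lit 552) (nat_lit 5) (nat_lit 411) (nat_lit 376) (nat_lit 353)) (XT.lf (nat_lit 0) (nat_lit 1432399962) (nat_lit 1368) (nat_lit 1108413252) (nat_lit 1444) (nat_lit 4495061641)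 (nat_lit 515) (nat_lit 5) (nat_lit 533) (nat_lit 5) (nat_lit 534) (nat_lit 5) (nat_lit 412) (nat_lit 376) (nat_lit 352))))) (XT.nd (nat_lit 234) (nat_lit 3344) (nat_lit 0) (XT.nd (nat_lit 78) (nat_lit 3040) (nat_lit 0) (XT.lf (nat_lit 0) (nat_lit 5242119250) (nat_lit 1444) (nat_lit 1183427781) (nat_lit 76) (nat_lit 650350777) (nat_lit 515) (nat_lit 5) (nat_lit 534) (nat_lit 5) (nat_lit 516) (nat_lit 5) (nat_lit 413) (nat_lit 376) (nat_lit 351)) (XT.nd (nat_lit 78) (nat_lit 1520) (nat_lit 0) (XT.lf (nat_lit 0) (nat_lit 843503225) (nat_lit 1520) (nat_lit 3809604695) (nat_lit 76) (nat_lit 2464036891) (nat_lit 495) (nat_lit 5) (nat_lit 515) (nat_lit 5) (nat_lit 496) (nat_lit 5) (nat_lit 414) (nat_lit 376) (nat_lit 350)) (XT.lf (nat_lit 0) (nat_lit 693856128) (nat_lit 1520) (nat_lit 2814484799) (nat_lit 1596) (nat_lit 3651486068) (nat_lit 475) (nat_lit 5) (nat_lit 495) (nat_lit 5) (nat_lit 496) (nat_lit 5) (nat_lit 415) (nat_lit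 376) (nat_lit 349)))) (XT.nd (nat_lit 78) (nat_lit 3344) (nat_lit 0) (XT.lf (nat_lit 0) (nat_lit 5290986291) (nat_lit 1520) (nat_lit 907842260) (nat_lit 1596) (nat_lit 1005110698) (nat_lit 475) (nat_lit 5) (nat_lit 495) (nat_lit 5) (nat_lit 496) (nat_lit 5) (nat_lit 416) (nat_lit 376) (nat_lit 348)) (XT.nd (nat_lit 78) (nat_lit 1672) (nat_lit 0) (XT.lf (nat_lit 0) (nat_lit 1643969735) (nat_lit 1672) (nat_lit 4548567617) (nat_lit 76) (nat_lit 1056759030) (nat_lit 453) (nat_lit 5) (nat_lit 475) (nat_lit 5) (nat_lit 454) (nat_lit 5) (nat_lit 417) (nat_lit 376) (nat_lit 347)) (XT.lf (nat_lit 0) (nat_lit 76976091) (nat_lit 1672) (nat_lit 4223257288) (nat_lit 1748) (nat_lit 2995863335) (nat_lit 431) (nat_lit 5) (nat_lit 453) (nat_lit 5) (nat_lit 454) (nat_lit 5) (nat_lit 418) (nat_lit 376) (nat_lit 346)))))) (XT.nd (nat_lit 390) (nat_lit 3496) (nat_lit 0) (XT.nd (nat_lit 156) (nat_lit 2128) (nat_lit 0) (XT.nd (nat_lit 78)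 (nat_lit 1824) (nat_lit 0) (XT.lf (nat_lit 0) (nat_lit 4808416707) (nat_lit 1672) (nat_lit 2180644426) (nat_lit 1748) (nat_lit 355204844) (nat_lit 431) (nat_lit 5) (nat_lit 453) (nat_lit 5) (nat_lit 454) (nat_lit 5) (nat_lit 419) (nat_lit 376) (nat_lit 345)) (XT.lf (nat_lit 0) (nat_lit 2206833322) (nat_lit 1748) (nat_lit 64659470) (nat_lit 1824) (nat_lit 5122345203) (nat_lit 407) (nat_lit 5) (nat_lit 430) (nat_lit 5) (nat_lit 431) (nat_lit 5) (nat_lit 420) (nat_lit 376) (nat_lit 344))) (XT.nd (nat_lit 78) (nat_lit 2128) (nat_lit 0) (XT.lf (nat_lit 0) (nat_lit 4926952671) (nat_lit 1824) (nat_lit 430104479) (nat_lit 76) (nat_lit 2087698102) (nat_lit 407) (nat_lit 5) (nat_lit 431) (nat_lit 5) (nat_lit 408) (nat_lit 5) (nat_lit 421) (nat_lit 376) (nat_lit 343)) (XT.nd (nat_lit 78) (nat_lit 912) (nat_lit 0) (XT.lf (nat_lit 0) (nat_lit 117295985) (nat_lit 1216) (nat_lit 3066016965) (nat_lit 76) (nat_lit 4313773814) (nat_lit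 391) (nat_lit 5) (nat_lit 407) (nat_lit 5) (nat_lit 392) (nat_lit 5) (nat_lit 422) (nat_lit 376) (nat_lit 342)) (XT.lf (nat_lit 0) (nat_lit 1803731380) (nat_lit 912) (nat_lit 933842142) (nat_lit 988) (nat_lit 4813253992) (nat_lit 379) (nat_lit 5) (nat_lit 391) (nat_lit 5) (nat_lit 392) (nat_lit 5) (nat_lit 423) (nat_lit 376) (nat_lit 341))))) (XT.nd (nat_lit 234) (nat_lit 1748) (nat_lit 0) (XT.nd (nat_lit 78) (nat_lit 1748) (nat_lit 0) (XT.lf (nat_lit 0) (nat_lit 5391983828) (nat_lit 988) (nat_lit 850547387) (nat_lit 76) (nat_lit 1363496209) (nat_lit 379) (nat_lit 5) (nat_lit 392) (nat_lit 5) (nat_lit 380) (nat_lit 5) (nat_lit 424) (nat_lit 376) (nat_lit 340)) (XT.nd (nat_lit 78) (nat_lit 836) (nat_lit 0) (XT.lf (nat_lit 0) (nat_lit 417519820) (nat_lit 912) (nat_lit 3521095962) (nat_lit 76) (nat_lit 3723954900) (nat_lit 367) (nat_lit 5) (nat_lit 379) (nat_lit 5) (nat_lit 368) (nat_lit 5) (nat_lit 425) (nat_lit 376) (nat_lit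 339)) (XT.lf (nat_lit 0) (nat_lit 1481316651) (nat_lit 836) (nat_lit 1559548986) (nat_lit 912) (nat_lit 4679728327) (nat_lit 356) (nat_lit 5) (nat_lit 367) (nat_lit 5) (nat_lit 368) (nat_lit 5) (nat_lit 426) (nat_lit 376) (nat_lit 338)))) (XT.nd (nat_lit 78) (nat_lit 1748) (nat_lit 0) (XT.lf (nat_lit 0) (nat_lit 5700090511) (nat_lit 912) (nat_lit 1202339830) (nat_lit 76) (nat_lit 877696583) (nat_lit 356) (nat_lit 5) (nat_lit 368) (nat_lit 5) (nat_lit 357) (nat_lit 5) (nat_lit 427) (nat_lit 376) (nat_lit 337)) (XT.nd (nat_lit 78) (nat_lit 836) (nat_lit 0) (XT.lf (nat_lit 0) (nat_lit 554809387) (nat_lit 912) (nat_lit 3915968006) (nat_lit 76) (nat_lit 3370202545) (nat_lit 344) (nat_lit 5) (nat_lit 356) (nat_lit 5) (nat_lit 345) (nat_lit 5) (nat_lit 428) (nat_lit 376) (nat_lit 336)) (XT.lf (nat_lit 0) (nat_lit 1222426800) (nat_lit 836) (nat_lit 1963322304) (nat_lit 912) (nat_lit 4717617401) (nat_lit 333) (nat_lit 5) (nat_lit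 344) (nat_lit 5) (nat_lit 345) (nat_lit 5) (nat_lit 429) (nat_lit 376) (nat_lit 335))))))))
noncomputable def xc82 : XT := (XT.nd (nat_lit 1716) (nat_lit 6460) (nat_lit 0) (XT.nd (nat_lit 858) (nat_lit 4408) (nat_lit 0) (XT.nd (nat_lit 390) (nat_lit 2812) (nat_lit 0) (XT.nd (nat_lit 156) (nat_lit 1520) (nat_lit 0) (XT.nd (nat_lit 78) (nat_lit 836) (nat_lit 0) (XT.lf (nat_lit 0) (nat_lit 5855328502) (nat_lit 912) (nat_lit 1502495636) (nat_lit 76) (nat_lit 609472369) (nat_lit 333) (nat_lit 5) (nat_lit 345) (nat_lit 5) (nat_lit 334) (nat_lit 5) (nat_lit 430) (nat_lit 376) (nat_lit 334)) (XT.lf (nat_lit 0) (nat_lit 532627755) (nat_lit 836) (nat_lit 4267913180) (nat_lit 76) (nat_lit 3232028966) (nat_lit 322) (nat_lit 5) (nat_lit 333) (nat_lit 5) (nat_lit 323) (nat_lit 5) (nat_lit 431) (nat_lit 376) (nat_lit 333))) (XT.nd (nat_lit 78) (nat_lit 760) (nat_lit 0) (XT.lf (nat_lit 0) (nat_lit 1009781474) (nat_lit 760) (nat_lit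 2165609679) (nat_lit 836) (nat_lit 4924022502) (nat_lit 312) (nat_lit 5) (nat_lit 322) (nat_lit 5) (nat_lit 323) (nat_lit 5) (nat_lit 432) (nat_lit 376) (nat_lit 332)) (XT.nd (nat_lit 78) (nat_lit 760) (nat_lit 0) (XT.lf (nat_lit 0) (nat_lit 5860556303) (nat_lit 836) (nat_lit 1768217565) (nat_lit 76) (nat_lit 539044382) (nat_lit 312) (nat_lit 5) (nat_lit 323) (nat_lit 5) (nat_lit 313) (nat_lit 5) (nat_lit 433) (nat_lit 376) (nat_lit 331)) (XT.lf (nat_lit 0) (nat_lit 353223938) (nat_lit 760) (nat_lit 4594459159) (nat_lit 76) (nat_lit 3289952459) (nat_lit 302) (nat_lit 5) (nat_lit 312) (nat_lit 5) (nat_lit 303) (nat_lit 5) (nat_lit 434) (nat_lit 376) (nat_lit 330))))) (XT.nd (nat_lit 234) (nat_lit 1292) (nat_lit 0) (XT.nd (nat_lit 78) (nat_lit 760) (nat_lit 0) (XT.lf (nat_lit 0) (nat_lit 825824344) (nat_lit 760) (nat_lit 2185926008) (nat_lit 836) (nat_lit 5297293369) (nat_lit 292) (nat_lit 5) (nat_lit 302) (nat_lit 5)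 (nat_lit 303) (nat_lit 5) (nat_lit 435) (nat_lit 376) (nat_lit 329)) (XT.nd (nat_lit 78) (nat_lit 760) (nat_lit 0) (XT.lf (nat_lit 0) (nat_lit 5717436225) (nat_lit 836) (nat_lit 2017055167) (nat_lit 76) (nat_lit 647522642) (nat_lit 292) (nat_lit 5) (nat_lit 303) (nat_lit 5) (nat_lit 293) (nat_lit 5) (nat_lit 436) (nat_lit 376) (nat_lit 328)) (XT.lf (nat_lit 0) (nat_lit 17630495) (nat_lit 760) (nat_lit 4913542289) (nat_lit 76) (nat_lit 3525339272) (nat_lit 282) (nat_lit 5) (nat_lit 292) (nat_lit 5) (nat_lit 283) (nat_lit 5) (nat_lit 437) (nat_lit 376) (nat_lit 327)))) (XT.nd (nat_lit 78) (nat_lit 608) (nat_lit 0) (XT.lf (nat_lit 0) (nat_lit 652559180) (nat_lit 684) (nat_lit 2043012015) (nat_lit 760) (nat_lit 5837034215) (nat_lit 273) (nat_lit 5) (nat_lit 282) (nat_lit 5) (nat_lit 283) (nat_lit 5) (nat_lit 438) (nat_lit 376) (nat_lit 326)) (XT.nd (nat_lit 78) (nat_lit 608) (nat_lit 0) (XT.lf (nat_lit 0) (nat_lit 5426426009)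 (nat_lit 760) (nat_lit 2267069103) (nat_lit 76) (nat_lit 916751125) (nat_lit 273) (nat_lit 5) (nat_lit 283) (nat_lit 5) (nat_lit 274) (nat_lit 5) (nat_lit 439) (nat_lit 376) (nat_lit 325)) (XT.lf (nat_lit 0) (nat_lit 3442716696) (nat_lit 608) (nat_lit 4766144074) (nat_lit 684) (nat_lit 480652318) (nat_lit 265) (nat_lit 5) (nat_lit 273) (nat_lit 5) (nat_lit 274) (nat_lit 5) (nat_lit 440) (nat_lit 376) (nat_lit 324)))))) (XT.nd (nat_lit 390) (nat_lit 2356) (nat_lit 0) (XT.nd (nat_lit 156) (nat_lit 1292) (nat_lit 0) (XT.nd (nat_lit 78) (nat_lit 0) (nat_lit 0) (XT.lf (nat_lit 0) (nat_lit 471378536) (nat_lit 684) (nat_lit 1754990467) (nat_lit 760) (nat_lit 6544119676) (nat_lit 255) (nat_lit 5) (nat_lit 264) (nat_lit 5) (nat_lit 265) (nat_lit 5) (nat_lit 441) (nat_lit 376) (nat_lit 323)) (XT.lf (nat_lit 0) (nat_lit 4986760743) (nat_lit 760) (nat_lit 2537003419) (nat_lit 76) (nat_lit 1329154502) (nat_lit 255) (nat_lit 5) (nat_lit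 265) (nat_lit 5) (nat_lit 256) (nat_lit 5) (nat_lit 442) (nat_lit 376) (nat_lit 322))) (XT.nd (nat_lit 78) (nat_lit 684) (nat_lit 0) (XT.lf (nat_lit 0) (nat_lit 3325574440) (nat_lit 608) (nat_lit 4472422832) (nat_lit 684) (nat_lit 1139098753) (nat_lit 247) (nat_lit 5) (nat_lit 255) (nat_lit 5) (nat_lit 256) (nat_lit 5) (nat_lit 443) (nat_lit 376) (nat_lit 321)) (XT.nd (nat_lit 78) (nat_lit 0) (nat_lit 0) (XT.lf (nat_lit 0) (nat_lit 262883496) (nat_lit 608) (nat_lit 1339521324) (nat_lit 684) (nat_lit 7420720999) (nat_lit 238) (nat_lit 5) (nat_lit 246) (nat_lit 5) (nat_lit 247) (nat_lit 5) (nat_lit 444) (nat_lit 376) (nat_lit 320)) (XT.lf (nat_lit 0) (nat_lit 4396424709) (nat_lit 684) (nat_lit 2846467297) (nat_lit 76) (nat_lit 1867585687) (nat_lit 238) (nat_lit 5) (nat_lit 247) (nat_lit 5) (nat_lit 239) (nat_lit 5) (nat_lit 445) (nat_lit 376) (nat_lit 319))))) (XT.nd (nat_lit 234) (nat_lit 1140) (nat_lit 0) (XT.nd (nat_lit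 78) (nat_lit 684) (nat_lit 0) (XT.lf (nat_lit 0) (nat_lit 3171897691) (nat_lit 532) (nat_lit 4067586730) (nat_lit 608) (nat_lit 1960239634) (nat_lit 231) (nat_lit 5) (nat_lit 238) (nat_lit 5) (nat_lit 239) (nat_lit 5) (nat_lit 446) (nat_lit 376) (nat_lit 318)) (XT.nd (nat_lit 78) (nat_lit 0) (nat_lit 0) (XT.lf (nat_lit 0) (nat_lit 6692848) (nat_lit 608) (nat_lit 813957050) (nat_lit 684) (nat_lit 8470342867) (nat_lit 222) (nat_lit 5) (nat_lit 230) (nat_lit 5) (nat_lit 231) (nat_lit 5) (nat_lit 447) (nat_lit 376) (nat_lit 317)) (XT.lf (nat_lit 0) (nat_lit 3652112773) (nat_lit 684) (nat_lit 3216127953) (nat_lit 76) (nat_lit 2515172941) (nat_lit 222) (nat_lit 5) (nat_lit 231) (nat_lit 5) (nat_lit 223) (nat_lit 5) (nat_lit 448) (nat_lit 376) (nat_lit 316)))) (XT.nd (nat_lit 78) (nat_lit 608) (nat_lit 0) (XT.lf (nat_lit 0) (nat_lit 2960820014) (nat_lit 532) (nat_lit 3568899322) (nat_lit 608) (nat_lit 2948183190) (nat_lit 215)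 (nat_lit 5) (nat_lit 222) (nat_lit 5) (nat_lit 223) (nat_lit 5) (nat_lit 449) (nat_lit 376) (nat_lit 315)) (XT.nd (nat_lit 78) (nat_lit 608) (nat_lit 0) (XT.lf (nat_lit 0) (nat_lit 9259176544) (nat_lit 532) (nat_lit 192575123) (nat_lit 608) (nat_lit 122801657) (nat_lit 215) (nat_lit 5) (nat_lit 222) (nat_lit 5) (nat_lit 223) (nat_lit 5) (nat_lit 450) (nat_lit 376) (nat_lit 314)) (XT.lf (nat_lit 0) (nat_lit 2749180770) (nat_lit 608) (nat_lit 3667916468) (nat_lit 76) (nat_lit 3255165300) (nat_lit 207) (nat_lit 5) (nat_lit 215) (nat_lit 5) (nat_lit 208) (nat_lit 5) (nat_lit 451) (nat_lit 376) (nat_lit 313))))))) (XT.nd (nat_lit 858) (nat_lit 2964) (nat_lit 0) (XT.nd (nat_lit 390) (nat_lit 1900) (nat_lit 0) (XT.nd (nat_lit 156) (nat_lit 1064) (nat_lit 0) (XT.nd (nat_lit 78) (nat_lit 0) (nat_lit 0) (XT.lf (nat_lit 0) (nat_lit 2670161370) (nat_lit 532) (nat_lit 2993585972) (nat_lit 608) (nat_lit 4108435663) (nat_lit 200) (nat_lit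 5) (nat_lit 207) (nat_lit 5) (nat_lit 208) (nat_lit 5) (nat_lit 452) (nat_lit 376) (nat_lit 312)) (XT.lf (nat_lit 0) (nat_lit 8630958396) (nat_lit 608) (nat_lit 738203002) (nat_lit 76) (nat_lit 505062322) (nat_lit 200) (nat_lit 5) (nat_lit 208) (nat_lit 5) (nat_lit 201) (nat_lit 5) (nat_lit 453) (nat_lit 376) (nat_lit 311))) (XT.nd (nat_lit 78) (nat_lit 456) (nat_lit 0) (XT.lf (nat_lit 0) (nat_lit 1681584303) (nat_lit 608) (nat_lit 4225248457) (nat_lit 76) (nat_lit 4070775011) (nat_lit 192) (nat_lit 5) (nat_lit 200) (nat_lit 5) (nat_lit 193) (nat_lit 5) (nat_lit 454) (nat_lit 376) (nat_lit 310)) (XT.nd (nat_lit 78) (nat_lit 0) (nat_lit 0) (XT.lf (nat_lit 0) (nat_lit 2276201875) (nat_lit 456) (nat_lit 2358995091) (nat_lit 532) (nat_lit 5447968300) (nat_lit 186) (nat_lit 5) (nat_lit 192) (nat_lit 5) (nat_lit 193) (nat_lit 5) (nat_lit 455) (nat_lit 376) (nat_lit 309)) (XT.lf (nat_lit 0) (nat_lit 7652008361) (nat_lit 532)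 (nat_lit 1279123226) (nat_lit 76) (nat_lit 1259628018) (nat_lit 186) (nat_lit 5) (nat_lit 193) (nat_lit 5) (nat_lit 187) (nat_lit 5) (nat_lit 456) (nat_lit 376) (nat_lit 308))))) (XT.nd (nat_lit 234) (nat_lit 912) (nat_lit 0) (XT.nd (nat_lit 78) (nat_lit 456) (nat_lit 0) (XT.lf (nat_lit 0) (nat_lit 441805220) (nat_lit 532) (nat_lit 4913261672) (nat_lit 76) (nat_lit 4945015642) (nat_lit 179) (nat_lit 5) (nat_lit 186) (nat_lit 5) (nat_lit 180) (nat_lit 5) (nat_lit 457) (nat_lit 376) (nat_lit 307)) (XT.nd (nat_lit 78) (nat_lit 0) (nat_lit 0) (XT.lf (nat_lit 0) (nat_lit 1753437982) (nat_lit 456) (nat_lit 1682764391) (nat_lit 532) (nat_lit 6975297206) (nat_lit 173) (nat_lit 5) (nat_lit 179) (nat_lit 5) (nat_lit 180) (nat_lit 5) (nat_lit 458) (nat_lit 376) (nat_lit 306)) (XT.lf (nat_lit 0) (nat_lit 6505489566) (nat_lit 532) (nat_lit 1962977083) (nat_lit 76) (nat_lit 2056385872) (nat_lit 173) (nat_lit 5) (nat_lit 180) (nat_lit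 5) (nat_lit 174) (nat_lit 5) (nat_lit 459) (nat_lit 376) (nat_lit 305)))) (XT.nd (nat_lit 78) (nat_lit 456) (nat_lit 0) (XT.lf (nat_lit 0) (nat_lit 4874728213) (nat_lit 456) (nat_lit 4773266542) (nat_lit 532) (nat_lit 992248569) (nat_lit 167) (nat_lit 5) (nat_lit 173) (nat_lit 5) (nat_lit 174) (nat_lit 5) (nat_lit 460) (nat_lit 376) (nat_lit 304)) (XT.nd (nat_lit 78) (nat_lit 0) (nat_lit 0) (XT.lf (nat_lit 0) (nat_lit 1074318757) (nat_lit 380) (nat_lit 982993613) (nat_lit 456) (nat_lit 8700576917) (nat_lit 161) (nat_lit 5) (nat_lit 166) (nat_lit 5) (nat_lit 167) (nat_lit 5) (nat_lit 461) (nat_lit 376) (nat_lit 303)) (XT.lf (nat_lit 0) (nat_lit 5181639354) (nat_lit 456) (nat_lit 2817995192) (nat_lit 76) (nat_lit 2877588247) (nat_lit 161) (nat_lit 5) (nat_lit 167) (nat_lit 5) (nat_lit 162) (nat_lit 5) (nat_lit 462) (nat_lit 376) (nat_lit 302)))))) (XT.nd (nat_lit 390) (nat_lit 1672) (nat_lit 0) (XT.nd (nat_lit 156) (nat_lit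 380) (nat_lit 0) (XT.nd (nat_lit 78) (nat_lit 456) (nat_lit 0) (XT.lf (nat_lit 0) (nat_lit 4189765714) (nat_lit 456) (nat_lit 4182383959) (nat_lit 532) (nat_lit 2626726241) (nat_lit 155) (nat_lit 5) (nat_lit 161) (nat_lit 5) (nat_lit 162) (nat_lit 5) (nat_lit 463) (nat_lit 376) (nat_lit 301)) (XT.lf (nat_lit 0) (nat_lit 208959729) (nat_lit 380) (nat_lit 278425258) (nat_lit 456) (nat_lit 10635708731) (nat_lit 149) (nat_lit 5) (nat_lit 154) (nat_lit 5) (nat_lit 155) (nat_lit 5) (nat_lit 464) (nat_lit 376) (nat_lit 300))) (XT.nd (nat_lit 78) (nat_lit 380) (nat_lit 0) (XT.lf (nat_lit 0) (nat_lit 3668984617) (nat_lit 456) (nat_lit 3874840930) (nat_lit 76) (nat_lit 3704822001) (nat_lit 149) (nat_lit 5) (nat_lit 155) (nat_lit 5) (nat_lit 150) (nat_lit 5) (nat_lit 465) (nat_lit 376) (nat_lit 299)) (XT.nd (nat_lit 78) (nat_lit 0) (nat_lit 0) (XT.lf (nat_lit 0) (nat_lit 3303678537) (nat_lit 380) (nat_lit 3604717075) (nat_lit 456)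 (nat_lit 4468439613) (nat_lit 144) (nat_lit 5) (nat_lit 149) (nat_lit 5) (nat_lit 150) (nat_lit 5) (nat_lit 466) (nat_lit 376) (nat_lit 298)) (XT.lf (nat_lit 0) (nat_lit 10212540399) (nat_lit 456) (nat_lit 874881403) (nat_lit 76) (nat_lit 420172174) (nat_lit 144) (nat_lit 5) (nat_lit 150) (nat_lit 5) (nat_lit 145) (nat_lit 5) (nat_lit 467) (nat_lit 376) (nat_lit 297))))) (XT.nd (nat_lit 234) (nat_lit 836) (nat_lit 0) (XT.nd (nat_lit 78) (nat_lit 380) (nat_lit 0) (XT.lf (nat_lit 0) (nat_lit 1954216488) (nat_lit 456) (nat_lit 5166928573) (nat_lit 76) (nat_lit 4518819013) (nat_lit 138) (nat_lit 5) (nat_lit 144) (nat_lit 5) (nat_lit 139) (nat_lit 5) (nat_lit 468) (nat_lit 376) (nat_lit 296)) (XT.nd (nat_lit 78) (nat_lit 0) (nat_lit 0) (XT.lf (nat_lit 0) (nat_lit 2182405930) (nat_lit 380) (nat_lit 3060566845) (nat_lit 456) (nat_lit 6532006636) (nat_lit 133) (nat_lit 5) (nat_lit 138) (nat_lit 5) (nat_lit 139) (nat_lit 5) (nat_lit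 469) (nat_lit 376) (nat_lit 295)) (XT.lf (nat_lit 0) (nat_lit 8611359882) (nat_lit 456) (nat_lit 2213185239) (nat_lit 76) (nat_lit 1087878576) (nat_lit 133) (nat_lit 5) (nat_lit 139) (nat_lit 5) (nat_lit 134) (nat_lit 5) (nat_lit 470) (nat_lit 376) (nat_lit 294)))) (XT.nd (nat_lit 78) (nat_lit 380) (nat_lit 0) (XT.lf (nat_lit 0) (nat_lit 22047882) (nat_lit 456) (nat_lit 6730770560) (nat_lit 76) (nat_lit 5299255118) (nat_lit 127) (nat_lit 5) (nat_lit 133) (nat_lit 5) (nat_lit 128) (nat_lit 5) (nat_lit 471) (nat_lit 376) (nat_lit 293)) (XT.nd (nat_lit 78) (nat_lit 0) (nat_lit 0) (XT.lf (nat_lit 0) (nat_lit 788688487) (nat_lit 380) (nat_lit 2571411276) (nat_lit 456) (nat_lit 8834132098) (nat_lit 122) (nat_lit 5) (nat_lit 127) (nat_lit 5) (nat_lit 128) (nat_lit 5) (nat_lit 472) (nat_lit 376) (nat_lit 292)) (XT.lf (nat_lit 0) (nat_lit 6794115167) (nat_lit 456) (nat_lit 3841987027) (nat_lit 76) (nat_lit 1702552404) (nat_lit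 122) (nat_lit 5) (nat_lit 128) (nat_lit 5) (nat_lit 123) (nat_lit 5) (nat_lit 473) (nat_lit 376) (nat_lit 291))))))))
noncomputable def xc83 : XT := (XT.nd (nat_lit 1716) (nat_lit 1368) (nat_lit 0) (XT.nd (nat_lit 858) (nat_lit 1748) (nat_lit 0) (XT.nd (nat_lit 390) (nat_lit 1368) (nat_lit 0) (XT.nd (nat_lit 156) (nat_lit 684) (nat_lit 0) (XT.nd (nat_lit 78) (nat_lit 76) (nat_lit 0) (XT.lf (nat_lit 0) (nat_lit 3865194274) (nat_lit 304) (nat_lit 6447015949) (nat_lit 380) (nat_lit 2173452795) (nat_lit 118) (nat_lit 5) (nat_lit 122) (nat_lit 5) (nat_lit 123) (nat_lit 5) (nat_lit 474) (nat_lit 376) (nat_lit 290)) (XT.lf (nat_lit 0) (nat_lit 1247768616) (nat_lit 380) (nat_lit 906278996) (nat_lit 76) (nat_lit 10481418645) (nat_lit 117) (nat_lit 5) (nat_lit 122) (nat_lit 5) (nat_lit 118) (nat_lit 5) (nat_lit 475) (nat_lit 376) (nat_lit 289))) (XT.nd (nat_lit 78) (nat_lit 304) (nat_lit 0) (XT.lf (nat_lit 0) (nat_lit 4742402952)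 (nat_lit 456) (nat_lit 5803334667) (nat_lit 76) (nat_lit 2241563705) (nat_lit 112) (nat_lit 5) (nat_lit 118) (nat_lit 5) (nat_lit 113) (nat_lit 5) (nat_lit 476) (nat_lit 376) (nat_lit 288)) (XT.nd (nat_lit 78) (nat_lit 0) (nat_lit 0) (XT.lf (nat_lit 0) (nat_lit 2074404432) (nat_lit 304) (nat_lit 6240412258) (nat_lit 380) (nat_lit 4627203487) (nat_lit 108) (nat_lit 5) (nat_lit 112) (nat_lit 5) (nat_lit 113) (nat_lit 5) (nat_lit 477) (nat_lit 376) (nat_lit 287)) (XT.lf (nat_lit 0) (nat_lit 10147885234) (nat_lit 304) (nat_lit 1824014479) (nat_lit 380) (nat_lit 1127673995) (nat_lit 108) (nat_lit 5) (nat_lit 112) (nat_lit 5) (nat_lit 113) (nat_lit 5) (nat_lit 478) (nat_lit 376) (nat_lit 286))))) (XT.nd (nat_lit 234) (nat_lit 684) (nat_lit 0) (XT.nd (nat_lit 78) (nat_lit 304) (nat_lit 0) (XT.lf (nat_lit 0) (nat_lit 2435400261) (nat_lit 380) (nat_lit 8143432903) (nat_lit 76) (nat_lit 2680621016) (nat_lit 103) (nat_lit 5) (nat_lit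 108) (nat_lit 5) (nat_lit 104) (nat_lit 5) (nat_lit 479) (nat_lit 376) (nat_lit 285)) (XT.nd (nat_lit 78) (nat_lit 304) (nat_lit 0) (XT.lf (nat_lit 0) (nat_lit 6061423834) (nat_lit 380) (nat_lit 96895047) (nat_lit 76) (nat_lit 7263933004) (nat_lit 103) (nat_lit 5) (nat_lit 108) (nat_lit 5) (nat_lit 104) (nat_lit 5) (nat_lit 480) (nat_lit 376) (nat_lit 284)) (XT.lf (nat_lit 0) (nat_lit 8178446843) (nat_lit 304) (nat_lit 1609871080) (nat_lit 380) (nat_lit 3799424985) (nat_lit 99) (nat_lit 5) (nat_lit 103) (nat_lit 5) (nat_lit 104) (nat_lit 5) (nat_lit 481) (nat_lit 376) (nat_lit 283)))) (XT.nd (nat_lit 78) (nat_lit 380) (nat_lit 0) (XT.lf (nat_lit 0) (nat_lit 2842150274) (nat_lit 304) (nat_lit 10761763606) (nat_lit 380) (nat_lit 152350868) (nat_lit 95) (nat_lit 5) (nat_lit 99) (nat_lit 5) (nat_lit 100) (nat_lit 5) (nat_lit 482) (nat_lit 376) (nat_lit 282)) (XT.nd (nat_lit 78) (nat_lit 304) (nat_lit 0) (XT.lf (nat_lit 0)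 (nat_lit 3543523718) (nat_lit 380) (nat_lit 2669146008) (nat_lit 76) (nat_lit 7714575148) (nat_lit 94) (nat_lit 5) (nat_lit 99) (nat_lit 5) (nat_lit 95) (nat_lit 5) (nat_lit 483) (nat_lit 376) (nat_lit 281)) (XT.lf (nat_lit 0) (nat_lit 5776651665) (nat_lit 304) (nat_lit 1548061856) (nat_lit 380) (nat_lit 6776646217) (nat_lit 90) (nat_lit 5) (nat_lit 94) (nat_lit 5) (nat_lit 95) (nat_lit 5) (nat_lit 484) (nat_lit 376) (nat_lit 280)))))) (XT.nd (nat_lit 390) (nat_lit 836) (nat_lit 0) (XT.nd (nat_lit 156) (nat_lit 532) (nat_lit 0) (XT.nd (nat_lit 78) (nat_lit 76) (nat_lit 0) (XT.lf (nat_lit 0) (nat_lit 90218832) (nat_lit 304) (nat_lit 11106820371) (nat_lit 380) (nat_lit 3081611408) (nat_lit 86) (nat_lit 5) (nat_lit 90) (nat_lit 5) (nat_lit 91) (nat_lit 5) (nat_lit 485) (nat_lit 376) (nat_lit 279)) (XT.lf (nat_lit 0) (nat_lit 720908139) (nat_lit 380) (nat_lit 5726184690) (nat_lit 76) (nat_lit 8011457051) (nat_lit 85) (nat_lit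 5) (nat_lit 90) (nat_lit 5) (nat_lit 86) (nat_lit 5) (nat_lit 486) (nat_lit 376) (nat_lit 278))) (XT.nd (nat_lit 78) (nat_lit 304) (nat_lit 0) (XT.lf (nat_lit 0) (nat_lit 2884476854) (nat_lit 228) (nat_lit 1669086551) (nat_lit 304) (nat_lit 10088173102) (nat_lit 82) (nat_lit 5) (nat_lit 85) (nat_lit 5) (nat_lit 86) (nat_lit 5) (nat_lit 487) (nat_lit 376) (nat_lit 277)) (XT.nd (nat_lit 78) (nat_lit 304) (nat_lit 0) (XT.lf (nat_lit 0) (nat_lit 8499055565) (nat_lit 304) (nat_lit 3142279807) (nat_lit 76) (nat_lit 3186531469) (nat_lit 82) (nat_lit 5) (nat_lit 86) (nat_lit 5) (nat_lit 83) (nat_lit 5) (nat_lit 488) (nat_lit 376) (nat_lit 276)) (XT.lf (nat_lit 0) (nat_lit 5670697771) (nat_lit 304) (nat_lit 6877786174) (nat_lit 380) (nat_lit 2468738891) (nat_lit 78) (nat_lit 5) (nat_lit 82) (nat_lit 5) (nat_lit 83) (nat_lit 5) (nat_lit 489) (nat_lit 376) (nat_lit 275))))) (XT.nd (nat_lit 234) (nat_lit 304) (nat_lit 0) (XT.nd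 (nat_lit 78) (nat_lit 456) (nat_lit 0) (XT.lf (nat_lit 0) (nat_lit 1447707629) (nat_lit 380) (nat_lit 554768617) (nat_lit 76) (nat_lit 13207733795) (nat_lit 77) (nat_lit 5) (nat_lit 82) (nat_lit 5) (nat_lit 78) (nat_lit 5) (nat_lit 490) (nat_lit 376) (nat_lit 274)) (XT.nd (nat_lit 78) (nat_lit 228) (nat_lit 0) (XT.lf (nat_lit 0) (nat_lit 5461771363) (nat_lit 304) (nat_lit 6955116593) (nat_lit 76) (nat_lit 2988799146) (nat_lit 74) (nat_lit 5) (nat_lit 78) (nat_lit 5) (nat_lit 75) (nat_lit 5) (nat_lit 491) (nat_lit 376) (nat_lit 273)) (XT.lf (nat_lit 0) (nat_lit 2014623978) (nat_lit 228) (nat_lit 7549340681) (nat_lit 304) (nat_lit 6040955385) (nat_lit 71) (nat_lit 5) (nat_lit 74) (nat_lit 5) (nat_lit 75) (nat_lit 5) (nat_lit 492) (nat_lit 376) (nat_lit 272)))) (XT.nd (nat_lit 78) (nat_lit 304) (nat_lit 0) (XT.lf (nat_lit 0) (nat_lit 11221232247) (nat_lit 228) (nat_lit 2551598335) (nat_lit 304) (nat_lit 2034817731) (nat_lit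 71) (nat_lit 5) (nat_lit 74) (nat_lit 5) (nat_lit 75) (nat_lit 5) (nat_lit 493) (nat_lit 376) (nat_lit 271)) (XT.nd (nat_lit 78) (nat_lit 0) (nat_lit 0) (XT.lf (nat_lit 0) (nat_lit 2049422317) (nat_lit 304) (nat_lit 11422442486) (nat_lit 76) (nat_lit 2541805380) (nat_lit 67) (nat_lit 5) (nat_lit 71) (nat_lit 5) (nat_lit 68) (nat_lit 5) (nat_lit 494) (nat_lit 376) (nat_lit 270)) (XT.lf (nat_lit 0) (nat_lit 6214345149) (nat_lit 304) (nat_lit 2275656558) (nat_lit 76) (nat_lit 7733019952) (nat_lit 67) (nat_lit 5) (nat_lit 71) (nat_lit 5) (nat_lit 68) (nat_lit 5) (nat_lit 495) (nat_lit 376) (nat_lit 269))))))) (XT.nd (nat_lit 50856) (nat_lit 0) (nat_lit 45448) (XT.nd (nat_lit 390) (nat_lit 608) (nat_lit 0) (XT.nd (nat_lit 156) (nat_lit 304) (nat_lit 0) (XT.nd (nat_lit 78) (nat_lit 228) (nat_lit 0) (XT.lf (nat_lit 0) (nat_lit 7111573291) (nat_lit 228) (nat_lit 3375930541) (nat_lit 304) (nat_lit 5948560580) (nat_lit 64) (nat_lit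 5) (nat_lit 67) (nat_lit 5) (nat_lit 68) (nat_lit 5) (nat_lit 496) (nat_lit 376) (nat_lit 268)) (XT.lf (nat_lit 0) (nat_lit 16644142) (nat_lit 228) (nat_lit 14835766919) (nat_lit 304) (nat_lit 1800834188) (nat_lit 61) (nat_lit 5) (nat_lit 64) (nat_lit 5) (nat_lit 65) (nat_lit 5) (nat_lit 497) (nat_lit 376) (nat_lit 267))) (XT.nd (nat_lit 78) (nat_lit 228) (nat_lit 0) (XT.lf (nat_lit 0) (nat_lit 2462220385) (nat_lit 304) (nat_lit 7276971333) (nat_lit 76) (nat_lit 7133980452) (nat_lit 60) (nat_lit 5) (nat_lit 64) (nat_lit 5) (nat_lit 61) (nat_lit 5) (nat_lit 498) (nat_lit 376) (nat_lit 266)) (XT.nd (nat_lit 78) (nat_lit 0) (nat_lit 0) (XT.lf (nat_lit 0) (nat_lit 2252264423) (nat_lit 228) (nat_lit 4528115708) (nat_lit 304) (nat_lit 10317003052) (nat_lit 57) (nat_lit 5) (nat_lit 60) (nat_lit 5) (nat_lit 61) (nat_lit 5) (nat_lit 499) (nat_lit 376) (nat_lit 265)) (XT.lf (nat_lit 0) (nat_lit 11218565946) (nat_lit 304) (nat_lit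 5295096787) (nat_lit 76) (nat_lit 811745137) (nat_lit 57) (nat_lit 5) (nat_lit 61) (nat_lit 5) (nat_lit 58) (nat_lit 5) (nat_lit 500) (nat_lit 376) (nat_lit 264))))) (XT.nd (nat_lit 234) (nat_lit 152) (nat_lit 0) (XT.nd (nat_lit 78) (nat_lit 304) (nat_lit 0) (XT.lf (nat_lit 0) (nat_lit 4439568871) (nat_lit 152) (nat_lit 11344559014) (nat_lit 228) (nat_lit 1773095578) (nat_lit 55) (nat_lit 5) (nat_lit 57) (nat_lit 5) (nat_lit 58) (nat_lit 5) (nat_lit 501) (nat_lit 376) (nat_lit 263)) (XT.nd (nat_lit 78) (nat_lit 228) (nat_lit 0) (XT.lf (nat_lit 0) (nat_lit 2628211744) (nat_lit 228) (nat_lit 3404321825) (nat_lit 76) (nat_lit 11760488469) (nat_lit 54) (nat_lit 5) (nat_lit 57) (nat_lit 5) (nat_lit 55) (nat_lit 5) (nat_lit 502) (nat_lit 376) (nat_lit 262)) (XT.lf (nat_lit 0) (nat_lit 6543394335) (nat_lit 228) (nat_lit 573148709) (nat_lit 304) (nat_lit 10916306850) (nat_lit 51) (nat_lit 5) (nat_lit 54) (nat_lit 5) (nat_lit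 55) (nat_lit 5) (nat_lit 503) (nat_lit 376) (nat_lit 261)))) (XT.nd (nat_lit 78) (nat_lit 152) (nat_lit 0) (XT.lf (nat_lit 0) (nat_lit 11730380750) (nat_lit 304) (nat_lit 1607428931) (nat_lit 76) (nat_lit 4938952287) (nat_lit 51) (nat_lit 5) (nat_lit 55) (nat_lit 5) (nat_lit 52) (nat_lit 5) (nat_lit 504) (nat_lit 376) (nat_lit 260)) (XT.nd (nat_lit 50076) (nat_lit 0) (nat_lit 48792) (XT.lf (nat_lit 0) (nat_lit 8547169699) (nat_lit 152) (nat_lit 7929311263) (nat_lit 228) (nat_lit 2048274017) (nat_lit 49) (nat_lit 5) (nat_lit 51) (nat_lit 5) (nat_lit 52) (nat_lit 5) (nat_lit 505) (nat_lit 376) (nat_lit 259)) (XT.lf (nat_lit 0) (nat_lit 86933716) (nat_lit 228) (nat_lit 1571454573) (nat_lit 228) (nat_lit 1571454573) (nat_lit 691) (nat_lit 4) (nat_lit 694) (nat_lit 5) (nat_lit 694) (nat_lit 4) (nat_lit 386) (nat_lit 377) (nat_lit 377)))))) (XT.nd (nat_lit 390) (nat_lit 2508) (nat_lit 0) (XT.nd (nat_lit 156) (nat_lit 456)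 (nat_lit 0) (XT.nd (nat_lit 78) (nat_lit 380) (nat_lit 0) (XT.lf (nat_lit 0) (nat_lit 3603995127) (nat_lit 228) (nat_lit 2841729459) (nat_lit 228) (nat_lit 20445888) (nat_lit 691) (nat_lit 4) (nat_lit 694) (nat_lit 5) (nat_lit 694) (nat_lit 4) (nat_lit 387) (nat_lit 377) (nat_lit 376)) (XT.lf (nat_lit 0) (nat_lit 571154083) (nat_lit 304) (nat_lit 2477559748) (nat_lit 380) (nat_lit 3425195022) (nat_lit 686) (nat_lit 5) (nat_lit 690) (nat_lit 5) (nat_lit 691) (nat_lit 4) (nat_lit 388) (nat_lit 377) (nat_lit 375))) (XT.nd (nat_lit 78) (nat_lit 456) (nat_lit 0) (XT.lf (nat_lit 0) (nat_lit 4066379957) (nat_lit 304) (nat_lit 2055084154) (nat_lit 380) (nat_lit 361534435) (nat_lit 686) (nat_lit 5) (nat_lit 690) (nat_lit 5) (nat_lit 691) (nat_lit 4) (nat_lit 389) (nat_lit 377) (nat_lit 374)) (XT.nd (nat_lit 78) (nat_lit 0) (nat_lit 0) (XT.lf (nat_lit 0) (nat_lit 1090000492) (nat_lit 380) (nat_lit 1568467441) (nat_lit 456) (nat_lit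 3834864017) (nat_lit 680) (nat_lit 5) (nat_lit 685) (nat_lit 5) (nat_lit 686) (nat_lit 5) (nat_lit 390) (nat_lit 377) (nat_lit 373)) (XT.lf (nat_lit 0) (nat_lit 4651790176) (nat_lit 380) (nat_lit 1023870359) (nat_lit 456) (nat_lit 829377121) (nat_lit 680) (nat_lit 5) (nat_lit 685) (nat_lit 5) (nat_lit 686) (nat_lit 5) (nat_lit 391) (nat_lit 377) (nat_lit 372))))) (XT.nd (nat_lit 234) (nat_lit 1368) (nat_lit 0) (XT.nd (nat_lit 78) (nat_lit 608) (nat_lit 0) (XT.lf (nat_lit 0) (nat_lit 1730587726) (nat_lit 456) (nat_lit 413898563) (nat_lit 532) (nat_lit 4373493167) (nat_lit 673) (nat_lit 5) (nat_lit 679) (nat_lit 5) (nat_lit 680) (nat_lit 5) (nat_lit 392) (nat_lit 377) (nat_lit 371)) (XT.nd (nat_lit 78) (nat_lit 608) (nat_lit 0) (XT.lf (nat_lit 0) (nat_lit 5108290507) (nat_lit 532) (nat_lit 1173438007) (nat_lit 76) (nat_lit 250553954) (nat_lit 673) (nat_lit 5) (nat_lit 680) (nat_lit 5) (nat_lit 674) (nat_lit 5) (nat_lit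 393) (nat_lit 377) (nat_lit 370)) (XT.lf (nat_lit 0) (nat_lit 1511390539) (nat_lit 608) (nat_lit 4060977714) (nat_lit 76) (nat_lit 975385799) (nat_lit 665) (nat_lit 5) (nat_lit 673) (nat_lit 5) (nat_lit 666) (nat_lit 5) (nat_lit 394) (nat_lit 377) (nat_lit 369)))) (XT.nd (nat_lit 78) (nat_lit 1368) (nat_lit 0) (XT.lf (nat_lit 0) (nat_lit 4424054061) (nat_lit 608) (nat_lit 383314952) (nat_lit 76) (nat_lit 1757265885) (nat_lit 665) (nat_lit 5) (nat_lit 673) (nat_lit 5) (nat_lit 666) (nat_lit 5) (nat_lit 395) (nat_lit 377) (nat_lit 368)) (XT.nd (nat_lit 78) (nat_lit 684) (nat_lit 0) (XT.lf (nat_lit 0) (nat_lit 755033762) (nat_lit 684) (nat_lit 3221393203) (nat_lit 76) (nat_lit 2606308506) (nat_lit 656) (nat_lit 5) (nat_lit 665) (nat_lit 5) (nat_lit 657) (nat_lit 5) (nat_lit 396) (nat_lit 377) (nat_lit 367)) (XT.lf (nat_lit 0) (nat_lit 531428822) (nat_lit 684) (nat_lit 3086179515) (nat_lit 760) (nat_lit 2984591067) (nat_lit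 647) (nat_lit 5) (nat_lit 656) (nat_lit 5) (nat_lit 657) (nat_lit 5) (nat_lit 397) (nat_lit 377) (nat_lit 366))))))))
noncomputable def xc84 : XT := (XT.nd (nat_lit 1638) (nat_lit 14288) (nat_lit 0) (XT.nd (nat_lit 780) (nat_lit 9880) (nat_lit 0) (XT.nd (nat_lit 390) (nat_lit 3116) (nat_lit 0) (XT.nd (nat_lit 156) (nat_lit 912) (nat_lit 0) (XT.nd (nat_lit 78) (nat_lit 836) (nat_lit 0) (XT.lf (nat_lit 0) (nat_lit 4356988808) (nat_lit 684) (nat_lit 2134748194) (nat_lit 760) (nat_lit 131267341) (nat_lit 647) (nat_lit 5) (nat_lit 656) (nat_lit 5) (nat_lit 657) (nat_lit 5) (nat_lit 398) (nat_lit 377) (nat_lit 365)) (XT.lf (nat_lit 0) (nat_lit 1571396568) (nat_lit 760) (nat_lit 1115011788) (nat_lit 836) (nat_lit 3958617774) (nat_lit 636) (nat_lit 5) (nat_lit 646) (nat_lit 5) (nat_lit 647) (nat_lit 5) (nat_lit 399) (nat_lit 377) (nat_lit 364))) (XT.nd (nat_lit 78) (nat_lit 912) (nat_lit 0) (XT.lf (nat_lit 0) (nat_lit 5469691850)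 (nat_lit 760) (nat_lit 38728359) (nat_lit 836) (nat_lit 1160091586) (nat_lit 636) (nat_lit 5) (nat_lit 646) (nat_lit 5) (nat_lit 647) (nat_lit 5) (nat_lit 400) (nat_lit 377) (nat_lit 363)) (XT.nd (nat_lit 78) (nat_lit 0) (nat_lit 0) (XT.lf (nat_lit 0) (nat_lit 1632476620) (nat_lit 912) (nat_lit 3967783073) (nat_lit 76) (nat_lit 1092815794) (nat_lit 624) (nat_lit 5) (nat_lit 636) (nat_lit 5) (nat_lit 625) (nat_lit 5) (nat_lit 401) (nat_lit 377) (nat_lit 362)) (XT.lf (nat_lit 0) (nat_lit 4410185144) (nat_lit 912) (nat_lit 28647267) (nat_lit 76) (nat_lit 2280281773) (nat_lit 624) (nat_lit 5) (nat_lit 636) (nat_lit 5) (nat_lit 625) (nat_lit 5) (nat_lit 402) (nat_lit 377) (nat_lit 361))))) (XT.nd (nat_lit 156) (nat_lit 1140) (nat_lit 0) (XT.nd (nat_lit 78) (nat_lit 988) (nat_lit 0) (XT.lf (nat_lit 0) (nat_lit 454615352) (nat_lit 988) (nat_lit 2753652534) (nat_lit 76) (nat_lit 3538105984) (nat_lit 611) (nat_lit 5) (nat_lit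 624) (nat_lit 5) (nat_lit 612) (nat_lit 5) (nat_lit 403) (nat_lit 377) (nat_lit 360)) (XT.lf (nat_lit 0) (nat_lit 1275714203) (nat_lit 988) (nat_lit 1913491880) (nat_lit 1064) (nat_lit 3585765199) (nat_lit 598) (nat_lit 5) (nat_lit 611) (nat_lit 5) (nat_lit 612) (nat_lit 5) (nat_lit 404) (nat_lit 377) (nat_lit 359))) (XT.nd (nat_lit 78) (nat_lit 1140) (nat_lit 0) (XT.lf (nat_lit 0) (nat_lit 5376844836) (nat_lit 988) (nat_lit 559221454) (nat_lit 1064) (nat_lit 868953789) (nat_lit 598) (nat_lit 5) (nat_lit 611) (nat_lit 5) (nat_lit 612) (nat_lit 5) (nat_lit 405) (nat_lit 377) (nat_lit 358)) (XT.nd (nat_lit 78) (nat_lit 0) (nat_lit 0) (XT.lf (nat_lit 0) (nat_lit 1840280075) (nat_lit 1140) (nat_lit 4140599110) (nat_lit 76) (nat_lit 855312775) (nat_lit 583) (nat_lit 5) (nat_lit 598) (nat_lit 5) (nat_lit 584) (nat_lit 5) (nat_lit 406) (nat_lit 377) (nat_lit 357)) (XT.lf (nat_lit 0) (nat_lit 4546262277) (nat_lit 1140) (nat_lit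 3194128) (nat_lit 76) (nat_lit 2319361221) (nat_lit 583) (nat_lit 5) (nat_lit 598) (nat_lit 5) (nat_lit 584) (nat_lit 5) (nat_lit 407) (nat_lit 377) (nat_lit 356)))))) (XT.nd (nat_lit 390) (nat_lit 4712) (nat_lit 0) (XT.nd (nat_lit 156) (nat_lit 2736) (nat_lit 0) (XT.nd (nat_lit 78) (nat_lit 1216) (nat_lit 0) (XT.lf (nat_lit 0) (nat_lit 368172536) (nat_lit 1216) (nat_lit 2678920625) (nat_lit 76) (nat_lit 3855594096) (nat_lit 567) (nat_lit 5) (nat_lit 583) (nat_lit 5) (nat_lit 568) (nat_lit 5) (nat_lit 408) (nat_lit 377) (nat_lit 355)) (XT.lf (nat_lit 0) (nat_lit 1556469610) (nat_lit 1216) (nat_lit 1477733409) (nat_lit 1292) (nat_lit 3903699997) (nat_lit 551) (nat_lit 5) (nat_lit 567) (nat_lit 5) (nat_lit 568) (nat_lit 5) (nat_lit 409) (nat_lit 377) (nat_lit 354))) (XT.nd (nat_lit 78) (nat_lit 2736) (nat_lit 0) (XT.lf (nat_lit 0) (nat_lit 5715775172) (nat_lit 1292) (nat_lit 1109061245) (nat_lit 76) (nat_lit 149769233)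 (nat_lit 551) (nat_lit 5) (nat_lit 568) (nat_lit 5) (nat_lit 552) (nat_lit 5) (nat_lit 410) (nat_lit 377) (nat_lit 353)) (XT.nd (nat_lit 78) (nat_lit 1368) (nat_lit 0) (XT.lf (nat_lit 0) (nat_lit 1395100526) (nat_lit 1368) (nat_lit 3786974455) (nat_lit 76) (nat_lit 1830305717) (nat_lit 533) (nat_lit 5) (nat_lit 551) (nat_lit 5) (nat_lit 534) (nat_lit 5) (nat_lit 411) (nat_lit 377) (nat_lit 352)) (XT.lf (nat_lit 0) (nat_lit 562748695) (nat_lit 1368) (nat_lit 3478504859) (nat_lit 1444) (nat_lit 3010396719) (nat_lit 515) (nat_lit 5) (nat_lit 533) (nat_lit 5) (nat_lit 534) (nat_lit 5) (nat_lit 412) (nat_lit 377) (nat_lit 351))))) (XT.nd (nat_lit 234) (nat_lit 3192) (nat_lit 0) (XT.nd (nat_lit 78) (nat_lit 1520) (nat_lit 0) (XT.lf (nat_lit 0) (nat_lit 5004029243) (nat_lit 1368) (nat_lit 1707328911) (nat_lit 1444) (nat_lit 380951439) (nat_lit 515) (nat_lit 5) (nat_lit 533) (nat_lit 5) (nat_lit 534) (nat_lit 5) (nat_lit 413)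 (nat_lit 377) (nat_lit 350)) (XT.nd (nat_lit 78) (nat_lit 0) (nat_lit 0) (XT.lf (nat_lit 0) (nat_lit 2233487176) (nat_lit 1520) (nat_lit 4765261018) (nat_lit 76) (nat_lit 135507390) (nat_lit 495) (nat_lit 5) (nat_lit 515) (nat_lit 5) (nat_lit 496) (nat_lit 5) (nat_lit 414) (nat_lit 377) (nat_lit 349)) (XT.lf (nat_lit 0) (nat_lit 4867632093) (nat_lit 1520) (nat_lit 294370548) (nat_lit 76) (nat_lit 2015560611) (nat_lit 495) (nat_lit 5) (nat_lit 515) (nat_lit 5) (nat_lit 496) (nat_lit 5) (nat_lit 415) (nat_lit 377) (nat_lit 348)))) (XT.nd (nat_lit 78) (nat_lit 1596) (nat_lit 0) (XT.lf (nat_lit 0) (nat_lit 304074222) (nat_lit 1596) (nat_lit 2948710952) (nat_lit 76) (nat_lit 3969416967) (nat_lit 474) (nat_lit 5) (nat_lit 495) (nat_lit 5) (nat_lit 475) (nat_lit 5) (nat_lit 416) (nat_lit 377) (nat_lit 347)) (XT.nd (nat_lit 78) (nat_lit 0) (nat_lit 0) (XT.lf (nat_lit 0) (nat_lit 1628167968) (nat_lit 1596) (nat_lit 1272344272)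 (nat_lit 1672) (nat_lit 4367716679) (nat_lit 453) (nat_lit 5) (nat_lit 474) (nat_lit 5) (nat_lit 475) (nat_lit 5) (nat_lit 417) (nat_lit 377) (nat_lit 346)) (XT.lf (nat_lit 0) (nat_lit 5522881025) (nat_lit 1672) (nat_lit 1030849021) (nat_lit 76) (nat_lit 761987845) (nat_lit 453) (nat_lit 5) (nat_lit 475) (nat_lit 5) (nat_lit 454) (nat_lit 5) (nat_lit 418) (nat_lit 377) (nat_lit 345))))))) (XT.nd (nat_lit 858) (nat_lit 6004) (nat_lit 0) (XT.nd (nat_lit 390) (nat_lit 2660) (nat_lit 0) (XT.nd (nat_lit 156) (nat_lit 2128) (nat_lit 0) (XT.nd (nat_lit 78) (nat_lit 1748) (nat_lit 0) (XT.lf (nat_lit 0) (nat_lit 804907426) (nat_lit 1748) (nat_lit 3706360458) (nat_lit 76) (nat_lit 2853155400) (nat_lit 430) (nat_lit 5) (nat_lit 453) (nat_lit 5) (nat_lit 431) (nat_lit 5) (nat_lit 419) (nat_lit 377) (nat_lit 344)) (XT.lf (nat_lit 0) (nat_lit 994816054) (nat_lit 1748) (nat_lit 2399782734) (nat_lit 1824) (nat_lit 4020007466) (nat_lit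 407) (nat_lit 5) (nat_lit 430) (nat_lit 5) (nat_lit 431) (nat_lit 5) (nat_lit 420) (nat_lit 377) (nat_lit 343))) (XT.nd (nat_lit 78) (nat_lit 2128) (nat_lit 0) (XT.lf (nat_lit 0) (nat_lit 5793492344) (nat_lit 1748) (nat_lit 218682647) (nat_lit 1824) (nat_lit 1454116119) (nat_lit 407) (nat_lit 5) (nat_lit 430) (nat_lit 5) (nat_lit 431) (nat_lit 5) (nat_lit 421) (nat_lit 377) (nat_lit 342)) (XT.nd (nat_lit 78) (nat_lit 912) (nat_lit 0) (XT.lf (nat_lit 0) (nat_lit 1133393551) (nat_lit 1216) (nat_lit 4376180397) (nat_lit 76) (nat_lit 2009592858) (nat_lit 391) (nat_lit 5) (nat_lit 407) (nat_lit 5) (nat_lit 392) (nat_lit 5) (nat_lit 422) (nat_lit 377) (nat_lit 341)) (XT.lf (nat_lit 0) (nat_lit 452490454) (nat_lit 912) (nat_lit 3268888989) (nat_lit 988) (nat_lit 3852183297) (nat_lit 379) (nat_lit 5) (nat_lit 391) (nat_lit 5) (nat_lit 392) (nat_lit 5) (nat_lit 423) (nat_lit 377) (nat_lit 340))))) (XT.nd (nat_lit 234) (nat_lit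 1748) (nat_lit 0) (XT.nd (nat_lit 78) (nat_lit 912) (nat_lit 0) (XT.lf (nat_lit 0) (nat_lit 5390186818) (nat_lit 912) (nat_lit 953424573) (nat_lit 988) (nat_lit 1285803995) (nat_lit 379) (nat_lit 5) (nat_lit 391) (nat_lit 5) (nat_lit 392) (nat_lit 5) (nat_lit 424) (nat_lit 377) (nat_lit 339)) (XT.nd (nat_lit 78) (nat_lit 0) (nat_lit 0) (XT.lf (nat_lit 0) (nat_lit 1295132402) (nat_lit 912) (nat_lit 4975413674) (nat_lit 76) (nat_lit 1416069905) (nat_lit 367) (nat_lit 5) (nat_lit 379) (nat_lit 5) (nat_lit 368) (nat_lit 5) (nat_lit 425) (nat_lit 377) (nat_lit 338)) (XT.lf (nat_lit 0) (nat_lit 3886246646) (nat_lit 912) (nat_lit 15796468) (nat_lit 76) (nat_lit 3843249421) (nat_lit 367) (nat_lit 5) (nat_lit 379) (nat_lit 5) (nat_lit 368) (nat_lit 5) (nat_lit 426) (nat_lit 377) (nat_lit 337)))) (XT.nd (nat_lit 78) (nat_lit 912) (nat_lit 0) (XT.lf (nat_lit 0) (nat_lit 5063139914) (nat_lit 836) (nat_lit 1454132167) (nat_lit 912)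 (nat_lit 1288125872) (nat_lit 356) (nat_lit 5) (nat_lit 367) (nat_lit 5) (nat_lit 368) (nat_lit 5) (nat_lit 427) (nat_lit 377) (nat_lit 336)) (XT.nd (nat_lit 78) (nat_lit 0) (nat_lit 0) (XT.lf (nat_lit 0) (nat_lit 1294498555) (nat_lit 912) (nat_lit 5521268366) (nat_lit 76) (nat_lit 1051226062) (nat_lit 344) (nat_lit 5) (nat_lit 356) (nat_lit 5) (nat_lit 345) (nat_lit 5) (nat_lit 428) (nat_lit 377) (nat_lit 335)) (XT.lf (nat_lit 0) (nat_lit 3895740683) (nat_lit 912) (nat_lit 422249508) (nat_lit 76) (nat_lit 3611991291) (nat_lit 344) (nat_lit 5) (nat_lit 356) (nat_lit 5) (nat_lit 345) (nat_lit 5) (nat_lit 429) (nat_lit 377) (nat_lit 334)))))) (XT.nd (nat_lit 390) (nat_lit 2812) (nat_lit 0) (XT.nd (nat_lit 156) (nat_lit 1520) (nat_lit 0) (XT.nd (nat_lit 78) (nat_lit 836) (nat_lit 0) (XT.lf (nat_lit 0) (nat_lit 4795412945) (nat_lit 836) (nat_lit 1741634825) (nat_lit 912) (nat_lit 1457436986) (nat_lit 333) (nat_lit 5) (nat_lit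 344) (nat_lit 5) (nat_lit 345) (nat_lit 5) (nat_lit 430) (nat_lit 377) (nat_lit 333)) (XT.lf (nat_lit 0) (nat_lit 1134656307) (nat_lit 836) (nat_lit 6031068006) (nat_lit 76) (nat_lit 894834730) (nat_lit 322) (nat_lit 5) (nat_lit 333) (nat_lit 5) (nat_lit 323) (nat_lit 5) (nat_lit 431) (nat_lit 377) (nat_lit 332))) (XT.nd (nat_lit 78) (nat_lit 1520) (nat_lit 0) (XT.lf (nat_lit 0) (nat_lit 3749907923) (nat_lit 836) (nat_lit 789903757) (nat_lit 76) (nat_lit 3588148726) (nat_lit 322) (nat_lit 5) (nat_lit 333) (nat_lit 5) (nat_lit 323) (nat_lit 5) (nat_lit 432) (nat_lit 377) (nat_lit 331)) (XT.nd (nat_lit 78) (nat_lit 760) (nat_lit 0) (XT.lf (nat_lit 0) (nat_lit 4569901582) (nat_lit 760) (nat_lit 1835733494) (nat_lit 836) (nat_lit 1791325915) (nat_lit 312) (nat_lit 5) (nat_lit 322) (nat_lit 5) (nat_lit 323) (nat_lit 5) (nat_lit 433) (nat_lit 377) (nat_lit 330)) (XT.lf (nat_lit 0) (nat_lit 817565415) (nat_lit 760) (nat_lit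 6522406234) (nat_lit 76) (nat_lit 927643158) (nat_lit 302) (nat_lit 5) (nat_lit 312) (nat_lit 5) (nat_lit 303) (nat_lit 5) (nat_lit 434) (nat_lit 377) (nat_lit 329))))) (XT.nd (nat_lit 234) (nat_lit 1292) (nat_lit 0) (XT.nd (nat_lit 78) (nat_lit 1520) (nat_lit 0) (XT.lf (nat_lit 0) (nat_lit 3450534981) (nat_lit 760) (nat_lit 1136154414) (nat_lit 76) (nat_lit 3752851528) (nat_lit 302) (nat_lit 5) (nat_lit 312) (nat_lit 5) (nat_lit 303) (nat_lit 5) (nat_lit 435) (nat_lit 377) (nat_lit 328)) (XT.nd (nat_lit 78) (nat_lit 760) (nat_lit 0) (XT.lf (nat_lit 0) (nat_lit 4369178220) (nat_lit 760) (nat_lit 1755359202) (nat_lit 836) (nat_lit 2288614160) (nat_lit 292) (nat_lit 5) (nat_lit 302) (nat_lit 5) (nat_lit 303) (nat_lit 5) (nat_lit 436) (nat_lit 377) (nat_lit 327)) (XT.lf (nat_lit 0) (nat_lit 343977507) (nat_lit 760) (nat_lit 7013307140) (nat_lit 76) (nat_lit 1131216273) (nat_lit 282) (nat_lit 5) (nat_lit 292) (nat_lit 5)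 (nat_lit 283) (nat_lit 5) (nat_lit 437) (nat_lit 377) (nat_lit 326)))) (XT.nd (nat_lit 78) (nat_lit 1292) (nat_lit 0) (XT.lf (nat_lit 0) (nat_lit 2998205329) (nat_lit 760) (nat_lit 1478852330) (nat_lit 76) (nat_lit 4088017165) (nat_lit 282) (nat_lit 5) (nat_lit 292) (nat_lit 5) (nat_lit 283) (nat_lit 5) (nat_lit 438) (nat_lit 377) (nat_lit 325)) (XT.nd (nat_lit 78) (nat_lit 608) (nat_lit 0) (XT.lf (nat_lit 0) (nat_lit 4175328004) (nat_lit 684) (nat_lit 1518728524) (nat_lit 760) (nat_lit 2949365367) (nat_lit 273) (nat_lit 5) (nat_lit 282) (nat_lit 5) (nat_lit 283) (nat_lit 5) (nat_lit 439) (nat_lit 377) (nat_lit 324)) (XT.lf (nat_lit 0) (nat_lit 1199283009) (nat_lit 608) (nat_lit 7233892568) (nat_lit 684) (nat_lit 290385532) (nat_lit 265) (nat_lit 5) (nat_lit 273) (nat_lit 5) (nat_lit 274) (nat_lit 5) (nat_lit 440) (nat_lit 377) (nat_lit 323))))))))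
noncomputable def xc85 : XT := (XT.nd (nat_lit 1716) (nat_lit 5396) (nat_lit 0) (XT.nd (nat_lit 858) (nat_lit 3496) (nat_lit 0) (XT.nd (nat_lit 390) (nat_lit 2356) (nat_lit 0) (XT.nd (nat_lit 156) (nat_lit 1292) (nat_lit 0) (XT.nd (nat_lit 78) (nat_lit 684) (nat_lit 0) (XT.lf (nat_lit 0) (nat_lit 2392284194) (nat_lit 684) (nat_lit 1836472473) (nat_lit 76) (nat_lit 4576198264) (nat_lit 264) (nat_lit 5) (nat_lit 273) (nat_lit 5) (nat_lit 265) (nat_lit 5) (nat_lit 441) (nat_lit 377) (nat_lit 322)) (XT.lf (nat_lit 0) (nat_lit 3969777059) (nat_lit 684) (nat_lit 1143497176) (nat_lit 760) (nat_lit 3774904416) (nat_lit 255) (nat_lit 5) (nat_lit 264) (nat_lit 5) (nat_lit 265) (nat_lit 5) (nat_lit 442) (nat_lit 377) (nat_lit 321))) (XT.nd (nat_lit 78) (nat_lit 684) (nat_lit 0) (XT.lf (nat_lit 0) (nat_lit 897053532) (nat_lit 608) (nat_lit 6986027440) (nat_lit 684) (nat_lit 1090109224) (nat_lit 247) (nat_lit 5) (nat_lit 255) (nat_lit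 5) (nat_lit 256) (nat_lit 5) (nat_lit 443) (nat_lit 377) (nat_lit 320)) (XT.nd (nat_lit 78) (nat_lit 608) (nat_lit 0) (XT.lf (nat_lit 0) (nat_lit 1630893571) (nat_lit 684) (nat_lit 2228291283) (nat_lit 76) (nat_lit 5200431311) (nat_lit 246) (nat_lit 5) (nat_lit 255) (nat_lit 5) (nat_lit 247) (nat_lit 5) (nat_lit 444) (nat_lit 377) (nat_lit 319)) (XT.lf (nat_lit 0) (nat_lit 3733111377) (nat_lit 608) (nat_lit 646912957) (nat_lit 684) (nat_lit 4767846753) (nat_lit 238) (nat_lit 5) (nat_lit 246) (nat_lit 5) (nat_lit 247) (nat_lit 5) (nat_lit 445) (nat_lit 377) (nat_lit 318))))) (XT.nd (nat_lit 234) (nat_lit 1140) (nat_lit 0) (XT.nd (nat_lit 78) (nat_lit 684) (nat_lit 0) (XT.lf (nat_lit 0) (nat_lit 550903699) (nat_lit 532) (nat_lit 6633342251) (nat_lit 608) (nat_lit 2053653423) (nat_lit 231) (nat_lit 5) (nat_lit 238) (nat_lit 5) (nat_lit 239) (nat_lit 5) (nat_lit 446) (nat_lit 377) (nat_lit 317)) (XT.nd (nat_lit 78) (nat_lit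 608) (nat_lit 0) (XT.lf (nat_lit 0) (nat_lit 710876960) (nat_lit 608) (nat_lit 2674574561) (nat_lit 76) (nat_lit 5944085341) (nat_lit 230) (nat_lit 5) (nat_lit 238) (nat_lit 5) (nat_lit 231) (nat_lit 5) (nat_lit 447) (nat_lit 377) (nat_lit 316)) (XT.lf (nat_lit 0) (nat_lit 3444884720) (nat_lit 608) (nat_lit 45969266) (nat_lit 684) (nat_lit 5932138361) (nat_lit 222) (nat_lit 5) (nat_lit 230) (nat_lit 5) (nat_lit 231) (nat_lit 5) (nat_lit 448) (nat_lit 377) (nat_lit 315)))) (XT.nd (nat_lit 78) (nat_lit 608) (nat_lit 0) (XT.lf (nat_lit 0) (nat_lit 139800950) (nat_lit 532) (nat_lit 6193009867) (nat_lit 608) (nat_lit 3185388153) (nat_lit 215) (nat_lit 5) (nat_lit 222) (nat_lit 5) (nat_lit 223) (nat_lit 5) (nat_lit 449) (nat_lit 377) (nat_lit 314)) (XT.nd (nat_lit 78) (nat_lit 608) (nat_lit 0) (XT.lf (nat_lit 0) (nat_lit 6415964771) (nat_lit 532) (nat_lit 2822032971) (nat_lit 608) (nat_lit 377193610) (nat_lit 215) (nat_lit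 5) (nat_lit 222) (nat_lit 5) (nat_lit 223) (nat_lit 5) (nat_lit 450) (nat_lit 377) (nat_lit 313)) (XT.lf (nat_lit 0) (nat_lit 2445145340) (nat_lit 608) (nat_lit 6634838519) (nat_lit 76) (nat_lit 634013833) (nat_lit 207) (nat_lit 5) (nat_lit 215) (nat_lit 5) (nat_lit 208) (nat_lit 5) (nat_lit 451) (nat_lit 377) (nat_lit 312)))))) (XT.nd (nat_lit 390) (nat_lit 1900) (nat_lit 0) (XT.nd (nat_lit 156) (nat_lit 1064) (nat_lit 0) (XT.nd (nat_lit 78) (nat_lit 532) (nat_lit 0) (XT.lf (nat_lit 0) (nat_lit 5325895705) (nat_lit 608) (nat_lit 353917026) (nat_lit 76) (nat_lit 4134786159) (nat_lit 207) (nat_lit 5) (nat_lit 215) (nat_lit 5) (nat_lit 208) (nat_lit 5) (nat_lit 452) (nat_lit 377) (nat_lit 311)) (XT.lf (nat_lit 0) (nat_lit 6088637121) (nat_lit 532) (nat_lit 2182519058) (nat_lit 608) (nat_lit 1645926756) (nat_lit 200) (nat_lit 5) (nat_lit 207) (nat_lit 5) (nat_lit 208) (nat_lit 5) (nat_lit 453) (nat_lit 377) (nat_lit 310)))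 (XT.nd (nat_lit 78) (nat_lit 456) (nat_lit 0) (XT.lf (nat_lit 0) (nat_lit 1233297340) (nat_lit 608) (nat_lit 7405263646) (nat_lit 76) (nat_lit 1382980571) (nat_lit 192) (nat_lit 5) (nat_lit 200) (nat_lit 5) (nat_lit 193) (nat_lit 5) (nat_lit 454) (nat_lit 377) (nat_lit 309)) (XT.nd (nat_lit 78) (nat_lit 456) (nat_lit 0) (XT.lf (nat_lit 0) (nat_lit 4156179467) (nat_lit 608) (nat_lit 955585908) (nat_lit 76) (nat_lit 5015952359) (nat_lit 192) (nat_lit 5) (nat_lit 200) (nat_lit 5) (nat_lit 193) (nat_lit 5) (nat_lit 455) (nat_lit 377) (nat_lit 308)) (XT.lf (nat_lit 0) (nat_lit 5653826540) (nat_lit 456) (nat_lit 1488810021) (nat_lit 532) (nat_lit 3093286588) (nat_lit 186) (nat_lit 5) (nat_lit 192) (nat_lit 5) (nat_lit 193) (nat_lit 5) (nat_lit 456) (nat_lit 377) (nat_lit 307))))) (XT.nd (nat_lit 234) (nat_lit 912) (nat_lit 0) (XT.nd (nat_lit 78) (nat_lit 532) (nat_lit 0) (XT.lf (nat_lit 0) (nat_lit 2030801090) (nat_lit 456)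 (nat_lit 8160659998) (nat_lit 532) (nat_lit 154786723) (nat_lit 180) (nat_lit 5) (nat_lit 186) (nat_lit 5) (nat_lit 187) (nat_lit 5) (nat_lit 457) (nat_lit 377) (nat_lit 306)) (XT.nd (nat_lit 78) (nat_lit 456) (nat_lit 0) (XT.lf (nat_lit 0) (nat_lit 2814805967) (nat_lit 532) (nat_lit 1692429355) (nat_lit 76) (nat_lit 5950990085) (nat_lit 179) (nat_lit 5) (nat_lit 186) (nat_lit 5) (nat_lit 180) (nat_lit 5) (nat_lit 458) (nat_lit 377) (nat_lit 305)) (XT.lf (nat_lit 0) (nat_lit 5085768125) (nat_lit 456) (nat_lit 758374776) (nat_lit 532) (nat_lit 4728238139) (nat_lit 173) (nat_lit 5) (nat_lit 179) (nat_lit 5) (nat_lit 180) (nat_lit 5) (nat_lit 459) (nat_lit 377) (nat_lit 304)))) (XT.nd (nat_lit 78) (nat_lit 456) (nat_lit 0) (XT.lf (nat_lit 0) (nat_lit 1287581265) (nat_lit 456) (nat_lit 7655825711) (nat_lit 532) (nat_lit 1745233304) (nat_lit 167) (nat_lit 5) (nat_lit 173) (nat_lit 5) (nat_lit 174) (nat_lit 5) (nat_lit 460)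 (nat_lit 377) (nat_lit 303)) (XT.nd (nat_lit 78) (nat_lit 380) (nat_lit 0) (XT.lf (nat_lit 0) (nat_lit 1292255584) (nat_lit 532) (nat_lit 2591876797) (nat_lit 76) (nat_lit 6922694067) (nat_lit 166) (nat_lit 5) (nat_lit 173) (nat_lit 5) (nat_lit 167) (nat_lit 5) (nat_lit 461) (nat_lit 377) (nat_lit 302)) (XT.lf (nat_lit 0) (nat_lit 4356587979) (nat_lit 380) (nat_lit 9194094) (nat_lit 456) (nat_lit 6561397296) (nat_lit 161) (nat_lit 5) (nat_lit 166) (nat_lit 5) (nat_lit 167) (nat_lit 5) (nat_lit 462) (nat_lit 377) (nat_lit 301))))))) (XT.nd (nat_lit 858) (nat_lit 2432) (nat_lit 0) (XT.nd (nat_lit 390) (nat_lit 1672) (nat_lit 0) (XT.nd (nat_lit 156) (nat_lit 836) (nat_lit 0) (XT.nd (nat_lit 78) (nat_lit 0) (nat_lit 0) (XT.lf (nat_lit 0) (nat_lit 365934746) (nat_lit 456) (nat_lit 7150903142) (nat_lit 532) (nat_lit 3532787032) (nat_lit 155) (nat_lit 5) (nat_lit 161) (nat_lit 5) (nat_lit 162) (nat_lit 5) (nat_lit 463) (nat_lit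 377) (nat_lit 300)) (XT.lf (nat_lit 0) (nat_lit 7487765449) (nat_lit 456) (nat_lit 3258176215) (nat_lit 532) (nat_lit 428283793) (nat_lit 155) (nat_lit 5) (nat_lit 161) (nat_lit 5) (nat_lit 162) (nat_lit 5) (nat_lit 464) (nat_lit 377) (nat_lit 299))) (XT.nd (nat_lit 78) (nat_lit 380) (nat_lit 0) (XT.lf (nat_lit 0) (nat_lit 2700759735) (nat_lit 456) (nat_lit 7869889612) (nat_lit 76) (nat_lit 730352164) (nat_lit 149) (nat_lit 5) (nat_lit 155) (nat_lit 5) (nat_lit 150) (nat_lit 5) (nat_lit 465) (nat_lit 377) (nat_lit 298)) (XT.nd (nat_lit 78) (nat_lit 380) (nat_lit 0) (XT.lf (nat_lit 0) (nat_lit 5904590706) (nat_lit 456) (nat_lit 755589531) (nat_lit 76) (nat_lit 4769723636) (nat_lit 149) (nat_lit 5) (nat_lit 155) (nat_lit 5) (nat_lit 150) (nat_lit 5) (nat_lit 466) (nat_lit 377) (nat_lit 297)) (XT.lf (nat_lit 0) (nat_lit 6545469086) (nat_lit 380) (nat_lit 2641543099) (nat_lit 456) (nat_lit 2374087929) (nat_lit 144) (nat_lit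 5) (nat_lit 149) (nat_lit 5) (nat_lit 150) (nat_lit 5) (nat_lit 467) (nat_lit 377) (nat_lit 296))))) (XT.nd (nat_lit 234) (nat_lit 836) (nat_lit 0) (XT.nd (nat_lit 78) (nat_lit 380) (nat_lit 0) (XT.lf (nat_lit 0) (nat_lit 830773882) (nat_lit 456) (nat_lit 9413463837) (nat_lit 76) (nat_lit 1450546717) (nat_lit 138) (nat_lit 5) (nat_lit 144) (nat_lit 5) (nat_lit 139) (nat_lit 5) (nat_lit 468) (nat_lit 377) (nat_lit 295)) (XT.nd (nat_lit 78) (nat_lit 380) (nat_lit 0) (XT.lf (nat_lit 0) (nat_lit 4091647650) (nat_lit 456) (nat_lit 2113382516) (nat_lit 76) (nat_lit 5625330107) (nat_lit 138) (nat_lit 5) (nat_lit 144) (nat_lit 5) (nat_lit 139) (nat_lit 5) (nat_lit 469) (nat_lit 377) (nat_lit 294)) (XT.lf (nat_lit 0) (nat_lit 5362169700) (nat_lit 380) (nat_lit 2063227050) (nat_lit 456) (nat_lit 4543103364) (nat_lit 133) (nat_lit 5) (nat_lit 138) (nat_lit 5) (nat_lit 139) (nat_lit 5) (nat_lit 470) (nat_lit 377) (nat_lit 293))))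 (XT.nd (nat_lit 78) (nat_lit 456) (nat_lit 0) (XT.lf (nat_lit 0) (nat_lit 862909166) (nat_lit 380) (nat_lit 9969846508) (nat_lit 456) (nat_lit 1276513915) (nat_lit 128) (nat_lit 5) (nat_lit 133) (nat_lit 5) (nat_lit 134) (nat_lit 5) (nat_lit 471) (nat_lit 377) (nat_lit 292)) (XT.nd (nat_lit 78) (nat_lit 380) (nat_lit 0) (XT.lf (nat_lit 0) (nat_lit 2059844675) (nat_lit 456) (nat_lit 3749320968) (nat_lit 76) (nat_lit 6442799340) (nat_lit 127) (nat_lit 5) (nat_lit 133) (nat_lit 5) (nat_lit 128) (nat_lit 5) (nat_lit 472) (nat_lit 377) (nat_lit 291)) (XT.lf (nat_lit 0) (nat_lit 3900026833) (nat_lit 380) (nat_lit 1544781066) (nat_lit 456) (nat_lit 6952563446) (nat_lit 122) (nat_lit 5) (nat_lit 127) (nat_lit 5) (nat_lit 128) (nat_lit 5) (nat_lit 473) (nat_lit 377) (nat_lit 290)))))) (XT.nd (nat_lit 390) (nat_lit 1368) (nat_lit 0) (XT.nd (nat_lit 156) (nat_lit 760) (nat_lit 0) (XT.nd (nat_lit 78) (nat_lit 304) (nat_lit 0) (XT.lf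 (nat_lit 0) (nat_lit 8914806893) (nat_lit 456) (nat_lit 850875533) (nat_lit 76) (nat_lit 2779661791) (nat_lit 122) (nat_lit 5) (nat_lit 128) (nat_lit 5) (nat_lit 123) (nat_lit 5) (nat_lit 474) (nat_lit 377) (nat_lit 289)) (XT.lf (nat_lit 0) (nat_lit 6990265505) (nat_lit 304) (nat_lit 5493868641) (nat_lit 380) (nat_lit 211548847) (nat_lit 118) (nat_lit 5) (nat_lit 122) (nat_lit 5) (nat_lit 123) (nat_lit 5) (nat_lit 475) (nat_lit 377) (nat_lit 288))) (XT.nd (nat_lit 78) (nat_lit 304) (nat_lit 0) (XT.lf (nat_lit 0) (nat_lit 2117524410) (nat_lit 380) (nat_lit 1109214790) (nat_lit 456) (nat_lit 9621991131) (nat_lit 112) (nat_lit 5) (nat_lit 117) (nat_lit 5) (nat_lit 118) (nat_lit 5) (nat_lit 476) (nat_lit 377) (nat_lit 287)) (XT.nd (nat_lit 78) (nat_lit 304) (nat_lit 0) (XT.lf (nat_lit 0) (nat_lit 6765879006) (nat_lit 456) (nat_lit 2893247450) (nat_lit 76) (nat_lit 3344990543) (nat_lit 112) (nat_lit 5) (nat_lit 118) (nat_lit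 5) (nat_lit 113) (nat_lit 5) (nat_lit 477) (nat_lit 377) (nat_lit 286)) (XT.lf (nat_lit 0) (nat_lit 5122137523) (nat_lit 304) (nat_lit 5269305796) (nat_lit 380) (nat_lit 2770859878) (nat_lit 108) (nat_lit 5) (nat_lit 112) (nat_lit 5) (nat_lit 113) (nat_lit 5) (nat_lit 478) (nat_lit 377) (nat_lit 285))))) (XT.nd (nat_lit 234) (nat_lit 684) (nat_lit 0) (XT.nd (nat_lit 78) (nat_lit 608) (nat_lit 0) (XT.lf (nat_lit 0) (nat_lit 750473323) (nat_lit 380) (nat_lit 30559191) (nat_lit 76) (nat_lit 12542632566) (nat_lit 107) (nat_lit 5) (nat_lit 112) (nat_lit 5) (nat_lit 108) (nat_lit 5) (nat_lit 479) (nat_lit 377) (nat_lit 284)) (XT.nd (nat_lit 78) (nat_lit 304) (nat_lit 0) (XT.lf (nat_lit 0) (nat_lit 4358971132) (nat_lit 380) (nat_lit 5322523510) (nat_lit 76) (nat_lit 3805320819) (nat_lit 103) (nat_lit 5) (nat_lit 108) (nat_lit 5) (nat_lit 104) (nat_lit 5) (nat_lit 480) (nat_lit 377) (nat_lit 283)) (XT.lf (nat_lit 0) (nat_lit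 2864001544) (nat_lit 304) (nat_lit 5175346612) (nat_lit 380) (nat_lit 5613890787) (nat_lit 99) (nat_lit 5) (nat_lit 103) (nat_lit 5) (nat_lit 104) (nat_lit 5) (nat_lit 481) (nat_lit 377) (nat_lit 282)))) (XT.nd (nat_lit 78) (nat_lit 684) (nat_lit 0) (XT.lf (nat_lit 0) (nat_lit 11248043164) (nat_lit 304) (nat_lit 556968630) (nat_lit 380) (nat_lit 2017749713) (nat_lit 99) (nat_lit 5) (nat_lit 103) (nat_lit 5) (nat_lit 104) (nat_lit 5) (nat_lit 482) (nat_lit 377) (nat_lit 281)) (XT.nd (nat_lit 78) (nat_lit 304) (nat_lit 0) (XT.lf (nat_lit 0) (nat_lit 1670006720) (nat_lit 380) (nat_lit 8190446347) (nat_lit 76) (nat_lit 4134184453) (nat_lit 94) (nat_lit 5) (nat_lit 99) (nat_lit 5) (nat_lit 95) (nat_lit 5) (nat_lit 483) (nat_lit 377) (nat_lit 280)) (XT.lf (nat_lit 0) (nat_lit 162883266) (nat_lit 304) (nat_lit 5240182723) (nat_lit 380) (nat_lit 8766650963) (nat_lit 90) (nat_lit 5) (nat_lit 94) (nat_lit 5) (nat_lit 95) (nat_lit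 5) (nat_lit 484) (nat_lit 377) (nat_lit 279))))))))
noncomputable def xc86 : XT := (XT.nd (nat_lit 51558) (nat_lit 0) (nat_lit 40584) (XT.nd (nat_lit 858) (nat_lit 1368) (nat_lit 0) (XT.nd (nat_lit 390) (nat_lit 1140) (nat_lit 0) (XT.nd (nat_lit 156) (nat_lit 304) (nat_lit 0) (XT.nd (nat_lit 78) (nat_lit 304) (nat_lit 0) (XT.lf (nat_lit 0) (nat_lit 8756491730) (nat_lit 304) (nat_lit 485876034) (nat_lit 380) (nat_lit 5105302456) (nat_lit 90) (nat_lit 5) (nat_lit 94) (nat_lit 5) (nat_lit 95) (nat_lit 5) (nat_lit 485) (nat_lit 377) (nat_lit 278)) (XT.lf (nat_lit 0) (nat_lit 2965917108) (nat_lit 304) (nat_lit 10217111720) (nat_lit 380) (nat_lit 1345666060) (nat_lit 86) (nat_lit 5) (nat_lit 90) (nat_lit 5) (nat_lit 91) (nat_lit 5) (nat_lit 486) (nat_lit 377) (nat_lit 277))) (XT.nd (nat_lit 78) (nat_lit 228) (nat_lit 0) (XT.lf (nat_lit 0) (nat_lit 2474543971) (nat_lit 380) (nat_lit 2999775473) (nat_lit 76) (nat_lit 9238340495)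 (nat_lit 85) (nat_lit 5) (nat_lit 90) (nat_lit 5) (nat_lit 86) (nat_lit 5) (nat_lit 487) (nat_lit 377) (nat_lit 276)) (XT.nd (nat_lit 78) (nat_lit 0) (nat_lit 0) (XT.lf (nat_lit 0) (nat_lit 5764408954) (nat_lit 228) (nat_lit 603664953) (nat_lit 304) (nat_lit 8531757385) (nat_lit 82) (nat_lit 5) (nat_lit 85) (nat_lit 5) (nat_lit 86) (nat_lit 5) (nat_lit 488) (nat_lit 377) (nat_lit 275)) (XT.lf (nat_lit 0) (nat_lit 10365677258) (nat_lit 304) (nat_lit 411156435) (nat_lit 76) (nat_lit 4313391830) (nat_lit 82) (nat_lit 5) (nat_lit 86) (nat_lit 5) (nat_lit 83) (nat_lit 5) (nat_lit 489) (nat_lit 377) (nat_lit 274))))) (XT.nd (nat_lit 234) (nat_lit 532) (nat_lit 0) (XT.nd (nat_lit 78) (nat_lit 304) (nat_lit 0) (XT.lf (nat_lit 0) (nat_lit 8559699321) (nat_lit 304) (nat_lit 5921148378) (nat_lit 380) (nat_lit 802831080) (nat_lit 78) (nat_lit 5) (nat_lit 82) (nat_lit 5) (nat_lit 83) (nat_lit 5) (nat_lit 490) (nat_lit 377) (nat_lit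 273)) (XT.nd (nat_lit 78) (nat_lit 0) (nat_lit 0) (XT.lf (nat_lit 0) (nat_lit 2206545203) (nat_lit 228) (nat_lit 944037393) (nat_lit 304) (nat_lit 12330102718) (nat_lit 74) (nat_lit 5) (nat_lit 77) (nat_lit 5) (nat_lit 78) (nat_lit 5) (nat_lit 491) (nat_lit 377) (nat_lit 272)) (XT.lf (nat_lit 0) (nat_lit 7222771862) (nat_lit 304) (nat_lit 4342673982) (nat_lit 76) (nat_lit 4115074099) (nat_lit 74) (nat_lit 5) (nat_lit 78) (nat_lit 5) (nat_lit 75) (nat_lit 5) (nat_lit 492) (nat_lit 377) (nat_lit 271)))) (XT.nd (nat_lit 78) (nat_lit 304) (nat_lit 0) (XT.lf (nat_lit 0) (nat_lit 4788359131) (nat_lit 228) (nat_lit 6604009665) (nat_lit 304) (nat_lit 4491666368) (nat_lit 71) (nat_lit 5) (nat_lit 74) (nat_lit 5) (nat_lit 75) (nat_lit 5) (nat_lit 493) (nat_lit 377) (nat_lit 270)) (XT.nd (nat_lit 78) (nat_lit 304) (nat_lit 0) (XT.lf (nat_lit 0) (nat_lit 14125502651) (nat_lit 228) (nat_lit 1527808900) (nat_lit 304) (nat_lit 438153179)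 (nat_lit 71) (nat_lit 5) (nat_lit 74) (nat_lit 5) (nat_lit 75) (nat_lit 5) (nat_lit 494) (nat_lit 377) (nat_lit 269)) (XT.lf (nat_lit 0) (nat_lit 3699064244) (nat_lit 304) (nat_lit 8941879821) (nat_lit 76) (nat_lit 3660599556) (nat_lit 67) (nat_lit 5) (nat_lit 71) (nat_lit 5) (nat_lit 68) (nat_lit 5) (nat_lit 495) (nat_lit 377) (nat_lit 268)))))) (XT.nd (nat_lit 390) (nat_lit 608) (nat_lit 0) (XT.nd (nat_lit 156) (nat_lit 532) (nat_lit 0) (XT.nd (nat_lit 78) (nat_lit 0) (nat_lit 0) (XT.lf (nat_lit 0) (nat_lit 339172257) (nat_lit 228) (nat_lit 7578773181) (nat_lit 304) (nat_lit 8597727940) (nat_lit 64) (nat_lit 5) (nat_lit 67) (nat_lit 5) (nat_lit 68) (nat_lit 5) (nat_lit 496) (nat_lit 377) (nat_lit 267)) (XT.lf (nat_lit 0) (nat_lit 9892225414) (nat_lit 228) (nat_lit 2368346376) (nat_lit 304) (nat_lit 4472729467) (nat_lit 64) (nat_lit 5) (nat_lit 67) (nat_lit 5) (nat_lit 68) (nat_lit 5) (nat_lit 497) (nat_lit 377) (nat_lit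 266))) (XT.nd (nat_lit 78) (nat_lit 304) (nat_lit 0) (XT.lf (nat_lit 0) (nat_lit 2662382602) (nat_lit 228) (nat_lit 14043760410) (nat_lit 304) (nat_lit 248819658) (nat_lit 61) (nat_lit 5) (nat_lit 64) (nat_lit 5) (nat_lit 65) (nat_lit 5) (nat_lit 498) (nat_lit 377) (nat_lit 265)) (XT.nd (nat_lit 78) (nat_lit 228) (nat_lit 0) (XT.lf (nat_lit 0) (nat_lit 4047939203) (nat_lit 304) (nat_lit 4808351437) (nat_lit 76) (nat_lit 8323409979) (nat_lit 60) (nat_lit 5) (nat_lit 64) (nat_lit 5) (nat_lit 61) (nat_lit 5) (nat_lit 499) (nat_lit 377) (nat_lit 264)) (XT.lf (nat_lit 0) (nat_lit 4894270617) (nat_lit 228) (nat_lit 3544925769) (nat_lit 304) (nat_lit 8969468810) (nat_lit 57) (nat_lit 5) (nat_lit 60) (nat_lit 5) (nat_lit 61) (nat_lit 5) (nat_lit 500) (nat_lit 377) (nat_lit 263))))) (XT.nd (nat_lit 234) (nat_lit 380) (nat_lit 0) (XT.nd (nat_lit 78) (nat_lit 228) (nat_lit 0) (XT.lf (nat_lit 0) (nat_lit 12943113898) (nat_lit 304)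 (nat_lit 2831729072) (nat_lit 76) (nat_lit 1866871999) (nat_lit 57) (nat_lit 5) (nat_lit 61) (nat_lit 5) (nat_lit 58) (nat_lit 5) (nat_lit 501) (nat_lit 377) (nat_lit 262)) (XT.nd (nat_lit 78) (nat_lit 76) (nat_lit 0) (XT.lf (nat_lit 0) (nat_lit 7080726810) (nat_lit 152) (nat_lit 10506416695) (nat_lit 228) (nat_lit 291284114) (nat_lit 55) (nat_lit 5) (nat_lit 57) (nat_lit 5) (nat_lit 58) (nat_lit 5) (nat_lit 502) (nat_lit 377) (nat_lit 261)) (XT.lf (nat_lit 0) (nat_lit 4148789766) (nat_lit 228) (nat_lit 950392839) (nat_lit 76) (nat_lit 13020153464) (nat_lit 54) (nat_lit 5) (nat_lit 57) (nat_lit 5) (nat_lit 55) (nat_lit 5) (nat_lit 503) (nat_lit 377) (nat_lit 260)))) (XT.nd (nat_lit 78) (nat_lit 152) (nat_lit 0) (XT.lf (nat_lit 0) (nat_lit 8717391114) (nat_lit 304) (nat_lit 9187550186) (nat_lit 76) (nat_lit 459212763) (nat_lit 51) (nat_lit 5) (nat_lit 55) (nat_lit 5) (nat_lit 52) (nat_lit 5) (nat_lit 504) (nat_lit 377)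 (nat_lit 259)) (XT.nd (nat_lit 49920) (nat_lit 0) (nat_lit 49248) (XT.lf (nat_lit 0) (nat_lit 849901251) (nat_lit 152) (nat_lit 12554245330) (nat_lit 228) (nat_lit 5209188557) (nat_lit 49) (nat_lit 5) (nat_lit 51) (nat_lit 5) (nat_lit 52) (nat_lit 5) (nat_lit 505) (nat_lit 377) (nat_lit 258)) (XT.lf (nat_lit 0) (nat_lit 3195214923) (nat_lit 76) (nat_lit 14941628) (nat_lit 76) (nat_lit 14941628) (nat_lit 697) (nat_lit 4) (nat_lit 698) (nat_lit 5) (nat_lit 698) (nat_lit 4) (nat_lit 384) (nat_lit 378) (nat_lit 378))))))) (XT.nd (nat_lit 858) (nat_lit 6156) (nat_lit 0) (XT.nd (nat_lit 390) (nat_lit 1596) (nat_lit 0) (XT.nd (nat_lit 156) (nat_lit 456) (nat_lit 0) (XT.nd (nat_lit 78) (nat_lit 228) (nat_lit 0) (XT.lf (nat_lit 0) (nat_lit 3070488894) (nat_lit 228) (nat_lit 3191238447) (nat_lit 0) (nat_lit 192779651) (nat_lit 694) (nat_lit 5) (nat_lit 697) (nat_lit 4) (nat_lit 694) (nat_lit 4) (nat_lit 385) (nat_lit 378) (nat_lit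 377)) (XT.lf (nat_lit 0) (nat_lit 151323679) (nat_lit 228) (nat_lit 6004081078) (nat_lit 228) (nat_lit 305088264) (nat_lit 691) (nat_lit 4) (nat_lit 694) (nat_lit 5) (nat_lit 694) (nat_lit 4) (nat_lit 386) (nat_lit 378) (nat_lit 376))) (XT.nd (nat_lit 78) (nat_lit 380) (nat_lit 0) (XT.lf (nat_lit 0) (nat_lit 2741831265) (nat_lit 304) (nat_lit 2926457943) (nat_lit 76) (nat_lit 799119260) (nat_lit 690) (nat_lit 5) (nat_lit 694) (nat_lit 5) (nat_lit 691) (nat_lit 4) (nat_lit 387) (nat_lit 378) (nat_lit 375)) (XT.nd (nat_lit 78) (nat_lit 76) (nat_lit 0) (XT.lf (nat_lit 0) (nat_lit 483392355) (nat_lit 304) (nat_lit 5288924053) (nat_lit 380) (nat_lit 703620107) (nat_lit 686) (nat_lit 5) (nat_lit 690) (nat_lit 5) (nat_lit 691) (nat_lit 4) (nat_lit 388) (nat_lit 378) (nat_lit 374)) (XT.lf (nat_lit 0) (nat_lit 2291580225) (nat_lit 380) (nat_lit 2544301994) (nat_lit 76) (nat_lit 1649610943) (nat_lit 685) (nat_lit 5) (nat_lit 690)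 (nat_lit 5) (nat_lit 686) (nat_lit 5) (nat_lit 389) (nat_lit 378) (nat_lit 373))))) (XT.nd (nat_lit 234) (nat_lit 684) (nat_lit 0) (XT.nd (nat_lit 78) (nat_lit 532) (nat_lit 0) (XT.lf (nat_lit 0) (nat_lit 935819154) (nat_lit 380) (nat_lit 4333248353) (nat_lit 456) (nat_lit 1227490380) (nat_lit 680) (nat_lit 5) (nat_lit 685) (nat_lit 5) (nat_lit 686) (nat_lit 5) (nat_lit 390) (nat_lit 378) (nat_lit 372)) (XT.nd (nat_lit 78) (nat_lit 456) (nat_lit 0) (XT.lf (nat_lit 0) (nat_lit 1718221868) (nat_lit 456) (nat_lit 2044687995) (nat_lit 76) (nat_lit 2745873883) (nat_lit 679) (nat_lit 5) (nat_lit 685) (nat_lit 5) (nat_lit 680) (nat_lit 5) (nat_lit 391) (nat_lit 378) (nat_lit 371)) (XT.lf (nat_lit 0) (nat_lit 1508805289) (nat_lit 456) (nat_lit 3135221519) (nat_lit 532) (nat_lit 1878356145) (nat_lit 673) (nat_lit 5) (nat_lit 679) (nat_lit 5) (nat_lit 680) (nat_lit 5) (nat_lit 392) (nat_lit 378) (nat_lit 370)))) (XT.nd (nat_lit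 78) (nat_lit 608) (nat_lit 0) (XT.lf (nat_lit 0) (nat_lit 1020001233) (nat_lit 532) (nat_lit 1427314090) (nat_lit 76) (nat_lit 4089994110) (nat_lit 672) (nat_lit 5) (nat_lit 679) (nat_lit 5) (nat_lit 673) (nat_lit 5) (nat_lit 393) (nat_lit 378) (nat_lit 369)) (XT.nd (nat_lit 78) (nat_lit 76) (nat_lit 0) (XT.lf (nat_lit 0) (nat_lit 2202774483) (nat_lit 532) (nat_lit 1692547761) (nat_lit 608) (nat_lit 2658121820) (nat_lit 665) (nat_lit 5) (nat_lit 672) (nat_lit 5) (nat_lit 673) (nat_lit 5) (nat_lit 394) (nat_lit 378) (nat_lit 368)) (XT.lf (nat_lit 0) (nat_lit 194917938) (nat_lit 608) (nat_lit 691660412) (nat_lit 76) (nat_lit 5684527675) (nat_lit 664) (nat_lit 5) (nat_lit 672) (nat_lit 5) (nat_lit 665) (nat_lit 5) (nat_lit 395) (nat_lit 378) (nat_lit 367)))))) (XT.nd (nat_lit 390) (nat_lit 3952) (nat_lit 0) (XT.nd (nat_lit 156) (nat_lit 912) (nat_lit 0) (XT.nd (nat_lit 78) (nat_lit 684) (nat_lit 0) (XT.lf (nat_lit 0) (nat_lit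 3018371893) (nat_lit 608) (nat_lit 2464463) (nat_lit 684) (nat_lit 3568943798) (nat_lit 656) (nat_lit 5) (nat_lit 664) (nat_lit 5) (nat_lit 665) (nat_lit 5) (nat_lit 396) (nat_lit 378) (nat_lit 366)) (XT.lf (nat_lit 0) (nat_lit 154013454) (nat_lit 684) (nat_lit 5693754770) (nat_lit 760) (nat_lit 762207421) (nat_lit 647) (nat_lit 5) (nat_lit 656) (nat_lit 5) (nat_lit 657) (nat_lit 5) (nat_lit 397) (nat_lit 378) (nat_lit 365))) (XT.nd (nat_lit 78) (nat_lit 836) (nat_lit 0) (XT.lf (nat_lit 0) (nat_lit 2030785812) (nat_lit 760) (nat_lit 2687557961) (nat_lit 76) (nat_lit 1912841351) (nat_lit 646) (nat_lit 5) (nat_lit 656) (nat_lit 5) (nat_lit 647) (nat_lit 5) (nat_lit 398) (nat_lit 378) (nat_lit 364)) (XT.nd (nat_lit 78) (nat_lit 76) (nat_lit 0) (XT.lf (nat_lit 0) (nat_lit 1120764391) (nat_lit 760) (nat_lit 3690789794) (nat_lit 836) (nat_lit 1842357019) (nat_lit 636) (nat_lit 5) (nat_lit 646) (nat_lit 5) (nat_lit 647) (nat_lit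 5) (nat_lit 399) (nat_lit 378) (nat_lit 363)) (XT.lf (nat_lit 0) (nat_lit 911629989) (nat_lit 836) (nat_lit 1687167933) (nat_lit 76) (nat_lit 4079131702) (nat_lit 635) (nat_lit 5) (nat_lit 646) (nat_lit 5) (nat_lit 636) (nat_lit 5) (nat_lit 400) (nat_lit 378) (nat_lit 362))))) (XT.nd (nat_lit 234) (nat_lit 2128) (nat_lit 0) (XT.nd (nat_lit 78) (nat_lit 988) (nat_lit 0) (XT.lf (nat_lit 0) (nat_lit 2207681908) (nat_lit 836) (nat_lit 1439332196) (nat_lit 912) (nat_lit 3056184563) (nat_lit 624) (nat_lit 5) (nat_lit 635) (nat_lit 5) (nat_lit 636) (nat_lit 5) (nat_lit 401) (nat_lit 378) (nat_lit 361)) (XT.nd (nat_lit 78) (nat_lit 988) (nat_lit 0) (XT.lf (nat_lit 0) (nat_lit 6158791777) (nat_lit 836) (nat_lit 227219226) (nat_lit 912) (nat_lit 344016874) (nat_lit 624) (nat_lit 5) (nat_lit 635) (nat_lit 5) (nat_lit 636) (nat_lit 5) (nat_lit 402) (nat_lit 378) (nat_lit 360)) (XT.lf (nat_lit 0) (nat_lit 2358088194) (nat_lit 988)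 (nat_lit 3348693589) (nat_lit 76) (nat_lit 1050979663) (nat_lit 611) (nat_lit 5) (nat_lit 624) (nat_lit 5) (nat_lit 612) (nat_lit 5) (nat_lit 403) (nat_lit 378) (nat_lit 359)))) (XT.nd (nat_lit 78) (nat_lit 1140) (nat_lit 0) (XT.lf (nat_lit 0) (nat_lit 649918868) (nat_lit 988) (nat_lit 4408696404) (nat_lit 1064) (nat_lit 1728440201) (nat_lit 598) (nat_lit 5) (nat_lit 611) (nat_lit 5) (nat_lit 612) (nat_lit 5) (nat_lit 404) (nat_lit 378) (nat_lit 358)) (XT.nd (nat_lit 78) (nat_lit 1064) (nat_lit 0) (XT.lf (nat_lit 0) (nat_lit 945640195) (nat_lit 1064) (nat_lit 2095280810) (nat_lit 76) (nat_lit 3776665036) (nat_lit 597) (nat_lit 5) (nat_lit 611) (nat_lit 5) (nat_lit 598) (nat_lit 5) (nat_lit 405) (nat_lit 378) (nat_lit 357)) (XT.lf (nat_lit 0) (nat_lit 1996985779) (nat_lit 1064) (nat_lit 1607107000) (nat_lit 1140) (nat_lit 3245354459) (nat_lit 583) (nat_lit 5) (nat_lit 597) (nat_lit 5) (nat_lit 598) (nat_lit 5) (nat_lit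 406) (nat_lit 378) (nat_lit 356))))))))
noncomputable def xc87 : XT := (XT.nd (nat_lit 1716) (nat_lit 9804) (nat_lit 0) (XT.nd (nat_lit 858) (nat_lit 8284) (nat_lit 0) (XT.nd (nat_lit 390) (nat_lit 6080) (nat_lit 0) (XT.nd (nat_lit 156) (nat_lit 2584) (nat_lit 0) (XT.nd (nat_lit 78) (nat_lit 1216) (nat_lit 0) (XT.lf (nat_lit 0) (nat_lit 6154626434) (nat_lit 1064) (nat_lit 117060015) (nat_lit 1140) (nat_lit 611168402) (nat_lit 583) (nat_lit 5) (nat_lit 597) (nat_lit 5) (nat_lit 598) (nat_lit 5) (nat_lit 407) (nat_lit 378) (nat_lit 355)) (XT.lf (nat_lit 0) (nat_lit 2023053137) (nat_lit 1216) (nat_lit 3461131077) (nat_lit 76) (nat_lit 1433012885) (nat_lit 567) (nat_lit 5) (nat_lit 583) (nat_lit 5) (nat_lit 568) (nat_lit 5) (nat_lit 408) (nat_lit 378) (nat_lit 354))) (XT.nd (nat_lit 78) (nat_lit 1368) (nat_lit 0) (XT.lf (nat_lit 0) (nat_lit 740927513) (nat_lit 1216) (nat_lit 3914920267) (nat_lit 1292) (nat_lit 2297243152)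 (nat_lit 551) (nat_lit 5) (nat_lit 567) (nat_lit 5) (nat_lit 568) (nat_lit 5) (nat_lit 409) (nat_lit 378) (nat_lit 353)) (XT.nd (nat_lit 78) (nat_lit 1292) (nat_lit 0) (XT.lf (nat_lit 0) (nat_lit 314341094) (nat_lit 1292) (nat_lit 1963924585) (nat_lit 76) (nat_lit 4712070107) (nat_lit 550) (nat_lit 5) (nat_lit 567) (nat_lit 5) (nat_lit 551) (nat_lit 5) (nat_lit 410) (nat_lit 378) (nat_lit 352)) (XT.lf (nat_lit 0) (nat_lit 2339460017) (nat_lit 1292) (nat_lit 568230331) (nat_lit 1368) (nat_lit 4121151049) (nat_lit 533) (nat_lit 5) (nat_lit 550) (nat_lit 5) (nat_lit 551) (nat_lit 5) (nat_lit 411) (nat_lit 378) (nat_lit 351))))) (XT.nd (nat_lit 234) (nat_lit 3192) (nat_lit 0) (XT.nd (nat_lit 78) (nat_lit 2888) (nat_lit 0) (XT.lf (nat_lit 0) (nat_lit 5519727828) (nat_lit 1368) (nat_lit 366199499) (nat_lit 76) (nat_lit 1182878294) (nat_lit 533) (nat_lit 5) (nat_lit 551) (nat_lit 5) (nat_lit 534) (nat_lit 5) (nat_lit 412) (nat_lit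 378) (nat_lit 350)) (XT.nd (nat_lit 78) (nat_lit 1444) (nat_lit 0) (XT.lf (nat_lit 0) (nat_lit 1037191456) (nat_lit 1444) (nat_lit 3069362020) (nat_lit 76) (nat_lit 3003363173) (nat_lit 514) (nat_lit 5) (nat_lit 533) (nat_lit 5) (nat_lit 515) (nat_lit 5) (nat_lit 413) (nat_lit 378) (nat_lit 349)) (XT.lf (nat_lit 0) (nat_lit 1350364810) (nat_lit 1444) (nat_lit 2262697550) (nat_lit 1520) (nat_lit 3539433869) (nat_lit 495) (nat_lit 5) (nat_lit 514) (nat_lit 5) (nat_lit 515) (nat_lit 5) (nat_lit 414) (nat_lit 378) (nat_lit 348)))) (XT.nd (nat_lit 78) (nat_lit 3192) (nat_lit 0) (XT.lf (nat_lit 0) (nat_lit 5854715278) (nat_lit 1444) (nat_lit 354427923) (nat_lit 1520) (nat_lit 987433377) (nat_lit 495) (nat_lit 5) (nat_lit 514) (nat_lit 5) (nat_lit 515) (nat_lit 5) (nat_lit 415) (nat_lit 378) (nat_lit 347)) (XT.nd (nat_lit 78) (nat_lit 1596) (nat_lit 0) (XT.lf (nat_lit 0) (nat_lit 1574490975) (nat_lit 1596) (nat_lit 4058721707)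 (nat_lit 76) (nat_lit 1608536737) (nat_lit 474) (nat_lit 5) (nat_lit 495) (nat_lit 5) (nat_lit 475) (nat_lit 5) (nat_lit 416) (nat_lit 378) (nat_lit 346)) (XT.lf (nat_lit 0) (nat_lit 480349907) (nat_lit 1596) (nat_lit 3658128623) (nat_lit 1672) (nat_lit 3149957418) (nat_lit 453) (nat_lit 5) (nat_lit 474) (nat_lit 5) (nat_lit 475) (nat_lit 5) (nat_lit 417) (nat_lit 378) (nat_lit 345)))))) (XT.nd (nat_lit 390) (nat_lit 3572) (nat_lit 0) (XT.nd (nat_lit 156) (nat_lit 2964) (nat_lit 0) (XT.nd (nat_lit 78) (nat_lit 1748) (nat_lit 0) (XT.lf (nat_lit 0) (nat_lit 5119560379) (nat_lit 1596) (nat_lit 1611619191) (nat_lit 1672) (nat_lit 605349237) (nat_lit 453) (nat_lit 5) (nat_lit 474) (nat_lit 5) (nat_lit 475) (nat_lit 5) (nat_lit 418) (nat_lit 378) (nat_lit 344)) (XT.lf (nat_lit 0) (nat_lit 1934023666) (nat_lit 1748) (nat_lit 4949708361) (nat_lit 76) (nat_lit 502214042) (nat_lit 430) (nat_lit 5) (nat_lit 453) (nat_lit 5) (nat_lit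 431) (nat_lit 5) (nat_lit 419) (nat_lit 378) (nat_lit 343))) (XT.nd (nat_lit 78) (nat_lit 2964) (nat_lit 0) (XT.lf (nat_lit 0) (nat_lit 4493257513) (nat_lit 1748) (nat_lit 284426129) (nat_lit 76) (nat_lit 2659064471) (nat_lit 430) (nat_lit 5) (nat_lit 453) (nat_lit 5) (nat_lit 431) (nat_lit 5) (nat_lit 420) (nat_lit 378) (nat_lit 342)) (XT.nd (nat_lit 78) (nat_lit 1216) (nat_lit 0) (XT.lf (nat_lit 0) (nat_lit 4487773508) (nat_lit 1748) (nat_lit 2597513670) (nat_lit 1824) (nat_lit 403666451) (nat_lit 407) (nat_lit 5) (nat_lit 430) (nat_lit 5) (nat_lit 431) (nat_lit 5) (nat_lit 421) (nat_lit 378) (nat_lit 341)) (XT.lf (nat_lit 0) (nat_lit 1780654444) (nat_lit 1140) (nat_lit 343883992) (nat_lit 1216) (nat_lit 5418074395) (nat_lit 391) (nat_lit 5) (nat_lit 406) (nat_lit 5) (nat_lit 407) (nat_lit 5) (nat_lit 422) (nat_lit 378) (nat_lit 340))))) (XT.nd (nat_lit 234) (nat_lit 1748) (nat_lit 0) (XT.nd (nat_lit 78) (nat_lit 1824)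 (nat_lit 0) (XT.lf (nat_lit 0) (nat_lit 4684296393) (nat_lit 1216) (nat_lit 959887078) (nat_lit 76) (nat_lit 1953399021) (nat_lit 391) (nat_lit 5) (nat_lit 407) (nat_lit 5) (nat_lit 392) (nat_lit 5) (nat_lit 423) (nat_lit 378) (nat_lit 339)) (XT.nd (nat_lit 78) (nat_lit 912) (nat_lit 0) (XT.lf (nat_lit 0) (nat_lit 3942305763) (nat_lit 912) (nat_lit 3335154601) (nat_lit 988) (nat_lit 376565123) (nat_lit 379) (nat_lit 5) (nat_lit 391) (nat_lit 5) (nat_lit 392) (nat_lit 5) (nat_lit 424) (nat_lit 378) (nat_lit 338)) (XT.lf (nat_lit 0) (nat_lit 1199754537) (nat_lit 836) (nat_lit 951037420) (nat_lit 912) (nat_lit 5561157787) (nat_lit 367) (nat_lit 5) (nat_lit 378) (nat_lit 5) (nat_lit 379) (nat_lit 5) (nat_lit 425) (nat_lit 378) (nat_lit 337)))) (XT.nd (nat_lit 78) (nat_lit 1748) (nat_lit 0) (XT.lf (nat_lit 0) (nat_lit 4713560962) (nat_lit 912) (nat_lit 1569312719) (nat_lit 76) (nat_lit 1488327992) (nat_lit 367) (nat_lit 5)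 (nat_lit 379) (nat_lit 5) (nat_lit 368) (nat_lit 5) (nat_lit 426) (nat_lit 378) (nat_lit 336)) (XT.nd (nat_lit 78) (nat_lit 912) (nat_lit 0) (XT.lf (nat_lit 0) (nat_lit 3466219486) (nat_lit 836) (nat_lit 3846262885) (nat_lit 912) (nat_lit 519475104) (nat_lit 356) (nat_lit 5) (nat_lit 367) (nat_lit 5) (nat_lit 368) (nat_lit 5) (nat_lit 427) (nat_lit 378) (nat_lit 335)) (XT.lf (nat_lit 0) (nat_lit 679758789) (nat_lit 836) (nat_lit 1333926671) (nat_lit 912) (nat_lit 5880562872) (nat_lit 344) (nat_lit 5) (nat_lit 355) (nat_lit 5) (nat_lit 356) (nat_lit 5) (nat_lit 428) (nat_lit 378) (nat_lit 334))))))) (XT.nd (nat_lit 858) (nat_lit 4408) (nat_lit 0) (XT.nd (nat_lit 390) (nat_lit 2964) (nat_lit 0) (XT.nd (nat_lit 156) (nat_lit 1596) (nat_lit 0) (XT.nd (nat_lit 78) (nat_lit 836) (nat_lit 0) (XT.lf (nat_lit 0) (nat_lit 4584932751) (nat_lit 912) (nat_lit 2129695833) (nat_lit 76) (nat_lit 1243215971) (nat_lit 344) (nat_lit 5)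 (nat_lit 356) (nat_lit 5) (nat_lit 345) (nat_lit 5) (nat_lit 429) (nat_lit 378) (nat_lit 333)) (XT.lf (nat_lit 0) (nat_lit 3042540238) (nat_lit 836) (nat_lit 4151403000) (nat_lit 912) (nat_lit 829058192) (nat_lit 333) (nat_lit 5) (nat_lit 344) (nat_lit 5) (nat_lit 345) (nat_lit 5) (nat_lit 430) (nat_lit 378) (nat_lit 332))) (XT.nd (nat_lit 78) (nat_lit 760) (nat_lit 0) (XT.lf (nat_lit 0) (nat_lit 203425432) (nat_lit 760) (nat_lit 1512791710) (nat_lit 836) (nat_lit 6373555886) (nat_lit 322) (nat_lit 5) (nat_lit 332) (nat_lit 5) (nat_lit 333) (nat_lit 5) (nat_lit 431) (nat_lit 378) (nat_lit 331)) (XT.nd (nat_lit 78) (nat_lit 760) (nat_lit 0) (XT.lf (nat_lit 0) (nat_lit 4301101994) (nat_lit 836) (nat_lit 2658191635) (nat_lit 76) (nat_lit 1198495327) (nat_lit 322) (nat_lit 5) (nat_lit 333) (nat_lit 5) (nat_lit 323) (nat_lit 5) (nat_lit 432) (nat_lit 378) (nat_lit 330)) (XT.lf (nat_lit 0) (nat_lit 2654105007) (nat_lit 760)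 (nat_lit 4270143638) (nat_lit 836) (nat_lit 1303199592) (nat_lit 312) (nat_lit 5) (nat_lit 322) (nat_lit 5) (nat_lit 323) (nat_lit 5) (nat_lit 433) (nat_lit 378) (nat_lit 329))))) (XT.nd (nat_lit 234) (nat_lit 1444) (nat_lit 0) (XT.nd (nat_lit 78) (nat_lit 1444) (nat_lit 0) (XT.lf (nat_lit 0) (nat_lit 1261785595) (nat_lit 836) (nat_lit 243498304) (nat_lit 76) (nat_lit 6793511669) (nat_lit 311) (nat_lit 5) (nat_lit 322) (nat_lit 5) (nat_lit 312) (nat_lit 5) (nat_lit 434) (nat_lit 378) (nat_lit 328)) (XT.nd (nat_lit 78) (nat_lit 760) (nat_lit 0) (XT.lf (nat_lit 0) (nat_lit 3863570218) (nat_lit 760) (nat_lit 3172272076) (nat_lit 76) (nat_lit 1335509766) (nat_lit 302) (nat_lit 5) (nat_lit 312) (nat_lit 5) (nat_lit 303) (nat_lit 5) (nat_lit 435) (nat_lit 378) (nat_lit 327)) (XT.lf (nat_lit 0) (nat_lit 2283405339) (nat_lit 760) (nat_lit 4221214247) (nat_lit 836) (nat_lit 1941008742) (nat_lit 292) (nat_lit 5) (nat_lit 302)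 (nat_lit 5) (nat_lit 303) (nat_lit 5) (nat_lit 436) (nat_lit 378) (nat_lit 326)))) (XT.nd (nat_lit 78) (nat_lit 1368) (nat_lit 0) (XT.lf (nat_lit 0) (nat_lit 650647186) (nat_lit 836) (nat_lit 679584765) (nat_lit 76) (nat_lit 7191434408) (nat_lit 291) (nat_lit 5) (nat_lit 302) (nat_lit 5) (nat_lit 292) (nat_lit 5) (nat_lit 437) (nat_lit 378) (nat_lit 325)) (XT.nd (nat_lit 78) (nat_lit 684) (nat_lit 0) (XT.lf (nat_lit 0) (nat_lit 3272643551) (nat_lit 760) (nat_lit 3689886220) (nat_lit 76) (nat_lit 1636361292) (nat_lit 282) (nat_lit 5) (nat_lit 292) (nat_lit 5) (nat_lit 283) (nat_lit 5) (nat_lit 438) (nat_lit 378) (nat_lit 324)) (XT.lf (nat_lit 0) (nat_lit 1912424037) (nat_lit 684) (nat_lit 4022658686) (nat_lit 760) (nat_lit 2742829699) (nat_lit 273) (nat_lit 5) (nat_lit 282) (nat_lit 5) (nat_lit 283) (nat_lit 5) (nat_lit 439) (nat_lit 378) (nat_lit 323)))))) (XT.nd (nat_lit 390) (nat_lit 2356) (nat_lit 0) (XT.nd (nat_lit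 156) (nat_lit 1368) (nat_lit 0) (XT.nd (nat_lit 78) (nat_lit 684) (nat_lit 0) (XT.lf (nat_lit 0) (nat_lit 7632265591) (nat_lit 684) (nat_lit 1005904583) (nat_lit 760) (nat_lit 120608025) (nat_lit 273) (nat_lit 5) (nat_lit 282) (nat_lit 5) (nat_lit 283) (nat_lit 5) (nat_lit 440) (nat_lit 378) (nat_lit 322)) (XT.lf (nat_lit 0) (nat_lit 2527416523) (nat_lit 684) (nat_lit 4229628109) (nat_lit 76) (nat_lit 2083759414) (nat_lit 264) (nat_lit 5) (nat_lit 273) (nat_lit 5) (nat_lit 265) (nat_lit 5) (nat_lit 441) (nat_lit 378) (nat_lit 321))) (XT.nd (nat_lit 78) (nat_lit 684) (nat_lit 0) (XT.lf (nat_lit 0) (nat_lit 1522463966) (nat_lit 684) (nat_lit 3691987167) (nat_lit 760) (nat_lit 3710261329) (nat_lit 255) (nat_lit 5) (nat_lit 264) (nat_lit 5) (nat_lit 265) (nat_lit 5) (nat_lit 442) (nat_lit 378) (nat_lit 320)) (XT.nd (nat_lit 78) (nat_lit 684) (nat_lit 0) (XT.lf (nat_lit 0) (nat_lit 7402662558) (nat_lit 684) (nat_lit 544882018)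 (nat_lit 760) (nat_lit 1062919178) (nat_lit 255) (nat_lit 5) (nat_lit 264) (nat_lit 5) (nat_lit 265) (nat_lit 5) (nat_lit 443) (nat_lit 378) (nat_lit 319)) (XT.lf (nat_lit 0) (nat_lit 1625746043) (nat_lit 684) (nat_lit 4810913628) (nat_lit 76) (nat_lit 2660871406) (nat_lit 246) (nat_lit 5) (nat_lit 255) (nat_lit 5) (nat_lit 247) (nat_lit 5) (nat_lit 444) (nat_lit 378) (nat_lit 318))))) (XT.nd (nat_lit 234) (nat_lit 1140) (nat_lit 0) (XT.nd (nat_lit 78) (nat_lit 608) (nat_lit 0) (XT.lf (nat_lit 0) (nat_lit 1093967435) (nat_lit 608) (nat_lit 3246327685) (nat_lit 684) (nat_lit 4846187676) (nat_lit 238) (nat_lit 5) (nat_lit 246) (nat_lit 5) (nat_lit 247) (nat_lit 5) (nat_lit 445) (nat_lit 378) (nat_lit 317)) (XT.nd (nat_lit 78) (nat_lit 608) (nat_lit 0) (XT.lf (nat_lit 0) (nat_lit 7106787606) (nat_lit 684) (nat_lit 2139285280) (nat_lit 76) (nat_lit 31197840) (nat_lit 238) (nat_lit 5) (nat_lit 247) (nat_lit 5) (nat_lit 239)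 (nat_lit 5) (nat_lit 446) (nat_lit 378) (nat_lit 316)) (XT.lf (nat_lit 0) (nat_lit 564215158) (nat_lit 608) (nat_lit 5454167969) (nat_lit 76) (nat_lit 3351172410) (nat_lit 230) (nat_lit 5) (nat_lit 238) (nat_lit 5) (nat_lit 231) (nat_lit 5) (nat_lit 447) (nat_lit 378) (nat_lit 315)))) (XT.nd (nat_lit 78) (nat_lit 532) (nat_lit 0) (XT.lf (nat_lit 0) (nat_lit 606324497) (nat_lit 608) (nat_lit 2702578169) (nat_lit 684) (nat_lit 6154818916) (nat_lit 222) (nat_lit 5) (nat_lit 230) (nat_lit 5) (nat_lit 231) (nat_lit 5) (nat_lit 448) (nat_lit 378) (nat_lit 314)) (XT.nd (nat_lit 78) (nat_lit 532) (nat_lit 0) (XT.lf (nat_lit 0) (nat_lit 6116002034) (nat_lit 684) (nat_lit 2745975202) (nat_lit 76) (nat_lit 697652795) (nat_lit 222) (nat_lit 5) (nat_lit 231) (nat_lit 5) (nat_lit 223) (nat_lit 5) (nat_lit 449) (nat_lit 378) (nat_lit 313)) (XT.lf (nat_lit 0) (nat_lit 3471938495) (nat_lit 532) (nat_lit 5514669733) (nat_lit 608) (nat_lit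 670710383) (nat_lit 215) (nat_lit 5) (nat_lit 222) (nat_lit 5) (nat_lit 223) (nat_lit 5) (nat_lit 450) (nat_lit 378) (nat_lit 312))))))))
noncomputable def xc88 : XT := (XT.nd (nat_lit 1638) (nat_lit 4484) (nat_lit 0) (XT.nd (nat_lit 780) (nat_lit 3040) (nat_lit 0) (XT.nd (nat_lit 390) (nat_lit 1444) (nat_lit 0) (XT.nd (nat_lit 156) (nat_lit 1140) (nat_lit 0) (XT.nd (nat_lit 78) (nat_lit 0) (nat_lit 0) (XT.lf (nat_lit 0) (nat_lit 37668409) (nat_lit 532) (nat_lit 2077560599) (nat_lit 608) (nat_lit 7641743445) (nat_lit 207) (nat_lit 5) (nat_lit 214) (nat_lit 5) (nat_lit 215) (nat_lit 5) (nat_lit 451) (nat_lit 378) (nat_lit 311)) (XT.lf (nat_lit 0) (nat_lit 4966333855) (nat_lit 608) (nat_lit 3446596297) (nat_lit 76) (nat_lit 1445240730) (nat_lit 207) (nat_lit 5) (nat_lit 215) (nat_lit 5) (nat_lit 208) (nat_lit 5) (nat_lit 452) (nat_lit 378) (nat_lit 310))) (XT.nd (nat_lit 78) (nat_lit 608) (nat_lit 0) (XT.lf (nat_lit 0)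 (nat_lit 2933297904) (nat_lit 532) (nat_lit 4941970049) (nat_lit 608) (nat_lit 2086117737) (nat_lit 200) (nat_lit 5) (nat_lit 207) (nat_lit 5) (nat_lit 208) (nat_lit 5) (nat_lit 453) (nat_lit 378) (nat_lit 309)) (XT.nd (nat_lit 78) (nat_lit 532) (nat_lit 0) (XT.lf (nat_lit 0) (nat_lit 756959798) (nat_lit 608) (nat_lit 627011018) (nat_lit 76) (nat_lit 8682773123) (nat_lit 199) (nat_lit 5) (nat_lit 207) (nat_lit 5) (nat_lit 200) (nat_lit 5) (nat_lit 454) (nat_lit 378) (nat_lit 308)) (XT.lf (nat_lit 0) (nat_lit 3651064735) (nat_lit 608) (nat_lit 4264969391) (nat_lit 76) (nat_lit 2257465524) (nat_lit 192) (nat_lit 5) (nat_lit 200) (nat_lit 5) (nat_lit 193) (nat_lit 5) (nat_lit 455) (nat_lit 378) (nat_lit 307))))) (XT.nd (nat_lit 156) (nat_lit 988) (nat_lit 0) (XT.nd (nat_lit 78) (nat_lit 0) (nat_lit 0) (XT.lf (nat_lit 0) (nat_lit 2279114476) (nat_lit 456) (nat_lit 4321163993) (nat_lit 532) (nat_lit 3682175376) (nat_lit 186)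 (nat_lit 5) (nat_lit 192) (nat_lit 5) (nat_lit 193) (nat_lit 5) (nat_lit 456) (nat_lit 378) (nat_lit 306)) (XT.lf (nat_lit 0) (nat_lit 8969614170) (nat_lit 456) (nat_lit 636843650) (nat_lit 532) (nat_lit 787177426) (nat_lit 186) (nat_lit 5) (nat_lit 192) (nat_lit 5) (nat_lit 193) (nat_lit 5) (nat_lit 457) (nat_lit 378) (nat_lit 305))) (XT.nd (nat_lit 78) (nat_lit 456) (nat_lit 0) (XT.lf (nat_lit 0) (nat_lit 2161996671) (nat_lit 532) (nat_lit 5226713371) (nat_lit 76) (nat_lit 3117562855) (nat_lit 179) (nat_lit 5) (nat_lit 186) (nat_lit 5) (nat_lit 180) (nat_lit 5) (nat_lit 458) (nat_lit 378) (nat_lit 304)) (XT.nd (nat_lit 78) (nat_lit 0) (nat_lit 0) (XT.lf (nat_lit 0) (nat_lit 1483389931) (nat_lit 456) (nat_lit 3669704553) (nat_lit 532) (nat_lit 5468102444) (nat_lit 173) (nat_lit 5) (nat_lit 179) (nat_lit 5) (nat_lit 180) (nat_lit 5) (nat_lit 459) (nat_lit 378) (nat_lit 303)) (XT.lf (nat_lit 0) (nat_lit 8210363987) (nat_lit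 532) (nat_lit 2382566912) (nat_lit 76) (nat_lit 145368705) (nat_lit 173) (nat_lit 5) (nat_lit 180) (nat_lit 5) (nat_lit 174) (nat_lit 5) (nat_lit 460) (nat_lit 378) (nat_lit 302)))))) (XT.nd (nat_lit 390) (nat_lit 1596) (nat_lit 0) (XT.nd (nat_lit 156) (nat_lit 532) (nat_lit 0) (XT.nd (nat_lit 78) (nat_lit 380) (nat_lit 0) (XT.lf (nat_lit 0) (nat_lit 489361149) (nat_lit 532) (nat_lit 6359505267) (nat_lit 76) (nat_lit 4008333546) (nat_lit 166) (nat_lit 5) (nat_lit 173) (nat_lit 5) (nat_lit 167) (nat_lit 5) (nat_lit 461) (nat_lit 378) (nat_lit 301)) (XT.lf (nat_lit 0) (nat_lit 517998022) (nat_lit 380) (nat_lit 3005575948) (nat_lit 456) (nat_lit 7454768526) (nat_lit 161) (nat_lit 5) (nat_lit 166) (nat_lit 5) (nat_lit 167) (nat_lit 5) (nat_lit 462) (nat_lit 378) (nat_lit 300))) (XT.nd (nat_lit 78) (nat_lit 532) (nat_lit 0) (XT.lf (nat_lit 0) (nat_lit 6638517078) (nat_lit 456) (nat_lit 3529892779) (nat_lit 76) (nat_lit 933103718)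 (nat_lit 161) (nat_lit 5) (nat_lit 167) (nat_lit 5) (nat_lit 162) (nat_lit 5) (nat_lit 463) (nat_lit 378) (nat_lit 299)) (XT.nd (nat_lit 78) (nat_lit 76) (nat_lit 0) (XT.lf (nat_lit 0) (nat_lit 3524434245) (nat_lit 456) (nat_lit 6305827653) (nat_lit 532) (nat_lit 1396602603) (nat_lit 155) (nat_lit 5) (nat_lit 161) (nat_lit 5) (nat_lit 162) (nat_lit 5) (nat_lit 464) (nat_lit 378) (nat_lit 298)) (XT.lf (nat_lit 0) (nat_lit 1704073089) (nat_lit 532) (nat_lit 639112254) (nat_lit 76) (nat_lit 9011405386) (nat_lit 154) (nat_lit 5) (nat_lit 161) (nat_lit 5) (nat_lit 155) (nat_lit 5) (nat_lit 465) (nat_lit 378) (nat_lit 297))))) (XT.nd (nat_lit 234) (nat_lit 836) (nat_lit 0) (XT.nd (nat_lit 78) (nat_lit 380) (nat_lit 0) (XT.lf (nat_lit 0) (nat_lit 4874604729) (nat_lit 456) (nat_lit 4893220525) (nat_lit 76) (nat_lit 1716336849) (nat_lit 149) (nat_lit 5) (nat_lit 155) (nat_lit 5) (nat_lit 150) (nat_lit 5) (nat_lit 466) (nat_lit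 378) (nat_lit 296)) (XT.nd (nat_lit 78) (nat_lit 0) (nat_lit 0) (XT.lf (nat_lit 0) (nat_lit 2332504481) (nat_lit 380) (nat_lit 5783586714) (nat_lit 456) (nat_lit 3500088815) (nat_lit 144) (nat_lit 5) (nat_lit 149) (nat_lit 5) (nat_lit 150) (nat_lit 5) (nat_lit 467) (nat_lit 378) (nat_lit 295)) (XT.lf (nat_lit 0) (nat_lit 9728778486) (nat_lit 380) (nat_lit 1699306373) (nat_lit 456) (nat_lit 322645739) (nat_lit 144) (nat_lit 5) (nat_lit 149) (nat_lit 5) (nat_lit 150) (nat_lit 5) (nat_lit 468) (nat_lit 378) (nat_lit 294)))) (XT.nd (nat_lit 78) (nat_lit 380) (nat_lit 0) (XT.lf (nat_lit 0) (nat_lit 2904592136) (nat_lit 456) (nat_lit 6506748184) (nat_lit 76) (nat_lit 2475768155) (nat_lit 138) (nat_lit 5) (nat_lit 144) (nat_lit 5) (nat_lit 139) (nat_lit 5) (nat_lit 469) (nat_lit 378) (nat_lit 293)) (XT.nd (nat_lit 78) (nat_lit 0) (nat_lit 0) (XT.lf (nat_lit 0) (nat_lit 890325564) (nat_lit 380) (nat_lit 5305801090) (nat_lit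 456) (nat_lit 5829968694) (nat_lit 133) (nat_lit 5) (nat_lit 138) (nat_lit 5) (nat_lit 139) (nat_lit 5) (nat_lit 470) (nat_lit 378) (nat_lit 292)) (XT.lf (nat_lit 0) (nat_lit 8483749552) (nat_lit 380) (nat_lit 1087045291) (nat_lit 456) (nat_lit 2596726481) (nat_lit 133) (nat_lit 5) (nat_lit 138) (nat_lit 5) (nat_lit 139) (nat_lit 5) (nat_lit 471) (nat_lit 378) (nat_lit 291))))))) (XT.nd (nat_lit 858) (nat_lit 1900) (nat_lit 0) (XT.nd (nat_lit 390) (nat_lit 1368) (nat_lit 0) (XT.nd (nat_lit 156) (nat_lit 760) (nat_lit 0) (XT.nd (nat_lit 78) (nat_lit 0) (nat_lit 0) (XT.lf (nat_lit 0) (nat_lit 712440031) (nat_lit 456) (nat_lit 8407868208) (nat_lit 76) (nat_lit 3190972632) (nat_lit 127) (nat_lit 5) (nat_lit 133) (nat_lit 5) (nat_lit 128) (nat_lit 5) (nat_lit 472) (nat_lit 378) (nat_lit 290)) (XT.lf (nat_lit 0) (nat_lit 4059284394) (nat_lit 456) (nat_lit 829242985) (nat_lit 76) (nat_lit 7568924761) (nat_lit 127) (nat_lit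 5) (nat_lit 133) (nat_lit 5) (nat_lit 128) (nat_lit 5) (nat_lit 473) (nat_lit 378) (nat_lit 289))) (XT.nd (nat_lit 78) (nat_lit 380) (nat_lit 0) (XT.lf (nat_lit 0) (nat_lit 6953387400) (nat_lit 380) (nat_lit 539480575) (nat_lit 456) (nat_lit 5113287827) (nat_lit 122) (nat_lit 5) (nat_lit 127) (nat_lit 5) (nat_lit 128) (nat_lit 5) (nat_lit 474) (nat_lit 378) (nat_lit 288)) (XT.nd (nat_lit 78) (nat_lit 76) (nat_lit 0) (XT.lf (nat_lit 0) (nat_lit 2108580314) (nat_lit 304) (nat_lit 8905949872) (nat_lit 380) (nat_lit 1742920126) (nat_lit 118) (nat_lit 5) (nat_lit 122) (nat_lit 5) (nat_lit 123) (nat_lit 5) (nat_lit 475) (nat_lit 378) (nat_lit 287)) (XT.lf (nat_lit 0) (nat_lit 1689272557) (nat_lit 380) (nat_lit 2863068702) (nat_lit 76) (nat_lit 8358881173) (nat_lit 117) (nat_lit 5) (nat_lit 122) (nat_lit 5) (nat_lit 118) (nat_lit 5) (nat_lit 476) (nat_lit 378) (nat_lit 286))))) (XT.nd (nat_lit 234) (nat_lit 684) (nat_lit 0)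 (XT.nd (nat_lit 78) (nat_lit 304) (nat_lit 0) (XT.lf (nat_lit 0) (nat_lit 5095489889) (nat_lit 380) (nat_lit 79767967) (nat_lit 456) (nat_lit 7892416627) (nat_lit 112) (nat_lit 5) (nat_lit 117) (nat_lit 5) (nat_lit 118) (nat_lit 5) (nat_lit 477) (nat_lit 378) (nat_lit 285)) (XT.nd (nat_lit 78) (nat_lit 304) (nat_lit 0) (XT.lf (nat_lit 0) (nat_lit 8754933605) (nat_lit 456) (nat_lit 42467734) (nat_lit 76) (nat_lit 4429379361) (nat_lit 112) (nat_lit 5) (nat_lit 118) (nat_lit 5) (nat_lit 113) (nat_lit 5) (nat_lit 478) (nat_lit 378) (nat_lit 284)) (XT.lf (nat_lit 0) (nat_lit 8114089118) (nat_lit 304) (nat_lit 4321332910) (nat_lit 380) (nat_lit 953067081) (nat_lit 108) (nat_lit 5) (nat_lit 112) (nat_lit 5) (nat_lit 113) (nat_lit 5) (nat_lit 479) (nat_lit 378) (nat_lit 283)))) (XT.nd (nat_lit 78) (nat_lit 304) (nat_lit 0) (XT.lf (nat_lit 0) (nat_lit 2598204811) (nat_lit 380) (nat_lit 10691280741) (nat_lit 76) (nat_lit 263674327)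 (nat_lit 103) (nat_lit 5) (nat_lit 108) (nat_lit 5) (nat_lit 104) (nat_lit 5) (nat_lit 480) (nat_lit 378) (nat_lit 282)) (XT.nd (nat_lit 78) (nat_lit 304) (nat_lit 0) (XT.lf (nat_lit 0) (nat_lit 6248210210) (nat_lit 380) (nat_lit 2561059668) (nat_lit 76) (nat_lit 4910922991) (nat_lit 103) (nat_lit 5) (nat_lit 108) (nat_lit 5) (nat_lit 104) (nat_lit 5) (nat_lit 481) (nat_lit 378) (nat_lit 281)) (XT.lf (nat_lit 0) (nat_lit 5770328030) (nat_lit 304) (nat_lit 4215030141) (nat_lit 380) (nat_lit 3904929611) (nat_lit 99) (nat_lit 5) (nat_lit 103) (nat_lit 5) (nat_lit 104) (nat_lit 5) (nat_lit 482) (nat_lit 378) (nat_lit 280)))))) (XT.nd (nat_lit 390) (nat_lit 836) (nat_lit 0) (XT.nd (nat_lit 156) (nat_lit 684) (nat_lit 0) (XT.nd (nat_lit 78) (nat_lit 76) (nat_lit 0) (XT.lf (nat_lit 0) (nat_lit 201843972) (nat_lit 304) (nat_lit 13593880321) (nat_lit 380) (nat_lit 268094826) (nat_lit 95) (nat_lit 5) (nat_lit 99) (nat_lit 5) (nat_lit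 100) (nat_lit 5) (nat_lit 483) (nat_lit 378) (nat_lit 279)) (XT.lf (nat_lit 0) (nat_lit 3455969845) (nat_lit 380) (nat_lit 5527514145) (nat_lit 76) (nat_lit 5255701507) (nat_lit 94) (nat_lit 5) (nat_lit 99) (nat_lit 5) (nat_lit 95) (nat_lit 5) (nat_lit 484) (nat_lit 378) (nat_lit 278))) (XT.nd (nat_lit 78) (nat_lit 380) (nat_lit 0) (XT.lf (nat_lit 0) (nat_lit 2974285080) (nat_lit 304) (nat_lit 4273273574) (nat_lit 380) (nat_lit 7170536251) (nat_lit 90) (nat_lit 5) (nat_lit 94) (nat_lit 5) (nat_lit 95) (nat_lit 5) (nat_lit 485) (nat_lit 378) (nat_lit 277)) (XT.nd (nat_lit 78) (nat_lit 380) (nat_lit 0) (XT.lf (nat_lit 0) (nat_lit 11133202903) (nat_lit 380) (nat_lit 2919193884) (nat_lit 76) (nat_lit 547824966) (nat_lit 90) (nat_lit 5) (nat_lit 95) (nat_lit 5) (nat_lit 91) (nat_lit 5) (nat_lit 486) (nat_lit 378) (nat_lit 276)) (XT.lf (nat_lit 0) (nat_lit 350537606) (nat_lit 380) (nat_lit 8999893297) (nat_lit 76) (nat_lit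 5434642648) (nat_lit 85) (nat_lit 5) (nat_lit 90) (nat_lit 5) (nat_lit 86) (nat_lit 5) (nat_lit 487) (nat_lit 378) (nat_lit 275))))) (XT.nd (nat_lit 234) (nat_lit 304) (nat_lit 0) (XT.nd (nat_lit 78) (nat_lit 532) (nat_lit 0) (XT.lf (nat_lit 0) (nat_lit 4195716579) (nat_lit 380) (nat_lit 329154960) (nat_lit 76) (nat_lit 10448342121) (nat_lit 85) (nat_lit 5) (nat_lit 90) (nat_lit 5) (nat_lit 86) (nat_lit 5) (nat_lit 488) (nat_lit 378) (nat_lit 274)) (XT.nd (nat_lit 78) (nat_lit 304) (nat_lit 0) (XT.lf (nat_lit 0) (nat_lit 8154810723) (nat_lit 304) (nat_lit 6574947740) (nat_lit 76) (nat_lit 434621315) (nat_lit 82) (nat_lit 5) (nat_lit 86) (nat_lit 5) (nat_lit 83) (nat_lit 5) (nat_lit 489) (nat_lit 378) (nat_lit 273)) (XT.lf (nat_lit 0) (nat_lit 2296211410) (nat_lit 304) (nat_lit 9922445880) (nat_lit 380) (nat_lit 3140203892) (nat_lit 78) (nat_lit 5) (nat_lit 82) (nat_lit 5) (nat_lit 83) (nat_lit 5) (nat_lit 490) (nat_lit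 378) (nat_lit 272)))) (XT.nd (nat_lit 78) (nat_lit 228) (nat_lit 0) (XT.lf (nat_lit 0) (nat_lit 818905548) (nat_lit 380) (nat_lit 4163465859) (nat_lit 76) (nat_lit 10574300616) (nat_lit 77) (nat_lit 5) (nat_lit 82) (nat_lit 5) (nat_lit 78) (nat_lit 5) (nat_lit 491) (nat_lit 378) (nat_lit 271)) (XT.nd (nat_lit 78) (nat_lit 0) (nat_lit 0) (XT.lf (nat_lit 0) (nat_lit 4826719866) (nat_lit 304) (nat_lit 10835777929) (nat_lit 76) (nat_lit 95297929) (nat_lit 74) (nat_lit 5) (nat_lit 78) (nat_lit 5) (nat_lit 75) (nat_lit 5) (nat_lit 492) (nat_lit 378) (nat_lit 270)) (XT.lf (nat_lit 0) (nat_lit 8954852320) (nat_lit 304) (nat_lit 1784828362) (nat_lit 76) (nat_lit 5222461097) (nat_lit 74) (nat_lit 5) (nat_lit 78) (nat_lit 5) (nat_lit 75) (nat_lit 5) (nat_lit 493) (nat_lit 378) (nat_lit 269))))))))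
noncomputable def xc89 : XT := (XT.nd (nat_lit 51402) (nat_lit 0) (nat_lit 35188) (XT.nd (nat_lit 858) (nat_lit 0) (nat_lit 0) (XT.nd (nat_lit 390) (nat_lit 988) (nat_lit 0) (XT.nd (nat_lit 156) (nat_lit 228) (nat_lit 0) (XT.nd (nat_lit 78) (nat_lit 304) (nat_lit 0) (XT.lf (nat_lit 0) (nat_lit 7511426077) (nat_lit 228) (nat_lit 5682343387) (nat_lit 304) (nat_lit 2976243904) (nat_lit 71) (nat_lit 5) (nat_lit 74) (nat_lit 5) (nat_lit 75) (nat_lit 5) (nat_lit 494) (nat_lit 378) (nat_lit 268)) (XT.lf (nat_lit 0) (nat_lit 602164793) (nat_lit 228) (nat_lit 513829780) (nat_lit 304) (nat_lit 15265994049) (nat_lit 67) (nat_lit 5) (nat_lit 70) (nat_lit 5) (nat_lit 71) (nat_lit 5) (nat_lit 495) (nat_lit 378) (nat_lit 267))) (XT.nd (nat_lit 78) (nat_lit 228) (nat_lit 0) (XT.lf (nat_lit 0) (nat_lit 5319233033) (nat_lit 304) (nat_lit 6516900122) (nat_lit 76) (nat_lit 4760299503) (nat_lit 67) (nat_lit 5) (nat_lit 71) (nat_lit 5) (nat_lit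 68) (nat_lit 5) (nat_lit 496) (nat_lit 378) (nat_lit 266)) (XT.nd (nat_lit 78) (nat_lit 0) (nat_lit 0) (XT.lf (nat_lit 0) (nat_lit 2932642621) (nat_lit 228) (nat_lit 6676326315) (nat_lit 304) (nat_lit 7206150808) (nat_lit 64) (nat_lit 5) (nat_lit 67) (nat_lit 5) (nat_lit 68) (nat_lit 5) (nat_lit 497) (nat_lit 378) (nat_lit 265)) (XT.lf (nat_lit 0) (nat_lit 12626037490) (nat_lit 228) (nat_lit 1382358079) (nat_lit 304) (nat_lit 3029309850) (nat_lit 64) (nat_lit 5) (nat_lit 67) (nat_lit 5) (nat_lit 68) (nat_lit 5) (nat_lit 498) (nat_lit 378) (nat_lit 264))))) (XT.nd (nat_lit 234) (nat_lit 456) (nat_lit 0) (XT.nd (nat_lit 78) (nat_lit 228) (nat_lit 0) (XT.lf (nat_lit 0) (nat_lit 1255879989) (nat_lit 304) (nat_lit 12013882561) (nat_lit 76) (nat_lit 3994003903) (nat_lit 60) (nat_lit 5) (nat_lit 64) (nat_lit 5) (nat_lit 61) (nat_lit 5) (nat_lit 499) (nat_lit 378) (nat_lit 263)) (XT.nd (nat_lit 78) (nat_lit 228) (nat_lit 0)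 (XT.lf (nat_lit 0) (nat_lit 5605709223) (nat_lit 304) (nat_lit 2391870136) (nat_lit 76) (nat_lit 9495981521) (nat_lit 60) (nat_lit 5) (nat_lit 64) (nat_lit 5) (nat_lit 61) (nat_lit 5) (nat_lit 500) (nat_lit 378) (nat_lit 262)) (XT.lf (nat_lit 0) (nat_lit 7488273779) (nat_lit 228) (nat_lit 2583767141) (nat_lit 304) (nat_lit 7655322715) (nat_lit 57) (nat_lit 5) (nat_lit 60) (nat_lit 5) (nat_lit 61) (nat_lit 5) (nat_lit 501) (nat_lit 378) (nat_lit 261)))) (XT.nd (nat_lit 78) (nat_lit 456) (nat_lit 0) (XT.lf (nat_lit 0) (nat_lit 14643899122) (nat_lit 304) (nat_lit 418861874) (nat_lit 76) (nat_lit 2902759958) (nat_lit 57) (nat_lit 5) (nat_lit 61) (nat_lit 5) (nat_lit 58) (nat_lit 5) (nat_lit 502) (nat_lit 378) (nat_lit 260)) (XT.nd (nat_lit 78) (nat_lit 228) (nat_lit 0) (XT.lf (nat_lit 0) (nat_lit 1146016054) (nat_lit 228) (nat_lit 8539161652) (nat_lit 76) (nat_lit 8521889978) (nat_lit 54) (nat_lit 5) (nat_lit 57) (nat_lit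 5) (nat_lit 55) (nat_lit 5) (nat_lit 503) (nat_lit 378) (nat_lit 259)) (XT.lf (nat_lit 0) (nat_lit 1474013749) (nat_lit 228) (nat_lit 4178331109) (nat_lit 304) (nat_lit 12800787441) (nat_lit 51) (nat_lit 5) (nat_lit 54) (nat_lit 5) (nat_lit 55) (nat_lit 5) (nat_lit 504) (nat_lit 378) (nat_lit 258)))))) (XT.nd (nat_lit 50076) (nat_lit 0) (nat_lit 47728) (XT.nd (nat_lit 49842) (nat_lit 0) (nat_lit 48868) (XT.nd (nat_lit 49764) (nat_lit 0) (nat_lit 49172) (XT.lf (nat_lit 0) (nat_lit 10297268440) (nat_lit 304) (nat_lit 6941563784) (nat_lit 76) (nat_lit 1464318933) (nat_lit 51) (nat_lit 5) (nat_lit 55) (nat_lit 5) (nat_lit 52) (nat_lit 5) (nat_lit 505) (nat_lit 378) (nat_lit 257)) (XT.lf (nat_lit 0) (nat_lit 1578297444) (nat_lit 76) (nat_lit 65489602) (nat_lit 0) (nat_lit 1578297444) (nat_lit 698) (nat_lit 5) (nat_lit 699) (nat_lit 0) (nat_lit 698) (nat_lit 4) (nat_lit 382) (nat_lit 379) (nat_lit 379))) (XT.nd (nat_lit 78)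 (nat_lit 228) (nat_lit 0) (XT.lf (nat_lit 0) (nat_lit 3107122681) (nat_lit 76) (nat_lit 3166798069) (nat_lit 76) (nat_lit 172829373) (nat_lit 697) (nat_lit 4) (nat_lit 698) (nat_lit 5) (nat_lit 698) (nat_lit 4) (nat_lit 383) (nat_lit 379) (nat_lit 378)) (XT.nd (nat_lit 78) (nat_lit 152) (nat_lit 0) (XT.lf (nat_lit 0) (nat_lit 2885521397) (nat_lit 152) (nat_lit 100478900) (nat_lit 76) (nat_lit 3464631145) (nat_lit 696) (nat_lit 5) (nat_lit 698) (nat_lit 5) (nat_lit 697) (nat_lit 4) (nat_lit 384) (nat_lit 379) (nat_lit 377)) (XT.lf (nat_lit 0) (nat_lit 3201785819) (nat_lit 152) (nat_lit 2743128628) (nat_lit 228) (nat_lit 510861165) (nat_lit 694) (nat_lit 5) (nat_lit 696) (nat_lit 5) (nat_lit 697) (nat_lit 4) (nat_lit 385) (nat_lit 379) (nat_lit 376))))) (XT.nd (nat_lit 234) (nat_lit 456) (nat_lit 0) (XT.nd (nat_lit 78) (nat_lit 380) (nat_lit 0) (XT.lf (nat_lit 0) (nat_lit 50881993) (nat_lit 228) (nat_lit 2442545487) (nat_lit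 304) (nat_lit 3968844577) (nat_lit 690) (nat_lit 5) (nat_lit 693) (nat_lit 5) (nat_lit 694) (nat_lit 5) (nat_lit 386) (nat_lit 379) (nat_lit 375)) (XT.nd (nat_lit 78) (nat_lit 380) (nat_lit 0) (XT.lf (nat_lit 0) (nat_lit 3419497180) (nat_lit 228) (nat_lit 2076636199) (nat_lit 304) (nat_lit 973842949) (nat_lit 690) (nat_lit 5) (nat_lit 693) (nat_lit 5) (nat_lit 694) (nat_lit 5) (nat_lit 387) (nat_lit 379) (nat_lit 374)) (XT.lf (nat_lit 0) (nat_lit 325159276) (nat_lit 304) (nat_lit 1655026886) (nat_lit 380) (nat_lit 4498896844) (nat_lit 685) (nat_lit 5) (nat_lit 689) (nat_lit 5) (nat_lit 690) (nat_lit 5) (nat_lit 388) (nat_lit 379) (nat_lit 373)))) (XT.nd (nat_lit 78) (nat_lit 456) (nat_lit 0) (XT.lf (nat_lit 0) (nat_lit 3760166398) (nat_lit 304) (nat_lit 1166044747) (nat_lit 380) (nat_lit 1563158884) (nat_lit 685) (nat_lit 5) (nat_lit 689) (nat_lit 5) (nat_lit 690) (nat_lit 5) (nat_lit 389) (nat_lit 379) (nat_lit 372))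 (XT.nd (nat_lit 78) (nat_lit 0) (nat_lit 0) (XT.lf (nat_lit 0) (nat_lit 721035949) (nat_lit 380) (nat_lit 622614943) (nat_lit 456) (nat_lit 5157447731) (nat_lit 679) (nat_lit 5) (nat_lit 684) (nat_lit 5) (nat_lit 685) (nat_lit 5) (nat_lit 390) (nat_lit 379) (nat_lit 371)) (XT.lf (nat_lit 0) (nat_lit 4223931057) (nat_lit 380) (nat_lit 9612225) (nat_lit 456) (nat_lit 2280437712) (nat_lit 679) (nat_lit 5) (nat_lit 684) (nat_lit 5) (nat_lit 685) (nat_lit 5) (nat_lit 391) (nat_lit 379) (nat_lit 370))))))) (XT.nd (nat_lit 858) (nat_lit 8284) (nat_lit 0) (XT.nd (nat_lit 390) (nat_lit 2508) (nat_lit 0) (XT.nd (nat_lit 156) (nat_lit 1216) (nat_lit 0) (XT.nd (nat_lit 78) (nat_lit 0) (nat_lit 0) (XT.lf (nat_lit 0) (nat_lit 586358678) (nat_lit 532) (nat_lit 5293853491) (nat_lit 76) (nat_lit 648049116) (nat_lit 672) (nat_lit 5) (nat_lit 679) (nat_lit 5) (nat_lit 673) (nat_lit 5) (nat_lit 392) (nat_lit 379) (nat_lit 369)) (XT.lf (nat_lit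 0) (nat_lit 3425339637) (nat_lit 532) (nat_lit 1741741199) (nat_lit 76) (nat_lit 1376578091) (nat_lit 672) (nat_lit 5) (nat_lit 679) (nat_lit 5) (nat_lit 673) (nat_lit 5) (nat_lit 393) (nat_lit 379) (nat_lit 368))) (XT.nd (nat_lit 78) (nat_lit 684) (nat_lit 0) (XT.lf (nat_lit 0) (nat_lit 1862357501) (nat_lit 532) (nat_lit 4402032699) (nat_lit 608) (nat_lit 296148615) (nat_lit 665) (nat_lit 5) (nat_lit 672) (nat_lit 5) (nat_lit 673) (nat_lit 5) (nat_lit 394) (nat_lit 379) (nat_lit 367)) (XT.nd (nat_lit 78) (nat_lit 608) (nat_lit 0) (XT.lf (nat_lit 0) (nat_lit 2492140951) (nat_lit 608) (nat_lit 1076359167) (nat_lit 76) (nat_lit 3010088474) (nat_lit 664) (nat_lit 5) (nat_lit 672) (nat_lit 5) (nat_lit 665) (nat_lit 5) (nat_lit 395) (nat_lit 379) (nat_lit 366)) (XT.lf (nat_lit 0) (nat_lit 2606852930) (nat_lit 608) (nat_lit 2675424303) (nat_lit 684) (nat_lit 1315719835) (nat_lit 656) (nat_lit 5) (nat_lit 664) (nat_lit 5) (nat_lit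 665) (nat_lit 5) (nat_lit 396) (nat_lit 379) (nat_lit 365))))) (XT.nd (nat_lit 234) (nat_lit 912) (nat_lit 0) (XT.nd (nat_lit 78) (nat_lit 1520) (nat_lit 0) (XT.lf (nat_lit 0) (nat_lit 1431560722) (nat_lit 684) (nat_lit 293091750) (nat_lit 76) (nat_lit 4894162464) (nat_lit 655) (nat_lit 5) (nat_lit 664) (nat_lit 5) (nat_lit 656) (nat_lit 5) (nat_lit 397) (nat_lit 379) (nat_lit 364)) (XT.nd (nat_lit 78) (nat_lit 836) (nat_lit 0) (XT.lf (nat_lit 0) (nat_lit 3472706817) (nat_lit 684) (nat_lit 701003511) (nat_lit 760) (nat_lit 2467049680) (nat_lit 646) (nat_lit 5) (nat_lit 655) (nat_lit 5) (nat_lit 656) (nat_lit 5) (nat_lit 398) (nat_lit 379) (nat_lit 363)) (XT.lf (nat_lit 0) (nat_lit 247443876) (nat_lit 836) (nat_lit 6049605335) (nat_lit 76) (nat_lit 367210677) (nat_lit 635) (nat_lit 5) (nat_lit 646) (nat_lit 5) (nat_lit 636) (nat_lit 5) (nat_lit 399) (nat_lit 379) (nat_lit 362)))) (XT.nd (nat_lit 78) (nat_lit 912) (nat_lit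 0) (XT.lf (nat_lit 0) (nat_lit 2945896621) (nat_lit 836) (nat_lit 2237767328) (nat_lit 76) (nat_lit 1505019156) (nat_lit 635) (nat_lit 5) (nat_lit 646) (nat_lit 5) (nat_lit 636) (nat_lit 5) (nat_lit 400) (nat_lit 379) (nat_lit 361)) (XT.nd (nat_lit 78) (nat_lit 76) (nat_lit 0) (XT.lf (nat_lit 0) (nat_lit 1627732180) (nat_lit 836) (nat_lit 4019026844) (nat_lit 912) (nat_lit 1067899841) (nat_lit 624) (nat_lit 5) (nat_lit 635) (nat_lit 5) (nat_lit 636) (nat_lit 5) (nat_lit 401) (nat_lit 379) (nat_lit 360)) (XT.lf (nat_lit 0) (nat_lit 1592193127) (nat_lit 912) (nat_lit 1195343947) (nat_lit 76) (nat_lit 3954363335) (nat_lit 623) (nat_lit 5) (nat_lit 635) (nat_lit 5) (nat_lit 624) (nat_lit 5) (nat_lit 402) (nat_lit 379) (nat_lit 359)))))) (XT.nd (nat_lit 390) (nat_lit 5168) (nat_lit 0) (XT.nd (nat_lit 156) (nat_lit 2128) (nat_lit 0) (XT.nd (nat_lit 78) (nat_lit 76) (nat_lit 0) (XT.lf (nat_lit 0) (nat_lit 2759577945) (nat_lit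 912) (nat_lit 1489119740) (nat_lit 988) (nat_lit 2521728737) (nat_lit 611) (nat_lit 5) (nat_lit 623) (nat_lit 5) (nat_lit 624) (nat_lit 5) (nat_lit 403) (nat_lit 379) (nat_lit 358)) (XT.lf (nat_lit 0) (nat_lit 104858895) (nat_lit 988) (nat_lit 34797406) (nat_lit 76) (nat_lit 6660913175) (nat_lit 610) (nat_lit 5) (nat_lit 623) (nat_lit 5) (nat_lit 611) (nat_lit 5) (nat_lit 404) (nat_lit 379) (nat_lit 357))) (XT.nd (nat_lit 78) (nat_lit 1140) (nat_lit 0) (XT.lf (nat_lit 0) (nat_lit 2725948649) (nat_lit 1064) (nat_lit 2826653674) (nat_lit 76) (nat_lit 1278894172) (nat_lit 597) (nat_lit 5) (nat_lit 611) (nat_lit 5) (nat_lit 598) (nat_lit 5) (nat_lit 405) (nat_lit 379) (nat_lit 356)) (XT.nd (nat_lit 78) (nat_lit 76) (nat_lit 0) (XT.lf (nat_lit 0) (nat_lit 1233678826) (nat_lit 1064) (nat_lit 4117154108) (nat_lit 1140) (nat_lit 1513210298) (nat_lit 583) (nat_lit 5) (nat_lit 597) (nat_lit 5) (nat_lit 598) (nat_lit 5) (nat_lit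 406) (nat_lit 379) (nat_lit 355)) (XT.lf (nat_lit 0) (nat_lit 1077880758) (nat_lit 1140) (nat_lit 1535579387) (nat_lit 76) (nat_lit 4284426624) (nat_lit 582) (nat_lit 5) (nat_lit 597) (nat_lit 5) (nat_lit 583) (nat_lit 5) (nat_lit 407) (nat_lit 379) (nat_lit 354))))) (XT.nd (nat_lit 234) (nat_lit 2736) (nat_lit 0) (XT.nd (nat_lit 78) (nat_lit 1292) (nat_lit 0) (XT.lf (nat_lit 0) (nat_lit 2621557159) (nat_lit 1140) (nat_lit 1039784747) (nat_lit 1216) (nat_lit 3271676002) (nat_lit 567) (nat_lit 5) (nat_lit 582) (nat_lit 5) (nat_lit 583) (nat_lit 5) (nat_lit 408) (nat_lit 379) (nat_lit 353)) (XT.nd (nat_lit 78) (nat_lit 1292) (nat_lit 0) (XT.lf (nat_lit 0) (nat_lit 6255182044) (nat_lit 1216) (nat_lit 134560411) (nat_lit 76) (nat_lit 579961472) (nat_lit 567) (nat_lit 5) (nat_lit 583) (nat_lit 5) (nat_lit 568) (nat_lit 5) (nat_lit 409) (nat_lit 379) (nat_lit 352)) (XT.lf (nat_lit 0) (nat_lit 1848223129) (nat_lit 1292) (nat_lit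 2890521420) (nat_lit 76) (nat_lit 2268572926) (nat_lit 550) (nat_lit 5) (nat_lit 567) (nat_lit 5) (nat_lit 551) (nat_lit 5) (nat_lit 410) (nat_lit 379) (nat_lit 351)))) (XT.nd (nat_lit 78) (nat_lit 1444) (nat_lit 0) (XT.lf (nat_lit 0) (nat_lit 1378276936) (nat_lit 1292) (nat_lit 3030397524) (nat_lit 1368) (nat_lit 2637818925) (nat_lit 533) (nat_lit 5) (nat_lit 550) (nat_lit 5) (nat_lit 551) (nat_lit 5) (nat_lit 411) (nat_lit 379) (nat_lit 350)) (XT.nd (nat_lit 78) (nat_lit 1444) (nat_lit 0) (XT.lf (nat_lit 0) (nat_lit 5727525225) (nat_lit 1292) (nat_lit 1259128255) (nat_lit 1368) (nat_lit 100497395) (nat_lit 533) (nat_lit 5) (nat_lit 550) (nat_lit 5) (nat_lit 551) (nat_lit 5) (nat_lit 412) (nat_lit 379) (nat_lit 349)) (XT.lf (nat_lit 0) (nat_lit 2425958940) (nat_lit 1444) (nat_lit 4118265601) (nat_lit 76) (nat_lit 584677178) (nat_lit 514) (nat_lit 5) (nat_lit 533) (nat_lit 5) (nat_lit 515) (nat_lit 5) (nat_lit 413) (nat_lit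 379) (nat_lit 348))))))))
noncomputable def xc90 : XT := (XT.nd (nat_lit 1716) (nat_lit 8816) (nat_lit 0) (XT.nd (nat_lit 858) (nat_lit 5776) (nat_lit 0) (XT.nd (nat_lit 390) (nat_lit 5624) (nat_lit 0) (XT.nd (nat_lit 156) (nat_lit 3192) (nat_lit 0) (XT.nd (nat_lit 78) (nat_lit 76) (nat_lit 0) (XT.lf (nat_lit 0) (nat_lit 265058036) (nat_lit 1444) (nat_lit 4704175822) (nat_lit 1520) (nat_lit 2202910761) (nat_lit 495) (nat_lit 5) (nat_lit 514) (nat_lit 5) (nat_lit 515) (nat_lit 5) (nat_lit 414) (nat_lit 379) (nat_lit 347)) (XT.lf (nat_lit 0) (nat_lit 319142019) (nat_lit 1520) (nat_lit 2471454439) (nat_lit 76) (nat_lit 4426101522) (nat_lit 494) (nat_lit 5) (nat_lit 514) (nat_lit 5) (nat_lit 495) (nat_lit 5) (nat_lit 415) (nat_lit 379) (nat_lit 346))) (XT.nd (nat_lit 78) (nat_lit 1672) (nat_lit 0) (XT.lf (nat_lit 0) (nat_lit 2020496460) (nat_lit 1520) (nat_lit 804547162) (nat_lit 1596) (nat_lit 4437571168) (nat_lit 474)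 (nat_lit 5) (nat_lit 494) (nat_lit 5) (nat_lit 495) (nat_lit 5) (nat_lit 416) (nat_lit 379) (nat_lit 345)) (XT.nd (nat_lit 78) (nat_lit 1672) (nat_lit 0) (XT.lf (nat_lit 0) (nat_lit 5356180866) (nat_lit 1596) (nat_lit 726430255) (nat_lit 76) (nat_lit 1227357735) (nat_lit 474) (nat_lit 5) (nat_lit 495) (nat_lit 5) (nat_lit 475) (nat_lit 5) (nat_lit 417) (nat_lit 379) (nat_lit 344)) (XT.lf (nat_lit 0) (nat_lit 553919173) (nat_lit 1672) (nat_lit 3481329475) (nat_lit 76) (nat_lit 3323329517) (nat_lit 452) (nat_lit 5) (nat_lit 474) (nat_lit 5) (nat_lit 453) (nat_lit 5) (nat_lit 418) (nat_lit 379) (nat_lit 343))))) (XT.nd (nat_lit 234) (nat_lit 2128) (nat_lit 0) (XT.nd (nat_lit 78) (nat_lit 1824) (nat_lit 0) (XT.lf (nat_lit 0) (nat_lit 1132115348) (nat_lit 1672) (nat_lit 1917580095) (nat_lit 1748) (nat_lit 4358944448) (nat_lit 430) (nat_lit 5) (nat_lit 452) (nat_lit 5) (nat_lit 453) (nat_lit 5) (nat_lit 419) (nat_lit 379)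 (nat_lit 342)) (XT.nd (nat_lit 78) (nat_lit 1824) (nat_lit 0) (XT.lf (nat_lit 0) (nat_lit 5572951138) (nat_lit 1748) (nat_lit 1621191216) (nat_lit 76) (nat_lit 266028874) (nat_lit 430) (nat_lit 5) (nat_lit 453) (nat_lit 5) (nat_lit 431) (nat_lit 5) (nat_lit 420) (nat_lit 379) (nat_lit 341)) (XT.lf (nat_lit 0) (nat_lit 611818069) (nat_lit 1824) (nat_lit 4406059742) (nat_lit 76) (nat_lit 2495068082) (nat_lit 406) (nat_lit 5) (nat_lit 430) (nat_lit 5) (nat_lit 407) (nat_lit 5) (nat_lit 421) (nat_lit 379) (nat_lit 340)))) (XT.nd (nat_lit 78) (nat_lit 988) (nat_lit 0) (XT.lf (nat_lit 0) (nat_lit 332025782) (nat_lit 1140) (nat_lit 2770381655) (nat_lit 1216) (nat_lit 4464800836) (nat_lit 391) (nat_lit 5) (nat_lit 406) (nat_lit 5) (nat_lit 407) (nat_lit 5) (nat_lit 422) (nat_lit 379) (nat_lit 339)) (XT.nd (nat_lit 78) (nat_lit 988) (nat_lit 0) (XT.lf (nat_lit 0) (nat_lit 5180191532) (nat_lit 1140) (nat_lit 446513249) (nat_lit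 1216) (nat_lit 1996191354) (nat_lit 391) (nat_lit 5) (nat_lit 406) (nat_lit 5) (nat_lit 407) (nat_lit 5) (nat_lit 423) (nat_lit 379) (nat_lit 338)) (XT.lf (nat_lit 0) (nat_lit 498258217) (nat_lit 988) (nat_lit 5262905946) (nat_lit 76) (nat_lit 1918817062) (nat_lit 378) (nat_lit 5) (nat_lit 391) (nat_lit 5) (nat_lit 379) (nat_lit 5) (nat_lit 424) (nat_lit 379) (nat_lit 337)))))) (XT.nd (nat_lit 390) (nat_lit 3192) (nat_lit 0) (XT.nd (nat_lit 156) (nat_lit 1748) (nat_lit 0) (XT.nd (nat_lit 78) (nat_lit 836) (nat_lit 0) (XT.lf (nat_lit 0) (nat_lit 2990864213) (nat_lit 988) (nat_lit 391776562) (nat_lit 76) (nat_lit 4355820525) (nat_lit 378) (nat_lit 5) (nat_lit 391) (nat_lit 5) (nat_lit 379) (nat_lit 5) (nat_lit 425) (nat_lit 379) (nat_lit 336)) (XT.lf (nat_lit 0) (nat_lit 4593119666) (nat_lit 836) (nat_lit 926410536) (nat_lit 912) (nat_lit 2278873393) (nat_lit 367) (nat_lit 5) (nat_lit 378) (nat_lit 5) (nat_lit 379) (nat_lit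 5) (nat_lit 426) (nat_lit 379) (nat_lit 335))) (XT.nd (nat_lit 78) (nat_lit 836) (nat_lit 0) (XT.lf (nat_lit 0) (nat_lit 217437880) (nat_lit 912) (nat_lit 6069072533) (nat_lit 76) (nat_lit 1573392370) (nat_lit 355) (nat_lit 5) (nat_lit 367) (nat_lit 5) (nat_lit 356) (nat_lit 5) (nat_lit 427) (nat_lit 379) (nat_lit 334)) (XT.nd (nat_lit 78) (nat_lit 836) (nat_lit 0) (XT.lf (nat_lit 0) (nat_lit 2718191058) (nat_lit 912) (nat_lit 1058028011) (nat_lit 76) (nat_lit 4146426828) (nat_lit 355) (nat_lit 5) (nat_lit 367) (nat_lit 5) (nat_lit 356) (nat_lit 5) (nat_lit 428) (nat_lit 379) (nat_lit 333)) (XT.lf (nat_lit 0) (nat_lit 4062625415) (nat_lit 836) (nat_lit 1190764590) (nat_lit 912) (nat_lit 2733580752) (nat_lit 344) (nat_lit 5) (nat_lit 355) (nat_lit 5) (nat_lit 356) (nat_lit 5) (nat_lit 429) (nat_lit 379) (nat_lit 332))))) (XT.nd (nat_lit 234) (nat_lit 1520) (nat_lit 0) (XT.nd (nat_lit 78) (nat_lit 836) (nat_lit 0) (XT.lf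 (nat_lit 0) (nat_lit 1209585231) (nat_lit 836) (nat_lit 6612677597) (nat_lit 912) (nat_lit 230675081) (nat_lit 333) (nat_lit 5) (nat_lit 344) (nat_lit 5) (nat_lit 345) (nat_lit 5) (nat_lit 430) (nat_lit 379) (nat_lit 331)) (XT.nd (nat_lit 78) (nat_lit 760) (nat_lit 0) (XT.lf (nat_lit 0) (nat_lit 2285044744) (nat_lit 912) (nat_lit 1688149751) (nat_lit 76) (nat_lit 4146878690) (nat_lit 332) (nat_lit 5) (nat_lit 344) (nat_lit 5) (nat_lit 333) (nat_lit 5) (nat_lit 431) (nat_lit 379) (nat_lit 330)) (XT.lf (nat_lit 0) (nat_lit 3571645009) (nat_lit 760) (nat_lit 1259163667) (nat_lit 836) (nat_lit 3358069943) (nat_lit 322) (nat_lit 5) (nat_lit 332) (nat_lit 5) (nat_lit 333) (nat_lit 5) (nat_lit 432) (nat_lit 379) (nat_lit 329)))) (XT.nd (nat_lit 78) (nat_lit 760) (nat_lit 0) (XT.lf (nat_lit 0) (nat_lit 655076941) (nat_lit 760) (nat_lit 6757977105) (nat_lit 836) (nat_lit 846308829) (nat_lit 312) (nat_lit 5) (nat_lit 322) (nat_lit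 5) (nat_lit 323) (nat_lit 5) (nat_lit 433) (nat_lit 379) (nat_lit 328)) (XT.nd (nat_lit 78) (nat_lit 684) (nat_lit 0) (XT.lf (nat_lit 0) (nat_lit 1693047001) (nat_lit 836) (nat_lit 2299474528) (nat_lit 76) (nat_lit 4338528768) (nat_lit 311) (nat_lit 5) (nat_lit 322) (nat_lit 5) (nat_lit 312) (nat_lit 5) (nat_lit 434) (nat_lit 379) (nat_lit 327)) (XT.lf (nat_lit 0) (nat_lit 3102820986) (nat_lit 684) (nat_lit 1150303788) (nat_lit 760) (nat_lit 4151322700) (nat_lit 302) (nat_lit 5) (nat_lit 311) (nat_lit 5) (nat_lit 312) (nat_lit 5) (nat_lit 435) (nat_lit 379) (nat_lit 326))))))) (XT.nd (nat_lit 858) (nat_lit 3952) (nat_lit 0) (XT.nd (nat_lit 390) (nat_lit 2584) (nat_lit 0) (XT.nd (nat_lit 156) (nat_lit 1444) (nat_lit 0) (XT.nd (nat_lit 78) (nat_lit 76) (nat_lit 0) (XT.lf (nat_lit 0) (nat_lit 111167493) (nat_lit 760) (nat_lit 6742404259) (nat_lit 836) (nat_lit 1625970458) (nat_lit 292) (nat_lit 5) (nat_lit 302) (nat_lit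 5) (nat_lit 303) (nat_lit 5) (nat_lit 436) (nat_lit 379) (nat_lit 325)) (XT.lf (nat_lit 0) (nat_lit 942624867) (nat_lit 836) (nat_lit 2909758499) (nat_lit 76) (nat_lit 4703540712) (nat_lit 291) (nat_lit 5) (nat_lit 302) (nat_lit 5) (nat_lit 292) (nat_lit 5) (nat_lit 437) (nat_lit 379) (nat_lit 324))) (XT.nd (nat_lit 78) (nat_lit 760) (nat_lit 0) (XT.lf (nat_lit 0) (nat_lit 2638342133) (nat_lit 684) (nat_lit 882141954) (nat_lit 760) (nat_lit 5113553487) (nat_lit 282) (nat_lit 5) (nat_lit 291) (nat_lit 5) (nat_lit 292) (nat_lit 5) (nat_lit 438) (nat_lit 379) (nat_lit 323)) (XT.nd (nat_lit 78) (nat_lit 760) (nat_lit 0) (XT.lf (nat_lit 0) (nat_lit 6146426386) (nat_lit 760) (nat_lit 434496072) (nat_lit 76) (nat_lit 2132872344) (nat_lit 282) (nat_lit 5) (nat_lit 292) (nat_lit 5) (nat_lit 283) (nat_lit 5) (nat_lit 439) (nat_lit 379) (nat_lit 322)) (XT.lf (nat_lit 0) (nat_lit 32997393) (nat_lit 760) (nat_lit 3537345477) (nat_lit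 76) (nat_lit 5224739016) (nat_lit 272) (nat_lit 5) (nat_lit 282) (nat_lit 5) (nat_lit 273) (nat_lit 5) (nat_lit 440) (nat_lit 379) (nat_lit 321))))) (XT.nd (nat_lit 234) (nat_lit 1292) (nat_lit 0) (XT.nd (nat_lit 78) (nat_lit 684) (nat_lit 0) (XT.lf (nat_lit 0) (nat_lit 2159776074) (nat_lit 608) (nat_lit 472047250) (nat_lit 684) (nat_lit 6246226671) (nat_lit 264) (nat_lit 5) (nat_lit 272) (nat_lit 5) (nat_lit 273) (nat_lit 5) (nat_lit 441) (nat_lit 379) (nat_lit 320)) (XT.nd (nat_lit 78) (nat_lit 684) (nat_lit 0) (XT.lf (nat_lit 0) (nat_lit 5288196628) (nat_lit 684) (nat_lit 1004712337) (nat_lit 76) (nat_lit 2669668152) (nat_lit 264) (nat_lit 5) (nat_lit 273) (nat_lit 5) (nat_lit 265) (nat_lit 5) (nat_lit 442) (nat_lit 379) (nat_lit 319)) (XT.lf (nat_lit 0) (nat_lit 4840648498) (nat_lit 684) (nat_lit 3156527791) (nat_lit 760) (nat_lit 1051639765) (nat_lit 255) (nat_lit 5) (nat_lit 264) (nat_lit 5) (nat_lit 265) (nat_lit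 5) (nat_lit 443) (nat_lit 379) (nat_lit 318)))) (XT.nd (nat_lit 78) (nat_lit 608) (nat_lit 0) (XT.lf (nat_lit 0) (nat_lit 1585253404) (nat_lit 684) (nat_lit 7489444095) (nat_lit 76) (nat_lit 62222060) (nat_lit 246) (nat_lit 5) (nat_lit 255) (nat_lit 5) (nat_lit 247) (nat_lit 5) (nat_lit 444) (nat_lit 379) (nat_lit 317)) (XT.nd (nat_lit 78) (nat_lit 608) (nat_lit 0) (XT.lf (nat_lit 0) (nat_lit 4275595195) (nat_lit 684) (nat_lit 1620389778) (nat_lit 76) (nat_lit 3330375512) (nat_lit 246) (nat_lit 5) (nat_lit 255) (nat_lit 5) (nat_lit 247) (nat_lit 5) (nat_lit 445) (nat_lit 379) (nat_lit 316)) (XT.lf (nat_lit 0) (nat_lit 4380965603) (nat_lit 608) (nat_lit 2633348689) (nat_lit 684) (nat_lit 2303394554) (nat_lit 238) (nat_lit 5) (nat_lit 246) (nat_lit 5) (nat_lit 247) (nat_lit 5) (nat_lit 446) (nat_lit 379) (nat_lit 315)))))) (XT.nd (nat_lit 390) (nat_lit 2128) (nat_lit 0) (XT.nd (nat_lit 156) (nat_lit 1216) (nat_lit 0) (XT.nd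 (nat_lit 78) (nat_lit 0) (nat_lit 0) (XT.lf (nat_lit 0) (nat_lit 380563523) (nat_lit 608) (nat_lit 8333265190) (nat_lit 76) (nat_lit 697236640) (nat_lit 230) (nat_lit 5) (nat_lit 238) (nat_lit 5) (nat_lit 231) (nat_lit 5) (nat_lit 447) (nat_lit 379) (nat_lit 314)) (XT.lf (nat_lit 0) (nat_lit 3104785252) (nat_lit 608) (nat_lit 2302037117) (nat_lit 76) (nat_lit 4098823020) (nat_lit 230) (nat_lit 5) (nat_lit 238) (nat_lit 5) (nat_lit 231) (nat_lit 5) (nat_lit 448) (nat_lit 379) (nat_lit 313))) (XT.nd (nat_lit 78) (nat_lit 608) (nat_lit 0) (XT.lf (nat_lit 0) (nat_lit 3858209842) (nat_lit 608) (nat_lit 2017597492) (nat_lit 684) (nat_lit 3726472633) (nat_lit 222) (nat_lit 5) (nat_lit 230) (nat_lit 5) (nat_lit 231) (nat_lit 5) (nat_lit 449) (nat_lit 379) (nat_lit 312)) (XT.nd (nat_lit 78) (nat_lit 76) (nat_lit 0) (XT.lf (nat_lit 0) (nat_lit 425943197) (nat_lit 532) (nat_lit 8271541346) (nat_lit 608) (nat_lit 1003467080) (nat_lit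 215) (nat_lit 5) (nat_lit 222) (nat_lit 5) (nat_lit 223) (nat_lit 5) (nat_lit 450) (nat_lit 379) (nat_lit 311)) (XT.lf (nat_lit 0) (nat_lit 1770608632) (nat_lit 608) (nat_lit 3071422865) (nat_lit 76) (nat_lit 4958946054) (nat_lit 214) (nat_lit 5) (nat_lit 222) (nat_lit 5) (nat_lit 215) (nat_lit 5) (nat_lit 451) (nat_lit 379) (nat_lit 310))))) (XT.nd (nat_lit 234) (nat_lit 988) (nat_lit 0) (XT.nd (nat_lit 78) (nat_lit 608) (nat_lit 0) (XT.lf (nat_lit 0) (nat_lit 3250373636) (nat_lit 532) (nat_lit 1325818787) (nat_lit 608) (nat_lit 5326898212) (nat_lit 207) (nat_lit 5) (nat_lit 214) (nat_lit 5) (nat_lit 215) (nat_lit 5) (nat_lit 452) (nat_lit 379) (nat_lit 309)) (XT.nd (nat_lit 78) (nat_lit 608) (nat_lit 0) (XT.lf (nat_lit 0) (nat_lit 7441944276) (nat_lit 608) (nat_lit 323545339) (nat_lit 76) (nat_lit 2241683627) (nat_lit 207) (nat_lit 5) (nat_lit 215) (nat_lit 5) (nat_lit 208) (nat_lit 5) (nat_lit 453) (nat_lit 379) (nat_lit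 308)) (XT.lf (nat_lit 0) (nat_lit 266524493) (nat_lit 608) (nat_lit 3951791511) (nat_lit 76) (nat_lit 5894633845) (nat_lit 199) (nat_lit 5) (nat_lit 207) (nat_lit 5) (nat_lit 200) (nat_lit 5) (nat_lit 454) (nat_lit 379) (nat_lit 307)))) (XT.nd (nat_lit 78) (nat_lit 456) (nat_lit 0) (XT.lf (nat_lit 0) (nat_lit 2533919494) (nat_lit 532) (nat_lit 574687836) (nat_lit 608) (nat_lit 7112142585) (nat_lit 192) (nat_lit 5) (nat_lit 199) (nat_lit 5) (nat_lit 200) (nat_lit 5) (nat_lit 455) (nat_lit 379) (nat_lit 306)) (XT.nd (nat_lit 78) (nat_lit 456) (nat_lit 0) (XT.lf (nat_lit 0) (nat_lit 6024260433) (nat_lit 608) (nat_lit 1189561811) (nat_lit 76) (nat_lit 3116556915) (nat_lit 192) (nat_lit 5) (nat_lit 200) (nat_lit 5) (nat_lit 193) (nat_lit 5) (nat_lit 456) (nat_lit 379) (nat_lit 305)) (XT.lf (nat_lit 0) (nat_lit 5464609608) (nat_lit 456) (nat_lit 3543133771) (nat_lit 532) (nat_lit 1434274870) (nat_lit 186) (nat_lit 5) (nat_lit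 192) (nat_lit 5) (nat_lit 193) (nat_lit 5) (nat_lit 457) (nat_lit 379) (nat_lit 304))))))))
noncomputable def xc91 : XT := (XT.nd (nat_lit 1716) (nat_lit 3648) (nat_lit 0) (XT.nd (nat_lit 858) (nat_lit 2736) (nat_lit 0) (XT.nd (nat_lit 390) (nat_lit 1672) (nat_lit 0) (XT.nd (nat_lit 156) (nat_lit 988) (nat_lit 0) (XT.nd (nat_lit 78) (nat_lit 0) (nat_lit 0) (XT.lf (nat_lit 0) (nat_lit 1466134002) (nat_lit 532) (nat_lit 8873796714) (nat_lit 76) (nat_lit 215957867) (nat_lit 179) (nat_lit 5) (nat_lit 186) (nat_lit 5) (nat_lit 180) (nat_lit 5) (nat_lit 458) (nat_lit 379) (nat_lit 303)) (XT.lf (nat_lit 0) (nat_lit 4433041750) (nat_lit 532) (nat_lit 2203587886) (nat_lit 76) (nat_lit 4034670325) (nat_lit 179) (nat_lit 5) (nat_lit 186) (nat_lit 5) (nat_lit 180) (nat_lit 5) (nat_lit 459) (nat_lit 379) (nat_lit 302))) (XT.nd (nat_lit 78) (nat_lit 532) (nat_lit 0) (XT.lf (nat_lit 0) (nat_lit 4620140774) (nat_lit 456) (nat_lit 2840311535)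 (nat_lit 532) (nat_lit 3328550979) (nat_lit 173) (nat_lit 5) (nat_lit 179) (nat_lit 5) (nat_lit 180) (nat_lit 5) (nat_lit 460) (nat_lit 379) (nat_lit 301)) (XT.nd (nat_lit 78) (nat_lit 76) (nat_lit 0) (XT.lf (nat_lit 0) (nat_lit 662628247) (nat_lit 456) (nat_lit 9883066248) (nat_lit 532) (nat_lit 363427401) (nat_lit 167) (nat_lit 5) (nat_lit 173) (nat_lit 5) (nat_lit 174) (nat_lit 5) (nat_lit 461) (nat_lit 379) (nat_lit 300)) (XT.lf (nat_lit 0) (nat_lit 2658079831) (nat_lit 532) (nat_lit 3393637805) (nat_lit 76) (nat_lit 4978946701) (nat_lit 166) (nat_lit 5) (nat_lit 173) (nat_lit 5) (nat_lit 167) (nat_lit 5) (nat_lit 462) (nat_lit 379) (nat_lit 299))))) (XT.nd (nat_lit 234) (nat_lit 760) (nat_lit 0) (XT.nd (nat_lit 78) (nat_lit 532) (nat_lit 0) (XT.lf (nat_lit 0) (nat_lit 3601066487) (nat_lit 380) (nat_lit 2129528495) (nat_lit 456) (nat_lit 5424092202) (nat_lit 161) (nat_lit 5) (nat_lit 166) (nat_lit 5) (nat_lit 167)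 (nat_lit 5) (nat_lit 463) (nat_lit 379) (nat_lit 298)) (XT.nd (nat_lit 78) (nat_lit 532) (nat_lit 0) (XT.lf (nat_lit 0) (nat_lit 8871902808) (nat_lit 456) (nat_lit 551615633) (nat_lit 76) (nat_lit 1857531556) (nat_lit 161) (nat_lit 5) (nat_lit 167) (nat_lit 5) (nat_lit 162) (nat_lit 5) (nat_lit 464) (nat_lit 379) (nat_lit 297)) (XT.lf (nat_lit 0) (nat_lit 687475038) (nat_lit 532) (nat_lit 4790131173) (nat_lit 76) (nat_lit 5931651185) (nat_lit 154) (nat_lit 5) (nat_lit 161) (nat_lit 5) (nat_lit 155) (nat_lit 5) (nat_lit 465) (nat_lit 379) (nat_lit 296)))) (XT.nd (nat_lit 78) (nat_lit 380) (nat_lit 0) (XT.lf (nat_lit 0) (nat_lit 2376428338) (nat_lit 380) (nat_lit 1429436606) (nat_lit 456) (nat_lit 7734009625) (nat_lit 149) (nat_lit 5) (nat_lit 154) (nat_lit 5) (nat_lit 155) (nat_lit 5) (nat_lit 466) (nat_lit 379) (nat_lit 295)) (XT.nd (nat_lit 78) (nat_lit 380) (nat_lit 0) (XT.lf (nat_lit 0) (nat_lit 7009611049) (nat_lit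 456) (nat_lit 1978717692) (nat_lit 76) (nat_lit 2684321450) (nat_lit 149) (nat_lit 5) (nat_lit 155) (nat_lit 5) (nat_lit 150) (nat_lit 5) (nat_lit 467) (nat_lit 379) (nat_lit 294)) (XT.lf (nat_lit 0) (nat_lit 5371703608) (nat_lit 380) (nat_lit 4923701990) (nat_lit 456) (nat_lit 1512322015) (nat_lit 144) (nat_lit 5) (nat_lit 149) (nat_lit 5) (nat_lit 150) (nat_lit 5) (nat_lit 468) (nat_lit 379) (nat_lit 293)))))) (XT.nd (nat_lit 390) (nat_lit 1444) (nat_lit 0) (XT.nd (nat_lit 156) (nat_lit 836) (nat_lit 0) (XT.nd (nat_lit 78) (nat_lit 0) (nat_lit 0) (XT.lf (nat_lit 0) (nat_lit 912462322) (nat_lit 380) (nat_lit 759640866) (nat_lit 456) (nat_lit 10273327834) (nat_lit 138) (nat_lit 5) (nat_lit 143) (nat_lit 5) (nat_lit 144) (nat_lit 5) (nat_lit 469) (nat_lit 379) (nat_lit 292)) (XT.lf (nat_lit 0) (nat_lit 4940003065) (nat_lit 456) (nat_lit 3662080254) (nat_lit 76) (nat_lit 3482809954) (nat_lit 138) (nat_lit 5) (nat_lit 144)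 (nat_lit 5) (nat_lit 139) (nat_lit 5) (nat_lit 470) (nat_lit 379) (nat_lit 291))) (XT.nd (nat_lit 78) (nat_lit 456) (nat_lit 0) (XT.lf (nat_lit 0) (nat_lit 3863363897) (nat_lit 380) (nat_lit 4414420738) (nat_lit 456) (nat_lit 3949274978) (nat_lit 133) (nat_lit 5) (nat_lit 138) (nat_lit 5) (nat_lit 139) (nat_lit 5) (nat_lit 471) (nat_lit 379) (nat_lit 290)) (XT.nd (nat_lit 78) (nat_lit 456) (nat_lit 0) (XT.lf (nat_lit 0) (nat_lit 11550710642) (nat_lit 380) (nat_lit 130848576) (nat_lit 456) (nat_lit 690530531) (nat_lit 133) (nat_lit 5) (nat_lit 138) (nat_lit 5) (nat_lit 139) (nat_lit 5) (nat_lit 472) (nat_lit 379) (nat_lit 289)) (XT.lf (nat_lit 0) (nat_lit 2646534739) (nat_lit 456) (nat_lit 5639687923) (nat_lit 76) (nat_lit 4232507217) (nat_lit 127) (nat_lit 5) (nat_lit 133) (nat_lit 5) (nat_lit 128) (nat_lit 5) (nat_lit 473) (nat_lit 379) (nat_lit 288))))) (XT.nd (nat_lit 234) (nat_lit 684) (nat_lit 0) (XT.nd (nat_lit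 78) (nat_lit 380) (nat_lit 0) (XT.lf (nat_lit 0) (nat_lit 2059951185) (nat_lit 380) (nat_lit 3976095336) (nat_lit 456) (nat_lit 6632270888) (nat_lit 122) (nat_lit 5) (nat_lit 127) (nat_lit 5) (nat_lit 128) (nat_lit 5) (nat_lit 474) (nat_lit 379) (nat_lit 287)) (XT.nd (nat_lit 78) (nat_lit 380) (nat_lit 0) (XT.lf (nat_lit 0) (nat_lit 9509482864) (nat_lit 456) (nat_lit 2871252082) (nat_lit 76) (nat_lit 439843874) (nat_lit 122) (nat_lit 5) (nat_lit 128) (nat_lit 5) (nat_lit 123) (nat_lit 5) (nat_lit 475) (nat_lit 379) (nat_lit 286)) (XT.lf (nat_lit 0) (nat_lit 110461269) (nat_lit 380) (nat_lit 7953191008) (nat_lit 76) (nat_lit 4911528638) (nat_lit 117) (nat_lit 5) (nat_lit 122) (nat_lit 5) (nat_lit 118) (nat_lit 5) (nat_lit 476) (nat_lit 379) (nat_lit 285)))) (XT.nd (nat_lit 78) (nat_lit 684) (nat_lit 0) (XT.lf (nat_lit 0) (nat_lit 3551414786) (nat_lit 380) (nat_lit 80022358) (nat_lit 76) (nat_lit 9501098704) (nat_lit 117)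 (nat_lit 5) (nat_lit 122) (nat_lit 5) (nat_lit 118) (nat_lit 5) (nat_lit 477) (nat_lit 379) (nat_lit 284)) (XT.nd (nat_lit 78) (nat_lit 304) (nat_lit 0) (XT.lf (nat_lit 0) (nat_lit 7095623984) (nat_lit 456) (nat_lit 5279487605) (nat_lit 76) (nat_lit 917242010) (nat_lit 112) (nat_lit 5) (nat_lit 118) (nat_lit 5) (nat_lit 113) (nat_lit 5) (nat_lit 478) (nat_lit 379) (nat_lit 283)) (XT.lf (nat_lit 0) (nat_lit 2788959058) (nat_lit 304) (nat_lit 7940935142) (nat_lit 380) (nat_lit 2725094332) (nat_lit 108) (nat_lit 5) (nat_lit 112) (nat_lit 5) (nat_lit 113) (nat_lit 5) (nat_lit 479) (nat_lit 379) (nat_lit 282))))))) (XT.nd (nat_lit 858) (nat_lit 1672) (nat_lit 0) (XT.nd (nat_lit 390) (nat_lit 912) (nat_lit 0) (XT.nd (nat_lit 156) (nat_lit 684) (nat_lit 0) (XT.nd (nat_lit 78) (nat_lit 304) (nat_lit 0) (XT.lf (nat_lit 0) (nat_lit 817478682) (nat_lit 380) (nat_lit 2572339384) (nat_lit 76) (nat_lit 10230712201) (nat_lit 107) (nat_lit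 5) (nat_lit 112) (nat_lit 5) (nat_lit 108) (nat_lit 5) (nat_lit 480) (nat_lit 379) (nat_lit 281)) (XT.lf (nat_lit 0) (nat_lit 4416894059) (nat_lit 380) (nat_lit 8093425657) (nat_lit 76) (nat_lit 1278257377) (nat_lit 103) (nat_lit 5) (nat_lit 108) (nat_lit 5) (nat_lit 104) (nat_lit 5) (nat_lit 481) (nat_lit 379) (nat_lit 280))) (XT.nd (nat_lit 78) (nat_lit 380) (nat_lit 0) (XT.lf (nat_lit 0) (nat_lit 146186098) (nat_lit 304) (nat_lit 7960020935) (nat_lit 380) (nat_lit 5853423669) (nat_lit 99) (nat_lit 5) (nat_lit 103) (nat_lit 5) (nat_lit 104) (nat_lit 5) (nat_lit 482) (nat_lit 379) (nat_lit 279)) (XT.nd (nat_lit 78) (nat_lit 380) (nat_lit 0) (XT.lf (nat_lit 0) (nat_lit 8624149099) (nat_lit 304) (nat_lit 3276816899) (nat_lit 380) (nat_lit 2232510141) (nat_lit 99) (nat_lit 5) (nat_lit 103) (nat_lit 5) (nat_lit 104) (nat_lit 5) (nat_lit 483) (nat_lit 379) (nat_lit 278)) (XT.lf (nat_lit 0) (nat_lit 1448328721) (nat_lit 380)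 (nat_lit 11366124355) (nat_lit 76) (nat_lit 1496026196) (nat_lit 94) (nat_lit 5) (nat_lit 99) (nat_lit 5) (nat_lit 95) (nat_lit 5) (nat_lit 484) (nat_lit 379) (nat_lit 277))))) (XT.nd (nat_lit 234) (nat_lit 608) (nat_lit 0) (XT.nd (nat_lit 78) (nat_lit 304) (nat_lit 0) (XT.lf (nat_lit 0) (nat_lit 5209598076) (nat_lit 380) (nat_lit 2921089101) (nat_lit 76) (nat_lit 6359309736) (nat_lit 94) (nat_lit 5) (nat_lit 99) (nat_lit 5) (nat_lit 95) (nat_lit 5) (nat_lit 485) (nat_lit 379) (nat_lit 276)) (XT.nd (nat_lit 78) (nat_lit 0) (nat_lit 0) (XT.lf (nat_lit 0) (nat_lit 5732871270) (nat_lit 304) (nat_lit 3328642156) (nat_lit 380) (nat_lit 5611286720) (nat_lit 90) (nat_lit 5) (nat_lit 94) (nat_lit 5) (nat_lit 95) (nat_lit 5) (nat_lit 486) (nat_lit 379) (nat_lit 275)) (XT.lf (nat_lit 0) (nat_lit 12998701933) (nat_lit 380) (nat_lit 304961023) (nat_lit 76) (nat_lit 1555435370) (nat_lit 90) (nat_lit 5) (nat_lit 95) (nat_lit 5) (nat_lit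 91) (nat_lit 5) (nat_lit 487) (nat_lit 379) (nat_lit 274)))) (XT.nd (nat_lit 78) (nat_lit 228) (nat_lit 0) (XT.lf (nat_lit 0) (nat_lit 1996452013) (nat_lit 380) (nat_lit 6502816630) (nat_lit 76) (nat_lit 6548467673) (nat_lit 85) (nat_lit 5) (nat_lit 90) (nat_lit 5) (nat_lit 86) (nat_lit 5) (nat_lit 488) (nat_lit 379) (nat_lit 273)) (XT.nd (nat_lit 78) (nat_lit 0) (nat_lit 0) (XT.lf (nat_lit 0) (nat_lit 2319262358) (nat_lit 228) (nat_lit 3582195031) (nat_lit 304) (nat_lit 9338528493) (nat_lit 82) (nat_lit 5) (nat_lit 85) (nat_lit 5) (nat_lit 86) (nat_lit 5) (nat_lit 489) (nat_lit 379) (nat_lit 272)) (XT.lf (nat_lit 0) (nat_lit 9916689251) (nat_lit 304) (nat_lit 4073627333) (nat_lit 76) (nat_lit 1445124632) (nat_lit 82) (nat_lit 5) (nat_lit 86) (nat_lit 5) (nat_lit 83) (nat_lit 5) (nat_lit 490) (nat_lit 379) (nat_lit 271)))))) (XT.nd (nat_lit 390) (nat_lit 836) (nat_lit 0) (XT.nd (nat_lit 156) (nat_lit 456) (nat_lit 0)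 (XT.nd (nat_lit 78) (nat_lit 76) (nat_lit 0) (XT.lf (nat_lit 0) (nat_lit 4957633820) (nat_lit 304) (nat_lit 9089811806) (nat_lit 380) (nat_lit 1586658877) (nat_lit 78) (nat_lit 5) (nat_lit 82) (nat_lit 5) (nat_lit 83) (nat_lit 5) (nat_lit 491) (nat_lit 379) (nat_lit 270)) (XT.lf (nat_lit 0) (nat_lit 2399156585) (nat_lit 380) (nat_lit 1661502162) (nat_lit 76) (nat_lit 11775633196) (nat_lit 77) (nat_lit 5) (nat_lit 82) (nat_lit 5) (nat_lit 78) (nat_lit 5) (nat_lit 492) (nat_lit 379) (nat_lit 269))) (XT.nd (nat_lit 78) (nat_lit 228) (nat_lit 0) (XT.lf (nat_lit 0) (nat_lit 6479749382) (nat_lit 304) (nat_lit 8459651233) (nat_lit 76) (nat_lit 1102189687) (nat_lit 74) (nat_lit 5) (nat_lit 78) (nat_lit 5) (nat_lit 75) (nat_lit 5) (nat_lit 493) (nat_lit 379) (nat_lit 268)) (XT.nd (nat_lit 78) (nat_lit 0) (nat_lit 0) (XT.lf (nat_lit 0) (nat_lit 731065333) (nat_lit 228) (nat_lit 9933606200) (nat_lit 304) (nat_lit 5585871741) (nat_lit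 71) (nat_lit 5) (nat_lit 74) (nat_lit 5) (nat_lit 75) (nat_lit 5) (nat_lit 494) (nat_lit 379) (nat_lit 267)) (XT.lf (nat_lit 0) (nat_lit 10186933110) (nat_lit 228) (nat_lit 4783162042) (nat_lit 304) (nat_lit 1492847030) (nat_lit 71) (nat_lit 5) (nat_lit 74) (nat_lit 5) (nat_lit 75) (nat_lit 5) (nat_lit 495) (nat_lit 379) (nat_lit 266))))) (XT.nd (nat_lit 234) (nat_lit 304) (nat_lit 0) (XT.nd (nat_lit 78) (nat_lit 228) (nat_lit 0) (XT.lf (nat_lit 0) (nat_lit 2650781722) (nat_lit 304) (nat_lit 13539255405) (nat_lit 76) (nat_lit 489128113) (nat_lit 67) (nat_lit 5) (nat_lit 71) (nat_lit 5) (nat_lit 68) (nat_lit 5) (nat_lit 496) (nat_lit 379) (nat_lit 265)) (XT.nd (nat_lit 78) (nat_lit 228) (nat_lit 0) (XT.lf (nat_lit 0) (nat_lit 6911764854) (nat_lit 304) (nat_lit 4144530227) (nat_lit 76) (nat_lit 5842133671) (nat_lit 67) (nat_lit 5) (nat_lit 71) (nat_lit 5) (nat_lit 68) (nat_lit 5) (nat_lit 497) (nat_lit 379) (nat_lit 264))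 (XT.lf (nat_lit 0) (nat_lit 5477538187) (nat_lit 228) (nat_lit 5796759484) (nat_lit 304) (nat_lit 5847455975) (nat_lit 64) (nat_lit 5) (nat_lit 67) (nat_lit 5) (nat_lit 68) (nat_lit 5) (nat_lit 498) (nat_lit 379) (nat_lit 263)))) (XT.nd (nat_lit 78) (nat_lit 304) (nat_lit 0) (XT.lf (nat_lit 0) (nat_lit 15316051096) (nat_lit 228) (nat_lit 416776459) (nat_lit 304) (nat_lit 1616545214) (nat_lit 64) (nat_lit 5) (nat_lit 67) (nat_lit 5) (nat_lit 68) (nat_lit 5) (nat_lit 499) (nat_lit 379) (nat_lit 262)) (XT.nd (nat_lit 78) (nat_lit 0) (nat_lit 0) (XT.lf (nat_lit 0) (nat_lit 2728851742) (nat_lit 304) (nat_lit 9790779496) (nat_lit 76) (nat_lit 5060259808) (nat_lit 60) (nat_lit 5) (nat_lit 64) (nat_lit 5) (nat_lit 61) (nat_lit 5) (nat_lit 500) (nat_lit 379) (nat_lit 261)) (XT.lf (nat_lit 0) (nat_lit 7137288264) (nat_lit 304) (nat_lit 24628406) (nat_lit 76) (nat_lit 10652936276) (nat_lit 60) (nat_lit 5) (nat_lit 64) (nat_lit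 5) (nat_lit 61) (nat_lit 5) (nat_lit 501) (nat_lit 379) (nat_lit 260))))))))
noncomputable def xc92 : XT := (XT.nd (nat_lit 51246) (nat_lit 0) (nat_lit 30476) (XT.nd (nat_lit 50388) (nat_lit 0) (nat_lit 45904) (XT.nd (nat_lit 49920) (nat_lit 0) (nat_lit 48792) (XT.nd (nat_lit 156) (nat_lit 304) (nat_lit 0) (XT.nd (nat_lit 78) (nat_lit 152) (nat_lit 0) (XT.lf (nat_lit 0) (nat_lit 10037229709) (nat_lit 228) (nat_lit 1643461377) (nat_lit 304) (nat_lit 6372889501) (nat_lit 57) (nat_lit 5) (nat_lit 60) (nat_lit 5) (nat_lit 61) (nat_lit 5) (nat_lit 502) (nat_lit 379) (nat_lit 259)) (XT.lf (nat_lit 0) (nat_lit 1972235121) (nat_lit 152) (nat_lit 14363278361) (nat_lit 228) (nat_lit 1961160678) (nat_lit 55) (nat_lit 5) (nat_lit 57) (nat_lit 5) (nat_lit 58) (nat_lit 5) (nat_lit 503) (nat_lit 379) (nat_lit 258))) (XT.nd (nat_lit 78) (nat_lit 228) (nat_lit 0) (XT.lf (nat_lit 0) (nat_lit 2552278554) (nat_lit 228) (nat_lit 6333393424)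 (nat_lit 76) (nat_lit 9657694818) (nat_lit 54) (nat_lit 5) (nat_lit 57) (nat_lit 5) (nat_lit 55) (nat_lit 5) (nat_lit 504) (nat_lit 379) (nat_lit 257)) (XT.nd (nat_lit 49608) (nat_lit 0) (nat_lit 49248) (XT.lf (nat_lit 0) (nat_lit 3864410277) (nat_lit 228) (nat_lit 3272527935) (nat_lit 304) (nat_lit 11657653845) (nat_lit 51) (nat_lit 5) (nat_lit 54) (nat_lit 5) (nat_lit 55) (nat_lit 5) (nat_lit 505) (nat_lit 379) (nat_lit 256)) (XT.lf (nat_lit 0) (nat_lit 1073741823) (nat_lit 0) (nat_lit 0) (nat_lit 0) (nat_lit 0) (nat_lit 699) (nat_lit 0) (nat_lit 1) (nat_lit 0) (nat_lit 1) (nat_lit 0) (nat_lit 380) (nat_lit 380) (nat_lit 380))))) (XT.nd (nat_lit 234) (nat_lit 228) (nat_lit 0) (XT.nd (nat_lit 78) (nat_lit 152) (nat_lit 0) (XT.lf (nat_lit 0) (nat_lit 3094700871) (nat_lit 76) (nat_lit 3307329544) (nat_lit 0) (nat_lit 40852801) (nat_lit 698) (nat_lit 5) (nat_lit 699) (nat_lit 0) (nat_lit 698) (nat_lit 4) (nat_lit 381)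 (nat_lit 380) (nat_lit 379)) (XT.nd (nat_lit 78) (nat_lit 152) (nat_lit 0) (XT.lf (nat_lit 0) (nat_lit 6170391192) (nat_lit 76) (nat_lit 152031646) (nat_lit 0) (nat_lit 122574426) (nat_lit 698) (nat_lit 5) (nat_lit 699) (nat_lit 0) (nat_lit 698) (nat_lit 4) (nat_lit 382) (nat_lit 380) (nat_lit 378)) (XT.lf (nat_lit 0) (nat_lit 2763060770) (nat_lit 152) (nat_lit 3401697437) (nat_lit 76) (nat_lit 283274164) (nat_lit 696) (nat_lit 5) (nat_lit 698) (nat_lit 5) (nat_lit 697) (nat_lit 4) (nat_lit 383) (nat_lit 380) (nat_lit 377)))) (XT.nd (nat_lit 78) (nat_lit 228) (nat_lit 0) (XT.lf (nat_lit 0) (nat_lit 5780233550) (nat_lit 152) (nat_lit 184717663) (nat_lit 76) (nat_lit 487743934) (nat_lit 696) (nat_lit 5) (nat_lit 698) (nat_lit 5) (nat_lit 697) (nat_lit 4) (nat_lit 384) (nat_lit 380) (nat_lit 376)) (XT.nd (nat_lit 78) (nat_lit 0) (nat_lit 0) (XT.lf (nat_lit 0) (nat_lit 2311429378) (nat_lit 228) (nat_lit 3378328640) (nat_lit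 76) (nat_lit 768579100) (nat_lit 693) (nat_lit 5) (nat_lit 696) (nat_lit 5) (nat_lit 694) (nat_lit 5) (nat_lit 385) (nat_lit 380) (nat_lit 375)) (XT.lf (nat_lit 0) (nat_lit 5270881291) (nat_lit 228) (nat_lit 98465866) (nat_lit 76) (nat_lit 1096206997) (nat_lit 693) (nat_lit 5) (nat_lit 696) (nat_lit 5) (nat_lit 694) (nat_lit 5) (nat_lit 386) (nat_lit 380) (nat_lit 374)))))) (XT.nd (nat_lit 390) (nat_lit 1748) (nat_lit 0) (XT.nd (nat_lit 156) (nat_lit 532) (nat_lit 0) (XT.nd (nat_lit 78) (nat_lit 304) (nat_lit 0) (XT.lf (nat_lit 0) (nat_lit 1738594622) (nat_lit 304) (nat_lit 3237522991) (nat_lit 76) (nat_lit 1497692738) (nat_lit 689) (nat_lit 5) (nat_lit 693) (nat_lit 5) (nat_lit 690) (nat_lit 5) (nat_lit 387) (nat_lit 380) (nat_lit 373)) (XT.lf (nat_lit 0) (nat_lit 107955966) (nat_lit 304) (nat_lit 4533749713) (nat_lit 380) (nat_lit 1841870611) (nat_lit 685) (nat_lit 5) (nat_lit 689) (nat_lit 5) (nat_lit 690) (nat_lit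 5) (nat_lit 388) (nat_lit 380) (nat_lit 372))) (XT.nd (nat_lit 78) (nat_lit 456) (nat_lit 0) (XT.lf (nat_lit 0) (nat_lit 1043108849) (nat_lit 380) (nat_lit 2979358044) (nat_lit 76) (nat_lit 2472004535) (nat_lit 684) (nat_lit 5) (nat_lit 689) (nat_lit 5) (nat_lit 685) (nat_lit 5) (nat_lit 389) (nat_lit 380) (nat_lit 371)) (XT.nd (nat_lit 78) (nat_lit 76) (nat_lit 0) (XT.lf (nat_lit 0) (nat_lit 436057968) (nat_lit 380) (nat_lit 3455811016) (nat_lit 456) (nat_lit 2614900510) (nat_lit 679) (nat_lit 5) (nat_lit 684) (nat_lit 5) (nat_lit 685) (nat_lit 5) (nat_lit 390) (nat_lit 380) (nat_lit 370)) (XT.lf (nat_lit 0) (nat_lit 223285095) (nat_lit 456) (nat_lit 2603690723) (nat_lit 76) (nat_lit 3693370398) (nat_lit 678) (nat_lit 5) (nat_lit 684) (nat_lit 5) (nat_lit 679) (nat_lit 5) (nat_lit 391) (nat_lit 380) (nat_lit 369))))) (XT.nd (nat_lit 234) (nat_lit 684) (nat_lit 0) (XT.nd (nat_lit 78) (nat_lit 608) (nat_lit 0) (XT.lf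 (nat_lit 0) (nat_lit 884794681) (nat_lit 456) (nat_lit 2134123876) (nat_lit 532) (nat_lit 3516257162) (nat_lit 672) (nat_lit 5) (nat_lit 678) (nat_lit 5) (nat_lit 679) (nat_lit 5) (nat_lit 392) (nat_lit 380) (nat_lit 368)) (XT.nd (nat_lit 78) (nat_lit 608) (nat_lit 0) (XT.lf (nat_lit 0) (nat_lit 4436458058) (nat_lit 456) (nat_lit 1382501189) (nat_lit 532) (nat_lit 732412766) (nat_lit 672) (nat_lit 5) (nat_lit 678) (nat_lit 5) (nat_lit 679) (nat_lit 5) (nat_lit 393) (nat_lit 380) (nat_lit 367)) (XT.lf (nat_lit 0) (nat_lit 1454651873) (nat_lit 532) (nat_lit 566154388) (nat_lit 608) (nat_lit 4548024237) (nat_lit 664) (nat_lit 5) (nat_lit 671) (nat_lit 5) (nat_lit 672) (nat_lit 5) (nat_lit 394) (nat_lit 380) (nat_lit 366)))) (XT.nd (nat_lit 78) (nat_lit 684) (nat_lit 0) (XT.lf (nat_lit 0) (nat_lit 4768425653) (nat_lit 608) (nat_lit 1512026485) (nat_lit 76) (nat_lit 307144107) (nat_lit 664) (nat_lit 5) (nat_lit 672) (nat_lit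 5) (nat_lit 665) (nat_lit 5) (nat_lit 395) (nat_lit 380) (nat_lit 365)) (XT.nd (nat_lit 78) (nat_lit 0) (nat_lit 0) (XT.lf (nat_lit 0) (nat_lit 903358931) (nat_lit 684) (nat_lit 4469561817) (nat_lit 76) (nat_lit 1234692754) (nat_lit 655) (nat_lit 5) (nat_lit 664) (nat_lit 5) (nat_lit 656) (nat_lit 5) (nat_lit 396) (nat_lit 380) (nat_lit 364)) (XT.lf (nat_lit 0) (nat_lit 3601194152) (nat_lit 684) (nat_lit 801362186) (nat_lit 76) (nat_lit 2226365597) (nat_lit 655) (nat_lit 5) (nat_lit 664) (nat_lit 5) (nat_lit 656) (nat_lit 5) (nat_lit 397) (nat_lit 380) (nat_lit 363))))))) (XT.nd (nat_lit 858) (nat_lit 8740) (nat_lit 0) (XT.nd (nat_lit 390) (nat_lit 4256) (nat_lit 0) (XT.nd (nat_lit 156) (nat_lit 912) (nat_lit 0) (XT.nd (nat_lit 78) (nat_lit 836) (nat_lit 0) (XT.lf (nat_lit 0) (nat_lit 2936511703) (nat_lit 684) (nat_lit 3371792450) (nat_lit 760) (nat_lit 343280922) (nat_lit 646) (nat_lit 5) (nat_lit 655) (nat_lit 5) (nat_lit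 656) (nat_lit 5) (nat_lit 398) (nat_lit 380) (nat_lit 362)) (XT.lf (nat_lit 0) (nat_lit 27387749) (nat_lit 760) (nat_lit 2278429749) (nat_lit 836) (nat_lit 4369759117) (nat_lit 635) (nat_lit 5) (nat_lit 645) (nat_lit 5) (nat_lit 646) (nat_lit 5) (nat_lit 399) (nat_lit 380) (nat_lit 361))) (XT.nd (nat_lit 78) (nat_lit 912) (nat_lit 0) (XT.lf (nat_lit 0) (nat_lit 3850236201) (nat_lit 760) (nat_lit 1115728722) (nat_lit 836) (nat_lit 1734817298) (nat_lit 635) (nat_lit 5) (nat_lit 645) (nat_lit 5) (nat_lit 646) (nat_lit 5) (nat_lit 400) (nat_lit 380) (nat_lit 360)) (XT.nd (nat_lit 78) (nat_lit 0) (nat_lit 0) (XT.lf (nat_lit 0) (nat_lit 885928128) (nat_lit 912) (nat_lit 5740883675) (nat_lit 76) (nat_lit 100675997) (nat_lit 623) (nat_lit 5) (nat_lit 635) (nat_lit 5) (nat_lit 624) (nat_lit 5) (nat_lit 401) (nat_lit 380) (nat_lit 359)) (XT.lf (nat_lit 0) (nat_lit 3502103781) (nat_lit 912) (nat_lit 1877824884) (nat_lit 76) (nat_lit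 1375275584) (nat_lit 623) (nat_lit 5) (nat_lit 635) (nat_lit 5) (nat_lit 624) (nat_lit 5) (nat_lit 402) (nat_lit 380) (nat_lit 358))))) (XT.nd (nat_lit 234) (nat_lit 2280) (nat_lit 0) (XT.nd (nat_lit 78) (nat_lit 1064) (nat_lit 0) (XT.lf (nat_lit 0) (nat_lit 2046578805) (nat_lit 912) (nat_lit 4078075154) (nat_lit 988) (nat_lit 659770431) (nat_lit 611) (nat_lit 5) (nat_lit 623) (nat_lit 5) (nat_lit 624) (nat_lit 5) (nat_lit 403) (nat_lit 380) (nat_lit 357)) (XT.nd (nat_lit 78) (nat_lit 988) (nat_lit 0) (XT.lf (nat_lit 0) (nat_lit 1913304788) (nat_lit 988) (nat_lit 795312498) (nat_lit 76) (nat_lit 4106304683) (nat_lit 610) (nat_lit 5) (nat_lit 623) (nat_lit 5) (nat_lit 611) (nat_lit 5) (nat_lit 404) (nat_lit 380) (nat_lit 356)) (XT.lf (nat_lit 0) (nat_lit 3221515000) (nat_lit 988) (nat_lit 1270802105) (nat_lit 1064) (nat_lit 2354387607) (nat_lit 597) (nat_lit 5) (nat_lit 610) (nat_lit 5) (nat_lit 611) (nat_lit 5) (nat_lit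 405) (nat_lit 380) (nat_lit 355)))) (XT.nd (nat_lit 78) (nat_lit 1140) (nat_lit 0) (XT.lf (nat_lit 0) (nat_lit 192896774) (nat_lit 1140) (nat_lit 6470255009) (nat_lit 76) (nat_lit 216921039) (nat_lit 582) (nat_lit 5) (nat_lit 597) (nat_lit 5) (nat_lit 583) (nat_lit 5) (nat_lit 406) (nat_lit 380) (nat_lit 354)) (XT.nd (nat_lit 78) (nat_lit 1140) (nat_lit 0) (XT.lf (nat_lit 0) (nat_lit 2736305335) (nat_lit 1140) (nat_lit 2407029956) (nat_lit 76) (nat_lit 1770954660) (nat_lit 582) (nat_lit 5) (nat_lit 597) (nat_lit 5) (nat_lit 583) (nat_lit 5) (nat_lit 407) (nat_lit 380) (nat_lit 353)) (XT.lf (nat_lit 0) (nat_lit 1716933265) (nat_lit 1140) (nat_lit 3569669141) (nat_lit 1216) (nat_lit 1663495060) (nat_lit 567) (nat_lit 5) (nat_lit 582) (nat_lit 5) (nat_lit 583) (nat_lit 5) (nat_lit 408) (nat_lit 380) (nat_lit 352)))))) (XT.nd (nat_lit 390) (nat_lit 4712) (nat_lit 0) (XT.nd (nat_lit 156) (nat_lit 2736) (nat_lit 0) (XT.nd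 (nat_lit 78) (nat_lit 1216) (nat_lit 0) (XT.lf (nat_lit 0) (nat_lit 851013996) (nat_lit 1216) (nat_lit 1079766630) (nat_lit 76) (nat_lit 5056517890) (nat_lit 566) (nat_lit 5) (nat_lit 582) (nat_lit 5) (nat_lit 567) (nat_lit 5) (nat_lit 409) (nat_lit 380) (nat_lit 351)) (XT.lf (nat_lit 0) (nat_lit 3144259587) (nat_lit 1216) (nat_lit 216078425) (nat_lit 1292) (nat_lit 3665374609) (nat_lit 550) (nat_lit 5) (nat_lit 566) (nat_lit 5) (nat_lit 567) (nat_lit 5) (nat_lit 410) (nat_lit 380) (nat_lit 350))) (XT.nd (nat_lit 78) (nat_lit 1444) (nat_lit 0) (XT.lf (nat_lit 0) (nat_lit 353762380) (nat_lit 1292) (nat_lit 5532837617) (nat_lit 1368) (nat_lit 1178984418) (nat_lit 533) (nat_lit 5) (nat_lit 550) (nat_lit 5) (nat_lit 551) (nat_lit 5) (nat_lit 411) (nat_lit 380) (nat_lit 349)) (XT.nd (nat_lit 78) (nat_lit 1368) (nat_lit 0) (XT.lf (nat_lit 0) (nat_lit 1314578825) (nat_lit 1368) (nat_lit 2433814267) (nat_lit 76) (nat_lit 3358202925)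 (nat_lit 532) (nat_lit 5) (nat_lit 550) (nat_lit 5) (nat_lit 533) (nat_lit 5) (nat_lit 412) (nat_lit 380) (nat_lit 348)) (XT.lf (nat_lit 0) (nat_lit 1903813802) (nat_lit 1368) (nat_lit 1899410304) (nat_lit 1444) (nat_lit 3345850965) (nat_lit 514) (nat_lit 5) (nat_lit 532) (nat_lit 5) (nat_lit 533) (nat_lit 5) (nat_lit 413) (nat_lit 380) (nat_lit 347))))) (XT.nd (nat_lit 234) (nat_lit 1672) (nat_lit 0) (XT.nd (nat_lit 78) (nat_lit 3040) (nat_lit 0) (XT.lf (nat_lit 0) (nat_lit 6307397375) (nat_lit 1444) (nat_lit 874816193) (nat_lit 76) (nat_lit 10897612) (nat_lit 514) (nat_lit 5) (nat_lit 533) (nat_lit 5) (nat_lit 515) (nat_lit 5) (nat_lit 414) (nat_lit 380) (nat_lit 346)) (XT.nd (nat_lit 78) (nat_lit 1520) (nat_lit 0) (XT.lf (nat_lit 0) (nat_lit 1588398317) (nat_lit 1520) (nat_lit 3674482982) (nat_lit 76) (nat_lit 1975236251) (nat_lit 494) (nat_lit 5) (nat_lit 514) (nat_lit 5) (nat_lit 495) (nat_lit 5) (nat_lit 415) (nat_lit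 380) (nat_lit 345)) (XT.lf (nat_lit 0) (nat_lit 779691798) (nat_lit 1520) (nat_lit 3282167780) (nat_lit 1596) (nat_lit 3222834120) (nat_lit 474) (nat_lit 5) (nat_lit 494) (nat_lit 5) (nat_lit 495) (nat_lit 5) (nat_lit 416) (nat_lit 380) (nat_lit 344)))) (XT.nd (nat_lit 78) (nat_lit 1672) (nat_lit 0) (XT.lf (nat_lit 0) (nat_lit 5329608881) (nat_lit 1520) (nat_lit 1231268435) (nat_lit 1596) (nat_lit 771823163) (nat_lit 474) (nat_lit 5) (nat_lit 494) (nat_lit 5) (nat_lit 495) (nat_lit 5) (nat_lit 417) (nat_lit 380) (nat_lit 343)) (XT.nd (nat_lit 78) (nat_lit 0) (nat_lit 0) (XT.lf (nat_lit 0) (nat_lit 1680069176) (nat_lit 1672) (nat_lit 4819533953) (nat_lit 76) (nat_lit 882369365) (nat_lit 452) (nat_lit 5) (nat_lit 474) (nat_lit 5) (nat_lit 453) (nat_lit 5) (nat_lit 418) (nat_lit 380) (nat_lit 342)) (XT.lf (nat_lit 0) (nat_lit 4145098707) (nat_lit 1672) (nat_lit 242557717) (nat_lit 76) (nat_lit 3045002460) (nat_lit 452)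 (nat_lit 5) (nat_lit 474) (nat_lit 5) (nat_lit 453) (nat_lit 5) (nat_lit 419) (nat_lit 380) (nat_lit 341))))))))
noncomputable def xc93 : XT := (XT.nd (nat_lit 1716) (nat_lit 8056) (nat_lit 0) (XT.nd (nat_lit 858) (nat_lit 5396) (nat_lit 0) (XT.nd (nat_lit 390) (nat_lit 2660) (nat_lit 0) (XT.nd (nat_lit 156) (nat_lit 2128) (nat_lit 0) (XT.nd (nat_lit 78) (nat_lit 1824) (nat_lit 0) (XT.lf (nat_lit 0) (nat_lit 4441390225) (nat_lit 1672) (nat_lit 2200541214) (nat_lit 1748) (nat_lit 842796779) (nat_lit 430) (nat_lit 5) (nat_lit 452) (nat_lit 5) (nat_lit 453) (nat_lit 5) (nat_lit 420) (nat_lit 380) (nat_lit 340)) (XT.lf (nat_lit 0) (nat_lit 1595922114) (nat_lit 1824) (nat_lit 5886411115) (nat_lit 76) (nat_lit 55975629) (nat_lit 406) (nat_lit 5) (nat_lit 430) (nat_lit 5) (nat_lit 407) (nat_lit 5) (nat_lit 421) (nat_lit 380) (nat_lit 339))) (XT.nd (nat_lit 78) (nat_lit 2128) (nat_lit 0) (XT.lf (nat_lit 0) (nat_lit 4061889180)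 (nat_lit 1824) (nat_lit 1174375406) (nat_lit 76) (nat_lit 2356808088) (nat_lit 406) (nat_lit 5) (nat_lit 430) (nat_lit 5) (nat_lit 407) (nat_lit 5) (nat_lit 422) (nat_lit 380) (nat_lit 338)) (XT.nd (nat_lit 78) (nat_lit 988) (nat_lit 0) (XT.lf (nat_lit 0) (nat_lit 3636631003) (nat_lit 1140) (nat_lit 2919663383) (nat_lit 1216) (nat_lit 1093072805) (nat_lit 391) (nat_lit 5) (nat_lit 406) (nat_lit 5) (nat_lit 407) (nat_lit 5) (nat_lit 423) (nat_lit 380) (nat_lit 337)) (XT.lf (nat_lit 0) (nat_lit 811399517) (nat_lit 912) (nat_lit 533116377) (nat_lit 988) (nat_lit 6362727910) (nat_lit 378) (nat_lit 5) (nat_lit 390) (nat_lit 5) (nat_lit 391) (nat_lit 5) (nat_lit 424) (nat_lit 380) (nat_lit 336))))) (XT.nd (nat_lit 234) (nat_lit 912) (nat_lit 0) (XT.nd (nat_lit 78) (nat_lit 1748) (nat_lit 0) (XT.lf (nat_lit 0) (nat_lit 3812069603) (nat_lit 988) (nat_lit 2042983921) (nat_lit 76) (nat_lit 1911179707) (nat_lit 378) (nat_lit 5)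 (nat_lit 391) (nat_lit 5) (nat_lit 379) (nat_lit 5) (nat_lit 425) (nat_lit 380) (nat_lit 335)) (XT.nd (nat_lit 78) (nat_lit 912) (nat_lit 0) (XT.lf (nat_lit 0) (nat_lit 2898381231) (nat_lit 836) (nat_lit 3410183403) (nat_lit 912) (nat_lit 1518262451) (nat_lit 367) (nat_lit 5) (nat_lit 378) (nat_lit 5) (nat_lit 379) (nat_lit 5) (nat_lit 426) (nat_lit 380) (nat_lit 334)) (XT.lf (nat_lit 0) (nat_lit 28586099) (nat_lit 836) (nat_lit 896589523) (nat_lit 912) (nat_lit 6963917659) (nat_lit 355) (nat_lit 5) (nat_lit 366) (nat_lit 5) (nat_lit 367) (nat_lit 5) (nat_lit 427) (nat_lit 380) (nat_lit 333)))) (XT.nd (nat_lit 78) (nat_lit 912) (nat_lit 0) (XT.lf (nat_lit 0) (nat_lit 3399341927) (nat_lit 912) (nat_lit 2865371134) (nat_lit 76) (nat_lit 1687662745) (nat_lit 355) (nat_lit 5) (nat_lit 367) (nat_lit 5) (nat_lit 356) (nat_lit 5) (nat_lit 428) (nat_lit 380) (nat_lit 332)) (XT.nd (nat_lit 78) (nat_lit 76) (nat_lit 0) (XT.lf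 (nat_lit 0) (nat_lit 2209676884) (nat_lit 836) (nat_lit 3692474967) (nat_lit 912) (nat_lit 2115204116) (nat_lit 344) (nat_lit 5) (nat_lit 355) (nat_lit 5) (nat_lit 356) (nat_lit 5) (nat_lit 429) (nat_lit 380) (nat_lit 331)) (XT.lf (nat_lit 0) (nat_lit 344988159) (nat_lit 912) (nat_lit 704031173) (nat_lit 76) (nat_lit 7035013245) (nat_lit 343) (nat_lit 5) (nat_lit 355) (nat_lit 5) (nat_lit 344) (nat_lit 5) (nat_lit 430) (nat_lit 380) (nat_lit 330)))))) (XT.nd (nat_lit 390) (nat_lit 2280) (nat_lit 0) (XT.nd (nat_lit 156) (nat_lit 1520) (nat_lit 0) (XT.nd (nat_lit 78) (nat_lit 760) (nat_lit 0) (XT.lf (nat_lit 0) (nat_lit 2826222160) (nat_lit 912) (nat_lit 3658662459) (nat_lit 76) (nat_lit 1666889577) (nat_lit 332) (nat_lit 5) (nat_lit 344) (nat_lit 5) (nat_lit 333) (nat_lit 5) (nat_lit 431) (nat_lit 380) (nat_lit 329)) (XT.lf (nat_lit 0) (nat_lit 1553391262) (nat_lit 760) (nat_lit 3785895800) (nat_lit 836) (nat_lit 2881953498)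 (nat_lit 322) (nat_lit 5) (nat_lit 332) (nat_lit 5) (nat_lit 333) (nat_lit 5) (nat_lit 432) (nat_lit 380) (nat_lit 328))) (XT.nd (nat_lit 78) (nat_lit 1520) (nat_lit 0) (XT.lf (nat_lit 0) (nat_lit 6876594892) (nat_lit 760) (nat_lit 1011486620) (nat_lit 836) (nat_lit 404319133) (nat_lit 322) (nat_lit 5) (nat_lit 332) (nat_lit 5) (nat_lit 333) (nat_lit 5) (nat_lit 433) (nat_lit 380) (nat_lit 327)) (XT.nd (nat_lit 78) (nat_lit 684) (nat_lit 0) (XT.lf (nat_lit 0) (nat_lit 2094044373) (nat_lit 836) (nat_lit 4440271757) (nat_lit 76) (nat_lit 1830425004) (nat_lit 311) (nat_lit 5) (nat_lit 322) (nat_lit 5) (nat_lit 312) (nat_lit 5) (nat_lit 434) (nat_lit 380) (nat_lit 326)) (XT.lf (nat_lit 0) (nat_lit 912081626) (nat_lit 684) (nat_lit 3708942170) (nat_lit 760) (nat_lit 3817782902) (nat_lit 302) (nat_lit 5) (nat_lit 311) (nat_lit 5) (nat_lit 312) (nat_lit 5) (nat_lit 435) (nat_lit 380) (nat_lit 325))))) (XT.nd (nat_lit 234) (nat_lit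 760) (nat_lit 0) (XT.nd (nat_lit 78) (nat_lit 1520) (nat_lit 0) (XT.lf (nat_lit 0) (nat_lit 6389108414) (nat_lit 684) (nat_lit 801575464) (nat_lit 760) (nat_lit 1323839587) (nat_lit 302) (nat_lit 5) (nat_lit 311) (nat_lit 5) (nat_lit 312) (nat_lit 5) (nat_lit 436) (nat_lit 380) (nat_lit 324)) (XT.nd (nat_lit 78) (nat_lit 684) (nat_lit 0) (XT.lf (nat_lit 0) (nat_lit 1202955615) (nat_lit 836) (nat_lit 5228057933) (nat_lit 76) (nat_lit 2160615352) (nat_lit 291) (nat_lit 5) (nat_lit 302) (nat_lit 5) (nat_lit 292) (nat_lit 5) (nat_lit 437) (nat_lit 380) (nat_lit 323)) (XT.lf (nat_lit 0) (nat_lit 267829811) (nat_lit 684) (nat_lit 3479400295) (nat_lit 760) (nat_lit 4923189915) (nat_lit 282) (nat_lit 5) (nat_lit 291) (nat_lit 5) (nat_lit 292) (nat_lit 5) (nat_lit 438) (nat_lit 380) (nat_lit 322)))) (XT.nd (nat_lit 78) (nat_lit 760) (nat_lit 0) (XT.lf (nat_lit 0) (nat_lit 5902114881) (nat_lit 684) (nat_lit 439052176) (nat_lit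 760) (nat_lit 2409656113) (nat_lit 282) (nat_lit 5) (nat_lit 291) (nat_lit 5) (nat_lit 292) (nat_lit 5) (nat_lit 439) (nat_lit 380) (nat_lit 321)) (XT.nd (nat_lit 78) (nat_lit 0) (nat_lit 0) (XT.lf (nat_lit 0) (nat_lit 151901516) (nat_lit 760) (nat_lit 6040488612) (nat_lit 76) (nat_lit 2640440030) (nat_lit 272) (nat_lit 5) (nat_lit 282) (nat_lit 5) (nat_lit 273) (nat_lit 5) (nat_lit 440) (nat_lit 380) (nat_lit 320)) (XT.lf (nat_lit 0) (nat_lit 2719154772) (nat_lit 760) (nat_lit 392705764) (nat_lit 76) (nat_lit 5804574664) (nat_lit 272) (nat_lit 5) (nat_lit 282) (nat_lit 5) (nat_lit 273) (nat_lit 5) (nat_lit 441) (nat_lit 380) (nat_lit 319))))))) (XT.nd (nat_lit 858) (nat_lit 3648) (nat_lit 0) (XT.nd (nat_lit 390) (nat_lit 1824) (nat_lit 0) (XT.nd (nat_lit 156) (nat_lit 1292) (nat_lit 0) (XT.nd (nat_lit 78) (nat_lit 684) (nat_lit 0) (XT.lf (nat_lit 0) (nat_lit 5338423625) (nat_lit 684) (nat_lit 3604897246) (nat_lit 76)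 (nat_lit 58388912) (nat_lit 264) (nat_lit 5) (nat_lit 273) (nat_lit 5) (nat_lit 265) (nat_lit 5) (nat_lit 442) (nat_lit 380) (nat_lit 318)) (XT.lf (nat_lit 0) (nat_lit 2184844131) (nat_lit 684) (nat_lit 5828292058) (nat_lit 760) (nat_lit 1075503139) (nat_lit 255) (nat_lit 5) (nat_lit 264) (nat_lit 5) (nat_lit 265) (nat_lit 5) (nat_lit 443) (nat_lit 380) (nat_lit 317))) (XT.nd (nat_lit 78) (nat_lit 1216) (nat_lit 0) (XT.lf (nat_lit 0) (nat_lit 1533653783) (nat_lit 760) (nat_lit 1090073647) (nat_lit 76) (nat_lit 6553584547) (nat_lit 254) (nat_lit 5) (nat_lit 264) (nat_lit 5) (nat_lit 255) (nat_lit 5) (nat_lit 444) (nat_lit 380) (nat_lit 316)) (XT.nd (nat_lit 78) (nat_lit 608) (nat_lit 0) (XT.lf (nat_lit 0) (nat_lit 4182972424) (nat_lit 684) (nat_lit 4416936778) (nat_lit 76) (nat_lit 667669127) (nat_lit 246) (nat_lit 5) (nat_lit 255) (nat_lit 5) (nat_lit 247) (nat_lit 5) (nat_lit 445) (nat_lit 380) (nat_lit 315)) (XT.lf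 (nat_lit 0) (nat_lit 1526334497) (nat_lit 608) (nat_lit 5360382530) (nat_lit 684) (nat_lit 2472914016) (nat_lit 238) (nat_lit 5) (nat_lit 246) (nat_lit 5) (nat_lit 247) (nat_lit 5) (nat_lit 446) (nat_lit 380) (nat_lit 314))))) (XT.nd (nat_lit 234) (nat_lit 608) (nat_lit 0) (XT.nd (nat_lit 78) (nat_lit 1140) (nat_lit 0) (XT.lf (nat_lit 0) (nat_lit 185288618) (nat_lit 684) (nat_lit 1847902009) (nat_lit 76) (nat_lit 7420383188) (nat_lit 237) (nat_lit 5) (nat_lit 246) (nat_lit 5) (nat_lit 238) (nat_lit 5) (nat_lit 447) (nat_lit 380) (nat_lit 313)) (XT.nd (nat_lit 78) (nat_lit 608) (nat_lit 0) (XT.lf (nat_lit 0) (nat_lit 2867866745) (nat_lit 608) (nat_lit 5302661659) (nat_lit 76) (nat_lit 1378462904) (nat_lit 230) (nat_lit 5) (nat_lit 238) (nat_lit 5) (nat_lit 231) (nat_lit 5) (nat_lit 448) (nat_lit 380) (nat_lit 312)) (XT.lf (nat_lit 0) (nat_lit 796951592) (nat_lit 608) (nat_lit 4806174243) (nat_lit 684) (nat_lit 4043219805)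 (nat_lit 222) (nat_lit 5) (nat_lit 230) (nat_lit 5) (nat_lit 231) (nat_lit 5) (nat_lit 449) (nat_lit 380) (nat_lit 311)))) (XT.nd (nat_lit 78) (nat_lit 608) (nat_lit 0) (XT.lf (nat_lit 0) (nat_lit 7049329109) (nat_lit 608) (nat_lit 1347614724) (nat_lit 684) (nat_lit 1348635053) (nat_lit 222) (nat_lit 5) (nat_lit 230) (nat_lit 5) (nat_lit 231) (nat_lit 5) (nat_lit 450) (nat_lit 380) (nat_lit 310)) (XT.nd (nat_lit 78) (nat_lit 0) (nat_lit 0) (XT.lf (nat_lit 0) (nat_lit 1387692154) (nat_lit 608) (nat_lit 6284036585) (nat_lit 76) (nat_lit 2174770641) (nat_lit 214) (nat_lit 5) (nat_lit 222) (nat_lit 5) (nat_lit 215) (nat_lit 5) (nat_lit 451) (nat_lit 380) (nat_lit 309)) (XT.lf (nat_lit 0) (nat_lit 4156809739) (nat_lit 608) (nat_lit 25178251) (nat_lit 76) (nat_lit 5767357951) (nat_lit 214) (nat_lit 5) (nat_lit 222) (nat_lit 5) (nat_lit 215) (nat_lit 5) (nat_lit 452) (nat_lit 380) (nat_lit 308)))))) (XT.nd (nat_lit 390) (nat_lit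 1520) (nat_lit 0) (XT.nd (nat_lit 156) (nat_lit 1064) (nat_lit 0) (XT.nd (nat_lit 78) (nat_lit 532) (nat_lit 0) (XT.lf (nat_lit 0) (nat_lit 6402608963) (nat_lit 532) (nat_lit 589846673) (nat_lit 608) (nat_lit 3061579101) (nat_lit 207) (nat_lit 5) (nat_lit 214) (nat_lit 5) (nat_lit 215) (nat_lit 5) (nat_lit 453) (nat_lit 380) (nat_lit 307)) (XT.lf (nat_lit 0) (nat_lit 2774404870) (nat_lit 532) (nat_lit 7118401318) (nat_lit 608) (nat_lit 267859348) (nat_lit 200) (nat_lit 5) (nat_lit 207) (nat_lit 5) (nat_lit 208) (nat_lit 5) (nat_lit 454) (nat_lit 380) (nat_lit 306))) (XT.nd (nat_lit 78) (nat_lit 988) (nat_lit 0) (XT.lf (nat_lit 0) (nat_lit 2546420130) (nat_lit 608) (nat_lit 952162711) (nat_lit 76) (nat_lit 6770547707) (nat_lit 199) (nat_lit 5) (nat_lit 207) (nat_lit 5) (nat_lit 200) (nat_lit 5) (nat_lit 455) (nat_lit 380) (nat_lit 305)) (XT.nd (nat_lit 78) (nat_lit 456) (nat_lit 0) (XT.lf (nat_lit 0) (nat_lit 5422046541)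 (nat_lit 608) (nat_lit 4738028830) (nat_lit 76) (nat_lit 219488716) (nat_lit 192) (nat_lit 5) (nat_lit 200) (nat_lit 5) (nat_lit 193) (nat_lit 5) (nat_lit 456) (nat_lit 380) (nat_lit 304)) (XT.lf (nat_lit 0) (nat_lit 1848868052) (nat_lit 456) (nat_lit 6518737494) (nat_lit 532) (nat_lit 2124359797) (nat_lit 186) (nat_lit 5) (nat_lit 192) (nat_lit 5) (nat_lit 193) (nat_lit 5) (nat_lit 457) (nat_lit 380) (nat_lit 303))))) (XT.nd (nat_lit 234) (nat_lit 532) (nat_lit 0) (XT.nd (nat_lit 78) (nat_lit 912) (nat_lit 0) (XT.lf (nat_lit 0) (nat_lit 758357094) (nat_lit 532) (nat_lit 2019664658) (nat_lit 76) (nat_lit 7828441930) (nat_lit 185) (nat_lit 5) (nat_lit 192) (nat_lit 5) (nat_lit 186) (nat_lit 5) (nat_lit 458) (nat_lit 380) (nat_lit 302)) (XT.nd (nat_lit 78) (nat_lit 456) (nat_lit 0) (XT.lf (nat_lit 0) (nat_lit 3679579373) (nat_lit 532) (nat_lit 5984939557) (nat_lit 76) (nat_lit 1058273311) (nat_lit 179) (nat_lit 5) (nat_lit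 186) (nat_lit 5) (nat_lit 180) (nat_lit 5) (nat_lit 459) (nat_lit 380) (nat_lit 301)) (XT.lf (nat_lit 0) (nat_lit 768629989) (nat_lit 456) (nat_lit 5899359806) (nat_lit 532) (nat_lit 4173289184) (nat_lit 173) (nat_lit 5) (nat_lit 179) (nat_lit 5) (nat_lit 180) (nat_lit 5) (nat_lit 460) (nat_lit 380) (nat_lit 300)))) (XT.nd (nat_lit 78) (nat_lit 532) (nat_lit 0) (XT.lf (nat_lit 0) (nat_lit 7698974812) (nat_lit 456) (nat_lit 2029386981) (nat_lit 532) (nat_lit 1233536538) (nat_lit 173) (nat_lit 5) (nat_lit 179) (nat_lit 5) (nat_lit 180) (nat_lit 5) (nat_lit 461) (nat_lit 380) (nat_lit 299)) (XT.nd (nat_lit 78) (nat_lit 0) (nat_lit 0) (XT.lf (nat_lit 0) (nat_lit 1750765264) (nat_lit 532) (nat_lit 7416607339) (nat_lit 76) (nat_lit 1917156706) (nat_lit 166) (nat_lit 5) (nat_lit 173) (nat_lit 5) (nat_lit 167) (nat_lit 5) (nat_lit 462) (nat_lit 380) (nat_lit 298)) (XT.lf (nat_lit 0) (nat_lit 4786338947) (nat_lit 532) (nat_lit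 488560189) (nat_lit 76) (nat_lit 5934394996) (nat_lit 166) (nat_lit 5) (nat_lit 173) (nat_lit 5) (nat_lit 167) (nat_lit 5) (nat_lit 463) (nat_lit 380) (nat_lit 297))))))))
noncomputable def xc94 : XT := (XT.nd (nat_lit 1716) (nat_lit 3040) (nat_lit 0) (XT.nd (nat_lit 858) (nat_lit 2508) (nat_lit 0) (XT.nd (nat_lit 390) (nat_lit 1292) (nat_lit 0) (XT.nd (nat_lit 156) (nat_lit 836) (nat_lit 0) (XT.nd (nat_lit 78) (nat_lit 456) (nat_lit 0) (XT.lf (nat_lit 0) (nat_lit 6626479305) (nat_lit 380) (nat_lit 1272312286) (nat_lit 456) (nat_lit 3437445544) (nat_lit 161) (nat_lit 5) (nat_lit 166) (nat_lit 5) (nat_lit 167) (nat_lit 5) (nat_lit 464) (nat_lit 380) (nat_lit 296)) (XT.lf (nat_lit 0) (nat_lit 2399302810) (nat_lit 456) (nat_lit 8684661852) (nat_lit 532) (nat_lit 381551017) (nat_lit 155) (nat_lit 5) (nat_lit 161) (nat_lit 5) (nat_lit 162) (nat_lit 5) (nat_lit 465) (nat_lit 380) (nat_lit 295))) (XT.nd (nat_lit 78) (nat_lit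 760) (nat_lit 0) (XT.lf (nat_lit 0) (nat_lit 2713264779) (nat_lit 532) (nat_lit 1947545999) (nat_lit 76) (nat_lit 6935946092) (nat_lit 154) (nat_lit 5) (nat_lit 161) (nat_lit 5) (nat_lit 155) (nat_lit 5) (nat_lit 466) (nat_lit 380) (nat_lit 294)) (XT.nd (nat_lit 78) (nat_lit 380) (nat_lit 0) (XT.lf (nat_lit 0) (nat_lit 5343013204) (nat_lit 380) (nat_lit 530509960) (nat_lit 456) (nat_lit 5856881932) (nat_lit 149) (nat_lit 5) (nat_lit 154) (nat_lit 5) (nat_lit 155) (nat_lit 5) (nat_lit 467) (nat_lit 380) (nat_lit 293)) (XT.lf (nat_lit 0) (nat_lit 888757519) (nat_lit 380) (nat_lit 8225211218) (nat_lit 456) (nat_lit 2752423555) (nat_lit 144) (nat_lit 5) (nat_lit 149) (nat_lit 5) (nat_lit 150) (nat_lit 5) (nat_lit 468) (nat_lit 380) (nat_lit 292))))) (XT.nd (nat_lit 234) (nat_lit 836) (nat_lit 0) (XT.nd (nat_lit 78) (nat_lit 380) (nat_lit 0) (XT.lf (nat_lit 0) (nat_lit 429585494) (nat_lit 456) (nat_lit 3652033379) (nat_lit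 76) (nat_lit 7923014152) (nat_lit 143) (nat_lit 5) (nat_lit 149) (nat_lit 5) (nat_lit 144) (nat_lit 5) (nat_lit 469) (nat_lit 380) (nat_lit 291)) (XT.nd (nat_lit 78) (nat_lit 0) (nat_lit 0) (XT.lf (nat_lit 0) (nat_lit 3639062641) (nat_lit 456) (nat_lit 8332123916) (nat_lit 76) (nat_lit 174079806) (nat_lit 138) (nat_lit 5) (nat_lit 144) (nat_lit 5) (nat_lit 139) (nat_lit 5) (nat_lit 470) (nat_lit 380) (nat_lit 290)) (XT.lf (nat_lit 0) (nat_lit 6939340502) (nat_lit 456) (nat_lit 876034188) (nat_lit 76) (nat_lit 4472810670) (nat_lit 138) (nat_lit 5) (nat_lit 144) (nat_lit 5) (nat_lit 139) (nat_lit 5) (nat_lit 471) (nat_lit 380) (nat_lit 289)))) (XT.nd (nat_lit 78) (nat_lit 456) (nat_lit 0) (XT.lf (nat_lit 0) (nat_lit 6781107743) (nat_lit 380) (nat_lit 3543946780) (nat_lit 456) (nat_lit 2108524714) (nat_lit 133) (nat_lit 5) (nat_lit 138) (nat_lit 5) (nat_lit 139) (nat_lit 5) (nat_lit 472) (nat_lit 380) (nat_lit 288)) (XT.nd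 (nat_lit 78) (nat_lit 0) (nat_lit 0) (XT.lf (nat_lit 0) (nat_lit 1180683352) (nat_lit 456) (nat_lit 10584343982) (nat_lit 76) (nat_lit 816707685) (nat_lit 127) (nat_lit 5) (nat_lit 133) (nat_lit 5) (nat_lit 128) (nat_lit 5) (nat_lit 473) (nat_lit 380) (nat_lit 287)) (XT.lf (nat_lit 0) (nat_lit 4544761384) (nat_lit 456) (nat_lit 2930165603) (nat_lit 76) (nat_lit 5256906623) (nat_lit 127) (nat_lit 5) (nat_lit 133) (nat_lit 5) (nat_lit 128) (nat_lit 5) (nat_lit 474) (nat_lit 380) (nat_lit 286)))))) (XT.nd (nat_lit 390) (nat_lit 1368) (nat_lit 0) (XT.nd (nat_lit 156) (nat_lit 760) (nat_lit 0) (XT.nd (nat_lit 78) (nat_lit 0) (nat_lit 0) (XT.lf (nat_lit 0) (nat_lit 4904898419) (nat_lit 380) (nat_lit 3079186503) (nat_lit 456) (nat_lit 4900694694) (nat_lit 122) (nat_lit 5) (nat_lit 127) (nat_lit 5) (nat_lit 128) (nat_lit 5) (nat_lit 475) (nat_lit 380) (nat_lit 285)) (XT.lf (nat_lit 0) (nat_lit 11497375567) (nat_lit 456) (nat_lit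 149939168) (nat_lit 76) (nat_lit 1393370825) (nat_lit 122) (nat_lit 5) (nat_lit 128) (nat_lit 5) (nat_lit 123) (nat_lit 5) (nat_lit 476) (nat_lit 380) (nat_lit 284))) (XT.nd (nat_lit 78) (nat_lit 380) (nat_lit 0) (XT.lf (nat_lit 0) (nat_lit 1905177138) (nat_lit 380) (nat_lit 5327639417) (nat_lit 76) (nat_lit 5965680688) (nat_lit 117) (nat_lit 5) (nat_lit 122) (nat_lit 5) (nat_lit 118) (nat_lit 5) (nat_lit 477) (nat_lit 380) (nat_lit 283)) (XT.nd (nat_lit 78) (nat_lit 0) (nat_lit 0) (XT.lf (nat_lit 0) (nat_lit 2683588042) (nat_lit 380) (nat_lit 2713638128) (nat_lit 456) (nat_lit 7962134189) (nat_lit 112) (nat_lit 5) (nat_lit 117) (nat_lit 5) (nat_lit 118) (nat_lit 5) (nat_lit 478) (nat_lit 380) (nat_lit 282)) (XT.lf (nat_lit 0) (nat_lit 8984354259) (nat_lit 456) (nat_lit 2644196526) (nat_lit 76) (nat_lit 1894389467) (nat_lit 112) (nat_lit 5) (nat_lit 118) (nat_lit 5) (nat_lit 113) (nat_lit 5) (nat_lit 479) (nat_lit 380)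 (nat_lit 281))))) (XT.nd (nat_lit 234) (nat_lit 684) (nat_lit 0) (XT.nd (nat_lit 78) (nat_lit 380) (nat_lit 0) (XT.lf (nat_lit 0) (nat_lit 5567586960) (nat_lit 304) (nat_lit 7107150131) (nat_lit 380) (nat_lit 1014428603) (nat_lit 108) (nat_lit 5) (nat_lit 112) (nat_lit 5) (nat_lit 113) (nat_lit 5) (nat_lit 480) (nat_lit 380) (nat_lit 280)) (XT.nd (nat_lit 78) (nat_lit 0) (nat_lit 0) (XT.lf (nat_lit 0) (nat_lit 69587947) (nat_lit 304) (nat_lit 2472552045) (nat_lit 380) (nat_lit 11316329274) (nat_lit 103) (nat_lit 5) (nat_lit 107) (nat_lit 5) (nat_lit 108) (nat_lit 5) (nat_lit 481) (nat_lit 380) (nat_lit 279)) (XT.lf (nat_lit 0) (nat_lit 6203353002) (nat_lit 380) (nat_lit 5552794461) (nat_lit 76) (nat_lit 2273939368) (nat_lit 103) (nat_lit 5) (nat_lit 108) (nat_lit 5) (nat_lit 104) (nat_lit 5) (nat_lit 482) (nat_lit 380) (nat_lit 278)))) (XT.nd (nat_lit 78) (nat_lit 380) (nat_lit 0) (XT.lf (nat_lit 0) (nat_lit 2833829927)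 (nat_lit 304) (nat_lit 7116756800) (nat_lit 380) (nat_lit 4254297964) (nat_lit 99) (nat_lit 5) (nat_lit 103) (nat_lit 5) (nat_lit 104) (nat_lit 5) (nat_lit 483) (nat_lit 380) (nat_lit 277)) (XT.nd (nat_lit 78) (nat_lit 380) (nat_lit 0) (XT.lf (nat_lit 0) (nat_lit 11428710617) (nat_lit 304) (nat_lit 2359544852) (nat_lit 380) (nat_lit 594617031) (nat_lit 99) (nat_lit 5) (nat_lit 103) (nat_lit 5) (nat_lit 104) (nat_lit 5) (nat_lit 484) (nat_lit 380) (nat_lit 276)) (XT.lf (nat_lit 0) (nat_lit 3128774544) (nat_lit 380) (nat_lit 8929745542) (nat_lit 76) (nat_lit 2504862601) (nat_lit 94) (nat_lit 5) (nat_lit 99) (nat_lit 5) (nat_lit 95) (nat_lit 5) (nat_lit 485) (nat_lit 380) (nat_lit 275))))))) (XT.nd (nat_lit 858) (nat_lit 1292) (nat_lit 0) (XT.nd (nat_lit 390) (nat_lit 836) (nat_lit 0) (XT.nd (nat_lit 156) (nat_lit 608) (nat_lit 0) (XT.nd (nat_lit 78) (nat_lit 304) (nat_lit 0) (XT.lf (nat_lit 0) (nat_lit 6932887340) (nat_lit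 380) (nat_lit 368039020) (nat_lit 76) (nat_lit 7446217384) (nat_lit 94) (nat_lit 5) (nat_lit 99) (nat_lit 5) (nat_lit 95) (nat_lit 5) (nat_lit 486) (nat_lit 380) (nat_lit 274)) (XT.lf (nat_lit 0) (nat_lit 8441819823) (nat_lit 304) (nat_lit 2405118028) (nat_lit 380) (nat_lit 4086968571) (nat_lit 90) (nat_lit 5) (nat_lit 94) (nat_lit 5) (nat_lit 95) (nat_lit 5) (nat_lit 487) (nat_lit 380) (nat_lit 273))) (XT.nd (nat_lit 78) (nat_lit 304) (nat_lit 0) (XT.lf (nat_lit 0) (nat_lit 2287780177) (nat_lit 304) (nat_lit 12564791269) (nat_lit 380) (nat_lit 271570306) (nat_lit 86) (nat_lit 5) (nat_lit 90) (nat_lit 5) (nat_lit 91) (nat_lit 5) (nat_lit 488) (nat_lit 380) (nat_lit 272)) (XT.nd (nat_lit 78) (nat_lit 228) (nat_lit 0) (XT.lf (nat_lit 0) (nat_lit 3611644082) (nat_lit 380) (nat_lit 4059752498) (nat_lit 76) (nat_lit 7645538692) (nat_lit 85) (nat_lit 5) (nat_lit 90) (nat_lit 5) (nat_lit 86) (nat_lit 5) (nat_lit 489) (nat_lit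 380) (nat_lit 271)) (XT.lf (nat_lit 0) (nat_lit 4921839646) (nat_lit 228) (nat_lit 2658618902) (nat_lit 304) (nat_lit 7932862011) (nat_lit 82) (nat_lit 5) (nat_lit 85) (nat_lit 5) (nat_lit 86) (nat_lit 5) (nat_lit 490) (nat_lit 380) (nat_lit 270))))) (XT.nd (nat_lit 234) (nat_lit 228) (nat_lit 0) (XT.nd (nat_lit 78) (nat_lit 608) (nat_lit 0) (XT.lf (nat_lit 0) (nat_lit 11651722684) (nat_lit 304) (nat_lit 1624516103) (nat_lit 76) (nat_lit 2436936477) (nat_lit 82) (nat_lit 5) (nat_lit 86) (nat_lit 5) (nat_lit 83) (nat_lit 5) (nat_lit 491) (nat_lit 380) (nat_lit 269)) (XT.nd (nat_lit 78) (nat_lit 304) (nat_lit 0) (XT.lf (nat_lit 0) (nat_lit 7570721695) (nat_lit 304) (nat_lit 8280563260) (nat_lit 380) (nat_lit 64807767) (nat_lit 78) (nat_lit 5) (nat_lit 82) (nat_lit 5) (nat_lit 83) (nat_lit 5) (nat_lit 492) (nat_lit 380) (nat_lit 268)) (XT.lf (nat_lit 0) (nat_lit 800613245) (nat_lit 228) (nat_lit 3154870416) (nat_lit 304)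 (nat_lit 12167140345) (nat_lit 74) (nat_lit 5) (nat_lit 77) (nat_lit 5) (nat_lit 78) (nat_lit 5) (nat_lit 493) (nat_lit 380) (nat_lit 267)))) (XT.nd (nat_lit 78) (nat_lit 228) (nat_lit 0) (XT.lf (nat_lit 0) (nat_lit 8105398886) (nat_lit 304) (nat_lit 6136685228) (nat_lit 76) (nat_lit 2090194457) (nat_lit 74) (nat_lit 5) (nat_lit 78) (nat_lit 5) (nat_lit 75) (nat_lit 5) (nat_lit 494) (nat_lit 380) (nat_lit 266)) (XT.nd (nat_lit 78) (nat_lit 0) (nat_lit 0) (XT.lf (nat_lit 0) (nat_lit 3221449886) (nat_lit 228) (nat_lit 9139309489) (nat_lit 304) (nat_lit 4184920792) (nat_lit 71) (nat_lit 5) (nat_lit 74) (nat_lit 5) (nat_lit 75) (nat_lit 5) (nat_lit 495) (nat_lit 380) (nat_lit 265)) (XT.lf (nat_lit 0) (nat_lit 12817890642) (nat_lit 228) (nat_lit 3905326425) (nat_lit 304) (nat_lit 39695751) (nat_lit 71) (nat_lit 5) (nat_lit 74) (nat_lit 5) (nat_lit 75) (nat_lit 5) (nat_lit 496) (nat_lit 380) (nat_lit 264)))))) (XT.nd (nat_lit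 390) (nat_lit 456) (nat_lit 0) (XT.nd (nat_lit 156) (nat_lit 532) (nat_lit 0) (XT.nd (nat_lit 78) (nat_lit 0) (nat_lit 0) (XT.lf (nat_lit 0) (nat_lit 4160804376) (nat_lit 304) (nat_lit 11356405320) (nat_lit 76) (nat_lit 1466193203) (nat_lit 67) (nat_lit 5) (nat_lit 71) (nat_lit 5) (nat_lit 68) (nat_lit 5) (nat_lit 497) (nat_lit 380) (nat_lit 263)) (XT.lf (nat_lit 0) (nat_lit 8478438405) (nat_lit 304) (nat_lit 1821896133) (nat_lit 76) (nat_lit 6907292547) (nat_lit 67) (nat_lit 5) (nat_lit 71) (nat_lit 5) (nat_lit 68) (nat_lit 5) (nat_lit 498) (nat_lit 380) (nat_lit 262))) (XT.nd (nat_lit 78) (nat_lit 304) (nat_lit 0) (XT.lf (nat_lit 0) (nat_lit 7976787829) (nat_lit 228) (nat_lit 4938940967) (nat_lit 304) (nat_lit 4519943493) (nat_lit 64) (nat_lit 5) (nat_lit 67) (nat_lit 5) (nat_lit 68) (nat_lit 5) (nat_lit 499) (nat_lit 380) (nat_lit 261)) (XT.nd (nat_lit 78) (nat_lit 76) (nat_lit 0) (XT.lf (nat_lit 0) (nat_lit 297271807)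 (nat_lit 228) (nat_lit 17143762106) (nat_lit 304) (nat_lit 227261662) (nat_lit 61) (nat_lit 5) (nat_lit 64) (nat_lit 5) (nat_lit 65) (nat_lit 5) (nat_lit 500) (nat_lit 380) (nat_lit 260)) (XT.lf (nat_lit 0) (nat_lit 4175060989) (nat_lit 304) (nat_lit 7618870446) (nat_lit 76) (nat_lit 6109538654) (nat_lit 60) (nat_lit 5) (nat_lit 64) (nat_lit 5) (nat_lit 61) (nat_lit 5) (nat_lit 501) (nat_lit 380) (nat_lit 259))))) (XT.nd (nat_lit 234) (nat_lit 76) (nat_lit 0) (XT.nd (nat_lit 78) (nat_lit 152) (nat_lit 0) (XT.lf (nat_lit 0) (nat_lit 2326692685) (nat_lit 228) (nat_lit 6332793081) (nat_lit 304) (nat_lit 9483892719) (nat_lit 57) (nat_lit 5) (nat_lit 60) (nat_lit 5) (nat_lit 61) (nat_lit 5) (nat_lit 502) (nat_lit 380) (nat_lit 258)) (XT.nd (nat_lit 78) (nat_lit 152) (nat_lit 0) (XT.lf (nat_lit 0) (nat_lit 12544001268) (nat_lit 228) (nat_lit 722869333) (nat_lit 304) (nat_lit 5120551378) (nat_lit 57) (nat_lit 5) (nat_lit 60)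 (nat_lit 5) (nat_lit 61) (nat_lit 5) (nat_lit 503) (nat_lit 380) (nat_lit 257)) (XT.lf (nat_lit 0) (nat_lit 4323436856) (nat_lit 152) (nat_lit 13685910274) (nat_lit 228) (nat_lit 626142648) (nat_lit 55) (nat_lit 5) (nat_lit 57) (nat_lit 5) (nat_lit 58) (nat_lit 5) (nat_lit 504) (nat_lit 380) (nat_lit 256)))) (XT.nd (nat_lit 49686) (nat_lit 0) (nat_lit 48716) (XT.lf (nat_lit 0) (nat_lit 3932949442) (nat_lit 228) (nat_lit 4175794222) (nat_lit 76) (nat_lit 10778729375) (nat_lit 54) (nat_lit 5) (nat_lit 57) (nat_lit 5) (nat_lit 55) (nat_lit 5) (nat_lit 505) (nat_lit 380) (nat_lit 255)) (XT.nd (nat_lit 78) (nat_lit 228) (nat_lit 0) (XT.lf (nat_lit 0) (nat_lit 1537170498) (nat_lit 0) (nat_lit 1537170498) (nat_lit 76) (nat_lit 147737568) (nat_lit 698) (nat_lit 5) (nat_lit 698) (nat_lit 3) (nat_lit 699) (nat_lit 0) (nat_lit 381) (nat_lit 381) (nat_lit 378)) (XT.lf (nat_lit 0) (nat_lit 2701443060) (nat_lit 228) (nat_lit 252265008)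 (nat_lit 228) (nat_lit 3493033010) (nat_lit 695) (nat_lit 3) (nat_lit 698) (nat_lit 3) (nat_lit 698) (nat_lit 5) (nat_lit 382) (nat_lit 381) (nat_lit 377))))))))
noncomputable def xc95 : XT := (XT.nd (nat_lit 1716) (nat_lit 18468) (nat_lit 0) (XT.nd (nat_lit 858) (nat_lit 4636) (nat_lit 0) (XT.nd (nat_lit 390) (nat_lit 1292) (nat_lit 0) (XT.nd (nat_lit 156) (nat_lit 304) (nat_lit 0) (XT.nd (nat_lit 78) (nat_lit 228) (nat_lit 0) (XT.lf (nat_lit 76) (nat_lit 2923923816) (nat_lit 0) (nat_lit 2770822063) (nat_lit 228) (nat_lit 755835572) (nat_lit 696) (nat_lit 5) (nat_lit 695) (nat_lit 3) (nat_lit 698) (nat_lit 5) (nat_lit 383) (nat_lit 381) (nat_lit 376)) (XT.lf (nat_lit 0) (nat_lit 2187176612) (nat_lit 228) (nat_lit 343235541) (nat_lit 304) (nat_lit 3925361737) (nat_lit 692) (nat_lit 5) (nat_lit 695) (nat_lit 3) (nat_lit 696) (nat_lit 5) (nat_lit 384) (nat_lit 381) (nat_lit 375))) (XT.nd (nat_lit 78) (nat_lit 304) (nat_lit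 0) (XT.lf (nat_lit 76) (nat_lit 2896717777) (nat_lit 0) (nat_lit 2224689277) (nat_lit 304) (nat_lit 1340762502) (nat_lit 693) (nat_lit 5) (nat_lit 692) (nat_lit 5) (nat_lit 696) (nat_lit 5) (nat_lit 385) (nat_lit 381) (nat_lit 374)) (XT.nd (nat_lit 78) (nat_lit 0) (nat_lit 0) (XT.lf (nat_lit 0) (nat_lit 1550719972) (nat_lit 304) (nat_lit 314134976) (nat_lit 380) (nat_lit 4605137995) (nat_lit 688) (nat_lit 5) (nat_lit 692) (nat_lit 5) (nat_lit 693) (nat_lit 5) (nat_lit 386) (nat_lit 381) (nat_lit 373)) (XT.lf (nat_lit 76) (nat_lit 2992466911) (nat_lit 0) (nat_lit 1434896650) (nat_lit 380) (nat_lit 2051572357) (nat_lit 689) (nat_lit 5) (nat_lit 688) (nat_lit 5) (nat_lit 693) (nat_lit 5) (nat_lit 387) (nat_lit 381) (nat_lit 372))))) (XT.nd (nat_lit 234) (nat_lit 608) (nat_lit 0) (XT.nd (nat_lit 78) (nat_lit 304) (nat_lit 0) (XT.lf (nat_lit 0) (nat_lit 790654447) (nat_lit 380) (nat_lit 165107617) (nat_lit 456) (nat_lit 5533653965)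 (nat_lit 683) (nat_lit 5) (nat_lit 688) (nat_lit 5) (nat_lit 689) (nat_lit 5) (nat_lit 388) (nat_lit 381) (nat_lit 371)) (XT.nd (nat_lit 78) (nat_lit 304) (nat_lit 0) (XT.lf (nat_lit 76) (nat_lit 3211144599) (nat_lit 0) (nat_lit 399932334) (nat_lit 456) (nat_lit 2889824554) (nat_lit 684) (nat_lit 5) (nat_lit 683) (nat_lit 5) (nat_lit 689) (nat_lit 5) (nat_lit 389) (nat_lit 381) (nat_lit 370)) (XT.lf (nat_lit 0) (nat_lit 103365997) (nat_lit 380) (nat_lit 6316716089) (nat_lit 456) (nat_lit 93933630) (nat_lit 679) (nat_lit 5) (nat_lit 684) (nat_lit 5) (nat_lit 685) (nat_lit 5) (nat_lit 390) (nat_lit 381) (nat_lit 369)))) (XT.nd (nat_lit 78) (nat_lit 532) (nat_lit 0) (XT.lf (nat_lit 0) (nat_lit 2676496100) (nat_lit 456) (nat_lit 2980869395) (nat_lit 76) (nat_lit 870613688) (nat_lit 678) (nat_lit 5) (nat_lit 684) (nat_lit 5) (nat_lit 679) (nat_lit 5) (nat_lit 391) (nat_lit 381) (nat_lit 368)) (XT.nd (nat_lit 78) (nat_lit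 76) (nat_lit 0) (XT.lf (nat_lit 0) (nat_lit 481868132) (nat_lit 456) (nat_lit 4953632677) (nat_lit 532) (nat_lit 1108060302) (nat_lit 672) (nat_lit 5) (nat_lit 678) (nat_lit 5) (nat_lit 679) (nat_lit 5) (nat_lit 392) (nat_lit 381) (nat_lit 367)) (XT.lf (nat_lit 0) (nat_lit 1620087214) (nat_lit 532) (nat_lit 2557902173) (nat_lit 76) (nat_lit 2382243862) (nat_lit 671) (nat_lit 5) (nat_lit 678) (nat_lit 5) (nat_lit 672) (nat_lit 5) (nat_lit 393) (nat_lit 381) (nat_lit 366)))))) (XT.nd (nat_lit 390) (nat_lit 2660) (nat_lit 0) (XT.nd (nat_lit 156) (nat_lit 1368) (nat_lit 0) (XT.nd (nat_lit 78) (nat_lit 76) (nat_lit 0) (XT.lf (nat_lit 0) (nat_lit 980298912) (nat_lit 532) (nat_lit 3347264271) (nat_lit 608) (nat_lit 2250774892) (nat_lit 664) (nat_lit 5) (nat_lit 671) (nat_lit 5) (nat_lit 672) (nat_lit 5) (nat_lit 394) (nat_lit 381) (nat_lit 365)) (XT.lf (nat_lit 0) (nat_lit 437000162) (nat_lit 608) (nat_lit 2017664570) (nat_lit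 76) (nat_lit 4143091157) (nat_lit 663) (nat_lit 5) (nat_lit 671) (nat_lit 5) (nat_lit 664) (nat_lit 5) (nat_lit 395) (nat_lit 381) (nat_lit 364))) (XT.nd (nat_lit 78) (nat_lit 760) (nat_lit 0) (XT.lf (nat_lit 0) (nat_lit 1599378675) (nat_lit 608) (nat_lit 1494520336) (nat_lit 684) (nat_lit 3524490972) (nat_lit 655) (nat_lit 5) (nat_lit 663) (nat_lit 5) (nat_lit 664) (nat_lit 5) (nat_lit 396) (nat_lit 381) (nat_lit 363)) (XT.nd (nat_lit 78) (nat_lit 760) (nat_lit 0) (XT.lf (nat_lit 0) (nat_lit 5275373371) (nat_lit 608) (nat_lit 478203991) (nat_lit 684) (nat_lit 886901469) (nat_lit 655) (nat_lit 5) (nat_lit 663) (nat_lit 5) (nat_lit 664) (nat_lit 5) (nat_lit 397) (nat_lit 381) (nat_lit 362)) (XT.lf (nat_lit 0) (nat_lit 1735835301) (nat_lit 760) (nat_lit 4327668507) (nat_lit 76) (nat_lit 600184053) (nat_lit 645) (nat_lit 5) (nat_lit 655) (nat_lit 5) (nat_lit 646) (nat_lit 5) (nat_lit 398) (nat_lit 381) (nat_lit 361)))))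 (XT.nd (nat_lit 234) (nat_lit 988) (nat_lit 0) (XT.nd (nat_lit 78) (nat_lit 1672) (nat_lit 0) (XT.lf (nat_lit 0) (nat_lit 4349570632) (nat_lit 760) (nat_lit 608567405) (nat_lit 76) (nat_lit 1730130287) (nat_lit 645) (nat_lit 5) (nat_lit 655) (nat_lit 5) (nat_lit 646) (nat_lit 5) (nat_lit 399) (nat_lit 381) (nat_lit 360)) (XT.nd (nat_lit 78) (nat_lit 836) (nat_lit 0) (XT.lf (nat_lit 0) (nat_lit 257897298) (nat_lit 836) (nat_lit 3530312822) (nat_lit 76) (nat_lit 2925930222) (nat_lit 634) (nat_lit 5) (nat_lit 645) (nat_lit 5) (nat_lit 635) (nat_lit 5) (nat_lit 400) (nat_lit 381) (nat_lit 359)) (XT.lf (nat_lit 0) (nat_lit 266148996) (nat_lit 836) (nat_lit 2554562293) (nat_lit 912) (nat_lit 3920628283) (nat_lit 623) (nat_lit 5) (nat_lit 634) (nat_lit 5) (nat_lit 635) (nat_lit 5) (nat_lit 401) (nat_lit 381) (nat_lit 358)))) (XT.nd (nat_lit 78) (nat_lit 988) (nat_lit 0) (XT.lf (nat_lit 0) (nat_lit 4144970703) (nat_lit 836)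 (nat_lit 1254147971) (nat_lit 912) (nat_lit 1370707754) (nat_lit 623) (nat_lit 5) (nat_lit 634) (nat_lit 5) (nat_lit 635) (nat_lit 5) (nat_lit 402) (nat_lit 381) (nat_lit 357)) (XT.nd (nat_lit 78) (nat_lit 0) (nat_lit 0) (XT.lf (nat_lit 0) (nat_lit 1164404891) (nat_lit 988) (nat_lit 5530716229) (nat_lit 76) (nat_lit 104624795) (nat_lit 610) (nat_lit 5) (nat_lit 623) (nat_lit 5) (nat_lit 611) (nat_lit 5) (nat_lit 403) (nat_lit 381) (nat_lit 356)) (XT.lf (nat_lit 0) (nat_lit 3700305048) (nat_lit 988) (nat_lit 1613475551) (nat_lit 76) (nat_lit 1516961838) (nat_lit 610) (nat_lit 5) (nat_lit 623) (nat_lit 5) (nat_lit 611) (nat_lit 5) (nat_lit 404) (nat_lit 381) (nat_lit 355))))))) (XT.nd (nat_lit 858) (nat_lit 9652) (nat_lit 0) (XT.nd (nat_lit 390) (nat_lit 5472) (nat_lit 0) (XT.nd (nat_lit 156) (nat_lit 2280) (nat_lit 0) (XT.nd (nat_lit 78) (nat_lit 76) (nat_lit 0) (XT.lf (nat_lit 0) (nat_lit 2371608465) (nat_lit 988) (nat_lit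 3874227943) (nat_lit 1064) (nat_lit 617372285) (nat_lit 597) (nat_lit 5) (nat_lit 610) (nat_lit 5) (nat_lit 611) (nat_lit 5) (nat_lit 405) (nat_lit 381) (nat_lit 354)) (XT.lf (nat_lit 0) (nat_lit 1875290221) (nat_lit 1064) (nat_lit 492652179) (nat_lit 76) (nat_lit 4529059017) (nat_lit 596) (nat_lit 5) (nat_lit 610) (nat_lit 5) (nat_lit 597) (nat_lit 5) (nat_lit 406) (nat_lit 381) (nat_lit 353))) (XT.nd (nat_lit 78) (nat_lit 1216) (nat_lit 0) (XT.lf (nat_lit 0) (nat_lit 3587965075) (nat_lit 1064) (nat_lit 789934979) (nat_lit 1140) (nat_lit 2554147559) (nat_lit 582) (nat_lit 5) (nat_lit 596) (nat_lit 5) (nat_lit 597) (nat_lit 5) (nat_lit 407) (nat_lit 381) (nat_lit 352)) (XT.nd (nat_lit 78) (nat_lit 76) (nat_lit 0) (XT.lf (nat_lit 0) (nat_lit 751455856) (nat_lit 1140) (nat_lit 6138588420) (nat_lit 1216) (nat_lit 78586748) (nat_lit 567) (nat_lit 5) (nat_lit 582) (nat_lit 5) (nat_lit 583) (nat_lit 5) (nat_lit 408) (nat_lit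 381) (nat_lit 351)) (XT.lf (nat_lit 0) (nat_lit 2388583247) (nat_lit 1216) (nat_lit 2095186839) (nat_lit 76) (nat_lit 2522399578) (nat_lit 566) (nat_lit 5) (nat_lit 582) (nat_lit 5) (nat_lit 567) (nat_lit 5) (nat_lit 409) (nat_lit 381) (nat_lit 350))))) (XT.nd (nat_lit 234) (nat_lit 2888) (nat_lit 0) (XT.nd (nat_lit 78) (nat_lit 1368) (nat_lit 0) (XT.lf (nat_lit 0) (nat_lit 2094364954) (nat_lit 1216) (nat_lit 2770693633) (nat_lit 1292) (nat_lit 2180194251) (nat_lit 550) (nat_lit 5) (nat_lit 566) (nat_lit 5) (nat_lit 567) (nat_lit 5) (nat_lit 410) (nat_lit 381) (nat_lit 349)) (XT.nd (nat_lit 78) (nat_lit 1292) (nat_lit 0) (XT.lf (nat_lit 0) (nat_lit 263895840) (nat_lit 1292) (nat_lit 733073150) (nat_lit 76) (nat_lit 6088893194) (nat_lit 549) (nat_lit 5) (nat_lit 566) (nat_lit 5) (nat_lit 550) (nat_lit 5) (nat_lit 411) (nat_lit 381) (nat_lit 348)) (XT.lf (nat_lit 0) (nat_lit 2705233964) (nat_lit 1368) (nat_lit 3573253071)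 (nat_lit 76) (nat_lit 848980308) (nat_lit 532) (nat_lit 5) (nat_lit 550) (nat_lit 5) (nat_lit 533) (nat_lit 5) (nat_lit 412) (nat_lit 381) (nat_lit 347)))) (XT.nd (nat_lit 78) (nat_lit 1520) (nat_lit 0) (XT.lf (nat_lit 0) (nat_lit 728035767) (nat_lit 1368) (nat_lit 4433273512) (nat_lit 1444) (nat_lit 2009299693) (nat_lit 514) (nat_lit 5) (nat_lit 532) (nat_lit 5) (nat_lit 533) (nat_lit 5) (nat_lit 413) (nat_lit 381) (nat_lit 346)) (XT.nd (nat_lit 78) (nat_lit 1444) (nat_lit 0) (XT.lf (nat_lit 0) (nat_lit 420096856) (nat_lit 1444) (nat_lit 2096103895) (nat_lit 76) (nat_lit 4698893085) (nat_lit 513) (nat_lit 5) (nat_lit 532) (nat_lit 5) (nat_lit 514) (nat_lit 5) (nat_lit 414) (nat_lit 381) (nat_lit 345)) (XT.lf (nat_lit 0) (nat_lit 2312489431) (nat_lit 1444) (nat_lit 524700902) (nat_lit 1520) (nat_lit 4423713439) (nat_lit 494) (nat_lit 5) (nat_lit 513) (nat_lit 5) (nat_lit 514) (nat_lit 5) (nat_lit 415) (nat_lit 381) (nat_lit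 344)))))) (XT.nd (nat_lit 390) (nat_lit 4712) (nat_lit 0) (XT.nd (nat_lit 156) (nat_lit 3344) (nat_lit 0) (XT.nd (nat_lit 78) (nat_lit 1596) (nat_lit 0) (XT.lf (nat_lit 0) (nat_lit 5278276520) (nat_lit 1520) (nat_lit 522139771) (nat_lit 76) (nat_lit 1507721455) (nat_lit 494) (nat_lit 5) (nat_lit 514) (nat_lit 5) (nat_lit 495) (nat_lit 5) (nat_lit 416) (nat_lit 381) (nat_lit 343)) (XT.lf (nat_lit 0) (nat_lit 388428973) (nat_lit 1596) (nat_lit 3359354354) (nat_lit 76) (nat_lit 3608860384) (nat_lit 473) (nat_lit 5) (nat_lit 494) (nat_lit 5) (nat_lit 474) (nat_lit 5) (nat_lit 417) (nat_lit 381) (nat_lit 342))) (XT.nd (nat_lit 78) (nat_lit 1748) (nat_lit 0) (XT.lf (nat_lit 0) (nat_lit 1167867230) (nat_lit 1596) (nat_lit 1624159552) (nat_lit 1672) (nat_lit 4614561887) (nat_lit 452) (nat_lit 5) (nat_lit 473) (nat_lit 5) (nat_lit 474) (nat_lit 5) (nat_lit 418) (nat_lit 381) (nat_lit 341)) (XT.nd (nat_lit 78) (nat_lit 1748) (nat_lit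 0) (XT.lf (nat_lit 0) (nat_lit 5223573648) (nat_lit 1672) (nat_lit 1672396839) (nat_lit 76) (nat_lit 561983765) (nat_lit 452) (nat_lit 5) (nat_lit 474) (nat_lit 5) (nat_lit 453) (nat_lit 5) (nat_lit 419) (nat_lit 381) (nat_lit 340)) (XT.lf (nat_lit 0) (nat_lit 175370884) (nat_lit 1748) (nat_lit 4540335333) (nat_lit 76) (nat_lit 2794944273) (nat_lit 429) (nat_lit 5) (nat_lit 452) (nat_lit 5) (nat_lit 430) (nat_lit 5) (nat_lit 420) (nat_lit 381) (nat_lit 339))))) (XT.nd (nat_lit 234) (nat_lit 1824) (nat_lit 0) (XT.nd (nat_lit 78) (nat_lit 1140) (nat_lit 0) (XT.lf (nat_lit 0) (nat_lit 108608341) (nat_lit 1748) (nat_lit 2461700417) (nat_lit 1824) (nat_lit 4994476473) (nat_lit 406) (nat_lit 5) (nat_lit 429) (nat_lit 5) (nat_lit 430) (nat_lit 5) (nat_lit 421) (nat_lit 381) (nat_lit 338)) (XT.nd (nat_lit 78) (nat_lit 1140) (nat_lit 0) (XT.lf (nat_lit 0) (nat_lit 4870035242) (nat_lit 1748) (nat_lit 129069545) (nat_lit 1824)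 (nat_lit 2621196493) (nat_lit 406) (nat_lit 5) (nat_lit 429) (nat_lit 5) (nat_lit 430) (nat_lit 5) (nat_lit 422) (nat_lit 381) (nat_lit 337)) (XT.lf (nat_lit 0) (nat_lit 2019516847) (nat_lit 1140) (nat_lit 5441061596) (nat_lit 1216) (nat_lit 216684624) (nat_lit 391) (nat_lit 5) (nat_lit 406) (nat_lit 5) (nat_lit 407) (nat_lit 5) (nat_lit 423) (nat_lit 381) (nat_lit 336)))) (XT.nd (nat_lit 78) (nat_lit 1748) (nat_lit 0) (XT.lf (nat_lit 0) (nat_lit 2182687239) (nat_lit 1216) (nat_lit 870951281) (nat_lit 76) (nat_lit 4681930119) (nat_lit 390) (nat_lit 5) (nat_lit 406) (nat_lit 5) (nat_lit 391) (nat_lit 5) (nat_lit 424) (nat_lit 381) (nat_lit 335)) (XT.nd (nat_lit 78) (nat_lit 836) (nat_lit 0) (XT.lf (nat_lit 0) (nat_lit 4021278242) (nat_lit 912) (nat_lit 589489679) (nat_lit 988) (nat_lit 3184587745) (nat_lit 378) (nat_lit 5) (nat_lit 390) (nat_lit 5) (nat_lit 391) (nat_lit 5) (nat_lit 425) (nat_lit 381) (nat_lit 334)) (XT.lf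 (nat_lit 0) (nat_lit 1126996509) (nat_lit 836) (nat_lit 5944185540) (nat_lit 912) (nat_lit 785497072) (nat_lit 367) (nat_lit 5) (nat_lit 378) (nat_lit 5) (nat_lit 379) (nat_lit 5) (nat_lit 426) (nat_lit 381) (nat_lit 333))))))))
noncomputable def xc96 : XT := (XT.nd (nat_lit 1638) (nat_lit 7144) (nat_lit 0) (XT.nd (nat_lit 780) (nat_lit 4864) (nat_lit 0) (XT.nd (nat_lit 390) (nat_lit 2280) (nat_lit 0) (XT.nd (nat_lit 156) (nat_lit 1748) (nat_lit 0) (XT.nd (nat_lit 78) (nat_lit 836) (nat_lit 0) (XT.lf (nat_lit 0) (nat_lit 1627521353) (nat_lit 912) (nat_lit 1798814054) (nat_lit 76) (nat_lit 4492938617) (nat_lit 366) (nat_lit 5) (nat_lit 378) (nat_lit 5) (nat_lit 367) (nat_lit 5) (nat_lit 427) (nat_lit 381) (nat_lit 332)) (XT.lf (nat_lit 0) (nat_lit 3226131808) (nat_lit 836) (nat_lit 832263540) (nat_lit 912) (nat_lit 3925034568) (nat_lit 355) (nat_lit 5) (nat_lit 366) (nat_lit 5) (nat_lit 367) (nat_lit 5) (nat_lit 428)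 (nat_lit 381) (nat_lit 331))) (XT.nd (nat_lit 78) (nat_lit 912) (nat_lit 0) (XT.lf (nat_lit 0) (nat_lit 276919116) (nat_lit 836) (nat_lit 6246374538) (nat_lit 912) (nat_lit 1525882030) (nat_lit 344) (nat_lit 5) (nat_lit 355) (nat_lit 5) (nat_lit 356) (nat_lit 5) (nat_lit 429) (nat_lit 381) (nat_lit 330)) (XT.nd (nat_lit 78) (nat_lit 836) (nat_lit 0) (XT.lf (nat_lit 0) (nat_lit 906740943) (nat_lit 912) (nat_lit 2693454209) (nat_lit 76) (nat_lit 4515984508) (nat_lit 343) (nat_lit 5) (nat_lit 355) (nat_lit 5) (nat_lit 344) (nat_lit 5) (nat_lit 430) (nat_lit 381) (nat_lit 329)) (XT.lf (nat_lit 0) (nat_lit 2467555026) (nat_lit 836) (nat_lit 876778444) (nat_lit 912) (nat_lit 4840467587) (nat_lit 332) (nat_lit 5) (nat_lit 343) (nat_lit 5) (nat_lit 344) (nat_lit 5) (nat_lit 431) (nat_lit 381) (nat_lit 328))))) (XT.nd (nat_lit 156) (nat_lit 1444) (nat_lit 0) (XT.nd (nat_lit 78) (nat_lit 836) (nat_lit 0) (XT.lf (nat_lit 0) (nat_lit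 5822409129) (nat_lit 912) (nat_lit 540726883) (nat_lit 76) (nat_lit 1891838005) (nat_lit 332) (nat_lit 5) (nat_lit 344) (nat_lit 5) (nat_lit 333) (nat_lit 5) (nat_lit 432) (nat_lit 381) (nat_lit 327)) (XT.lf (nat_lit 0) (nat_lit 21796404) (nat_lit 836) (nat_lit 3572160928) (nat_lit 76) (nat_lit 4732631106) (nat_lit 321) (nat_lit 5) (nat_lit 332) (nat_lit 5) (nat_lit 322) (nat_lit 5) (nat_lit 433) (nat_lit 381) (nat_lit 326))) (XT.nd (nat_lit 78) (nat_lit 684) (nat_lit 0) (XT.lf (nat_lit 0) (nat_lit 1728241121) (nat_lit 760) (nat_lit 741508206) (nat_lit 836) (nat_lit 5930035673) (nat_lit 311) (nat_lit 5) (nat_lit 321) (nat_lit 5) (nat_lit 322) (nat_lit 5) (nat_lit 434) (nat_lit 381) (nat_lit 325)) (XT.nd (nat_lit 78) (nat_lit 684) (nat_lit 0) (XT.lf (nat_lit 0) (nat_lit 4967488022) (nat_lit 836) (nat_lit 1347132553) (nat_lit 76) (nat_lit 2159821098) (nat_lit 311) (nat_lit 5) (nat_lit 322) (nat_lit 5) (nat_lit 312) (nat_lit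 5) (nat_lit 435) (nat_lit 381) (nat_lit 324)) (XT.lf (nat_lit 0) (nat_lit 4091334050) (nat_lit 684) (nat_lit 3418675523) (nat_lit 760) (nat_lit 1040697807) (nat_lit 302) (nat_lit 5) (nat_lit 311) (nat_lit 5) (nat_lit 312) (nat_lit 5) (nat_lit 436) (nat_lit 381) (nat_lit 323)))))) (XT.nd (nat_lit 390) (nat_lit 2584) (nat_lit 0) (XT.nd (nat_lit 156) (nat_lit 1444) (nat_lit 0) (XT.nd (nat_lit 78) (nat_lit 0) (nat_lit 0) (XT.lf (nat_lit 0) (nat_lit 990461141) (nat_lit 760) (nat_lit 444164190) (nat_lit 836) (nat_lit 7194111822) (nat_lit 291) (nat_lit 5) (nat_lit 301) (nat_lit 5) (nat_lit 302) (nat_lit 5) (nat_lit 437) (nat_lit 381) (nat_lit 322)) (XT.lf (nat_lit 0) (nat_lit 3956440036) (nat_lit 836) (nat_lit 2163726106) (nat_lit 76) (nat_lit 2587817141) (nat_lit 291) (nat_lit 5) (nat_lit 302) (nat_lit 5) (nat_lit 292) (nat_lit 5) (nat_lit 438) (nat_lit 381) (nat_lit 321))) (XT.nd (nat_lit 78) (nat_lit 760) (nat_lit 0) (XT.lf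 (nat_lit 0) (nat_lit 3421231413) (nat_lit 684) (nat_lit 3097289657) (nat_lit 760) (nat_lit 2270508181) (nat_lit 282) (nat_lit 5) (nat_lit 291) (nat_lit 5) (nat_lit 292) (nat_lit 5) (nat_lit 439) (nat_lit 381) (nat_lit 320)) (XT.nd (nat_lit 78) (nat_lit 0) (nat_lit 0) (XT.lf (nat_lit 0) (nat_lit 235900701) (nat_lit 684) (nat_lit 1844041) (nat_lit 760) (nat_lit 8634308502) (nat_lit 272) (nat_lit 5) (nat_lit 281) (nat_lit 5) (nat_lit 282) (nat_lit 5) (nat_lit 440) (nat_lit 381) (nat_lit 319)) (XT.lf (nat_lit 0) (nat_lit 2787780165) (nat_lit 760) (nat_lit 3008958558) (nat_lit 76) (nat_lit 3159269290) (nat_lit 272) (nat_lit 5) (nat_lit 282) (nat_lit 5) (nat_lit 273) (nat_lit 5) (nat_lit 441) (nat_lit 381) (nat_lit 318))))) (XT.nd (nat_lit 234) (nat_lit 1216) (nat_lit 0) (XT.nd (nat_lit 78) (nat_lit 760) (nat_lit 0) (XT.lf (nat_lit 0) (nat_lit 2725717638) (nat_lit 608) (nat_lit 2646733689) (nat_lit 684) (nat_lit 3669528489)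 (nat_lit 264) (nat_lit 5) (nat_lit 272) (nat_lit 5) (nat_lit 273) (nat_lit 5) (nat_lit 442) (nat_lit 381) (nat_lit 317)) (XT.nd (nat_lit 78) (nat_lit 760) (nat_lit 0) (XT.lf (nat_lit 0) (nat_lit 7999104031) (nat_lit 684) (nat_lit 558371571) (nat_lit 76) (nat_lit 572400120) (nat_lit 264) (nat_lit 5) (nat_lit 273) (nat_lit 5) (nat_lit 265) (nat_lit 5) (nat_lit 443) (nat_lit 381) (nat_lit 316)) (XT.lf (nat_lit 0) (nat_lit 1458803784) (nat_lit 760) (nat_lit 3902108605) (nat_lit 76) (nat_lit 3858054247) (nat_lit 254) (nat_lit 5) (nat_lit 264) (nat_lit 5) (nat_lit 255) (nat_lit 5) (nat_lit 444) (nat_lit 381) (nat_lit 315)))) (XT.nd (nat_lit 78) (nat_lit 608) (nat_lit 0) (XT.lf (nat_lit 0) (nat_lit 1985379130) (nat_lit 608) (nat_lit 2083435637) (nat_lit 684) (nat_lit 5241209238) (nat_lit 246) (nat_lit 5) (nat_lit 254) (nat_lit 5) (nat_lit 255) (nat_lit 5) (nat_lit 445) (nat_lit 381) (nat_lit 314)) (XT.nd (nat_lit 78) (nat_lit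 608) (nat_lit 0) (XT.lf (nat_lit 0) (nat_lit 6733004376) (nat_lit 684) (nat_lit 1408105004) (nat_lit 76) (nat_lit 1261763211) (nat_lit 246) (nat_lit 5) (nat_lit 255) (nat_lit 5) (nat_lit 247) (nat_lit 5) (nat_lit 446) (nat_lit 381) (nat_lit 313)) (XT.lf (nat_lit 0) (nat_lit 4633655576) (nat_lit 608) (nat_lit 4828784641) (nat_lit 684) (nat_lit 34908128) (nat_lit 238) (nat_lit 5) (nat_lit 246) (nat_lit 5) (nat_lit 247) (nat_lit 5) (nat_lit 447) (nat_lit 381) (nat_lit 312))))))) (XT.nd (nat_lit 858) (nat_lit 3116) (nat_lit 0) (XT.nd (nat_lit 390) (nat_lit 2204) (nat_lit 0) (XT.nd (nat_lit 156) (nat_lit 1216) (nat_lit 0) (XT.nd (nat_lit 78) (nat_lit 0) (nat_lit 0) (XT.lf (nat_lit 0) (nat_lit 1179749282) (nat_lit 532) (nat_lit 1423611322) (nat_lit 608) (nat_lit 6990309604) (nat_lit 230) (nat_lit 5) (nat_lit 237) (nat_lit 5) (nat_lit 238) (nat_lit 5) (nat_lit 448) (nat_lit 381) (nat_lit 311)) (XT.lf (nat_lit 0) (nat_lit 5308626570)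 (nat_lit 608) (nat_lit 2335599903) (nat_lit 76) (nat_lit 2047402337) (nat_lit 230) (nat_lit 5) (nat_lit 238) (nat_lit 5) (nat_lit 231) (nat_lit 5) (nat_lit 449) (nat_lit 381) (nat_lit 310))) (XT.nd (nat_lit 78) (nat_lit 608) (nat_lit 0) (XT.lf (nat_lit 0) (nat_lit 3865787752) (nat_lit 608) (nat_lit 4205891141) (nat_lit 684) (nat_lit 1719802797) (nat_lit 222) (nat_lit 5) (nat_lit 230) (nat_lit 5) (nat_lit 231) (nat_lit 5) (nat_lit 450) (nat_lit 381) (nat_lit 309)) (XT.nd (nat_lit 78) (nat_lit 0) (nat_lit 0) (XT.lf (nat_lit 0) (nat_lit 287108138) (nat_lit 532) (nat_lit 683413881) (nat_lit 608) (nat_lit 8922949921) (nat_lit 214) (nat_lit 5) (nat_lit 221) (nat_lit 5) (nat_lit 222) (nat_lit 5) (nat_lit 451) (nat_lit 381) (nat_lit 308)) (XT.lf (nat_lit 0) (nat_lit 3720141030) (nat_lit 608) (nat_lit 3362979012) (nat_lit 76) (nat_lit 2913592501) (nat_lit 214) (nat_lit 5) (nat_lit 222) (nat_lit 5) (nat_lit 215) (nat_lit 5) (nat_lit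 452) (nat_lit 381) (nat_lit 307))))) (XT.nd (nat_lit 234) (nat_lit 1064) (nat_lit 0) (XT.nd (nat_lit 78) (nat_lit 608) (nat_lit 0) (XT.lf (nat_lit 0) (nat_lit 3000670859) (nat_lit 532) (nat_lit 3518262354) (nat_lit 608) (nat_lit 3583209191) (nat_lit 207) (nat_lit 5) (nat_lit 214) (nat_lit 5) (nat_lit 215) (nat_lit 5) (nat_lit 453) (nat_lit 381) (nat_lit 306)) (XT.nd (nat_lit 78) (nat_lit 608) (nat_lit 0) (XT.lf (nat_lit 0) (nat_lit 9367623725) (nat_lit 608) (nat_lit 712671258) (nat_lit 76) (nat_lit 129515334) (nat_lit 207) (nat_lit 5) (nat_lit 215) (nat_lit 5) (nat_lit 208) (nat_lit 5) (nat_lit 454) (nat_lit 381) (nat_lit 305)) (XT.lf (nat_lit 0) (nat_lit 1960332579) (nat_lit 608) (nat_lit 4513913319) (nat_lit 76) (nat_lit 3844493624) (nat_lit 199) (nat_lit 5) (nat_lit 207) (nat_lit 5) (nat_lit 200) (nat_lit 5) (nat_lit 455) (nat_lit 381) (nat_lit 304)))) (XT.nd (nat_lit 78) (nat_lit 532) (nat_lit 0) (XT.lf (nat_lit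 0) (nat_lit 2014328648) (nat_lit 532) (nat_lit 2782339253) (nat_lit 608) (nat_lit 5633294669) (nat_lit 192) (nat_lit 5) (nat_lit 199) (nat_lit 5) (nat_lit 200) (nat_lit 5) (nat_lit 456) (nat_lit 381) (nat_lit 303)) (XT.nd (nat_lit 78) (nat_lit 532) (nat_lit 0) (XT.lf (nat_lit 0) (nat_lit 7697993185) (nat_lit 608) (nat_lit 1854384639) (nat_lit 76) (nat_lit 990874292) (nat_lit 192) (nat_lit 5) (nat_lit 200) (nat_lit 5) (nat_lit 193) (nat_lit 5) (nat_lit 457) (nat_lit 381) (nat_lit 302)) (XT.lf (nat_lit 0) (nat_lit 20523040) (nat_lit 532) (nat_lit 5813857641) (nat_lit 76) (nat_lit 4823994652) (nat_lit 185) (nat_lit 5) (nat_lit 192) (nat_lit 5) (nat_lit 186) (nat_lit 5) (nat_lit 458) (nat_lit 381) (nat_lit 301)))))) (XT.nd (nat_lit 390) (nat_lit 1672) (nat_lit 0) (XT.nd (nat_lit 156) (nat_lit 988) (nat_lit 0) (XT.nd (nat_lit 78) (nat_lit 0) (nat_lit 0) (XT.lf (nat_lit 0) (nat_lit 880939838) (nat_lit 456) (nat_lit 2014923108)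 (nat_lit 532) (nat_lit 7879762001) (nat_lit 179) (nat_lit 5) (nat_lit 185) (nat_lit 5) (nat_lit 186) (nat_lit 5) (nat_lit 459) (nat_lit 381) (nat_lit 300)) (XT.lf (nat_lit 0) (nat_lit 5852481505) (nat_lit 532) (nat_lit 3157374708) (nat_lit 76) (nat_lit 1884894647) (nat_lit 179) (nat_lit 5) (nat_lit 186) (nat_lit 5) (nat_lit 180) (nat_lit 5) (nat_lit 460) (nat_lit 381) (nat_lit 299))) (XT.nd (nat_lit 78) (nat_lit 532) (nat_lit 0) (XT.lf (nat_lit 0) (nat_lit 3711876337) (nat_lit 456) (nat_lit 5166630546) (nat_lit 532) (nat_lit 2137553536) (nat_lit 173) (nat_lit 5) (nat_lit 179) (nat_lit 5) (nat_lit 180) (nat_lit 5) (nat_lit 461) (nat_lit 381) (nat_lit 298)) (XT.nd (nat_lit 78) (nat_lit 456) (nat_lit 0) (XT.lf (nat_lit 0) (nat_lit 808694074) (nat_lit 532) (nat_lit 421818141) (nat_lit 76) (nat_lit 9909297929) (nat_lit 172) (nat_lit 5) (nat_lit 179) (nat_lit 5) (nat_lit 173) (nat_lit 5) (nat_lit 462) (nat_lit 381) (nat_lit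 297)) (XT.lf (nat_lit 0) (nat_lit 3820189903) (nat_lit 532) (nat_lit 4650282258) (nat_lit 76) (nat_lit 2794587449) (nat_lit 166) (nat_lit 5) (nat_lit 173) (nat_lit 5) (nat_lit 167) (nat_lit 5) (nat_lit 463) (nat_lit 381) (nat_lit 296))))) (XT.nd (nat_lit 234) (nat_lit 760) (nat_lit 0) (XT.nd (nat_lit 78) (nat_lit 532) (nat_lit 0) (XT.lf (nat_lit 0) (nat_lit 2390527895) (nat_lit 380) (nat_lit 4501577677) (nat_lit 456) (nat_lit 4500710804) (nat_lit 161) (nat_lit 5) (nat_lit 166) (nat_lit 5) (nat_lit 167) (nat_lit 5) (nat_lit 464) (nat_lit 381) (nat_lit 295)) (XT.nd (nat_lit 78) (nat_lit 532) (nat_lit 0) (XT.lf (nat_lit 0) (nat_lit 9597716588) (nat_lit 380) (nat_lit 432892347) (nat_lit 456) (nat_lit 1492422346) (nat_lit 161) (nat_lit 5) (nat_lit 166) (nat_lit 5) (nat_lit 167) (nat_lit 5) (nat_lit 465) (nat_lit 381) (nat_lit 294)) (XT.lf (nat_lit 0) (nat_lit 1588510625) (nat_lit 532) (nat_lit 6364237949) (nat_lit 76) (nat_lit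 3702240040) (nat_lit 154) (nat_lit 5) (nat_lit 161) (nat_lit 5) (nat_lit 155) (nat_lit 5) (nat_lit 466) (nat_lit 381) (nat_lit 293)))) (XT.nd (nat_lit 78) (nat_lit 380) (nat_lit 0) (XT.lf (nat_lit 0) (nat_lit 848923482) (nat_lit 380) (nat_lit 3858028632) (nat_lit 456) (nat_lit 7082523858) (nat_lit 149) (nat_lit 5) (nat_lit 154) (nat_lit 5) (nat_lit 155) (nat_lit 5) (nat_lit 467) (nat_lit 381) (nat_lit 292)) (XT.nd (nat_lit 78) (nat_lit 380) (nat_lit 0) (XT.lf (nat_lit 0) (nat_lit 7907475478) (nat_lit 456) (nat_lit 3673005487) (nat_lit 76) (nat_lit 345783386) (nat_lit 149) (nat_lit 5) (nat_lit 155) (nat_lit 5) (nat_lit 150) (nat_lit 5) (nat_lit 468) (nat_lit 381) (nat_lit 291)) (XT.lf (nat_lit 0) (nat_lit 3726478465) (nat_lit 380) (nat_lit 7470426803) (nat_lit 456) (nat_lit 868390736) (nat_lit 144) (nat_lit 5) (nat_lit 149) (nat_lit 5) (nat_lit 150) (nat_lit 5) (nat_lit 469) (nat_lit 381) (nat_lit 290))))))))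
noncomputable def xc97 : XT := (XT.nd (nat_lit 1716) (nat_lit 2128) (nat_lit 0) (XT.nd (nat_lit 858) (nat_lit 2280) (nat_lit 0) (XT.nd (nat_lit 390) (nat_lit 1140) (nat_lit 0) (XT.nd (nat_lit 156) (nat_lit 836) (nat_lit 0) (XT.nd (nat_lit 78) (nat_lit 380) (nat_lit 0) (XT.lf (nat_lit 0) (nat_lit 2314304546) (nat_lit 456) (nat_lit 935093530) (nat_lit 76) (nat_lit 8957410030) (nat_lit 143) (nat_lit 5) (nat_lit 149) (nat_lit 5) (nat_lit 144) (nat_lit 5) (nat_lit 470) (nat_lit 381) (nat_lit 289)) (XT.lf (nat_lit 0) (nat_lit 5575115831) (nat_lit 456) (nat_lit 5695543187) (nat_lit 76) (nat_lit 1079859948) (nat_lit 138) (nat_lit 5) (nat_lit 144) (nat_lit 5) (nat_lit 139) (nat_lit 5) (nat_lit 471) (nat_lit 381) (nat_lit 288))) (XT.nd (nat_lit 78) (nat_lit 456) (nat_lit 0) (XT.lf (nat_lit 0) (nat_lit 1879351202) (nat_lit 380) (nat_lit 7037715297) (nat_lit 456) (nat_lit 3579724093) (nat_lit 133) (nat_lit 5) (nat_lit 138) (nat_lit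 5) (nat_lit 139) (nat_lit 5) (nat_lit 472) (nat_lit 381) (nat_lit 287)) (XT.nd (nat_lit 78) (nat_lit 456) (nat_lit 0) (XT.lf (nat_lit 0) (nat_lit 9646907299) (nat_lit 380) (nat_lit 2693293253) (nat_lit 456) (nat_lit 305505124) (nat_lit 133) (nat_lit 5) (nat_lit 138) (nat_lit 5) (nat_lit 139) (nat_lit 5) (nat_lit 473) (nat_lit 381) (nat_lit 286)) (XT.lf (nat_lit 0) (nat_lit 3013410697) (nat_lit 456) (nat_lit 8029054314) (nat_lit 76) (nat_lit 1754364644) (nat_lit 127) (nat_lit 5) (nat_lit 133) (nat_lit 5) (nat_lit 128) (nat_lit 5) (nat_lit 474) (nat_lit 381) (nat_lit 285))))) (XT.nd (nat_lit 234) (nat_lit 380) (nat_lit 0) (XT.nd (nat_lit 78) (nat_lit 760) (nat_lit 0) (XT.lf (nat_lit 0) (nat_lit 6409297472) (nat_lit 456) (nat_lit 276046809) (nat_lit 76) (nat_lit 6265302408) (nat_lit 127) (nat_lit 5) (nat_lit 133) (nat_lit 5) (nat_lit 128) (nat_lit 5) (nat_lit 475) (nat_lit 381) (nat_lit 284)) (XT.nd (nat_lit 78) (nat_lit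 380) (nat_lit 0) (XT.lf (nat_lit 0) (nat_lit 7697871637) (nat_lit 380) (nat_lit 2202255489) (nat_lit 456) (nat_lit 3206876974) (nat_lit 122) (nat_lit 5) (nat_lit 127) (nat_lit 5) (nat_lit 128) (nat_lit 5) (nat_lit 476) (nat_lit 381) (nat_lit 283)) (XT.lf (nat_lit 0) (nat_lit 202816031) (nat_lit 380) (nat_lit 10716247444) (nat_lit 76) (nat_lit 2347182731) (nat_lit 117) (nat_lit 5) (nat_lit 122) (nat_lit 5) (nat_lit 118) (nat_lit 5) (nat_lit 477) (nat_lit 381) (nat_lit 282)))) (XT.nd (nat_lit 78) (nat_lit 380) (nat_lit 0) (XT.lf (nat_lit 0) (nat_lit 3666182108) (nat_lit 380) (nat_lit 2757706805) (nat_lit 76) (nat_lit 7003796184) (nat_lit 117) (nat_lit 5) (nat_lit 122) (nat_lit 5) (nat_lit 118) (nat_lit 5) (nat_lit 478) (nat_lit 381) (nat_lit 281)) (XT.nd (nat_lit 78) (nat_lit 0) (nat_lit 0) (XT.lf (nat_lit 0) (nat_lit 5396136747) (nat_lit 380) (nat_lit 1815416185) (nat_lit 456) (nat_lit 6380549280) (nat_lit 112) (nat_lit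 5) (nat_lit 117) (nat_lit 5) (nat_lit 118) (nat_lit 5) (nat_lit 479) (nat_lit 381) (nat_lit 280)) (XT.lf (nat_lit 0) (nat_lit 10843028076) (nat_lit 456) (nat_lit 62631368) (nat_lit 76) (nat_lit 2853848399) (nat_lit 112) (nat_lit 5) (nat_lit 118) (nat_lit 5) (nat_lit 113) (nat_lit 5) (nat_lit 480) (nat_lit 381) (nat_lit 279)))))) (XT.nd (nat_lit 390) (nat_lit 1216) (nat_lit 0) (XT.nd (nat_lit 156) (nat_lit 380) (nat_lit 0) (XT.nd (nat_lit 78) (nat_lit 304) (nat_lit 0) (XT.lf (nat_lit 0) (nat_lit 653225802) (nat_lit 380) (nat_lit 5637624139) (nat_lit 76) (nat_lit 7638446594) (nat_lit 107) (nat_lit 5) (nat_lit 112) (nat_lit 5) (nat_lit 108) (nat_lit 5) (nat_lit 481) (nat_lit 381) (nat_lit 278)) (XT.lf (nat_lit 0) (nat_lit 2693281568) (nat_lit 304) (nat_lit 1558268591) (nat_lit 380) (nat_lit 9850623632) (nat_lit 103) (nat_lit 5) (nat_lit 107) (nat_lit 5) (nat_lit 108) (nat_lit 5) (nat_lit 482) (nat_lit 381) (nat_lit 277)))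 (XT.nd (nat_lit 78) (nat_lit 380) (nat_lit 0) (XT.lf (nat_lit 0) (nat_lit 7959601013) (nat_lit 380) (nat_lit 3066291997) (nat_lit 76) (nat_lit 3251864179) (nat_lit 103) (nat_lit 5) (nat_lit 108) (nat_lit 5) (nat_lit 104) (nat_lit 5) (nat_lit 483) (nat_lit 381) (nat_lit 276)) (XT.nd (nat_lit 78) (nat_lit 76) (nat_lit 0) (XT.lf (nat_lit 0) (nat_lit 5470975678) (nat_lit 304) (nat_lit 6295554304) (nat_lit 380) (nat_lit 2689831656) (nat_lit 99) (nat_lit 5) (nat_lit 103) (nat_lit 5) (nat_lit 104) (nat_lit 5) (nat_lit 484) (nat_lit 381) (nat_lit 275)) (XT.lf (nat_lit 0) (nat_lit 997443236) (nat_lit 380) (nat_lit 457954405) (nat_lit 76) (nat_lit 13183019942) (nat_lit 98) (nat_lit 5) (nat_lit 103) (nat_lit 5) (nat_lit 99) (nat_lit 5) (nat_lit 485) (nat_lit 381) (nat_lit 274))))) (XT.nd (nat_lit 234) (nat_lit 608) (nat_lit 0) (XT.nd (nat_lit 78) (nat_lit 304) (nat_lit 0) (XT.lf (nat_lit 0) (nat_lit 4778700332) (nat_lit 380) (nat_lit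 6548073921) (nat_lit 76) (nat_lit 3495863239) (nat_lit 94) (nat_lit 5) (nat_lit 99) (nat_lit 5) (nat_lit 95) (nat_lit 5) (nat_lit 486) (nat_lit 381) (nat_lit 273)) (XT.nd (nat_lit 78) (nat_lit 0) (nat_lit 0) (XT.lf (nat_lit 0) (nat_lit 2163034006) (nat_lit 304) (nat_lit 6478780713) (nat_lit 380) (nat_lit 6368605875) (nat_lit 90) (nat_lit 5) (nat_lit 94) (nat_lit 5) (nat_lit 95) (nat_lit 5) (nat_lit 487) (nat_lit 381) (nat_lit 272)) (XT.lf (nat_lit 0) (nat_lit 11104207860) (nat_lit 304) (nat_lit 1501570089) (nat_lit 380) (nat_lit 2595713053) (nat_lit 90) (nat_lit 5) (nat_lit 94) (nat_lit 5) (nat_lit 95) (nat_lit 5) (nat_lit 488) (nat_lit 381) (nat_lit 271)))) (XT.nd (nat_lit 78) (nat_lit 228) (nat_lit 0) (XT.lf (nat_lit 0) (nat_lit 1271006732) (nat_lit 380) (nat_lit 10568623205) (nat_lit 76) (nat_lit 3555897510) (nat_lit 85) (nat_lit 5) (nat_lit 90) (nat_lit 5) (nat_lit 86) (nat_lit 5) (nat_lit 489) (nat_lit 381) (nat_lit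 270)) (XT.nd (nat_lit 78) (nat_lit 228) (nat_lit 0) (XT.lf (nat_lit 0) (nat_lit 5197970609) (nat_lit 380) (nat_lit 1667744486) (nat_lit 76) (nat_lit 8727036226) (nat_lit 85) (nat_lit 5) (nat_lit 90) (nat_lit 5) (nat_lit 86) (nat_lit 5) (nat_lit 490) (nat_lit 381) (nat_lit 269)) (XT.lf (nat_lit 0) (nat_lit 7477208428) (nat_lit 228) (nat_lit 1755216858) (nat_lit 304) (nat_lit 6560918471) (nat_lit 82) (nat_lit 5) (nat_lit 85) (nat_lit 5) (nat_lit 86) (nat_lit 5) (nat_lit 491) (nat_lit 381) (nat_lit 268))))))) (XT.nd (nat_lit 858) (nat_lit 456) (nat_lit 0) (XT.nd (nat_lit 390) (nat_lit 836) (nat_lit 0) (XT.nd (nat_lit 156) (nat_lit 456) (nat_lit 0) (XT.nd (nat_lit 78) (nat_lit 76) (nat_lit 0) (XT.lf (nat_lit 0) (nat_lit 785615183) (nat_lit 304) (nat_lit 12581270417) (nat_lit 380) (nat_lit 2630679167) (nat_lit 78) (nat_lit 5) (nat_lit 82) (nat_lit 5) (nat_lit 83) (nat_lit 5) (nat_lit 492) (nat_lit 381) (nat_lit 267)) (XT.lf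 (nat_lit 0) (nat_lit 1408435428) (nat_lit 380) (nat_lit 6075726448) (nat_lit 76) (nat_lit 8720565390) (nat_lit 77) (nat_lit 5) (nat_lit 82) (nat_lit 5) (nat_lit 78) (nat_lit 5) (nat_lit 493) (nat_lit 381) (nat_lit 266))) (XT.nd (nat_lit 78) (nat_lit 228) (nat_lit 0) (XT.lf (nat_lit 0) (nat_lit 3236721196) (nat_lit 228) (nat_lit 2258361855) (nat_lit 304) (nat_lit 10920565557) (nat_lit 74) (nat_lit 5) (nat_lit 77) (nat_lit 5) (nat_lit 78) (nat_lit 5) (nat_lit 494) (nat_lit 381) (nat_lit 265)) (XT.nd (nat_lit 78) (nat_lit 228) (nat_lit 0) (XT.lf (nat_lit 0) (nat_lit 9705467760) (nat_lit 304) (nat_lit 3864033476) (nat_lit 76) (nat_lit 3060449881) (nat_lit 74) (nat_lit 5) (nat_lit 78) (nat_lit 5) (nat_lit 75) (nat_lit 5) (nat_lit 495) (nat_lit 381) (nat_lit 264)) (XT.lf (nat_lit 0) (nat_lit 5665505226) (nat_lit 228) (nat_lit 8367685033) (nat_lit 304) (nat_lit 2814689580) (nat_lit 71) (nat_lit 5) (nat_lit 74) (nat_lit 5) (nat_lit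 75) (nat_lit 5) (nat_lit 496) (nat_lit 381) (nat_lit 263))))) (XT.nd (nat_lit 234) (nat_lit 304) (nat_lit 0) (XT.nd (nat_lit 78) (nat_lit 456) (nat_lit 0) (XT.lf (nat_lit 0) (nat_lit 1366767910) (nat_lit 304) (nat_lit 1671796599) (nat_lit 76) (nat_lit 14031275814) (nat_lit 70) (nat_lit 5) (nat_lit 74) (nat_lit 5) (nat_lit 71) (nat_lit 5) (nat_lit 497) (nat_lit 381) (nat_lit 262)) (XT.nd (nat_lit 78) (nat_lit 228) (nat_lit 0) (XT.lf (nat_lit 0) (nat_lit 5644450124) (nat_lit 304) (nat_lit 9225175879) (nat_lit 76) (nat_lit 2425238834) (nat_lit 67) (nat_lit 5) (nat_lit 71) (nat_lit 5) (nat_lit 68) (nat_lit 5) (nat_lit 498) (nat_lit 381) (nat_lit 261)) (XT.lf (nat_lit 0) (nat_lit 459811700) (nat_lit 228) (nat_lit 9564151131) (nat_lit 304) (nat_lit 7500104029) (nat_lit 64) (nat_lit 5) (nat_lit 67) (nat_lit 5) (nat_lit 68) (nat_lit 5) (nat_lit 499) (nat_lit 381) (nat_lit 260)))) (XT.nd (nat_lit 78) (nat_lit 304) (nat_lit 0)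 (XT.lf (nat_lit 0) (nat_lit 10433227544) (nat_lit 228) (nat_lit 4101778122) (nat_lit 304) (nat_lit 3221970967) (nat_lit 64) (nat_lit 5) (nat_lit 67) (nat_lit 5) (nat_lit 68) (nat_lit 5) (nat_lit 500) (nat_lit 381) (nat_lit 259)) (XT.nd (nat_lit 78) (nat_lit 0) (nat_lit 0) (XT.lf (nat_lit 0) (nat_lit 1135578598) (nat_lit 304) (nat_lit 15395640533) (nat_lit 76) (nat_lit 1463003066) (nat_lit 60) (nat_lit 5) (nat_lit 64) (nat_lit 5) (nat_lit 61) (nat_lit 5) (nat_lit 501) (nat_lit 381) (nat_lit 258)) (XT.lf (nat_lit 0) (nat_lit 5596155646) (nat_lit 304) (nat_lit 5495464848) (nat_lit 76) (nat_lit 7142988223) (nat_lit 60) (nat_lit 5) (nat_lit 64) (nat_lit 5) (nat_lit 61) (nat_lit 5) (nat_lit 502) (nat_lit 381) (nat_lit 257)))))) (XT.nd (nat_lit 50076) (nat_lit 0) (nat_lit 47804) (XT.nd (nat_lit 156) (nat_lit 228) (nat_lit 0) (XT.nd (nat_lit 78) (nat_lit 0) (nat_lit 0) (XT.lf (nat_lit 0) (nat_lit 4634037289) (nat_lit 228) (nat_lit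 5524682990) (nat_lit 304) (nat_lit 8320829482) (nat_lit 57) (nat_lit 5) (nat_lit 60) (nat_lit 5) (nat_lit 61) (nat_lit 5) (nat_lit 503) (nat_lit 381) (nat_lit 256)) (XT.lf (nat_lit 0) (nat_lit 14833414837) (nat_lit 304) (nat_lit 3718798065) (nat_lit 76) (nat_lit 176761422) (nat_lit 57) (nat_lit 5) (nat_lit 61) (nat_lit 5) (nat_lit 58) (nat_lit 5) (nat_lit 504) (nat_lit 381) (nat_lit 255))) (XT.nd (nat_lit 49764) (nat_lit 0) (nat_lit 48488) (XT.lf (nat_lit 0) (nat_lit 673264942) (nat_lit 228) (nat_lit 12354669821) (nat_lit 76) (nat_lit 5954111378) (nat_lit 54) (nat_lit 5) (nat_lit 57) (nat_lit 5) (nat_lit 55) (nat_lit 5) (nat_lit 505) (nat_lit 381) (nat_lit 254)) (XT.nd (nat_lit 78) (nat_lit 228) (nat_lit 0) (XT.lf (nat_lit 0) (nat_lit 2827791271) (nat_lit 228) (nat_lit 198626964) (nat_lit 228) (nat_lit 198626964) (nat_lit 695) (nat_lit 3) (nat_lit 698) (nat_lit 3) (nat_lit 698) (nat_lit 5) (nat_lit 382) (nat_lit 382)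 (nat_lit 376)) (XT.lf (nat_lit 0) (nat_lit 2126660148) (nat_lit 228) (nat_lit 3711446523) (nat_lit 304) (nat_lit 616353901) (nat_lit 692) (nat_lit 5) (nat_lit 695) (nat_lit 3) (nat_lit 696) (nat_lit 5) (nat_lit 383) (nat_lit 382) (nat_lit 375))))) (XT.nd (nat_lit 234) (nat_lit 380) (nat_lit 0) (XT.nd (nat_lit 78) (nat_lit 304) (nat_lit 0) (XT.lf (nat_lit 0) (nat_lit 5021968215) (nat_lit 228) (nat_lit 552794517) (nat_lit 304) (nat_lit 885572151) (nat_lit 692) (nat_lit 5) (nat_lit 695) (nat_lit 3) (nat_lit 696) (nat_lit 5) (nat_lit 384) (nat_lit 382) (nat_lit 374)) (XT.nd (nat_lit 78) (nat_lit 0) (nat_lit 0) (XT.lf (nat_lit 0) (nat_lit 1431097726) (nat_lit 304) (nat_lit 3812298679) (nat_lit 380) (nat_lit 1223940700) (nat_lit 688) (nat_lit 5) (nat_lit 692) (nat_lit 5) (nat_lit 693) (nat_lit 5) (nat_lit 385) (nat_lit 382) (nat_lit 373)) (XT.lf (nat_lit 0) (nat_lit 4268282202) (nat_lit 304) (nat_lit 589542823) (nat_lit 380)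 (nat_lit 1617918436) (nat_lit 688) (nat_lit 5) (nat_lit 692) (nat_lit 5) (nat_lit 693) (nat_lit 5) (nat_lit 386) (nat_lit 382) (nat_lit 372)))) (XT.nd (nat_lit 78) (nat_lit 0) (nat_lit 0) (XT.lf (nat_lit 0) (nat_lit 613373176) (nat_lit 380) (nat_lit 3795828971) (nat_lit 456) (nat_lit 2076184607) (nat_lit 683) (nat_lit 5) (nat_lit 688) (nat_lit 5) (nat_lit 689) (nat_lit 5) (nat_lit 387) (nat_lit 382) (nat_lit 371)) (XT.nd (nat_lit 78) (nat_lit 0) (nat_lit 0) (XT.lf (nat_lit 0) (nat_lit 3393023508) (nat_lit 380) (nat_lit 507621694) (nat_lit 456) (nat_lit 2595690139) (nat_lit 683) (nat_lit 5) (nat_lit 688) (nat_lit 5) (nat_lit 689) (nat_lit 5) (nat_lit 388) (nat_lit 382) (nat_lit 370)) (XT.lf (nat_lit 76) (nat_lit 2844375233) (nat_lit 0) (nat_lit 3331719126) (nat_lit 456) (nat_lit 332494535) (nat_lit 684) (nat_lit 5) (nat_lit 683) (nat_lit 5) (nat_lit 689) (nat_lit 5) (nat_lit 389) (nat_lit 382) (nat_lit 369))))))))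
noncomputable def xc98 : XT := (XT.nd (nat_lit 1716) (nat_lit 17328) (nat_lit 0) (XT.nd (nat_lit 858) (nat_lit 6460) (nat_lit 0) (XT.nd (nat_lit 390) (nat_lit 2204) (nat_lit 0) (XT.nd (nat_lit 156) (nat_lit 1064) (nat_lit 0) (XT.nd (nat_lit 78) (nat_lit 0) (nat_lit 0) (XT.lf (nat_lit 0) (nat_lit 2394452448) (nat_lit 456) (nat_lit 306931772) (nat_lit 532) (nat_lit 3820751988) (nat_lit 677) (nat_lit 5) (nat_lit 683) (nat_lit 5) (nat_lit 684) (nat_lit 5) (nat_lit 390) (nat_lit 382) (nat_lit 368)) (XT.lf (nat_lit 76) (nat_lit 3116965664) (nat_lit 0) (nat_lit 2006125127) (nat_lit 532) (nat_lit 1413827722) (nat_lit 678) (nat_lit 5) (nat_lit 677) (nat_lit 5) (nat_lit 684) (nat_lit 5) (nat_lit 391) (nat_lit 382) (nat_lit 367))) (XT.nd (nat_lit 78) (nat_lit 532) (nat_lit 0) (XT.lf (nat_lit 76) (nat_lit 13017981) (nat_lit 0) (nat_lit 1257653116) (nat_lit 608) (nat_lit 5282505490) (nat_lit 671) (nat_lit 5) (nat_lit 670) (nat_lit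 5) (nat_lit 678) (nat_lit 5) (nat_lit 392) (nat_lit 382) (nat_lit 366)) (XT.nd (nat_lit 78) (nat_lit 532) (nat_lit 0) (XT.lf (nat_lit 76) (nat_lit 3511889131) (nat_lit 0) (nat_lit 433991796) (nat_lit 608) (nat_lit 2624610720) (nat_lit 671) (nat_lit 5) (nat_lit 670) (nat_lit 5) (nat_lit 678) (nat_lit 5) (nat_lit 393) (nat_lit 382) (nat_lit 365)) (XT.lf (nat_lit 0) (nat_lit 25002986) (nat_lit 608) (nat_lit 6134006330) (nat_lit 76) (nat_lit 430374887) (nat_lit 663) (nat_lit 5) (nat_lit 671) (nat_lit 5) (nat_lit 664) (nat_lit 5) (nat_lit 394) (nat_lit 382) (nat_lit 364))))) (XT.nd (nat_lit 234) (nat_lit 1520) (nat_lit 0) (XT.nd (nat_lit 78) (nat_lit 684) (nat_lit 0) (XT.lf (nat_lit 0) (nat_lit 2651126926) (nat_lit 608) (nat_lit 2588546837) (nat_lit 76) (nat_lit 1369496243) (nat_lit 663) (nat_lit 5) (nat_lit 671) (nat_lit 5) (nat_lit 664) (nat_lit 5) (nat_lit 395) (nat_lit 382) (nat_lit 363)) (XT.nd (nat_lit 78) (nat_lit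 76) (nat_lit 0) (XT.lf (nat_lit 0) (nat_lit 1000741668) (nat_lit 608) (nat_lit 4271895596) (nat_lit 684) (nat_lit 1357891884) (nat_lit 655) (nat_lit 5) (nat_lit 663) (nat_lit 5) (nat_lit 664) (nat_lit 5) (nat_lit 396) (nat_lit 382) (nat_lit 362)) (XT.lf (nat_lit 0) (nat_lit 1231679599) (nat_lit 684) (nat_lit 2004394539) (nat_lit 76) (nat_lit 3417018984) (nat_lit 654) (nat_lit 5) (nat_lit 663) (nat_lit 5) (nat_lit 655) (nat_lit 5) (nat_lit 397) (nat_lit 382) (nat_lit 361)))) (XT.nd (nat_lit 78) (nat_lit 836) (nat_lit 0) (XT.lf (nat_lit 0) (nat_lit 1666355796) (nat_lit 684) (nat_lit 2137483961) (nat_lit 760) (nat_lit 2873142405) (nat_lit 645) (nat_lit 5) (nat_lit 654) (nat_lit 5) (nat_lit 655) (nat_lit 5) (nat_lit 398) (nat_lit 382) (nat_lit 360)) (XT.nd (nat_lit 78) (nat_lit 836) (nat_lit 0) (XT.lf (nat_lit 0) (nat_lit 5397942113) (nat_lit 684) (nat_lit 982049678) (nat_lit 760) (nat_lit 322338463) (nat_lit 645) (nat_lit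 5) (nat_lit 654) (nat_lit 5) (nat_lit 655) (nat_lit 5) (nat_lit 399) (nat_lit 382) (nat_lit 359)) (XT.lf (nat_lit 0) (nat_lit 2206992818) (nat_lit 836) (nat_lit 4276861814) (nat_lit 76) (nat_lit 244917526) (nat_lit 634) (nat_lit 5) (nat_lit 645) (nat_lit 5) (nat_lit 635) (nat_lit 5) (nat_lit 400) (nat_lit 382) (nat_lit 358)))))) (XT.nd (nat_lit 390) (nat_lit 3572) (nat_lit 0) (XT.nd (nat_lit 156) (nat_lit 1976) (nat_lit 0) (XT.nd (nat_lit 78) (nat_lit 912) (nat_lit 0) (XT.lf (nat_lit 0) (nat_lit 4738829193) (nat_lit 836) (nat_lit 504128403) (nat_lit 76) (nat_lit 1513648386) (nat_lit 634) (nat_lit 5) (nat_lit 645) (nat_lit 5) (nat_lit 635) (nat_lit 5) (nat_lit 401) (nat_lit 382) (nat_lit 357)) (XT.lf (nat_lit 0) (nat_lit 492814041) (nat_lit 912) (nat_lit 3441103219) (nat_lit 76) (nat_lit 2851767946) (nat_lit 622) (nat_lit 5) (nat_lit 634) (nat_lit 5) (nat_lit 623) (nat_lit 5) (nat_lit 402) (nat_lit 382) (nat_lit 356)))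 (XT.nd (nat_lit 78) (nat_lit 1064) (nat_lit 0) (XT.lf (nat_lit 0) (nat_lit 413249182) (nat_lit 912) (nat_lit 2562008175) (nat_lit 988) (nat_lit 3840877365) (nat_lit 610) (nat_lit 5) (nat_lit 622) (nat_lit 5) (nat_lit 623) (nat_lit 5) (nat_lit 403) (nat_lit 382) (nat_lit 355)) (XT.nd (nat_lit 78) (nat_lit 1064) (nat_lit 0) (XT.lf (nat_lit 0) (nat_lit 4350993529) (nat_lit 912) (nat_lit 1122857264) (nat_lit 988) (nat_lit 1374040481) (nat_lit 610) (nat_lit 5) (nat_lit 622) (nat_lit 5) (nat_lit 623) (nat_lit 5) (nat_lit 404) (nat_lit 382) (nat_lit 354)) (XT.lf (nat_lit 0) (nat_lit 1083202062) (nat_lit 1064) (nat_lit 5424937545) (nat_lit 76) (nat_lit 372901056) (nat_lit 596) (nat_lit 5) (nat_lit 610) (nat_lit 5) (nat_lit 597) (nat_lit 5) (nat_lit 405) (nat_lit 382) (nat_lit 353))))) (XT.nd (nat_lit 234) (nat_lit 2432) (nat_lit 0) (XT.nd (nat_lit 78) (nat_lit 1140) (nat_lit 0) (XT.lf (nat_lit 0) (nat_lit 3540568371) (nat_lit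 1064) (nat_lit 1450432541) (nat_lit 76) (nat_lit 1924309385) (nat_lit 596) (nat_lit 5) (nat_lit 610) (nat_lit 5) (nat_lit 597) (nat_lit 5) (nat_lit 406) (nat_lit 382) (nat_lit 352)) (XT.nd (nat_lit 78) (nat_lit 76) (nat_lit 0) (XT.lf (nat_lit 0) (nat_lit 2597156098) (nat_lit 1064) (nat_lit 3412923187) (nat_lit 1140) (nat_lit 940952026) (nat_lit 582) (nat_lit 5) (nat_lit 596) (nat_lit 5) (nat_lit 597) (nat_lit 5) (nat_lit 407) (nat_lit 382) (nat_lit 351)) (XT.lf (nat_lit 0) (nat_lit 1477647496) (nat_lit 1140) (nat_lit 292925159) (nat_lit 76) (nat_lit 5217591824) (nat_lit 581) (nat_lit 5) (nat_lit 596) (nat_lit 5) (nat_lit 582) (nat_lit 5) (nat_lit 408) (nat_lit 382) (nat_lit 350)))) (XT.nd (nat_lit 78) (nat_lit 1292) (nat_lit 0) (XT.lf (nat_lit 0) (nat_lit 3853415769) (nat_lit 1140) (nat_lit 51236003) (nat_lit 1216) (nat_lit 3121835939) (nat_lit 566) (nat_lit 5) (nat_lit 581) (nat_lit 5) (nat_lit 582) (nat_lit 5) (nat_lit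 409) (nat_lit 382) (nat_lit 349)) (XT.nd (nat_lit 78) (nat_lit 76) (nat_lit 0) (XT.lf (nat_lit 0) (nat_lit 981923750) (nat_lit 1216) (nat_lit 5366126368) (nat_lit 1292) (nat_lit 718194169) (nat_lit 550) (nat_lit 5) (nat_lit 566) (nat_lit 5) (nat_lit 567) (nat_lit 5) (nat_lit 410) (nat_lit 382) (nat_lit 348)) (XT.lf (nat_lit 0) (nat_lit 1681391350) (nat_lit 1292) (nat_lit 1896511446) (nat_lit 76) (nat_lit 3529278995) (nat_lit 549) (nat_lit 5) (nat_lit 566) (nat_lit 5) (nat_lit 550) (nat_lit 5) (nat_lit 411) (nat_lit 382) (nat_lit 347))))))) (XT.nd (nat_lit 858) (nat_lit 6460) (nat_lit 0) (XT.nd (nat_lit 390) (nat_lit 6688) (nat_lit 0) (XT.nd (nat_lit 156) (nat_lit 2888) (nat_lit 0) (XT.nd (nat_lit 78) (nat_lit 0) (nat_lit 0) (XT.lf (nat_lit 0) (nat_lit 2360633185) (nat_lit 1292) (nat_lit 1723890873) (nat_lit 1368) (nat_lit 3065038176) (nat_lit 532) (nat_lit 5) (nat_lit 549) (nat_lit 5) (nat_lit 550) (nat_lit 5) (nat_lit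 412) (nat_lit 382) (nat_lit 346)) (XT.lf (nat_lit 0) (nat_lit 6500232748) (nat_lit 1368) (nat_lit 506504407) (nat_lit 76) (nat_lit 186784998) (nat_lit 532) (nat_lit 5) (nat_lit 550) (nat_lit 5) (nat_lit 533) (nat_lit 5) (nat_lit 413) (nat_lit 382) (nat_lit 345))) (XT.nd (nat_lit 78) (nat_lit 1444) (nat_lit 0) (XT.lf (nat_lit 0) (nat_lit 1691222878) (nat_lit 1444) (nat_lit 3389584082) (nat_lit 76) (nat_lit 2157592192) (nat_lit 513) (nat_lit 5) (nat_lit 532) (nat_lit 5) (nat_lit 514) (nat_lit 5) (nat_lit 414) (nat_lit 382) (nat_lit 344)) (XT.nd (nat_lit 78) (nat_lit 0) (nat_lit 0) (XT.lf (nat_lit 0) (nat_lit 981249135) (nat_lit 1444) (nat_lit 3094629589) (nat_lit 1520) (nat_lit 3208989440) (nat_lit 494) (nat_lit 5) (nat_lit 513) (nat_lit 5) (nat_lit 514) (nat_lit 5) (nat_lit 415) (nat_lit 382) (nat_lit 343)) (XT.lf (nat_lit 0) (nat_lit 5444708189) (nat_lit 1444) (nat_lit 1038878786) (nat_lit 1520) (nat_lit 849192845) (nat_lit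 494) (nat_lit 5) (nat_lit 513) (nat_lit 5) (nat_lit 514) (nat_lit 5) (nat_lit 416) (nat_lit 382) (nat_lit 342))))) (XT.nd (nat_lit 234) (nat_lit 3496) (nat_lit 0) (XT.nd (nat_lit 78) (nat_lit 1596) (nat_lit 0) (XT.lf (nat_lit 0) (nat_lit 1514547736) (nat_lit 1596) (nat_lit 4789972432) (nat_lit 76) (nat_lit 1077403332) (nat_lit 473) (nat_lit 5) (nat_lit 494) (nat_lit 5) (nat_lit 474) (nat_lit 5) (nat_lit 417) (nat_lit 382) (nat_lit 341)) (XT.nd (nat_lit 78) (nat_lit 1596) (nat_lit 0) (XT.lf (nat_lit 0) (nat_lit 3887745385) (nat_lit 1596) (nat_lit 298509616) (nat_lit 76) (nat_lit 3246230998) (nat_lit 473) (nat_lit 5) (nat_lit 494) (nat_lit 5) (nat_lit 474) (nat_lit 5) (nat_lit 418) (nat_lit 382) (nat_lit 340)) (XT.lf (nat_lit 0) (nat_lit 4298677243) (nat_lit 1596) (nat_lit 1992451829) (nat_lit 1672) (nat_lit 1193295126) (nat_lit 452) (nat_lit 5) (nat_lit 473) (nat_lit 5) (nat_lit 474) (nat_lit 5) (nat_lit 419) (nat_lit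 382) (nat_lit 339)))) (XT.nd (nat_lit 78) (nat_lit 1748) (nat_lit 0) (XT.lf (nat_lit 0) (nat_lit 1157507004) (nat_lit 1748) (nat_lit 6115173560) (nat_lit 76) (nat_lit 265219579) (nat_lit 429) (nat_lit 5) (nat_lit 452) (nat_lit 5) (nat_lit 430) (nat_lit 5) (nat_lit 420) (nat_lit 382) (nat_lit 338)) (XT.nd (nat_lit 78) (nat_lit 1748) (nat_lit 0) (XT.lf (nat_lit 0) (nat_lit 3529840867) (nat_lit 1748) (nat_lit 1488193764) (nat_lit 76) (nat_lit 2574461146) (nat_lit 429) (nat_lit 5) (nat_lit 452) (nat_lit 5) (nat_lit 430) (nat_lit 5) (nat_lit 421) (nat_lit 382) (nat_lit 337)) (XT.lf (nat_lit 0) (nat_lit 3233051493) (nat_lit 1748) (nat_lit 2694192712) (nat_lit 1824) (nat_lit 1721404114) (nat_lit 406) (nat_lit 5) (nat_lit 429) (nat_lit 5) (nat_lit 430) (nat_lit 5) (nat_lit 422) (nat_lit 382) (nat_lit 336)))))) (XT.nd (nat_lit 390) (nat_lit 3420) (nat_lit 0) (XT.nd (nat_lit 156) (nat_lit 1824) (nat_lit 0) (XT.nd (nat_lit 78)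 (nat_lit 0) (nat_lit 0) (XT.lf (nat_lit 0) (nat_lit 322000948) (nat_lit 1140) (nat_lit 304990055) (nat_lit 1216) (nat_lit 7079481857) (nat_lit 390) (nat_lit 5) (nat_lit 405) (nat_lit 5) (nat_lit 406) (nat_lit 5) (nat_lit 423) (nat_lit 382) (nat_lit 335)) (XT.lf (nat_lit 0) (nat_lit 3000506788) (nat_lit 1216) (nat_lit 2617700717) (nat_lit 76) (nat_lit 2147011216) (nat_lit 390) (nat_lit 5) (nat_lit 406) (nat_lit 5) (nat_lit 391) (nat_lit 5) (nat_lit 424) (nat_lit 382) (nat_lit 334))) (XT.nd (nat_lit 78) (nat_lit 912) (nat_lit 0) (XT.lf (nat_lit 0) (nat_lit 2230853851) (nat_lit 912) (nat_lit 3165487404) (nat_lit 988) (nat_lit 2429317399) (nat_lit 378) (nat_lit 5) (nat_lit 390) (nat_lit 5) (nat_lit 391) (nat_lit 5) (nat_lit 425) (nat_lit 382) (nat_lit 333)) (XT.nd (nat_lit 78) (nat_lit 912) (nat_lit 0) (XT.lf (nat_lit 0) (nat_lit 7171341191) (nat_lit 912) (nat_lit 645215435) (nat_lit 988) (nat_lit 71237283) (nat_lit 378)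 (nat_lit 5) (nat_lit 390) (nat_lit 5) (nat_lit 391) (nat_lit 5) (nat_lit 426) (nat_lit 382) (nat_lit 332)) (XT.lf (nat_lit 0) (nat_lit 2303260296) (nat_lit 912) (nat_lit 3704029200) (nat_lit 76) (nat_lit 1943597152) (nat_lit 366) (nat_lit 5) (nat_lit 378) (nat_lit 5) (nat_lit 367) (nat_lit 5) (nat_lit 427) (nat_lit 382) (nat_lit 331))))) (XT.nd (nat_lit 234) (nat_lit 1672) (nat_lit 0) (XT.nd (nat_lit 78) (nat_lit 912) (nat_lit 0) (XT.lf (nat_lit 0) (nat_lit 1275114488) (nat_lit 836) (nat_lit 3426529648) (nat_lit 912) (nat_lit 3314055581) (nat_lit 355) (nat_lit 5) (nat_lit 366) (nat_lit 5) (nat_lit 367) (nat_lit 5) (nat_lit 428) (nat_lit 382) (nat_lit 330)) (XT.nd (nat_lit 78) (nat_lit 912) (nat_lit 0) (XT.lf (nat_lit 0) (nat_lit 6363486034) (nat_lit 836) (nat_lit 769845206) (nat_lit 912) (nat_lit 948785697) (nat_lit 355) (nat_lit 5) (nat_lit 366) (nat_lit 5) (nat_lit 367) (nat_lit 5) (nat_lit 429) (nat_lit 382) (nat_lit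 329)) (XT.lf (nat_lit 0) (nat_lit 1440437334) (nat_lit 912) (nat_lit 4764292126) (nat_lit 76) (nat_lit 1945040089) (nat_lit 343) (nat_lit 5) (nat_lit 355) (nat_lit 5) (nat_lit 344) (nat_lit 5) (nat_lit 430) (nat_lit 382) (nat_lit 328)))) (XT.nd (nat_lit 78) (nat_lit 836) (nat_lit 0) (XT.lf (nat_lit 0) (nat_lit 348725197) (nat_lit 836) (nat_lit 3496477999) (nat_lit 912) (nat_lit 4373851096) (nat_lit 332) (nat_lit 5) (nat_lit 343) (nat_lit 5) (nat_lit 344) (nat_lit 5) (nat_lit 431) (nat_lit 382) (nat_lit 327)) (XT.nd (nat_lit 78) (nat_lit 836) (nat_lit 0) (XT.lf (nat_lit 0) (nat_lit 5588042372) (nat_lit 836) (nat_lit 703963972) (nat_lit 912) (nat_lit 1997853036) (nat_lit 332) (nat_lit 5) (nat_lit 343) (nat_lit 5) (nat_lit 344) (nat_lit 5) (nat_lit 432) (nat_lit 382) (nat_lit 326)) (XT.lf (nat_lit 0) (nat_lit 413198001) (nat_lit 836) (nat_lit 5815864267) (nat_lit 76) (nat_lit 2133113683) (nat_lit 321) (nat_lit 5) (nat_lit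 332) (nat_lit 5) (nat_lit 322) (nat_lit 5) (nat_lit 433) (nat_lit 382) (nat_lit 325))))))))
noncomputable def xc99 : XT := (XT.nd (nat_lit 1716) (nat_lit 5852) (nat_lit 0) (XT.nd (nat_lit 858) (nat_lit 4180) (nat_lit 0) (XT.nd (nat_lit 390) (nat_lit 2812) (nat_lit 0) (XT.nd (nat_lit 156) (nat_lit 1520) (nat_lit 0) (XT.nd (nat_lit 78) (nat_lit 760) (nat_lit 0) (XT.lf (nat_lit 0) (nat_lit 2831570748) (nat_lit 836) (nat_lit 558291218) (nat_lit 76) (nat_lit 5046108445) (nat_lit 321) (nat_lit 5) (nat_lit 332) (nat_lit 5) (nat_lit 322) (nat_lit 5) (nat_lit 434) (nat_lit 382) (nat_lit 324)) (XT.lf (nat_lit 0) (nat_lit 4827820761) (nat_lit 760) (nat_lit 465477010) (nat_lit 836) (nat_lit 3218055715) (nat_lit 311) (nat_lit 5) (nat_lit 321) (nat_lit 5) (nat_lit 322) (nat_lit 5) (nat_lit 435) (nat_lit 382) (nat_lit 323))) (XT.nd (nat_lit 78) (nat_lit 836) (nat_lit 0) (XT.lf (nat_lit 0) (nat_lit 1706694247) (nat_lit 684) (nat_lit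 6092834254) (nat_lit 760) (nat_lit 788822558) (nat_lit 302) (nat_lit 5) (nat_lit 311) (nat_lit 5) (nat_lit 312) (nat_lit 5) (nat_lit 436) (nat_lit 382) (nat_lit 322)) (XT.nd (nat_lit 78) (nat_lit 760) (nat_lit 0) (XT.lf (nat_lit 0) (nat_lit 1659078131) (nat_lit 760) (nat_lit 1466543986) (nat_lit 76) (nat_lit 5541214203) (nat_lit 301) (nat_lit 5) (nat_lit 311) (nat_lit 5) (nat_lit 302) (nat_lit 5) (nat_lit 437) (nat_lit 382) (nat_lit 321)) (XT.lf (nat_lit 0) (nat_lit 4065164052) (nat_lit 760) (nat_lit 71584238) (nat_lit 836) (nat_lit 4610222752) (nat_lit 291) (nat_lit 5) (nat_lit 301) (nat_lit 5) (nat_lit 302) (nat_lit 5) (nat_lit 438) (nat_lit 382) (nat_lit 320))))) (XT.nd (nat_lit 234) (nat_lit 1368) (nat_lit 0) (XT.nd (nat_lit 78) (nat_lit 760) (nat_lit 0) (XT.lf (nat_lit 0) (nat_lit 849988127) (nat_lit 684) (nat_lit 5814537793) (nat_lit 760) (nat_lit 2164182746) (nat_lit 282) (nat_lit 5) (nat_lit 291) (nat_lit 5)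 (nat_lit 292) (nat_lit 5) (nat_lit 439) (nat_lit 382) (nat_lit 319)) (XT.nd (nat_lit 78) (nat_lit 684) (nat_lit 0) (XT.lf (nat_lit 0) (nat_lit 324089870) (nat_lit 760) (nat_lit 2398812131) (nat_lit 76) (nat_lit 6189193939) (nat_lit 281) (nat_lit 5) (nat_lit 291) (nat_lit 5) (nat_lit 282) (nat_lit 5) (nat_lit 440) (nat_lit 382) (nat_lit 318)) (XT.lf (nat_lit 0) (nat_lit 2823703718) (nat_lit 760) (nat_lit 5718334141) (nat_lit 76) (nat_lit 455026549) (nat_lit 272) (nat_lit 5) (nat_lit 282) (nat_lit 5) (nat_lit 273) (nat_lit 5) (nat_lit 441) (nat_lit 382) (nat_lit 317)))) (XT.nd (nat_lit 78) (nat_lit 1368) (nat_lit 0) (XT.lf (nat_lit 0) (nat_lit 5374139978) (nat_lit 760) (nat_lit 39207101) (nat_lit 76) (nat_lit 3670378992) (nat_lit 272) (nat_lit 5) (nat_lit 282) (nat_lit 5) (nat_lit 273) (nat_lit 5) (nat_lit 442) (nat_lit 382) (nat_lit 316)) (XT.nd (nat_lit 78) (nat_lit 760) (nat_lit 0) (XT.lf (nat_lit 0) (nat_lit 5790228865)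 (nat_lit 608) (nat_lit 2190198904) (nat_lit 684) (nat_lit 1191606568) (nat_lit 264) (nat_lit 5) (nat_lit 272) (nat_lit 5) (nat_lit 273) (nat_lit 5) (nat_lit 443) (nat_lit 382) (nat_lit 315)) (XT.lf (nat_lit 0) (nat_lit 1349565483) (nat_lit 760) (nat_lit 6810927038) (nat_lit 76) (nat_lit 1101629519) (nat_lit 254) (nat_lit 5) (nat_lit 264) (nat_lit 5) (nat_lit 255) (nat_lit 5) (nat_lit 444) (nat_lit 382) (nat_lit 314)))))) (XT.nd (nat_lit 390) (nat_lit 2356) (nat_lit 0) (XT.nd (nat_lit 156) (nat_lit 1216) (nat_lit 0) (XT.nd (nat_lit 78) (nat_lit 608) (nat_lit 0) (XT.lf (nat_lit 0) (nat_lit 3930722518) (nat_lit 760) (nat_lit 969155044) (nat_lit 76) (nat_lit 4453883697) (nat_lit 254) (nat_lit 5) (nat_lit 264) (nat_lit 5) (nat_lit 255) (nat_lit 5) (nat_lit 445) (nat_lit 382) (nat_lit 313)) (XT.lf (nat_lit 0) (nat_lit 5016273263) (nat_lit 608) (nat_lit 1548184311) (nat_lit 684) (nat_lit 2882766038) (nat_lit 246) (nat_lit 5)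 (nat_lit 254) (nat_lit 5) (nat_lit 255) (nat_lit 5) (nat_lit 446) (nat_lit 382) (nat_lit 312))) (XT.nd (nat_lit 78) (nat_lit 608) (nat_lit 0) (XT.lf (nat_lit 0) (nat_lit 1561110748) (nat_lit 608) (nat_lit 7687289734) (nat_lit 684) (nat_lit 294213326) (nat_lit 238) (nat_lit 5) (nat_lit 246) (nat_lit 5) (nat_lit 247) (nat_lit 5) (nat_lit 447) (nat_lit 382) (nat_lit 311)) (XT.nd (nat_lit 78) (nat_lit 532) (nat_lit 0) (XT.lf (nat_lit 0) (nat_lit 2324376867) (nat_lit 684) (nat_lit 1971385731) (nat_lit 76) (nat_lit 5343672740) (nat_lit 237) (nat_lit 5) (nat_lit 246) (nat_lit 5) (nat_lit 238) (nat_lit 5) (nat_lit 448) (nat_lit 382) (nat_lit 310)) (XT.lf (nat_lit 0) (nat_lit 4173027207) (nat_lit 532) (nat_lit 814932914) (nat_lit 608) (nat_lit 4750271794) (nat_lit 230) (nat_lit 5) (nat_lit 237) (nat_lit 5) (nat_lit 238) (nat_lit 5) (nat_lit 449) (nat_lit 382) (nat_lit 309))))) (XT.nd (nat_lit 234) (nat_lit 1140) (nat_lit 0) (XT.nd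 (nat_lit 78) (nat_lit 608) (nat_lit 0) (XT.lf (nat_lit 0) (nat_lit 579064826) (nat_lit 608) (nat_lit 7130346015) (nat_lit 684) (nat_lit 2129510220) (nat_lit 222) (nat_lit 5) (nat_lit 230) (nat_lit 5) (nat_lit 231) (nat_lit 5) (nat_lit 450) (nat_lit 382) (nat_lit 308)) (XT.nd (nat_lit 78) (nat_lit 532) (nat_lit 0) (XT.lf (nat_lit 0) (nat_lit 549419873) (nat_lit 684) (nat_lit 3067537925) (nat_lit 76) (nat_lit 6324346148) (nat_lit 221) (nat_lit 5) (nat_lit 230) (nat_lit 5) (nat_lit 222) (nat_lit 5) (nat_lit 451) (nat_lit 382) (nat_lit 307)) (XT.lf (nat_lit 0) (nat_lit 3238622346) (nat_lit 532) (nat_lit 6330227) (nat_lit 608) (nat_lit 6800677693) (nat_lit 214) (nat_lit 5) (nat_lit 221) (nat_lit 5) (nat_lit 222) (nat_lit 5) (nat_lit 452) (nat_lit 382) (nat_lit 306)))) (XT.nd (nat_lit 78) (nat_lit 1140) (nat_lit 0) (XT.lf (nat_lit 0) (nat_lit 6009744767) (nat_lit 608) (nat_lit 501808849) (nat_lit 76) (nat_lit 3640190424) (nat_lit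 214) (nat_lit 5) (nat_lit 222) (nat_lit 5) (nat_lit 215) (nat_lit 5) (nat_lit 453) (nat_lit 382) (nat_lit 305)) (XT.nd (nat_lit 78) (nat_lit 608) (nat_lit 0) (XT.lf (nat_lit 0) (nat_lit 5969848034) (nat_lit 532) (nat_lit 2870117668) (nat_lit 608) (nat_lit 1419819478) (nat_lit 207) (nat_lit 5) (nat_lit 214) (nat_lit 5) (nat_lit 215) (nat_lit 5) (nat_lit 454) (nat_lit 382) (nat_lit 304)) (XT.lf (nat_lit 0) (nat_lit 1333662953) (nat_lit 608) (nat_lit 8185961905) (nat_lit 76) (nat_lit 850300473) (nat_lit 199) (nat_lit 5) (nat_lit 207) (nat_lit 5) (nat_lit 200) (nat_lit 5) (nat_lit 455) (nat_lit 382) (nat_lit 303))))))) (XT.nd (nat_lit 858) (nat_lit 2432) (nat_lit 0) (XT.nd (nat_lit 390) (nat_lit 1900) (nat_lit 0) (XT.nd (nat_lit 156) (nat_lit 988) (nat_lit 0) (XT.nd (nat_lit 78) (nat_lit 532) (nat_lit 0) (XT.lf (nat_lit 0) (nat_lit 4142912771) (nat_lit 608) (nat_lit 1703097143) (nat_lit 76) (nat_lit 4635683789) (nat_lit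 199) (nat_lit 5) (nat_lit 207) (nat_lit 5) (nat_lit 200) (nat_lit 5) (nat_lit 456) (nat_lit 382) (nat_lit 302)) (XT.lf (nat_lit 0) (nat_lit 4936623515) (nat_lit 532) (nat_lit 2076036262) (nat_lit 608) (nat_lit 3582958581) (nat_lit 192) (nat_lit 5) (nat_lit 199) (nat_lit 5) (nat_lit 200) (nat_lit 5) (nat_lit 457) (nat_lit 382) (nat_lit 301))) (XT.nd (nat_lit 78) (nat_lit 532) (nat_lit 0) (XT.lf (nat_lit 0) (nat_lit 984185113) (nat_lit 456) (nat_lit 8957496742) (nat_lit 532) (nat_lit 770109067) (nat_lit 186) (nat_lit 5) (nat_lit 192) (nat_lit 5) (nat_lit 193) (nat_lit 5) (nat_lit 458) (nat_lit 382) (nat_lit 300)) (XT.nd (nat_lit 78) (nat_lit 456) (nat_lit 0) (XT.lf (nat_lit 0) (nat_lit 2096050230) (nat_lit 532) (nat_lit 3058130769) (nat_lit 76) (nat_lit 5675348491) (nat_lit 185) (nat_lit 5) (nat_lit 192) (nat_lit 5) (nat_lit 186) (nat_lit 5) (nat_lit 459) (nat_lit 382) (nat_lit 299)) (XT.lf (nat_lit 0) (nat_lit 3751667897)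 (nat_lit 456) (nat_lit 1255064752) (nat_lit 532) (nat_lit 5942844753) (nat_lit 179) (nat_lit 5) (nat_lit 185) (nat_lit 5) (nat_lit 186) (nat_lit 5) (nat_lit 460) (nat_lit 382) (nat_lit 298))))) (XT.nd (nat_lit 234) (nat_lit 912) (nat_lit 0) (XT.nd (nat_lit 78) (nat_lit 988) (nat_lit 0) (XT.lf (nat_lit 0) (nat_lit 7987322893) (nat_lit 532) (nat_lit 387704402) (nat_lit 76) (nat_lit 2696771577) (nat_lit 179) (nat_lit 5) (nat_lit 186) (nat_lit 5) (nat_lit 180) (nat_lit 5) (nat_lit 461) (nat_lit 382) (nat_lit 297)) (XT.nd (nat_lit 78) (nat_lit 532) (nat_lit 0) (XT.lf (nat_lit 0) (nat_lit 6600294705) (nat_lit 456) (nat_lit 4452281058) (nat_lit 532) (nat_lit 143394349) (nat_lit 173) (nat_lit 5) (nat_lit 179) (nat_lit 5) (nat_lit 180) (nat_lit 5) (nat_lit 462) (nat_lit 382) (nat_lit 296)) (XT.lf (nat_lit 0) (nat_lit 2386701817) (nat_lit 456) (nat_lit 424442398) (nat_lit 532) (nat_lit 8511273765) (nat_lit 166) (nat_lit 5) (nat_lit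 172) (nat_lit 5) (nat_lit 173) (nat_lit 5) (nat_lit 463) (nat_lit 382) (nat_lit 295)))) (XT.nd (nat_lit 78) (nat_lit 912) (nat_lit 0) (XT.lf (nat_lit 0) (nat_lit 5852004440) (nat_lit 532) (nat_lit 1941810368) (nat_lit 76) (nat_lit 3656984013) (nat_lit 166) (nat_lit 5) (nat_lit 173) (nat_lit 5) (nat_lit 167) (nat_lit 5) (nat_lit 464) (nat_lit 382) (nat_lit 294)) (XT.nd (nat_lit 78) (nat_lit 532) (nat_lit 0) (XT.lf (nat_lit 0) (nat_lit 5221385215) (nat_lit 380) (nat_lit 3743701206) (nat_lit 456) (nat_lit 2616438639) (nat_lit 161) (nat_lit 5) (nat_lit 166) (nat_lit 5) (nat_lit 167) (nat_lit 5) (nat_lit 465) (nat_lit 382) (nat_lit 293)) (XT.lf (nat_lit 0) (nat_lit 415732053) (nat_lit 532) (nat_lit 10906546831) (nat_lit 76) (nat_lit 392622340) (nat_lit 154) (nat_lit 5) (nat_lit 161) (nat_lit 5) (nat_lit 155) (nat_lit 5) (nat_lit 466) (nat_lit 382) (nat_lit 292)))))) (XT.nd (nat_lit 390) (nat_lit 1216) (nat_lit 0) (XT.nd (nat_lit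 156) (nat_lit 836) (nat_lit 0) (XT.nd (nat_lit 78) (nat_lit 380) (nat_lit 0) (XT.lf (nat_lit 0) (nat_lit 3516271294) (nat_lit 532) (nat_lit 3722614259) (nat_lit 76) (nat_lit 4610863815) (nat_lit 154) (nat_lit 5) (nat_lit 161) (nat_lit 5) (nat_lit 155) (nat_lit 5) (nat_lit 467) (nat_lit 382) (nat_lit 291)) (XT.lf (nat_lit 0) (nat_lit 3616593898) (nat_lit 380) (nat_lit 3061170748) (nat_lit 456) (nat_lit 5309556386) (nat_lit 149) (nat_lit 5) (nat_lit 154) (nat_lit 5) (nat_lit 155) (nat_lit 5) (nat_lit 468) (nat_lit 382) (nat_lit 290))) (XT.nd (nat_lit 78) (nat_lit 836) (nat_lit 0) (XT.lf (nat_lit 0) (nat_lit 9911064397) (nat_lit 456) (nat_lit 1018071775) (nat_lit 76) (nat_lit 1198341747) (nat_lit 149) (nat_lit 5) (nat_lit 155) (nat_lit 5) (nat_lit 150) (nat_lit 5) (nat_lit 469) (nat_lit 382) (nat_lit 289)) (XT.nd (nat_lit 78) (nat_lit 380) (nat_lit 0) (XT.lf (nat_lit 0) (nat_lit 965198862) (nat_lit 456) (nat_lit 5764567943)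 (nat_lit 76) (nat_lit 5539776042) (nat_lit 143) (nat_lit 5) (nat_lit 149) (nat_lit 5) (nat_lit 144) (nat_lit 5) (nat_lit 470) (nat_lit 382) (nat_lit 288)) (XT.lf (nat_lit 0) (nat_lit 1750808945) (nat_lit 380) (nat_lit 2424424136) (nat_lit 456) (nat_lit 8239038648) (nat_lit 138) (nat_lit 5) (nat_lit 143) (nat_lit 5) (nat_lit 144) (nat_lit 5) (nat_lit 471) (nat_lit 382) (nat_lit 287))))) (XT.nd (nat_lit 234) (nat_lit 760) (nat_lit 0) (XT.nd (nat_lit 78) (nat_lit 456) (nat_lit 0) (XT.lf (nat_lit 0) (nat_lit 7477536964) (nat_lit 456) (nat_lit 3115083417) (nat_lit 76) (nat_lit 1968718341) (nat_lit 138) (nat_lit 5) (nat_lit 144) (nat_lit 5) (nat_lit 139) (nat_lit 5) (nat_lit 472) (nat_lit 382) (nat_lit 286)) (XT.nd (nat_lit 78) (nat_lit 76) (nat_lit 0) (XT.lf (nat_lit 0) (nat_lit 4593582738) (nat_lit 380) (nat_lit 6275006405) (nat_lit 456) (nat_lit 1842308688) (nat_lit 133) (nat_lit 5) (nat_lit 138) (nat_lit 5) (nat_lit 139)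 (nat_lit 5) (nat_lit 473) (nat_lit 382) (nat_lit 285)) (XT.lf (nat_lit 0) (nat_lit 1442750483) (nat_lit 456) (nat_lit 408978787) (nat_lit 76) (nat_lit 11011574632) (nat_lit 132) (nat_lit 5) (nat_lit 138) (nat_lit 5) (nat_lit 133) (nat_lit 5) (nat_lit 474) (nat_lit 382) (nat_lit 284)))) (XT.nd (nat_lit 78) (nat_lit 380) (nat_lit 0) (XT.lf (nat_lit 0) (nat_lit 4812542499) (nat_lit 456) (nat_lit 5530103923) (nat_lit 76) (nat_lit 2674998655) (nat_lit 127) (nat_lit 5) (nat_lit 133) (nat_lit 5) (nat_lit 128) (nat_lit 5) (nat_lit 475) (nat_lit 382) (nat_lit 283)) (XT.nd (nat_lit 78) (nat_lit 0) (nat_lit 0) (XT.lf (nat_lit 0) (nat_lit 2356724926) (nat_lit 380) (nat_lit 5900828140) (nat_lit 456) (nat_lit 4917368008) (nat_lit 122) (nat_lit 5) (nat_lit 127) (nat_lit 5) (nat_lit 128) (nat_lit 5) (nat_lit 476) (nat_lit 382) (nat_lit 282)) (XT.lf (nat_lit 0) (nat_lit 10442059030) (nat_lit 380) (nat_lit 1344229525) (nat_lit 456) (nat_lit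 1548761904) (nat_lit 122) (nat_lit 5) (nat_lit 127) (nat_lit 5) (nat_lit 128) (nat_lit 5) (nat_lit 477) (nat_lit 382) (nat_lit 281))))))))
noncomputable def xc100 : XT := (XT.nd (nat_lit 1638) (nat_lit 760) (nat_lit 0) (XT.nd (nat_lit 780) (nat_lit 2052) (nat_lit 0) (XT.nd (nat_lit 390) (nat_lit 988) (nat_lit 0) (XT.nd (nat_lit 156) (nat_lit 760) (nat_lit 0) (XT.nd (nat_lit 78) (nat_lit 0) (nat_lit 0) (XT.lf (nat_lit 0) (nat_lit 1895991398) (nat_lit 380) (nat_lit 8306567098) (nat_lit 76) (nat_lit 3294912544) (nat_lit 117) (nat_lit 5) (nat_lit 122) (nat_lit 5) (nat_lit 118) (nat_lit 5) (nat_lit 478) (nat_lit 382) (nat_lit 280)) (XT.lf (nat_lit 0) (nat_lit 5395504815) (nat_lit 380) (nat_lit 240306731) (nat_lit 76) (nat_lit 8026995793) (nat_lit 117) (nat_lit 5) (nat_lit 122) (nat_lit 5) (nat_lit 118) (nat_lit 5) (nat_lit 479) (nat_lit 382) (nat_lit 279))) (XT.nd (nat_lit 78) (nat_lit 380) (nat_lit 0) (XT.lf (nat_lit 0)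 (nat_lit 8059688993) (nat_lit 380) (nat_lit 936216334) (nat_lit 456) (nat_lit 4834931130) (nat_lit 112) (nat_lit 5) (nat_lit 117) (nat_lit 5) (nat_lit 118) (nat_lit 5) (nat_lit 480) (nat_lit 382) (nat_lit 278)) (XT.nd (nat_lit 78) (nat_lit 76) (nat_lit 0) (XT.lf (nat_lit 0) (nat_lit 2501068182) (nat_lit 304) (nat_lit 10188848679) (nat_lit 380) (nat_lit 1311881191) (nat_lit 108) (nat_lit 5) (nat_lit 112) (nat_lit 5) (nat_lit 113) (nat_lit 5) (nat_lit 481) (nat_lit 382) (nat_lit 277)) (XT.lf (nat_lit 0) (nat_lit 2275644870) (nat_lit 380) (nat_lit 3213210052) (nat_lit 76) (nat_lit 8686552694) (nat_lit 107) (nat_lit 5) (nat_lit 112) (nat_lit 5) (nat_lit 108) (nat_lit 5) (nat_lit 482) (nat_lit 382) (nat_lit 276))))) (XT.nd (nat_lit 156) (nat_lit 684) (nat_lit 0) (XT.nd (nat_lit 78) (nat_lit 0) (nat_lit 0) (XT.lf (nat_lit 0) (nat_lit 5267621884) (nat_lit 304) (nat_lit 663122452) (nat_lit 380) (nat_lit 8421307551) (nat_lit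 103) (nat_lit 5) (nat_lit 107) (nat_lit 5) (nat_lit 108) (nat_lit 5) (nat_lit 483) (nat_lit 382) (nat_lit 275)) (XT.lf (nat_lit 0) (nat_lit 9687594408) (nat_lit 380) (nat_lit 630925841) (nat_lit 76) (nat_lit 4213139471) (nat_lit 103) (nat_lit 5) (nat_lit 108) (nat_lit 5) (nat_lit 104) (nat_lit 5) (nat_lit 484) (nat_lit 382) (nat_lit 274))) (XT.nd (nat_lit 78) (nat_lit 380) (nat_lit 0) (XT.lf (nat_lit 0) (nat_lit 8060661582) (nat_lit 304) (nat_lit 5495343098) (nat_lit 380) (nat_lit 1158130147) (nat_lit 99) (nat_lit 5) (nat_lit 103) (nat_lit 5) (nat_lit 104) (nat_lit 5) (nat_lit 485) (nat_lit 382) (nat_lit 273)) (XT.nd (nat_lit 78) (nat_lit 0) (nat_lit 0) (XT.lf (nat_lit 0) (nat_lit 2011549047) (nat_lit 304) (nat_lit 552926941) (nat_lit 380) (nat_lit 12335507637) (nat_lit 94) (nat_lit 5) (nat_lit 98) (nat_lit 5) (nat_lit 99) (nat_lit 5) (nat_lit 486) (nat_lit 382) (nat_lit 272)) (XT.lf (nat_lit 0) (nat_lit 6399985889)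 (nat_lit 380) (nat_lit 4218187136) (nat_lit 76) (nat_lit 4470147463) (nat_lit 94) (nat_lit 5) (nat_lit 99) (nat_lit 5) (nat_lit 95) (nat_lit 5) (nat_lit 487) (nat_lit 382) (nat_lit 271)))))) (XT.nd (nat_lit 390) (nat_lit 1140) (nat_lit 0) (XT.nd (nat_lit 156) (nat_lit 608) (nat_lit 0) (XT.nd (nat_lit 78) (nat_lit 0) (nat_lit 0) (XT.lf (nat_lit 0) (nat_lit 4650953158) (nat_lit 304) (nat_lit 5675365838) (nat_lit 380) (nat_lit 4953826140) (nat_lit 90) (nat_lit 5) (nat_lit 94) (nat_lit 5) (nat_lit 95) (nat_lit 5) (nat_lit 488) (nat_lit 382) (nat_lit 270)) (XT.lf (nat_lit 0) (nat_lit 13723016009) (nat_lit 304) (nat_lit 616904932) (nat_lit 380) (nat_lit 1135713733) (nat_lit 90) (nat_lit 5) (nat_lit 94) (nat_lit 5) (nat_lit 95) (nat_lit 5) (nat_lit 489) (nat_lit 382) (nat_lit 269))) (XT.nd (nat_lit 78) (nat_lit 228) (nat_lit 0) (XT.lf (nat_lit 0) (nat_lit 2780832401) (nat_lit 380) (nat_lit 8355286785) (nat_lit 76) (nat_lit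 4537394636) (nat_lit 85) (nat_lit 5) (nat_lit 90) (nat_lit 5) (nat_lit 86) (nat_lit 5) (nat_lit 490) (nat_lit 382) (nat_lit 268)) (XT.nd (nat_lit 78) (nat_lit 0) (nat_lit 0) (XT.lf (nat_lit 0) (nat_lit 685050760) (nat_lit 228) (nat_lit 6076626607) (nat_lit 304) (nat_lit 9113502598) (nat_lit 82) (nat_lit 5) (nat_lit 85) (nat_lit 5) (nat_lit 86) (nat_lit 5) (nat_lit 491) (nat_lit 382) (nat_lit 267)) (XT.lf (nat_lit 0) (nat_lit 9988278923) (nat_lit 228) (nat_lit 870891723) (nat_lit 304) (nat_lit 5220971154) (nat_lit 82) (nat_lit 5) (nat_lit 85) (nat_lit 5) (nat_lit 86) (nat_lit 5) (nat_lit 492) (nat_lit 382) (nat_lit 266))))) (XT.nd (nat_lit 234) (nat_lit 532) (nat_lit 0) (XT.nd (nat_lit 78) (nat_lit 304) (nat_lit 0) (XT.lf (nat_lit 0) (nat_lit 3170264773) (nat_lit 304) (nat_lit 11899012192) (nat_lit 380) (nat_lit 1219315577) (nat_lit 78) (nat_lit 5) (nat_lit 82) (nat_lit 5) (nat_lit 83) (nat_lit 5) (nat_lit 493) (nat_lit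 382) (nat_lit 265)) (XT.nd (nat_lit 78) (nat_lit 228) (nat_lit 0) (XT.lf (nat_lit 0) (nat_lit 2853052028) (nat_lit 380) (nat_lit 3855715786) (nat_lit 76) (nat_lit 9791511231) (nat_lit 77) (nat_lit 5) (nat_lit 82) (nat_lit 5) (nat_lit 78) (nat_lit 5) (nat_lit 494) (nat_lit 382) (nat_lit 264)) (XT.lf (nat_lit 0) (nat_lit 5627576040) (nat_lit 228) (nat_lit 1381185791) (nat_lit 304) (nat_lit 9706914590) (nat_lit 74) (nat_lit 5) (nat_lit 77) (nat_lit 5) (nat_lit 78) (nat_lit 5) (nat_lit 495) (nat_lit 382) (nat_lit 263)))) (XT.nd (nat_lit 78) (nat_lit 532) (nat_lit 0) (XT.lf (nat_lit 0) (nat_lit 11281700237) (nat_lit 304) (nat_lit 1638944425) (nat_lit 76) (nat_lit 4014057508) (nat_lit 74) (nat_lit 5) (nat_lit 78) (nat_lit 5) (nat_lit 75) (nat_lit 5) (nat_lit 496) (nat_lit 382) (nat_lit 262)) (XT.nd (nat_lit 78) (nat_lit 304) (nat_lit 0) (XT.lf (nat_lit 0) (nat_lit 8066037882) (nat_lit 228) (nat_lit 7617689017) (nat_lit 304)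 (nat_lit 1473511604) (nat_lit 71) (nat_lit 5) (nat_lit 74) (nat_lit 5) (nat_lit 75) (nat_lit 5) (nat_lit 497) (nat_lit 382) (nat_lit 261)) (XT.lf (nat_lit 0) (nat_lit 562684600) (nat_lit 228) (nat_lit 2187173631) (nat_lit 304) (nat_lit 14634070146) (nat_lit 67) (nat_lit 5) (nat_lit 70) (nat_lit 5) (nat_lit 71) (nat_lit 5) (nat_lit 498) (nat_lit 382) (nat_lit 260))))))) (XT.nd (nat_lit 50622) (nat_lit 0) (nat_lit 45296) (XT.nd (nat_lit 390) (nat_lit 228) (nat_lit 0) (XT.nd (nat_lit 156) (nat_lit 304) (nat_lit 0) (XT.nd (nat_lit 78) (nat_lit 228) (nat_lit 0) (XT.lf (nat_lit 0) (nat_lit 7103388397) (nat_lit 304) (nat_lit 7142899746) (nat_lit 76) (nat_lit 3367363149) (nat_lit 67) (nat_lit 5) (nat_lit 71) (nat_lit 5) (nat_lit 68) (nat_lit 5) (nat_lit 499) (nat_lit 382) (nat_lit 259)) (XT.lf (nat_lit 0) (nat_lit 2720874560) (nat_lit 228) (nat_lit 8837844287) (nat_lit 304) (nat_lit 6288957682) (nat_lit 64) (nat_lit 5) (nat_lit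 67) (nat_lit 5) (nat_lit 68) (nat_lit 5) (nat_lit 500) (nat_lit 382) (nat_lit 258))) (XT.nd (nat_lit 78) (nat_lit 304) (nat_lit 0) (XT.lf (nat_lit 0) (nat_lit 12849604474) (nat_lit 228) (nat_lit 3284215775) (nat_lit 304) (nat_lit 1951951143) (nat_lit 64) (nat_lit 5) (nat_lit 67) (nat_lit 5) (nat_lit 68) (nat_lit 5) (nat_lit 501) (nat_lit 382) (nat_lit 257)) (XT.nd (nat_lit 78) (nat_lit 0) (nat_lit 0) (XT.lf (nat_lit 0) (nat_lit 2469656285) (nat_lit 304) (nat_lit 13472393533) (nat_lit 76) (nat_lit 2385654104) (nat_lit 60) (nat_lit 5) (nat_lit 64) (nat_lit 5) (nat_lit 61) (nat_lit 5) (nat_lit 502) (nat_lit 382) (nat_lit 256)) (XT.lf (nat_lit 0) (nat_lit 6993731812) (nat_lit 304) (nat_lit 3417962566) (nat_lit 76) (nat_lit 8161721493) (nat_lit 60) (nat_lit 5) (nat_lit 64) (nat_lit 5) (nat_lit 61) (nat_lit 5) (nat_lit 503) (nat_lit 382) (nat_lit 255))))) (XT.nd (nat_lit 49998) (nat_lit 0) (nat_lit 47500) (XT.nd (nat_lit 78)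 (nat_lit 0) (nat_lit 0) (XT.lf (nat_lit 0) (nat_lit 6899738748) (nat_lit 228) (nat_lit 4736708799) (nat_lit 304) (nat_lit 7187033565) (nat_lit 57) (nat_lit 5) (nat_lit 60) (nat_lit 5) (nat_lit 61) (nat_lit 5) (nat_lit 504) (nat_lit 382) (nat_lit 254)) (XT.nd (nat_lit 49842) (nat_lit 0) (nat_lit 48260) (XT.lf (nat_lit 0) (nat_lit 16385363831) (nat_lit 304) (nat_lit 1643324116) (nat_lit 76) (nat_lit 1049594968) (nat_lit 57) (nat_lit 5) (nat_lit 61) (nat_lit 5) (nat_lit 58) (nat_lit 5) (nat_lit 505) (nat_lit 382) (nat_lit 253)) (XT.lf (nat_lit 0) (nat_lit 1249144232) (nat_lit 0) (nat_lit 1249144232) (nat_lit 228) (nat_lit 731495731) (nat_lit 692) (nat_lit 5) (nat_lit 692) (nat_lit 3) (nat_lit 695) (nat_lit 3) (nat_lit 383) (nat_lit 383) (nat_lit 374)))) (XT.nd (nat_lit 78) (nat_lit 380) (nat_lit 0) (XT.lf (nat_lit 0) (nat_lit 1368510906) (nat_lit 380) (nat_lit 829212679) (nat_lit 380) (nat_lit 4268341610) (nat_lit 687)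 (nat_lit 3) (nat_lit 692) (nat_lit 3) (nat_lit 692) (nat_lit 5) (nat_lit 384) (nat_lit 383) (nat_lit 373)) (XT.nd (nat_lit 78) (nat_lit 380) (nat_lit 0) (XT.lf (nat_lit 76) (nat_lit 2348773954) (nat_lit 0) (nat_lit 1829401275) (nat_lit 380) (nat_lit 2295546922) (nat_lit 688) (nat_lit 5) (nat_lit 687) (nat_lit 3) (nat_lit 692) (nat_lit 5) (nat_lit 385) (nat_lit 383) (nat_lit 372)) (XT.lf (nat_lit 0) (nat_lit 487260072) (nat_lit 380) (nat_lit 922158924) (nat_lit 456) (nat_lit 5073441737) (nat_lit 682) (nat_lit 5) (nat_lit 687) (nat_lit 3) (nat_lit 688) (nat_lit 5) (nat_lit 386) (nat_lit 383) (nat_lit 371)))))) (XT.nd (nat_lit 390) (nat_lit 1292) (nat_lit 0) (XT.nd (nat_lit 156) (nat_lit 912) (nat_lit 0) (XT.nd (nat_lit 78) (nat_lit 0) (nat_lit 0) (XT.lf (nat_lit 76) (nat_lit 2322085958) (nat_lit 0) (nat_lit 915981085) (nat_lit 456) (nat_lit 3254993345) (nat_lit 683) (nat_lit 5) (nat_lit 682) (nat_lit 5) (nat_lit 688) (nat_lit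 5) (nat_lit 387) (nat_lit 383) (nat_lit 370)) (XT.lf (nat_lit 76) (nat_lit 5606112420) (nat_lit 0) (nat_lit 373109949) (nat_lit 456) (nat_lit 525577566) (nat_lit 683) (nat_lit 5) (nat_lit 682) (nat_lit 5) (nat_lit 688) (nat_lit 5) (nat_lit 388) (nat_lit 383) (nat_lit 369))) (XT.nd (nat_lit 78) (nat_lit 532) (nat_lit 0) (XT.lf (nat_lit 0) (nat_lit 2176122379) (nat_lit 456) (nat_lit 4100928614) (nat_lit 532) (nat_lit 240524602) (nat_lit 677) (nat_lit 5) (nat_lit 683) (nat_lit 5) (nat_lit 684) (nat_lit 5) (nat_lit 389) (nat_lit 383) (nat_lit 368)) (XT.nd (nat_lit 78) (nat_lit 532) (nat_lit 0) (XT.lf (nat_lit 0) (nat_lit 4864729900) (nat_lit 456) (nat_lit 765215254) (nat_lit 532) (nat_lit 901834000) (nat_lit 677) (nat_lit 5) (nat_lit 683) (nat_lit 5) (nat_lit 684) (nat_lit 5) (nat_lit 390) (nat_lit 383) (nat_lit 367)) (XT.lf (nat_lit 0) (nat_lit 996364409) (nat_lit 532) (nat_lit 3920555226) (nat_lit 608) (nat_lit 1630259237)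 (nat_lit 670) (nat_lit 5) (nat_lit 677) (nat_lit 5) (nat_lit 678) (nat_lit 5) (nat_lit 391) (nat_lit 383) (nat_lit 366))))) (XT.nd (nat_lit 234) (nat_lit 684) (nat_lit 0) (XT.nd (nat_lit 78) (nat_lit 608) (nat_lit 0) (XT.lf (nat_lit 0) (nat_lit 3629218138) (nat_lit 532) (nat_lit 516296109) (nat_lit 608) (nat_lit 2418419860) (nat_lit 670) (nat_lit 5) (nat_lit 677) (nat_lit 5) (nat_lit 678) (nat_lit 5) (nat_lit 392) (nat_lit 383) (nat_lit 365)) (XT.nd (nat_lit 78) (nat_lit 608) (nat_lit 0) (XT.lf (nat_lit 76) (nat_lit 2956479642) (nat_lit 0) (nat_lit 3312056208) (nat_lit 608) (nat_lit 313449497) (nat_lit 671) (nat_lit 5) (nat_lit 670) (nat_lit 5) (nat_lit 678) (nat_lit 5) (nat_lit 393) (nat_lit 383) (nat_lit 364)) (XT.lf (nat_lit 0) (nat_lit 2267959143) (nat_lit 608) (nat_lit 148954103) (nat_lit 684) (nat_lit 4184440043) (nat_lit 662) (nat_lit 5) (nat_lit 670) (nat_lit 5) (nat_lit 671) (nat_lit 5) (nat_lit 394) (nat_lit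 383) (nat_lit 363)))) (XT.nd (nat_lit 78) (nat_lit 684) (nat_lit 0) (XT.lf (nat_lit 76) (nat_lit 3401439650) (nat_lit 0) (nat_lit 1453902717) (nat_lit 684) (nat_lit 1766588817) (nat_lit 663) (nat_lit 5) (nat_lit 662) (nat_lit 5) (nat_lit 671) (nat_lit 5) (nat_lit 395) (nat_lit 383) (nat_lit 362)) (XT.nd (nat_lit 78) (nat_lit 0) (nat_lit 76) (XT.lf (nat_lit 76) (nat_lit 342067788) (nat_lit 0) (nat_lit 438550309) (nat_lit 760) (nat_lit 5863420836) (nat_lit 654) (nat_lit 5) (nat_lit 653) (nat_lit 5) (nat_lit 663) (nat_lit 5) (nat_lit 396) (nat_lit 383) (nat_lit 361)) (XT.lf (nat_lit 0) (nat_lit 3318911113) (nat_lit 684) (nat_lit 2702355278) (nat_lit 76) (nat_lit 645845859) (nat_lit 654) (nat_lit 5) (nat_lit 663) (nat_lit 5) (nat_lit 655) (nat_lit 5) (nat_lit 397) (nat_lit 383) (nat_lit 360))))))))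
noncomputable def xc101 : XT := (XT.nd (nat_lit 1716) (nat_lit 13680) (nat_lit 0) (XT.nd (nat_lit 858) (nat_lit 9804) (nat_lit 0) (XT.nd (nat_lit 390) (nat_lit 3116) (nat_lit 0) (XT.nd (nat_lit 156) (nat_lit 1672) (nat_lit 0) (XT.nd (nat_lit 78) (nat_lit 76) (nat_lit 0) (XT.lf (nat_lit 0) (nat_lit 939441743) (nat_lit 684) (nat_lit 4916888240) (nat_lit 760) (nat_lit 835382095) (nat_lit 645) (nat_lit 5) (nat_lit 654) (nat_lit 5) (nat_lit 655) (nat_lit 5) (nat_lit 398) (nat_lit 383) (nat_lit 359)) (XT.lf (nat_lit 0) (nat_lit 1663154311) (nat_lit 760) (nat_lit 2076872673) (nat_lit 76) (nat_lit 2977421164) (nat_lit 644) (nat_lit 5) (nat_lit 654) (nat_lit 5) (nat_lit 645) (nat_lit 5) (nat_lit 399) (nat_lit 383) (nat_lit 358))) (XT.nd (nat_lit 78) (nat_lit 912) (nat_lit 0) (XT.lf (nat_lit 0) (nat_lit 1649109495) (nat_lit 760) (nat_lit 2503128530) (nat_lit 836) (nat_lit 2592345614) (nat_lit 634) (nat_lit 5) (nat_lit 644) (nat_lit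 5) (nat_lit 645) (nat_lit 5) (nat_lit 400) (nat_lit 383) (nat_lit 357)) (XT.nd (nat_lit 78) (nat_lit 912) (nat_lit 0) (XT.lf (nat_lit 0) (nat_lit 5439001089) (nat_lit 760) (nat_lit 1207988323) (nat_lit 836) (nat_lit 126184498) (nat_lit 634) (nat_lit 5) (nat_lit 644) (nat_lit 5) (nat_lit 645) (nat_lit 5) (nat_lit 401) (nat_lit 383) (nat_lit 356)) (XT.lf (nat_lit 0) (nat_lit 2317814638) (nat_lit 912) (nat_lit 4323360512) (nat_lit 76) (nat_lit 161682190) (nat_lit 622) (nat_lit 5) (nat_lit 634) (nat_lit 5) (nat_lit 623) (nat_lit 5) (nat_lit 402) (nat_lit 383) (nat_lit 355))))) (XT.nd (nat_lit 234) (nat_lit 1140) (nat_lit 0) (XT.nd (nat_lit 78) (nat_lit 1976) (nat_lit 0) (XT.lf (nat_lit 0) (nat_lit 4769689498) (nat_lit 912) (nat_lit 494136410) (nat_lit 76) (nat_lit 1570106214) (nat_lit 622) (nat_lit 5) (nat_lit 634) (nat_lit 5) (nat_lit 623) (nat_lit 5) (nat_lit 403) (nat_lit 383) (nat_lit 354)) (XT.nd (nat_lit 78) (nat_lit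 988) (nat_lit 0) (XT.lf (nat_lit 0) (nat_lit 366380683) (nat_lit 988) (nat_lit 3451264708) (nat_lit 76) (nat_lit 3048623032) (nat_lit 609) (nat_lit 5) (nat_lit 622) (nat_lit 5) (nat_lit 610) (nat_lit 5) (nat_lit 404) (nat_lit 383) (nat_lit 353)) (XT.lf (nat_lit 0) (nat_lit 462687299) (nat_lit 988) (nat_lit 2306877002) (nat_lit 1064) (nat_lit 4130408944) (nat_lit 596) (nat_lit 5) (nat_lit 609) (nat_lit 5) (nat_lit 610) (nat_lit 5) (nat_lit 405) (nat_lit 383) (nat_lit 352)))) (XT.nd (nat_lit 78) (nat_lit 1140) (nat_lit 0) (XT.lf (nat_lit 0) (nat_lit 4462433052) (nat_lit 988) (nat_lit 727577768) (nat_lit 1064) (nat_lit 1744983293) (nat_lit 596) (nat_lit 5) (nat_lit 609) (nat_lit 5) (nat_lit 610) (nat_lit 5) (nat_lit 406) (nat_lit 383) (nat_lit 351)) (XT.nd (nat_lit 78) (nat_lit 0) (nat_lit 0) (XT.lf (nat_lit 0) (nat_lit 641821105) (nat_lit 1140) (nat_lit 5429375466) (nat_lit 76) (nat_lit 900200485) (nat_lit 581) (nat_lit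 5) (nat_lit 596) (nat_lit 5) (nat_lit 582) (nat_lit 5) (nat_lit 407) (nat_lit 383) (nat_lit 350)) (XT.lf (nat_lit 0) (nat_lit 3022139973) (nat_lit 1140) (nat_lit 1394403457) (nat_lit 76) (nat_lit 2592395504) (nat_lit 581) (nat_lit 5) (nat_lit 596) (nat_lit 5) (nat_lit 582) (nat_lit 5) (nat_lit 408) (nat_lit 383) (nat_lit 349)))))) (XT.nd (nat_lit 390) (nat_lit 6004) (nat_lit 0) (XT.nd (nat_lit 156) (nat_lit 2584) (nat_lit 0) (XT.nd (nat_lit 78) (nat_lit 76) (nat_lit 0) (XT.lf (nat_lit 0) (nat_lit 2717561359) (nat_lit 1140) (nat_lit 2698776896) (nat_lit 1216) (nat_lit 1631591892) (nat_lit 566) (nat_lit 5) (nat_lit 581) (nat_lit 5) (nat_lit 582) (nat_lit 5) (nat_lit 409) (nat_lit 383) (nat_lit 348)) (XT.lf (nat_lit 0) (nat_lit 719054260) (nat_lit 1216) (nat_lit 201702595) (nat_lit 76) (nat_lit 6167698414) (nat_lit 565) (nat_lit 5) (nat_lit 581) (nat_lit 5) (nat_lit 566) (nat_lit 5) (nat_lit 410) (nat_lit 383) (nat_lit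 347))) (XT.nd (nat_lit 78) (nat_lit 1368) (nat_lit 0) (XT.lf (nat_lit 0) (nat_lit 3077073082) (nat_lit 1292) (nat_lit 3123843024) (nat_lit 76) (nat_lit 929037533) (nat_lit 549) (nat_lit 5) (nat_lit 566) (nat_lit 5) (nat_lit 550) (nat_lit 5) (nat_lit 411) (nat_lit 383) (nat_lit 346)) (XT.nd (nat_lit 78) (nat_lit 76) (nat_lit 0) (XT.lf (nat_lit 0) (nat_lit 1097012180) (nat_lit 1292) (nat_lit 4350642767) (nat_lit 1368) (nat_lit 1725341109) (nat_lit 532) (nat_lit 5) (nat_lit 549) (nat_lit 5) (nat_lit 550) (nat_lit 5) (nat_lit 412) (nat_lit 383) (nat_lit 345)) (XT.lf (nat_lit 0) (nat_lit 612527038) (nat_lit 1368) (nat_lit 1816437933) (nat_lit 76) (nat_lit 4788425655) (nat_lit 531) (nat_lit 5) (nat_lit 549) (nat_lit 5) (nat_lit 532) (nat_lit 5) (nat_lit 413) (nat_lit 383) (nat_lit 344))))) (XT.nd (nat_lit 234) (nat_lit 3116) (nat_lit 0) (XT.nd (nat_lit 78) (nat_lit 1520) (nat_lit 0) (XT.lf (nat_lit 0) (nat_lit 2510349522)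 (nat_lit 1368) (nat_lit 432163232) (nat_lit 1444) (nat_lit 4320583849) (nat_lit 513) (nat_lit 5) (nat_lit 531) (nat_lit 5) (nat_lit 532) (nat_lit 5) (nat_lit 414) (nat_lit 383) (nat_lit 343)) (XT.nd (nat_lit 78) (nat_lit 1520) (nat_lit 0) (XT.lf (nat_lit 0) (nat_lit 5294664013) (nat_lit 1444) (nat_lit 411879832) (nat_lit 76) (nat_lit 1603681985) (nat_lit 513) (nat_lit 5) (nat_lit 532) (nat_lit 5) (nat_lit 514) (nat_lit 5) (nat_lit 415) (nat_lit 383) (nat_lit 342)) (XT.lf (nat_lit 0) (nat_lit 313831548) (nat_lit 1520) (nat_lit 3334392370) (nat_lit 76) (nat_lit 3710396369) (nat_lit 493) (nat_lit 5) (nat_lit 513) (nat_lit 5) (nat_lit 494) (nat_lit 5) (nat_lit 416) (nat_lit 383) (nat_lit 341)))) (XT.nd (nat_lit 78) (nat_lit 1596) (nat_lit 0) (XT.lf (nat_lit 0) (nat_lit 1108095616) (nat_lit 1520) (nat_lit 1518863190) (nat_lit 1596) (nat_lit 4781493948) (nat_lit 473) (nat_lit 5) (nat_lit 493) (nat_lit 5) (nat_lit 494) (nat_lit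 5) (nat_lit 417) (nat_lit 383) (nat_lit 340)) (XT.nd (nat_lit 78) (nat_lit 1596) (nat_lit 0) (XT.lf (nat_lit 0) (nat_lit 4967924802) (nat_lit 1596) (nat_lit 1819074013) (nat_lit 76) (nat_lit 672670425) (nat_lit 473) (nat_lit 5) (nat_lit 494) (nat_lit 5) (nat_lit 474) (nat_lit 5) (nat_lit 418) (nat_lit 383) (nat_lit 339)) (XT.lf (nat_lit 0) (nat_lit 2737996039) (nat_lit 1596) (nat_lit 4601247916) (nat_lit 1672) (nat_lit 173013942) (nat_lit 452) (nat_lit 5) (nat_lit 473) (nat_lit 5) (nat_lit 474) (nat_lit 5) (nat_lit 419) (nat_lit 383) (nat_lit 338))))))) (XT.nd (nat_lit 858) (nat_lit 5396) (nat_lit 0) (XT.nd (nat_lit 390) (nat_lit 3572) (nat_lit 0) (XT.nd (nat_lit 156) (nat_lit 2964) (nat_lit 0) (XT.nd (nat_lit 78) (nat_lit 1672) (nat_lit 0) (XT.lf (nat_lit 0) (nat_lit 2131632951) (nat_lit 1672) (nat_lit 209132745) (nat_lit 76) (nat_lit 5225499953) (nat_lit 451) (nat_lit 5) (nat_lit 473) (nat_lit 5) (nat_lit 452) (nat_lit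 5) (nat_lit 420) (nat_lit 383) (nat_lit 337)) (XT.lf (nat_lit 0) (nat_lit 4465472831) (nat_lit 1672) (nat_lit 444616) (nat_lit 1748) (nat_lit 3155713461) (nat_lit 429) (nat_lit 5) (nat_lit 451) (nat_lit 5) (nat_lit 452) (nat_lit 5) (nat_lit 421) (nat_lit 383) (nat_lit 336))) (XT.nd (nat_lit 78) (nat_lit 1216) (nat_lit 0) (XT.lf (nat_lit 0) (nat_lit 1522919487) (nat_lit 1748) (nat_lit 5308246606) (nat_lit 1824) (nat_lit 847268922) (nat_lit 406) (nat_lit 5) (nat_lit 429) (nat_lit 5) (nat_lit 430) (nat_lit 5) (nat_lit 422) (nat_lit 383) (nat_lit 335)) (XT.nd (nat_lit 78) (nat_lit 1140) (nat_lit 0) (XT.lf (nat_lit 0) (nat_lit 1466662300) (nat_lit 1824) (nat_lit 1447714334) (nat_lit 76) (nat_lit 4822237544) (nat_lit 405) (nat_lit 5) (nat_lit 429) (nat_lit 5) (nat_lit 406) (nat_lit 5) (nat_lit 423) (nat_lit 383) (nat_lit 334)) (XT.lf (nat_lit 0) (nat_lit 3353203827) (nat_lit 1140) (nat_lit 442697569) (nat_lit 1216) (nat_lit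 4000352157) (nat_lit 390) (nat_lit 5) (nat_lit 405) (nat_lit 5) (nat_lit 406) (nat_lit 5) (nat_lit 424) (nat_lit 383) (nat_lit 333))))) (XT.nd (nat_lit 234) (nat_lit 1748) (nat_lit 0) (XT.nd (nat_lit 78) (nat_lit 912) (nat_lit 0) (XT.lf (nat_lit 0) (nat_lit 364099030) (nat_lit 912) (nat_lit 5792425090) (nat_lit 988) (nat_lit 1700881428) (nat_lit 378) (nat_lit 5) (nat_lit 390) (nat_lit 5) (nat_lit 391) (nat_lit 5) (nat_lit 425) (nat_lit 383) (nat_lit 332)) (XT.nd (nat_lit 78) (nat_lit 836) (nat_lit 0) (XT.lf (nat_lit 0) (nat_lit 628491206) (nat_lit 988) (nat_lit 2639162911) (nat_lit 76) (nat_lit 4652210630) (nat_lit 377) (nat_lit 5) (nat_lit 390) (nat_lit 5) (nat_lit 378) (nat_lit 5) (nat_lit 426) (nat_lit 383) (nat_lit 331)) (XT.lf (nat_lit 0) (nat_lit 2291359027) (nat_lit 836) (nat_lit 665433255) (nat_lit 912) (nat_lit 5027068572) (nat_lit 366) (nat_lit 5) (nat_lit 377) (nat_lit 5) (nat_lit 378) (nat_lit 5) (nat_lit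 427) (nat_lit 383) (nat_lit 330)))) (XT.nd (nat_lit 78) (nat_lit 1748) (nat_lit 0) (XT.lf (nat_lit 0) (nat_lit 5323142627) (nat_lit 912) (nat_lit 745578933) (nat_lit 76) (nat_lit 1980600262) (nat_lit 366) (nat_lit 5) (nat_lit 378) (nat_lit 5) (nat_lit 367) (nat_lit 5) (nat_lit 428) (nat_lit 383) (nat_lit 329)) (XT.nd (nat_lit 78) (nat_lit 912) (nat_lit 0) (XT.lf (nat_lit 0) (nat_lit 4313196768) (nat_lit 836) (nat_lit 3417546903) (nat_lit 912) (nat_lit 385484180) (nat_lit 355) (nat_lit 5) (nat_lit 366) (nat_lit 5) (nat_lit 367) (nat_lit 5) (nat_lit 429) (nat_lit 383) (nat_lit 328)) (XT.lf (nat_lit 0) (nat_lit 1262903106) (nat_lit 836) (nat_lit 687849492) (nat_lit 912) (nat_lit 6233973500) (nat_lit 343) (nat_lit 5) (nat_lit 354) (nat_lit 5) (nat_lit 355) (nat_lit 5) (nat_lit 430) (nat_lit 383) (nat_lit 327)))))) (XT.nd (nat_lit 390) (nat_lit 2964) (nat_lit 0) (XT.nd (nat_lit 156) (nat_lit 1596) (nat_lit 0) (XT.nd (nat_lit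 78) (nat_lit 836) (nat_lit 0) (XT.lf (nat_lit 0) (nat_lit 4330092432) (nat_lit 912) (nat_lit 1828720226) (nat_lit 76) (nat_lit 2095713381) (nat_lit 343) (nat_lit 5) (nat_lit 355) (nat_lit 5) (nat_lit 344) (nat_lit 5) (nat_lit 431) (nat_lit 383) (nat_lit 326)) (XT.lf (nat_lit 0) (nat_lit 3366617589) (nat_lit 836) (nat_lit 3379789872) (nat_lit 912) (nat_lit 1579539978) (nat_lit 332) (nat_lit 5) (nat_lit 343) (nat_lit 5) (nat_lit 344) (nat_lit 5) (nat_lit 432) (nat_lit 383) (nat_lit 325))) (XT.nd (nat_lit 78) (nat_lit 760) (nat_lit 0) (XT.lf (nat_lit 0) (nat_lit 250561016) (nat_lit 760) (nat_lit 528210341) (nat_lit 836) (nat_lit 7620389695) (nat_lit 321) (nat_lit 5) (nat_lit 331) (nat_lit 5) (nat_lit 332) (nat_lit 5) (nat_lit 433) (nat_lit 383) (nat_lit 324)) (XT.nd (nat_lit 78) (nat_lit 760) (nat_lit 0) (XT.lf (nat_lit 0) (nat_lit 3175715310) (nat_lit 836) (nat_lit 2907364955) (nat_lit 76) (nat_lit 2390309993) (nat_lit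 321) (nat_lit 5) (nat_lit 332) (nat_lit 5) (nat_lit 322) (nat_lit 5) (nat_lit 434) (nat_lit 383) (nat_lit 323)) (XT.lf (nat_lit 0) (nat_lit 2427891660) (nat_lit 760) (nat_lit 3176322366) (nat_lit 836) (nat_lit 2945229922) (nat_lit 311) (nat_lit 5) (nat_lit 321) (nat_lit 5) (nat_lit 322) (nat_lit 5) (nat_lit 435) (nat_lit 383) (nat_lit 322))))) (XT.nd (nat_lit 234) (nat_lit 1444) (nat_lit 0) (XT.nd (nat_lit 78) (nat_lit 1520) (nat_lit 0) (XT.lf (nat_lit 0) (nat_lit 7870373733) (nat_lit 760) (nat_lit 195219692) (nat_lit 836) (nat_lit 561751054) (nat_lit 311) (nat_lit 5) (nat_lit 321) (nat_lit 5) (nat_lit 322) (nat_lit 5) (nat_lit 436) (nat_lit 383) (nat_lit 321)) (XT.nd (nat_lit 78) (nat_lit 760) (nat_lit 0) (XT.lf (nat_lit 0) (nat_lit 1859549507) (nat_lit 760) (nat_lit 3999237751) (nat_lit 76) (nat_lit 2847491138) (nat_lit 301) (nat_lit 5) (nat_lit 311) (nat_lit 5) (nat_lit 302) (nat_lit 5) (nat_lit 437) (nat_lit 383)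 (nat_lit 320)) (XT.lf (nat_lit 0) (nat_lit 1479239556) (nat_lit 760) (nat_lit 2824189104) (nat_lit 836) (nat_lit 4483665866) (nat_lit 291) (nat_lit 5) (nat_lit 301) (nat_lit 5) (nat_lit 302) (nat_lit 5) (nat_lit 438) (nat_lit 383) (nat_lit 319)))) (XT.nd (nat_lit 78) (nat_lit 1444) (nat_lit 0) (XT.lf (nat_lit 0) (nat_lit 6791007617) (nat_lit 836) (nat_lit 1788850426) (nat_lit 76) (nat_lit 289783559) (nat_lit 291) (nat_lit 5) (nat_lit 302) (nat_lit 5) (nat_lit 292) (nat_lit 5) (nat_lit 439) (nat_lit 383) (nat_lit 318)) (XT.nd (nat_lit 78) (nat_lit 684) (nat_lit 0) (XT.lf (nat_lit 0) (nat_lit 379950142) (nat_lit 760) (nat_lit 5122683020) (nat_lit 76) (nat_lit 3450961201) (nat_lit 281) (nat_lit 5) (nat_lit 291) (nat_lit 5) (nat_lit 282) (nat_lit 5) (nat_lit 440) (nat_lit 383) (nat_lit 317)) (XT.lf (nat_lit 0) (nat_lit 502229430) (nat_lit 684) (nat_lit 2339902284) (nat_lit 760) (nat_lit 6197184926) (nat_lit 272) (nat_lit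 5) (nat_lit 281) (nat_lit 5) (nat_lit 282) (nat_lit 5) (nat_lit 441) (nat_lit 383) (nat_lit 316))))))))
noncomputable def xc102 : XT := (XT.nd (nat_lit 1716) (nat_lit 5548) (nat_lit 0) (XT.nd (nat_lit 858) (nat_lit 3724) (nat_lit 0) (XT.nd (nat_lit 390) (nat_lit 1900) (nat_lit 0) (XT.nd (nat_lit 156) (nat_lit 1368) (nat_lit 0) (XT.nd (nat_lit 78) (nat_lit 608) (nat_lit 0) (XT.lf (nat_lit 0) (nat_lit 5361162311) (nat_lit 760) (nat_lit 2862180600) (nat_lit 76) (nat_lit 903268567) (nat_lit 272) (nat_lit 5) (nat_lit 282) (nat_lit 5) (nat_lit 273) (nat_lit 5) (nat_lit 442) (nat_lit 383) (nat_lit 315)) (XT.lf (nat_lit 0) (nat_lit 2910454621) (nat_lit 608) (nat_lit 5022402521) (nat_lit 684) (nat_lit 1282759422) (nat_lit 264) (nat_lit 5) (nat_lit 272) (nat_lit 5) (nat_lit 273) (nat_lit 5) (nat_lit 443) (nat_lit 383) (nat_lit 314))) (XT.nd (nat_lit 78) (nat_lit 1292) (nat_lit 0) (XT.lf (nat_lit 0) (nat_lit 1220582321) (nat_lit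 684) (nat_lit 515543672) (nat_lit 76) (nat_lit 7570375398) (nat_lit 263) (nat_lit 5) (nat_lit 272) (nat_lit 5) (nat_lit 264) (nat_lit 5) (nat_lit 444) (nat_lit 383) (nat_lit 313)) (XT.nd (nat_lit 78) (nat_lit 608) (nat_lit 0) (XT.lf (nat_lit 0) (nat_lit 3771402536) (nat_lit 760) (nat_lit 3995188978) (nat_lit 76) (nat_lit 1632160508) (nat_lit 254) (nat_lit 5) (nat_lit 264) (nat_lit 5) (nat_lit 255) (nat_lit 5) (nat_lit 445) (nat_lit 383) (nat_lit 312)) (XT.lf (nat_lit 0) (nat_lit 1930860535) (nat_lit 608) (nat_lit 4438900844) (nat_lit 684) (nat_lit 3123165104) (nat_lit 246) (nat_lit 5) (nat_lit 254) (nat_lit 5) (nat_lit 255) (nat_lit 5) (nat_lit 446) (nat_lit 383) (nat_lit 311))))) (XT.nd (nat_lit 234) (nat_lit 684) (nat_lit 0) (XT.nd (nat_lit 78) (nat_lit 1216) (nat_lit 0) (XT.lf (nat_lit 0) (nat_lit 7991633859) (nat_lit 608) (nat_lit 1024630466) (nat_lit 684) (nat_lit 572805649) (nat_lit 246) (nat_lit 5) (nat_lit 254)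 (nat_lit 5) (nat_lit 255) (nat_lit 5) (nat_lit 447) (nat_lit 383) (nat_lit 310)) (XT.nd (nat_lit 78) (nat_lit 532) (nat_lit 0) (XT.lf (nat_lit 0) (nat_lit 2017089393) (nat_lit 684) (nat_lit 5208449676) (nat_lit 76) (nat_lit 2461039909) (nat_lit 237) (nat_lit 5) (nat_lit 246) (nat_lit 5) (nat_lit 238) (nat_lit 5) (nat_lit 448) (nat_lit 383) (nat_lit 309)) (XT.lf (nat_lit 0) (nat_lit 873917763) (nat_lit 532) (nat_lit 3770513982) (nat_lit 608) (nat_lit 5141672863) (nat_lit 230) (nat_lit 5) (nat_lit 237) (nat_lit 5) (nat_lit 238) (nat_lit 5) (nat_lit 449) (nat_lit 383) (nat_lit 308)))) (XT.nd (nat_lit 78) (nat_lit 684) (nat_lit 0) (XT.lf (nat_lit 0) (nat_lit 7110854282) (nat_lit 532) (nat_lit 218822273) (nat_lit 608) (nat_lit 2557845471) (nat_lit 230) (nat_lit 5) (nat_lit 237) (nat_lit 5) (nat_lit 238) (nat_lit 5) (nat_lit 450) (nat_lit 383) (nat_lit 307)) (XT.nd (nat_lit 78) (nat_lit 0) (nat_lit 0) (XT.lf (nat_lit 0) (nat_lit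 92281271) (nat_lit 684) (nat_lit 6523812928) (nat_lit 76) (nat_lit 3374558744) (nat_lit 221) (nat_lit 5) (nat_lit 230) (nat_lit 5) (nat_lit 222) (nat_lit 5) (nat_lit 451) (nat_lit 383) (nat_lit 306)) (XT.lf (nat_lit 0) (nat_lit 2752461416) (nat_lit 684) (nat_lit 278753669) (nat_lit 76) (nat_lit 7064475143) (nat_lit 221) (nat_lit 5) (nat_lit 230) (nat_lit 5) (nat_lit 222) (nat_lit 5) (nat_lit 452) (nat_lit 383) (nat_lit 305)))))) (XT.nd (nat_lit 390) (nat_lit 1520) (nat_lit 0) (XT.nd (nat_lit 156) (nat_lit 1140) (nat_lit 0) (XT.nd (nat_lit 78) (nat_lit 532) (nat_lit 0) (XT.lf (nat_lit 0) (nat_lit 5481575308) (nat_lit 608) (nat_lit 4072096605) (nat_lit 76) (nat_lit 648849490) (nat_lit 214) (nat_lit 5) (nat_lit 222) (nat_lit 5) (nat_lit 215) (nat_lit 5) (nat_lit 453) (nat_lit 383) (nat_lit 304)) (XT.lf (nat_lit 0) (nat_lit 2333474154) (nat_lit 532) (nat_lit 5940797935) (nat_lit 608) (nat_lit 2037044698) (nat_lit 207) (nat_lit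 5) (nat_lit 214) (nat_lit 5) (nat_lit 215) (nat_lit 5) (nat_lit 454) (nat_lit 383) (nat_lit 303))) (XT.nd (nat_lit 78) (nat_lit 1064) (nat_lit 0) (XT.lf (nat_lit 0) (nat_lit 690866903) (nat_lit 608) (nat_lit 1541407720) (nat_lit 76) (nat_lit 8189939394) (nat_lit 206) (nat_lit 5) (nat_lit 214) (nat_lit 5) (nat_lit 207) (nat_lit 5) (nat_lit 455) (nat_lit 383) (nat_lit 302)) (XT.nd (nat_lit 78) (nat_lit 532) (nat_lit 0) (XT.lf (nat_lit 0) (nat_lit 3461682820) (nat_lit 608) (nat_lit 5505470906) (nat_lit 76) (nat_lit 1567600887) (nat_lit 199) (nat_lit 5) (nat_lit 207) (nat_lit 5) (nat_lit 200) (nat_lit 5) (nat_lit 456) (nat_lit 383) (nat_lit 301)) (XT.lf (nat_lit 0) (nat_lit 1065253311) (nat_lit 532) (nat_lit 5227577779) (nat_lit 608) (nat_lit 4356623626) (nat_lit 192) (nat_lit 5) (nat_lit 199) (nat_lit 5) (nat_lit 200) (nat_lit 5) (nat_lit 457) (nat_lit 383) (nat_lit 300))))) (XT.nd (nat_lit 234) (nat_lit 988) (nat_lit 0)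 (XT.nd (nat_lit 78) (nat_lit 532) (nat_lit 0) (XT.lf (nat_lit 0) (nat_lit 7805452386) (nat_lit 532) (nat_lit 1385194648) (nat_lit 608) (nat_lit 1575607775) (nat_lit 192) (nat_lit 5) (nat_lit 199) (nat_lit 5) (nat_lit 200) (nat_lit 5) (nat_lit 458) (nat_lit 383) (nat_lit 299)) (XT.nd (nat_lit 78) (nat_lit 0) (nat_lit 0) (XT.lf (nat_lit 0) (nat_lit 1259219039) (nat_lit 532) (nat_lit 7101367644) (nat_lit 76) (nat_lit 2524352501) (nat_lit 185) (nat_lit 5) (nat_lit 192) (nat_lit 5) (nat_lit 186) (nat_lit 5) (nat_lit 459) (nat_lit 383) (nat_lit 298)) (XT.lf (nat_lit 0) (nat_lit 4132508653) (nat_lit 532) (nat_lit 358812776) (nat_lit 76) (nat_lit 6514416732) (nat_lit 185) (nat_lit 5) (nat_lit 192) (nat_lit 5) (nat_lit 186) (nat_lit 5) (nat_lit 460) (nat_lit 383) (nat_lit 297)))) (XT.nd (nat_lit 78) (nat_lit 532) (nat_lit 0) (XT.lf (nat_lit 0) (nat_lit 6569020807) (nat_lit 456) (nat_lit 511080294) (nat_lit 532) (nat_lit 4048521633)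 (nat_lit 179) (nat_lit 5) (nat_lit 185) (nat_lit 5) (nat_lit 186) (nat_lit 5) (nat_lit 461) (nat_lit 383) (nat_lit 296)) (XT.nd (nat_lit 78) (nat_lit 76) (nat_lit 0) (XT.lf (nat_lit 0) (nat_lit 2358286899) (nat_lit 456) (nat_lit 7743532459) (nat_lit 532) (nat_lit 1151848392) (nat_lit 173) (nat_lit 5) (nat_lit 179) (nat_lit 5) (nat_lit 180) (nat_lit 5) (nat_lit 462) (nat_lit 383) (nat_lit 295)) (XT.lf (nat_lit 0) (nat_lit 1787793479) (nat_lit 532) (nat_lit 1955605657) (nat_lit 76) (nat_lit 7637412855) (nat_lit 172) (nat_lit 5) (nat_lit 179) (nat_lit 5) (nat_lit 173) (nat_lit 5) (nat_lit 463) (nat_lit 383) (nat_lit 294))))))) (XT.nd (nat_lit 858) (nat_lit 2584) (nat_lit 0) (XT.nd (nat_lit 390) (nat_lit 1596) (nat_lit 0) (XT.nd (nat_lit 156) (nat_lit 532) (nat_lit 0) (XT.nd (nat_lit 78) (nat_lit 380) (nat_lit 0) (XT.lf (nat_lit 0) (nat_lit 4781625576) (nat_lit 532) (nat_lit 6365073007) (nat_lit 76) (nat_lit 363437719) (nat_lit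 166) (nat_lit 5) (nat_lit 173) (nat_lit 5) (nat_lit 167) (nat_lit 5) (nat_lit 464) (nat_lit 383) (nat_lit 293)) (XT.lf (nat_lit 0) (nat_lit 721508891) (nat_lit 380) (nat_lit 7131699909) (nat_lit 456) (nat_lit 3788486566) (nat_lit 161) (nat_lit 5) (nat_lit 166) (nat_lit 5) (nat_lit 167) (nat_lit 5) (nat_lit 465) (nat_lit 383) (nat_lit 292))) (XT.nd (nat_lit 78) (nat_lit 532) (nat_lit 0) (XT.lf (nat_lit 0) (nat_lit 8000790584) (nat_lit 380) (nat_lit 3003592508) (nat_lit 456) (nat_lit 771144976) (nat_lit 161) (nat_lit 5) (nat_lit 166) (nat_lit 5) (nat_lit 167) (nat_lit 5) (nat_lit 466) (nat_lit 383) (nat_lit 291)) (XT.nd (nat_lit 78) (nat_lit 0) (nat_lit 0) (XT.lf (nat_lit 0) (nat_lit 2282860868) (nat_lit 532) (nat_lit 8410061641) (nat_lit 76) (nat_lit 1218689466) (nat_lit 154) (nat_lit 5) (nat_lit 161) (nat_lit 5) (nat_lit 155) (nat_lit 5) (nat_lit 467) (nat_lit 383) (nat_lit 290)) (XT.lf (nat_lit 0) (nat_lit 5408963556)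 (nat_lit 532) (nat_lit 1135678184) (nat_lit 76) (nat_lit 5505252346) (nat_lit 154) (nat_lit 5) (nat_lit 161) (nat_lit 5) (nat_lit 155) (nat_lit 5) (nat_lit 468) (nat_lit 383) (nat_lit 289))))) (XT.nd (nat_lit 234) (nat_lit 760) (nat_lit 0) (XT.nd (nat_lit 78) (nat_lit 456) (nat_lit 0) (XT.lf (nat_lit 0) (nat_lit 6332805002) (nat_lit 380) (nat_lit 2282314908) (nat_lit 456) (nat_lit 3575476512) (nat_lit 149) (nat_lit 5) (nat_lit 154) (nat_lit 5) (nat_lit 155) (nat_lit 5) (nat_lit 469) (nat_lit 383) (nat_lit 288)) (XT.nd (nat_lit 78) (nat_lit 76) (nat_lit 0) (XT.lf (nat_lit 0) (nat_lit 1605064463) (nat_lit 380) (nat_lit 10288421112) (nat_lit 456) (nat_lit 440470619) (nat_lit 144) (nat_lit 5) (nat_lit 149) (nat_lit 5) (nat_lit 150) (nat_lit 5) (nat_lit 470) (nat_lit 383) (nat_lit 287)) (XT.lf (nat_lit 0) (nat_lit 2752419537) (nat_lit 456) (nat_lit 3250798348) (nat_lit 76) (nat_lit 6475985238) (nat_lit 143) (nat_lit 5) (nat_lit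 149) (nat_lit 5) (nat_lit 144) (nat_lit 5) (nat_lit 471) (nat_lit 383) (nat_lit 286)))) (XT.nd (nat_lit 78) (nat_lit 380) (nat_lit 0) (XT.lf (nat_lit 0) (nat_lit 4397589624) (nat_lit 380) (nat_lit 1611357091) (nat_lit 456) (nat_lit 6618241322) (nat_lit 138) (nat_lit 5) (nat_lit 143) (nat_lit 5) (nat_lit 144) (nat_lit 5) (nat_lit 472) (nat_lit 383) (nat_lit 285)) (XT.nd (nat_lit 78) (nat_lit 380) (nat_lit 0) (XT.lf (nat_lit 0) (nat_lit 9348462960) (nat_lit 456) (nat_lit 587640147) (nat_lit 76) (nat_lit 2841677093) (nat_lit 138) (nat_lit 5) (nat_lit 144) (nat_lit 5) (nat_lit 139) (nat_lit 5) (nat_lit 473) (nat_lit 383) (nat_lit 284)) (XT.lf (nat_lit 0) (nat_lit 7258161535) (nat_lit 380) (nat_lit 5532125912) (nat_lit 456) (nat_lit 140391033) (nat_lit 133) (nat_lit 5) (nat_lit 138) (nat_lit 5) (nat_lit 139) (nat_lit 5) (nat_lit 474) (nat_lit 383) (nat_lit 283)))))) (XT.nd (nat_lit 390) (nat_lit 1368) (nat_lit 0) (XT.nd (nat_lit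 156) (nat_lit 760) (nat_lit 0) (XT.nd (nat_lit 78) (nat_lit 0) (nat_lit 0) (XT.lf (nat_lit 0) (nat_lit 2156075068) (nat_lit 380) (nat_lit 1011842455) (nat_lit 456) (nat_lit 9918389061) (nat_lit 127) (nat_lit 5) (nat_lit 132) (nat_lit 5) (nat_lit 133) (nat_lit 5) (nat_lit 475) (nat_lit 383) (nat_lit 282)) (XT.lf (nat_lit 0) (nat_lit 6580134745) (nat_lit 456) (nat_lit 3084447374) (nat_lit 76) (nat_lit 3579658488) (nat_lit 127) (nat_lit 5) (nat_lit 133) (nat_lit 5) (nat_lit 128) (nat_lit 5) (nat_lit 476) (nat_lit 383) (nat_lit 281))) (XT.nd (nat_lit 78) (nat_lit 380) (nat_lit 0) (XT.lf (nat_lit 0) (nat_lit 4943300561) (nat_lit 380) (nat_lit 5134461298) (nat_lit 456) (nat_lit 3327232418) (nat_lit 122) (nat_lit 5) (nat_lit 127) (nat_lit 5) (nat_lit 128) (nat_lit 5) (nat_lit 477) (nat_lit 383) (nat_lit 280)) (XT.nd (nat_lit 78) (nat_lit 304) (nat_lit 0) (XT.lf (nat_lit 0) (nat_lit 74646288) (nat_lit 456) (nat_lit 428924358)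 (nat_lit 76) (nat_lit 13065401180) (nat_lit 121) (nat_lit 5) (nat_lit 127) (nat_lit 5) (nat_lit 122) (nat_lit 5) (nat_lit 478) (nat_lit 383) (nat_lit 279)) (XT.lf (nat_lit 0) (nat_lit 3557439721) (nat_lit 380) (nat_lit 5950586469) (nat_lit 76) (nat_lit 4226618329) (nat_lit 117) (nat_lit 5) (nat_lit 122) (nat_lit 5) (nat_lit 118) (nat_lit 5) (nat_lit 479) (nat_lit 383) (nat_lit 278))))) (XT.nd (nat_lit 234) (nat_lit 608) (nat_lit 0) (XT.nd (nat_lit 78) (nat_lit 380) (nat_lit 0) (XT.lf (nat_lit 0) (nat_lit 2257148841) (nat_lit 380) (nat_lit 4852615580) (nat_lit 456) (nat_lit 6793872690) (nat_lit 112) (nat_lit 5) (nat_lit 117) (nat_lit 5) (nat_lit 118) (nat_lit 5) (nat_lit 480) (nat_lit 383) (nat_lit 277)) (XT.nd (nat_lit 78) (nat_lit 380) (nat_lit 0) (XT.lf (nat_lit 0) (nat_lit 10677274076) (nat_lit 380) (nat_lit 74982784) (nat_lit 456) (nat_lit 3323374144) (nat_lit 112) (nat_lit 5) (nat_lit 117) (nat_lit 5) (nat_lit 118)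 (nat_lit 5) (nat_lit 481) (nat_lit 383) (nat_lit 276)) (XT.lf (nat_lit 0) (nat_lit 257229434) (nat_lit 380) (nat_lit 9234638307) (nat_lit 76) (nat_lit 4758301943) (nat_lit 107) (nat_lit 5) (nat_lit 112) (nat_lit 5) (nat_lit 108) (nat_lit 5) (nat_lit 482) (nat_lit 383) (nat_lit 275)))) (XT.nd (nat_lit 78) (nat_lit 608) (nat_lit 0) (XT.lf (nat_lit 0) (nat_lit 3868019121) (nat_lit 380) (nat_lit 838828953) (nat_lit 76) (nat_lit 9720853882) (nat_lit 107) (nat_lit 5) (nat_lit 112) (nat_lit 5) (nat_lit 108) (nat_lit 5) (nat_lit 483) (nat_lit 383) (nat_lit 274)) (XT.nd (nat_lit 78) (nat_lit 304) (nat_lit 0) (XT.lf (nat_lit 0) (nat_lit 7583008247) (nat_lit 380) (nat_lit 6813989813) (nat_lit 76) (nat_lit 211150722) (nat_lit 103) (nat_lit 5) (nat_lit 108) (nat_lit 5) (nat_lit 104) (nat_lit 5) (nat_lit 484) (nat_lit 383) (nat_lit 273)) (XT.lf (nat_lit 0) (nat_lit 1779536991) (nat_lit 304) (nat_lit 9621246145) (nat_lit 380) (nat_lit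 3390855197) (nat_lit 99) (nat_lit 5) (nat_lit 103) (nat_lit 5) (nat_lit 104) (nat_lit 5) (nat_lit 485) (nat_lit 383) (nat_lit 272))))))))
noncomputable def xc103 : XT := (XT.nd (nat_lit 51558) (nat_lit 0) (nat_lit 39824) (XT.nd (nat_lit 858) (nat_lit 1292) (nat_lit 0) (XT.nd (nat_lit 390) (nat_lit 836) (nat_lit 0) (XT.nd (nat_lit 156) (nat_lit 684) (nat_lit 0) (XT.nd (nat_lit 78) (nat_lit 304) (nat_lit 0) (XT.lf (nat_lit 0) (nat_lit 338144800) (nat_lit 380) (nat_lit 4374676196) (nat_lit 76) (nat_lit 10265415508) (nat_lit 98) (nat_lit 5) (nat_lit 103) (nat_lit 5) (nat_lit 99) (nat_lit 5) (nat_lit 486) (nat_lit 383) (nat_lit 271)) (XT.lf (nat_lit 0) (nat_lit 4107899379) (nat_lit 380) (nat_lit 10729945167) (nat_lit 76) (nat_lit 330045564) (nat_lit 94) (nat_lit 5) (nat_lit 99) (nat_lit 5) (nat_lit 95) (nat_lit 5) (nat_lit 487) (nat_lit 383) (nat_lit 270))) (XT.nd (nat_lit 78) (nat_lit 684) (nat_lit 0) (XT.lf (nat_lit 0)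 (nat_lit 7994451918) (nat_lit 380) (nat_lit 1937260354) (nat_lit 76) (nat_lit 5428799701) (nat_lit 94) (nat_lit 5) (nat_lit 99) (nat_lit 5) (nat_lit 95) (nat_lit 5) (nat_lit 488) (nat_lit 383) (nat_lit 269)) (XT.nd (nat_lit 78) (nat_lit 380) (nat_lit 0) (XT.lf (nat_lit 0) (nat_lit 7093701625) (nat_lit 304) (nat_lit 4892111823) (nat_lit 380) (nat_lit 3570634446) (nat_lit 90) (nat_lit 5) (nat_lit 94) (nat_lit 5) (nat_lit 95) (nat_lit 5) (nat_lit 489) (nat_lit 383) (nat_lit 268)) (XT.lf (nat_lit 0) (nat_lit 296140183) (nat_lit 380) (nat_lit 15207960629) (nat_lit 76) (nat_lit 252178044) (nat_lit 85) (nat_lit 5) (nat_lit 90) (nat_lit 5) (nat_lit 86) (nat_lit 5) (nat_lit 490) (nat_lit 383) (nat_lit 267))))) (XT.nd (nat_lit 234) (nat_lit 608) (nat_lit 0) (XT.nd (nat_lit 78) (nat_lit 228) (nat_lit 0) (XT.lf (nat_lit 0) (nat_lit 4263213308) (nat_lit 380) (nat_lit 6191838038) (nat_lit 76) (nat_lit 5503170573) (nat_lit 85) (nat_lit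 5) (nat_lit 90) (nat_lit 5) (nat_lit 86) (nat_lit 5) (nat_lit 491) (nat_lit 383) (nat_lit 266)) (XT.nd (nat_lit 78) (nat_lit 0) (nat_lit 0) (XT.lf (nat_lit 0) (nat_lit 3013973663) (nat_lit 228) (nat_lit 5296757697) (nat_lit 304) (nat_lit 7853453350) (nat_lit 82) (nat_lit 5) (nat_lit 85) (nat_lit 5) (nat_lit 86) (nat_lit 5) (nat_lit 492) (nat_lit 383) (nat_lit 265)) (XT.lf (nat_lit 0) (nat_lit 12457869881) (nat_lit 228) (nat_lit 4582653) (nat_lit 304) (nat_lit 3911352047) (nat_lit 82) (nat_lit 5) (nat_lit 85) (nat_lit 5) (nat_lit 86) (nat_lit 5) (nat_lit 493) (nat_lit 383) (nat_lit 264)))) (XT.nd (nat_lit 78) (nat_lit 228) (nat_lit 0) (XT.lf (nat_lit 0) (nat_lit 161283888) (nat_lit 380) (nat_lit 11077006455) (nat_lit 76) (nat_lit 5348252444) (nat_lit 77) (nat_lit 5) (nat_lit 82) (nat_lit 5) (nat_lit 78) (nat_lit 5) (nat_lit 494) (nat_lit 383) (nat_lit 263)) (XT.nd (nat_lit 78) (nat_lit 228) (nat_lit 0) (XT.lf (nat_lit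 0) (nat_lit 4271558562) (nat_lit 380) (nat_lit 1682229187) (nat_lit 76) (nat_lit 10849062460) (nat_lit 77) (nat_lit 5) (nat_lit 82) (nat_lit 5) (nat_lit 78) (nat_lit 5) (nat_lit 495) (nat_lit 383) (nat_lit 262)) (XT.lf (nat_lit 0) (nat_lit 7975921890) (nat_lit 228) (nat_lit 522281921) (nat_lit 304) (nat_lit 8524599326) (nat_lit 74) (nat_lit 5) (nat_lit 77) (nat_lit 5) (nat_lit 78) (nat_lit 5) (nat_lit 496) (nat_lit 383) (nat_lit 261)))))) (XT.nd (nat_lit 390) (nat_lit 532) (nat_lit 0) (XT.nd (nat_lit 156) (nat_lit 532) (nat_lit 0) (XT.nd (nat_lit 78) (nat_lit 0) (nat_lit 0) (XT.lf (nat_lit 0) (nat_lit 548435413) (nat_lit 228) (nat_lit 12290913231) (nat_lit 304) (nat_lit 4407209755) (nat_lit 71) (nat_lit 5) (nat_lit 74) (nat_lit 5) (nat_lit 75) (nat_lit 5) (nat_lit 497) (nat_lit 383) (nat_lit 260)) (XT.lf (nat_lit 0) (nat_lit 10425765552) (nat_lit 228) (nat_lit 6888314888) (nat_lit 304) (nat_lit 159775600) (nat_lit 71)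 (nat_lit 5) (nat_lit 74) (nat_lit 5) (nat_lit 75) (nat_lit 5) (nat_lit 498) (nat_lit 383) (nat_lit 259))) (XT.nd (nat_lit 78) (nat_lit 228) (nat_lit 0) (XT.lf (nat_lit 0) (nat_lit 2775571102) (nat_lit 228) (nat_lit 1343176642) (nat_lit 304) (nat_lit 13586395221) (nat_lit 67) (nat_lit 5) (nat_lit 70) (nat_lit 5) (nat_lit 71) (nat_lit 5) (nat_lit 499) (nat_lit 383) (nat_lit 258)) (XT.nd (nat_lit 78) (nat_lit 228) (nat_lit 0) (XT.lf (nat_lit 0) (nat_lit 8539236702) (nat_lit 304) (nat_lit 5106999907) (nat_lit 76) (nat_lit 4293629614) (nat_lit 67) (nat_lit 5) (nat_lit 71) (nat_lit 5) (nat_lit 68) (nat_lit 5) (nat_lit 500) (nat_lit 383) (nat_lit 257)) (XT.lf (nat_lit 0) (nat_lit 4939715952) (nat_lit 228) (nat_lit 8132642438) (nat_lit 304) (nat_lit 5106443460) (nat_lit 64) (nat_lit 5) (nat_lit 67) (nat_lit 5) (nat_lit 68) (nat_lit 5) (nat_lit 501) (nat_lit 383) (nat_lit 256))))) (XT.nd (nat_lit 234) (nat_lit 228) (nat_lit 0)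 (XT.nd (nat_lit 78) (nat_lit 304) (nat_lit 0) (XT.lf (nat_lit 0) (nat_lit 15228580779) (nat_lit 228) (nat_lit 2485234665) (nat_lit 304) (nat_lit 708349601) (nat_lit 64) (nat_lit 5) (nat_lit 67) (nat_lit 5) (nat_lit 68) (nat_lit 5) (nat_lit 502) (nat_lit 383) (nat_lit 255)) (XT.nd (nat_lit 78) (nat_lit 0) (nat_lit 0) (XT.lf (nat_lit 0) (nat_lit 3779493580) (nat_lit 304) (nat_lit 11597320248) (nat_lit 76) (nat_lit 3292066701) (nat_lit 60) (nat_lit 5) (nat_lit 64) (nat_lit 5) (nat_lit 61) (nat_lit 5) (nat_lit 503) (nat_lit 383) (nat_lit 254)) (XT.lf (nat_lit 0) (nat_lit 8369336027) (nat_lit 304) (nat_lit 1383850096) (nat_lit 76) (nat_lit 9166818193) (nat_lit 60) (nat_lit 5) (nat_lit 64) (nat_lit 5) (nat_lit 61) (nat_lit 5) (nat_lit 504) (nat_lit 383) (nat_lit 253)))) (XT.nd (nat_lit 49920) (nat_lit 0) (nat_lit 47500) (XT.lf (nat_lit 0) (nat_lit 9126373194) (nat_lit 228) (nat_lit 3967863725) (nat_lit 304) (nat_lit 6081050567)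 (nat_lit 57) (nat_lit 5) (nat_lit 60) (nat_lit 5) (nat_lit 61) (nat_lit 5) (nat_lit 505) (nat_lit 383) (nat_lit 252)) (XT.nd (nat_lit 78) (nat_lit 380) (nat_lit 0) (XT.lf (nat_lit 0) (nat_lit 2072059784) (nat_lit 380) (nat_lit 582252344) (nat_lit 380) (nat_lit 582252344) (nat_lit 687) (nat_lit 3) (nat_lit 692) (nat_lit 3) (nat_lit 692) (nat_lit 5) (nat_lit 384) (nat_lit 384) (nat_lit 372)) (XT.lf (nat_lit 0) (nat_lit 428205478) (nat_lit 380) (nat_lit 4493973957) (nat_lit 456) (nat_lit 1559338742) (nat_lit 682) (nat_lit 5) (nat_lit 687) (nat_lit 3) (nat_lit 688) (nat_lit 5) (nat_lit 385) (nat_lit 384) (nat_lit 371))))))) (XT.nd (nat_lit 858) (nat_lit 5472) (nat_lit 0) (XT.nd (nat_lit 390) (nat_lit 1216) (nat_lit 0) (XT.nd (nat_lit 156) (nat_lit 988) (nat_lit 0) (XT.nd (nat_lit 78) (nat_lit 0) (nat_lit 0) (XT.lf (nat_lit 0) (nat_lit 3145250495) (nat_lit 380) (nat_lit 1324827735) (nat_lit 456) (nat_lit 2021015038) (nat_lit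 682) (nat_lit 5) (nat_lit 687) (nat_lit 3) (nat_lit 688) (nat_lit 5) (nat_lit 386) (nat_lit 384) (nat_lit 370)) (XT.lf (nat_lit 76) (nat_lit 1895450333) (nat_lit 0) (nat_lit 3962880790) (nat_lit 456) (nat_lit 643737388) (nat_lit 683) (nat_lit 5) (nat_lit 682) (nat_lit 5) (nat_lit 688) (nat_lit 5) (nat_lit 387) (nat_lit 384) (nat_lit 369))) (XT.nd (nat_lit 78) (nat_lit 532) (nat_lit 0) (XT.lf (nat_lit 0) (nat_lit 2023686801) (nat_lit 456) (nat_lit 1366603978) (nat_lit 532) (nat_lit 3123959443) (nat_lit 676) (nat_lit 5) (nat_lit 682) (nat_lit 5) (nat_lit 683) (nat_lit 5) (nat_lit 388) (nat_lit 384) (nat_lit 368)) (XT.nd (nat_lit 78) (nat_lit 532) (nat_lit 0) (XT.lf (nat_lit 76) (nat_lit 1922060581) (nat_lit 0) (nat_lit 2757670688) (nat_lit 532) (nat_lit 1848021460) (nat_lit 677) (nat_lit 5) (nat_lit 676) (nat_lit 5) (nat_lit 683) (nat_lit 5) (nat_lit 389) (nat_lit 384) (nat_lit 367)) (XT.lf (nat_lit 0) (nat_lit 777513377)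 (nat_lit 532) (nat_lit 1289673980) (nat_lit 608) (nat_lit 4475441320) (nat_lit 669) (nat_lit 5) (nat_lit 676) (nat_lit 5) (nat_lit 677) (nat_lit 5) (nat_lit 390) (nat_lit 384) (nat_lit 366))))) (XT.nd (nat_lit 234) (nat_lit 684) (nat_lit 0) (XT.nd (nat_lit 78) (nat_lit 532) (nat_lit 0) (XT.lf (nat_lit 76) (nat_lit 2070529614) (nat_lit 0) (nat_lit 1307107633) (nat_lit 608) (nat_lit 3181021900) (nat_lit 670) (nat_lit 5) (nat_lit 669) (nat_lit 5) (nat_lit 677) (nat_lit 5) (nat_lit 391) (nat_lit 384) (nat_lit 365)) (XT.nd (nat_lit 78) (nat_lit 532) (nat_lit 0) (XT.lf (nat_lit 76) (nat_lit 5478611162) (nat_lit 0) (nat_lit 494231530) (nat_lit 608) (nat_lit 603342992) (nat_lit 670) (nat_lit 5) (nat_lit 669) (nat_lit 5) (nat_lit 677) (nat_lit 5) (nat_lit 392) (nat_lit 384) (nat_lit 364)) (XT.lf (nat_lit 0) (nat_lit 1952312654) (nat_lit 608) (nat_lit 4256005557) (nat_lit 684) (nat_lit 386457211) (nat_lit 662) (nat_lit 5) (nat_lit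 670) (nat_lit 5) (nat_lit 671) (nat_lit 5) (nat_lit 393) (nat_lit 384) (nat_lit 363)))) (XT.nd (nat_lit 78) (nat_lit 684) (nat_lit 0) (XT.lf (nat_lit 0) (nat_lit 4498152513) (nat_lit 608) (nat_lit 800411625) (nat_lit 684) (nat_lit 1316184958) (nat_lit 662) (nat_lit 5) (nat_lit 670) (nat_lit 5) (nat_lit 671) (nat_lit 5) (nat_lit 394) (nat_lit 384) (nat_lit 362)) (XT.nd (nat_lit 78) (nat_lit 0) (nat_lit 0) (XT.lf (nat_lit 0) (nat_lit 408805053) (nat_lit 684) (nat_lit 3916211876) (nat_lit 760) (nat_lit 2310978192) (nat_lit 653) (nat_lit 5) (nat_lit 662) (nat_lit 5) (nat_lit 663) (nat_lit 5) (nat_lit 395) (nat_lit 384) (nat_lit 361)) (XT.lf (nat_lit 0) (nat_lit 2900048540) (nat_lit 684) (nat_lit 388460754) (nat_lit 760) (nat_lit 3370036345) (nat_lit 653) (nat_lit 5) (nat_lit 662) (nat_lit 5) (nat_lit 663) (nat_lit 5) (nat_lit 396) (nat_lit 384) (nat_lit 360)))))) (XT.nd (nat_lit 390) (nat_lit 3952) (nat_lit 0) (XT.nd (nat_lit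 156) (nat_lit 760) (nat_lit 0) (XT.nd (nat_lit 78) (nat_lit 760) (nat_lit 0) (XT.lf (nat_lit 76) (nat_lit 3214671929) (nat_lit 0) (nat_lit 2186769494) (nat_lit 760) (nat_lit 1280931499) (nat_lit 654) (nat_lit 5) (nat_lit 653) (nat_lit 5) (nat_lit 663) (nat_lit 5) (nat_lit 397) (nat_lit 384) (nat_lit 359)) (XT.lf (nat_lit 76) (nat_lit 144375974) (nat_lit 0) (nat_lit 1029000150) (nat_lit 836) (nat_lit 5534299103) (nat_lit 644) (nat_lit 5) (nat_lit 643) (nat_lit 5) (nat_lit 654) (nat_lit 5) (nat_lit 398) (nat_lit 384) (nat_lit 358))) (XT.nd (nat_lit 78) (nat_lit 836) (nat_lit 0) (XT.lf (nat_lit 0) (nat_lit 3625089641) (nat_lit 760) (nat_lit 2905961070) (nat_lit 76) (nat_lit 202984486) (nat_lit 644) (nat_lit 5) (nat_lit 654) (nat_lit 5) (nat_lit 645) (nat_lit 5) (nat_lit 399) (nat_lit 384) (nat_lit 357)) (XT.nd (nat_lit 78) (nat_lit 76) (nat_lit 0) (XT.lf (nat_lit 0) (nat_lit 789813458) (nat_lit 760) (nat_lit 5290167293)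 (nat_lit 836) (nat_lit 681888536) (nat_lit 634) (nat_lit 5) (nat_lit 644) (nat_lit 5) (nat_lit 645) (nat_lit 5) (nat_lit 400) (nat_lit 384) (nat_lit 356)) (XT.lf (nat_lit 0) (nat_lit 1732496085) (nat_lit 836) (nat_lit 2241543684) (nat_lit 76) (nat_lit 2816769777) (nat_lit 633) (nat_lit 5) (nat_lit 644) (nat_lit 5) (nat_lit 634) (nat_lit 5) (nat_lit 401) (nat_lit 384) (nat_lit 355))))) (XT.nd (nat_lit 234) (nat_lit 2128) (nat_lit 0) (XT.nd (nat_lit 78) (nat_lit 988) (nat_lit 0) (XT.lf (nat_lit 0) (nat_lit 1541244145) (nat_lit 836) (nat_lit 2598614586) (nat_lit 912) (nat_lit 2681331388) (nat_lit 622) (nat_lit 5) (nat_lit 633) (nat_lit 5) (nat_lit 634) (nat_lit 5) (nat_lit 402) (nat_lit 384) (nat_lit 354)) (XT.nd (nat_lit 78) (nat_lit 988) (nat_lit 0) (XT.lf (nat_lit 0) (nat_lit 5392290225) (nat_lit 836) (nat_lit 1162782393) (nat_lit 912) (nat_lit 297939126) (nat_lit 622) (nat_lit 5) (nat_lit 633) (nat_lit 5) (nat_lit 634)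 (nat_lit 5) (nat_lit 403) (nat_lit 384) (nat_lit 353)) (XT.lf (nat_lit 0) (nat_lit 2068449334) (nat_lit 988) (nat_lit 4473346765) (nat_lit 76) (nat_lit 344157068) (nat_lit 609) (nat_lit 5) (nat_lit 622) (nat_lit 5) (nat_lit 610) (nat_lit 5) (nat_lit 404) (nat_lit 384) (nat_lit 352)))) (XT.nd (nat_lit 78) (nat_lit 2128) (nat_lit 0) (XT.lf (nat_lit 0) (nat_lit 4442041939) (nat_lit 988) (nat_lit 584647682) (nat_lit 76) (nat_lit 1893573028) (nat_lit 609) (nat_lit 5) (nat_lit 622) (nat_lit 5) (nat_lit 610) (nat_lit 5) (nat_lit 405) (nat_lit 384) (nat_lit 351)) (XT.nd (nat_lit 78) (nat_lit 1140) (nat_lit 0) (XT.lf (nat_lit 0) (nat_lit 3388269928) (nat_lit 988) (nat_lit 3444182795) (nat_lit 1064) (nat_lit 123444094) (nat_lit 596) (nat_lit 5) (nat_lit 609) (nat_lit 5) (nat_lit 610) (nat_lit 5) (nat_lit 406) (nat_lit 384) (nat_lit 350)) (XT.lf (nat_lit 0) (nat_lit 408482150) (nat_lit 1064) (nat_lit 1794432025) (nat_lit 1140)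 (nat_lit 4789970708) (nat_lit 581) (nat_lit 5) (nat_lit 595) (nat_lit 5) (nat_lit 596) (nat_lit 5) (nat_lit 407) (nat_lit 384) (nat_lit 349))))))))
noncomputable def xc104 : XT := (XT.nd (nat_lit 1638) (nat_lit 10336) (nat_lit 0) (XT.nd (nat_lit 780) (nat_lit 9652) (nat_lit 0) (XT.nd (nat_lit 390) (nat_lit 4256) (nat_lit 0) (XT.nd (nat_lit 156) (nat_lit 1292) (nat_lit 0) (XT.nd (nat_lit 78) (nat_lit 1140) (nat_lit 0) (XT.lf (nat_lit 0) (nat_lit 4473436299) (nat_lit 1064) (nat_lit 73190025) (nat_lit 1140) (nat_lit 2484544432) (nat_lit 581) (nat_lit 5) (nat_lit 595) (nat_lit 5) (nat_lit 596) (nat_lit 5) (nat_lit 408) (nat_lit 384) (nat_lit 348)) (XT.lf (nat_lit 0) (nat_lit 1519900790) (nat_lit 1140) (nat_lit 5387739989) (nat_lit 1216) (nat_lit 163196493) (nat_lit 566) (nat_lit 5) (nat_lit 581) (nat_lit 5) (nat_lit 582) (nat_lit 5) (nat_lit 409) (nat_lit 384) (nat_lit 347))) (XT.nd (nat_lit 78) (nat_lit 1216) (nat_lit 0)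 (XT.lf (nat_lit 0) (nat_lit 2143450521) (nat_lit 1216) (nat_lit 1451115649) (nat_lit 76) (nat_lit 3517111544) (nat_lit 565) (nat_lit 5) (nat_lit 581) (nat_lit 5) (nat_lit 566) (nat_lit 5) (nat_lit 410) (nat_lit 384) (nat_lit 346)) (XT.nd (nat_lit 78) (nat_lit 0) (nat_lit 0) (XT.lf (nat_lit 0) (nat_lit 2727143338) (nat_lit 1216) (nat_lit 1735613781) (nat_lit 1292) (nat_lit 2691204166) (nat_lit 549) (nat_lit 5) (nat_lit 565) (nat_lit 5) (nat_lit 566) (nat_lit 5) (nat_lit 411) (nat_lit 384) (nat_lit 345)) (XT.lf (nat_lit 0) (nat_lit 6791078505) (nat_lit 1292) (nat_lit 228411704) (nat_lit 76) (nat_lit 178369444) (nat_lit 549) (nat_lit 5) (nat_lit 566) (nat_lit 5) (nat_lit 550) (nat_lit 5) (nat_lit 412) (nat_lit 384) (nat_lit 344))))) (XT.nd (nat_lit 156) (nat_lit 1520) (nat_lit 0) (XT.nd (nat_lit 78) (nat_lit 1368) (nat_lit 0) (XT.lf (nat_lit 0) (nat_lit 1888589144) (nat_lit 1368) (nat_lit 3197870169) (nat_lit 76) (nat_lit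 2156138110) (nat_lit 531) (nat_lit 5) (nat_lit 549) (nat_lit 5) (nat_lit 532) (nat_lit 5) (nat_lit 413) (nat_lit 384) (nat_lit 343)) (XT.lf (nat_lit 0) (nat_lit 1091159040) (nat_lit 1368) (nat_lit 3094974001) (nat_lit 1444) (nat_lit 3102829317) (nat_lit 513) (nat_lit 5) (nat_lit 531) (nat_lit 5) (nat_lit 532) (nat_lit 5) (nat_lit 414) (nat_lit 384) (nat_lit 342))) (XT.nd (nat_lit 78) (nat_lit 1520) (nat_lit 0) (XT.lf (nat_lit 0) (nat_lit 5470897716) (nat_lit 1368) (nat_lit 1033940507) (nat_lit 1444) (nat_lit 831932210) (nat_lit 513) (nat_lit 5) (nat_lit 531) (nat_lit 5) (nat_lit 532) (nat_lit 5) (nat_lit 415) (nat_lit 384) (nat_lit 341)) (XT.nd (nat_lit 78) (nat_lit 0) (nat_lit 0) (XT.lf (nat_lit 0) (nat_lit 1442888810) (nat_lit 1520) (nat_lit 4855047785) (nat_lit 76) (nat_lit 1087865110) (nat_lit 493) (nat_lit 5) (nat_lit 513) (nat_lit 5) (nat_lit 494) (nat_lit 5) (nat_lit 416) (nat_lit 384) (nat_lit 340)) (XT.lf (nat_lit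 0) (nat_lit 3726560096) (nat_lit 1520) (nat_lit 446401771) (nat_lit 76) (nat_lit 3263270777) (nat_lit 493) (nat_lit 5) (nat_lit 513) (nat_lit 5) (nat_lit 494) (nat_lit 5) (nat_lit 417) (nat_lit 384) (nat_lit 339)))))) (XT.nd (nat_lit 390) (nat_lit 4712) (nat_lit 0) (XT.nd (nat_lit 156) (nat_lit 1748) (nat_lit 0) (XT.nd (nat_lit 78) (nat_lit 1672) (nat_lit 0) (XT.lf (nat_lit 0) (nat_lit 4065497300) (nat_lit 1520) (nat_lit 1972716948) (nat_lit 1596) (nat_lit 1449830286) (nat_lit 473) (nat_lit 5) (nat_lit 493) (nat_lit 5) (nat_lit 494) (nat_lit 5) (nat_lit 418) (nat_lit 384) (nat_lit 338)) (XT.lf (nat_lit 0) (nat_lit 812296851) (nat_lit 1672) (nat_lit 6440211293) (nat_lit 76) (nat_lit 288925182) (nat_lit 451) (nat_lit 5) (nat_lit 473) (nat_lit 5) (nat_lit 452) (nat_lit 5) (nat_lit 419) (nat_lit 384) (nat_lit 337))) (XT.nd (nat_lit 78) (nat_lit 1748) (nat_lit 0) (XT.lf (nat_lit 0) (nat_lit 3093321342) (nat_lit 1672) (nat_lit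 1895634119) (nat_lit 76) (nat_lit 2606898856) (nat_lit 451) (nat_lit 5) (nat_lit 473) (nat_lit 5) (nat_lit 452) (nat_lit 5) (nat_lit 420) (nat_lit 384) (nat_lit 336)) (XT.nd (nat_lit 78) (nat_lit 76) (nat_lit 0) (XT.lf (nat_lit 0) (nat_lit 2737257943) (nat_lit 1672) (nat_lit 2658192576) (nat_lit 1748) (nat_lit 2256420635) (nat_lit 429) (nat_lit 5) (nat_lit 451) (nat_lit 5) (nat_lit 452) (nat_lit 5) (nat_lit 421) (nat_lit 384) (nat_lit 335)) (XT.lf (nat_lit 0) (nat_lit 4965279) (nat_lit 1748) (nat_lit 259356976) (nat_lit 76) (nat_lit 7445281918) (nat_lit 428) (nat_lit 5) (nat_lit 451) (nat_lit 5) (nat_lit 429) (nat_lit 5) (nat_lit 422) (nat_lit 384) (nat_lit 334))))) (XT.nd (nat_lit 234) (nat_lit 1824) (nat_lit 0) (XT.nd (nat_lit 78) (nat_lit 1140) (nat_lit 0) (XT.lf (nat_lit 0) (nat_lit 2283851830) (nat_lit 1824) (nat_lit 3287922235) (nat_lit 76) (nat_lit 2196385882) (nat_lit 405) (nat_lit 5) (nat_lit 429) (nat_lit 5)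 (nat_lit 406) (nat_lit 5) (nat_lit 423) (nat_lit 384) (nat_lit 333)) (XT.nd (nat_lit 78) (nat_lit 0) (nat_lit 0) (XT.lf (nat_lit 0) (nat_lit 1469161014) (nat_lit 1140) (nat_lit 3111600560) (nat_lit 1216) (nat_lit 3247692162) (nat_lit 390) (nat_lit 5) (nat_lit 405) (nat_lit 5) (nat_lit 406) (nat_lit 5) (nat_lit 424) (nat_lit 384) (nat_lit 332)) (XT.lf (nat_lit 0) (nat_lit 6327575535) (nat_lit 1140) (nat_lit 578048746) (nat_lit 1216) (nat_lit 984704321) (nat_lit 390) (nat_lit 5) (nat_lit 405) (nat_lit 5) (nat_lit 406) (nat_lit 5) (nat_lit 425) (nat_lit 384) (nat_lit 331)))) (XT.nd (nat_lit 78) (nat_lit 836) (nat_lit 0) (XT.lf (nat_lit 0) (nat_lit 1301478770) (nat_lit 988) (nat_lit 4640291088) (nat_lit 76) (nat_lit 2011608255) (nat_lit 377) (nat_lit 5) (nat_lit 390) (nat_lit 5) (nat_lit 378) (nat_lit 5) (nat_lit 426) (nat_lit 384) (nat_lit 330)) (XT.nd (nat_lit 78) (nat_lit 0) (nat_lit 0) (XT.lf (nat_lit 0) (nat_lit 244215033)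 (nat_lit 836) (nat_lit 3352965244) (nat_lit 912) (nat_lit 4420853164) (nat_lit 366) (nat_lit 5) (nat_lit 377) (nat_lit 5) (nat_lit 378) (nat_lit 5) (nat_lit 427) (nat_lit 384) (nat_lit 329)) (XT.lf (nat_lit 0) (nat_lit 5250848709) (nat_lit 836) (nat_lit 680598458) (nat_lit 912) (nat_lit 2152695998) (nat_lit 366) (nat_lit 5) (nat_lit 377) (nat_lit 5) (nat_lit 378) (nat_lit 5) (nat_lit 428) (nat_lit 384) (nat_lit 328))))))) (XT.nd (nat_lit 858) (nat_lit 4636) (nat_lit 0) (XT.nd (nat_lit 390) (nat_lit 3040) (nat_lit 0) (XT.nd (nat_lit 156) (nat_lit 1748) (nat_lit 0) (XT.nd (nat_lit 78) (nat_lit 0) (nat_lit 0) (XT.lf (nat_lit 0) (nat_lit 148352317) (nat_lit 912) (nat_lit 5969857975) (nat_lit 76) (nat_lit 2033564923) (nat_lit 354) (nat_lit 5) (nat_lit 366) (nat_lit 5) (nat_lit 355) (nat_lit 5) (nat_lit 429) (nat_lit 384) (nat_lit 327)) (XT.lf (nat_lit 0) (nat_lit 2452768866) (nat_lit 912) (nat_lit 942166204) (nat_lit 76)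 (nat_lit 4825830305) (nat_lit 354) (nat_lit 5) (nat_lit 366) (nat_lit 5) (nat_lit 355) (nat_lit 5) (nat_lit 430) (nat_lit 384) (nat_lit 326))) (XT.nd (nat_lit 78) (nat_lit 912) (nat_lit 0) (XT.lf (nat_lit 0) (nat_lit 4203228711) (nat_lit 836) (nat_lit 590569337) (nat_lit 912) (nat_lit 3497540029) (nat_lit 343) (nat_lit 5) (nat_lit 354) (nat_lit 5) (nat_lit 355) (nat_lit 5) (nat_lit 431) (nat_lit 384) (nat_lit 325)) (XT.nd (nat_lit 78) (nat_lit 76) (nat_lit 0) (XT.lf (nat_lit 0) (nat_lit 1061796867) (nat_lit 836) (nat_lit 6111547504) (nat_lit 912) (nat_lit 1190156899) (nat_lit 332) (nat_lit 5) (nat_lit 343) (nat_lit 5) (nat_lit 344) (nat_lit 5) (nat_lit 432) (nat_lit 384) (nat_lit 324)) (XT.lf (nat_lit 0) (nat_lit 1143556748) (nat_lit 912) (nat_lit 2116783958) (nat_lit 76) (nat_lit 5176719603) (nat_lit 331) (nat_lit 5) (nat_lit 343) (nat_lit 5) (nat_lit 332) (nat_lit 5) (nat_lit 433) (nat_lit 384) (nat_lit 323))))) (XT.nd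 (nat_lit 234) (nat_lit 1520) (nat_lit 0) (XT.nd (nat_lit 78) (nat_lit 760) (nat_lit 0) (XT.lf (nat_lit 0) (nat_lit 3167559512) (nat_lit 760) (nat_lit 325651920) (nat_lit 836) (nat_lit 5019029916) (nat_lit 321) (nat_lit 5) (nat_lit 331) (nat_lit 5) (nat_lit 332) (nat_lit 5) (nat_lit 434) (nat_lit 384) (nat_lit 322)) (XT.nd (nat_lit 78) (nat_lit 760) (nat_lit 0) (XT.lf (nat_lit 0) (nat_lit 5886531950) (nat_lit 836) (nat_lit 58152972) (nat_lit 76) (nat_lit 2644319611) (nat_lit 321) (nat_lit 5) (nat_lit 332) (nat_lit 5) (nat_lit 322) (nat_lit 5) (nat_lit 435) (nat_lit 384) (nat_lit 321)) (XT.lf (nat_lit 0) (nat_lit 5364681412) (nat_lit 760) (nat_lit 2965763658) (nat_lit 836) (nat_lit 336815134) (nat_lit 311) (nat_lit 5) (nat_lit 321) (nat_lit 5) (nat_lit 322) (nat_lit 5) (nat_lit 436) (nat_lit 384) (nat_lit 320)))) (XT.nd (nat_lit 78) (nat_lit 760) (nat_lit 0) (XT.lf (nat_lit 0) (nat_lit 2029687343) (nat_lit 760) (nat_lit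 6621603441) (nat_lit 76) (nat_lit 95916675) (nat_lit 301) (nat_lit 5) (nat_lit 311) (nat_lit 5) (nat_lit 302) (nat_lit 5) (nat_lit 437) (nat_lit 384) (nat_lit 319)) (XT.nd (nat_lit 78) (nat_lit 760) (nat_lit 0) (XT.lf (nat_lit 0) (nat_lit 4447294185) (nat_lit 760) (nat_lit 1181463751) (nat_lit 76) (nat_lit 3199796580) (nat_lit 301) (nat_lit 5) (nat_lit 311) (nat_lit 5) (nat_lit 302) (nat_lit 5) (nat_lit 438) (nat_lit 384) (nat_lit 318)) (XT.lf (nat_lit 0) (nat_lit 4387518899) (nat_lit 760) (nat_lit 2521211559) (nat_lit 836) (nat_lit 2002899359) (nat_lit 291) (nat_lit 5) (nat_lit 301) (nat_lit 5) (nat_lit 302) (nat_lit 5) (nat_lit 439) (nat_lit 384) (nat_lit 317)))))) (XT.nd (nat_lit 390) (nat_lit 2508) (nat_lit 0) (XT.nd (nat_lit 156) (nat_lit 1368) (nat_lit 0) (XT.nd (nat_lit 78) (nat_lit 0) (nat_lit 0) (XT.lf (nat_lit 0) (nat_lit 403815840) (nat_lit 760) (nat_lit 7939874031) (nat_lit 76) (nat_lit 652905548) (nat_lit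 281) (nat_lit 5) (nat_lit 291) (nat_lit 5) (nat_lit 282) (nat_lit 5) (nat_lit 440) (nat_lit 384) (nat_lit 316)) (XT.lf (nat_lit 0) (nat_lit 2846666047) (nat_lit 760) (nat_lit 2340400431) (nat_lit 76) (nat_lit 3895642907) (nat_lit 281) (nat_lit 5) (nat_lit 291) (nat_lit 5) (nat_lit 282) (nat_lit 5) (nat_lit 441) (nat_lit 384) (nat_lit 315))) (XT.nd (nat_lit 78) (nat_lit 684) (nat_lit 0) (XT.lf (nat_lit 0) (nat_lit 3378031740) (nat_lit 684) (nat_lit 1950447931) (nat_lit 760) (nat_lit 3842273854) (nat_lit 272) (nat_lit 5) (nat_lit 281) (nat_lit 5) (nat_lit 282) (nat_lit 5) (nat_lit 442) (nat_lit 384) (nat_lit 314)) (XT.nd (nat_lit 78) (nat_lit 684) (nat_lit 0) (XT.lf (nat_lit 0) (nat_lit 7853030423) (nat_lit 760) (nat_lit 64252909) (nat_lit 76) (nat_lit 1343423026) (nat_lit 272) (nat_lit 5) (nat_lit 282) (nat_lit 5) (nat_lit 273) (nat_lit 5) (nat_lit 443) (nat_lit 384) (nat_lit 313)) (XT.lf (nat_lit 0) (nat_lit 1081373250)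 (nat_lit 684) (nat_lit 3554136287) (nat_lit 76) (nat_lit 4716421161) (nat_lit 263) (nat_lit 5) (nat_lit 272) (nat_lit 5) (nat_lit 264) (nat_lit 5) (nat_lit 444) (nat_lit 384) (nat_lit 312))))) (XT.nd (nat_lit 234) (nat_lit 1216) (nat_lit 0) (XT.nd (nat_lit 78) (nat_lit 608) (nat_lit 0) (XT.lf (nat_lit 0) (nat_lit 2316918333) (nat_lit 684) (nat_lit 1269224260) (nat_lit 760) (nat_lit 5858964339) (nat_lit 254) (nat_lit 5) (nat_lit 263) (nat_lit 5) (nat_lit 264) (nat_lit 5) (nat_lit 445) (nat_lit 384) (nat_lit 311)) (XT.nd (nat_lit 78) (nat_lit 608) (nat_lit 0) (XT.lf (nat_lit 0) (nat_lit 6148681552) (nat_lit 760) (nat_lit 1237764230) (nat_lit 76) (nat_lit 2153556503) (nat_lit 254) (nat_lit 5) (nat_lit 264) (nat_lit 5) (nat_lit 255) (nat_lit 5) (nat_lit 446) (nat_lit 384) (nat_lit 310)) (XT.lf (nat_lit 0) (nat_lit 4788139638) (nat_lit 608) (nat_lit 3984034222) (nat_lit 684) (nat_lit 864436534) (nat_lit 246) (nat_lit 5) (nat_lit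 254) (nat_lit 5) (nat_lit 255) (nat_lit 5) (nat_lit 447) (nat_lit 384) (nat_lit 309)))) (XT.nd (nat_lit 78) (nat_lit 532) (nat_lit 0) (XT.lf (nat_lit 0) (nat_lit 1183822656) (nat_lit 608) (nat_lit 493096817) (nat_lit 684) (nat_lit 8058289307) (nat_lit 237) (nat_lit 5) (nat_lit 245) (nat_lit 5) (nat_lit 246) (nat_lit 5) (nat_lit 448) (nat_lit 384) (nat_lit 308)) (XT.nd (nat_lit 78) (nat_lit 532) (nat_lit 0) (XT.lf (nat_lit 0) (nat_lit 4280855972) (nat_lit 684) (nat_lit 2495687669) (nat_lit 76) (nat_lit 3058663038) (nat_lit 237) (nat_lit 5) (nat_lit 246) (nat_lit 5) (nat_lit 238) (nat_lit 5) (nat_lit 449) (nat_lit 384) (nat_lit 307)) (XT.lf (nat_lit 0) (nat_lit 3689794678) (nat_lit 532) (nat_lit 3245522988) (nat_lit 608) (nat_lit 3001926164) (nat_lit 230) (nat_lit 5) (nat_lit 237) (nat_lit 5) (nat_lit 238) (nat_lit 5) (nat_lit 450) (nat_lit 384) (nat_lit 306))))))))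
noncomputable def xc105 : XT := (XT.nd (nat_lit 1716) (nat_lit 4636) (nat_lit 0) (XT.nd (nat_lit 858) (nat_lit 2736) (nat_lit 0) (XT.nd (nat_lit 390) (nat_lit 2052) (nat_lit 0) (XT.nd (nat_lit 156) (nat_lit 1140) (nat_lit 0) (XT.nd (nat_lit 78) (nat_lit 684) (nat_lit 0) (XT.lf (nat_lit 0) (nat_lit 9633542000) (nat_lit 608) (nat_lit 47337017) (nat_lit 76) (nat_lit 360637301) (nat_lit 230) (nat_lit 5) (nat_lit 238) (nat_lit 5) (nat_lit 231) (nat_lit 5) (nat_lit 451) (nat_lit 384) (nat_lit 305)) (XT.lf (nat_lit 0) (nat_lit 2243198608) (nat_lit 684) (nat_lit 3860039172) (nat_lit 76) (nat_lit 4043659793) (nat_lit 221) (nat_lit 5) (nat_lit 230) (nat_lit 5) (nat_lit 222) (nat_lit 5) (nat_lit 452) (nat_lit 384) (nat_lit 304))) (XT.nd (nat_lit 78) (nat_lit 608) (nat_lit 0) (XT.lf (nat_lit 0) (nat_lit 2487759469) (nat_lit 532) (nat_lit 2442836410) (nat_lit 608) (nat_lit 5323970962) (nat_lit 214) (nat_lit 5) (nat_lit 221) (nat_lit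 5) (nat_lit 222) (nat_lit 5) (nat_lit 453) (nat_lit 384) (nat_lit 303)) (XT.nd (nat_lit 78) (nat_lit 608) (nat_lit 0) (XT.lf (nat_lit 0) (nat_lit 7678640113) (nat_lit 608) (nat_lit 1394013785) (nat_lit 76) (nat_lit 1291605066) (nat_lit 214) (nat_lit 5) (nat_lit 222) (nat_lit 5) (nat_lit 215) (nat_lit 5) (nat_lit 454) (nat_lit 384) (nat_lit 302)) (XT.lf (nat_lit 0) (nat_lit 27983723) (nat_lit 608) (nat_lit 5354374426) (nat_lit 76) (nat_lit 5093342112) (nat_lit 206) (nat_lit 5) (nat_lit 214) (nat_lit 5) (nat_lit 207) (nat_lit 5) (nat_lit 455) (nat_lit 384) (nat_lit 301))))) (XT.nd (nat_lit 234) (nat_lit 988) (nat_lit 0) (XT.nd (nat_lit 78) (nat_lit 532) (nat_lit 0) (XT.lf (nat_lit 0) (nat_lit 1158184012) (nat_lit 532) (nat_lit 1591783442) (nat_lit 608) (nat_lit 7839253520) (nat_lit 199) (nat_lit 5) (nat_lit 206) (nat_lit 5) (nat_lit 207) (nat_lit 5) (nat_lit 456) (nat_lit 384) (nat_lit 300)) (XT.nd (nat_lit 78) (nat_lit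 532) (nat_lit 0) (XT.lf (nat_lit 0) (nat_lit 5550665234) (nat_lit 608) (nat_lit 2881814236) (nat_lit 76) (nat_lit 2272054024) (nat_lit 199) (nat_lit 5) (nat_lit 207) (nat_lit 5) (nat_lit 200) (nat_lit 5) (nat_lit 457) (nat_lit 384) (nat_lit 299)) (XT.lf (nat_lit 0) (nat_lit 3802339162) (nat_lit 532) (nat_lit 4614127042) (nat_lit 608) (nat_lit 2405511022) (nat_lit 192) (nat_lit 5) (nat_lit 199) (nat_lit 5) (nat_lit 200) (nat_lit 5) (nat_lit 458) (nat_lit 384) (nat_lit 298)))) (XT.nd (nat_lit 78) (nat_lit 912) (nat_lit 0) (XT.lf (nat_lit 0) (nat_lit 386029427) (nat_lit 608) (nat_lit 320354837) (nat_lit 76) (nat_lit 10235471726) (nat_lit 191) (nat_lit 5) (nat_lit 199) (nat_lit 5) (nat_lit 192) (nat_lit 5) (nat_lit 459) (nat_lit 384) (nat_lit 297)) (XT.nd (nat_lit 78) (nat_lit 456) (nat_lit 0) (XT.lf (nat_lit 0) (nat_lit 3239832261) (nat_lit 532) (nat_lit 4537041459) (nat_lit 76) (nat_lit 3286174130) (nat_lit 185) (nat_lit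 5) (nat_lit 192) (nat_lit 5) (nat_lit 186) (nat_lit 5) (nat_lit 460) (nat_lit 384) (nat_lit 296)) (XT.lf (nat_lit 0) (nat_lit 2317695747) (nat_lit 456) (nat_lit 3829598196) (nat_lit 532) (nat_lit 5039444180) (nat_lit 179) (nat_lit 5) (nat_lit 185) (nat_lit 5) (nat_lit 186) (nat_lit 5) (nat_lit 461) (nat_lit 384) (nat_lit 295)))))) (XT.nd (nat_lit 390) (nat_lit 1368) (nat_lit 0) (XT.nd (nat_lit 156) (nat_lit 836) (nat_lit 0) (XT.nd (nat_lit 78) (nat_lit 532) (nat_lit 0) (XT.lf (nat_lit 0) (nat_lit 9119728725) (nat_lit 532) (nat_lit 1977981845) (nat_lit 76) (nat_lit 215061264) (nat_lit 179) (nat_lit 5) (nat_lit 186) (nat_lit 5) (nat_lit 180) (nat_lit 5) (nat_lit 462) (nat_lit 384) (nat_lit 294)) (XT.lf (nat_lit 0) (nat_lit 734775883) (nat_lit 532) (nat_lit 6388176386) (nat_lit 76) (nat_lit 4317611481) (nat_lit 172) (nat_lit 5) (nat_lit 179) (nat_lit 5) (nat_lit 173) (nat_lit 5) (nat_lit 463) (nat_lit 384) (nat_lit 293)))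 (XT.nd (nat_lit 78) (nat_lit 380) (nat_lit 0) (XT.lf (nat_lit 0) (nat_lit 638642400) (nat_lit 456) (nat_lit 3046163645) (nat_lit 532) (nat_lit 7885960905) (nat_lit 166) (nat_lit 5) (nat_lit 172) (nat_lit 5) (nat_lit 173) (nat_lit 5) (nat_lit 464) (nat_lit 384) (nat_lit 292)) (XT.nd (nat_lit 78) (nat_lit 380) (nat_lit 0) (XT.lf (nat_lit 0) (nat_lit 6719885300) (nat_lit 532) (nat_lit 3852479616) (nat_lit 76) (nat_lit 1130693973) (nat_lit 166) (nat_lit 5) (nat_lit 173) (nat_lit 5) (nat_lit 167) (nat_lit 5) (nat_lit 465) (nat_lit 384) (nat_lit 291)) (XT.lf (nat_lit 0) (nat_lit 3358466190) (nat_lit 380) (nat_lit 6475331238) (nat_lit 456) (nat_lit 2003842146) (nat_lit 161) (nat_lit 5) (nat_lit 166) (nat_lit 5) (nat_lit 167) (nat_lit 5) (nat_lit 466) (nat_lit 384) (nat_lit 290))))) (XT.nd (nat_lit 234) (nat_lit 456) (nat_lit 0) (XT.nd (nat_lit 78) (nat_lit 836) (nat_lit 0) (XT.lf (nat_lit 0) (nat_lit 1023762304) (nat_lit 456)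 (nat_lit 1249696120) (nat_lit 76) (nat_lit 9701279129) (nat_lit 160) (nat_lit 5) (nat_lit 166) (nat_lit 5) (nat_lit 161) (nat_lit 5) (nat_lit 467) (nat_lit 384) (nat_lit 289)) (XT.nd (nat_lit 78) (nat_lit 380) (nat_lit 0) (XT.lf (nat_lit 0) (nat_lit 4115152238) (nat_lit 532) (nat_lit 5969058600) (nat_lit 76) (nat_lit 2029505662) (nat_lit 154) (nat_lit 5) (nat_lit 161) (nat_lit 5) (nat_lit 155) (nat_lit 5) (nat_lit 468) (nat_lit 384) (nat_lit 288)) (XT.lf (nat_lit 0) (nat_lit 1418252291) (nat_lit 380) (nat_lit 5859700882) (nat_lit 456) (nat_lit 4977335303) (nat_lit 149) (nat_lit 5) (nat_lit 154) (nat_lit 5) (nat_lit 155) (nat_lit 5) (nat_lit 469) (nat_lit 384) (nat_lit 287)))) (XT.nd (nat_lit 78) (nat_lit 456) (nat_lit 0) (XT.lf (nat_lit 0) (nat_lit 9000675275) (nat_lit 380) (nat_lit 1520503253) (nat_lit 456) (nat_lit 1878175007) (nat_lit 149) (nat_lit 5) (nat_lit 154) (nat_lit 5) (nat_lit 155) (nat_lit 5) (nat_lit 470)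 (nat_lit 384) (nat_lit 286)) (XT.nd (nat_lit 78) (nat_lit 0) (nat_lit 0) (XT.lf (nat_lit 0) (nat_lit 1289864020) (nat_lit 456) (nat_lit 8363041804) (nat_lit 76) (nat_lit 2892757854) (nat_lit 143) (nat_lit 5) (nat_lit 149) (nat_lit 5) (nat_lit 144) (nat_lit 5) (nat_lit 471) (nat_lit 384) (nat_lit 285)) (XT.lf (nat_lit 0) (nat_lit 4506734265) (nat_lit 456) (nat_lit 788843003) (nat_lit 76) (nat_lit 7398866799) (nat_lit 143) (nat_lit 5) (nat_lit 149) (nat_lit 5) (nat_lit 144) (nat_lit 5) (nat_lit 472) (nat_lit 384) (nat_lit 284))))))) (XT.nd (nat_lit 858) (nat_lit 1900) (nat_lit 0) (XT.nd (nat_lit 390) (nat_lit 1520) (nat_lit 0) (XT.nd (nat_lit 156) (nat_lit 456) (nat_lit 0) (XT.nd (nat_lit 78) (nat_lit 380) (nat_lit 0) (XT.lf (nat_lit 0) (nat_lit 6995887917) (nat_lit 380) (nat_lit 815483955) (nat_lit 456) (nat_lit 5034364224) (nat_lit 138) (nat_lit 5) (nat_lit 143) (nat_lit 5) (nat_lit 144) (nat_lit 5) (nat_lit 473) (nat_lit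 384) (nat_lit 283)) (XT.lf (nat_lit 0) (nat_lit 1914903336) (nat_lit 380) (nat_lit 9287493862) (nat_lit 456) (nat_lit 1797255408) (nat_lit 133) (nat_lit 5) (nat_lit 138) (nat_lit 5) (nat_lit 139) (nat_lit 5) (nat_lit 474) (nat_lit 384) (nat_lit 282))) (XT.nd (nat_lit 78) (nat_lit 380) (nat_lit 0) (XT.lf (nat_lit 0) (nat_lit 1508006048) (nat_lit 456) (nat_lit 3289982524) (nat_lit 76) (nat_lit 8358004991) (nat_lit 132) (nat_lit 5) (nat_lit 138) (nat_lit 5) (nat_lit 133) (nat_lit 5) (nat_lit 475) (nat_lit 384) (nat_lit 281)) (XT.nd (nat_lit 78) (nat_lit 0) (nat_lit 0) (XT.lf (nat_lit 0) (nat_lit 4677836752) (nat_lit 380) (nat_lit 186519180) (nat_lit 456) (nat_lit 8450691120) (nat_lit 127) (nat_lit 5) (nat_lit 132) (nat_lit 5) (nat_lit 133) (nat_lit 5) (nat_lit 476) (nat_lit 384) (nat_lit 280)) (XT.lf (nat_lit 0) (nat_lit 8318178612) (nat_lit 456) (nat_lit 689140332) (nat_lit 76) (nat_lit 4469359943) (nat_lit 127) (nat_lit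 5) (nat_lit 133) (nat_lit 5) (nat_lit 128) (nat_lit 5) (nat_lit 477) (nat_lit 384) (nat_lit 279))))) (XT.nd (nat_lit 234) (nat_lit 760) (nat_lit 0) (XT.nd (nat_lit 78) (nat_lit 380) (nat_lit 0) (XT.lf (nat_lit 0) (nat_lit 7482998115) (nat_lit 380) (nat_lit 4387108805) (nat_lit 456) (nat_lit 1770859968) (nat_lit 122) (nat_lit 5) (nat_lit 127) (nat_lit 5) (nat_lit 128) (nat_lit 5) (nat_lit 478) (nat_lit 384) (nat_lit 278)) (XT.nd (nat_lit 78) (nat_lit 0) (nat_lit 0) (XT.lf (nat_lit 0) (nat_lit 1661601541) (nat_lit 380) (nat_lit 11807713096) (nat_lit 76) (nat_lit 339027994) (nat_lit 117) (nat_lit 5) (nat_lit 122) (nat_lit 5) (nat_lit 118) (nat_lit 5) (nat_lit 479) (nat_lit 384) (nat_lit 277)) (XT.lf (nat_lit 0) (nat_lit 5189073420) (nat_lit 380) (nat_lit 3645422910) (nat_lit 76) (nat_lit 5143337868) (nat_lit 117) (nat_lit 5) (nat_lit 122) (nat_lit 5) (nat_lit 118) (nat_lit 5) (nat_lit 480) (nat_lit 384) (nat_lit 276))))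 (XT.nd (nat_lit 78) (nat_lit 380) (nat_lit 0) (XT.lf (nat_lit 0) (nat_lit 4710518585) (nat_lit 380) (nat_lit 4086964091) (nat_lit 456) (nat_lit 5353028959) (nat_lit 112) (nat_lit 5) (nat_lit 117) (nat_lit 5) (nat_lit 118) (nat_lit 5) (nat_lit 481) (nat_lit 384) (nat_lit 275)) (XT.nd (nat_lit 78) (nat_lit 380) (nat_lit 0) (XT.lf (nat_lit 0) (nat_lit 12487515435) (nat_lit 456) (nat_lit 1079725787) (nat_lit 76) (nat_lit 759216017) (nat_lit 112) (nat_lit 5) (nat_lit 118) (nat_lit 5) (nat_lit 113) (nat_lit 5) (nat_lit 482) (nat_lit 384) (nat_lit 274)) (XT.lf (nat_lit 0) (nat_lit 1778904762) (nat_lit 380) (nat_lit 7028502348) (nat_lit 76) (nat_lit 5697164192) (nat_lit 107) (nat_lit 5) (nat_lit 112) (nat_lit 5) (nat_lit 108) (nat_lit 5) (nat_lit 483) (nat_lit 384) (nat_lit 273)))))) (XT.nd (nat_lit 390) (nat_lit 912) (nat_lit 0) (XT.nd (nat_lit 156) (nat_lit 684) (nat_lit 0) (XT.nd (nat_lit 78) (nat_lit 0) (nat_lit 0) (XT.lf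 (nat_lit 0) (nat_lit 1508123508) (nat_lit 304) (nat_lit 3933842575) (nat_lit 380) (nat_lit 9244092337) (nat_lit 103) (nat_lit 5) (nat_lit 107) (nat_lit 5) (nat_lit 108) (nat_lit 5) (nat_lit 484) (nat_lit 384) (nat_lit 272)) (XT.lf (nat_lit 0) (nat_lit 9212984987) (nat_lit 380) (nat_lit 4597580979) (nat_lit 76) (nat_lit 1059918828) (nat_lit 103) (nat_lit 5) (nat_lit 108) (nat_lit 5) (nat_lit 104) (nat_lit 5) (nat_lit 485) (nat_lit 384) (nat_lit 271))) (XT.nd (nat_lit 78) (nat_lit 380) (nat_lit 0) (XT.lf (nat_lit 0) (nat_lit 4152338147) (nat_lit 304) (nat_lit 8940965348) (nat_lit 380) (nat_lit 1964621990) (nat_lit 99) (nat_lit 5) (nat_lit 103) (nat_lit 5) (nat_lit 104) (nat_lit 5) (nat_lit 486) (nat_lit 384) (nat_lit 270)) (XT.nd (nat_lit 78) (nat_lit 304) (nat_lit 0) (XT.lf (nat_lit 0) (nat_lit 1790452374) (nat_lit 380) (nat_lit 2151330832) (nat_lit 76) (nat_lit 11306861534) (nat_lit 98) (nat_lit 5) (nat_lit 103) (nat_lit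 5) (nat_lit 99) (nat_lit 5) (nat_lit 487) (nat_lit 384) (nat_lit 269)) (XT.lf (nat_lit 0) (nat_lit 5627769436) (nat_lit 380) (nat_lit 8625631791) (nat_lit 76) (nat_lit 1188851660) (nat_lit 94) (nat_lit 5) (nat_lit 99) (nat_lit 5) (nat_lit 95) (nat_lit 5) (nat_lit 488) (nat_lit 384) (nat_lit 268))))) (XT.nd (nat_lit 234) (nat_lit 228) (nat_lit 0) (XT.nd (nat_lit 78) (nat_lit 380) (nat_lit 0) (XT.lf (nat_lit 0) (nat_lit 301390642) (nat_lit 304) (nat_lit 9264428779) (nat_lit 380) (nat_lit 6073437160) (nat_lit 90) (nat_lit 5) (nat_lit 94) (nat_lit 5) (nat_lit 95) (nat_lit 5) (nat_lit 489) (nat_lit 384) (nat_lit 267)) (XT.nd (nat_lit 78) (nat_lit 380) (nat_lit 0) (XT.lf (nat_lit 0) (nat_lit 9494062204) (nat_lit 304) (nat_lit 4128015063) (nat_lit 380) (nat_lit 2217337199) (nat_lit 90) (nat_lit 5) (nat_lit 94) (nat_lit 5) (nat_lit 95) (nat_lit 5) (nat_lit 490) (nat_lit 384) (nat_lit 266)) (XT.lf (nat_lit 0) (nat_lit 1700851475)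 (nat_lit 380) (nat_lit 13227262505) (nat_lit 76) (nat_lit 1115092236) (nat_lit 85) (nat_lit 5) (nat_lit 90) (nat_lit 5) (nat_lit 86) (nat_lit 5) (nat_lit 491) (nat_lit 384) (nat_lit 265)))) (XT.nd (nat_lit 78) (nat_lit 228) (nat_lit 0) (XT.lf (nat_lit 0) (nat_lit 5719838837) (nat_lit 380) (nat_lit 4075618586) (nat_lit 76) (nat_lit 6454283623) (nat_lit 85) (nat_lit 5) (nat_lit 90) (nat_lit 5) (nat_lit 86) (nat_lit 5) (nat_lit 492) (nat_lit 384) (nat_lit 264)) (XT.nd (nat_lit 78) (nat_lit 0) (nat_lit 0) (XT.lf (nat_lit 0) (nat_lit 5299572137) (nat_lit 228) (nat_lit 4536293924) (nat_lit 304) (nat_lit 6624210133) (nat_lit 82) (nat_lit 5) (nat_lit 85) (nat_lit 5) (nat_lit 86) (nat_lit 5) (nat_lit 493) (nat_lit 384) (nat_lit 263)) (XT.lf (nat_lit 0) (nat_lit 14049460756) (nat_lit 304) (nat_lit 1791197580) (nat_lit 76) (nat_lit 833657535) (nat_lit 82) (nat_lit 5) (nat_lit 86) (nat_lit 5) (nat_lit 83) (nat_lit 5) (nat_lit 494)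 (nat_lit 384) (nat_lit 262))))))))
noncomputable def xc106 : XT := (XT.nd (nat_lit 51636) (nat_lit 0) (nat_lit 33136) (XT.nd (nat_lit 50778) (nat_lit 0) (nat_lit 45220) (XT.nd (nat_lit 390) (nat_lit 988) (nat_lit 0) (XT.nd (nat_lit 156) (nat_lit 304) (nat_lit 0) (XT.nd (nat_lit 78) (nat_lit 228) (nat_lit 0) (XT.lf (nat_lit 0) (nat_lit 1499260049) (nat_lit 380) (nat_lit 9092075099) (nat_lit 76) (nat_lit 6300042008) (nat_lit 77) (nat_lit 5) (nat_lit 82) (nat_lit 5) (nat_lit 78) (nat_lit 5) (nat_lit 495) (nat_lit 384) (nat_lit 261)) (XT.lf (nat_lit 0) (nat_lit 453278393) (nat_lit 228) (nat_lit 5215233228) (nat_lit 304) (nat_lit 11443967627) (nat_lit 74) (nat_lit 5) (nat_lit 77) (nat_lit 5) (nat_lit 78) (nat_lit 5) (nat_lit 496) (nat_lit 384) (nat_lit 260))) (XT.nd (nat_lit 78) (nat_lit 304) (nat_lit 0) (XT.lf (nat_lit 0) (nat_lit 9967114554) (nat_lit 304) (nat_lit 7054785642) (nat_lit 76) (nat_lit 315186417) (nat_lit 74)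 (nat_lit 5) (nat_lit 78) (nat_lit 5) (nat_lit 75) (nat_lit 5) (nat_lit 497) (nat_lit 384) (nat_lit 259)) (XT.nd (nat_lit 78) (nat_lit 76) (nat_lit 0) (XT.lf (nat_lit 0) (nat_lit 2714705015) (nat_lit 228) (nat_lit 11672292369) (nat_lit 304) (nat_lit 3178485091) (nat_lit 71) (nat_lit 5) (nat_lit 74) (nat_lit 5) (nat_lit 75) (nat_lit 5) (nat_lit 498) (nat_lit 384) (nat_lit 258)) (XT.lf (nat_lit 0) (nat_lit 1113281858) (nat_lit 304) (nat_lit 5057839280) (nat_lit 76) (nat_lit 11626568389) (nat_lit 70) (nat_lit 5) (nat_lit 74) (nat_lit 5) (nat_lit 71) (nat_lit 5) (nat_lit 499) (nat_lit 384) (nat_lit 257))))) (XT.nd (nat_lit 234) (nat_lit 532) (nat_lit 0) (XT.nd (nat_lit 78) (nat_lit 228) (nat_lit 0) (XT.lf (nat_lit 0) (nat_lit 4947223248) (nat_lit 228) (nat_lit 516771757) (nat_lit 304) (nat_lit 12569814467) (nat_lit 67) (nat_lit 5) (nat_lit 70) (nat_lit 5) (nat_lit 71) (nat_lit 5) (nat_lit 500) (nat_lit 384) (nat_lit 256))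 (XT.nd (nat_lit 78) (nat_lit 228) (nat_lit 0) (XT.lf (nat_lit 0) (nat_lit 9953562897) (nat_lit 304) (nat_lit 3114985894) (nat_lit 76) (nat_lit 5205068530) (nat_lit 67) (nat_lit 5) (nat_lit 71) (nat_lit 5) (nat_lit 68) (nat_lit 5) (nat_lit 501) (nat_lit 384) (nat_lit 255)) (XT.lf (nat_lit 0) (nat_lit 7118886953) (nat_lit 228) (nat_lit 7447584085) (nat_lit 304) (nat_lit 3951081580) (nat_lit 64) (nat_lit 5) (nat_lit 67) (nat_lit 5) (nat_lit 68) (nat_lit 5) (nat_lit 502) (nat_lit 384) (nat_lit 254)))) (XT.nd (nat_lit 78) (nat_lit 456) (nat_lit 0) (XT.lf (nat_lit 0) (nat_lit 503624568) (nat_lit 304) (nat_lit 1196845791) (nat_lit 76) (nat_lit 17065733224) (nat_lit 63) (nat_lit 5) (nat_lit 67) (nat_lit 5) (nat_lit 64) (nat_lit 5) (nat_lit 503) (nat_lit 384) (nat_lit 253)) (XT.nd (nat_lit 78) (nat_lit 228) (nat_lit 0) (XT.lf (nat_lit 0) (nat_lit 5066583039) (nat_lit 304) (nat_lit 9768019867) (nat_lit 76) (nat_lit 4183263202)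 (nat_lit 60) (nat_lit 5) (nat_lit 64) (nat_lit 5) (nat_lit 61) (nat_lit 5) (nat_lit 504) (nat_lit 384) (nat_lit 252)) (XT.lf (nat_lit 0) (nat_lit 617400401) (nat_lit 228) (nat_lit 9111075612) (nat_lit 304) (nat_lit 9545934461) (nat_lit 57) (nat_lit 5) (nat_lit 60) (nat_lit 5) (nat_lit 61) (nat_lit 5) (nat_lit 505) (nat_lit 384) (nat_lit 251)))))) (XT.nd (nat_lit 390) (nat_lit 1292) (nat_lit 0) (XT.nd (nat_lit 156) (nat_lit 988) (nat_lit 0) (XT.nd (nat_lit 78) (nat_lit 0) (nat_lit 0) (XT.lf (nat_lit 0) (nat_lit 778452174) (nat_lit 0) (nat_lit 778452174) (nat_lit 380) (nat_lit 1688319545) (nat_lit 682) (nat_lit 5) (nat_lit 682) (nat_lit 3) (nat_lit 687) (nat_lit 3) (nat_lit 385) (nat_lit 385) (nat_lit 370)) (XT.lf (nat_lit 0) (nat_lit 4721188656) (nat_lit 0) (nat_lit 1071557522) (nat_lit 380) (nat_lit 708059912) (nat_lit 682) (nat_lit 5) (nat_lit 682) (nat_lit 3) (nat_lit 687) (nat_lit 3) (nat_lit 386) (nat_lit 385) (nat_lit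 369))) (XT.nd (nat_lit 78) (nat_lit 456) (nat_lit 0) (XT.lf (nat_lit 76) (nat_lit 1407068624) (nat_lit 0) (nat_lit 519591461) (nat_lit 532) (nat_lit 4585707222) (nat_lit 676) (nat_lit 5) (nat_lit 675) (nat_lit 3) (nat_lit 682) (nat_lit 5) (nat_lit 387) (nat_lit 385) (nat_lit 368)) (XT.nd (nat_lit 78) (nat_lit 532) (nat_lit 0) (XT.lf (nat_lit 0) (nat_lit 4548309639) (nat_lit 456) (nat_lit 1884454349) (nat_lit 532) (nat_lit 92467924) (nat_lit 676) (nat_lit 5) (nat_lit 682) (nat_lit 5) (nat_lit 683) (nat_lit 5) (nat_lit 388) (nat_lit 385) (nat_lit 367)) (XT.lf (nat_lit 0) (nat_lit 619809057) (nat_lit 532) (nat_lit 5164482688) (nat_lit 608) (nat_lit 755116935) (nat_lit 669) (nat_lit 5) (nat_lit 676) (nat_lit 5) (nat_lit 677) (nat_lit 5) (nat_lit 389) (nat_lit 385) (nat_lit 366))))) (XT.nd (nat_lit 234) (nat_lit 684) (nat_lit 0) (XT.nd (nat_lit 78) (nat_lit 608) (nat_lit 0) (XT.lf (nat_lit 0) (nat_lit 3188115158) (nat_lit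 532) (nat_lit 1878805552) (nat_lit 608) (nat_lit 1487802481) (nat_lit 669) (nat_lit 5) (nat_lit 676) (nat_lit 5) (nat_lit 677) (nat_lit 5) (nat_lit 390) (nat_lit 385) (nat_lit 365)) (XT.nd (nat_lit 78) (nat_lit 608) (nat_lit 0) (XT.lf (nat_lit 76) (nat_lit 1455347016) (nat_lit 0) (nat_lit 4296553129) (nat_lit 608) (nat_lit 819598630) (nat_lit 670) (nat_lit 5) (nat_lit 669) (nat_lit 5) (nat_lit 677) (nat_lit 5) (nat_lit 391) (nat_lit 385) (nat_lit 364)) (XT.lf (nat_lit 0) (nat_lit 1702967739) (nat_lit 608) (nat_lit 1755319477) (nat_lit 684) (nat_lit 3131168528) (nat_lit 661) (nat_lit 5) (nat_lit 669) (nat_lit 5) (nat_lit 670) (nat_lit 5) (nat_lit 392) (nat_lit 385) (nat_lit 363)))) (XT.nd (nat_lit 78) (nat_lit 684) (nat_lit 0) (XT.lf (nat_lit 76) (nat_lit 1652720139) (nat_lit 0) (nat_lit 2559550215) (nat_lit 684) (nat_lit 2396482860) (nat_lit 662) (nat_lit 5) (nat_lit 661) (nat_lit 5) (nat_lit 670) (nat_lit 5) (nat_lit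 393) (nat_lit 385) (nat_lit 362)) (XT.nd (nat_lit 78) (nat_lit 0) (nat_lit 0) (XT.lf (nat_lit 0) (nat_lit 90381739) (nat_lit 684) (nat_lit 1513383628) (nat_lit 760) (nat_lit 5025707423) (nat_lit 652) (nat_lit 5) (nat_lit 661) (nat_lit 5) (nat_lit 662) (nat_lit 5) (nat_lit 394) (nat_lit 385) (nat_lit 361)) (XT.lf (nat_lit 76) (nat_lit 1971945392) (nat_lit 0) (nat_lit 574098121) (nat_lit 760) (nat_lit 4105256342) (nat_lit 653) (nat_lit 5) (nat_lit 652) (nat_lit 5) (nat_lit 662) (nat_lit 5) (nat_lit 395) (nat_lit 385) (nat_lit 360))))))) (XT.nd (nat_lit 858) (nat_lit 7752) (nat_lit 0) (XT.nd (nat_lit 390) (nat_lit 2812) (nat_lit 0) (XT.nd (nat_lit 156) (nat_lit 836) (nat_lit 0) (XT.nd (nat_lit 78) (nat_lit 760) (nat_lit 0) (XT.lf (nat_lit 0) (nat_lit 5003585685) (nat_lit 684) (nat_lit 1166358322) (nat_lit 760) (nat_lit 504596355) (nat_lit 653) (nat_lit 5) (nat_lit 662) (nat_lit 5) (nat_lit 663) (nat_lit 5) (nat_lit 396)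 (nat_lit 385) (nat_lit 359)) (XT.lf (nat_lit 0) (nat_lit 761164215) (nat_lit 760) (nat_lit 4296007716) (nat_lit 836) (nat_lit 1641803673) (nat_lit 643) (nat_lit 5) (nat_lit 653) (nat_lit 5) (nat_lit 654) (nat_lit 5) (nat_lit 397) (nat_lit 385) (nat_lit 358))) (XT.nd (nat_lit 78) (nat_lit 836) (nat_lit 0) (XT.lf (nat_lit 0) (nat_lit 3168601259) (nat_lit 760) (nat_lit 712543928) (nat_lit 836) (nat_lit 2843582850) (nat_lit 643) (nat_lit 5) (nat_lit 653) (nat_lit 5) (nat_lit 654) (nat_lit 5) (nat_lit 398) (nat_lit 385) (nat_lit 357)) (XT.nd (nat_lit 78) (nat_lit 836) (nat_lit 0) (XT.lf (nat_lit 76) (nat_lit 2944765089) (nat_lit 0) (nat_lit 2640845470) (nat_lit 836) (nat_lit 1166186278) (nat_lit 644) (nat_lit 5) (nat_lit 643) (nat_lit 5) (nat_lit 654) (nat_lit 5) (nat_lit 399) (nat_lit 385) (nat_lit 356)) (XT.lf (nat_lit 0) (nat_lit 1202484986) (nat_lit 836) (nat_lit 139714058) (nat_lit 912) (nat_lit 5438119314) (nat_lit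 632) (nat_lit 5) (nat_lit 643) (nat_lit 5) (nat_lit 644) (nat_lit 5) (nat_lit 400) (nat_lit 385) (nat_lit 355))))) (XT.nd (nat_lit 234) (nat_lit 1976) (nat_lit 0) (XT.nd (nat_lit 78) (nat_lit 912) (nat_lit 0) (XT.lf (nat_lit 0) (nat_lit 3570467755) (nat_lit 836) (nat_lit 3205930058) (nat_lit 76) (nat_lit 33535330) (nat_lit 633) (nat_lit 5) (nat_lit 644) (nat_lit 5) (nat_lit 634) (nat_lit 5) (nat_lit 401) (nat_lit 385) (nat_lit 354)) (XT.nd (nat_lit 78) (nat_lit 76) (nat_lit 0) (XT.lf (nat_lit 0) (nat_lit 545337514) (nat_lit 836) (nat_lit 5398753215) (nat_lit 912) (nat_lit 896911404) (nat_lit 622) (nat_lit 5) (nat_lit 633) (nat_lit 5) (nat_lit 634) (nat_lit 5) (nat_lit 402) (nat_lit 385) (nat_lit 353)) (XT.lf (nat_lit 0) (nat_lit 1439936479) (nat_lit 912) (nat_lit 2504801268) (nat_lit 76) (nat_lit 2928447060) (nat_lit 621) (nat_lit 5) (nat_lit 633) (nat_lit 5) (nat_lit 622) (nat_lit 5) (nat_lit 403) (nat_lit 385) (nat_lit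 352)))) (XT.nd (nat_lit 78) (nat_lit 1064) (nat_lit 0) (XT.lf (nat_lit 0) (nat_lit 1336413941) (nat_lit 912) (nat_lit 2430218387) (nat_lit 988) (nat_lit 3140183753) (nat_lit 609) (nat_lit 5) (nat_lit 621) (nat_lit 5) (nat_lit 622) (nat_lit 5) (nat_lit 404) (nat_lit 385) (nat_lit 351)) (XT.nd (nat_lit 78) (nat_lit 1064) (nat_lit 0) (XT.lf (nat_lit 0) (nat_lit 5251597556) (nat_lit 912) (nat_lit 852316967) (nat_lit 988) (nat_lit 837949835) (nat_lit 609) (nat_lit 5) (nat_lit 621) (nat_lit 5) (nat_lit 622) (nat_lit 5) (nat_lit 405) (nat_lit 385) (nat_lit 350)) (XT.lf (nat_lit 0) (nat_lit 1458219469) (nat_lit 1064) (nat_lit 4732993081) (nat_lit 76) (nat_lit 786875385) (nat_lit 595) (nat_lit 5) (nat_lit 609) (nat_lit 5) (nat_lit 596) (nat_lit 5) (nat_lit 406) (nat_lit 385) (nat_lit 349)))))) (XT.nd (nat_lit 390) (nat_lit 4256) (nat_lit 0) (XT.nd (nat_lit 156) (nat_lit 2432) (nat_lit 0) (XT.nd (nat_lit 78) (nat_lit 1064) (nat_lit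 0) (XT.lf (nat_lit 0) (nat_lit 3754955564) (nat_lit 1064) (nat_lit 781710018) (nat_lit 76) (nat_lit 2478966313) (nat_lit 595) (nat_lit 5) (nat_lit 609) (nat_lit 5) (nat_lit 596) (nat_lit 5) (nat_lit 407) (nat_lit 385) (nat_lit 348)) (XT.lf (nat_lit 0) (nat_lit 3254311245) (nat_lit 1064) (nat_lit 2814239269) (nat_lit 1140) (nat_lit 985981226) (nat_lit 581) (nat_lit 5) (nat_lit 595) (nat_lit 5) (nat_lit 596) (nat_lit 5) (nat_lit 408) (nat_lit 385) (nat_lit 347))) (XT.nd (nat_lit 78) (nat_lit 1216) (nat_lit 0) (XT.lf (nat_lit 0) (nat_lit 244646188) (nat_lit 1140) (nat_lit 1029122733) (nat_lit 1216) (nat_lit 5821148794) (nat_lit 565) (nat_lit 5) (nat_lit 580) (nat_lit 5) (nat_lit 581) (nat_lit 5) (nat_lit 409) (nat_lit 385) (nat_lit 346)) (XT.nd (nat_lit 78) (nat_lit 1216) (nat_lit 0) (XT.lf (nat_lit 0) (nat_lit 3547338085) (nat_lit 1216) (nat_lit 2763761430) (nat_lit 76) (nat_lit 825267157) (nat_lit 565) (nat_lit 5) (nat_lit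 581) (nat_lit 5) (nat_lit 566) (nat_lit 5) (nat_lit 410) (nat_lit 385) (nat_lit 345)) (XT.lf (nat_lit 0) (nat_lit 1378244840) (nat_lit 1216) (nat_lit 4455861750) (nat_lit 1292) (nat_lit 1345205158) (nat_lit 549) (nat_lit 5) (nat_lit 565) (nat_lit 5) (nat_lit 566) (nat_lit 5) (nat_lit 411) (nat_lit 385) (nat_lit 344))))) (XT.nd (nat_lit 234) (nat_lit 2888) (nat_lit 0) (XT.nd (nat_lit 78) (nat_lit 1292) (nat_lit 0) (XT.lf (nat_lit 0) (nat_lit 902119415) (nat_lit 1292) (nat_lit 1626340936) (nat_lit 76) (nat_lit 4695133738) (nat_lit 548) (nat_lit 5) (nat_lit 565) (nat_lit 5) (nat_lit 549) (nat_lit 5) (nat_lit 412) (nat_lit 385) (nat_lit 343)) (XT.nd (nat_lit 78) (nat_lit 0) (nat_lit 0) (XT.lf (nat_lit 0) (nat_lit 2620175899) (nat_lit 1292) (nat_lit 526495415) (nat_lit 1368) (nat_lit 4122527513) (nat_lit 531) (nat_lit 5) (nat_lit 548) (nat_lit 5) (nat_lit 549) (nat_lit 5) (nat_lit 413) (nat_lit 385) (nat_lit 342)) (XT.lf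 (nat_lit 0) (nat_lit 5410940275) (nat_lit 1368) (nat_lit 389656017) (nat_lit 76) (nat_lit 1515642894) (nat_lit 531) (nat_lit 5) (nat_lit 549) (nat_lit 5) (nat_lit 532) (nat_lit 5) (nat_lit 414) (nat_lit 385) (nat_lit 341)))) (XT.nd (nat_lit 78) (nat_lit 1444) (nat_lit 0) (XT.lf (nat_lit 0) (nat_lit 335617945) (nat_lit 1444) (nat_lit 3400507295) (nat_lit 76) (nat_lit 3628387792) (nat_lit 512) (nat_lit 5) (nat_lit 531) (nat_lit 5) (nat_lit 513) (nat_lit 5) (nat_lit 415) (nat_lit 385) (nat_lit 340)) (XT.nd (nat_lit 78) (nat_lit 0) (nat_lit 0) (XT.lf (nat_lit 0) (nat_lit 958720111) (nat_lit 1444) (nat_lit 1601235195) (nat_lit 1520) (nat_lit 4854281776) (nat_lit 493) (nat_lit 5) (nat_lit 512) (nat_lit 5) (nat_lit 513) (nat_lit 5) (nat_lit 416) (nat_lit 385) (nat_lit 339)) (XT.lf (nat_lit 0) (nat_lit 4811405329) (nat_lit 1520) (nat_lit 2055405167) (nat_lit 76) (nat_lit 598511119) (nat_lit 493) (nat_lit 5) (nat_lit 513) (nat_lit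 5) (nat_lit 494) (nat_lit 5) (nat_lit 417) (nat_lit 385) (nat_lit 338))))))))
noncomputable def xc107 : XT := (XT.nd (nat_lit 1716) (nat_lit 8056) (nat_lit 0) (XT.nd (nat_lit 858) (nat_lit 5700) (nat_lit 0) (XT.nd (nat_lit 390) (nat_lit 4712) (nat_lit 0) (XT.nd (nat_lit 156) (nat_lit 3344) (nat_lit 0) (XT.nd (nat_lit 78) (nat_lit 76) (nat_lit 0) (XT.lf (nat_lit 0) (nat_lit 2416305149) (nat_lit 1520) (nat_lit 4674649641) (nat_lit 1596) (nat_lit 426829796) (nat_lit 473) (nat_lit 5) (nat_lit 493) (nat_lit 5) (nat_lit 494) (nat_lit 5) (nat_lit 418) (nat_lit 385) (nat_lit 337)) (XT.lf (nat_lit 0) (nat_lit 1791571619) (nat_lit 1596) (nat_lit 615609665) (nat_lit 76) (nat_lit 5164474072) (nat_lit 472) (nat_lit 5) (nat_lit 493) (nat_lit 5) (nat_lit 473) (nat_lit 5) (nat_lit 419) (nat_lit 385) (nat_lit 336))) (XT.nd (nat_lit 78) (nat_lit 1748) (nat_lit 0) (XT.lf (nat_lit 0) (nat_lit 3972157220) (nat_lit 1596) (nat_lit 60189172)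 (nat_lit 1672) (nat_lit 3594543420) (nat_lit 451) (nat_lit 5) (nat_lit 472) (nat_lit 5) (nat_lit 473) (nat_lit 5) (nat_lit 420) (nat_lit 385) (nat_lit 335)) (XT.nd (nat_lit 78) (nat_lit 76) (nat_lit 0) (XT.lf (nat_lit 0) (nat_lit 936255607) (nat_lit 1672) (nat_lit 5365611754) (nat_lit 1748) (nat_lit 1381699756) (nat_lit 429) (nat_lit 5) (nat_lit 451) (nat_lit 5) (nat_lit 452) (nat_lit 5) (nat_lit 421) (nat_lit 385) (nat_lit 334)) (XT.lf (nat_lit 0) (nat_lit 847829814) (nat_lit 1748) (nat_lit 2116564745) (nat_lit 76) (nat_lit 4777207657) (nat_lit 428) (nat_lit 5) (nat_lit 451) (nat_lit 5) (nat_lit 429) (nat_lit 5) (nat_lit 422) (nat_lit 385) (nat_lit 333))))) (XT.nd (nat_lit 234) (nat_lit 1824) (nat_lit 0) (XT.nd (nat_lit 78) (nat_lit 1140) (nat_lit 0) (XT.lf (nat_lit 0) (nat_lit 2594381216) (nat_lit 1748) (nat_lit 485560784) (nat_lit 1824) (nat_lit 4721159303) (nat_lit 405) (nat_lit 5) (nat_lit 428) (nat_lit 5) (nat_lit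 429) (nat_lit 5) (nat_lit 423) (nat_lit 385) (nat_lit 332)) (XT.nd (nat_lit 78) (nat_lit 1140) (nat_lit 0) (XT.lf (nat_lit 0) (nat_lit 5344457554) (nat_lit 1824) (nat_lit 484502911) (nat_lit 76) (nat_lit 2033090182) (nat_lit 405) (nat_lit 5) (nat_lit 429) (nat_lit 5) (nat_lit 406) (nat_lit 5) (nat_lit 424) (nat_lit 385) (nat_lit 331)) (XT.lf (nat_lit 0) (nat_lit 4348845834) (nat_lit 1140) (nat_lit 3297849459) (nat_lit 1216) (nat_lit 277690241) (nat_lit 390) (nat_lit 5) (nat_lit 405) (nat_lit 5) (nat_lit 406) (nat_lit 5) (nat_lit 425) (nat_lit 385) (nat_lit 330)))) (XT.nd (nat_lit 78) (nat_lit 836) (nat_lit 0) (XT.lf (nat_lit 0) (nat_lit 1263628881) (nat_lit 912) (nat_lit 689773200) (nat_lit 988) (nat_lit 6034864748) (nat_lit 377) (nat_lit 5) (nat_lit 389) (nat_lit 5) (nat_lit 390) (nat_lit 5) (nat_lit 426) (nat_lit 385) (nat_lit 329)) (XT.nd (nat_lit 78) (nat_lit 836) (nat_lit 0) (XT.lf (nat_lit 0) (nat_lit 4224109955)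 (nat_lit 988) (nat_lit 1857647616) (nat_lit 76) (nat_lit 1971671546) (nat_lit 377) (nat_lit 5) (nat_lit 390) (nat_lit 5) (nat_lit 378) (nat_lit 5) (nat_lit 427) (nat_lit 385) (nat_lit 328)) (XT.lf (nat_lit 0) (nat_lit 3105631198) (nat_lit 836) (nat_lit 3421844684) (nat_lit 912) (nat_lit 1592687927) (nat_lit 366) (nat_lit 5) (nat_lit 377) (nat_lit 5) (nat_lit 378) (nat_lit 5) (nat_lit 428) (nat_lit 385) (nat_lit 327)))))) (XT.nd (nat_lit 390) (nat_lit 3040) (nat_lit 0) (XT.nd (nat_lit 156) (nat_lit 1748) (nat_lit 0) (XT.nd (nat_lit 78) (nat_lit 836) (nat_lit 0) (XT.lf (nat_lit 0) (nat_lit 654940676) (nat_lit 912) (nat_lit 36659200) (nat_lit 76) (nat_lit 7497051446) (nat_lit 365) (nat_lit 5) (nat_lit 377) (nat_lit 5) (nat_lit 366) (nat_lit 5) (nat_lit 429) (nat_lit 385) (nat_lit 326)) (XT.lf (nat_lit 0) (nat_lit 2936423210) (nat_lit 912) (nat_lit 3212419227) (nat_lit 76) (nat_lit 2109264273) (nat_lit 354) (nat_lit 5) (nat_lit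 366) (nat_lit 5) (nat_lit 355) (nat_lit 5) (nat_lit 430) (nat_lit 385) (nat_lit 325))) (XT.nd (nat_lit 78) (nat_lit 912) (nat_lit 0) (XT.lf (nat_lit 0) (nat_lit 1884128516) (nat_lit 836) (nat_lit 3360422706) (nat_lit 912) (nat_lit 3084792632) (nat_lit 343) (nat_lit 5) (nat_lit 354) (nat_lit 5) (nat_lit 355) (nat_lit 5) (nat_lit 431) (nat_lit 385) (nat_lit 324)) (XT.nd (nat_lit 78) (nat_lit 912) (nat_lit 0) (XT.lf (nat_lit 0) (nat_lit 7089165203) (nat_lit 836) (nat_lit 495655287) (nat_lit 912) (nat_lit 817478391) (nat_lit 343) (nat_lit 5) (nat_lit 354) (nat_lit 5) (nat_lit 355) (nat_lit 5) (nat_lit 432) (nat_lit 385) (nat_lit 323)) (XT.lf (nat_lit 0) (nat_lit 1481919361) (nat_lit 912) (nat_lit 4566060619) (nat_lit 76) (nat_lit 2428424158) (nat_lit 331) (nat_lit 5) (nat_lit 343) (nat_lit 5) (nat_lit 332) (nat_lit 5) (nat_lit 433) (nat_lit 385) (nat_lit 322))))) (XT.nd (nat_lit 234) (nat_lit 1520) (nat_lit 0) (XT.nd (nat_lit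 78) (nat_lit 760) (nat_lit 0) (XT.lf (nat_lit 0) (nat_lit 667076284) (nat_lit 760) (nat_lit 3131092597) (nat_lit 836) (nat_lit 4754090331) (nat_lit 321) (nat_lit 5) (nat_lit 331) (nat_lit 5) (nat_lit 332) (nat_lit 5) (nat_lit 434) (nat_lit 385) (nat_lit 321)) (XT.nd (nat_lit 78) (nat_lit 760) (nat_lit 0) (XT.lf (nat_lit 0) (nat_lit 6029821963) (nat_lit 760) (nat_lit 127318142) (nat_lit 836) (nat_lit 2472575092) (nat_lit 321) (nat_lit 5) (nat_lit 331) (nat_lit 5) (nat_lit 332) (nat_lit 5) (nat_lit 435) (nat_lit 385) (nat_lit 320)) (XT.lf (nat_lit 0) (nat_lit 2771495609) (nat_lit 760) (nat_lit 5795265726) (nat_lit 836) (nat_lit 141901070) (nat_lit 311) (nat_lit 5) (nat_lit 321) (nat_lit 5) (nat_lit 322) (nat_lit 5) (nat_lit 436) (nat_lit 385) (nat_lit 319)))) (XT.nd (nat_lit 78) (nat_lit 1444) (nat_lit 0) (XT.lf (nat_lit 0) (nat_lit 2191074461) (nat_lit 836) (nat_lit 555859112) (nat_lit 76) (nat_lit 6042275669) (nat_lit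 310) (nat_lit 5) (nat_lit 321) (nat_lit 5) (nat_lit 311) (nat_lit 5) (nat_lit 437) (nat_lit 385) (nat_lit 318)) (XT.nd (nat_lit 78) (nat_lit 760) (nat_lit 0) (XT.lf (nat_lit 0) (nat_lit 4570823921) (nat_lit 760) (nat_lit 3913095555) (nat_lit 76) (nat_lit 387399342) (nat_lit 301) (nat_lit 5) (nat_lit 311) (nat_lit 5) (nat_lit 302) (nat_lit 5) (nat_lit 438) (nat_lit 385) (nat_lit 317)) (XT.lf (nat_lit 0) (nat_lit 1601141482) (nat_lit 760) (nat_lit 5397006838) (nat_lit 836) (nat_lit 1956933302) (nat_lit 291) (nat_lit 5) (nat_lit 301) (nat_lit 5) (nat_lit 302) (nat_lit 5) (nat_lit 439) (nat_lit 385) (nat_lit 316))))))) (XT.nd (nat_lit 858) (nat_lit 3420) (nat_lit 0) (XT.nd (nat_lit 390) (nat_lit 2508) (nat_lit 0) (XT.nd (nat_lit 156) (nat_lit 1368) (nat_lit 0) (XT.nd (nat_lit 78) (nat_lit 684) (nat_lit 0) (XT.lf (nat_lit 0) (nat_lit 422060209) (nat_lit 836) (nat_lit 1801240329) (nat_lit 76) (nat_lit 6817288156) (nat_lit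 290) (nat_lit 5) (nat_lit 301) (nat_lit 5) (nat_lit 291) (nat_lit 5) (nat_lit 440) (nat_lit 385) (nat_lit 315)) (XT.lf (nat_lit 0) (nat_lit 2822791080) (nat_lit 760) (nat_lit 5270498718) (nat_lit 76) (nat_lit 1034260210) (nat_lit 281) (nat_lit 5) (nat_lit 291) (nat_lit 5) (nat_lit 282) (nat_lit 5) (nat_lit 441) (nat_lit 385) (nat_lit 314))) (XT.nd (nat_lit 78) (nat_lit 684) (nat_lit 0) (XT.lf (nat_lit 0) (nat_lit 390633210) (nat_lit 684) (nat_lit 4879128803) (nat_lit 760) (nat_lit 3946533855) (nat_lit 272) (nat_lit 5) (nat_lit 281) (nat_lit 5) (nat_lit 282) (nat_lit 5) (nat_lit 442) (nat_lit 385) (nat_lit 313)) (XT.nd (nat_lit 78) (nat_lit 684) (nat_lit 0) (XT.lf (nat_lit 0) (nat_lit 6200069231) (nat_lit 684) (nat_lit 1570144704) (nat_lit 760) (nat_lit 1536521511) (nat_lit 272) (nat_lit 5) (nat_lit 281) (nat_lit 5) (nat_lit 282) (nat_lit 5) (nat_lit 443) (nat_lit 385) (nat_lit 312)) (XT.lf (nat_lit 0) (nat_lit 908673335)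 (nat_lit 684) (nat_lit 6690626751) (nat_lit 76) (nat_lit 1799591900) (nat_lit 263) (nat_lit 5) (nat_lit 272) (nat_lit 5) (nat_lit 264) (nat_lit 5) (nat_lit 444) (nat_lit 385) (nat_lit 311))))) (XT.nd (nat_lit 234) (nat_lit 1216) (nat_lit 0) (XT.nd (nat_lit 78) (nat_lit 1292) (nat_lit 0) (XT.lf (nat_lit 0) (nat_lit 3383496455) (nat_lit 684) (nat_lit 867977760) (nat_lit 76) (nat_lit 5241197424) (nat_lit 263) (nat_lit 5) (nat_lit 272) (nat_lit 5) (nat_lit 264) (nat_lit 5) (nat_lit 445) (nat_lit 385) (nat_lit 310)) (XT.nd (nat_lit 78) (nat_lit 608) (nat_lit 0) (XT.lf (nat_lit 0) (nat_lit 5102358207) (nat_lit 684) (nat_lit 809071438) (nat_lit 760) (nat_lit 3676833868) (nat_lit 254) (nat_lit 5) (nat_lit 263) (nat_lit 5) (nat_lit 264) (nat_lit 5) (nat_lit 446) (nat_lit 385) (nat_lit 309)) (XT.lf (nat_lit 0) (nat_lit 1484096277) (nat_lit 608) (nat_lit 7009661929) (nat_lit 684) (nat_lit 1191941012) (nat_lit 246) (nat_lit 5) (nat_lit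 254) (nat_lit 5) (nat_lit 255) (nat_lit 5) (nat_lit 447) (nat_lit 385) (nat_lit 308)))) (XT.nd (nat_lit 78) (nat_lit 1140) (nat_lit 0) (XT.lf (nat_lit 0) (nat_lit 1331635167) (nat_lit 684) (nat_lit 2200609512) (nat_lit 76) (nat_lit 6252541107) (nat_lit 245) (nat_lit 5) (nat_lit 254) (nat_lit 5) (nat_lit 246) (nat_lit 5) (nat_lit 448) (nat_lit 385) (nat_lit 307)) (XT.nd (nat_lit 78) (nat_lit 532) (nat_lit 0) (XT.lf (nat_lit 0) (nat_lit 3887020548) (nat_lit 684) (nat_lit 5957451245) (nat_lit 76) (nat_lit 41286985) (nat_lit 237) (nat_lit 5) (nat_lit 246) (nat_lit 5) (nat_lit 238) (nat_lit 5) (nat_lit 449) (nat_lit 385) (nat_lit 306)) (XT.lf (nat_lit 0) (nat_lit 164096874) (nat_lit 532) (nat_lit 6340528139) (nat_lit 608) (nat_lit 3483912051) (nat_lit 230) (nat_lit 5) (nat_lit 237) (nat_lit 5) (nat_lit 238) (nat_lit 5) (nat_lit 450) (nat_lit 385) (nat_lit 305)))))) (XT.nd (nat_lit 390) (nat_lit 1672) (nat_lit 0) (XT.nd (nat_lit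 156) (nat_lit 1064) (nat_lit 0) (XT.nd (nat_lit 78) (nat_lit 684) (nat_lit 0) (XT.lf (nat_lit 0) (nat_lit 6453323905) (nat_lit 532) (nat_lit 2733346487) (nat_lit 608) (nat_lit 906466652) (nat_lit 230) (nat_lit 5) (nat_lit 237) (nat_lit 5) (nat_lit 238) (nat_lit 5) (nat_lit 451) (nat_lit 385) (nat_lit 304)) (XT.lf (nat_lit 0) (nat_lit 1695937155) (nat_lit 684) (nat_lit 7549113702) (nat_lit 76) (nat_lit 954642072) (nat_lit 221) (nat_lit 5) (nat_lit 230) (nat_lit 5) (nat_lit 222) (nat_lit 5) (nat_lit 452) (nat_lit 385) (nat_lit 303))) (XT.nd (nat_lit 78) (nat_lit 1064) (nat_lit 0) (XT.lf (nat_lit 0) (nat_lit 4353683218) (nat_lit 684) (nat_lit 1251494074) (nat_lit 76) (nat_lit 4702781618) (nat_lit 221) (nat_lit 5) (nat_lit 230) (nat_lit 5) (nat_lit 222) (nat_lit 5) (nat_lit 453) (nat_lit 385) (nat_lit 302)) (XT.nd (nat_lit 78) (nat_lit 532) (nat_lit 0) (XT.lf (nat_lit 0) (nat_lit 5205591159) (nat_lit 532) (nat_lit 1866057832)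 (nat_lit 608) (nat_lit 3346607224) (nat_lit 214) (nat_lit 5) (nat_lit 221) (nat_lit 5) (nat_lit 222) (nat_lit 5) (nat_lit 454) (nat_lit 385) (nat_lit 301)) (XT.lf (nat_lit 0) (nat_lit 1246827347) (nat_lit 532) (nat_lit 8599856518) (nat_lit 608) (nat_lit 684028566) (nat_lit 207) (nat_lit 5) (nat_lit 214) (nat_lit 5) (nat_lit 215) (nat_lit 5) (nat_lit 455) (nat_lit 385) (nat_lit 300))))) (XT.nd (nat_lit 234) (nat_lit 1064) (nat_lit 0) (XT.nd (nat_lit 78) (nat_lit 532) (nat_lit 0) (XT.lf (nat_lit 0) (nat_lit 2026350765) (nat_lit 608) (nat_lit 2799471625) (nat_lit 76) (nat_lit 5818914494) (nat_lit 206) (nat_lit 5) (nat_lit 214) (nat_lit 5) (nat_lit 207) (nat_lit 5) (nat_lit 456) (nat_lit 385) (nat_lit 299)) (XT.nd (nat_lit 78) (nat_lit 0) (nat_lit 0) (XT.lf (nat_lit 0) (nat_lit 3825824889) (nat_lit 532) (nat_lit 954946289) (nat_lit 608) (nat_lit 5980207114) (nat_lit 199) (nat_lit 5) (nat_lit 206) (nat_lit 5) (nat_lit 207)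 (nat_lit 5) (nat_lit 457) (nat_lit 385) (nat_lit 298)) (XT.lf (nat_lit 0) (nat_lit 7602997991) (nat_lit 608) (nat_lit 311839903) (nat_lit 76) (nat_lit 2964458886) (nat_lit 199) (nat_lit 5) (nat_lit 207) (nat_lit 5) (nat_lit 200) (nat_lit 5) (nat_lit 458) (nat_lit 385) (nat_lit 297)))) (XT.nd (nat_lit 78) (nat_lit 532) (nat_lit 0) (XT.lf (nat_lit 0) (nat_lit 6488709651) (nat_lit 532) (nat_lit 4016288195) (nat_lit 608) (nat_lit 494523707) (nat_lit 192) (nat_lit 5) (nat_lit 199) (nat_lit 5) (nat_lit 200) (nat_lit 5) (nat_lit 459) (nat_lit 385) (nat_lit 296)) (XT.nd (nat_lit 78) (nat_lit 0) (nat_lit 0) (XT.lf (nat_lit 0) (nat_lit 2288049346) (nat_lit 456) (nat_lit 16049948) (nat_lit 532) (nat_lit 8817914732) (nat_lit 185) (nat_lit 5) (nat_lit 191) (nat_lit 5) (nat_lit 192) (nat_lit 5) (nat_lit 460) (nat_lit 385) (nat_lit 295)) (XT.lf (nat_lit 0) (nat_lit 5184126062) (nat_lit 532) (nat_lit 2026519757) (nat_lit 76) (nat_lit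 4035610203) (nat_lit 185) (nat_lit 5) (nat_lit 192) (nat_lit 5) (nat_lit 186) (nat_lit 5) (nat_lit 461) (nat_lit 385) (nat_lit 294))))))))
noncomputable def xc108 : XT := (XT.nd (nat_lit 1716) (nat_lit 3648) (nat_lit 0) (XT.nd (nat_lit 858) (nat_lit 2660) (nat_lit 0) (XT.nd (nat_lit 390) (nat_lit 1748) (nat_lit 0) (XT.nd (nat_lit 156) (nat_lit 532) (nat_lit 0) (XT.nd (nat_lit 78) (nat_lit 456) (nat_lit 0) (XT.lf (nat_lit 0) (nat_lit 4948198624) (nat_lit 456) (nat_lit 3181463477) (nat_lit 532) (nat_lit 3243168572) (nat_lit 179) (nat_lit 5) (nat_lit 185) (nat_lit 5) (nat_lit 186) (nat_lit 5) (nat_lit 462) (nat_lit 385) (nat_lit 293)) (XT.lf (nat_lit 0) (nat_lit 555514552) (nat_lit 456) (nat_lit 10577791679) (nat_lit 532) (nat_lit 368652512) (nat_lit 173) (nat_lit 5) (nat_lit 179) (nat_lit 5) (nat_lit 180) (nat_lit 5) (nat_lit 463) (nat_lit 385) (nat_lit 292))) (XT.nd (nat_lit 78) (nat_lit 456) (nat_lit 0) (XT.lf (nat_lit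 0) (nat_lit 2570167683) (nat_lit 532) (nat_lit 3942425932) (nat_lit 76) (nat_lit 5119939891) (nat_lit 172) (nat_lit 5) (nat_lit 179) (nat_lit 5) (nat_lit 173) (nat_lit 5) (nat_lit 464) (nat_lit 385) (nat_lit 291)) (XT.nd (nat_lit 78) (nat_lit 0) (nat_lit 0) (XT.lf (nat_lit 0) (nat_lit 3207998218) (nat_lit 456) (nat_lit 2352099336) (nat_lit 532) (nat_lit 6205633618) (nat_lit 166) (nat_lit 5) (nat_lit 172) (nat_lit 5) (nat_lit 173) (nat_lit 5) (nat_lit 465) (nat_lit 385) (nat_lit 290)) (XT.lf (nat_lit 0) (nat_lit 8625358758) (nat_lit 532) (nat_lit 1392144691) (nat_lit 76) (nat_lit 1883784112) (nat_lit 166) (nat_lit 5) (nat_lit 173) (nat_lit 5) (nat_lit 167) (nat_lit 5) (nat_lit 466) (nat_lit 385) (nat_lit 289))))) (XT.nd (nat_lit 234) (nat_lit 836) (nat_lit 0) (XT.nd (nat_lit 78) (nat_lit 532) (nat_lit 0) (XT.lf (nat_lit 0) (nat_lit 5946326712) (nat_lit 380) (nat_lit 5836861441) (nat_lit 456) (nat_lit 255746985) (nat_lit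 161) (nat_lit 5) (nat_lit 166) (nat_lit 5) (nat_lit 167) (nat_lit 5) (nat_lit 467) (nat_lit 385) (nat_lit 288)) (XT.nd (nat_lit 78) (nat_lit 0) (nat_lit 0) (XT.lf (nat_lit 0) (nat_lit 1236168039) (nat_lit 456) (nat_lit 1546212990) (nat_lit 532) (nat_lit 9396701120) (nat_lit 154) (nat_lit 5) (nat_lit 160) (nat_lit 5) (nat_lit 161) (nat_lit 5) (nat_lit 468) (nat_lit 385) (nat_lit 287)) (XT.lf (nat_lit 0) (nat_lit 5914712255) (nat_lit 532) (nat_lit 3580554080) (nat_lit 76) (nat_lit 2825999665) (nat_lit 154) (nat_lit 5) (nat_lit 161) (nat_lit 5) (nat_lit 155) (nat_lit 5) (nat_lit 469) (nat_lit 385) (nat_lit 286)))) (XT.nd (nat_lit 78) (nat_lit 456) (nat_lit 0) (XT.lf (nat_lit 0) (nat_lit 3938003781) (nat_lit 380) (nat_lit 5185269455) (nat_lit 456) (nat_lit 3342753543) (nat_lit 149) (nat_lit 5) (nat_lit 154) (nat_lit 5) (nat_lit 155) (nat_lit 5) (nat_lit 470) (nat_lit 385) (nat_lit 285)) (XT.nd (nat_lit 78) (nat_lit 456)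 (nat_lit 0) (XT.lf (nat_lit 0) (nat_lit 11623224510) (nat_lit 380) (nat_lit 774809941) (nat_lit 456) (nat_lit 215612560) (nat_lit 149) (nat_lit 5) (nat_lit 154) (nat_lit 5) (nat_lit 155) (nat_lit 5) (nat_lit 471) (nat_lit 385) (nat_lit 284)) (XT.lf (nat_lit 0) (nat_lit 2981608690) (nat_lit 456) (nat_lit 6052879784) (nat_lit 76) (nat_lit 3728418753) (nat_lit 143) (nat_lit 5) (nat_lit 149) (nat_lit 5) (nat_lit 144) (nat_lit 5) (nat_lit 472) (nat_lit 385) (nat_lit 283)))))) (XT.nd (nat_lit 390) (nat_lit 1444) (nat_lit 0) (XT.nd (nat_lit 156) (nat_lit 836) (nat_lit 0) (XT.nd (nat_lit 78) (nat_lit 0) (nat_lit 0) (XT.lf (nat_lit 0) (nat_lit 1645811182) (nat_lit 380) (nat_lit 4595025220) (nat_lit 456) (nat_lit 6674273299) (nat_lit 138) (nat_lit 5) (nat_lit 143) (nat_lit 5) (nat_lit 144) (nat_lit 5) (nat_lit 473) (nat_lit 385) (nat_lit 282)) (XT.lf (nat_lit 0) (nat_lit 9548672363) (nat_lit 380) (nat_lit 35849500) (nat_lit 456)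 (nat_lit 3485453349) (nat_lit 138) (nat_lit 5) (nat_lit 143) (nat_lit 5) (nat_lit 144) (nat_lit 5) (nat_lit 474) (nat_lit 385) (nat_lit 281))) (XT.nd (nat_lit 78) (nat_lit 456) (nat_lit 0) (XT.lf (nat_lit 0) (nat_lit 4377520803) (nat_lit 380) (nat_lit 8654949286) (nat_lit 456) (nat_lit 194724526) (nat_lit 133) (nat_lit 5) (nat_lit 138) (nat_lit 5) (nat_lit 139) (nat_lit 5) (nat_lit 475) (nat_lit 385) (nat_lit 280)) (XT.nd (nat_lit 78) (nat_lit 380) (nat_lit 0) (XT.lf (nat_lit 0) (nat_lit 3123447623) (nat_lit 456) (nat_lit 957613183) (nat_lit 76) (nat_lit 9306029291) (nat_lit 132) (nat_lit 5) (nat_lit 138) (nat_lit 5) (nat_lit 133) (nat_lit 5) (nat_lit 476) (nat_lit 385) (nat_lit 279)) (XT.lf (nat_lit 0) (nat_lit 6535350150) (nat_lit 456) (nat_lit 6399899682) (nat_lit 76) (nat_lit 614312539) (nat_lit 127) (nat_lit 5) (nat_lit 133) (nat_lit 5) (nat_lit 128) (nat_lit 5) (nat_lit 477) (nat_lit 385) (nat_lit 278))))) (XT.nd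 (nat_lit 234) (nat_lit 684) (nat_lit 0) (XT.nd (nat_lit 78) (nat_lit 380) (nat_lit 0) (XT.lf (nat_lit 0) (nat_lit 1680707483) (nat_lit 380) (nat_lit 8358808073) (nat_lit 456) (nat_lit 3675292070) (nat_lit 122) (nat_lit 5) (nat_lit 127) (nat_lit 5) (nat_lit 128) (nat_lit 5) (nat_lit 478) (nat_lit 385) (nat_lit 277)) (XT.nd (nat_lit 78) (nat_lit 380) (nat_lit 0) (XT.lf (nat_lit 0) (nat_lit 9978709157) (nat_lit 380) (nat_lit 3657817417) (nat_lit 456) (nat_lit 246379917) (nat_lit 122) (nat_lit 5) (nat_lit 127) (nat_lit 5) (nat_lit 128) (nat_lit 5) (nat_lit 479) (nat_lit 385) (nat_lit 276)) (XT.lf (nat_lit 0) (nat_lit 3224720733) (nat_lit 380) (nat_lit 9667224918) (nat_lit 76) (nat_lit 1161678331) (nat_lit 117) (nat_lit 5) (nat_lit 122) (nat_lit 5) (nat_lit 118) (nat_lit 5) (nat_lit 480) (nat_lit 385) (nat_lit 275)))) (XT.nd (nat_lit 78) (nat_lit 684) (nat_lit 0) (XT.lf (nat_lit 0) (nat_lit 6792744262) (nat_lit 380) (nat_lit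 1388289760) (nat_lit 76) (nat_lit 6046076956) (nat_lit 117) (nat_lit 5) (nat_lit 122) (nat_lit 5) (nat_lit 118) (nat_lit 5) (nat_lit 481) (nat_lit 385) (nat_lit 274)) (XT.nd (nat_lit 78) (nat_lit 304) (nat_lit 0) (XT.lf (nat_lit 0) (nat_lit 7119441344) (nat_lit 380) (nat_lit 3339499412) (nat_lit 456) (nat_lit 3944594359) (nat_lit 112) (nat_lit 5) (nat_lit 117) (nat_lit 5) (nat_lit 118) (nat_lit 5) (nat_lit 482) (nat_lit 385) (nat_lit 273)) (XT.lf (nat_lit 0) (nat_lit 1207968894) (nat_lit 304) (nat_lit 12998798773) (nat_lit 380) (nat_lit 376557517) (nat_lit 108) (nat_lit 5) (nat_lit 112) (nat_lit 5) (nat_lit 113) (nat_lit 5) (nat_lit 483) (nat_lit 385) (nat_lit 272))))))) (XT.nd (nat_lit 858) (nat_lit 1672) (nat_lit 0) (XT.nd (nat_lit 390) (nat_lit 912) (nat_lit 0) (XT.nd (nat_lit 156) (nat_lit 684) (nat_lit 0) (XT.nd (nat_lit 78) (nat_lit 304) (nat_lit 0) (XT.lf (nat_lit 0) (nat_lit 3272124859) (nat_lit 380) (nat_lit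 4871082463) (nat_lit 76) (nat_lit 6622041934) (nat_lit 107) (nat_lit 5) (nat_lit 112) (nat_lit 5) (nat_lit 108) (nat_lit 5) (nat_lit 484) (nat_lit 385) (nat_lit 271)) (XT.lf (nat_lit 0) (nat_lit 3821157556) (nat_lit 304) (nat_lit 3173530552) (nat_lit 380) (nat_lit 7955958305) (nat_lit 103) (nat_lit 5) (nat_lit 107) (nat_lit 5) (nat_lit 108) (nat_lit 5) (nat_lit 485) (nat_lit 385) (nat_lit 270))) (XT.nd (nat_lit 78) (nat_lit 684) (nat_lit 0) (XT.lf (nat_lit 0) (nat_lit 10818156427) (nat_lit 380) (nat_lit 2428201736) (nat_lit 76) (nat_lit 1892867582) (nat_lit 103) (nat_lit 5) (nat_lit 108) (nat_lit 5) (nat_lit 104) (nat_lit 5) (nat_lit 486) (nat_lit 385) (nat_lit 269)) (XT.nd (nat_lit 78) (nat_lit 380) (nat_lit 0) (XT.lf (nat_lit 0) (nat_lit 6481838596) (nat_lit 304) (nat_lit 8280967162) (nat_lit 380) (nat_lit 567879914) (nat_lit 99) (nat_lit 5) (nat_lit 103) (nat_lit 5) (nat_lit 104) (nat_lit 5) (nat_lit 487) (nat_lit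 385) (nat_lit 268)) (XT.lf (nat_lit 0) (nat_lit 27104224) (nat_lit 304) (nat_lit 3188745593) (nat_lit 380) (nat_lit 12309739989) (nat_lit 94) (nat_lit 5) (nat_lit 98) (nat_lit 5) (nat_lit 99) (nat_lit 5) (nat_lit 488) (nat_lit 385) (nat_lit 267))))) (XT.nd (nat_lit 234) (nat_lit 608) (nat_lit 0) (XT.nd (nat_lit 78) (nat_lit 304) (nat_lit 0) (XT.lf (nat_lit 0) (nat_lit 7122208783) (nat_lit 380) (nat_lit 6569278337) (nat_lit 76) (nat_lit 2031741712) (nat_lit 94) (nat_lit 5) (nat_lit 99) (nat_lit 5) (nat_lit 95) (nat_lit 5) (nat_lit 489) (nat_lit 385) (nat_lit 266)) (XT.nd (nat_lit 78) (nat_lit 0) (nat_lit 0) (XT.lf (nat_lit 0) (nat_lit 2521620952) (nat_lit 304) (nat_lit 8604679123) (nat_lit 380) (nat_lit 4798131456) (nat_lit 90) (nat_lit 5) (nat_lit 94) (nat_lit 5) (nat_lit 95) (nat_lit 5) (nat_lit 490) (nat_lit 385) (nat_lit 265)) (XT.lf (nat_lit 0) (nat_lit 11854730210) (nat_lit 304) (nat_lit 3382106510) (nat_lit 380)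 (nat_lit 892297231) (nat_lit 90) (nat_lit 5) (nat_lit 94) (nat_lit 5) (nat_lit 95) (nat_lit 5) (nat_lit 491) (nat_lit 385) (nat_lit 264)))) (XT.nd (nat_lit 78) (nat_lit 228) (nat_lit 0) (XT.lf (nat_lit 0) (nat_lit 3079340331) (nat_lit 380) (nat_lit 11295674214) (nat_lit 76) (nat_lit 1961952549) (nat_lit 85) (nat_lit 5) (nat_lit 90) (nat_lit 5) (nat_lit 86) (nat_lit 5) (nat_lit 492) (nat_lit 385) (nat_lit 263)) (XT.nd (nat_lit 78) (nat_lit 228) (nat_lit 0) (XT.lf (nat_lit 0) (nat_lit 7152345248) (nat_lit 380) (nat_lit 2004058859) (nat_lit 76) (nat_lit 7391759951) (nat_lit 85) (nat_lit 5) (nat_lit 90) (nat_lit 5) (nat_lit 86) (nat_lit 5) (nat_lit 493) (nat_lit 385) (nat_lit 262)) (XT.lf (nat_lit 0) (nat_lit 7544470731) (nat_lit 228) (nat_lit 3794264203) (nat_lit 304) (nat_lit 5424214246) (nat_lit 82) (nat_lit 5) (nat_lit 85) (nat_lit 5) (nat_lit 86) (nat_lit 5) (nat_lit 494) (nat_lit 385) (nat_lit 261)))))) (XT.nd (nat_lit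 390) (nat_lit 836) (nat_lit 0) (XT.nd (nat_lit 156) (nat_lit 456) (nat_lit 0) (XT.nd (nat_lit 78) (nat_lit 76) (nat_lit 0) (XT.lf (nat_lit 0) (nat_lit 294317799) (nat_lit 304) (nat_lit 15323884601) (nat_lit 380) (nat_lit 1363643264) (nat_lit 78) (nat_lit 5) (nat_lit 82) (nat_lit 5) (nat_lit 83) (nat_lit 5) (nat_lit 495) (nat_lit 385) (nat_lit 260)) (XT.lf (nat_lit 0) (nat_lit 2812165745) (nat_lit 380) (nat_lit 7153125094) (nat_lit 76) (nat_lit 7238061797) (nat_lit 77) (nat_lit 5) (nat_lit 82) (nat_lit 5) (nat_lit 78) (nat_lit 5) (nat_lit 496) (nat_lit 385) (nat_lit 259))) (XT.nd (nat_lit 78) (nat_lit 228) (nat_lit 0) (XT.lf (nat_lit 0) (nat_lit 2569182893) (nat_lit 228) (nat_lit 4484143149) (nat_lit 304) (nat_lit 10375784052) (nat_lit 74) (nat_lit 5) (nat_lit 77) (nat_lit 5) (nat_lit 78) (nat_lit 5) (nat_lit 497) (nat_lit 385) (nat_lit 258)) (XT.nd (nat_lit 78) (nat_lit 228) (nat_lit 0) (XT.lf (nat_lit 0) (nat_lit 11418288340)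 (nat_lit 304) (nat_lit 5110554164) (nat_lit 76) (nat_lit 1129763079) (nat_lit 74) (nat_lit 5) (nat_lit 78) (nat_lit 5) (nat_lit 75) (nat_lit 5) (nat_lit 498) (nat_lit 385) (nat_lit 257)) (XT.lf (nat_lit 0) (nat_lit 4840607049) (nat_lit 228) (nat_lit 11074866315) (nat_lit 304) (nat_lit 1976321557) (nat_lit 71) (nat_lit 5) (nat_lit 74) (nat_lit 5) (nat_lit 75) (nat_lit 5) (nat_lit 499) (nat_lit 385) (nat_lit 256))))) (XT.nd (nat_lit 234) (nat_lit 532) (nat_lit 0) (XT.nd (nat_lit 78) (nat_lit 228) (nat_lit 0) (XT.lf (nat_lit 0) (nat_lit 2360187610) (nat_lit 304) (nat_lit 3111557676) (nat_lit 76) (nat_lit 12657229833) (nat_lit 70) (nat_lit 5) (nat_lit 74) (nat_lit 5) (nat_lit 71) (nat_lit 5) (nat_lit 500) (nat_lit 385) (nat_lit 255)) (XT.nd (nat_lit 78) (nat_lit 0) (nat_lit 0) (XT.lf (nat_lit 0) (nat_lit 6789010872) (nat_lit 304) (nat_lit 11291803451) (nat_lit 76) (nat_lit 289184661) (nat_lit 67) (nat_lit 5) (nat_lit 71)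 (nat_lit 5) (nat_lit 68) (nat_lit 5) (nat_lit 501) (nat_lit 385) (nat_lit 254)) (XT.lf (nat_lit 0) (nat_lit 11347887386) (nat_lit 304) (nat_lit 1164450153) (nat_lit 76) (nat_lit 6102678477) (nat_lit 67) (nat_lit 5) (nat_lit 71) (nat_lit 5) (nat_lit 68) (nat_lit 5) (nat_lit 502) (nat_lit 385) (nat_lit 253)))) (XT.nd (nat_lit 78) (nat_lit 304) (nat_lit 0) (XT.lf (nat_lit 0) (nat_lit 9260857813) (nat_lit 228) (nat_lit 6781742225) (nat_lit 304) (nat_lit 2821442361) (nat_lit 64) (nat_lit 5) (nat_lit 67) (nat_lit 5) (nat_lit 68) (nat_lit 5) (nat_lit 503) (nat_lit 385) (nat_lit 252)) (XT.nd (nat_lit 78) (nat_lit 0) (nat_lit 0) (XT.lf (nat_lit 0) (nat_lit 765340126) (nat_lit 228) (nat_lit 922746662) (nat_lit 304) (nat_lit 17429794208) (nat_lit 60) (nat_lit 5) (nat_lit 63) (nat_lit 5) (nat_lit 64) (nat_lit 5) (nat_lit 504) (nat_lit 385) (nat_lit 251)) (XT.lf (nat_lit 0) (nat_lit 6332370281) (nat_lit 304) (nat_lit 7982174203)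 (nat_lit 76) (nat_lit 5060234086) (nat_lit 60) (nat_lit 5) (nat_lit 64) (nat_lit 5) (nat_lit 61) (nat_lit 5) (nat_lit 505) (nat_lit 385) (nat_lit 250))))))))
noncomputable def xc109 : XT := (XT.nd (nat_lit 1716) (nat_lit 17480) (nat_lit 0) (XT.nd (nat_lit 858) (nat_lit 3572) (nat_lit 0) (XT.nd (nat_lit 390) (nat_lit 1976) (nat_lit 0) (XT.nd (nat_lit 156) (nat_lit 532) (nat_lit 0) (XT.nd (nat_lit 78) (nat_lit 0) (nat_lit 0) (XT.lf (nat_lit 0) (nat_lit 950088043) (nat_lit 532) (nat_lit 1152861646) (nat_lit 532) (nat_lit 1152861646) (nat_lit 675) (nat_lit 3) (nat_lit 682) (nat_lit 3) (nat_lit 682) (nat_lit 5) (nat_lit 386) (nat_lit 386) (nat_lit 368)) (XT.lf (nat_lit 76) (nat_lit 851757332) (nat_lit 0) (nat_lit 3636295384) (nat_lit 532) (nat_lit 2035810215) (nat_lit 676) (nat_lit 5) (nat_lit 675) (nat_lit 3) (nat_lit 682) (nat_lit 5) (nat_lit 387) (nat_lit 386) (nat_lit 367))) (XT.nd (nat_lit 78) (nat_lit 0) (nat_lit 0)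 (XT.lf (nat_lit 0) (nat_lit 531209702) (nat_lit 532) (nat_lit 2472046384) (nat_lit 608) (nat_lit 3534101131) (nat_lit 668) (nat_lit 5) (nat_lit 675) (nat_lit 3) (nat_lit 676) (nat_lit 5) (nat_lit 388) (nat_lit 386) (nat_lit 366)) (XT.nd (nat_lit 78) (nat_lit 0) (nat_lit 0) (XT.lf (nat_lit 76) (nat_lit 753404765) (nat_lit 0) (nat_lit 2307206419) (nat_lit 608) (nat_lit 3491512837) (nat_lit 669) (nat_lit 5) (nat_lit 668) (nat_lit 5) (nat_lit 676) (nat_lit 5) (nat_lit 389) (nat_lit 386) (nat_lit 365)) (XT.lf (nat_lit 76) (nat_lit 4042096392) (nat_lit 0) (nat_lit 1549557021) (nat_lit 608) (nat_lit 976548732) (nat_lit 669) (nat_lit 5) (nat_lit 668) (nat_lit 5) (nat_lit 676) (nat_lit 5) (nat_lit 390) (nat_lit 386) (nat_lit 364))))) (XT.nd (nat_lit 234) (nat_lit 1368) (nat_lit 0) (XT.nd (nat_lit 78) (nat_lit 0) (nat_lit 76) (XT.lf (nat_lit 76) (nat_lit 776841990) (nat_lit 0) (nat_lit 731367823) (nat_lit 684) (nat_lit 5077414690)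 (nat_lit 661) (nat_lit 5) (nat_lit 660) (nat_lit 5) (nat_lit 669) (nat_lit 5) (nat_lit 391) (nat_lit 386) (nat_lit 363)) (XT.nd (nat_lit 78) (nat_lit 0) (nat_lit 0) (XT.lf (nat_lit 0) (nat_lit 3983852005) (nat_lit 608) (nat_lit 2466472207) (nat_lit 684) (nat_lit 153891610) (nat_lit 661) (nat_lit 5) (nat_lit 669) (nat_lit 5) (nat_lit 670) (nat_lit 5) (nat_lit 392) (nat_lit 386) (nat_lit 362)) (XT.lf (nat_lit 76) (nat_lit 914285526) (nat_lit 0) (nat_lit 5543264422) (nat_lit 684) (nat_lit 166692378) (nat_lit 662) (nat_lit 5) (nat_lit 661) (nat_lit 5) (nat_lit 670) (nat_lit 5) (nat_lit 393) (nat_lit 386) (nat_lit 361)))) (XT.nd (nat_lit 78) (nat_lit 760) (nat_lit 0) (XT.lf (nat_lit 0) (nat_lit 2260391294) (nat_lit 684) (nat_lit 2299688139) (nat_lit 760) (nat_lit 2085219941) (nat_lit 652) (nat_lit 5) (nat_lit 661) (nat_lit 5) (nat_lit 662) (nat_lit 5) (nat_lit 394) (nat_lit 386) (nat_lit 360)) (XT.nd (nat_lit 78) (nat_lit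 760) (nat_lit 0) (XT.lf (nat_lit 76) (nat_lit 1157405585) (nat_lit 0) (nat_lit 3523420886) (nat_lit 760) (nat_lit 1987020462) (nat_lit 653) (nat_lit 5) (nat_lit 652) (nat_lit 5) (nat_lit 662) (nat_lit 5) (nat_lit 395) (nat_lit 386) (nat_lit 359)) (XT.lf (nat_lit 0) (nat_lit 408398504) (nat_lit 760) (nat_lit 2014854244) (nat_lit 836) (nat_lit 4268452286) (nat_lit 642) (nat_lit 5) (nat_lit 652) (nat_lit 5) (nat_lit 653) (nat_lit 5) (nat_lit 396) (nat_lit 386) (nat_lit 358)))))) (XT.nd (nat_lit 390) (nat_lit 2812) (nat_lit 0) (XT.nd (nat_lit 156) (nat_lit 760) (nat_lit 0) (XT.nd (nat_lit 78) (nat_lit 0) (nat_lit 0) (XT.lf (nat_lit 76) (nat_lit 1522104763) (nat_lit 0) (nat_lit 1254154473) (nat_lit 836) (nat_lit 3940525967) (nat_lit 643) (nat_lit 5) (nat_lit 642) (nat_lit 5) (nat_lit 653) (nat_lit 5) (nat_lit 397) (nat_lit 386) (nat_lit 357)) (XT.lf (nat_lit 76) (nat_lit 5122003913) (nat_lit 0) (nat_lit 25150555) (nat_lit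 836) (nat_lit 1596128751) (nat_lit 643) (nat_lit 5) (nat_lit 642) (nat_lit 5) (nat_lit 653) (nat_lit 5) (nat_lit 398) (nat_lit 386) (nat_lit 356))) (XT.nd (nat_lit 78) (nat_lit 0) (nat_lit 0) (XT.lf (nat_lit 0) (nat_lit 748900242) (nat_lit 836) (nat_lit 4769783546) (nat_lit 912) (nat_lit 1252269337) (nat_lit 632) (nat_lit 5) (nat_lit 643) (nat_lit 5) (nat_lit 644) (nat_lit 5) (nat_lit 399) (nat_lit 386) (nat_lit 355)) (XT.nd (nat_lit 78) (nat_lit 0) (nat_lit 0) (XT.lf (nat_lit 0) (nat_lit 3074512927) (nat_lit 836) (nat_lit 1127992398) (nat_lit 912) (nat_lit 2597387061) (nat_lit 632) (nat_lit 5) (nat_lit 643) (nat_lit 5) (nat_lit 644) (nat_lit 5) (nat_lit 400) (nat_lit 386) (nat_lit 354)) (XT.lf (nat_lit 76) (nat_lit 2584979324) (nat_lit 0) (nat_lit 2823458658) (nat_lit 912) (nat_lit 1421763967) (nat_lit 633) (nat_lit 5) (nat_lit 632) (nat_lit 5) (nat_lit 644) (nat_lit 5) (nat_lit 401) (nat_lit 386) (nat_lit 353)))))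 (XT.nd (nat_lit 234) (nat_lit 1064) (nat_lit 0) (XT.nd (nat_lit 78) (nat_lit 836) (nat_lit 0) (XT.lf (nat_lit 0) (nat_lit 868853837) (nat_lit 912) (nat_lit 515615203) (nat_lit 988) (nat_lit 5477492624) (nat_lit 620) (nat_lit 5) (nat_lit 632) (nat_lit 5) (nat_lit 633) (nat_lit 5) (nat_lit 402) (nat_lit 386) (nat_lit 352)) (XT.nd (nat_lit 78) (nat_lit 912) (nat_lit 0) (XT.lf (nat_lit 0) (nat_lit 3155016460) (nat_lit 912) (nat_lit 3608788626) (nat_lit 76) (nat_lit 131014064) (nat_lit 621) (nat_lit 5) (nat_lit 633) (nat_lit 5) (nat_lit 622) (nat_lit 5) (nat_lit 403) (nat_lit 386) (nat_lit 351)) (XT.lf (nat_lit 0) (nat_lit 199532826) (nat_lit 912) (nat_lit 5248799524) (nat_lit 988) (nat_lit 1480798260) (nat_lit 609) (nat_lit 5) (nat_lit 621) (nat_lit 5) (nat_lit 622) (nat_lit 5) (nat_lit 404) (nat_lit 386) (nat_lit 350)))) (XT.nd (nat_lit 78) (nat_lit 988) (nat_lit 0) (XT.lf (nat_lit 0) (nat_lit 784875847) (nat_lit 988) (nat_lit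 2873015582) (nat_lit 76) (nat_lit 3306708619) (nat_lit 608) (nat_lit 5) (nat_lit 621) (nat_lit 5) (nat_lit 609) (nat_lit 5) (nat_lit 405) (nat_lit 386) (nat_lit 349)) (XT.nd (nat_lit 78) (nat_lit 0) (nat_lit 0) (XT.lf (nat_lit 0) (nat_lit 1028295521) (nat_lit 988) (nat_lit 2003367487) (nat_lit 1064) (nat_lit 3969831514) (nat_lit 595) (nat_lit 5) (nat_lit 608) (nat_lit 5) (nat_lit 609) (nat_lit 5) (nat_lit 406) (nat_lit 386) (nat_lit 348)) (XT.lf (nat_lit 0) (nat_lit 5010732301) (nat_lit 988) (nat_lit 281634201) (nat_lit 1064) (nat_lit 1747404260) (nat_lit 595) (nat_lit 5) (nat_lit 608) (nat_lit 5) (nat_lit 609) (nat_lit 5) (nat_lit 407) (nat_lit 386) (nat_lit 347))))))) (XT.nd (nat_lit 858) (nat_lit 8132) (nat_lit 0) (XT.nd (nat_lit 390) (nat_lit 5776) (nat_lit 0) (XT.nd (nat_lit 156) (nat_lit 2432) (nat_lit 0) (XT.nd (nat_lit 78) (nat_lit 0) (nat_lit 0) (XT.lf (nat_lit 0) (nat_lit 485628245) (nat_lit 1140) (nat_lit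 5108488509) (nat_lit 76) (nat_lit 1485191500) (nat_lit 580) (nat_lit 5) (nat_lit 595) (nat_lit 5) (nat_lit 581) (nat_lit 5) (nat_lit 408) (nat_lit 386) (nat_lit 346)) (XT.lf (nat_lit 0) (nat_lit 2706684082) (nat_lit 1140) (nat_lit 1091388541) (nat_lit 76) (nat_lit 3322019790) (nat_lit 580) (nat_lit 5) (nat_lit 595) (nat_lit 5) (nat_lit 581) (nat_lit 5) (nat_lit 409) (nat_lit 386) (nat_lit 345))) (XT.nd (nat_lit 78) (nat_lit 1292) (nat_lit 0) (XT.lf (nat_lit 0) (nat_lit 3009567465) (nat_lit 1140) (nat_lit 1934258520) (nat_lit 1216) (nat_lit 2218454671) (nat_lit 565) (nat_lit 5) (nat_lit 580) (nat_lit 5) (nat_lit 581) (nat_lit 5) (nat_lit 410) (nat_lit 386) (nat_lit 344)) (XT.nd (nat_lit 78) (nat_lit 1292) (nat_lit 0) (XT.lf (nat_lit 0) (nat_lit 7171616233) (nat_lit 1140) (nat_lit 14249936) (nat_lit 1216) (nat_lit 20264661) (nat_lit 565) (nat_lit 5) (nat_lit 580) (nat_lit 5) (nat_lit 581) (nat_lit 5) (nat_lit 411) (nat_lit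 386) (nat_lit 343)) (XT.lf (nat_lit 0) (nat_lit 2186225537) (nat_lit 1292) (nat_lit 3093286637) (nat_lit 76) (nat_lit 1971208224) (nat_lit 548) (nat_lit 5) (nat_lit 565) (nat_lit 5) (nat_lit 549) (nat_lit 5) (nat_lit 412) (nat_lit 386) (nat_lit 342))))) (XT.nd (nat_lit 234) (nat_lit 3040) (nat_lit 0) (XT.nd (nat_lit 78) (nat_lit 1444) (nat_lit 0) (XT.lf (nat_lit 0) (nat_lit 1115460697) (nat_lit 1292) (nat_lit 3282864336) (nat_lit 1368) (nat_lit 2898659074) (nat_lit 531) (nat_lit 5) (nat_lit 548) (nat_lit 5) (nat_lit 549) (nat_lit 5) (nat_lit 413) (nat_lit 386) (nat_lit 341)) (XT.nd (nat_lit 78) (nat_lit 1444) (nat_lit 0) (XT.lf (nat_lit 0) (nat_lit 5414122489) (nat_lit 1292) (nat_lit 1216145815) (nat_lit 1368) (nat_lit 714412407) (nat_lit 531) (nat_lit 5) (nat_lit 548) (nat_lit 5) (nat_lit 549) (nat_lit 5) (nat_lit 414) (nat_lit 386) (nat_lit 340)) (XT.lf (nat_lit 0) (nat_lit 1470623455) (nat_lit 1444) (nat_lit 5008885093)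 (nat_lit 76) (nat_lit 914105966) (nat_lit 512) (nat_lit 5) (nat_lit 531) (nat_lit 5) (nat_lit 513) (nat_lit 5) (nat_lit 415) (nat_lit 386) (nat_lit 339)))) (XT.nd (nat_lit 78) (nat_lit 3040) (nat_lit 0) (XT.lf (nat_lit 0) (nat_lit 3667009083) (nat_lit 1444) (nat_lit 680451743) (nat_lit 76) (nat_lit 3096445941) (nat_lit 512) (nat_lit 5) (nat_lit 531) (nat_lit 5) (nat_lit 513) (nat_lit 5) (nat_lit 416) (nat_lit 386) (nat_lit 338)) (XT.nd (nat_lit 78) (nat_lit 1596) (nat_lit 0) (XT.lf (nat_lit 0) (nat_lit 3747617674) (nat_lit 1444) (nat_lit 2141008617) (nat_lit 1520) (nat_lit 1606970654) (nat_lit 493) (nat_lit 5) (nat_lit 512) (nat_lit 5) (nat_lit 513) (nat_lit 5) (nat_lit 417) (nat_lit 386) (nat_lit 337)) (XT.lf (nat_lit 0) (nat_lit 565627345) (nat_lit 1596) (nat_lit 6855824796) (nat_lit 76) (nat_lit 127463002) (nat_lit 472) (nat_lit 5) (nat_lit 493) (nat_lit 5) (nat_lit 473) (nat_lit 5) (nat_lit 418) (nat_lit 386) (nat_lit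 336)))))) (XT.nd (nat_lit 390) (nat_lit 3040) (nat_lit 0) (XT.nd (nat_lit 156) (nat_lit 3496) (nat_lit 0) (XT.nd (nat_lit 78) (nat_lit 1596) (nat_lit 0) (XT.lf (nat_lit 0) (nat_lit 2757601781) (nat_lit 1596) (nat_lit 2391087251) (nat_lit 76) (nat_lit 2454466505) (nat_lit 472) (nat_lit 5) (nat_lit 493) (nat_lit 5) (nat_lit 473) (nat_lit 5) (nat_lit 419) (nat_lit 386) (nat_lit 335)) (XT.lf (nat_lit 0) (nat_lit 2154844300) (nat_lit 1596) (nat_lit 2811312435) (nat_lit 1672) (nat_lit 2692885959) (nat_lit 451) (nat_lit 5) (nat_lit 472) (nat_lit 5) (nat_lit 473) (nat_lit 5) (nat_lit 420) (nat_lit 386) (nat_lit 334))) (XT.nd (nat_lit 78) (nat_lit 3496) (nat_lit 0) (XT.lf (nat_lit 0) (nat_lit 6787983609) (nat_lit 1596) (nat_lit 406269269) (nat_lit 1672) (nat_lit 522303759) (nat_lit 451) (nat_lit 5) (nat_lit 472) (nat_lit 5) (nat_lit 473) (nat_lit 5) (nat_lit 421) (nat_lit 386) (nat_lit 333)) (XT.nd (nat_lit 78) (nat_lit 1748)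 (nat_lit 0) (XT.lf (nat_lit 0) (nat_lit 1667182887) (nat_lit 1748) (nat_lit 4048207854) (nat_lit 76) (nat_lit 2059672661) (nat_lit 428) (nat_lit 5) (nat_lit 451) (nat_lit 5) (nat_lit 429) (nat_lit 5) (nat_lit 422) (nat_lit 386) (nat_lit 332)) (XT.lf (nat_lit 0) (nat_lit 618728058) (nat_lit 1748) (nat_lit 3248147087) (nat_lit 1824) (nat_lit 3968343415) (nat_lit 405) (nat_lit 5) (nat_lit 428) (nat_lit 5) (nat_lit 429) (nat_lit 5) (nat_lit 423) (nat_lit 386) (nat_lit 331))))) (XT.nd (nat_lit 234) (nat_lit 1824) (nat_lit 0) (XT.nd (nat_lit 78) (nat_lit 1216) (nat_lit 0) (XT.lf (nat_lit 0) (nat_lit 5397557754) (nat_lit 1748) (nat_lit 701132106) (nat_lit 1824) (nat_lit 1798139582) (nat_lit 405) (nat_lit 5) (nat_lit 428) (nat_lit 5) (nat_lit 429) (nat_lit 5) (nat_lit 424) (nat_lit 386) (nat_lit 330)) (XT.nd (nat_lit 78) (nat_lit 0) (nat_lit 0) (XT.lf (nat_lit 0) (nat_lit 398884609) (nat_lit 1216) (nat_lit 5668879818) (nat_lit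 76) (nat_lit 1892091463) (nat_lit 389) (nat_lit 5) (nat_lit 405) (nat_lit 5) (nat_lit 390) (nat_lit 5) (nat_lit 425) (nat_lit 386) (nat_lit 329)) (XT.lf (nat_lit 0) (nat_lit 2599317129) (nat_lit 1216) (nat_lit 866247692) (nat_lit 76) (nat_lit 4558683749) (nat_lit 389) (nat_lit 5) (nat_lit 405) (nat_lit 5) (nat_lit 390) (nat_lit 5) (nat_lit 426) (nat_lit 386) (nat_lit 328)))) (XT.nd (nat_lit 78) (nat_lit 912) (nat_lit 0) (XT.lf (nat_lit 0) (nat_lit 4049582596) (nat_lit 912) (nat_lit 783210111) (nat_lit 988) (nat_lit 3257369746) (nat_lit 377) (nat_lit 5) (nat_lit 389) (nat_lit 5) (nat_lit 390) (nat_lit 5) (nat_lit 427) (nat_lit 386) (nat_lit 327)) (XT.nd (nat_lit 78) (nat_lit 76) (nat_lit 0) (XT.lf (nat_lit 0) (nat_lit 880539964) (nat_lit 836) (nat_lit 6217892278) (nat_lit 912) (nat_lit 1059226243) (nat_lit 366) (nat_lit 5) (nat_lit 377) (nat_lit 5) (nat_lit 378) (nat_lit 5) (nat_lit 428) (nat_lit 386) (nat_lit 326)) (XT.lf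 (nat_lit 0) (nat_lit 1163326175) (nat_lit 912) (nat_lit 2320898328) (nat_lit 76) (nat_lit 4742220365) (nat_lit 365) (nat_lit 5) (nat_lit 377) (nat_lit 5) (nat_lit 366) (nat_lit 5) (nat_lit 429) (nat_lit 386) (nat_lit 325))))))))
noncomputable def xc110 : XT := (XT.nd (nat_lit 1716) (nat_lit 6612) (nat_lit 0) (XT.nd (nat_lit 858) (nat_lit 4560) (nat_lit 0) (XT.nd (nat_lit 390) (nat_lit 3116) (nat_lit 0) (XT.nd (nat_lit 156) (nat_lit 1748) (nat_lit 0) (XT.nd (nat_lit 78) (nat_lit 0) (nat_lit 0) (XT.lf (nat_lit 0) (nat_lit 2727176330) (nat_lit 836) (nat_lit 670885194) (nat_lit 912) (nat_lit 4898780095) (nat_lit 354) (nat_lit 5) (nat_lit 365) (nat_lit 5) (nat_lit 366) (nat_lit 5) (nat_lit 430) (nat_lit 386) (nat_lit 324)) (XT.lf (nat_lit 0) (nat_lit 5672106544) (nat_lit 912) (nat_lit 511542748) (nat_lit 76) (nat_lit 2185117427) (nat_lit 354) (nat_lit 5) (nat_lit 366) (nat_lit 5) (nat_lit 355) (nat_lit 5) (nat_lit 431) (nat_lit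 386) (nat_lit 323))) (XT.nd (nat_lit 78) (nat_lit 912) (nat_lit 0) (XT.lf (nat_lit 0) (nat_lit 4668744339) (nat_lit 836) (nat_lit 3322998378) (nat_lit 912) (nat_lit 450397859) (nat_lit 343) (nat_lit 5) (nat_lit 354) (nat_lit 5) (nat_lit 355) (nat_lit 5) (nat_lit 432) (nat_lit 386) (nat_lit 322)) (XT.nd (nat_lit 78) (nat_lit 0) (nat_lit 0) (XT.lf (nat_lit 0) (nat_lit 1413197434) (nat_lit 836) (nat_lit 381645541) (nat_lit 912) (nat_lit 6722347973) (nat_lit 331) (nat_lit 5) (nat_lit 342) (nat_lit 5) (nat_lit 343) (nat_lit 5) (nat_lit 433) (nat_lit 386) (nat_lit 321)) (XT.lf (nat_lit 0) (nat_lit 4087449804) (nat_lit 912) (nat_lit 1895178795) (nat_lit 76) (nat_lit 2610896092) (nat_lit 331) (nat_lit 5) (nat_lit 343) (nat_lit 5) (nat_lit 332) (nat_lit 5) (nat_lit 434) (nat_lit 386) (nat_lit 320))))) (XT.nd (nat_lit 234) (nat_lit 1520) (nat_lit 0) (XT.nd (nat_lit 78) (nat_lit 836) (nat_lit 0) (XT.lf (nat_lit 0) (nat_lit 3424448458)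 (nat_lit 760) (nat_lit 2992884236) (nat_lit 836) (nat_lit 2254235450) (nat_lit 321) (nat_lit 5) (nat_lit 331) (nat_lit 5) (nat_lit 332) (nat_lit 5) (nat_lit 435) (nat_lit 386) (nat_lit 319)) (XT.nd (nat_lit 78) (nat_lit 0) (nat_lit 0) (XT.lf (nat_lit 0) (nat_lit 22765037) (nat_lit 836) (nat_lit 8661917703) (nat_lit 76) (nat_lit 66881584) (nat_lit 310) (nat_lit 5) (nat_lit 321) (nat_lit 5) (nat_lit 311) (nat_lit 5) (nat_lit 436) (nat_lit 386) (nat_lit 318)) (XT.lf (nat_lit 0) (nat_lit 2337669147) (nat_lit 836) (nat_lit 3299538340) (nat_lit 76) (nat_lit 3195214827) (nat_lit 310) (nat_lit 5) (nat_lit 321) (nat_lit 5) (nat_lit 311) (nat_lit 5) (nat_lit 437) (nat_lit 386) (nat_lit 317)))) (XT.nd (nat_lit 78) (nat_lit 836) (nat_lit 0) (XT.lf (nat_lit 0) (nat_lit 2162793097) (nat_lit 684) (nat_lit 2518017650) (nat_lit 760) (nat_lit 4234458565) (nat_lit 301) (nat_lit 5) (nat_lit 310) (nat_lit 5) (nat_lit 311) (nat_lit 5) (nat_lit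 438) (nat_lit 386) (nat_lit 316)) (XT.nd (nat_lit 78) (nat_lit 836) (nat_lit 0) (XT.lf (nat_lit 0) (nat_lit 7065684104) (nat_lit 760) (nat_lit 1260734671) (nat_lit 76) (nat_lit 673467525) (nat_lit 301) (nat_lit 5) (nat_lit 311) (nat_lit 5) (nat_lit 302) (nat_lit 5) (nat_lit 439) (nat_lit 386) (nat_lit 315)) (XT.lf (nat_lit 0) (nat_lit 420522367) (nat_lit 836) (nat_lit 4742874244) (nat_lit 76) (nat_lit 3922478189) (nat_lit 290) (nat_lit 5) (nat_lit 301) (nat_lit 5) (nat_lit 291) (nat_lit 5) (nat_lit 440) (nat_lit 386) (nat_lit 314)))))) (XT.nd (nat_lit 390) (nat_lit 2508) (nat_lit 0) (XT.nd (nat_lit 156) (nat_lit 1368) (nat_lit 0) (XT.nd (nat_lit 78) (nat_lit 0) (nat_lit 0) (XT.lf (nat_lit 0) (nat_lit 865443026) (nat_lit 684) (nat_lit 1914222018) (nat_lit 760) (nat_lit 6394007699) (nat_lit 281) (nat_lit 5) (nat_lit 290) (nat_lit 5) (nat_lit 291) (nat_lit 5) (nat_lit 441) (nat_lit 386) (nat_lit 313)) (XT.lf (nat_lit 0)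 (nat_lit 5196527682) (nat_lit 760) (nat_lit 2657557295) (nat_lit 76) (nat_lit 1408940561) (nat_lit 281) (nat_lit 5) (nat_lit 291) (nat_lit 5) (nat_lit 282) (nat_lit 5) (nat_lit 442) (nat_lit 386) (nat_lit 312))) (XT.nd (nat_lit 78) (nat_lit 684) (nat_lit 0) (XT.lf (nat_lit 0) (nat_lit 3098913380) (nat_lit 684) (nat_lit 4565621001) (nat_lit 760) (nat_lit 1689584317) (nat_lit 272) (nat_lit 5) (nat_lit 281) (nat_lit 5) (nat_lit 282) (nat_lit 5) (nat_lit 443) (nat_lit 386) (nat_lit 311)) (XT.nd (nat_lit 78) (nat_lit 608) (nat_lit 0) (XT.lf (nat_lit 0) (nat_lit 713346697) (nat_lit 760) (nat_lit 480384186) (nat_lit 76) (nat_lit 8253454150) (nat_lit 271) (nat_lit 5) (nat_lit 281) (nat_lit 5) (nat_lit 272) (nat_lit 5) (nat_lit 444) (nat_lit 386) (nat_lit 310)) (XT.lf (nat_lit 0) (nat_lit 3162626940) (nat_lit 684) (nat_lit 4121261587) (nat_lit 76) (nat_lit 2257591423) (nat_lit 263) (nat_lit 5) (nat_lit 272) (nat_lit 5) (nat_lit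 264) (nat_lit 5) (nat_lit 445) (nat_lit 386) (nat_lit 309))))) (XT.nd (nat_lit 234) (nat_lit 1140) (nat_lit 0) (XT.nd (nat_lit 78) (nat_lit 684) (nat_lit 0) (XT.lf (nat_lit 0) (nat_lit 1788290652) (nat_lit 684) (nat_lit 3866427812) (nat_lit 760) (nat_lit 3983074513) (nat_lit 254) (nat_lit 5) (nat_lit 263) (nat_lit 5) (nat_lit 264) (nat_lit 5) (nat_lit 446) (nat_lit 386) (nat_lit 308)) (XT.nd (nat_lit 78) (nat_lit 684) (nat_lit 0) (XT.lf (nat_lit 0) (nat_lit 7837144230) (nat_lit 684) (nat_lit 358569566) (nat_lit 760) (nat_lit 1540345786) (nat_lit 254) (nat_lit 5) (nat_lit 263) (nat_lit 5) (nat_lit 264) (nat_lit 5) (nat_lit 447) (nat_lit 386) (nat_lit 307)) (XT.lf (nat_lit 0) (nat_lit 958789305) (nat_lit 684) (nat_lit 5672343396) (nat_lit 76) (nat_lit 3204642971) (nat_lit 245) (nat_lit 5) (nat_lit 254) (nat_lit 5) (nat_lit 246) (nat_lit 5) (nat_lit 448) (nat_lit 386) (nat_lit 306)))) (XT.nd (nat_lit 78) (nat_lit 532) (nat_lit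 0) (XT.lf (nat_lit 0) (nat_lit 393279320) (nat_lit 608) (nat_lit 3083839989) (nat_lit 684) (nat_lit 6460374454) (nat_lit 237) (nat_lit 5) (nat_lit 245) (nat_lit 5) (nat_lit 246) (nat_lit 5) (nat_lit 449) (nat_lit 386) (nat_lit 305)) (XT.nd (nat_lit 78) (nat_lit 532) (nat_lit 0) (XT.lf (nat_lit 0) (nat_lit 6059943798) (nat_lit 684) (nat_lit 3422143273) (nat_lit 76) (nat_lit 558884490) (nat_lit 237) (nat_lit 5) (nat_lit 246) (nat_lit 5) (nat_lit 238) (nat_lit 5) (nat_lit 450) (nat_lit 386) (nat_lit 304)) (XT.lf (nat_lit 0) (nat_lit 2804372275) (nat_lit 532) (nat_lit 5901567172) (nat_lit 608) (nat_lit 1440356925) (nat_lit 230) (nat_lit 5) (nat_lit 237) (nat_lit 5) (nat_lit 238) (nat_lit 5) (nat_lit 451) (nat_lit 386) (nat_lit 303))))))) (XT.nd (nat_lit 858) (nat_lit 2736) (nat_lit 0) (XT.nd (nat_lit 390) (nat_lit 2052) (nat_lit 0) (XT.nd (nat_lit 156) (nat_lit 1140) (nat_lit 0) (XT.nd (nat_lit 78) (nat_lit 608) (nat_lit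 0) (XT.lf (nat_lit 0) (nat_lit 1132155680) (nat_lit 608) (nat_lit 1093582405) (nat_lit 76) (nat_lit 8027925052) (nat_lit 229) (nat_lit 5) (nat_lit 237) (nat_lit 5) (nat_lit 230) (nat_lit 5) (nat_lit 452) (nat_lit 386) (nat_lit 302)) (XT.lf (nat_lit 0) (nat_lit 3754974170) (nat_lit 684) (nat_lit 5067011779) (nat_lit 76) (nat_lit 1540645334) (nat_lit 221) (nat_lit 5) (nat_lit 230) (nat_lit 5) (nat_lit 222) (nat_lit 5) (nat_lit 453) (nat_lit 386) (nat_lit 301))) (XT.nd (nat_lit 78) (nat_lit 608) (nat_lit 0) (XT.lf (nat_lit 0) (nat_lit 1322272987) (nat_lit 532) (nat_lit 5112479039) (nat_lit 608) (nat_lit 4038943866) (nat_lit 214) (nat_lit 5) (nat_lit 221) (nat_lit 5) (nat_lit 222) (nat_lit 5) (nat_lit 454) (nat_lit 386) (nat_lit 300)) (XT.nd (nat_lit 78) (nat_lit 608) (nat_lit 0) (XT.lf (nat_lit 0) (nat_lit 7874174820) (nat_lit 532) (nat_lit 1302037865) (nat_lit 608) (nat_lit 1410614381) (nat_lit 214) (nat_lit 5) (nat_lit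 221) (nat_lit 5) (nat_lit 222) (nat_lit 5) (nat_lit 455) (nat_lit 386) (nat_lit 299)) (XT.lf (nat_lit 0) (nat_lit 1270076116) (nat_lit 608) (nat_lit 6855238394) (nat_lit 76) (nat_lit 2576419061) (nat_lit 206) (nat_lit 5) (nat_lit 214) (nat_lit 5) (nat_lit 207) (nat_lit 5) (nat_lit 456) (nat_lit 386) (nat_lit 298))))) (XT.nd (nat_lit 234) (nat_lit 988) (nat_lit 0) (XT.nd (nat_lit 78) (nat_lit 1064) (nat_lit 0) (XT.lf (nat_lit 0) (nat_lit 3987107853) (nat_lit 608) (nat_lit 296839094) (nat_lit 76) (nat_lit 6534779078) (nat_lit 206) (nat_lit 5) (nat_lit 214) (nat_lit 5) (nat_lit 207) (nat_lit 5) (nat_lit 457) (nat_lit 386) (nat_lit 297)) (XT.nd (nat_lit 78) (nat_lit 532) (nat_lit 0) (XT.lf (nat_lit 0) (nat_lit 6444130310) (nat_lit 532) (nat_lit 331337773) (nat_lit 608) (nat_lit 4162256973) (nat_lit 199) (nat_lit 5) (nat_lit 206) (nat_lit 5) (nat_lit 207) (nat_lit 5) (nat_lit 458) (nat_lit 386) (nat_lit 296)) (XT.lf (nat_lit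 0) (nat_lit 2236837115) (nat_lit 532) (nat_lit 7398679518) (nat_lit 608) (nat_lit 1423275369) (nat_lit 192) (nat_lit 5) (nat_lit 199) (nat_lit 5) (nat_lit 200) (nat_lit 5) (nat_lit 459) (nat_lit 386) (nat_lit 295)))) (XT.nd (nat_lit 78) (nat_lit 912) (nat_lit 0) (XT.lf (nat_lit 0) (nat_lit 1360528501) (nat_lit 608) (nat_lit 2063632461) (nat_lit 76) (nat_lit 7757787136) (nat_lit 191) (nat_lit 5) (nat_lit 199) (nat_lit 5) (nat_lit 192) (nat_lit 5) (nat_lit 460) (nat_lit 386) (nat_lit 294)) (XT.nd (nat_lit 78) (nat_lit 456) (nat_lit 0) (XT.lf (nat_lit 0) (nat_lit 4192719259) (nat_lit 532) (nat_lit 6460280299) (nat_lit 76) (nat_lit 654150222) (nat_lit 185) (nat_lit 5) (nat_lit 192) (nat_lit 5) (nat_lit 186) (nat_lit 5) (nat_lit 461) (nat_lit 386) (nat_lit 293)) (XT.lf (nat_lit 0) (nat_lit 438959214) (nat_lit 456) (nat_lit 6658213374) (nat_lit 532) (nat_lit 4337376405) (nat_lit 179) (nat_lit 5) (nat_lit 185) (nat_lit 5) (nat_lit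 186) (nat_lit 5) (nat_lit 462) (nat_lit 386) (nat_lit 292)))))) (XT.nd (nat_lit 390) (nat_lit 1368) (nat_lit 0) (XT.nd (nat_lit 156) (nat_lit 836) (nat_lit 0) (XT.nd (nat_lit 78) (nat_lit 532) (nat_lit 0) (XT.lf (nat_lit 0) (nat_lit 7530965905) (nat_lit 456) (nat_lit 2548508085) (nat_lit 532) (nat_lit 1484632778) (nat_lit 179) (nat_lit 5) (nat_lit 185) (nat_lit 5) (nat_lit 186) (nat_lit 5) (nat_lit 463) (nat_lit 386) (nat_lit 291)) (XT.lf (nat_lit 0) (nat_lit 1413902434) (nat_lit 532) (nat_lit 8639878744) (nat_lit 76) (nat_lit 1642146430) (nat_lit 172) (nat_lit 5) (nat_lit 179) (nat_lit 5) (nat_lit 173) (nat_lit 5) (nat_lit 464) (nat_lit 386) (nat_lit 290))) (XT.nd (nat_lit 78) (nat_lit 836) (nat_lit 0) (XT.lf (nat_lit 0) (nat_lit 4371567463) (nat_lit 532) (nat_lit 1547693152) (nat_lit 76) (nat_lit 5910512642) (nat_lit 172) (nat_lit 5) (nat_lit 179) (nat_lit 5) (nat_lit 173) (nat_lit 5) (nat_lit 465) (nat_lit 386) (nat_lit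 289)) (XT.nd (nat_lit 78) (nat_lit 380) (nat_lit 0) (XT.lf (nat_lit 0) (nat_lit 5729465919) (nat_lit 456) (nat_lit 1673470828) (nat_lit 532) (nat_lit 4563073371) (nat_lit 166) (nat_lit 5) (nat_lit 172) (nat_lit 5) (nat_lit 173) (nat_lit 5) (nat_lit 466) (nat_lit 386) (nat_lit 288)) (XT.lf (nat_lit 0) (nat_lit 1032407406) (nat_lit 380) (nat_lit 9474464323) (nat_lit 456) (nat_lit 1597866437) (nat_lit 161) (nat_lit 5) (nat_lit 166) (nat_lit 5) (nat_lit 167) (nat_lit 5) (nat_lit 467) (nat_lit 386) (nat_lit 287))))) (XT.nd (nat_lit 234) (nat_lit 836) (nat_lit 0) (XT.nd (nat_lit 78) (nat_lit 456) (nat_lit 0) (XT.lf (nat_lit 0) (nat_lit 1438752910) (nat_lit 456) (nat_lit 3767036009) (nat_lit 76) (nat_lit 7039655232) (nat_lit 160) (nat_lit 5) (nat_lit 166) (nat_lit 5) (nat_lit 161) (nat_lit 5) (nat_lit 468) (nat_lit 386) (nat_lit 286)) (XT.nd (nat_lit 78) (nat_lit 0) (nat_lit 0) (XT.lf (nat_lit 0) (nat_lit 3690531962) (nat_lit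 456) (nat_lit 826206413) (nat_lit 532) (nat_lit 7871978976) (nat_lit 154) (nat_lit 5) (nat_lit 160) (nat_lit 5) (nat_lit 161) (nat_lit 5) (nat_lit 469) (nat_lit 386) (nat_lit 285)) (XT.lf (nat_lit 0) (nat_lit 7683580290) (nat_lit 532) (nat_lit 1241663727) (nat_lit 76) (nat_lit 3609070879) (nat_lit 154) (nat_lit 5) (nat_lit 161) (nat_lit 5) (nat_lit 155) (nat_lit 5) (nat_lit 470) (nat_lit 386) (nat_lit 284)))) (XT.nd (nat_lit 78) (nat_lit 456) (nat_lit 0) (XT.lf (nat_lit 0) (nat_lit 6411406728) (nat_lit 380) (nat_lit 4528089181) (nat_lit 456) (nat_lit 1742818470) (nat_lit 149) (nat_lit 5) (nat_lit 154) (nat_lit 5) (nat_lit 155) (nat_lit 5) (nat_lit 471) (nat_lit 386) (nat_lit 283)) (XT.nd (nat_lit 78) (nat_lit 0) (nat_lit 0) (XT.lf (nat_lit 0) (nat_lit 1378744030) (nat_lit 380) (nat_lit 25843597) (nat_lit 456) (nat_lit 11428584423) (nat_lit 143) (nat_lit 5) (nat_lit 148) (nat_lit 5) (nat_lit 149) (nat_lit 5) (nat_lit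 472) (nat_lit 386) (nat_lit 282)) (XT.lf (nat_lit 0) (nat_lit 4642497486) (nat_lit 456) (nat_lit 3792715874) (nat_lit 76) (nat_lit 4550589724) (nat_lit 143) (nat_lit 5) (nat_lit 149) (nat_lit 5) (nat_lit 144) (nat_lit 5) (nat_lit 473) (nat_lit 386) (nat_lit 281))))))))
noncomputable def xc111 : XT := (XT.nd (nat_lit 1716) (nat_lit 1368) (nat_lit 0) (XT.nd (nat_lit 858) (nat_lit 1900) (nat_lit 0) (XT.nd (nat_lit 390) (nat_lit 1520) (nat_lit 0) (XT.nd (nat_lit 156) (nat_lit 836) (nat_lit 0) (XT.nd (nat_lit 78) (nat_lit 0) (nat_lit 0) (XT.lf (nat_lit 0) (nat_lit 4044282981) (nat_lit 380) (nat_lit 3906588338) (nat_lit 456) (nat_lit 5190505668) (nat_lit 138) (nat_lit 5) (nat_lit 143) (nat_lit 5) (nat_lit 144) (nat_lit 5) (nat_lit 474) (nat_lit 386) (nat_lit 280)) (XT.lf (nat_lit 0) (nat_lit 11335077492) (nat_lit 456) (nat_lit 1245879713) (nat_lit 76) (nat_lit 718916145) (nat_lit 138) (nat_lit 5) (nat_lit 144) (nat_lit 5)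 (nat_lit 139) (nat_lit 5) (nat_lit 475) (nat_lit 386) (nat_lit 279))) (XT.nd (nat_lit 78) (nat_lit 380) (nat_lit 0) (XT.lf (nat_lit 0) (nat_lit 1358183410) (nat_lit 456) (nat_lit 6674231653) (nat_lit 76) (nat_lit 5427953807) (nat_lit 132) (nat_lit 5) (nat_lit 138) (nat_lit 5) (nat_lit 133) (nat_lit 5) (nat_lit 476) (nat_lit 386) (nat_lit 278)) (XT.nd (nat_lit 78) (nat_lit 0) (nat_lit 0) (XT.lf (nat_lit 0) (nat_lit 1345931857) (nat_lit 380) (nat_lit 3372446443) (nat_lit 456) (nat_lit 8905498993) (nat_lit 127) (nat_lit 5) (nat_lit 132) (nat_lit 5) (nat_lit 133) (nat_lit 5) (nat_lit 477) (nat_lit 386) (nat_lit 277)) (XT.lf (nat_lit 0) (nat_lit 8179842549) (nat_lit 456) (nat_lit 4212615478) (nat_lit 76) (nat_lit 1397520499) (nat_lit 127) (nat_lit 5) (nat_lit 133) (nat_lit 5) (nat_lit 128) (nat_lit 5) (nat_lit 478) (nat_lit 386) (nat_lit 276))))) (XT.nd (nat_lit 234) (nat_lit 760) (nat_lit 0) (XT.nd (nat_lit 78) (nat_lit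 380) (nat_lit 0) (XT.lf (nat_lit 0) (nat_lit 4014371710) (nat_lit 380) (nat_lit 7724970937) (nat_lit 456) (nat_lit 2219486882) (nat_lit 122) (nat_lit 5) (nat_lit 127) (nat_lit 5) (nat_lit 128) (nat_lit 5) (nat_lit 479) (nat_lit 386) (nat_lit 275)) (XT.nd (nat_lit 78) (nat_lit 304) (nat_lit 0) (XT.lf (nat_lit 0) (nat_lit 1231649055) (nat_lit 456) (nat_lit 1705752543) (nat_lit 76) (nat_lit 11193320327) (nat_lit 121) (nat_lit 5) (nat_lit 127) (nat_lit 5) (nat_lit 122) (nat_lit 5) (nat_lit 480) (nat_lit 386) (nat_lit 274)) (XT.lf (nat_lit 0) (nat_lit 4759694927) (nat_lit 380) (nat_lit 7576214898) (nat_lit 76) (nat_lit 1969100457) (nat_lit 117) (nat_lit 5) (nat_lit 122) (nat_lit 5) (nat_lit 118) (nat_lit 5) (nat_lit 481) (nat_lit 386) (nat_lit 273)))) (XT.nd (nat_lit 78) (nat_lit 380) (nat_lit 0) (XT.lf (nat_lit 0) (nat_lit 834451681) (nat_lit 380) (nat_lit 7541212122) (nat_lit 456) (nat_lit 6106776941) (nat_lit 112) (nat_lit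 5) (nat_lit 117) (nat_lit 5) (nat_lit 118) (nat_lit 5) (nat_lit 482) (nat_lit 386) (nat_lit 272)) (XT.nd (nat_lit 78) (nat_lit 380) (nat_lit 0) (XT.lf (nat_lit 0) (nat_lit 9486659455) (nat_lit 380) (nat_lit 2609284440) (nat_lit 456) (nat_lit 2566839591) (nat_lit 112) (nat_lit 5) (nat_lit 117) (nat_lit 5) (nat_lit 118) (nat_lit 5) (nat_lit 483) (nat_lit 386) (nat_lit 271)) (XT.lf (nat_lit 0) (nat_lit 1050009510) (nat_lit 380) (nat_lit 11387438352) (nat_lit 76) (nat_lit 2408756964) (nat_lit 107) (nat_lit 5) (nat_lit 112) (nat_lit 5) (nat_lit 108) (nat_lit 5) (nat_lit 484) (nat_lit 386) (nat_lit 270)))))) (XT.nd (nat_lit 390) (nat_lit 912) (nat_lit 0) (XT.nd (nat_lit 156) (nat_lit 684) (nat_lit 0) (XT.nd (nat_lit 78) (nat_lit 304) (nat_lit 0) (XT.lf (nat_lit 0) (nat_lit 4738607343) (nat_lit 380) (nat_lit 2759747930) (nat_lit 76) (nat_lit 7533927657) (nat_lit 107) (nat_lit 5) (nat_lit 112) (nat_lit 5) (nat_lit 108) (nat_lit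 5) (nat_lit 485) (nat_lit 386) (nat_lit 269)) (XT.lf (nat_lit 0) (nat_lit 6091805598) (nat_lit 304) (nat_lit 2430591249) (nat_lit 380) (nat_lit 6699260595) (nat_lit 103) (nat_lit 5) (nat_lit 107) (nat_lit 5) (nat_lit 108) (nat_lit 5) (nat_lit 486) (nat_lit 386) (nat_lit 268))) (XT.nd (nat_lit 78) (nat_lit 684) (nat_lit 0) (XT.lf (nat_lit 0) (nat_lit 12400255561) (nat_lit 380) (nat_lit 303245140) (nat_lit 76) (nat_lit 2710954054) (nat_lit 103) (nat_lit 5) (nat_lit 108) (nat_lit 5) (nat_lit 104) (nat_lit 5) (nat_lit 487) (nat_lit 386) (nat_lit 267)) (XT.nd (nat_lit 78) (nat_lit 304) (nat_lit 0) (XT.lf (nat_lit 0) (nat_lit 790528327) (nat_lit 380) (nat_lit 6844508128) (nat_lit 76) (nat_lit 7974863331) (nat_lit 98) (nat_lit 5) (nat_lit 103) (nat_lit 5) (nat_lit 99) (nat_lit 5) (nat_lit 488) (nat_lit 386) (nat_lit 266)) (XT.lf (nat_lit 0) (nat_lit 2190875384) (nat_lit 304) (nat_lit 2438796387) (nat_lit 380) (nat_lit 11179212836)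 (nat_lit 94) (nat_lit 5) (nat_lit 98) (nat_lit 5) (nat_lit 99) (nat_lit 5) (nat_lit 489) (nat_lit 386) (nat_lit 265))))) (XT.nd (nat_lit 234) (nat_lit 532) (nat_lit 0) (XT.nd (nat_lit 78) (nat_lit 380) (nat_lit 0) (XT.lf (nat_lit 0) (nat_lit 8592876678) (nat_lit 380) (nat_lit 4558347401) (nat_lit 76) (nat_lit 2859682409) (nat_lit 94) (nat_lit 5) (nat_lit 99) (nat_lit 5) (nat_lit 95) (nat_lit 5) (nat_lit 490) (nat_lit 386) (nat_lit 264)) (XT.nd (nat_lit 78) (nat_lit 76) (nat_lit 0) (XT.lf (nat_lit 0) (nat_lit 4700275687) (nat_lit 304) (nat_lit 7964548338) (nat_lit 380) (nat_lit 3551558093) (nat_lit 90) (nat_lit 5) (nat_lit 94) (nat_lit 5) (nat_lit 95) (nat_lit 5) (nat_lit 491) (nat_lit 386) (nat_lit 263)) (XT.lf (nat_lit 0) (nat_lit 400742918) (nat_lit 380) (nat_lit 2250018126) (nat_lit 76) (nat_lit 13774885166) (nat_lit 89) (nat_lit 5) (nat_lit 94) (nat_lit 5) (nat_lit 90) (nat_lit 5) (nat_lit 492) (nat_lit 386) (nat_lit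 262)))) (XT.nd (nat_lit 78) (nat_lit 228) (nat_lit 0) (XT.lf (nat_lit 0) (nat_lit 4433191485) (nat_lit 380) (nat_lit 9410732699) (nat_lit 76) (nat_lit 2793731459) (nat_lit 85) (nat_lit 5) (nat_lit 90) (nat_lit 5) (nat_lit 86) (nat_lit 5) (nat_lit 493) (nat_lit 386) (nat_lit 261)) (XT.nd (nat_lit 78) (nat_lit 0) (nat_lit 0) (XT.lf (nat_lit 0) (nat_lit 25662213) (nat_lit 228) (nat_lit 8536822387) (nat_lit 304) (nat_lit 8291099414) (nat_lit 82) (nat_lit 5) (nat_lit 85) (nat_lit 5) (nat_lit 86) (nat_lit 5) (nat_lit 494) (nat_lit 386) (nat_lit 260)) (XT.lf (nat_lit 0) (nat_lit 9751210925) (nat_lit 228) (nat_lit 3069730802) (nat_lit 304) (nat_lit 4251960269) (nat_lit 82) (nat_lit 5) (nat_lit 85) (nat_lit 5) (nat_lit 86) (nat_lit 5) (nat_lit 495) (nat_lit 386) (nat_lit 259))))))) (XT.nd (nat_lit 51012) (nat_lit 0) (nat_lit 43092) (XT.nd (nat_lit 390) (nat_lit 532) (nat_lit 0) (XT.nd (nat_lit 156) (nat_lit 456) (nat_lit 0) (XT.nd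 (nat_lit 78) (nat_lit 76) (nat_lit 0) (XT.lf (nat_lit 0) (nat_lit 2362506622) (nat_lit 304) (nat_lit 14817360391) (nat_lit 380) (nat_lit 116435900) (nat_lit 78) (nat_lit 5) (nat_lit 82) (nat_lit 5) (nat_lit 83) (nat_lit 5) (nat_lit 496) (nat_lit 386) (nat_lit 258)) (XT.lf (nat_lit 0) (nat_lit 4101512190) (nat_lit 380) (nat_lit 5257749007) (nat_lit 76) (nat_lit 8163310296) (nat_lit 77) (nat_lit 5) (nat_lit 82) (nat_lit 5) (nat_lit 78) (nat_lit 5) (nat_lit 497) (nat_lit 386) (nat_lit 257))) (XT.nd (nat_lit 78) (nat_lit 228) (nat_lit 0) (XT.lf (nat_lit 0) (nat_lit 4645594360) (nat_lit 228) (nat_lit 3770870663) (nat_lit 304) (nat_lit 9336603340) (nat_lit 74) (nat_lit 5) (nat_lit 77) (nat_lit 5) (nat_lit 78) (nat_lit 5) (nat_lit 498) (nat_lit 386) (nat_lit 256)) (XT.nd (nat_lit 78) (nat_lit 228) (nat_lit 0) (XT.lf (nat_lit 0) (nat_lit 12849875458) (nat_lit 304) (nat_lit 3208413852) (nat_lit 76) (nat_lit 1929245051) (nat_lit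 74) (nat_lit 5) (nat_lit 78) (nat_lit 5) (nat_lit 75) (nat_lit 5) (nat_lit 499) (nat_lit 386) (nat_lit 255)) (XT.lf (nat_lit 0) (nat_lit 6928584062) (nat_lit 228) (nat_lit 10497755508) (nat_lit 304) (nat_lit 799264716) (nat_lit 71) (nat_lit 5) (nat_lit 74) (nat_lit 5) (nat_lit 75) (nat_lit 5) (nat_lit 500) (nat_lit 386) (nat_lit 254))))) (XT.nd (nat_lit 234) (nat_lit 0) (nat_lit 0) (XT.nd (nat_lit 78) (nat_lit 456) (nat_lit 0) (XT.lf (nat_lit 0) (nat_lit 3584477209) (nat_lit 304) (nat_lit 1205854967) (nat_lit 76) (nat_lit 13677512141) (nat_lit 70) (nat_lit 5) (nat_lit 74) (nat_lit 5) (nat_lit 71) (nat_lit 5) (nat_lit 501) (nat_lit 386) (nat_lit 253)) (XT.nd (nat_lit 78) (nat_lit 228) (nat_lit 0) (XT.lf (nat_lit 0) (nat_lit 8096607982) (nat_lit 304) (nat_lit 9544271423) (nat_lit 76) (nat_lit 1072917939) (nat_lit 67) (nat_lit 5) (nat_lit 71) (nat_lit 5) (nat_lit 68) (nat_lit 5) (nat_lit 502) (nat_lit 386) (nat_lit 252))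 (XT.lf (nat_lit 0) (nat_lit 756861827) (nat_lit 228) (nat_lit 11971737447) (nat_lit 304) (nat_lit 6235479939) (nat_lit 64) (nat_lit 5) (nat_lit 67) (nat_lit 5) (nat_lit 68) (nat_lit 5) (nat_lit 503) (nat_lit 386) (nat_lit 251)))) (XT.nd (nat_lit 50232) (nat_lit 0) (nat_lit 45904) (XT.lf (nat_lit 0) (nat_lit 11368021452) (nat_lit 228) (nat_lit 6134222953) (nat_lit 304) (nat_lit 1716144131) (nat_lit 64) (nat_lit 5) (nat_lit 67) (nat_lit 5) (nat_lit 68) (nat_lit 5) (nat_lit 504) (nat_lit 386) (nat_lit 250)) (XT.nd (nat_lit 78) (nat_lit 0) (nat_lit 0) (XT.lf (nat_lit 0) (nat_lit 122829945) (nat_lit 0) (nat_lit 122829945) (nat_lit 532) (nat_lit 3022780458) (nat_lit 668) (nat_lit 5) (nat_lit 668) (nat_lit 3) (nat_lit 675) (nat_lit 3) (nat_lit 387) (nat_lit 387) (nat_lit 366)) (XT.lf (nat_lit 0) (nat_lit 2997066271) (nat_lit 532) (nat_lit 3120115180) (nat_lit 608) (nat_lit 433639348) (nat_lit 668) (nat_lit 5) (nat_lit 675)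 (nat_lit 3) (nat_lit 676) (nat_lit 5) (nat_lit 388) (nat_lit 387) (nat_lit 365)))))) (XT.nd (nat_lit 390) (nat_lit 1520) (nat_lit 0) (XT.nd (nat_lit 156) (nat_lit 684) (nat_lit 0) (XT.nd (nat_lit 78) (nat_lit 608) (nat_lit 0) (XT.lf (nat_lit 76) (nat_lit 79506750) (nat_lit 0) (nat_lit 5410253820) (nat_lit 608) (nat_lit 1076579512) (nat_lit 669) (nat_lit 5) (nat_lit 668) (nat_lit 5) (nat_lit 676) (nat_lit 5) (nat_lit 389) (nat_lit 387) (nat_lit 364)) (XT.lf (nat_lit 0) (nat_lit 1387484109) (nat_lit 608) (nat_lit 3240881283) (nat_lit 684) (nat_lit 1954524376) (nat_lit 660) (nat_lit 5) (nat_lit 668) (nat_lit 5) (nat_lit 669) (nat_lit 5) (nat_lit 390) (nat_lit 387) (nat_lit 363))) (XT.nd (nat_lit 78) (nat_lit 684) (nat_lit 0) (XT.lf (nat_lit 76) (nat_lit 28934267) (nat_lit 0) (nat_lit 3794237207) (nat_lit 684) (nat_lit 2777756393) (nat_lit 661) (nat_lit 5) (nat_lit 660) (nat_lit 5) (nat_lit 669) (nat_lit 5) (nat_lit 391)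 (nat_lit 387) (nat_lit 362)) (XT.nd (nat_lit 78) (nat_lit 684) (nat_lit 0) (XT.lf (nat_lit 76) (nat_lit 3373997467) (nat_lit 0) (nat_lit 2892902396) (nat_lit 684) (nat_lit 353274539) (nat_lit 661) (nat_lit 5) (nat_lit 660) (nat_lit 5) (nat_lit 669) (nat_lit 5) (nat_lit 392) (nat_lit 387) (nat_lit 361)) (XT.lf (nat_lit 76) (nat_lit 99434263) (nat_lit 0) (nat_lit 1931472883) (nat_lit 760) (nat_lit 4609876152) (nat_lit 652) (nat_lit 5) (nat_lit 651) (nat_lit 5) (nat_lit 661) (nat_lit 5) (nat_lit 393) (nat_lit 387) (nat_lit 360))))) (XT.nd (nat_lit 234) (nat_lit 836) (nat_lit 0) (XT.nd (nat_lit 78) (nat_lit 684) (nat_lit 0) (XT.lf (nat_lit 76) (nat_lit 3519551807) (nat_lit 0) (nat_lit 899615243) (nat_lit 760) (nat_lit 2243400364) (nat_lit 652) (nat_lit 5) (nat_lit 651) (nat_lit 5) (nat_lit 661) (nat_lit 5) (nat_lit 394) (nat_lit 387) (nat_lit 359)) (XT.nd (nat_lit 78) (nat_lit 0) (nat_lit 0) (XT.lf (nat_lit 0) (nat_lit 111360450)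 (nat_lit 760) (nat_lit 6395327279) (nat_lit 836) (nat_lit 179244541) (nat_lit 642) (nat_lit 5) (nat_lit 652) (nat_lit 5) (nat_lit 653) (nat_lit 5) (nat_lit 395) (nat_lit 387) (nat_lit 358)) (XT.lf (nat_lit 0) (nat_lit 2451626319) (nat_lit 760) (nat_lit 2930137981) (nat_lit 836) (nat_lit 1328364948) (nat_lit 642) (nat_lit 5) (nat_lit 652) (nat_lit 5) (nat_lit 653) (nat_lit 5) (nat_lit 396) (nat_lit 387) (nat_lit 357)))) (XT.nd (nat_lit 78) (nat_lit 836) (nat_lit 0) (XT.lf (nat_lit 76) (nat_lit 577275744) (nat_lit 0) (nat_lit 4207554333) (nat_lit 836) (nat_lit 1951087227) (nat_lit 643) (nat_lit 5) (nat_lit 642) (nat_lit 5) (nat_lit 653) (nat_lit 5) (nat_lit 397) (nat_lit 387) (nat_lit 356)) (XT.nd (nat_lit 78) (nat_lit 0) (nat_lit 0) (XT.lf (nat_lit 0) (nat_lit 359877576) (nat_lit 836) (nat_lit 2605224805) (nat_lit 912) (nat_lit 3797841523) (nat_lit 631) (nat_lit 5) (nat_lit 642) (nat_lit 5) (nat_lit 643) (nat_lit 5) (nat_lit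 398) (nat_lit 387) (nat_lit 355)) (XT.lf (nat_lit 76) (nat_lit 984734431) (nat_lit 0) (nat_lit 1656626391) (nat_lit 912) (nat_lit 4149911866) (nat_lit 632) (nat_lit 5) (nat_lit 631) (nat_lit 5) (nat_lit 643) (nat_lit 5) (nat_lit 399) (nat_lit 387) (nat_lit 354))))))))
noncomputable def xc112 : XT := (XT.nd (nat_lit 1638) (nat_lit 12920) (nat_lit 0) (XT.nd (nat_lit 780) (nat_lit 9804) (nat_lit 0) (XT.nd (nat_lit 390) (nat_lit 2052) (nat_lit 0) (XT.nd (nat_lit 156) (nat_lit 988) (nat_lit 0) (XT.nd (nat_lit 78) (nat_lit 836) (nat_lit 0) (XT.lf (nat_lit 76) (nat_lit 4647514747) (nat_lit 0) (nat_lit 283322916) (nat_lit 912) (nat_lit 1890110627) (nat_lit 632) (nat_lit 5) (nat_lit 631) (nat_lit 5) (nat_lit 643) (nat_lit 5) (nat_lit 400) (nat_lit 387) (nat_lit 353)) (XT.lf (nat_lit 0) (nat_lit 372328771) (nat_lit 912) (nat_lit 5344409074) (nat_lit 988) (nat_lit 1135194466) (nat_lit 620) (nat_lit 5) (nat_lit 632) (nat_lit 5)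 (nat_lit 633) (nat_lit 5) (nat_lit 401) (nat_lit 387) (nat_lit 352))) (XT.nd (nat_lit 78) (nat_lit 988) (nat_lit 0) (XT.lf (nat_lit 0) (nat_lit 2617839170) (nat_lit 912) (nat_lit 1641541312) (nat_lit 988) (nat_lit 2624668974) (nat_lit 620) (nat_lit 5) (nat_lit 632) (nat_lit 5) (nat_lit 633) (nat_lit 5) (nat_lit 402) (nat_lit 387) (nat_lit 351)) (XT.nd (nat_lit 78) (nat_lit 988) (nat_lit 0) (XT.lf (nat_lit 76) (nat_lit 2128627184) (nat_lit 0) (nat_lit 2741050457) (nat_lit 988) (nat_lit 2047928371) (nat_lit 621) (nat_lit 5) (nat_lit 620) (nat_lit 5) (nat_lit 633) (nat_lit 5) (nat_lit 403) (nat_lit 387) (nat_lit 350)) (XT.lf (nat_lit 0) (nat_lit 171026608) (nat_lit 988) (nat_lit 991790717) (nat_lit 1064) (nat_lit 5789830459) (nat_lit 607) (nat_lit 5) (nat_lit 620) (nat_lit 5) (nat_lit 621) (nat_lit 5) (nat_lit 404) (nat_lit 387) (nat_lit 349))))) (XT.nd (nat_lit 156) (nat_lit 2128) (nat_lit 0) (XT.nd (nat_lit 78) (nat_lit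 0) (nat_lit 0) (XT.lf (nat_lit 0) (nat_lit 2377880932) (nat_lit 988) (nat_lit 4121051088) (nat_lit 76) (nat_lit 489792753) (nat_lit 608) (nat_lit 5) (nat_lit 621) (nat_lit 5) (nat_lit 609) (nat_lit 5) (nat_lit 405) (nat_lit 387) (nat_lit 348)) (XT.lf (nat_lit 0) (nat_lit 4593206505) (nat_lit 988) (nat_lit 250738598) (nat_lit 76) (nat_lit 2182315003) (nat_lit 608) (nat_lit 5) (nat_lit 621) (nat_lit 5) (nat_lit 609) (nat_lit 5) (nat_lit 406) (nat_lit 387) (nat_lit 347))) (XT.nd (nat_lit 78) (nat_lit 1140) (nat_lit 0) (XT.lf (nat_lit 0) (nat_lit 3710968876) (nat_lit 988) (nat_lit 3116879345) (nat_lit 1064) (nat_lit 237220760) (nat_lit 595) (nat_lit 5) (nat_lit 608) (nat_lit 5) (nat_lit 609) (nat_lit 5) (nat_lit 407) (nat_lit 387) (nat_lit 346)) (XT.nd (nat_lit 78) (nat_lit 0) (nat_lit 0) (XT.lf (nat_lit 0) (nat_lit 610561385) (nat_lit 1064) (nat_lit 1322673585) (nat_lit 1140) (nat_lit 5172041766) (nat_lit 580) (nat_lit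 5) (nat_lit 594) (nat_lit 5) (nat_lit 595) (nat_lit 5) (nat_lit 408) (nat_lit 387) (nat_lit 345)) (XT.lf (nat_lit 0) (nat_lit 4122002561) (nat_lit 1140) (nat_lit 2486828194) (nat_lit 76) (nat_lit 537886649) (nat_lit 580) (nat_lit 5) (nat_lit 595) (nat_lit 5) (nat_lit 581) (nat_lit 5) (nat_lit 409) (nat_lit 387) (nat_lit 344)))))) (XT.nd (nat_lit 390) (nat_lit 6004) (nat_lit 0) (XT.nd (nat_lit 156) (nat_lit 2584) (nat_lit 0) (XT.nd (nat_lit 78) (nat_lit 76) (nat_lit 0) (XT.lf (nat_lit 0) (nat_lit 1577899778) (nat_lit 1140) (nat_lit 4748713494) (nat_lit 1216) (nat_lit 862953531) (nat_lit 565) (nat_lit 5) (nat_lit 580) (nat_lit 5) (nat_lit 581) (nat_lit 5) (nat_lit 410) (nat_lit 387) (nat_lit 343)) (XT.lf (nat_lit 0) (nat_lit 1294670001) (nat_lit 1216) (nat_lit 1519790821) (nat_lit 76) (nat_lit 4419253984) (nat_lit 564) (nat_lit 5) (nat_lit 580) (nat_lit 5) (nat_lit 565) (nat_lit 5) (nat_lit 411) (nat_lit 387) (nat_lit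 342))) (XT.nd (nat_lit 78) (nat_lit 1368) (nat_lit 0) (XT.lf (nat_lit 0) (nat_lit 2647976513) (nat_lit 1216) (nat_lit 807460596) (nat_lit 1292) (nat_lit 3823783704) (nat_lit 548) (nat_lit 5) (nat_lit 564) (nat_lit 5) (nat_lit 565) (nat_lit 5) (nat_lit 412) (nat_lit 387) (nat_lit 341)) (XT.nd (nat_lit 78) (nat_lit 1368) (nat_lit 0) (XT.lf (nat_lit 0) (nat_lit 5632813695) (nat_lit 1292) (nat_lit 449565128) (nat_lit 76) (nat_lit 1243809888) (nat_lit 548) (nat_lit 5) (nat_lit 565) (nat_lit 5) (nat_lit 549) (nat_lit 5) (nat_lit 413) (nat_lit 387) (nat_lit 340)) (XT.lf (nat_lit 0) (nat_lit 459385939) (nat_lit 1368) (nat_lit 3551857366) (nat_lit 76) (nat_lit 3363088576) (nat_lit 530) (nat_lit 5) (nat_lit 548) (nat_lit 5) (nat_lit 531) (nat_lit 5) (nat_lit 414) (nat_lit 387) (nat_lit 339))))) (XT.nd (nat_lit 234) (nat_lit 3192) (nat_lit 0) (XT.nd (nat_lit 78) (nat_lit 1444) (nat_lit 0) (XT.lf (nat_lit 0) (nat_lit 725568066)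 (nat_lit 1368) (nat_lit 1871020199) (nat_lit 1444) (nat_lit 4827363097) (nat_lit 512) (nat_lit 5) (nat_lit 530) (nat_lit 5) (nat_lit 531) (nat_lit 5) (nat_lit 415) (nat_lit 387) (nat_lit 338)) (XT.nd (nat_lit 78) (nat_lit 1444) (nat_lit 0) (XT.lf (nat_lit 0) (nat_lit 4759524923) (nat_lit 1444) (nat_lit 2375665051) (nat_lit 76) (nat_lit 339731608) (nat_lit 512) (nat_lit 5) (nat_lit 531) (nat_lit 5) (nat_lit 513) (nat_lit 5) (nat_lit 416) (nat_lit 387) (nat_lit 337)) (XT.lf (nat_lit 0) (nat_lit 2012130382) (nat_lit 1444) (nat_lit 4936860417) (nat_lit 1520) (nat_lit 578272800) (nat_lit 493) (nat_lit 5) (nat_lit 512) (nat_lit 5) (nat_lit 513) (nat_lit 5) (nat_lit 417) (nat_lit 387) (nat_lit 336)))) (XT.nd (nat_lit 78) (nat_lit 3116) (nat_lit 0) (XT.lf (nat_lit 0) (nat_lit 1554757775) (nat_lit 1520) (nat_lit 1106669988) (nat_lit 76) (nat_lit 4919550443) (nat_lit 492) (nat_lit 5) (nat_lit 512) (nat_lit 5) (nat_lit 493) (nat_lit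 5) (nat_lit 418) (nat_lit 387) (nat_lit 335)) (XT.nd (nat_lit 78) (nat_lit 1596) (nat_lit 0) (XT.lf (nat_lit 0) (nat_lit 3395651110) (nat_lit 1520) (nat_lit 308051865) (nat_lit 1596) (nat_lit 3932384515) (nat_lit 472) (nat_lit 5) (nat_lit 492) (nat_lit 5) (nat_lit 493) (nat_lit 5) (nat_lit 419) (nat_lit 387) (nat_lit 334)) (XT.lf (nat_lit 0) (nat_lit 265062431) (nat_lit 1596) (nat_lit 5612905490) (nat_lit 1672) (nat_lit 1814700666) (nat_lit 451) (nat_lit 5) (nat_lit 472) (nat_lit 5) (nat_lit 473) (nat_lit 5) (nat_lit 420) (nat_lit 387) (nat_lit 333))))))) (XT.nd (nat_lit 858) (nat_lit 5548) (nat_lit 0) (XT.nd (nat_lit 390) (nat_lit 2660) (nat_lit 0) (XT.nd (nat_lit 156) (nat_lit 2964) (nat_lit 0) (XT.nd (nat_lit 78) (nat_lit 1672) (nat_lit 0) (XT.lf (nat_lit 0) (nat_lit 331333977) (nat_lit 1672) (nat_lit 2872095314) (nat_lit 76) (nat_lit 4547112454) (nat_lit 450) (nat_lit 5) (nat_lit 472) (nat_lit 5) (nat_lit 451) (nat_lit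 5) (nat_lit 421) (nat_lit 387) (nat_lit 332)) (XT.lf (nat_lit 0) (nat_lit 1750203381) (nat_lit 1672) (nat_lit 717802883) (nat_lit 1748) (nat_lit 5341901380) (nat_lit 428) (nat_lit 5) (nat_lit 450) (nat_lit 5) (nat_lit 451) (nat_lit 5) (nat_lit 422) (nat_lit 387) (nat_lit 331))) (XT.nd (nat_lit 78) (nat_lit 2964) (nat_lit 0) (XT.lf (nat_lit 0) (nat_lit 4639812370) (nat_lit 1748) (nat_lit 1413966747) (nat_lit 76) (nat_lit 1816848928) (nat_lit 428) (nat_lit 5) (nat_lit 451) (nat_lit 5) (nat_lit 429) (nat_lit 5) (nat_lit 423) (nat_lit 387) (nat_lit 330)) (XT.nd (nat_lit 78) (nat_lit 1216) (nat_lit 0) (XT.lf (nat_lit 0) (nat_lit 3328444691) (nat_lit 1748) (nat_lit 3514933662) (nat_lit 1824) (nat_lit 1089432924) (nat_lit 405) (nat_lit 5) (nat_lit 428) (nat_lit 5) (nat_lit 429) (nat_lit 5) (nat_lit 424) (nat_lit 387) (nat_lit 329)) (XT.lf (nat_lit 0) (nat_lit 148169481) (nat_lit 1140) (nat_lit 904979074) (nat_lit 1216) (nat_lit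 6943507187) (nat_lit 389) (nat_lit 5) (nat_lit 404) (nat_lit 5) (nat_lit 405) (nat_lit 5) (nat_lit 425) (nat_lit 387) (nat_lit 328))))) (XT.nd (nat_lit 234) (nat_lit 1748) (nat_lit 0) (XT.nd (nat_lit 78) (nat_lit 912) (nat_lit 0) (XT.lf (nat_lit 0) (nat_lit 3229260713) (nat_lit 1216) (nat_lit 3057783106) (nat_lit 76) (nat_lit 1774497959) (nat_lit 389) (nat_lit 5) (nat_lit 405) (nat_lit 5) (nat_lit 390) (nat_lit 5) (nat_lit 426) (nat_lit 387) (nat_lit 327)) (XT.nd (nat_lit 78) (nat_lit 0) (nat_lit 0) (XT.lf (nat_lit 0) (nat_lit 1811235272) (nat_lit 912) (nat_lit 3618885206) (nat_lit 988) (nat_lit 2697994311) (nat_lit 377) (nat_lit 5) (nat_lit 389) (nat_lit 5) (nat_lit 390) (nat_lit 5) (nat_lit 427) (nat_lit 387) (nat_lit 326)) (XT.lf (nat_lit 0) (nat_lit 6784054772) (nat_lit 912) (nat_lit 875423187) (nat_lit 988) (nat_lit 536865183) (nat_lit 377) (nat_lit 5) (nat_lit 389) (nat_lit 5) (nat_lit 390) (nat_lit 5) (nat_lit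 428) (nat_lit 387) (nat_lit 325)))) (XT.nd (nat_lit 78) (nat_lit 836) (nat_lit 0) (XT.lf (nat_lit 0) (nat_lit 1646074410) (nat_lit 912) (nat_lit 4686844841) (nat_lit 76) (nat_lit 1932804102) (nat_lit 365) (nat_lit 5) (nat_lit 377) (nat_lit 5) (nat_lit 366) (nat_lit 5) (nat_lit 429) (nat_lit 387) (nat_lit 324)) (XT.nd (nat_lit 78) (nat_lit 0) (nat_lit 0) (XT.lf (nat_lit 0) (nat_lit 312071984) (nat_lit 836) (nat_lit 3535679635) (nat_lit 912) (nat_lit 4489035941) (nat_lit 354) (nat_lit 5) (nat_lit 365) (nat_lit 5) (nat_lit 366) (nat_lit 5) (nat_lit 430) (nat_lit 387) (nat_lit 323)) (XT.lf (nat_lit 0) (nat_lit 5439414629) (nat_lit 836) (nat_lit 650856528) (nat_lit 912) (nat_lit 2319078181) (nat_lit 354) (nat_lit 5) (nat_lit 365) (nat_lit 5) (nat_lit 366) (nat_lit 5) (nat_lit 431) (nat_lit 387) (nat_lit 322)))))) (XT.nd (nat_lit 390) (nat_lit 2964) (nat_lit 0) (XT.nd (nat_lit 156) (nat_lit 1672) (nat_lit 0) (XT.nd (nat_lit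 78) (nat_lit 76) (nat_lit 0) (XT.lf (nat_lit 0) (nat_lit 2164364116) (nat_lit 836) (nat_lit 6208242494) (nat_lit 912) (nat_lit 110868650) (nat_lit 343) (nat_lit 5) (nat_lit 354) (nat_lit 5) (nat_lit 355) (nat_lit 5) (nat_lit 432) (nat_lit 387) (nat_lit 321)) (XT.lf (nat_lit 0) (nat_lit 2104030861) (nat_lit 912) (nat_lit 1170738567) (nat_lit 76) (nat_lit 5284235697) (nat_lit 342) (nat_lit 5) (nat_lit 354) (nat_lit 5) (nat_lit 343) (nat_lit 5) (nat_lit 433) (nat_lit 387) (nat_lit 320))) (XT.nd (nat_lit 78) (nat_lit 836) (nat_lit 0) (XT.lf (nat_lit 0) (nat_lit 4099004588) (nat_lit 836) (nat_lit 256255946) (nat_lit 912) (nat_lit 4280911577) (nat_lit 331) (nat_lit 5) (nat_lit 342) (nat_lit 5) (nat_lit 343) (nat_lit 5) (nat_lit 434) (nat_lit 387) (nat_lit 319)) (XT.nd (nat_lit 78) (nat_lit 76) (nat_lit 0) (XT.lf (nat_lit 0) (nat_lit 731454106) (nat_lit 760) (nat_lit 5918360807) (nat_lit 836) (nat_lit 2065112809) (nat_lit 321)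 (nat_lit 5) (nat_lit 331) (nat_lit 5) (nat_lit 332) (nat_lit 5) (nat_lit 435) (nat_lit 387) (nat_lit 318)) (XT.lf (nat_lit 0) (nat_lit 192296456) (nat_lit 836) (nat_lit 2666123324) (nat_lit 76) (nat_lit 5936827153) (nat_lit 320) (nat_lit 5) (nat_lit 331) (nat_lit 5) (nat_lit 321) (nat_lit 5) (nat_lit 436) (nat_lit 387) (nat_lit 317))))) (XT.nd (nat_lit 234) (nat_lit 1520) (nat_lit 0) (XT.nd (nat_lit 78) (nat_lit 684) (nat_lit 0) (XT.lf (nat_lit 0) (nat_lit 2455092848) (nat_lit 836) (nat_lit 6133752085) (nat_lit 76) (nat_lit 288307409) (nat_lit 310) (nat_lit 5) (nat_lit 321) (nat_lit 5) (nat_lit 311) (nat_lit 5) (nat_lit 437) (nat_lit 387) (nat_lit 316)) (XT.nd (nat_lit 78) (nat_lit 684) (nat_lit 0) (XT.lf (nat_lit 0) (nat_lit 4768611265) (nat_lit 836) (nat_lit 717093840) (nat_lit 76) (nat_lit 3474891862) (nat_lit 310) (nat_lit 5) (nat_lit 321) (nat_lit 5) (nat_lit 311) (nat_lit 5) (nat_lit 438) (nat_lit 387) (nat_lit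 315)) (XT.lf (nat_lit 0) (nat_lit 4837060309) (nat_lit 684) (nat_lit 2291888860) (nat_lit 760) (nat_lit 1916760557) (nat_lit 301) (nat_lit 5) (nat_lit 310) (nat_lit 5) (nat_lit 311) (nat_lit 5) (nat_lit 439) (nat_lit 387) (nat_lit 314)))) (XT.nd (nat_lit 78) (nat_lit 684) (nat_lit 0) (XT.lf (nat_lit 0) (nat_lit 388016896) (nat_lit 836) (nat_lit 7778869152) (nat_lit 76) (nat_lit 965809145) (nat_lit 290) (nat_lit 5) (nat_lit 301) (nat_lit 5) (nat_lit 291) (nat_lit 5) (nat_lit 440) (nat_lit 387) (nat_lit 313)) (XT.nd (nat_lit 78) (nat_lit 684) (nat_lit 0) (XT.lf (nat_lit 0) (nat_lit 2726525560) (nat_lit 836) (nat_lit 2199145728) (nat_lit 76) (nat_lit 4295239298) (nat_lit 290) (nat_lit 5) (nat_lit 301) (nat_lit 5) (nat_lit 291) (nat_lit 5) (nat_lit 441) (nat_lit 387) (nat_lit 312)) (XT.lf (nat_lit 0) (nat_lit 3503978769) (nat_lit 684) (nat_lit 1600840227) (nat_lit 760) (nat_lit 4206220444) (nat_lit 281) (nat_lit 5) (nat_lit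 290) (nat_lit 5) (nat_lit 291) (nat_lit 5) (nat_lit 442) (nat_lit 387) (nat_lit 311))))))))
noncomputable def xc113 : XT := (XT.nd (nat_lit 1716) (nat_lit 5396) (nat_lit 0) (XT.nd (nat_lit 858) (nat_lit 3268) (nat_lit 0) (XT.nd (nat_lit 390) (nat_lit 2508) (nat_lit 0) (XT.nd (nat_lit 156) (nat_lit 1292) (nat_lit 0) (XT.nd (nat_lit 78) (nat_lit 760) (nat_lit 0) (XT.lf (nat_lit 0) (nat_lit 7527756179) (nat_lit 760) (nat_lit 97913941) (nat_lit 76) (nat_lit 1777368456) (nat_lit 281) (nat_lit 5) (nat_lit 291) (nat_lit 5) (nat_lit 282) (nat_lit 5) (nat_lit 443) (nat_lit 387) (nat_lit 310)) (XT.lf (nat_lit 0) (nat_lit 514955645) (nat_lit 760) (nat_lit 3743394913) (nat_lit 76) (nat_lit 5238085441) (nat_lit 271) (nat_lit 5) (nat_lit 281) (nat_lit 5) (nat_lit 272) (nat_lit 5) (nat_lit 444) (nat_lit 387) (nat_lit 309))) (XT.nd (nat_lit 78) (nat_lit 684) (nat_lit 0) (XT.lf (nat_lit 0) (nat_lit 2111947098) (nat_lit 608) (nat_lit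 801662285) (nat_lit 684) (nat_lit 6678138383) (nat_lit 263) (nat_lit 5) (nat_lit 271) (nat_lit 5) (nat_lit 272) (nat_lit 5) (nat_lit 445) (nat_lit 387) (nat_lit 308)) (XT.nd (nat_lit 78) (nat_lit 684) (nat_lit 0) (XT.lf (nat_lit 0) (nat_lit 5374841549) (nat_lit 684) (nat_lit 1605476804) (nat_lit 76) (nat_lit 2708363864) (nat_lit 263) (nat_lit 5) (nat_lit 272) (nat_lit 5) (nat_lit 264) (nat_lit 5) (nat_lit 446) (nat_lit 387) (nat_lit 307)) (XT.lf (nat_lit 0) (nat_lit 4405172993) (nat_lit 684) (nat_lit 3486223720) (nat_lit 760) (nat_lit 1896045064) (nat_lit 254) (nat_lit 5) (nat_lit 263) (nat_lit 5) (nat_lit 264) (nat_lit 5) (nat_lit 447) (nat_lit 387) (nat_lit 306))))) (XT.nd (nat_lit 234) (nat_lit 1216) (nat_lit 0) (XT.nd (nat_lit 78) (nat_lit 608) (nat_lit 0) (XT.lf (nat_lit 0) (nat_lit 550549512) (nat_lit 684) (nat_lit 9248266506) (nat_lit 76) (nat_lit 89536140) (nat_lit 245) (nat_lit 5) (nat_lit 254) (nat_lit 5) (nat_lit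 246) (nat_lit 5) (nat_lit 448) (nat_lit 387) (nat_lit 305)) (XT.nd (nat_lit 78) (nat_lit 608) (nat_lit 0) (XT.lf (nat_lit 0) (nat_lit 3052767060) (nat_lit 684) (nat_lit 3204669584) (nat_lit 76) (nat_lit 3732959767) (nat_lit 245) (nat_lit 5) (nat_lit 254) (nat_lit 5) (nat_lit 246) (nat_lit 5) (nat_lit 449) (nat_lit 387) (nat_lit 304)) (XT.lf (nat_lit 0) (nat_lit 2965284529) (nat_lit 608) (nat_lit 2632144838) (nat_lit 684) (nat_lit 4497211923) (nat_lit 237) (nat_lit 5) (nat_lit 245) (nat_lit 5) (nat_lit 246) (nat_lit 5) (nat_lit 450) (nat_lit 387) (nat_lit 303)))) (XT.nd (nat_lit 78) (nat_lit 1216) (nat_lit 0) (XT.lf (nat_lit 0) (nat_lit 8194967011) (nat_lit 684) (nat_lit 939204942) (nat_lit 76) (nat_lit 1066767067) (nat_lit 237) (nat_lit 5) (nat_lit 246) (nat_lit 5) (nat_lit 238) (nat_lit 5) (nat_lit 451) (nat_lit 387) (nat_lit 302)) (XT.nd (nat_lit 78) (nat_lit 608) (nat_lit 0) (XT.lf (nat_lit 0) (nat_lit 554639016)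 (nat_lit 608) (nat_lit 4917435647) (nat_lit 76) (nat_lit 4836694578) (nat_lit 229) (nat_lit 5) (nat_lit 237) (nat_lit 5) (nat_lit 230) (nat_lit 5) (nat_lit 452) (nat_lit 387) (nat_lit 301)) (XT.lf (nat_lit 0) (nat_lit 1414656424) (nat_lit 608) (nat_lit 1714557384) (nat_lit 684) (nat_lit 7289491998) (nat_lit 221) (nat_lit 5) (nat_lit 229) (nat_lit 5) (nat_lit 230) (nat_lit 5) (nat_lit 453) (nat_lit 387) (nat_lit 300)))))) (XT.nd (nat_lit 390) (nat_lit 1596) (nat_lit 0) (XT.nd (nat_lit 156) (nat_lit 1140) (nat_lit 0) (XT.nd (nat_lit 78) (nat_lit 532) (nat_lit 0) (XT.lf (nat_lit 0) (nat_lit 5776554116) (nat_lit 684) (nat_lit 2637513685) (nat_lit 76) (nat_lit 2116354839) (nat_lit 221) (nat_lit 5) (nat_lit 230) (nat_lit 5) (nat_lit 222) (nat_lit 5) (nat_lit 454) (nat_lit 387) (nat_lit 299)) (XT.lf (nat_lit 0) (nat_lit 3862906524) (nat_lit 532) (nat_lit 4625178498) (nat_lit 608) (nat_lit 2156070794) (nat_lit 214) (nat_lit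 5) (nat_lit 221) (nat_lit 5) (nat_lit 222) (nat_lit 5) (nat_lit 455) (nat_lit 387) (nat_lit 298))) (XT.nd (nat_lit 78) (nat_lit 1064) (nat_lit 0) (XT.lf (nat_lit 0) (nat_lit 479944096) (nat_lit 608) (nat_lit 266923533) (nat_lit 76) (nat_lit 10013383814) (nat_lit 213) (nat_lit 5) (nat_lit 221) (nat_lit 5) (nat_lit 214) (nat_lit 5) (nat_lit 456) (nat_lit 387) (nat_lit 297)) (XT.nd (nat_lit 78) (nat_lit 532) (nat_lit 0) (XT.lf (nat_lit 0) (nat_lit 3178056141) (nat_lit 608) (nat_lit 4483890257) (nat_lit 76) (nat_lit 3215679103) (nat_lit 206) (nat_lit 5) (nat_lit 214) (nat_lit 5) (nat_lit 207) (nat_lit 5) (nat_lit 457) (nat_lit 387) (nat_lit 296)) (XT.lf (nat_lit 0) (nat_lit 2185150316) (nat_lit 532) (nat_lit 3741552338) (nat_lit 608) (nat_lit 5070719299) (nat_lit 199) (nat_lit 5) (nat_lit 206) (nat_lit 5) (nat_lit 207) (nat_lit 5) (nat_lit 458) (nat_lit 387) (nat_lit 295))))) (XT.nd (nat_lit 234) (nat_lit 532) (nat_lit 0)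 (XT.nd (nat_lit 78) (nat_lit 1064) (nat_lit 0) (XT.lf (nat_lit 0) (nat_lit 8738131834) (nat_lit 608) (nat_lit 2105216179) (nat_lit 76) (nat_lit 276116358) (nat_lit 199) (nat_lit 5) (nat_lit 207) (nat_lit 5) (nat_lit 200) (nat_lit 5) (nat_lit 459) (nat_lit 387) (nat_lit 294)) (XT.nd (nat_lit 78) (nat_lit 456) (nat_lit 0) (XT.lf (nat_lit 0) (nat_lit 389188378) (nat_lit 608) (nat_lit 6504536273) (nat_lit 76) (nat_lit 4349540149) (nat_lit 191) (nat_lit 5) (nat_lit 199) (nat_lit 5) (nat_lit 192) (nat_lit 5) (nat_lit 460) (nat_lit 387) (nat_lit 293)) (XT.lf (nat_lit 0) (nat_lit 335208907) (nat_lit 456) (nat_lit 2840872652) (nat_lit 532) (nat_lit 8193293781) (nat_lit 185) (nat_lit 5) (nat_lit 191) (nat_lit 5) (nat_lit 192) (nat_lit 5) (nat_lit 461) (nat_lit 387) (nat_lit 292)))) (XT.nd (nat_lit 78) (nat_lit 532) (nat_lit 0) (XT.lf (nat_lit 0) (nat_lit 6047665792) (nat_lit 532) (nat_lit 4138258123) (nat_lit 76) (nat_lit 1311510871)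 (nat_lit 185) (nat_lit 5) (nat_lit 192) (nat_lit 5) (nat_lit 186) (nat_lit 5) (nat_lit 462) (nat_lit 387) (nat_lit 291)) (XT.nd (nat_lit 78) (nat_lit 76) (nat_lit 0) (XT.lf (nat_lit 0) (nat_lit 2882839681) (nat_lit 456) (nat_lit 6108451502) (nat_lit 532) (nat_lit 2636477692) (nat_lit 179) (nat_lit 5) (nat_lit 185) (nat_lit 5) (nat_lit 186) (nat_lit 5) (nat_lit 463) (nat_lit 387) (nat_lit 290)) (XT.lf (nat_lit 0) (nat_lit 235143980) (nat_lit 532) (nat_lit 1693220895) (nat_lit 76) (nat_lit 9832217502) (nat_lit 178) (nat_lit 5) (nat_lit 185) (nat_lit 5) (nat_lit 179) (nat_lit 5) (nat_lit 464) (nat_lit 387) (nat_lit 289))))))) (XT.nd (nat_lit 858) (nat_lit 2356) (nat_lit 0) (XT.nd (nat_lit 390) (nat_lit 1672) (nat_lit 0) (XT.nd (nat_lit 156) (nat_lit 456) (nat_lit 0) (XT.nd (nat_lit 78) (nat_lit 456) (nat_lit 0) (XT.lf (nat_lit 0) (nat_lit 3157863254) (nat_lit 532) (nat_lit 6387596615) (nat_lit 76) (nat_lit 2349669705) (nat_lit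 172) (nat_lit 5) (nat_lit 179) (nat_lit 5) (nat_lit 173) (nat_lit 5) (nat_lit 465) (nat_lit 387) (nat_lit 288)) (XT.lf (nat_lit 0) (nat_lit 809498828) (nat_lit 456) (nat_lit 5336797720) (nat_lit 532) (nat_lit 5885931190) (nat_lit 166) (nat_lit 5) (nat_lit 172) (nat_lit 5) (nat_lit 173) (nat_lit 5) (nat_lit 466) (nat_lit 387) (nat_lit 287))) (XT.nd (nat_lit 78) (nat_lit 456) (nat_lit 0) (XT.lf (nat_lit 0) (nat_lit 8205942720) (nat_lit 456) (nat_lit 1009448420) (nat_lit 532) (nat_lit 2956263982) (nat_lit 166) (nat_lit 5) (nat_lit 172) (nat_lit 5) (nat_lit 173) (nat_lit 5) (nat_lit 467) (nat_lit 387) (nat_lit 286)) (XT.nd (nat_lit 78) (nat_lit 0) (nat_lit 0) (XT.lf (nat_lit 0) (nat_lit 54486553) (nat_lit 456) (nat_lit 8885420088) (nat_lit 76) (nat_lit 3373506982) (nat_lit 160) (nat_lit 5) (nat_lit 166) (nat_lit 5) (nat_lit 161) (nat_lit 5) (nat_lit 468) (nat_lit 387) (nat_lit 285)) (XT.lf (nat_lit 0) (nat_lit 3097856289)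 (nat_lit 456) (nat_lit 1491616544) (nat_lit 76) (nat_lit 7867908689) (nat_lit 160) (nat_lit 5) (nat_lit 166) (nat_lit 5) (nat_lit 161) (nat_lit 5) (nat_lit 469) (nat_lit 387) (nat_lit 284))))) (XT.nd (nat_lit 234) (nat_lit 836) (nat_lit 0) (XT.nd (nat_lit 78) (nat_lit 380) (nat_lit 0) (XT.lf (nat_lit 0) (nat_lit 6099637260) (nat_lit 456) (nat_lit 120959263) (nat_lit 532) (nat_lit 6383266915) (nat_lit 154) (nat_lit 5) (nat_lit 160) (nat_lit 5) (nat_lit 161) (nat_lit 5) (nat_lit 470) (nat_lit 387) (nat_lit 283)) (XT.nd (nat_lit 78) (nat_lit 0) (nat_lit 0) (XT.lf (nat_lit 0) (nat_lit 1064361009) (nat_lit 380) (nat_lit 8366281423) (nat_lit 456) (nat_lit 3322140175) (nat_lit 149) (nat_lit 5) (nat_lit 154) (nat_lit 5) (nat_lit 155) (nat_lit 5) (nat_lit 471) (nat_lit 387) (nat_lit 282)) (XT.lf (nat_lit 0) (nat_lit 8841290834) (nat_lit 380) (nat_lit 3887311418) (nat_lit 456) (nat_lit 175608187) (nat_lit 149) (nat_lit 5) (nat_lit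 154) (nat_lit 5) (nat_lit 155) (nat_lit 5) (nat_lit 472) (nat_lit 387) (nat_lit 281)))) (XT.nd (nat_lit 78) (nat_lit 380) (nat_lit 0) (XT.lf (nat_lit 0) (nat_lit 3002367663) (nat_lit 456) (nat_lit 9348814542) (nat_lit 76) (nat_lit 706928975) (nat_lit 143) (nat_lit 5) (nat_lit 149) (nat_lit 5) (nat_lit 144) (nat_lit 5) (nat_lit 473) (nat_lit 387) (nat_lit 280)) (XT.nd (nat_lit 78) (nat_lit 380) (nat_lit 0) (XT.lf (nat_lit 0) (nat_lit 6274425311) (nat_lit 456) (nat_lit 1579814418) (nat_lit 76) (nat_lit 5360173796) (nat_lit 143) (nat_lit 5) (nat_lit 149) (nat_lit 5) (nat_lit 144) (nat_lit 5) (nat_lit 474) (nat_lit 387) (nat_lit 279)) (XT.lf (nat_lit 0) (nat_lit 6398866810) (nat_lit 380) (nat_lit 3234684170) (nat_lit 456) (nat_lit 3739862593) (nat_lit 138) (nat_lit 5) (nat_lit 143) (nat_lit 5) (nat_lit 144) (nat_lit 5) (nat_lit 475) (nat_lit 387) (nat_lit 278)))))) (XT.nd (nat_lit 390) (nat_lit 1140) (nat_lit 0) (XT.nd (nat_lit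 156) (nat_lit 760) (nat_lit 0) (XT.nd (nat_lit 78) (nat_lit 76) (nat_lit 0) (XT.lf (nat_lit 0) (nat_lit 996804782) (nat_lit 380) (nat_lit 12070006928) (nat_lit 456) (nat_lit 468646974) (nat_lit 133) (nat_lit 5) (nat_lit 138) (nat_lit 5) (nat_lit 139) (nat_lit 5) (nat_lit 476) (nat_lit 387) (nat_lit 277)) (XT.lf (nat_lit 0) (nat_lit 2879193198) (nat_lit 456) (nat_lit 4547868083) (nat_lit 76) (nat_lit 6272338659) (nat_lit 132) (nat_lit 5) (nat_lit 138) (nat_lit 5) (nat_lit 133) (nat_lit 5) (nat_lit 477) (nat_lit 387) (nat_lit 276))) (XT.nd (nat_lit 78) (nat_lit 380) (nat_lit 0) (XT.lf (nat_lit 0) (nat_lit 3617831274) (nat_lit 380) (nat_lit 2674045516) (nat_lit 456) (nat_lit 7574601916) (nat_lit 127) (nat_lit 5) (nat_lit 132) (nat_lit 5) (nat_lit 133) (nat_lit 5) (nat_lit 478) (nat_lit 387) (nat_lit 275)) (XT.nd (nat_lit 78) (nat_lit 380) (nat_lit 0) (XT.lf (nat_lit 0) (nat_lit 9798442664) (nat_lit 456) (nat_lit 2071490820)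 (nat_lit 76) (nat_lit 2166456789) (nat_lit 127) (nat_lit 5) (nat_lit 133) (nat_lit 5) (nat_lit 128) (nat_lit 5) (nat_lit 479) (nat_lit 387) (nat_lit 274)) (XT.lf (nat_lit 0) (nat_lit 6305395474) (nat_lit 380) (nat_lit 7109561380) (nat_lit 456) (nat_lit 793950601) (nat_lit 122) (nat_lit 5) (nat_lit 127) (nat_lit 5) (nat_lit 128) (nat_lit 5) (nat_lit 480) (nat_lit 387) (nat_lit 273))))) (XT.nd (nat_lit 234) (nat_lit 380) (nat_lit 0) (XT.nd (nat_lit 78) (nat_lit 380) (nat_lit 0) (XT.lf (nat_lit 0) (nat_lit 452628770) (nat_lit 304) (nat_lit 2228795633) (nat_lit 380) (nat_lit 11703137951) (nat_lit 117) (nat_lit 5) (nat_lit 121) (nat_lit 5) (nat_lit 122) (nat_lit 5) (nat_lit 481) (nat_lit 387) (nat_lit 272)) (XT.nd (nat_lit 78) (nat_lit 380) (nat_lit 0) (XT.lf (nat_lit 0) (nat_lit 6268268081) (nat_lit 380) (nat_lit 5532088949) (nat_lit 76) (nat_lit 2762220027) (nat_lit 117) (nat_lit 5) (nat_lit 122) (nat_lit 5) (nat_lit 118)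 (nat_lit 5) (nat_lit 482) (nat_lit 387) (nat_lit 271)) (XT.lf (nat_lit 0) (nat_lit 3032345895) (nat_lit 380) (nat_lit 6910658952) (nat_lit 456) (nat_lit 4800827524) (nat_lit 112) (nat_lit 5) (nat_lit 117) (nat_lit 5) (nat_lit 118) (nat_lit 5) (nat_lit 483) (nat_lit 387) (nat_lit 270)))) (XT.nd (nat_lit 78) (nat_lit 380) (nat_lit 0) (XT.lf (nat_lit 0) (nat_lit 11814829095) (nat_lit 380) (nat_lit 1895413843) (nat_lit 456) (nat_lit 1218093093) (nat_lit 112) (nat_lit 5) (nat_lit 117) (nat_lit 5) (nat_lit 118) (nat_lit 5) (nat_lit 484) (nat_lit 387) (nat_lit 269)) (XT.nd (nat_lit 78) (nat_lit 0) (nat_lit 0) (XT.lf (nat_lit 0) (nat_lit 2444578314) (nat_lit 380) (nat_lit 9449739882) (nat_lit 76) (nat_lit 3221093755) (nat_lit 107) (nat_lit 5) (nat_lit 112) (nat_lit 5) (nat_lit 108) (nat_lit 5) (nat_lit 485) (nat_lit 387) (nat_lit 268)) (XT.lf (nat_lit 0) (nat_lit 6180015386) (nat_lit 380) (nat_lit 691955400) (nat_lit 76) (nat_lit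 8433784300) (nat_lit 107) (nat_lit 5) (nat_lit 112) (nat_lit 5) (nat_lit 108) (nat_lit 5) (nat_lit 486) (nat_lit 387) (nat_lit 267))))))))
noncomputable def xc114 : XT := (XT.nd (nat_lit 51948) (nat_lit 0) (nat_lit 36784) (XT.nd (nat_lit 858) (nat_lit 988) (nat_lit 0) (XT.nd (nat_lit 390) (nat_lit 1292) (nat_lit 0) (XT.nd (nat_lit 156) (nat_lit 380) (nat_lit 0) (XT.nd (nat_lit 78) (nat_lit 304) (nat_lit 0) (XT.lf (nat_lit 0) (nat_lit 8322662175) (nat_lit 304) (nat_lit 1704107040) (nat_lit 380) (nat_lit 5472406825) (nat_lit 103) (nat_lit 5) (nat_lit 107) (nat_lit 5) (nat_lit 108) (nat_lit 5) (nat_lit 487) (nat_lit 387) (nat_lit 266)) (XT.lf (nat_lit 0) (nat_lit 1803462870) (nat_lit 304) (nat_lit 12169209890) (nat_lit 380) (nat_lit 1723351414) (nat_lit 99) (nat_lit 5) (nat_lit 103) (nat_lit 5) (nat_lit 104) (nat_lit 5) (nat_lit 488) (nat_lit 387) (nat_lit 265))) (XT.nd (nat_lit 78) (nat_lit 304) (nat_lit 0) (XT.lf (nat_lit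 0) (nat_lit 2115613246) (nat_lit 380) (nat_lit 4888400314) (nat_lit 76) (nat_lit 8891676289) (nat_lit 98) (nat_lit 5) (nat_lit 103) (nat_lit 5) (nat_lit 99) (nat_lit 5) (nat_lit 489) (nat_lit 387) (nat_lit 264)) (XT.nd (nat_lit 78) (nat_lit 0) (nat_lit 0) (XT.lf (nat_lit 0) (nat_lit 4313921145) (nat_lit 304) (nat_lit 1705446096) (nat_lit 380) (nat_lit 10079534932) (nat_lit 94) (nat_lit 5) (nat_lit 98) (nat_lit 5) (nat_lit 99) (nat_lit 5) (nat_lit 490) (nat_lit 387) (nat_lit 263)) (XT.lf (nat_lit 0) (nat_lit 10041381386) (nat_lit 380) (nat_lit 2590386606) (nat_lit 76) (nat_lit 3673609873) (nat_lit 94) (nat_lit 5) (nat_lit 99) (nat_lit 5) (nat_lit 95) (nat_lit 5) (nat_lit 491) (nat_lit 387) (nat_lit 262))))) (XT.nd (nat_lit 234) (nat_lit 608) (nat_lit 0) (XT.nd (nat_lit 78) (nat_lit 380) (nat_lit 0) (XT.lf (nat_lit 0) (nat_lit 6839862050) (nat_lit 304) (nat_lit 7343154600) (nat_lit 380) (nat_lit 2332185571) (nat_lit 90)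 (nat_lit 5) (nat_lit 94) (nat_lit 5) (nat_lit 95) (nat_lit 5) (nat_lit 492) (nat_lit 387) (nat_lit 261)) (XT.nd (nat_lit 78) (nat_lit 304) (nat_lit 0) (XT.lf (nat_lit 0) (nat_lit 1657267391) (nat_lit 380) (nat_lit 272753555) (nat_lit 76) (nat_lit 14798966519) (nat_lit 89) (nat_lit 5) (nat_lit 94) (nat_lit 5) (nat_lit 90) (nat_lit 5) (nat_lit 493) (nat_lit 387) (nat_lit 260)) (XT.lf (nat_lit 0) (nat_lit 5763939463) (nat_lit 380) (nat_lit 7570059426) (nat_lit 76) (nat_lit 3611370658) (nat_lit 85) (nat_lit 5) (nat_lit 90) (nat_lit 5) (nat_lit 86) (nat_lit 5) (nat_lit 494) (nat_lit 387) (nat_lit 259)))) (XT.nd (nat_lit 78) (nat_lit 380) (nat_lit 0) (XT.lf (nat_lit 0) (nat_lit 2041715437) (nat_lit 228) (nat_lit 7922834633) (nat_lit 304) (nat_lit 7201295654) (nat_lit 82) (nat_lit 5) (nat_lit 85) (nat_lit 5) (nat_lit 86) (nat_lit 5) (nat_lit 495) (nat_lit 387) (nat_lit 258)) (XT.nd (nat_lit 78) (nat_lit 380) (nat_lit 0) (XT.lf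 (nat_lit 0) (nat_lit 11922254732) (nat_lit 228) (nat_lit 2361787965) (nat_lit 304) (nat_lit 3105993839) (nat_lit 82) (nat_lit 5) (nat_lit 85) (nat_lit 5) (nat_lit 86) (nat_lit 5) (nat_lit 496) (nat_lit 387) (nat_lit 257)) (XT.lf (nat_lit 0) (nat_lit 1091717636) (nat_lit 380) (nat_lit 13233231914) (nat_lit 76) (nat_lit 3292933866) (nat_lit 77) (nat_lit 5) (nat_lit 82) (nat_lit 5) (nat_lit 78) (nat_lit 5) (nat_lit 497) (nat_lit 387) (nat_lit 256)))))) (XT.nd (nat_lit 390) (nat_lit 228) (nat_lit 0) (XT.nd (nat_lit 156) (nat_lit 532) (nat_lit 0) (XT.nd (nat_lit 78) (nat_lit 228) (nat_lit 0) (XT.lf (nat_lit 0) (nat_lit 5368762665) (nat_lit 380) (nat_lit 3403620453) (nat_lit 76) (nat_lit 9076756494) (nat_lit 77) (nat_lit 5) (nat_lit 82) (nat_lit 5) (nat_lit 78) (nat_lit 5) (nat_lit 498) (nat_lit 387) (nat_lit 255)) (XT.lf (nat_lit 0) (nat_lit 6684899758) (nat_lit 228) (nat_lit 3074512463) (nat_lit 304) (nat_lit 8325049754)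 (nat_lit 74) (nat_lit 5) (nat_lit 77) (nat_lit 5) (nat_lit 78) (nat_lit 5) (nat_lit 499) (nat_lit 387) (nat_lit 254))) (XT.nd (nat_lit 78) (nat_lit 532) (nat_lit 0) (XT.lf (nat_lit 0) (nat_lit 14263371768) (nat_lit 304) (nat_lit 1346062142) (nat_lit 76) (nat_lit 2714549204) (nat_lit 74) (nat_lit 5) (nat_lit 78) (nat_lit 5) (nat_lit 75) (nat_lit 5) (nat_lit 500) (nat_lit 387) (nat_lit 253)) (XT.nd (nat_lit 78) (nat_lit 228) (nat_lit 0) (XT.lf (nat_lit 0) (nat_lit 349447872) (nat_lit 304) (nat_lit 9588320561) (nat_lit 76) (nat_lit 8629208406) (nat_lit 70) (nat_lit 5) (nat_lit 74) (nat_lit 5) (nat_lit 71) (nat_lit 5) (nat_lit 501) (nat_lit 387) (nat_lit 252)) (XT.lf (nat_lit 0) (nat_lit 670336104) (nat_lit 228) (nat_lit 4121561084) (nat_lit 304) (nat_lit 14022427366) (nat_lit 67) (nat_lit 5) (nat_lit 70) (nat_lit 5) (nat_lit 71) (nat_lit 5) (nat_lit 502) (nat_lit 387) (nat_lit 251))))) (XT.nd (nat_lit 50466) (nat_lit 0)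 (nat_lit 45220) (XT.nd (nat_lit 78) (nat_lit 228) (nat_lit 0) (XT.lf (nat_lit 0) (nat_lit 9384853957) (nat_lit 304) (nat_lit 7838417042) (nat_lit 76) (nat_lit 1842117152) (nat_lit 67) (nat_lit 5) (nat_lit 71) (nat_lit 5) (nat_lit 68) (nat_lit 5) (nat_lit 503) (nat_lit 387) (nat_lit 250)) (XT.nd (nat_lit 50310) (nat_lit 0) (nat_lit 45904) (XT.lf (nat_lit 0) (nat_lit 2656260321) (nat_lit 228) (nat_lit 11443374043) (nat_lit 304) (nat_lit 5221241423) (nat_lit 64) (nat_lit 5) (nat_lit 67) (nat_lit 5) (nat_lit 68) (nat_lit 5) (nat_lit 504) (nat_lit 387) (nat_lit 249)) (XT.lf (nat_lit 0) (nat_lit 1366167471) (nat_lit 0) (nat_lit 1366167471) (nat_lit 532) (nat_lit 550436103) (nat_lit 668) (nat_lit 5) (nat_lit 668) (nat_lit 3) (nat_lit 675) (nat_lit 3) (nat_lit 388) (nat_lit 388) (nat_lit 364)))) (XT.nd (nat_lit 78) (nat_lit 0) (nat_lit 0) (XT.lf (nat_lit 0) (nat_lit 1320922309) (nat_lit 684) (nat_lit 655123232) (nat_lit 684)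 (nat_lit 4605601344) (nat_lit 659) (nat_lit 3) (nat_lit 668) (nat_lit 3) (nat_lit 668) (nat_lit 5) (nat_lit 389) (nat_lit 388) (nat_lit 363)) (XT.nd (nat_lit 78) (nat_lit 0) (nat_lit 0) (XT.lf (nat_lit 76) (nat_lit 2580711152) (nat_lit 0) (nat_lit 1149039553) (nat_lit 684) (nat_lit 2869145659) (nat_lit 660) (nat_lit 5) (nat_lit 659) (nat_lit 3) (nat_lit 668) (nat_lit 5) (nat_lit 390) (nat_lit 388) (nat_lit 362)) (XT.lf (nat_lit 76) (nat_lit 5857988376) (nat_lit 0) (nat_lit 270767691) (nat_lit 684) (nat_lit 488928976) (nat_lit 660) (nat_lit 5) (nat_lit 659) (nat_lit 3) (nat_lit 668) (nat_lit 5) (nat_lit 391) (nat_lit 388) (nat_lit 361))))))) (XT.nd (nat_lit 858) (nat_lit 5396) (nat_lit 0) (XT.nd (nat_lit 390) (nat_lit 1672) (nat_lit 0) (XT.nd (nat_lit 156) (nat_lit 760) (nat_lit 0) (XT.nd (nat_lit 78) (nat_lit 0) (nat_lit 0) (XT.lf (nat_lit 0) (nat_lit 1872866175) (nat_lit 684) (nat_lit 4089498855) (nat_lit 760) (nat_lit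 675077523) (nat_lit 651) (nat_lit 5) (nat_lit 660) (nat_lit 5) (nat_lit 661) (nat_lit 5) (nat_lit 392) (nat_lit 388) (nat_lit 360)) (XT.lf (nat_lit 0) (nat_lit 4221854822) (nat_lit 684) (nat_lit 764114946) (nat_lit 760) (nat_lit 1672662965) (nat_lit 651) (nat_lit 5) (nat_lit 660) (nat_lit 5) (nat_lit 661) (nat_lit 5) (nat_lit 393) (nat_lit 388) (nat_lit 359))) (XT.nd (nat_lit 78) (nat_lit 760) (nat_lit 0) (XT.lf (nat_lit 76) (nat_lit 2629327818) (nat_lit 0) (nat_lit 3946324942) (nat_lit 760) (nat_lit 105468978) (nat_lit 652) (nat_lit 5) (nat_lit 651) (nat_lit 5) (nat_lit 661) (nat_lit 5) (nat_lit 394) (nat_lit 388) (nat_lit 358)) (XT.nd (nat_lit 78) (nat_lit 0) (nat_lit 0) (XT.lf (nat_lit 0) (nat_lit 2189114639) (nat_lit 760) (nat_lit 651275935) (nat_lit 836) (nat_lit 3864476200) (nat_lit 641) (nat_lit 5) (nat_lit 651) (nat_lit 5) (nat_lit 652) (nat_lit 5) (nat_lit 395) (nat_lit 388) (nat_lit 357)) (XT.lf (nat_lit 76)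 (nat_lit 2820678165) (nat_lit 0) (nat_lit 1668256468) (nat_lit 836) (nat_lit 2240952785) (nat_lit 642) (nat_lit 5) (nat_lit 641) (nat_lit 5) (nat_lit 652) (nat_lit 5) (nat_lit 396) (nat_lit 388) (nat_lit 356))))) (XT.nd (nat_lit 234) (nat_lit 836) (nat_lit 0) (XT.nd (nat_lit 78) (nat_lit 0) (nat_lit 76) (XT.lf (nat_lit 0) (nat_lit 25655860) (nat_lit 836) (nat_lit 418405554) (nat_lit 912) (nat_lit 6312418311) (nat_lit 630) (nat_lit 5) (nat_lit 641) (nat_lit 5) (nat_lit 642) (nat_lit 5) (nat_lit 397) (nat_lit 388) (nat_lit 355)) (XT.nd (nat_lit 78) (nat_lit 0) (nat_lit 0) (XT.lf (nat_lit 0) (nat_lit 2277658079) (nat_lit 836) (nat_lit 3653939318) (nat_lit 912) (nat_lit 852336944) (nat_lit 631) (nat_lit 5) (nat_lit 642) (nat_lit 5) (nat_lit 643) (nat_lit 5) (nat_lit 398) (nat_lit 388) (nat_lit 354)) (XT.lf (nat_lit 0) (nat_lit 4525571613) (nat_lit 836) (nat_lit 93648941) (nat_lit 912) (nat_lit 2193727588) (nat_lit 631) (nat_lit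 5) (nat_lit 642) (nat_lit 5) (nat_lit 643) (nat_lit 5) (nat_lit 399) (nat_lit 388) (nat_lit 353)))) (XT.nd (nat_lit 78) (nat_lit 912) (nat_lit 0) (XT.lf (nat_lit 76) (nat_lit 3551243161) (nat_lit 0) (nat_lit 3236437822) (nat_lit 912) (nat_lit 55503467) (nat_lit 632) (nat_lit 5) (nat_lit 631) (nat_lit 5) (nat_lit 643) (nat_lit 5) (nat_lit 400) (nat_lit 388) (nat_lit 352)) (XT.nd (nat_lit 78) (nat_lit 0) (nat_lit 0) (XT.lf (nat_lit 76) (nat_lit 352796216) (nat_lit 0) (nat_lit 1788649981) (nat_lit 988) (nat_lit 4733325454) (nat_lit 620) (nat_lit 5) (nat_lit 619) (nat_lit 5) (nat_lit 632) (nat_lit 5) (nat_lit 401) (nat_lit 388) (nat_lit 351)) (XT.lf (nat_lit 76) (nat_lit 4081204845) (nat_lit 0) (nat_lit 269949460) (nat_lit 988) (nat_lit 2556463122) (nat_lit 620) (nat_lit 5) (nat_lit 619) (nat_lit 5) (nat_lit 632) (nat_lit 5) (nat_lit 402) (nat_lit 388) (nat_lit 350)))))) (XT.nd (nat_lit 390) (nat_lit 3496) (nat_lit 0) (XT.nd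 (nat_lit 156) (nat_lit 988) (nat_lit 0) (XT.nd (nat_lit 78) (nat_lit 988) (nat_lit 0) (XT.lf (nat_lit 76) (nat_lit 912733190) (nat_lit 0) (nat_lit 5655179291) (nat_lit 988) (nat_lit 373975448) (nat_lit 621) (nat_lit 5) (nat_lit 620) (nat_lit 5) (nat_lit 633) (nat_lit 5) (nat_lit 403) (nat_lit 388) (nat_lit 349)) (XT.lf (nat_lit 0) (nat_lit 1797804483) (nat_lit 988) (nat_lit 2259900103) (nat_lit 1064) (nat_lit 2919524025) (nat_lit 607) (nat_lit 5) (nat_lit 620) (nat_lit 5) (nat_lit 621) (nat_lit 5) (nat_lit 404) (nat_lit 388) (nat_lit 348))) (XT.nd (nat_lit 78) (nat_lit 988) (nat_lit 0) (XT.lf (nat_lit 76) (nat_lit 1569045769) (nat_lit 0) (nat_lit 2399211494) (nat_lit 1064) (nat_lit 3045787994) (nat_lit 608) (nat_lit 5) (nat_lit 607) (nat_lit 5) (nat_lit 621) (nat_lit 5) (nat_lit 405) (nat_lit 388) (nat_lit 347)) (XT.nd (nat_lit 78) (nat_lit 988) (nat_lit 0) (XT.lf (nat_lit 76) (nat_lit 5471630922) (nat_lit 0) (nat_lit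 676467490) (nat_lit 1064) (nat_lit 904203267) (nat_lit 608) (nat_lit 5) (nat_lit 607) (nat_lit 5) (nat_lit 621) (nat_lit 5) (nat_lit 406) (nat_lit 388) (nat_lit 346)) (XT.lf (nat_lit 0) (nat_lit 1237387005) (nat_lit 1064) (nat_lit 4749246298) (nat_lit 76) (nat_lit 1105066538) (nat_lit 594) (nat_lit 5) (nat_lit 608) (nat_lit 5) (nat_lit 595) (nat_lit 5) (nat_lit 407) (nat_lit 388) (nat_lit 345))))) (XT.nd (nat_lit 234) (nat_lit 1216) (nat_lit 0) (XT.nd (nat_lit 78) (nat_lit 2280) (nat_lit 0) (XT.lf (nat_lit 0) (nat_lit 3377136943) (nat_lit 1064) (nat_lit 811178971) (nat_lit 76) (nat_lit 2944123513) (nat_lit 594) (nat_lit 5) (nat_lit 608) (nat_lit 5) (nat_lit 595) (nat_lit 5) (nat_lit 408) (nat_lit 388) (nat_lit 344)) (XT.nd (nat_lit 78) (nat_lit 1216) (nat_lit 0) (XT.lf (nat_lit 0) (nat_lit 3214044013) (nat_lit 1064) (nat_lit 2319708049) (nat_lit 1140) (nat_lit 1640781613) (nat_lit 580) (nat_lit 5) (nat_lit 594) (nat_lit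 5) (nat_lit 595) (nat_lit 5) (nat_lit 409) (nat_lit 388) (nat_lit 343)) (XT.lf (nat_lit 0) (nat_lit 76854008) (nat_lit 1140) (nat_lit 391962788) (nat_lit 1216) (nat_lit 6749415352) (nat_lit 564) (nat_lit 5) (nat_lit 579) (nat_lit 5) (nat_lit 580) (nat_lit 5) (nat_lit 410) (nat_lit 388) (nat_lit 342)))) (XT.nd (nat_lit 78) (nat_lit 1216) (nat_lit 0) (XT.lf (nat_lit 0) (nat_lit 2589975099) (nat_lit 1216) (nat_lit 3069866930) (nat_lit 76) (nat_lit 1602938940) (nat_lit 564) (nat_lit 5) (nat_lit 580) (nat_lit 5) (nat_lit 565) (nat_lit 5) (nat_lit 411) (nat_lit 388) (nat_lit 341)) (XT.nd (nat_lit 78) (nat_lit 0) (nat_lit 0) (XT.lf (nat_lit 0) (nat_lit 1060107561) (nat_lit 1216) (nat_lit 3658165775) (nat_lit 1292) (nat_lit 2590672745) (nat_lit 548) (nat_lit 5) (nat_lit 564) (nat_lit 5) (nat_lit 565) (nat_lit 5) (nat_lit 412) (nat_lit 388) (nat_lit 340)) (XT.lf (nat_lit 0) (nat_lit 5280245224) (nat_lit 1216) (nat_lit 1585387424)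 (nat_lit 1292) (nat_lit 490891216) (nat_lit 548) (nat_lit 5) (nat_lit 564) (nat_lit 5) (nat_lit 565) (nat_lit 5) (nat_lit 413) (nat_lit 388) (nat_lit 339))))))))
noncomputable def xc115 : XT := (XT.nd (nat_lit 1716) (nat_lit 9500) (nat_lit 0) (XT.nd (nat_lit 858) (nat_lit 5624) (nat_lit 0) (XT.nd (nat_lit 390) (nat_lit 6612) (nat_lit 0) (XT.nd (nat_lit 156) (nat_lit 2888) (nat_lit 0) (XT.nd (nat_lit 78) (nat_lit 0) (nat_lit 0) (XT.lf (nat_lit 0) (nat_lit 1603394792) (nat_lit 1368) (nat_lit 5245698555) (nat_lit 76) (nat_lit 556280792) (nat_lit 530) (nat_lit 5) (nat_lit 548) (nat_lit 5) (nat_lit 531) (nat_lit 5) (nat_lit 414) (nat_lit 388) (nat_lit 338)) (XT.lf (nat_lit 0) (nat_lit 3714672688) (nat_lit 1368) (nat_lit 994962857) (nat_lit 76) (nat_lit 2745885551) (nat_lit 530) (nat_lit 5) (nat_lit 548) (nat_lit 5) (nat_lit 531) (nat_lit 5) (nat_lit 415) (nat_lit 388) (nat_lit 337))) (XT.nd (nat_lit 78) (nat_lit 1520) (nat_lit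 0) (XT.lf (nat_lit 0) (nat_lit 3350722059) (nat_lit 1368) (nat_lit 2497198024) (nat_lit 1444) (nat_lit 1659173832) (nat_lit 512) (nat_lit 5) (nat_lit 530) (nat_lit 5) (nat_lit 531) (nat_lit 5) (nat_lit 416) (nat_lit 388) (nat_lit 336)) (XT.nd (nat_lit 78) (nat_lit 0) (nat_lit 0) (XT.lf (nat_lit 0) (nat_lit 202482593) (nat_lit 1444) (nat_lit 221901801) (nat_lit 1520) (nat_lit 7135943890) (nat_lit 492) (nat_lit 5) (nat_lit 511) (nat_lit 5) (nat_lit 512) (nat_lit 5) (nat_lit 417) (nat_lit 388) (nat_lit 335)) (XT.lf (nat_lit 0) (nat_lit 2528064852) (nat_lit 1520) (nat_lit 2969031085) (nat_lit 76) (nat_lit 2117315486) (nat_lit 492) (nat_lit 5) (nat_lit 512) (nat_lit 5) (nat_lit 493) (nat_lit 5) (nat_lit 418) (nat_lit 388) (nat_lit 334))))) (XT.nd (nat_lit 234) (nat_lit 3420) (nat_lit 0) (XT.nd (nat_lit 78) (nat_lit 1672) (nat_lit 0) (XT.lf (nat_lit 0) (nat_lit 1491319432) (nat_lit 1520) (nat_lit 3153399735) (nat_lit 1596)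 (nat_lit 3025455499) (nat_lit 472) (nat_lit 5) (nat_lit 492) (nat_lit 5) (nat_lit 493) (nat_lit 5) (nat_lit 419) (nat_lit 388) (nat_lit 333)) (XT.nd (nat_lit 78) (nat_lit 1672) (nat_lit 0) (XT.lf (nat_lit 0) (nat_lit 6047019057) (nat_lit 1520) (nat_lit 736927169) (nat_lit 1596) (nat_lit 943518277) (nat_lit 472) (nat_lit 5) (nat_lit 492) (nat_lit 5) (nat_lit 493) (nat_lit 5) (nat_lit 420) (nat_lit 388) (nat_lit 332)) (XT.lf (nat_lit 0) (nat_lit 1155686956) (nat_lit 1672) (nat_lit 4893205721) (nat_lit 76) (nat_lit 1737047604) (nat_lit 450) (nat_lit 5) (nat_lit 472) (nat_lit 5) (nat_lit 451) (nat_lit 5) (nat_lit 421) (nat_lit 388) (nat_lit 331)))) (XT.nd (nat_lit 78) (nat_lit 3420) (nat_lit 0) (XT.lf (nat_lit 0) (nat_lit 3261887626) (nat_lit 1672) (nat_lit 310973814) (nat_lit 76) (nat_lit 4273061693) (nat_lit 450) (nat_lit 5) (nat_lit 472) (nat_lit 5) (nat_lit 451) (nat_lit 5) (nat_lit 422) (nat_lit 388) (nat_lit 330))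 (XT.nd (nat_lit 78) (nat_lit 1748) (nat_lit 0) (XT.lf (nat_lit 0) (nat_lit 4386543463) (nat_lit 1672) (nat_lit 1014307593) (nat_lit 1748) (nat_lit 2506456706) (nat_lit 428) (nat_lit 5) (nat_lit 450) (nat_lit 5) (nat_lit 451) (nat_lit 5) (nat_lit 423) (nat_lit 388) (nat_lit 329)) (XT.lf (nat_lit 0) (nat_lit 1183040237) (nat_lit 1748) (nat_lit 6382399238) (nat_lit 1824) (nat_lit 404838299) (nat_lit 405) (nat_lit 5) (nat_lit 428) (nat_lit 5) (nat_lit 429) (nat_lit 5) (nat_lit 424) (nat_lit 388) (nat_lit 328)))))) (XT.nd (nat_lit 390) (nat_lit 2584) (nat_lit 0) (XT.nd (nat_lit 156) (nat_lit 1824) (nat_lit 0) (XT.nd (nat_lit 78) (nat_lit 1140) (nat_lit 0) (XT.lf (nat_lit 0) (nat_lit 1709464379) (nat_lit 1824) (nat_lit 2058283125) (nat_lit 76) (nat_lit 4266678791) (nat_lit 404) (nat_lit 5) (nat_lit 428) (nat_lit 5) (nat_lit 405) (nat_lit 5) (nat_lit 425) (nat_lit 388) (nat_lit 327)) (XT.lf (nat_lit 0) (nat_lit 2764779954)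 (nat_lit 1140) (nat_lit 1077491388) (nat_lit 1216) (nat_lit 4257913906) (nat_lit 389) (nat_lit 5) (nat_lit 404) (nat_lit 5) (nat_lit 405) (nat_lit 5) (nat_lit 426) (nat_lit 388) (nat_lit 326))) (XT.nd (nat_lit 78) (nat_lit 1824) (nat_lit 0) (XT.lf (nat_lit 0) (nat_lit 6006647169) (nat_lit 1216) (nat_lit 500259119) (nat_lit 76) (nat_lit 1660588329) (nat_lit 389) (nat_lit 5) (nat_lit 405) (nat_lit 5) (nat_lit 390) (nat_lit 5) (nat_lit 427) (nat_lit 388) (nat_lit 325)) (XT.nd (nat_lit 78) (nat_lit 912) (nat_lit 0) (XT.lf (nat_lit 0) (nat_lit 4448911472) (nat_lit 912) (nat_lit 3766310825) (nat_lit 988) (nat_lit 20922866) (nat_lit 377) (nat_lit 5) (nat_lit 389) (nat_lit 5) (nat_lit 390) (nat_lit 5) (nat_lit 428) (nat_lit 388) (nat_lit 324)) (XT.lf (nat_lit 0) (nat_lit 1164819400) (nat_lit 836) (nat_lit 944688841) (nat_lit 912) (nat_lit 6196871267) (nat_lit 365) (nat_lit 5) (nat_lit 376) (nat_lit 5) (nat_lit 377) (nat_lit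 5) (nat_lit 429) (nat_lit 388) (nat_lit 323))))) (XT.nd (nat_lit 234) (nat_lit 1672) (nat_lit 0) (XT.nd (nat_lit 78) (nat_lit 912) (nat_lit 0) (XT.lf (nat_lit 0) (nat_lit 4285988784) (nat_lit 912) (nat_lit 2157743111) (nat_lit 76) (nat_lit 1934221923) (nat_lit 365) (nat_lit 5) (nat_lit 377) (nat_lit 5) (nat_lit 366) (nat_lit 5) (nat_lit 430) (nat_lit 388) (nat_lit 322)) (XT.nd (nat_lit 78) (nat_lit 76) (nat_lit 0) (XT.lf (nat_lit 0) (nat_lit 2923896533) (nat_lit 836) (nat_lit 3573602670) (nat_lit 912) (nat_lit 1953642625) (nat_lit 354) (nat_lit 5) (nat_lit 365) (nat_lit 5) (nat_lit 366) (nat_lit 5) (nat_lit 431) (nat_lit 388) (nat_lit 321)) (XT.lf (nat_lit 0) (nat_lit 205509179) (nat_lit 912) (nat_lit 424837798) (nat_lit 76) (nat_lit 7895807911) (nat_lit 353) (nat_lit 5) (nat_lit 365) (nat_lit 5) (nat_lit 354) (nat_lit 5) (nat_lit 432) (nat_lit 388) (nat_lit 320)))) (XT.nd (nat_lit 78) (nat_lit 836) (nat_lit 0) (XT.lf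 (nat_lit 0) (nat_lit 2395663284) (nat_lit 912) (nat_lit 3822070091) (nat_lit 76) (nat_lit 2384408508) (nat_lit 342) (nat_lit 5) (nat_lit 354) (nat_lit 5) (nat_lit 343) (nat_lit 5) (nat_lit 433) (nat_lit 388) (nat_lit 319)) (XT.nd (nat_lit 78) (nat_lit 0) (nat_lit 0) (XT.lf (nat_lit 0) (nat_lit 1395411505) (nat_lit 836) (nat_lit 3217863992) (nat_lit 912) (nat_lit 4066711308) (nat_lit 331) (nat_lit 5) (nat_lit 342) (nat_lit 5) (nat_lit 343) (nat_lit 5) (nat_lit 434) (nat_lit 388) (nat_lit 318)) (XT.lf (nat_lit 0) (nat_lit 6735332242) (nat_lit 836) (nat_lit 133523984) (nat_lit 912) (nat_lit 1890671142) (nat_lit 331) (nat_lit 5) (nat_lit 342) (nat_lit 5) (nat_lit 343) (nat_lit 5) (nat_lit 435) (nat_lit 388) (nat_lit 317))))))) (XT.nd (nat_lit 858) (nat_lit 4332) (nat_lit 0) (XT.nd (nat_lit 390) (nat_lit 2812) (nat_lit 0) (XT.nd (nat_lit 156) (nat_lit 1520) (nat_lit 0) (XT.nd (nat_lit 78) (nat_lit 0) (nat_lit 0) (XT.lf (nat_lit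 0) (nat_lit 334407631) (nat_lit 836) (nat_lit 5510829546) (nat_lit 76) (nat_lit 2995192871) (nat_lit 320) (nat_lit 5) (nat_lit 331) (nat_lit 5) (nat_lit 321) (nat_lit 5) (nat_lit 436) (nat_lit 388) (nat_lit 316)) (XT.lf (nat_lit 0) (nat_lit 2562021487) (nat_lit 836) (nat_lit 152154321) (nat_lit 76) (nat_lit 6208868463) (nat_lit 320) (nat_lit 5) (nat_lit 331) (nat_lit 5) (nat_lit 321) (nat_lit 5) (nat_lit 437) (nat_lit 388) (nat_lit 315))) (XT.nd (nat_lit 78) (nat_lit 760) (nat_lit 0) (XT.lf (nat_lit 0) (nat_lit 4841634641) (nat_lit 836) (nat_lit 3659921964) (nat_lit 76) (nat_lit 505615457) (nat_lit 310) (nat_lit 5) (nat_lit 321) (nat_lit 5) (nat_lit 311) (nat_lit 5) (nat_lit 438) (nat_lit 388) (nat_lit 314)) (XT.nd (nat_lit 78) (nat_lit 76) (nat_lit 0) (XT.lf (nat_lit 0) (nat_lit 1838266778) (nat_lit 684) (nat_lit 5329259739) (nat_lit 760) (nat_lit 1925452187) (nat_lit 301) (nat_lit 5) (nat_lit 310) (nat_lit 5) (nat_lit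 311) (nat_lit 5) (nat_lit 439) (nat_lit 388) (nat_lit 313)) (XT.lf (nat_lit 0) (nat_lit 349360964) (nat_lit 760) (nat_lit 1720268544) (nat_lit 76) (nat_lit 7110942127) (nat_lit 300) (nat_lit 5) (nat_lit 310) (nat_lit 5) (nat_lit 301) (nat_lit 5) (nat_lit 440) (nat_lit 388) (nat_lit 312))))) (XT.nd (nat_lit 234) (nat_lit 1368) (nat_lit 0) (XT.nd (nat_lit 78) (nat_lit 684) (nat_lit 0) (XT.lf (nat_lit 0) (nat_lit 2648319142) (nat_lit 836) (nat_lit 5347597514) (nat_lit 76) (nat_lit 1273666059) (nat_lit 290) (nat_lit 5) (nat_lit 301) (nat_lit 5) (nat_lit 291) (nat_lit 5) (nat_lit 441) (nat_lit 388) (nat_lit 311)) (XT.nd (nat_lit 78) (nat_lit 0) (nat_lit 0) (XT.lf (nat_lit 0) (nat_lit 296891635) (nat_lit 684) (nat_lit 4694466473) (nat_lit 760) (nat_lit 4369063135) (nat_lit 281) (nat_lit 5) (nat_lit 290) (nat_lit 5) (nat_lit 291) (nat_lit 5) (nat_lit 442) (nat_lit 388) (nat_lit 310)) (XT.lf (nat_lit 0) (nat_lit 6093499793)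 (nat_lit 684) (nat_lit 1294846429) (nat_lit 760) (nat_lit 2064597632) (nat_lit 281) (nat_lit 5) (nat_lit 290) (nat_lit 5) (nat_lit 291) (nat_lit 5) (nat_lit 443) (nat_lit 388) (nat_lit 309)))) (XT.nd (nat_lit 78) (nat_lit 608) (nat_lit 0) (XT.lf (nat_lit 0) (nat_lit 283920699) (nat_lit 760) (nat_lit 7105648117) (nat_lit 76) (nat_lit 2157685418) (nat_lit 271) (nat_lit 5) (nat_lit 281) (nat_lit 5) (nat_lit 272) (nat_lit 5) (nat_lit 444) (nat_lit 388) (nat_lit 308)) (XT.nd (nat_lit 78) (nat_lit 608) (nat_lit 0) (XT.lf (nat_lit 0) (nat_lit 2654944554) (nat_lit 760) (nat_lit 1294497711) (nat_lit 76) (nat_lit 5693680568) (nat_lit 271) (nat_lit 5) (nat_lit 281) (nat_lit 5) (nat_lit 272) (nat_lit 5) (nat_lit 445) (nat_lit 388) (nat_lit 307)) (XT.lf (nat_lit 0) (nat_lit 4661347423) (nat_lit 608) (nat_lit 414743475) (nat_lit 684) (nat_lit 4664772255) (nat_lit 263) (nat_lit 5) (nat_lit 271) (nat_lit 5) (nat_lit 272) (nat_lit 5)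 (nat_lit 446) (nat_lit 388) (nat_lit 306)))))) (XT.nd (nat_lit 390) (nat_lit 2356) (nat_lit 0) (XT.nd (nat_lit 156) (nat_lit 1216) (nat_lit 0) (XT.nd (nat_lit 78) (nat_lit 76) (nat_lit 0) (XT.lf (nat_lit 0) (nat_lit 871157398) (nat_lit 684) (nat_lit 6682352367) (nat_lit 760) (nat_lit 2286899745) (nat_lit 254) (nat_lit 5) (nat_lit 263) (nat_lit 5) (nat_lit 264) (nat_lit 5) (nat_lit 447) (nat_lit 388) (nat_lit 305)) (XT.lf (nat_lit 0) (nat_lit 146640943) (nat_lit 760) (nat_lit 2968557116) (nat_lit 76) (nat_lit 6826540099) (nat_lit 253) (nat_lit 5) (nat_lit 263) (nat_lit 5) (nat_lit 254) (nat_lit 5) (nat_lit 448) (nat_lit 388) (nat_lit 304))) (XT.nd (nat_lit 78) (nat_lit 608) (nat_lit 0) (XT.lf (nat_lit 0) (nat_lit 2595680079) (nat_lit 684) (nat_lit 6902721366) (nat_lit 76) (nat_lit 546448370) (nat_lit 245) (nat_lit 5) (nat_lit 254) (nat_lit 5) (nat_lit 246) (nat_lit 5) (nat_lit 449) (nat_lit 388) (nat_lit 303)) (XT.nd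 (nat_lit 78) (nat_lit 608) (nat_lit 0) (XT.lf (nat_lit 0) (nat_lit 5108057280) (nat_lit 684) (nat_lit 787870357) (nat_lit 76) (nat_lit 4253816518) (nat_lit 245) (nat_lit 5) (nat_lit 254) (nat_lit 5) (nat_lit 246) (nat_lit 5) (nat_lit 450) (nat_lit 388) (nat_lit 302)) (XT.lf (nat_lit 0) (nat_lit 5489161176) (nat_lit 608) (nat_lit 2191350642) (nat_lit 684) (nat_lit 2576035418) (nat_lit 237) (nat_lit 5) (nat_lit 245) (nat_lit 5) (nat_lit 246) (nat_lit 5) (nat_lit 451) (nat_lit 388) (nat_lit 301))))) (XT.nd (nat_lit 234) (nat_lit 1140) (nat_lit 0) (XT.nd (nat_lit 78) (nat_lit 684) (nat_lit 0) (XT.lf (nat_lit 0) (nat_lit 1514177625) (nat_lit 532) (nat_lit 8790144855) (nat_lit 608) (nat_lit 61173060) (nat_lit 230) (nat_lit 5) (nat_lit 237) (nat_lit 5) (nat_lit 238) (nat_lit 5) (nat_lit 452) (nat_lit 388) (nat_lit 300)) (XT.nd (nat_lit 78) (nat_lit 608) (nat_lit 0) (XT.lf (nat_lit 0) (nat_lit 2492427999) (nat_lit 608) (nat_lit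 2553473572) (nat_lit 76) (nat_lit 5429977472) (nat_lit 229) (nat_lit 5) (nat_lit 237) (nat_lit 5) (nat_lit 230) (nat_lit 5) (nat_lit 453) (nat_lit 388) (nat_lit 299)) (XT.lf (nat_lit 0) (nat_lit 3889060927) (nat_lit 608) (nat_lit 1207536780) (nat_lit 684) (nat_lit 5491864988) (nat_lit 221) (nat_lit 5) (nat_lit 229) (nat_lit 5) (nat_lit 230) (nat_lit 5) (nat_lit 454) (nat_lit 388) (nat_lit 298)))) (XT.nd (nat_lit 78) (nat_lit 1140) (nat_lit 0) (XT.lf (nat_lit 0) (nat_lit 7762981451) (nat_lit 684) (nat_lit 257701167) (nat_lit 76) (nat_lit 2682419535) (nat_lit 221) (nat_lit 5) (nat_lit 230) (nat_lit 5) (nat_lit 222) (nat_lit 5) (nat_lit 455) (nat_lit 388) (nat_lit 297)) (XT.nd (nat_lit 78) (nat_lit 608) (nat_lit 0) (XT.lf (nat_lit 0) (nat_lit 6356723744) (nat_lit 532) (nat_lit 4151024895) (nat_lit 608) (nat_lit 311791259) (nat_lit 214) (nat_lit 5) (nat_lit 221) (nat_lit 5) (nat_lit 222) (nat_lit 5) (nat_lit 456) (nat_lit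 388) (nat_lit 296)) (XT.lf (nat_lit 0) (nat_lit 2149859142) (nat_lit 532) (nat_lit 179766998) (nat_lit 608) (nat_lit 8608547128) (nat_lit 206) (nat_lit 5) (nat_lit 213) (nat_lit 5) (nat_lit 214) (nat_lit 5) (nat_lit 457) (nat_lit 388) (nat_lit 295))))))))
noncomputable def xc116 : XT := (XT.nd (nat_lit 1638) (nat_lit 4408) (nat_lit 0) (XT.nd (nat_lit 780) (nat_lit 2584) (nat_lit 0) (XT.nd (nat_lit 390) (nat_lit 1444) (nat_lit 0) (XT.nd (nat_lit 156) (nat_lit 1064) (nat_lit 0) (XT.nd (nat_lit 78) (nat_lit 532) (nat_lit 0) (XT.lf (nat_lit 0) (nat_lit 5051092948) (nat_lit 608) (nat_lit 2162521441) (nat_lit 76) (nat_lit 3844902010) (nat_lit 206) (nat_lit 5) (nat_lit 214) (nat_lit 5) (nat_lit 207) (nat_lit 5) (nat_lit 458) (nat_lit 388) (nat_lit 294)) (XT.lf (nat_lit 0) (nat_lit 4624037794) (nat_lit 532) (nat_lit 3210745808) (nat_lit 608) (nat_lit 3346333010) (nat_lit 199) (nat_lit 5) (nat_lit 206) (nat_lit 5) (nat_lit 207)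 (nat_lit 5) (nat_lit 459) (nat_lit 388) (nat_lit 293))) (XT.nd (nat_lit 78) (nat_lit 532) (nat_lit 0) (XT.lf (nat_lit 0) (nat_lit 235678354) (nat_lit 532) (nat_lit 10437059137) (nat_lit 608) (nat_lit 633465541) (nat_lit 192) (nat_lit 5) (nat_lit 199) (nat_lit 5) (nat_lit 200) (nat_lit 5) (nat_lit 460) (nat_lit 388) (nat_lit 292)) (XT.nd (nat_lit 78) (nat_lit 456) (nat_lit 0) (XT.lf (nat_lit 0) (nat_lit 2148115371) (nat_lit 608) (nat_lit 4246668476) (nat_lit 76) (nat_lit 5037887239) (nat_lit 191) (nat_lit 5) (nat_lit 199) (nat_lit 5) (nat_lit 192) (nat_lit 5) (nat_lit 461) (nat_lit 388) (nat_lit 291)) (XT.lf (nat_lit 0) (nat_lit 2714161355) (nat_lit 456) (nat_lit 2257651129) (nat_lit 532) (nat_lit 6589878584) (nat_lit 185) (nat_lit 5) (nat_lit 191) (nat_lit 5) (nat_lit 192) (nat_lit 5) (nat_lit 462) (nat_lit 388) (nat_lit 290))))) (XT.nd (nat_lit 156) (nat_lit 988) (nat_lit 0) (XT.nd (nat_lit 78) (nat_lit 456) (nat_lit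 0) (XT.lf (nat_lit 0) (nat_lit 7870937590) (nat_lit 532) (nat_lit 1864979666) (nat_lit 76) (nat_lit 1957000647) (nat_lit 185) (nat_lit 5) (nat_lit 192) (nat_lit 5) (nat_lit 186) (nat_lit 5) (nat_lit 463) (nat_lit 388) (nat_lit 289)) (XT.lf (nat_lit 0) (nat_lit 5281039807) (nat_lit 456) (nat_lit 5574213247) (nat_lit 532) (nat_lit 970977488) (nat_lit 179) (nat_lit 5) (nat_lit 185) (nat_lit 5) (nat_lit 186) (nat_lit 5) (nat_lit 464) (nat_lit 388) (nat_lit 288))) (XT.nd (nat_lit 78) (nat_lit 456) (nat_lit 0) (XT.lf (nat_lit 0) (nat_lit 597894569) (nat_lit 456) (nat_lit 1308280165) (nat_lit 532) (nat_lit 10055897702) (nat_lit 172) (nat_lit 5) (nat_lit 178) (nat_lit 5) (nat_lit 179) (nat_lit 5) (nat_lit 465) (nat_lit 388) (nat_lit 287)) (XT.nd (nat_lit 78) (nat_lit 456) (nat_lit 0) (XT.lf (nat_lit 0) (nat_lit 4870081237) (nat_lit 532) (nat_lit 4184437644) (nat_lit 76) (nat_lit 3045144785) (nat_lit 172) (nat_lit 5) (nat_lit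 179) (nat_lit 5) (nat_lit 173) (nat_lit 5) (nat_lit 466) (nat_lit 388) (nat_lit 286)) (XT.lf (nat_lit 0) (nat_lit 3141264768) (nat_lit 456) (nat_lit 4759718160) (nat_lit 532) (nat_lit 4338874464) (nat_lit 166) (nat_lit 5) (nat_lit 172) (nat_lit 5) (nat_lit 173) (nat_lit 5) (nat_lit 467) (nat_lit 388) (nat_lit 285)))))) (XT.nd (nat_lit 390) (nat_lit 1292) (nat_lit 0) (XT.nd (nat_lit 156) (nat_lit 836) (nat_lit 0) (XT.nd (nat_lit 78) (nat_lit 456) (nat_lit 0) (XT.lf (nat_lit 0) (nat_lit 10640234087) (nat_lit 456) (nat_lit 359230022) (nat_lit 532) (nat_lit 1383256566) (nat_lit 166) (nat_lit 5) (nat_lit 172) (nat_lit 5) (nat_lit 173) (nat_lit 5) (nat_lit 468) (nat_lit 388) (nat_lit 284)) (XT.lf (nat_lit 0) (nat_lit 1653937382) (nat_lit 456) (nat_lit 6758461641) (nat_lit 76) (nat_lit 4114957858) (nat_lit 160) (nat_lit 5) (nat_lit 166) (nat_lit 5) (nat_lit 161) (nat_lit 5) (nat_lit 469) (nat_lit 388) (nat_lit 283))) (XT.nd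 (nat_lit 78) (nat_lit 380) (nat_lit 0) (XT.lf (nat_lit 0) (nat_lit 747836437) (nat_lit 456) (nat_lit 3983853112) (nat_lit 532) (nat_lit 7943051303) (nat_lit 154) (nat_lit 5) (nat_lit 160) (nat_lit 5) (nat_lit 161) (nat_lit 5) (nat_lit 470) (nat_lit 388) (nat_lit 282)) (XT.nd (nat_lit 78) (nat_lit 380) (nat_lit 0) (XT.lf (nat_lit 0) (nat_lit 7899579947) (nat_lit 532) (nat_lit 4362040309) (nat_lit 76) (nat_lit 562885123) (nat_lit 154) (nat_lit 5) (nat_lit 161) (nat_lit 5) (nat_lit 155) (nat_lit 5) (nat_lit 471) (nat_lit 388) (nat_lit 281)) (XT.lf (nat_lit 0) (nat_lit 3342173691) (nat_lit 380) (nat_lit 7816607497) (nat_lit 456) (nat_lit 1817929399) (nat_lit 149) (nat_lit 5) (nat_lit 154) (nat_lit 5) (nat_lit 155) (nat_lit 5) (nat_lit 472) (nat_lit 388) (nat_lit 280))))) (XT.nd (nat_lit 234) (nat_lit 456) (nat_lit 0) (XT.nd (nat_lit 78) (nat_lit 760) (nat_lit 0) (XT.lf (nat_lit 0) (nat_lit 1342889800) (nat_lit 456) (nat_lit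 1910215608) (nat_lit 76) (nat_lit 9878495217) (nat_lit 148) (nat_lit 5) (nat_lit 154) (nat_lit 5) (nat_lit 149) (nat_lit 5) (nat_lit 473) (nat_lit 388) (nat_lit 279)) (XT.nd (nat_lit 78) (nat_lit 380) (nat_lit 0) (XT.lf (nat_lit 0) (nat_lit 4571314895) (nat_lit 456) (nat_lit 7291912624) (nat_lit 76) (nat_lit 1425550179) (nat_lit 143) (nat_lit 5) (nat_lit 149) (nat_lit 5) (nat_lit 144) (nat_lit 5) (nat_lit 474) (nat_lit 388) (nat_lit 278)) (XT.lf (nat_lit 0) (nat_lit 596290345) (nat_lit 380) (nat_lit 7286808591) (nat_lit 456) (nat_lit 5565627678) (nat_lit 138) (nat_lit 5) (nat_lit 143) (nat_lit 5) (nat_lit 144) (nat_lit 5) (nat_lit 475) (nat_lit 388) (nat_lit 277)))) (XT.nd (nat_lit 78) (nat_lit 456) (nat_lit 0) (XT.lf (nat_lit 0) (nat_lit 8712251845) (nat_lit 380) (nat_lit 2578466729) (nat_lit 456) (nat_lit 2320567968) (nat_lit 138) (nat_lit 5) (nat_lit 143) (nat_lit 5) (nat_lit 144) (nat_lit 5) (nat_lit 476) (nat_lit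 388) (nat_lit 276)) (XT.nd (nat_lit 78) (nat_lit 0) (nat_lit 0) (XT.lf (nat_lit 0) (nat_lit 992804422) (nat_lit 456) (nat_lit 10570785905) (nat_lit 76) (nat_lit 2213054988) (nat_lit 132) (nat_lit 5) (nat_lit 138) (nat_lit 5) (nat_lit 133) (nat_lit 5) (nat_lit 477) (nat_lit 388) (nat_lit 275)) (XT.lf (nat_lit 0) (nat_lit 4372615317) (nat_lit 456) (nat_lit 2466729903) (nat_lit 76) (nat_lit 7105038196) (nat_lit 132) (nat_lit 5) (nat_lit 138) (nat_lit 5) (nat_lit 133) (nat_lit 5) (nat_lit 478) (nat_lit 388) (nat_lit 274))))))) (XT.nd (nat_lit 858) (nat_lit 1900) (nat_lit 0) (XT.nd (nat_lit 390) (nat_lit 1368) (nat_lit 0) (XT.nd (nat_lit 156) (nat_lit 380) (nat_lit 0) (XT.nd (nat_lit 78) (nat_lit 380) (nat_lit 0) (XT.lf (nat_lit 0) (nat_lit 5847993339) (nat_lit 380) (nat_lit 1991415454) (nat_lit 456) (nat_lit 6275683481) (nat_lit 127) (nat_lit 5) (nat_lit 132) (nat_lit 5) (nat_lit 133) (nat_lit 5) (nat_lit 479) (nat_lit 388)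 (nat_lit 273)) (XT.lf (nat_lit 0) (nat_lit 26388318) (nat_lit 380) (nat_lit 11366698244) (nat_lit 456) (nat_lit 2895781431) (nat_lit 122) (nat_lit 5) (nat_lit 127) (nat_lit 5) (nat_lit 128) (nat_lit 5) (nat_lit 480) (nat_lit 388) (nat_lit 272))) (XT.nd (nat_lit 78) (nat_lit 304) (nat_lit 0) (XT.lf (nat_lit 0) (nat_lit 595108704) (nat_lit 456) (nat_lit 5912637940) (nat_lit 76) (nat_lit 7957291930) (nat_lit 121) (nat_lit 5) (nat_lit 127) (nat_lit 5) (nat_lit 122) (nat_lit 5) (nat_lit 481) (nat_lit 388) (nat_lit 271)) (XT.nd (nat_lit 78) (nat_lit 0) (nat_lit 0) (XT.lf (nat_lit 0) (nat_lit 2591264477) (nat_lit 304) (nat_lit 1524592784) (nat_lit 380) (nat_lit 10528519622) (nat_lit 117) (nat_lit 5) (nat_lit 121) (nat_lit 5) (nat_lit 122) (nat_lit 5) (nat_lit 482) (nat_lit 388) (nat_lit 270)) (XT.lf (nat_lit 0) (nat_lit 7752129460) (nat_lit 380) (nat_lit 3532340255) (nat_lit 76) (nat_lit 3541933442) (nat_lit 117) (nat_lit 5)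 (nat_lit 122) (nat_lit 5) (nat_lit 118) (nat_lit 5) (nat_lit 483) (nat_lit 388) (nat_lit 269))))) (XT.nd (nat_lit 234) (nat_lit 608) (nat_lit 0) (XT.nd (nat_lit 78) (nat_lit 380) (nat_lit 0) (XT.lf (nat_lit 0) (nat_lit 5189499137) (nat_lit 380) (nat_lit 6297836556) (nat_lit 456) (nat_lit 3524213398) (nat_lit 112) (nat_lit 5) (nat_lit 117) (nat_lit 5) (nat_lit 118) (nat_lit 5) (nat_lit 484) (nat_lit 388) (nat_lit 268)) (XT.nd (nat_lit 78) (nat_lit 304) (nat_lit 0) (XT.lf (nat_lit 0) (nat_lit 101907102) (nat_lit 456) (nat_lit 1094421780) (nat_lit 76) (nat_lit 14003933082) (nat_lit 111) (nat_lit 5) (nat_lit 117) (nat_lit 5) (nat_lit 112) (nat_lit 5) (nat_lit 485) (nat_lit 388) (nat_lit 267)) (XT.lf (nat_lit 0) (nat_lit 3813701152) (nat_lit 380) (nat_lit 7557374397) (nat_lit 76) (nat_lit 4020003954) (nat_lit 107) (nat_lit 5) (nat_lit 112) (nat_lit 5) (nat_lit 108) (nat_lit 5) (nat_lit 486) (nat_lit 388) (nat_lit 266))))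 (XT.nd (nat_lit 78) (nat_lit 304) (nat_lit 0) (XT.lf (nat_lit 0) (nat_lit 1352492975) (nat_lit 304) (nat_lit 6254248382) (nat_lit 380) (nat_lit 7978834884) (nat_lit 103) (nat_lit 5) (nat_lit 107) (nat_lit 5) (nat_lit 108) (nat_lit 5) (nat_lit 487) (nat_lit 388) (nat_lit 265)) (XT.nd (nat_lit 78) (nat_lit 304) (nat_lit 0) (XT.lf (nat_lit 0) (nat_lit 10516240049) (nat_lit 304) (nat_lit 993191070) (nat_lit 380) (nat_lit 4273859016) (nat_lit 103) (nat_lit 5) (nat_lit 107) (nat_lit 5) (nat_lit 108) (nat_lit 5) (nat_lit 488) (nat_lit 388) (nat_lit 264)) (XT.lf (nat_lit 0) (nat_lit 3874214445) (nat_lit 304) (nat_lit 11652851240) (nat_lit 380) (nat_lit 457157737) (nat_lit 99) (nat_lit 5) (nat_lit 103) (nat_lit 5) (nat_lit 104) (nat_lit 5) (nat_lit 489) (nat_lit 388) (nat_lit 263)))))) (XT.nd (nat_lit 390) (nat_lit 836) (nat_lit 0) (XT.nd (nat_lit 156) (nat_lit 684) (nat_lit 0) (XT.nd (nat_lit 78) (nat_lit 304) (nat_lit 0) (XT.lf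 (nat_lit 0) (nat_lit 3416359144) (nat_lit 380) (nat_lit 2974444006) (nat_lit 76) (nat_lit 9797418014) (nat_lit 98) (nat_lit 5) (nat_lit 103) (nat_lit 5) (nat_lit 99) (nat_lit 5) (nat_lit 490) (nat_lit 388) (nat_lit 262)) (XT.lf (nat_lit 0) (nat_lit 6398688854) (nat_lit 304) (nat_lit 987799714) (nat_lit 380) (nat_lit 9009247352) (nat_lit 94) (nat_lit 5) (nat_lit 98) (nat_lit 5) (nat_lit 99) (nat_lit 5) (nat_lit 491) (nat_lit 388) (nat_lit 261))) (XT.nd (nat_lit 78) (nat_lit 684) (nat_lit 0) (XT.lf (nat_lit 0) (nat_lit 11469282422) (nat_lit 380) (nat_lit 663025036) (nat_lit 76) (nat_lit 4474430990) (nat_lit 94) (nat_lit 5) (nat_lit 99) (nat_lit 5) (nat_lit 95) (nat_lit 5) (nat_lit 492) (nat_lit 388) (nat_lit 260)) (XT.nd (nat_lit 78) (nat_lit 380) (nat_lit 0) (XT.lf (nat_lit 0) (nat_lit 8942807743) (nat_lit 304) (nat_lit 6739647925) (nat_lit 380) (nat_lit 1138533547) (nat_lit 90) (nat_lit 5) (nat_lit 94) (nat_lit 5) (nat_lit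 95) (nat_lit 5) (nat_lit 493) (nat_lit 388) (nat_lit 259)) (XT.lf (nat_lit 0) (nat_lit 1687663302) (nat_lit 304) (nat_lit 1213735331) (nat_lit 380) (nat_lit 14137755211) (nat_lit 85) (nat_lit 5) (nat_lit 89) (nat_lit 5) (nat_lit 90) (nat_lit 5) (nat_lit 494) (nat_lit 388) (nat_lit 258))))) (XT.nd (nat_lit 234) (nat_lit 608) (nat_lit 0) (XT.nd (nat_lit 78) (nat_lit 228) (nat_lit 0) (XT.lf (nat_lit 0) (nat_lit 7073070758) (nat_lit 380) (nat_lit 5771356878) (nat_lit 76) (nat_lit 4415782395) (nat_lit 85) (nat_lit 5) (nat_lit 90) (nat_lit 5) (nat_lit 86) (nat_lit 5) (nat_lit 495) (nat_lit 388) (nat_lit 257)) (XT.nd (nat_lit 78) (nat_lit 0) (nat_lit 0) (XT.lf (nat_lit 0) (nat_lit 4019823853) (nat_lit 228) (nat_lit 7327038922) (nat_lit 304) (nat_lit 6138453297) (nat_lit 82) (nat_lit 5) (nat_lit 85) (nat_lit 5) (nat_lit 86) (nat_lit 5) (nat_lit 496) (nat_lit 388) (nat_lit 256)) (XT.lf (nat_lit 0) (nat_lit 14059988166) (nat_lit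 228) (nat_lit 1669560584) (nat_lit 304) (nat_lit 1984909529) (nat_lit 82) (nat_lit 5) (nat_lit 85) (nat_lit 5) (nat_lit 86) (nat_lit 5) (nat_lit 497) (nat_lit 388) (nat_lit 255)))) (XT.nd (nat_lit 78) (nat_lit 228) (nat_lit 0) (XT.lf (nat_lit 0) (nat_lit 2275532608) (nat_lit 380) (nat_lit 11577030343) (nat_lit 76) (nat_lit 4094263123) (nat_lit 77) (nat_lit 5) (nat_lit 82) (nat_lit 5) (nat_lit 78) (nat_lit 5) (nat_lit 498) (nat_lit 388) (nat_lit 254)) (XT.nd (nat_lit 78) (nat_lit 228) (nat_lit 0) (XT.lf (nat_lit 0) (nat_lit 6615334604) (nat_lit 380) (nat_lit 1588490696) (nat_lit 76) (nat_lit 9979341212) (nat_lit 77) (nat_lit 5) (nat_lit 82) (nat_lit 5) (nat_lit 78) (nat_lit 5) (nat_lit 499) (nat_lit 388) (nat_lit 253)) (XT.lf (nat_lit 0) (nat_lit 8689410431) (nat_lit 228) (nat_lit 2394196086) (nat_lit 304) (nat_lit 7339795988) (nat_lit 74) (nat_lit 5) (nat_lit 77) (nat_lit 5) (nat_lit 78) (nat_lit 5) (nat_lit 500) (nat_lit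 388) (nat_lit 252))))))))
noncomputable def xc117 : XT := (XT.nd (nat_lit 52026) (nat_lit 0) (nat_lit 23484) (XT.nd (nat_lit 51168) (nat_lit 0) (nat_lit 39976) (XT.nd (nat_lit 50700) (nat_lit 0) (nat_lit 43548) (XT.nd (nat_lit 156) (nat_lit 228) (nat_lit 0) (XT.nd (nat_lit 78) (nat_lit 76) (nat_lit 0) (XT.lf (nat_lit 0) (nat_lit 485089519) (nat_lit 228) (nat_lit 15178289749) (nat_lit 304) (nat_lit 3004623426) (nat_lit 71) (nat_lit 5) (nat_lit 74) (nat_lit 5) (nat_lit 75) (nat_lit 5) (nat_lit 501) (nat_lit 388) (nat_lit 251)) (XT.lf (nat_lit 0) (nat_lit 1465631112) (nat_lit 304) (nat_lit 7925658940) (nat_lit 76) (nat_lit 9524683574) (nat_lit 70) (nat_lit 5) (nat_lit 74) (nat_lit 5) (nat_lit 71) (nat_lit 5) (nat_lit 502) (nat_lit 388) (nat_lit 250))) (XT.nd (nat_lit 78) (nat_lit 0) (nat_lit 0) (XT.lf (nat_lit 0) (nat_lit 2525970673) (nat_lit 228) (nat_lit 3461170799) (nat_lit 304) (nat_lit 13181325698) (nat_lit 67) (nat_lit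 5) (nat_lit 70) (nat_lit 5) (nat_lit 71) (nat_lit 5) (nat_lit 503) (nat_lit 388) (nat_lit 249)) (XT.nd (nat_lit 50388) (nat_lit 0) (nat_lit 44992) (XT.lf (nat_lit 0) (nat_lit 10655128713) (nat_lit 304) (nat_lit 6172098293) (nat_lit 76) (nat_lit 2597664661) (nat_lit 67) (nat_lit 5) (nat_lit 71) (nat_lit 5) (nat_lit 68) (nat_lit 5) (nat_lit 504) (nat_lit 388) (nat_lit 248)) (XT.lf (nat_lit 0) (nat_lit 1848438651) (nat_lit 684) (nat_lit 725344181) (nat_lit 684) (nat_lit 725344181) (nat_lit 659) (nat_lit 3) (nat_lit 668) (nat_lit 3) (nat_lit 668) (nat_lit 5) (nat_lit 389) (nat_lit 389) (nat_lit 362))))) (XT.nd (nat_lit 234) (nat_lit 760) (nat_lit 0) (XT.nd (nat_lit 78) (nat_lit 684) (nat_lit 0) (XT.lf (nat_lit 76) (nat_lit 1758655450) (nat_lit 0) (nat_lit 4310927246) (nat_lit 684) (nat_lit 546660212) (nat_lit 660) (nat_lit 5) (nat_lit 659) (nat_lit 3) (nat_lit 668) (nat_lit 5) (nat_lit 390) (nat_lit 389) (nat_lit 361)) (XT.nd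 (nat_lit 78) (nat_lit 0) (nat_lit 0) (XT.lf (nat_lit 0) (nat_lit 1779008750) (nat_lit 684) (nat_lit 1627031006) (nat_lit 760) (nat_lit 3229380026) (nat_lit 650) (nat_lit 5) (nat_lit 659) (nat_lit 3) (nat_lit 660) (nat_lit 5) (nat_lit 391) (nat_lit 389) (nat_lit 360)) (XT.lf (nat_lit 76) (nat_lit 1654474446) (nat_lit 0) (nat_lit 2439743105) (nat_lit 760) (nat_lit 2561715692) (nat_lit 651) (nat_lit 5) (nat_lit 650) (nat_lit 5) (nat_lit 660) (nat_lit 5) (nat_lit 392) (nat_lit 389) (nat_lit 359)))) (XT.nd (nat_lit 78) (nat_lit 760) (nat_lit 0) (XT.lf (nat_lit 76) (nat_lit 4992133071) (nat_lit 0) (nat_lit 1415092784) (nat_lit 760) (nat_lit 270632826) (nat_lit 651) (nat_lit 5) (nat_lit 650) (nat_lit 5) (nat_lit 660) (nat_lit 5) (nat_lit 393) (nat_lit 389) (nat_lit 358)) (XT.nd (nat_lit 78) (nat_lit 0) (nat_lit 76) (XT.lf (nat_lit 76) (nat_lit 1673126353) (nat_lit 0) (nat_lit 318234712) (nat_lit 836) (nat_lit 4709579855) (nat_lit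 641) (nat_lit 5) (nat_lit 640) (nat_lit 5) (nat_lit 651) (nat_lit 5) (nat_lit 394) (nat_lit 389) (nat_lit 357)) (XT.lf (nat_lit 0) (nat_lit 4254001139) (nat_lit 760) (nat_lit 1642187183) (nat_lit 836) (nat_lit 829109891) (nat_lit 641) (nat_lit 5) (nat_lit 651) (nat_lit 5) (nat_lit 652) (nat_lit 5) (nat_lit 395) (nat_lit 389) (nat_lit 356)))))) (XT.nd (nat_lit 390) (nat_lit 1976) (nat_lit 0) (XT.nd (nat_lit 156) (nat_lit 836) (nat_lit 0) (XT.nd (nat_lit 78) (nat_lit 836) (nat_lit 0) (XT.lf (nat_lit 76) (nat_lit 1800433263) (nat_lit 0) (nat_lit 4718828362) (nat_lit 836) (nat_lit 231762880) (nat_lit 642) (nat_lit 5) (nat_lit 641) (nat_lit 5) (nat_lit 652) (nat_lit 5) (nat_lit 396) (nat_lit 389) (nat_lit 355)) (XT.lf (nat_lit 0) (nat_lit 1980808289) (nat_lit 836) (nat_lit 1489062378) (nat_lit 912) (nat_lit 3308052873) (nat_lit 630) (nat_lit 5) (nat_lit 641) (nat_lit 5) (nat_lit 642) (nat_lit 5) (nat_lit 397) (nat_lit 389)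 (nat_lit 354))) (XT.nd (nat_lit 78) (nat_lit 836) (nat_lit 0) (XT.lf (nat_lit 76) (nat_lit 2034706297) (nat_lit 0) (nat_lit 2158204540) (nat_lit 912) (nat_lit 2613278936) (nat_lit 631) (nat_lit 5) (nat_lit 630) (nat_lit 5) (nat_lit 642) (nat_lit 5) (nat_lit 398) (nat_lit 389) (nat_lit 353)) (XT.nd (nat_lit 78) (nat_lit 836) (nat_lit 0) (XT.lf (nat_lit 76) (nat_lit 5617204985) (nat_lit 0) (nat_lit 788080333) (nat_lit 912) (nat_lit 430642394) (nat_lit 631) (nat_lit 5) (nat_lit 630) (nat_lit 5) (nat_lit 642) (nat_lit 5) (nat_lit 399) (nat_lit 389) (nat_lit 352)) (XT.lf (nat_lit 0) (nat_lit 1738626211) (nat_lit 912) (nat_lit 4478304526) (nat_lit 988) (nat_lit 649791846) (nat_lit 619) (nat_lit 5) (nat_lit 631) (nat_lit 5) (nat_lit 632) (nat_lit 5) (nat_lit 400) (nat_lit 389) (nat_lit 351))))) (XT.nd (nat_lit 234) (nat_lit 988) (nat_lit 0) (XT.nd (nat_lit 78) (nat_lit 988) (nat_lit 0) (XT.lf (nat_lit 0) (nat_lit 3906661828)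 (nat_lit 912) (nat_lit 854908469) (nat_lit 988) (nat_lit 2137308586) (nat_lit 619) (nat_lit 5) (nat_lit 631) (nat_lit 5) (nat_lit 632) (nat_lit 5) (nat_lit 401) (nat_lit 389) (nat_lit 350)) (XT.nd (nat_lit 78) (nat_lit 988) (nat_lit 0) (XT.lf (nat_lit 76) (nat_lit 2845892371) (nat_lit 0) (nat_lit 3239359917) (nat_lit 988) (nat_lit 847107065) (nat_lit 620) (nat_lit 5) (nat_lit 619) (nat_lit 5) (nat_lit 632) (nat_lit 5) (nat_lit 402) (nat_lit 389) (nat_lit 349)) (XT.lf (nat_lit 0) (nat_lit 1278248693) (nat_lit 988) (nat_lit 375715110) (nat_lit 1064) (nat_lit 5313296872) (nat_lit 606) (nat_lit 5) (nat_lit 619) (nat_lit 5) (nat_lit 620) (nat_lit 5) (nat_lit 403) (nat_lit 389) (nat_lit 348)))) (XT.nd (nat_lit 78) (nat_lit 1064) (nat_lit 0) (XT.lf (nat_lit 0) (nat_lit 3407170730) (nat_lit 988) (nat_lit 3587167192) (nat_lit 1064) (nat_lit 8985562) (nat_lit 607) (nat_lit 5) (nat_lit 620) (nat_lit 5) (nat_lit 621) (nat_lit 5)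 (nat_lit 404) (nat_lit 389) (nat_lit 347)) (XT.nd (nat_lit 78) (nat_lit 1064) (nat_lit 0) (XT.lf (nat_lit 76) (nat_lit 207519614) (nat_lit 0) (nat_lit 5337022467) (nat_lit 1064) (nat_lit 1496271079) (nat_lit 608) (nat_lit 5) (nat_lit 607) (nat_lit 5) (nat_lit 621) (nat_lit 5) (nat_lit 405) (nat_lit 389) (nat_lit 346)) (XT.lf (nat_lit 0) (nat_lit 612809150) (nat_lit 1064) (nat_lit 2989779565) (nat_lit 1140) (nat_lit 3476888849) (nat_lit 593) (nat_lit 5) (nat_lit 607) (nat_lit 5) (nat_lit 608) (nat_lit 5) (nat_lit 406) (nat_lit 389) (nat_lit 345))))))) (XT.nd (nat_lit 858) (nat_lit 10260) (nat_lit 0) (XT.nd (nat_lit 390) (nat_lit 4028) (nat_lit 0) (XT.nd (nat_lit 156) (nat_lit 2204) (nat_lit 0) (XT.nd (nat_lit 78) (nat_lit 0) (nat_lit 76) (XT.lf (nat_lit 76) (nat_lit 899569724) (nat_lit 0) (nat_lit 1802714733) (nat_lit 1140) (nat_lit 4417289722) (nat_lit 594) (nat_lit 5) (nat_lit 593) (nat_lit 5) (nat_lit 608) (nat_lit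 5) (nat_lit 407) (nat_lit 389) (nat_lit 344)) (XT.lf (nat_lit 0) (nat_lit 4807162884) (nat_lit 1064) (nat_lit 2286944815) (nat_lit 76) (nat_lit 66914028) (nat_lit 594) (nat_lit 5) (nat_lit 608) (nat_lit 5) (nat_lit 595) (nat_lit 5) (nat_lit 408) (nat_lit 389) (nat_lit 343))) (XT.nd (nat_lit 78) (nat_lit 1216) (nat_lit 0) (XT.lf (nat_lit 0) (nat_lit 1702063861) (nat_lit 1064) (nat_lit 5229184532) (nat_lit 1140) (nat_lit 272528500) (nat_lit 580) (nat_lit 5) (nat_lit 594) (nat_lit 5) (nat_lit 595) (nat_lit 5) (nat_lit 409) (nat_lit 389) (nat_lit 342)) (XT.nd (nat_lit 78) (nat_lit 1140) (nat_lit 0) (XT.lf (nat_lit 0) (nat_lit 1796094719) (nat_lit 1140) (nat_lit 1490846899) (nat_lit 76) (nat_lit 3960826606) (nat_lit 579) (nat_lit 5) (nat_lit 594) (nat_lit 5) (nat_lit 580) (nat_lit 5) (nat_lit 410) (nat_lit 389) (nat_lit 341)) (XT.lf (nat_lit 0) (nat_lit 2599680263) (nat_lit 1140) (nat_lit 1275022395) (nat_lit 1216) (nat_lit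 3418475121) (nat_lit 564) (nat_lit 5) (nat_lit 579) (nat_lit 5) (nat_lit 580) (nat_lit 5) (nat_lit 411) (nat_lit 389) (nat_lit 340))))) (XT.nd (nat_lit 234) (nat_lit 1444) (nat_lit 0) (XT.nd (nat_lit 78) (nat_lit 2584) (nat_lit 0) (XT.lf (nat_lit 0) (nat_lit 5966114811) (nat_lit 1216) (nat_lit 585783192) (nat_lit 76) (nat_lit 788192151) (nat_lit 564) (nat_lit 5) (nat_lit 580) (nat_lit 5) (nat_lit 565) (nat_lit 5) (nat_lit 412) (nat_lit 389) (nat_lit 339)) (XT.nd (nat_lit 78) (nat_lit 1292) (nat_lit 0) (XT.lf (nat_lit 0) (nat_lit 690850564) (nat_lit 1292) (nat_lit 3782683356) (nat_lit 76) (nat_lit 2914557668) (nat_lit 547) (nat_lit 5) (nat_lit 564) (nat_lit 5) (nat_lit 548) (nat_lit 5) (nat_lit 413) (nat_lit 389) (nat_lit 338)) (XT.lf (nat_lit 0) (nat_lit 414386536) (nat_lit 1292) (nat_lit 2328161865) (nat_lit 1368) (nat_lit 4695061707) (nat_lit 530) (nat_lit 5) (nat_lit 547) (nat_lit 5) (nat_lit 548) (nat_lit 5) (nat_lit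 414) (nat_lit 389) (nat_lit 337)))) (XT.nd (nat_lit 78) (nat_lit 1444) (nat_lit 0) (XT.lf (nat_lit 0) (nat_lit 4713579746) (nat_lit 1292) (nat_lit 105014797) (nat_lit 1368) (nat_lit 2669875970) (nat_lit 530) (nat_lit 5) (nat_lit 547) (nat_lit 5) (nat_lit 548) (nat_lit 5) (nat_lit 415) (nat_lit 389) (nat_lit 336)) (XT.nd (nat_lit 78) (nat_lit 76) (nat_lit 0) (XT.lf (nat_lit 0) (nat_lit 1531104463) (nat_lit 1368) (nat_lit 5387851674) (nat_lit 1444) (nat_lit 621753551) (nat_lit 512) (nat_lit 5) (nat_lit 530) (nat_lit 5) (nat_lit 531) (nat_lit 5) (nat_lit 416) (nat_lit 389) (nat_lit 335)) (XT.lf (nat_lit 0) (nat_lit 1426646142) (nat_lit 1444) (nat_lit 1676817549) (nat_lit 76) (nat_lit 4490785008) (nat_lit 511) (nat_lit 5) (nat_lit 530) (nat_lit 5) (nat_lit 512) (nat_lit 5) (nat_lit 417) (nat_lit 389) (nat_lit 334)))))) (XT.nd (nat_lit 390) (nat_lit 5624) (nat_lit 0) (XT.nd (nat_lit 156) (nat_lit 3192) (nat_lit 0) (XT.nd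 (nat_lit 78) (nat_lit 0) (nat_lit 0) (XT.lf (nat_lit 0) (nat_lit 2741438625) (nat_lit 1444) (nat_lit 743977909) (nat_lit 1520) (nat_lit 4163821647) (nat_lit 492) (nat_lit 5) (nat_lit 511) (nat_lit 5) (nat_lit 512) (nat_lit 5) (nat_lit 418) (nat_lit 389) (nat_lit 333)) (XT.lf (nat_lit 0) (nat_lit 5568021837) (nat_lit 1520) (nat_lit 478839258) (nat_lit 76) (nat_lit 1658829290) (nat_lit 492) (nat_lit 5) (nat_lit 512) (nat_lit 5) (nat_lit 493) (nat_lit 5) (nat_lit 419) (nat_lit 389) (nat_lit 332))) (XT.nd (nat_lit 78) (nat_lit 1672) (nat_lit 0) (XT.lf (nat_lit 0) (nat_lit 4053944766) (nat_lit 1520) (nat_lit 3630893482) (nat_lit 1596) (nat_lit 78598013) (nat_lit 472) (nat_lit 5) (nat_lit 492) (nat_lit 5) (nat_lit 493) (nat_lit 5) (nat_lit 420) (nat_lit 389) (nat_lit 331)) (XT.nd (nat_lit 78) (nat_lit 0) (nat_lit 0) (XT.lf (nat_lit 0) (nat_lit 825982931) (nat_lit 1596) (nat_lit 1139342999) (nat_lit 1672) (nat_lit 5857360071)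 (nat_lit 450) (nat_lit 5) (nat_lit 471) (nat_lit 5) (nat_lit 472) (nat_lit 5) (nat_lit 421) (nat_lit 389) (nat_lit 330)) (XT.lf (nat_lit 0) (nat_lit 4045395763) (nat_lit 1672) (nat_lit 2423850810) (nat_lit 76) (nat_lit 1413952271) (nat_lit 450) (nat_lit 5) (nat_lit 472) (nat_lit 5) (nat_lit 451) (nat_lit 5) (nat_lit 422) (nat_lit 389) (nat_lit 329))))) (XT.nd (nat_lit 234) (nat_lit 2128) (nat_lit 0) (XT.nd (nat_lit 78) (nat_lit 1824) (nat_lit 0) (XT.lf (nat_lit 0) (nat_lit 2228920803) (nat_lit 1672) (nat_lit 3923063529) (nat_lit 1748) (nat_lit 1793253868) (nat_lit 428) (nat_lit 5) (nat_lit 450) (nat_lit 5) (nat_lit 451) (nat_lit 5) (nat_lit 423) (nat_lit 389) (nat_lit 328)) (XT.nd (nat_lit 78) (nat_lit 1748) (nat_lit 0) (XT.lf (nat_lit 0) (nat_lit 267884394) (nat_lit 1748) (nat_lit 1036104181) (nat_lit 76) (nat_lit 6704915260) (nat_lit 427) (nat_lit 5) (nat_lit 450) (nat_lit 5) (nat_lit 428) (nat_lit 5) (nat_lit 424)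 (nat_lit 389) (nat_lit 327)) (XT.lf (nat_lit 0) (nat_lit 2343570938) (nat_lit 1824) (nat_lit 4340932607) (nat_lit 76) (nat_lit 1389169187) (nat_lit 404) (nat_lit 5) (nat_lit 428) (nat_lit 5) (nat_lit 405) (nat_lit 5) (nat_lit 425) (nat_lit 389) (nat_lit 326)))) (XT.nd (nat_lit 78) (nat_lit 988) (nat_lit 0) (XT.lf (nat_lit 0) (nat_lit 435049744) (nat_lit 1140) (nat_lit 4008575892) (nat_lit 1216) (nat_lit 3696467772) (nat_lit 389) (nat_lit 5) (nat_lit 404) (nat_lit 5) (nat_lit 405) (nat_lit 5) (nat_lit 426) (nat_lit 389) (nat_lit 325)) (XT.nd (nat_lit 78) (nat_lit 988) (nat_lit 0) (XT.lf (nat_lit 0) (nat_lit 5332231536) (nat_lit 1140) (nat_lit 1247457913) (nat_lit 1216) (nat_lit 1628286116) (nat_lit 389) (nat_lit 5) (nat_lit 404) (nat_lit 5) (nat_lit 405) (nat_lit 5) (nat_lit 427) (nat_lit 389) (nat_lit 324)) (XT.lf (nat_lit 0) (nat_lit 463829113) (nat_lit 988) (nat_lit 6247103292) (nat_lit 76) (nat_lit 1566455545) (nat_lit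 376) (nat_lit 5) (nat_lit 389) (nat_lit 5) (nat_lit 377) (nat_lit 5) (nat_lit 428) (nat_lit 389) (nat_lit 323))))))))
noncomputable def xc118 : XT := (XT.nd (nat_lit 1716) (nat_lit 6916) (nat_lit 0) (XT.nd (nat_lit 858) (nat_lit 4940) (nat_lit 0) (XT.nd (nat_lit 390) (nat_lit 2432) (nat_lit 0) (XT.nd (nat_lit 156) (nat_lit 1748) (nat_lit 0) (XT.nd (nat_lit 78) (nat_lit 836) (nat_lit 0) (XT.lf (nat_lit 0) (nat_lit 2569493515) (nat_lit 988) (nat_lit 1327034584) (nat_lit 76) (nat_lit 4451587494) (nat_lit 376) (nat_lit 5) (nat_lit 389) (nat_lit 5) (nat_lit 377) (nat_lit 5) (nat_lit 429) (nat_lit 389) (nat_lit 322)) (XT.lf (nat_lit 0) (nat_lit 3707238078) (nat_lit 836) (nat_lit 1000575890) (nat_lit 912) (nat_lit 3712645186) (nat_lit 365) (nat_lit 5) (nat_lit 376) (nat_lit 5) (nat_lit 377) (nat_lit 5) (nat_lit 430) (nat_lit 389) (nat_lit 321))) (XT.nd (nat_lit 78) (nat_lit 912) (nat_lit 0) (XT.lf (nat_lit 0) (nat_lit 324346495)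 (nat_lit 836) (nat_lit 6555228111) (nat_lit 912) (nat_lit 1614873485) (nat_lit 354) (nat_lit 5) (nat_lit 365) (nat_lit 5) (nat_lit 366) (nat_lit 5) (nat_lit 431) (nat_lit 389) (nat_lit 320)) (XT.nd (nat_lit 78) (nat_lit 836) (nat_lit 0) (XT.lf (nat_lit 0) (nat_lit 523561986) (nat_lit 912) (nat_lit 3086482099) (nat_lit 76) (nat_lit 4959704243) (nat_lit 353) (nat_lit 5) (nat_lit 365) (nat_lit 5) (nat_lit 354) (nat_lit 5) (nat_lit 432) (nat_lit 389) (nat_lit 319)) (XT.lf (nat_lit 0) (nat_lit 2082576925) (nat_lit 836) (nat_lit 581880224) (nat_lit 912) (nat_lit 5982268940) (nat_lit 342) (nat_lit 5) (nat_lit 353) (nat_lit 5) (nat_lit 354) (nat_lit 5) (nat_lit 433) (nat_lit 389) (nat_lit 318))))) (XT.nd (nat_lit 234) (nat_lit 760) (nat_lit 0) (XT.nd (nat_lit 78) (nat_lit 1672) (nat_lit 0) (XT.lf (nat_lit 0) (nat_lit 4853482514) (nat_lit 912) (nat_lit 1377664657) (nat_lit 76) (nat_lit 2494001057) (nat_lit 342) (nat_lit 5) (nat_lit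 354) (nat_lit 5) (nat_lit 343) (nat_lit 5) (nat_lit 434) (nat_lit 389) (nat_lit 317)) (XT.nd (nat_lit 78) (nat_lit 836) (nat_lit 0) (XT.lf (nat_lit 0) (nat_lit 3927582052) (nat_lit 836) (nat_lit 3156871193) (nat_lit 912) (nat_lit 1720733117) (nat_lit 331) (nat_lit 5) (nat_lit 342) (nat_lit 5) (nat_lit 343) (nat_lit 5) (nat_lit 435) (nat_lit 389) (nat_lit 316)) (XT.lf (nat_lit 0) (nat_lit 440782495) (nat_lit 760) (nat_lit 7394839) (nat_lit 836) (nat_lit 8438973594) (nat_lit 320) (nat_lit 5) (nat_lit 330) (nat_lit 5) (nat_lit 331) (nat_lit 5) (nat_lit 436) (nat_lit 389) (nat_lit 315)))) (XT.nd (nat_lit 78) (nat_lit 760) (nat_lit 0) (XT.lf (nat_lit 0) (nat_lit 2660585099) (nat_lit 836) (nat_lit 3104093716) (nat_lit 76) (nat_lit 3205395520) (nat_lit 320) (nat_lit 5) (nat_lit 331) (nat_lit 5) (nat_lit 321) (nat_lit 5) (nat_lit 437) (nat_lit 389) (nat_lit 314)) (XT.nd (nat_lit 78) (nat_lit 0) (nat_lit 0) (XT.lf (nat_lit 0)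 (nat_lit 2343133623) (nat_lit 760) (nat_lit 2559350604) (nat_lit 836) (nat_lit 4152477142) (nat_lit 310) (nat_lit 5) (nat_lit 320) (nat_lit 5) (nat_lit 321) (nat_lit 5) (nat_lit 438) (nat_lit 389) (nat_lit 313)) (XT.lf (nat_lit 0) (nat_lit 7185141629) (nat_lit 836) (nat_lit 1237440700) (nat_lit 76) (nat_lit 719055236) (nat_lit 310) (nat_lit 5) (nat_lit 321) (nat_lit 5) (nat_lit 311) (nat_lit 5) (nat_lit 439) (nat_lit 389) (nat_lit 312)))))) (XT.nd (nat_lit 390) (nat_lit 2660) (nat_lit 0) (XT.nd (nat_lit 156) (nat_lit 760) (nat_lit 0) (XT.nd (nat_lit 78) (nat_lit 760) (nat_lit 0) (XT.lf (nat_lit 0) (nat_lit 295929121) (nat_lit 760) (nat_lit 4877388078) (nat_lit 76) (nat_lit 4056377910) (nat_lit 300) (nat_lit 5) (nat_lit 310) (nat_lit 5) (nat_lit 301) (nat_lit 5) (nat_lit 440) (nat_lit 389) (nat_lit 311)) (XT.lf (nat_lit 0) (nat_lit 715163174) (nat_lit 760) (nat_lit 1836154448) (nat_lit 836) (nat_lit 6768264543) (nat_lit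 290) (nat_lit 5) (nat_lit 300) (nat_lit 5) (nat_lit 301) (nat_lit 5) (nat_lit 441) (nat_lit 389) (nat_lit 310))) (XT.nd (nat_lit 78) (nat_lit 760) (nat_lit 0) (XT.lf (nat_lit 0) (nat_lit 4866358485) (nat_lit 836) (nat_lit 2968150943) (nat_lit 76) (nat_lit 1576475722) (nat_lit 290) (nat_lit 5) (nat_lit 301) (nat_lit 5) (nat_lit 291) (nat_lit 5) (nat_lit 442) (nat_lit 389) (nat_lit 309)) (XT.nd (nat_lit 78) (nat_lit 76) (nat_lit 0) (XT.lf (nat_lit 0) (nat_lit 2772870103) (nat_lit 684) (nat_lit 4456972858) (nat_lit 760) (nat_lit 2274339279) (nat_lit 281) (nat_lit 5) (nat_lit 290) (nat_lit 5) (nat_lit 291) (nat_lit 5) (nat_lit 443) (nat_lit 389) (nat_lit 308)) (XT.lf (nat_lit 0) (nat_lit 32990728) (nat_lit 760) (nat_lit 962646004) (nat_lit 76) (nat_lit 8603766141) (nat_lit 280) (nat_lit 5) (nat_lit 290) (nat_lit 5) (nat_lit 281) (nat_lit 5) (nat_lit 444) (nat_lit 389) (nat_lit 307))))) (XT.nd (nat_lit 234) (nat_lit 1368)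 (nat_lit 0) (XT.nd (nat_lit 78) (nat_lit 608) (nat_lit 0) (XT.lf (nat_lit 0) (nat_lit 2377530285) (nat_lit 760) (nat_lit 4773481568) (nat_lit 76) (nat_lit 2544793459) (nat_lit 271) (nat_lit 5) (nat_lit 281) (nat_lit 5) (nat_lit 272) (nat_lit 5) (nat_lit 445) (nat_lit 389) (nat_lit 306)) (XT.nd (nat_lit 78) (nat_lit 0) (nat_lit 0) (XT.lf (nat_lit 0) (nat_lit 1120066433) (nat_lit 608) (nat_lit 3642240571) (nat_lit 684) (nat_lit 5031970090) (nat_lit 263) (nat_lit 5) (nat_lit 271) (nat_lit 5) (nat_lit 272) (nat_lit 5) (nat_lit 446) (nat_lit 389) (nat_lit 305)) (XT.lf (nat_lit 0) (nat_lit 7164379623) (nat_lit 608) (nat_lit 35733408) (nat_lit 684) (nat_lit 2694506669) (nat_lit 263) (nat_lit 5) (nat_lit 271) (nat_lit 5) (nat_lit 272) (nat_lit 5) (nat_lit 447) (nat_lit 389) (nat_lit 304)))) (XT.nd (nat_lit 78) (nat_lit 684) (nat_lit 0) (XT.lf (nat_lit 0) (nat_lit 3320824298) (nat_lit 684) (nat_lit 6384856181) (nat_lit 760) (nat_lit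 290916475) (nat_lit 254) (nat_lit 5) (nat_lit 263) (nat_lit 5) (nat_lit 264) (nat_lit 5) (nat_lit 448) (nat_lit 389) (nat_lit 303)) (XT.nd (nat_lit 78) (nat_lit 608) (nat_lit 0) (XT.lf (nat_lit 0) (nat_lit 2125008784) (nat_lit 760) (nat_lit 616547583) (nat_lit 76) (nat_lit 7358932368) (nat_lit 253) (nat_lit 5) (nat_lit 263) (nat_lit 5) (nat_lit 254) (nat_lit 5) (nat_lit 449) (nat_lit 389) (nat_lit 302)) (XT.lf (nat_lit 0) (nat_lit 4602725915) (nat_lit 684) (nat_lit 4608528128) (nat_lit 76) (nat_lit 994825921) (nat_lit 245) (nat_lit 5) (nat_lit 254) (nat_lit 5) (nat_lit 246) (nat_lit 5) (nat_lit 450) (nat_lit 389) (nat_lit 301))))))) (XT.nd (nat_lit 858) (nat_lit 2812) (nat_lit 0) (XT.nd (nat_lit 390) (nat_lit 2280) (nat_lit 0) (XT.nd (nat_lit 156) (nat_lit 1216) (nat_lit 0) (XT.nd (nat_lit 78) (nat_lit 0) (nat_lit 0) (XT.lf (nat_lit 0) (nat_lit 1601938480) (nat_lit 608) (nat_lit 5535477101) (nat_lit 684) (nat_lit 3176226376)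 (nat_lit 237) (nat_lit 5) (nat_lit 245) (nat_lit 5) (nat_lit 246) (nat_lit 5) (nat_lit 451) (nat_lit 389) (nat_lit 300)) (XT.lf (nat_lit 0) (nat_lit 7967813062) (nat_lit 608) (nat_lit 1760901326) (nat_lit 684) (nat_lit 694529653) (nat_lit 237) (nat_lit 5) (nat_lit 245) (nat_lit 5) (nat_lit 246) (nat_lit 5) (nat_lit 452) (nat_lit 389) (nat_lit 299))) (XT.nd (nat_lit 78) (nat_lit 608) (nat_lit 0) (XT.lf (nat_lit 0) (nat_lit 1827339665) (nat_lit 608) (nat_lit 6613908969) (nat_lit 76) (nat_lit 2093265327) (nat_lit 229) (nat_lit 5) (nat_lit 237) (nat_lit 5) (nat_lit 230) (nat_lit 5) (nat_lit 453) (nat_lit 389) (nat_lit 298)) (XT.nd (nat_lit 78) (nat_lit 608) (nat_lit 0) (XT.lf (nat_lit 0) (nat_lit 4394156800) (nat_lit 608) (nat_lit 237846784) (nat_lit 76) (nat_lit 6015844420) (nat_lit 229) (nat_lit 5) (nat_lit 237) (nat_lit 5) (nat_lit 230) (nat_lit 5) (nat_lit 454) (nat_lit 389) (nat_lit 297)) (XT.lf (nat_lit 0) (nat_lit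 6317968035) (nat_lit 608) (nat_lit 711395558) (nat_lit 684) (nat_lit 3733750682) (nat_lit 221) (nat_lit 5) (nat_lit 229) (nat_lit 5) (nat_lit 230) (nat_lit 5) (nat_lit 455) (nat_lit 389) (nat_lit 296))))) (XT.nd (nat_lit 234) (nat_lit 1140) (nat_lit 0) (XT.nd (nat_lit 78) (nat_lit 608) (nat_lit 0) (XT.lf (nat_lit 0) (nat_lit 2102827180) (nat_lit 532) (nat_lit 7627313920) (nat_lit 608) (nat_lit 1150293924) (nat_lit 214) (nat_lit 5) (nat_lit 221) (nat_lit 5) (nat_lit 222) (nat_lit 5) (nat_lit 456) (nat_lit 389) (nat_lit 295)) (XT.nd (nat_lit 78) (nat_lit 532) (nat_lit 0) (XT.lf (nat_lit 0) (nat_lit 1476462378) (nat_lit 608) (nat_lit 2203021992) (nat_lit 76) (nat_lit 7320209156) (nat_lit 213) (nat_lit 5) (nat_lit 221) (nat_lit 5) (nat_lit 214) (nat_lit 5) (nat_lit 457) (nat_lit 389) (nat_lit 294)) (XT.lf (nat_lit 0) (nat_lit 4149023922) (nat_lit 608) (nat_lit 6599118702) (nat_lit 76) (nat_lit 372875162) (nat_lit 206) (nat_lit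 5) (nat_lit 214) (nat_lit 5) (nat_lit 207) (nat_lit 5) (nat_lit 458) (nat_lit 389) (nat_lit 293)))) (XT.nd (nat_lit 78) (nat_lit 608) (nat_lit 0) (XT.lf (nat_lit 0) (nat_lit 113134653) (nat_lit 532) (nat_lit 6778926237) (nat_lit 608) (nat_lit 4352373148) (nat_lit 199) (nat_lit 5) (nat_lit 206) (nat_lit 5) (nat_lit 207) (nat_lit 5) (nat_lit 459) (nat_lit 389) (nat_lit 292)) (XT.nd (nat_lit 78) (nat_lit 608) (nat_lit 0) (XT.lf (nat_lit 0) (nat_lit 7018695091) (nat_lit 532) (nat_lit 2692840792) (nat_lit 608) (nat_lit 1658357060) (nat_lit 199) (nat_lit 5) (nat_lit 206) (nat_lit 5) (nat_lit 207) (nat_lit 5) (nat_lit 460) (nat_lit 389) (nat_lit 291)) (XT.lf (nat_lit 0) (nat_lit 1079146406) (nat_lit 608) (nat_lit 8946604229) (nat_lit 76) (nat_lit 1471896624) (nat_lit 191) (nat_lit 5) (nat_lit 199) (nat_lit 5) (nat_lit 192) (nat_lit 5) (nat_lit 461) (nat_lit 389) (nat_lit 290)))))) (XT.nd (nat_lit 390) (nat_lit 1368) (nat_lit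 0) (XT.nd (nat_lit 156) (nat_lit 988) (nat_lit 0) (XT.nd (nat_lit 78) (nat_lit 456) (nat_lit 0) (XT.lf (nat_lit 0) (nat_lit 3874221879) (nat_lit 608) (nat_lit 2036370662) (nat_lit 76) (nat_lit 5716649872) (nat_lit 191) (nat_lit 5) (nat_lit 199) (nat_lit 5) (nat_lit 192) (nat_lit 5) (nat_lit 462) (nat_lit 389) (nat_lit 289)) (XT.lf (nat_lit 0) (nat_lit 5048575560) (nat_lit 456) (nat_lit 1687618670) (nat_lit 532) (nat_lit 5023020760) (nat_lit 185) (nat_lit 5) (nat_lit 191) (nat_lit 5) (nat_lit 192) (nat_lit 5) (nat_lit 463) (nat_lit 389) (nat_lit 288))) (XT.nd (nat_lit 78) (nat_lit 532) (nat_lit 0) (XT.lf (nat_lit 0) (nat_lit 367090775) (nat_lit 456) (nat_lit 9299864342) (nat_lit 532) (nat_lit 2226646235) (nat_lit 179) (nat_lit 5) (nat_lit 185) (nat_lit 5) (nat_lit 186) (nat_lit 5) (nat_lit 464) (nat_lit 389) (nat_lit 287)) (XT.nd (nat_lit 78) (nat_lit 456) (nat_lit 0) (XT.lf (nat_lit 0) (nat_lit 652441165) (nat_lit 532)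 (nat_lit 4397959933) (nat_lit 76) (nat_lit 6979498396) (nat_lit 178) (nat_lit 5) (nat_lit 185) (nat_lit 5) (nat_lit 179) (nat_lit 5) (nat_lit 465) (nat_lit 389) (nat_lit 286)) (XT.lf (nat_lit 0) (nat_lit 2866611340) (nat_lit 456) (nat_lit 690230409) (nat_lit 532) (nat_lit 8611841574) (nat_lit 172) (nat_lit 5) (nat_lit 178) (nat_lit 5) (nat_lit 179) (nat_lit 5) (nat_lit 466) (nat_lit 389) (nat_lit 285))))) (XT.nd (nat_lit 234) (nat_lit 456) (nat_lit 0) (XT.nd (nat_lit 78) (nat_lit 912) (nat_lit 0) (XT.lf (nat_lit 0) (nat_lit 6552508542) (nat_lit 532) (nat_lit 2027727605) (nat_lit 76) (nat_lit 3729348032) (nat_lit 172) (nat_lit 5) (nat_lit 179) (nat_lit 5) (nat_lit 173) (nat_lit 5) (nat_lit 467) (nat_lit 389) (nat_lit 284)) (XT.nd (nat_lit 78) (nat_lit 456) (nat_lit 0) (XT.lf (nat_lit 0) (nat_lit 5429749389) (nat_lit 456) (nat_lit 4197650399) (nat_lit 532) (nat_lit 2825521859) (nat_lit 166) (nat_lit 5) (nat_lit 172) (nat_lit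 5) (nat_lit 173) (nat_lit 5) (nat_lit 468) (nat_lit 389) (nat_lit 283)) (XT.lf (nat_lit 0) (nat_lit 160454032) (nat_lit 456) (nat_lit 12160470749) (nat_lit 76) (nat_lit 278225320) (nat_lit 160) (nat_lit 5) (nat_lit 166) (nat_lit 5) (nat_lit 161) (nat_lit 5) (nat_lit 469) (nat_lit 389) (nat_lit 282)))) (XT.nd (nat_lit 78) (nat_lit 456) (nat_lit 0) (XT.lf (nat_lit 0) (nat_lit 3223310919) (nat_lit 456) (nat_lit 4678457047) (nat_lit 76) (nat_lit 4845066258) (nat_lit 160) (nat_lit 5) (nat_lit 166) (nat_lit 5) (nat_lit 161) (nat_lit 5) (nat_lit 470) (nat_lit 389) (nat_lit 281)) (XT.nd (nat_lit 78) (nat_lit 0) (nat_lit 0) (XT.lf (nat_lit 0) (nat_lit 2963393480) (nat_lit 456) (nat_lit 3383388979) (nat_lit 532) (nat_lit 6550706873) (nat_lit 154) (nat_lit 5) (nat_lit 160) (nat_lit 5) (nat_lit 161) (nat_lit 5) (nat_lit 471) (nat_lit 389) (nat_lit 280)) (XT.lf (nat_lit 0) (nat_lit 9552547082) (nat_lit 532) (nat_lit 2266015699) (nat_lit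 76) (nat_lit 1232202651) (nat_lit 154) (nat_lit 5) (nat_lit 161) (nat_lit 5) (nat_lit 155) (nat_lit 5) (nat_lit 472) (nat_lit 389) (nat_lit 279))))))))
noncomputable def xc119 : XT := (XT.nd (nat_lit 1716) (nat_lit 1672) (nat_lit 0) (XT.nd (nat_lit 858) (nat_lit 2128) (nat_lit 0) (XT.nd (nat_lit 390) (nat_lit 1596) (nat_lit 0) (XT.nd (nat_lit 156) (nat_lit 380) (nat_lit 0) (XT.nd (nat_lit 78) (nat_lit 456) (nat_lit 0) (XT.lf (nat_lit 0) (nat_lit 5577918992) (nat_lit 380) (nat_lit 7283782058) (nat_lit 456) (nat_lit 344624799) (nat_lit 149) (nat_lit 5) (nat_lit 154) (nat_lit 5) (nat_lit 155) (nat_lit 5) (nat_lit 473) (nat_lit 389) (nat_lit 278)) (XT.lf (nat_lit 0) (nat_lit 200304203) (nat_lit 380) (nat_lit 2631394570) (nat_lit 456) (nat_lit 10532983362) (nat_lit 143) (nat_lit 5) (nat_lit 148) (nat_lit 5) (nat_lit 149) (nat_lit 5) (nat_lit 474) (nat_lit 389) (nat_lit 277))) (XT.nd (nat_lit 78) (nat_lit 380) (nat_lit 0)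 (XT.lf (nat_lit 0) (nat_lit 6113048649) (nat_lit 456) (nat_lit 5281005193) (nat_lit 76) (nat_lit 2131187888) (nat_lit 143) (nat_lit 5) (nat_lit 149) (nat_lit 5) (nat_lit 144) (nat_lit 5) (nat_lit 475) (nat_lit 389) (nat_lit 276)) (XT.nd (nat_lit 78) (nat_lit 0) (nat_lit 0) (XT.lf (nat_lit 0) (nat_lit 2750772719) (nat_lit 380) (nat_lit 6725769150) (nat_lit 456) (nat_lit 4212144274) (nat_lit 138) (nat_lit 5) (nat_lit 143) (nat_lit 5) (nat_lit 144) (nat_lit 5) (nat_lit 476) (nat_lit 389) (nat_lit 275)) (XT.lf (nat_lit 0) (nat_lit 10987042536) (nat_lit 380) (nat_lit 1937118796) (nat_lit 456) (nat_lit 930904860) (nat_lit 138) (nat_lit 5) (nat_lit 143) (nat_lit 5) (nat_lit 144) (nat_lit 5) (nat_lit 477) (nat_lit 389) (nat_lit 274))))) (XT.nd (nat_lit 234) (nat_lit 760) (nat_lit 0) (XT.nd (nat_lit 78) (nat_lit 380) (nat_lit 0) (XT.lf (nat_lit 0) (nat_lit 2420345074) (nat_lit 456) (nat_lit 8652696190) (nat_lit 76) (nat_lit 2950701151)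 (nat_lit 132) (nat_lit 5) (nat_lit 138) (nat_lit 5) (nat_lit 133) (nat_lit 5) (nat_lit 478) (nat_lit 389) (nat_lit 273)) (XT.nd (nat_lit 78) (nat_lit 380) (nat_lit 0) (XT.lf (nat_lit 0) (nat_lit 5840150528) (nat_lit 456) (nat_lit 428314075) (nat_lit 76) (nat_lit 7926928237) (nat_lit 132) (nat_lit 5) (nat_lit 138) (nat_lit 5) (nat_lit 133) (nat_lit 5) (nat_lit 479) (nat_lit 389) (nat_lit 272)) (XT.lf (nat_lit 0) (nat_lit 8038968431) (nat_lit 380) (nat_lit 1323716876) (nat_lit 456) (nat_lit 5007107884) (nat_lit 127) (nat_lit 5) (nat_lit 132) (nat_lit 5) (nat_lit 133) (nat_lit 5) (nat_lit 480) (nat_lit 389) (nat_lit 271)))) (XT.nd (nat_lit 78) (nat_lit 380) (nat_lit 0) (XT.lf (nat_lit 0) (nat_lit 2110142304) (nat_lit 380) (nat_lit 10868529786) (nat_lit 456) (nat_lit 1568552943) (nat_lit 122) (nat_lit 5) (nat_lit 127) (nat_lit 5) (nat_lit 128) (nat_lit 5) (nat_lit 481) (nat_lit 389) (nat_lit 270)) (XT.nd (nat_lit 78) (nat_lit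 304) (nat_lit 0) (XT.lf (nat_lit 0) (nat_lit 1947185097) (nat_lit 456) (nat_lit 3970446321) (nat_lit 76) (nat_lit 8809648922) (nat_lit 121) (nat_lit 5) (nat_lit 127) (nat_lit 5) (nat_lit 122) (nat_lit 5) (nat_lit 482) (nat_lit 389) (nat_lit 269)) (XT.lf (nat_lit 0) (nat_lit 4689978589) (nat_lit 304) (nat_lit 835381870) (nat_lit 380) (nat_lit 9385109729) (nat_lit 117) (nat_lit 5) (nat_lit 121) (nat_lit 5) (nat_lit 122) (nat_lit 5) (nat_lit 483) (nat_lit 389) (nat_lit 268)))))) (XT.nd (nat_lit 390) (nat_lit 1064) (nat_lit 0) (XT.nd (nat_lit 156) (nat_lit 684) (nat_lit 0) (XT.nd (nat_lit 78) (nat_lit 380) (nat_lit 0) (XT.lf (nat_lit 0) (nat_lit 9212916011) (nat_lit 380) (nat_lit 1574545622) (nat_lit 76) (nat_lit 4309109109) (nat_lit 117) (nat_lit 5) (nat_lit 122) (nat_lit 5) (nat_lit 118) (nat_lit 5) (nat_lit 484) (nat_lit 389) (nat_lit 267)) (XT.lf (nat_lit 0) (nat_lit 7308385549) (nat_lit 380) (nat_lit 5701921340) (nat_lit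 456) (nat_lit 2275367912) (nat_lit 112) (nat_lit 5) (nat_lit 117) (nat_lit 5) (nat_lit 118) (nat_lit 5) (nat_lit 485) (nat_lit 389) (nat_lit 266))) (XT.nd (nat_lit 78) (nat_lit 304) (nat_lit 0) (XT.lf (nat_lit 0) (nat_lit 888117743) (nat_lit 304) (nat_lit 498090326) (nat_lit 380) (nat_lit 14092182445) (nat_lit 107) (nat_lit 5) (nat_lit 111) (nat_lit 5) (nat_lit 112) (nat_lit 5) (nat_lit 486) (nat_lit 389) (nat_lit 265)) (XT.nd (nat_lit 78) (nat_lit 304) (nat_lit 0) (XT.lf (nat_lit 0) (nat_lit 5158940256) (nat_lit 380) (nat_lit 5707983359) (nat_lit 76) (nat_lit 4806371280) (nat_lit 107) (nat_lit 5) (nat_lit 112) (nat_lit 5) (nat_lit 108) (nat_lit 5) (nat_lit 487) (nat_lit 389) (nat_lit 264)) (XT.lf (nat_lit 0) (nat_lit 3366919923) (nat_lit 304) (nat_lit 5648943045) (nat_lit 380) (nat_lit 6856062615) (nat_lit 103) (nat_lit 5) (nat_lit 107) (nat_lit 5) (nat_lit 108) (nat_lit 5) (nat_lit 488) (nat_lit 389) (nat_lit 263)))))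 (XT.nd (nat_lit 234) (nat_lit 684) (nat_lit 0) (XT.nd (nat_lit 78) (nat_lit 380) (nat_lit 0) (XT.lf (nat_lit 0) (nat_lit 12674973760) (nat_lit 304) (nat_lit 296985965) (nat_lit 380) (nat_lit 3102131328) (nat_lit 103) (nat_lit 5) (nat_lit 107) (nat_lit 5) (nat_lit 108) (nat_lit 5) (nat_lit 489) (nat_lit 389) (nat_lit 262)) (XT.nd (nat_lit 78) (nat_lit 0) (nat_lit 0) (XT.lf (nat_lit 0) (nat_lit 773573191) (nat_lit 380) (nat_lit 10376902883) (nat_lit 76) (nat_lit 5128607581) (nat_lit 98) (nat_lit 5) (nat_lit 103) (nat_lit 5) (nat_lit 99) (nat_lit 5) (nat_lit 490) (nat_lit 389) (nat_lit 261)) (XT.lf (nat_lit 0) (nat_lit 4694253449) (nat_lit 380) (nat_lit 1100326278) (nat_lit 76) (nat_lit 10693009011) (nat_lit 98) (nat_lit 5) (nat_lit 103) (nat_lit 5) (nat_lit 99) (nat_lit 5) (nat_lit 491) (nat_lit 389) (nat_lit 260)))) (XT.nd (nat_lit 78) (nat_lit 380) (nat_lit 0) (XT.lf (nat_lit 0) (nat_lit 8447548143) (nat_lit 304) (nat_lit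 284991979) (nat_lit 380) (nat_lit 7966942604) (nat_lit 94) (nat_lit 5) (nat_lit 98) (nat_lit 5) (nat_lit 99) (nat_lit 5) (nat_lit 492) (nat_lit 389) (nat_lit 259)) (XT.nd (nat_lit 78) (nat_lit 76) (nat_lit 0) (XT.lf (nat_lit 0) (nat_lit 1242323505) (nat_lit 304) (nat_lit 11643835205) (nat_lit 380) (nat_lit 4028767167) (nat_lit 90) (nat_lit 5) (nat_lit 94) (nat_lit 5) (nat_lit 95) (nat_lit 5) (nat_lit 493) (nat_lit 389) (nat_lit 258)) (XT.lf (nat_lit 0) (nat_lit 30424990) (nat_lit 380) (nat_lit 6122579732) (nat_lit 76) (nat_lit 10980835251) (nat_lit 89) (nat_lit 5) (nat_lit 94) (nat_lit 5) (nat_lit 90) (nat_lit 5) (nat_lit 494) (nat_lit 389) (nat_lit 257))))))) (XT.nd (nat_lit 51246) (nat_lit 0) (nat_lit 41876) (XT.nd (nat_lit 390) (nat_lit 760) (nat_lit 0) (XT.nd (nat_lit 156) (nat_lit 608) (nat_lit 0) (XT.nd (nat_lit 78) (nat_lit 0) (nat_lit 0) (XT.lf (nat_lit 0) (nat_lit 3614504971) (nat_lit 304) (nat_lit 510642717)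 (nat_lit 380) (nat_lit 13231288677) (nat_lit 85) (nat_lit 5) (nat_lit 89) (nat_lit 5) (nat_lit 90) (nat_lit 5) (nat_lit 495) (nat_lit 389) (nat_lit 256)) (XT.lf (nat_lit 0) (nat_lit 8362025932) (nat_lit 380) (nat_lit 4012405185) (nat_lit 76) (nat_lit 5207850756) (nat_lit 85) (nat_lit 5) (nat_lit 90) (nat_lit 5) (nat_lit 86) (nat_lit 5) (nat_lit 496) (nat_lit 389) (nat_lit 255))) (XT.nd (nat_lit 78) (nat_lit 380) (nat_lit 0) (XT.lf (nat_lit 0) (nat_lit 5962267721) (nat_lit 228) (nat_lit 6748615836) (nat_lit 304) (nat_lit 5101218259) (nat_lit 82) (nat_lit 5) (nat_lit 85) (nat_lit 5) (nat_lit 86) (nat_lit 5) (nat_lit 497) (nat_lit 389) (nat_lit 254)) (XT.nd (nat_lit 78) (nat_lit 380) (nat_lit 0) (XT.lf (nat_lit 0) (nat_lit 16166724588) (nat_lit 228) (nat_lit 992202909) (nat_lit 304) (nat_lit 887348794) (nat_lit 82) (nat_lit 5) (nat_lit 85) (nat_lit 5) (nat_lit 86) (nat_lit 5) (nat_lit 498) (nat_lit 389) (nat_lit 253)) (XT.lf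 (nat_lit 0) (nat_lit 3437902756) (nat_lit 380) (nat_lit 9962294316) (nat_lit 76) (nat_lit 4883059747) (nat_lit 77) (nat_lit 5) (nat_lit 82) (nat_lit 5) (nat_lit 78) (nat_lit 5) (nat_lit 499) (nat_lit 389) (nat_lit 252))))) (XT.nd (nat_lit 234) (nat_lit 304) (nat_lit 0) (XT.nd (nat_lit 78) (nat_lit 228) (nat_lit 0) (XT.lf (nat_lit 0) (nat_lit 192337157) (nat_lit 228) (nat_lit 7651513209) (nat_lit 304) (nat_lit 10680890013) (nat_lit 74) (nat_lit 5) (nat_lit 77) (nat_lit 5) (nat_lit 78) (nat_lit 5) (nat_lit 500) (nat_lit 389) (nat_lit 251)) (XT.nd (nat_lit 78) (nat_lit 228) (nat_lit 0) (XT.lf (nat_lit 0) (nat_lit 10661365382) (nat_lit 228) (nat_lit 1729078638) (nat_lit 304) (nat_lit 6379561189) (nat_lit 74) (nat_lit 5) (nat_lit 77) (nat_lit 5) (nat_lit 78) (nat_lit 5) (nat_lit 501) (nat_lit 389) (nat_lit 250)) (XT.lf (nat_lit 0) (nat_lit 2298250682) (nat_lit 228) (nat_lit 14758531553) (nat_lit 304) (nat_lit 1962818942)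 (nat_lit 71) (nat_lit 5) (nat_lit 74) (nat_lit 5) (nat_lit 75) (nat_lit 5) (nat_lit 502) (nat_lit 389) (nat_lit 249)))) (XT.nd (nat_lit 78) (nat_lit 228) (nat_lit 0) (XT.lf (nat_lit 0) (nat_lit 2561066651) (nat_lit 304) (nat_lit 6301753788) (nat_lit 76) (nat_lit 10409997507) (nat_lit 70) (nat_lit 5) (nat_lit 74) (nat_lit 5) (nat_lit 71) (nat_lit 5) (nat_lit 503) (nat_lit 389) (nat_lit 248)) (XT.nd (nat_lit 50466) (nat_lit 0) (nat_lit 44308) (XT.lf (nat_lit 0) (nat_lit 4347181981) (nat_lit 228) (nat_lit 2816417373) (nat_lit 304) (nat_lit 12366953158) (nat_lit 67) (nat_lit 5) (nat_lit 70) (nat_lit 5) (nat_lit 71) (nat_lit 5) (nat_lit 504) (nat_lit 389) (nat_lit 247)) (XT.lf (nat_lit 0) (nat_lit 435605339) (nat_lit 0) (nat_lit 435605339) (nat_lit 684) (nat_lit 2446215185) (nat_lit 650) (nat_lit 5) (nat_lit 650) (nat_lit 3) (nat_lit 659) (nat_lit 3) (nat_lit 390) (nat_lit 390) (nat_lit 360)))))) (XT.nd (nat_lit 390) (nat_lit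 1672) (nat_lit 0) (XT.nd (nat_lit 156) (nat_lit 760) (nat_lit 0) (XT.nd (nat_lit 78) (nat_lit 0) (nat_lit 0) (XT.lf (nat_lit 0) (nat_lit 4025362044) (nat_lit 684) (nat_lit 2546690563) (nat_lit 760) (nat_lit 82632144) (nat_lit 650) (nat_lit 5) (nat_lit 659) (nat_lit 3) (nat_lit 660) (nat_lit 5) (nat_lit 391) (nat_lit 390) (nat_lit 359)) (XT.lf (nat_lit 76) (nat_lit 706983310) (nat_lit 0) (nat_lit 5598119862) (nat_lit 760) (nat_lit 370820044) (nat_lit 651) (nat_lit 5) (nat_lit 650) (nat_lit 5) (nat_lit 660) (nat_lit 5) (nat_lit 392) (nat_lit 390) (nat_lit 358))) (XT.nd (nat_lit 78) (nat_lit 0) (nat_lit 0) (XT.lf (nat_lit 0) (nat_lit 1866031619) (nat_lit 760) (nat_lit 2681379109) (nat_lit 836) (nat_lit 2150784546) (nat_lit 640) (nat_lit 5) (nat_lit 650) (nat_lit 5) (nat_lit 651) (nat_lit 5) (nat_lit 393) (nat_lit 390) (nat_lit 357)) (XT.nd (nat_lit 78) (nat_lit 0) (nat_lit 0) (XT.lf (nat_lit 76) (nat_lit 646859215) (nat_lit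 0) (nat_lit 3442476622) (nat_lit 836) (nat_lit 2632624087) (nat_lit 641) (nat_lit 5) (nat_lit 640) (nat_lit 5) (nat_lit 651) (nat_lit 5) (nat_lit 394) (nat_lit 390) (nat_lit 356)) (XT.lf (nat_lit 76) (nat_lit 4047112118) (nat_lit 0) (nat_lit 2271391118) (nat_lit 836) (nat_lit 428497892) (nat_lit 641) (nat_lit 5) (nat_lit 640) (nat_lit 5) (nat_lit 651) (nat_lit 5) (nat_lit 395) (nat_lit 390) (nat_lit 355))))) (XT.nd (nat_lit 234) (nat_lit 836) (nat_lit 0) (XT.nd (nat_lit 78) (nat_lit 0) (nat_lit 76) (XT.lf (nat_lit 76) (nat_lit 709252241) (nat_lit 0) (nat_lit 1035315332) (nat_lit 912) (nat_lit 5028792906) (nat_lit 630) (nat_lit 5) (nat_lit 629) (nat_lit 5) (nat_lit 641) (nat_lit 5) (nat_lit 396) (nat_lit 390) (nat_lit 354)) (XT.nd (nat_lit 78) (nat_lit 0) (nat_lit 0) (XT.lf (nat_lit 0) (nat_lit 3920233464) (nat_lit 836) (nat_lit 2613273789) (nat_lit 912) (nat_lit 267413105) (nat_lit 630) (nat_lit 5) (nat_lit 641) (nat_lit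 5) (nat_lit 642) (nat_lit 5) (nat_lit 397) (nat_lit 390) (nat_lit 353)) (XT.lf (nat_lit 76) (nat_lit 879747780) (nat_lit 0) (nat_lit 5218477989) (nat_lit 912) (nat_lit 731656382) (nat_lit 631) (nat_lit 5) (nat_lit 630) (nat_lit 5) (nat_lit 642) (nat_lit 5) (nat_lit 398) (nat_lit 390) (nat_lit 352)))) (XT.nd (nat_lit 78) (nat_lit 0) (nat_lit 0) (XT.lf (nat_lit 0) (nat_lit 1405573617) (nat_lit 912) (nat_lit 2422654706) (nat_lit 988) (nat_lit 3031743725) (nat_lit 618) (nat_lit 5) (nat_lit 630) (nat_lit 5) (nat_lit 631) (nat_lit 5) (nat_lit 399) (nat_lit 390) (nat_lit 351)) (XT.nd (nat_lit 78) (nat_lit 0) (nat_lit 0) (XT.lf (nat_lit 76) (nat_lit 1154257714) (nat_lit 0) (nat_lit 2376760824) (nat_lit 988) (nat_lit 3360468560) (nat_lit 619) (nat_lit 5) (nat_lit 618) (nat_lit 5) (nat_lit 631) (nat_lit 5) (nat_lit 400) (nat_lit 390) (nat_lit 350)) (XT.lf (nat_lit 76) (nat_lit 4804345021) (nat_lit 0) (nat_lit 859470110) (nat_lit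 988) (nat_lit 1260545389) (nat_lit 619) (nat_lit 5) (nat_lit 618) (nat_lit 5) (nat_lit 631) (nat_lit 5) (nat_lit 401) (nat_lit 390) (nat_lit 349))))))))
noncomputable def xc120 : XT := (XT.nd (nat_lit 1638) (nat_lit 12844) (nat_lit 0) (XT.nd (nat_lit 780) (nat_lit 8664) (nat_lit 0) (XT.nd (nat_lit 390) (nat_lit 2128) (nat_lit 0) (XT.nd (nat_lit 156) (nat_lit 1064) (nat_lit 0) (XT.nd (nat_lit 78) (nat_lit 0) (nat_lit 0) (XT.lf (nat_lit 0) (nat_lit 833834094) (nat_lit 988) (nat_lit 5410416842) (nat_lit 1064) (nat_lit 714269636) (nat_lit 606) (nat_lit 5) (nat_lit 619) (nat_lit 5) (nat_lit 620) (nat_lit 5) (nat_lit 402) (nat_lit 390) (nat_lit 348)) (XT.lf (nat_lit 0) (nat_lit 2923402596) (nat_lit 988) (nat_lit 1721120160) (nat_lit 1064) (nat_lit 2349294311) (nat_lit 606) (nat_lit 5) (nat_lit 619) (nat_lit 5) (nat_lit 620) (nat_lit 5) (nat_lit 403) (nat_lit 390) (nat_lit 347))) (XT.nd (nat_lit 78) (nat_lit 1064) (nat_lit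 0) (XT.lf (nat_lit 76) (nat_lit 2037081574) (nat_lit 0) (nat_lit 2982036258) (nat_lit 1064) (nat_lit 2011437581) (nat_lit 607) (nat_lit 5) (nat_lit 606) (nat_lit 5) (nat_lit 620) (nat_lit 5) (nat_lit 404) (nat_lit 390) (nat_lit 346)) (XT.nd (nat_lit 78) (nat_lit 0) (nat_lit 76) (XT.lf (nat_lit 0) (nat_lit 50724188) (nat_lit 1064) (nat_lit 1206728259) (nat_lit 1140) (nat_lit 5811323313) (nat_lit 592) (nat_lit 5) (nat_lit 606) (nat_lit 5) (nat_lit 607) (nat_lit 5) (nat_lit 405) (nat_lit 390) (nat_lit 345)) (XT.lf (nat_lit 0) (nat_lit 2100455063) (nat_lit 1064) (nat_lit 4465982560) (nat_lit 1140) (nat_lit 541613498) (nat_lit 593) (nat_lit 5) (nat_lit 607) (nat_lit 5) (nat_lit 608) (nat_lit 5) (nat_lit 406) (nat_lit 390) (nat_lit 344))))) (XT.nd (nat_lit 156) (nat_lit 2204) (nat_lit 0) (XT.nd (nat_lit 78) (nat_lit 0) (nat_lit 0) (XT.lf (nat_lit 0) (nat_lit 4160982218) (nat_lit 1064) (nat_lit 604410668) (nat_lit 1140) (nat_lit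 2383344343) (nat_lit 593) (nat_lit 5) (nat_lit 607) (nat_lit 5) (nat_lit 608) (nat_lit 5) (nat_lit 407) (nat_lit 390) (nat_lit 343)) (XT.lf (nat_lit 76) (nat_lit 3346638997) (nat_lit 0) (nat_lit 2892047514) (nat_lit 1140) (nat_lit 952052074) (nat_lit 594) (nat_lit 5) (nat_lit 593) (nat_lit 5) (nat_lit 608) (nat_lit 5) (nat_lit 408) (nat_lit 390) (nat_lit 342))) (XT.nd (nat_lit 78) (nat_lit 1064) (nat_lit 0) (XT.lf (nat_lit 76) (nat_lit 113504941) (nat_lit 0) (nat_lit 955545984) (nat_lit 1216) (nat_lit 6165214442) (nat_lit 579) (nat_lit 5) (nat_lit 578) (nat_lit 5) (nat_lit 594) (nat_lit 5) (nat_lit 409) (nat_lit 390) (nat_lit 341)) (XT.nd (nat_lit 78) (nat_lit 1140) (nat_lit 0) (XT.lf (nat_lit 0) (nat_lit 3105806319) (nat_lit 1140) (nat_lit 3121720454) (nat_lit 76) (nat_lit 1051270139) (nat_lit 579) (nat_lit 5) (nat_lit 594) (nat_lit 5) (nat_lit 580) (nat_lit 5) (nat_lit 410) (nat_lit 390) (nat_lit 340)) (XT.lf (nat_lit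 0) (nat_lit 930979472) (nat_lit 1140) (nat_lit 4220944073) (nat_lit 1216) (nat_lit 2172942275) (nat_lit 564) (nat_lit 5) (nat_lit 579) (nat_lit 5) (nat_lit 580) (nat_lit 5) (nat_lit 411) (nat_lit 390) (nat_lit 339)))))) (XT.nd (nat_lit 390) (nat_lit 6004) (nat_lit 0) (XT.nd (nat_lit 156) (nat_lit 1368) (nat_lit 0) (XT.nd (nat_lit 78) (nat_lit 1292) (nat_lit 0) (XT.lf (nat_lit 0) (nat_lit 5075058312) (nat_lit 1140) (nat_lit 2141757321) (nat_lit 1216) (nat_lit 155502315) (nat_lit 564) (nat_lit 5) (nat_lit 579) (nat_lit 5) (nat_lit 580) (nat_lit 5) (nat_lit 412) (nat_lit 390) (nat_lit 338)) (XT.lf (nat_lit 0) (nat_lit 1846968617) (nat_lit 1292) (nat_lit 5559779610) (nat_lit 76) (nat_lit 14349411) (nat_lit 547) (nat_lit 5) (nat_lit 564) (nat_lit 5) (nat_lit 548) (nat_lit 5) (nat_lit 413) (nat_lit 390) (nat_lit 337))) (XT.nd (nat_lit 78) (nat_lit 1368) (nat_lit 0) (XT.lf (nat_lit 0) (nat_lit 3875255891) (nat_lit 1292) (nat_lit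 1384312453) (nat_lit 76) (nat_lit 2211524837) (nat_lit 547) (nat_lit 5) (nat_lit 564) (nat_lit 5) (nat_lit 548) (nat_lit 5) (nat_lit 414) (nat_lit 390) (nat_lit 336)) (XT.nd (nat_lit 78) (nat_lit 76) (nat_lit 0) (XT.lf (nat_lit 0) (nat_lit 2880422359) (nat_lit 1292) (nat_lit 3041354258) (nat_lit 1368) (nat_lit 1600776117) (nat_lit 530) (nat_lit 5) (nat_lit 547) (nat_lit 5) (nat_lit 548) (nat_lit 5) (nat_lit 415) (nat_lit 390) (nat_lit 335)) (XT.lf (nat_lit 0) (nat_lit 397122320) (nat_lit 1368) (nat_lit 360885868) (nat_lit 76) (nat_lit 6817621074) (nat_lit 529) (nat_lit 5) (nat_lit 547) (nat_lit 5) (nat_lit 530) (nat_lit 5) (nat_lit 416) (nat_lit 390) (nat_lit 334))))) (XT.nd (nat_lit 234) (nat_lit 3192) (nat_lit 0) (XT.nd (nat_lit 78) (nat_lit 1444) (nat_lit 0) (XT.lf (nat_lit 0) (nat_lit 2410215033) (nat_lit 1444) (nat_lit 3624019130) (nat_lit 76) (nat_lit 1595404567) (nat_lit 511) (nat_lit 5) (nat_lit 530) (nat_lit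 5) (nat_lit 512) (nat_lit 5) (nat_lit 417) (nat_lit 390) (nat_lit 333)) (XT.nd (nat_lit 78) (nat_lit 0) (nat_lit 0) (XT.lf (nat_lit 0) (nat_lit 752118729) (nat_lit 1444) (nat_lit 3684498646) (nat_lit 1520) (nat_lit 3248666179) (nat_lit 492) (nat_lit 5) (nat_lit 511) (nat_lit 5) (nat_lit 512) (nat_lit 5) (nat_lit 418) (nat_lit 390) (nat_lit 332)) (XT.lf (nat_lit 0) (nat_lit 5232740272) (nat_lit 1444) (nat_lit 1256395023) (nat_lit 1520) (nat_lit 1253210037) (nat_lit 492) (nat_lit 5) (nat_lit 511) (nat_lit 5) (nat_lit 512) (nat_lit 5) (nat_lit 419) (nat_lit 390) (nat_lit 331)))) (XT.nd (nat_lit 78) (nat_lit 1596) (nat_lit 0) (XT.lf (nat_lit 0) (nat_lit 754670007) (nat_lit 1596) (nat_lit 5817641363) (nat_lit 76) (nat_lit 1228495145) (nat_lit 471) (nat_lit 5) (nat_lit 492) (nat_lit 5) (nat_lit 472) (nat_lit 5) (nat_lit 420) (nat_lit 390) (nat_lit 330)) (XT.nd (nat_lit 78) (nat_lit 1596) (nat_lit 0) (XT.lf (nat_lit 0) (nat_lit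 2773557788) (nat_lit 1596) (nat_lit 1309674625) (nat_lit 76) (nat_lit 3777301116) (nat_lit 471) (nat_lit 5) (nat_lit 492) (nat_lit 5) (nat_lit 472) (nat_lit 5) (nat_lit 421) (nat_lit 390) (nat_lit 329)) (XT.lf (nat_lit 0) (nat_lit 3299715837) (nat_lit 1596) (nat_lit 1517611958) (nat_lit 1672) (nat_lit 3104451802) (nat_lit 450) (nat_lit 5) (nat_lit 471) (nat_lit 5) (nat_lit 472) (nat_lit 5) (nat_lit 422) (nat_lit 390) (nat_lit 328))))))) (XT.nd (nat_lit 858) (nat_lit 5472) (nat_lit 0) (XT.nd (nat_lit 390) (nat_lit 2736) (nat_lit 0) (XT.nd (nat_lit 156) (nat_lit 2888) (nat_lit 0) (XT.nd (nat_lit 78) (nat_lit 1748) (nat_lit 0) (XT.lf (nat_lit 0) (nat_lit 6881585366) (nat_lit 1672) (nat_lit 4797045) (nat_lit 76) (nat_lit 1098290250) (nat_lit 450) (nat_lit 5) (nat_lit 472) (nat_lit 5) (nat_lit 451) (nat_lit 5) (nat_lit 423) (nat_lit 390) (nat_lit 327)) (XT.lf (nat_lit 0) (nat_lit 931086113) (nat_lit 1748) (nat_lit 3330065585)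 (nat_lit 76) (nat_lit 3787462054) (nat_lit 427) (nat_lit 5) (nat_lit 450) (nat_lit 5) (nat_lit 428) (nat_lit 5) (nat_lit 424) (nat_lit 390) (nat_lit 326))) (XT.nd (nat_lit 78) (nat_lit 1140) (nat_lit 0) (XT.lf (nat_lit 0) (nat_lit 1401458335) (nat_lit 1748) (nat_lit 1563447487) (nat_lit 1824) (nat_lit 5149320841) (nat_lit 404) (nat_lit 5) (nat_lit 427) (nat_lit 5) (nat_lit 428) (nat_lit 5) (nat_lit 425) (nat_lit 390) (nat_lit 325)) (XT.nd (nat_lit 78) (nat_lit 1140) (nat_lit 0) (XT.lf (nat_lit 0) (nat_lit 5034704453) (nat_lit 1824) (nat_lit 1948542654) (nat_lit 76) (nat_lit 1198011903) (nat_lit 404) (nat_lit 5) (nat_lit 428) (nat_lit 5) (nat_lit 405) (nat_lit 5) (nat_lit 426) (nat_lit 390) (nat_lit 324)) (XT.lf (nat_lit 0) (nat_lit 2906648761) (nat_lit 1140) (nat_lit 4234253976) (nat_lit 1216) (nat_lit 1108842159) (nat_lit 389) (nat_lit 5) (nat_lit 404) (nat_lit 5) (nat_lit 405) (nat_lit 5) (nat_lit 427) (nat_lit 390)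 (nat_lit 323))))) (XT.nd (nat_lit 234) (nat_lit 912) (nat_lit 0) (XT.nd (nat_lit 78) (nat_lit 1748) (nat_lit 0) (XT.lf (nat_lit 0) (nat_lit 936075822) (nat_lit 1216) (nat_lit 472703184) (nat_lit 76) (nat_lit 6911124687) (nat_lit 388) (nat_lit 5) (nat_lit 404) (nat_lit 5) (nat_lit 389) (nat_lit 5) (nat_lit 428) (nat_lit 390) (nat_lit 322)) (XT.nd (nat_lit 78) (nat_lit 836) (nat_lit 0) (XT.lf (nat_lit 0) (nat_lit 3012865445) (nat_lit 988) (nat_lit 3885961809) (nat_lit 76) (nat_lit 1492387627) (nat_lit 376) (nat_lit 5) (nat_lit 389) (nat_lit 5) (nat_lit 377) (nat_lit 5) (nat_lit 429) (nat_lit 390) (nat_lit 321)) (XT.lf (nat_lit 0) (nat_lit 1098164155) (nat_lit 836) (nat_lit 4019809779) (nat_lit 912) (nat_lit 3346254677) (nat_lit 365) (nat_lit 5) (nat_lit 376) (nat_lit 5) (nat_lit 377) (nat_lit 5) (nat_lit 430) (nat_lit 390) (nat_lit 320)))) (XT.nd (nat_lit 78) (nat_lit 912) (nat_lit 0) (XT.lf (nat_lit 0) (nat_lit 6202684541)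 (nat_lit 836) (nat_lit 1056144187) (nat_lit 912) (nat_lit 1280012751) (nat_lit 365) (nat_lit 5) (nat_lit 376) (nat_lit 5) (nat_lit 377) (nat_lit 5) (nat_lit 431) (nat_lit 390) (nat_lit 319)) (XT.nd (nat_lit 78) (nat_lit 0) (nat_lit 0) (XT.lf (nat_lit 0) (nat_lit 815748304) (nat_lit 912) (nat_lit 5834210992) (nat_lit 76) (nat_lit 1964910178) (nat_lit 353) (nat_lit 5) (nat_lit 365) (nat_lit 5) (nat_lit 354) (nat_lit 5) (nat_lit 432) (nat_lit 390) (nat_lit 318)) (XT.lf (nat_lit 0) (nat_lit 2927480595) (nat_lit 912) (nat_lit 708409673) (nat_lit 76) (nat_lit 5056545705) (nat_lit 353) (nat_lit 5) (nat_lit 365) (nat_lit 5) (nat_lit 354) (nat_lit 5) (nat_lit 433) (nat_lit 390) (nat_lit 317)))))) (XT.nd (nat_lit 390) (nat_lit 2964) (nat_lit 0) (XT.nd (nat_lit 156) (nat_lit 836) (nat_lit 0) (XT.nd (nat_lit 78) (nat_lit 836) (nat_lit 0) (XT.lf (nat_lit 0) (nat_lit 4547979202) (nat_lit 836) (nat_lit 532020716) (nat_lit 912) (nat_lit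 3691593685) (nat_lit 342) (nat_lit 5) (nat_lit 353) (nat_lit 5) (nat_lit 354) (nat_lit 5) (nat_lit 434) (nat_lit 390) (nat_lit 316)) (XT.lf (nat_lit 0) (nat_lit 1031266575) (nat_lit 836) (nat_lit 6242307633) (nat_lit 912) (nat_lit 1578810724) (nat_lit 331) (nat_lit 5) (nat_lit 342) (nat_lit 5) (nat_lit 343) (nat_lit 5) (nat_lit 435) (nat_lit 390) (nat_lit 315))) (XT.nd (nat_lit 78) (nat_lit 760) (nat_lit 0) (XT.lf (nat_lit 0) (nat_lit 570329756) (nat_lit 912) (nat_lit 2525369065) (nat_lit 76) (nat_lit 5838995483) (nat_lit 330) (nat_lit 5) (nat_lit 342) (nat_lit 5) (nat_lit 331) (nat_lit 5) (nat_lit 436) (nat_lit 390) (nat_lit 314)) (XT.nd (nat_lit 78) (nat_lit 0) (nat_lit 0) (XT.lf (nat_lit 0) (nat_lit 2731101042) (nat_lit 836) (nat_lit 6147646417) (nat_lit 76) (nat_lit 139907943) (nat_lit 320) (nat_lit 5) (nat_lit 331) (nat_lit 5) (nat_lit 321) (nat_lit 5) (nat_lit 437) (nat_lit 390) (nat_lit 313)) (XT.lf (nat_lit 0)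 (nat_lit 4943217520) (nat_lit 836) (nat_lit 746959499) (nat_lit 76) (nat_lit 3413965936) (nat_lit 320) (nat_lit 5) (nat_lit 331) (nat_lit 5) (nat_lit 321) (nat_lit 5) (nat_lit 438) (nat_lit 390) (nat_lit 312))))) (XT.nd (nat_lit 234) (nat_lit 1444) (nat_lit 0) (XT.nd (nat_lit 78) (nat_lit 760) (nat_lit 0) (XT.lf (nat_lit 0) (nat_lit 4793296492) (nat_lit 760) (nat_lit 2408547827) (nat_lit 836) (nat_lit 1989460215) (nat_lit 310) (nat_lit 5) (nat_lit 320) (nat_lit 5) (nat_lit 321) (nat_lit 5) (nat_lit 439) (nat_lit 390) (nat_lit 311)) (XT.nd (nat_lit 78) (nat_lit 0) (nat_lit 0) (XT.lf (nat_lit 0) (nat_lit 212514390) (nat_lit 760) (nat_lit 8130130229) (nat_lit 76) (nat_lit 937743978) (nat_lit 300) (nat_lit 5) (nat_lit 310) (nat_lit 5) (nat_lit 301) (nat_lit 5) (nat_lit 440) (nat_lit 390) (nat_lit 310)) (XT.lf (nat_lit 0) (nat_lit 2449226258) (nat_lit 760) (nat_lit 2562722509) (nat_lit 76) (nat_lit 4358704914) (nat_lit 300)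 (nat_lit 5) (nat_lit 310) (nat_lit 5) (nat_lit 301) (nat_lit 5) (nat_lit 441) (nat_lit 390) (nat_lit 309)))) (XT.nd (nat_lit 78) (nat_lit 684) (nat_lit 0) (XT.lf (nat_lit 0) (nat_lit 3125809943) (nat_lit 760) (nat_lit 1597365776) (nat_lit 836) (nat_lit 4739707182) (nat_lit 290) (nat_lit 5) (nat_lit 300) (nat_lit 5) (nat_lit 301) (nat_lit 5) (nat_lit 442) (nat_lit 390) (nat_lit 308)) (XT.nd (nat_lit 78) (nat_lit 684) (nat_lit 0) (XT.lf (nat_lit 0) (nat_lit 7044686194) (nat_lit 836) (nat_lit 637665326) (nat_lit 76) (nat_lit 1874572271) (nat_lit 290) (nat_lit 5) (nat_lit 301) (nat_lit 5) (nat_lit 291) (nat_lit 5) (nat_lit 443) (nat_lit 390) (nat_lit 307)) (XT.lf (nat_lit 0) (nat_lit 5202453453) (nat_lit 684) (nat_lit 4227597375) (nat_lit 760) (nat_lit 222454748) (nat_lit 281) (nat_lit 5) (nat_lit 290) (nat_lit 5) (nat_lit 291) (nat_lit 5) (nat_lit 444) (nat_lit 390) (nat_lit 306))))))))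
noncomputable def xc121 : XT := (XT.nd (nat_lit 1716) (nat_lit 5396) (nat_lit 0) (XT.nd (nat_lit 858) (nat_lit 3268) (nat_lit 0) (XT.nd (nat_lit 390) (nat_lit 2432) (nat_lit 0) (XT.nd (nat_lit 156) (nat_lit 1368) (nat_lit 0) (XT.nd (nat_lit 78) (nat_lit 0) (nat_lit 0) (XT.lf (nat_lit 0) (nat_lit 1391516487) (nat_lit 684) (nat_lit 680447051) (nat_lit 760) (nat_lit 7678038209) (nat_lit 271) (nat_lit 5) (nat_lit 280) (nat_lit 5) (nat_lit 281) (nat_lit 5) (nat_lit 445) (nat_lit 390) (nat_lit 305)) (XT.lf (nat_lit 0) (nat_lit 4431935151) (nat_lit 760) (nat_lit 2490750978) (nat_lit 76) (nat_lit 2926287494) (nat_lit 271) (nat_lit 5) (nat_lit 281) (nat_lit 5) (nat_lit 272) (nat_lit 5) (nat_lit 446) (nat_lit 390) (nat_lit 304))) (XT.nd (nat_lit 78) (nat_lit 760) (nat_lit 0) (XT.lf (nat_lit 0) (nat_lit 3505021929) (nat_lit 608) (nat_lit 3335374661) (nat_lit 684) (nat_lit 3109510443) (nat_lit 263) (nat_lit 5) (nat_lit 271) (nat_lit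 5) (nat_lit 272) (nat_lit 5) (nat_lit 447) (nat_lit 390) (nat_lit 303)) (XT.nd (nat_lit 78) (nat_lit 760) (nat_lit 0) (XT.lf (nat_lit 0) (nat_lit 9290259802) (nat_lit 684) (nat_lit 431329373) (nat_lit 76) (nat_lit 331413032) (nat_lit 263) (nat_lit 5) (nat_lit 272) (nat_lit 5) (nat_lit 264) (nat_lit 5) (nat_lit 448) (nat_lit 390) (nat_lit 302)) (XT.lf (nat_lit 0) (nat_lit 1643857927) (nat_lit 760) (nat_lit 4443262809) (nat_lit 76) (nat_lit 4070148468) (nat_lit 253) (nat_lit 5) (nat_lit 263) (nat_lit 5) (nat_lit 254) (nat_lit 5) (nat_lit 449) (nat_lit 390) (nat_lit 301))))) (XT.nd (nat_lit 234) (nat_lit 1216) (nat_lit 0) (XT.nd (nat_lit 78) (nat_lit 608) (nat_lit 0) (XT.lf (nat_lit 0) (nat_lit 1711309421) (nat_lit 608) (nat_lit 2366036967) (nat_lit 684) (nat_lit 6186402234) (nat_lit 245) (nat_lit 5) (nat_lit 253) (nat_lit 5) (nat_lit 254) (nat_lit 5) (nat_lit 450) (nat_lit 390) (nat_lit 300)) (XT.nd (nat_lit 78) (nat_lit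 608) (nat_lit 0) (XT.lf (nat_lit 0) (nat_lit 6573992500) (nat_lit 684) (nat_lit 2362898167) (nat_lit 76) (nat_lit 1435184362) (nat_lit 245) (nat_lit 5) (nat_lit 254) (nat_lit 5) (nat_lit 246) (nat_lit 5) (nat_lit 451) (nat_lit 390) (nat_lit 299)) (XT.lf (nat_lit 0) (nat_lit 3956397507) (nat_lit 608) (nat_lit 5181209850) (nat_lit 684) (nat_lit 1344626910) (nat_lit 237) (nat_lit 5) (nat_lit 245) (nat_lit 5) (nat_lit 246) (nat_lit 5) (nat_lit 452) (nat_lit 390) (nat_lit 298)))) (XT.nd (nat_lit 78) (nat_lit 1140) (nat_lit 0) (XT.lf (nat_lit 0) (nat_lit 1134467970) (nat_lit 684) (nat_lit 198178904) (nat_lit 76) (nat_lit 9261971081) (nat_lit 236) (nat_lit 5) (nat_lit 245) (nat_lit 5) (nat_lit 237) (nat_lit 5) (nat_lit 453) (nat_lit 390) (nat_lit 297)) (XT.nd (nat_lit 78) (nat_lit 608) (nat_lit 0) (XT.lf (nat_lit 0) (nat_lit 3679455322) (nat_lit 608) (nat_lit 4425896698) (nat_lit 76) (nat_lit 2603039848) (nat_lit 229) (nat_lit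 5) (nat_lit 237) (nat_lit 5) (nat_lit 230) (nat_lit 5) (nat_lit 454) (nat_lit 390) (nat_lit 296)) (XT.lf (nat_lit 0) (nat_lit 2059197586) (nat_lit 608) (nat_lit 4216181500) (nat_lit 684) (nat_lit 4549067923) (nat_lit 221) (nat_lit 5) (nat_lit 229) (nat_lit 5) (nat_lit 230) (nat_lit 5) (nat_lit 455) (nat_lit 390) (nat_lit 295)))))) (XT.nd (nat_lit 390) (nat_lit 1596) (nat_lit 0) (XT.nd (nat_lit 156) (nat_lit 1064) (nat_lit 0) (XT.nd (nat_lit 78) (nat_lit 608) (nat_lit 0) (XT.lf (nat_lit 0) (nat_lit 8704156202) (nat_lit 608) (nat_lit 225535083) (nat_lit 684) (nat_lit 2013008927) (nat_lit 221) (nat_lit 5) (nat_lit 229) (nat_lit 5) (nat_lit 230) (nat_lit 5) (nat_lit 456) (nat_lit 390) (nat_lit 294)) (XT.lf (nat_lit 0) (nat_lit 597302431) (nat_lit 608) (nat_lit 6644575844) (nat_lit 76) (nat_lit 3820750681) (nat_lit 213) (nat_lit 5) (nat_lit 221) (nat_lit 5) (nat_lit 214) (nat_lit 5) (nat_lit 457) (nat_lit 390) (nat_lit 293)))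 (XT.nd (nat_lit 78) (nat_lit 532) (nat_lit 0) (XT.lf (nat_lit 0) (nat_lit 8883406) (nat_lit 532) (nat_lit 3217964128) (nat_lit 608) (nat_lit 7957968977) (nat_lit 206) (nat_lit 5) (nat_lit 213) (nat_lit 5) (nat_lit 214) (nat_lit 5) (nat_lit 458) (nat_lit 390) (nat_lit 292)) (XT.nd (nat_lit 78) (nat_lit 532) (nat_lit 0) (XT.lf (nat_lit 0) (nat_lit 5937113752) (nat_lit 608) (nat_lit 4459117995) (nat_lit 76) (nat_lit 912659339) (nat_lit 206) (nat_lit 5) (nat_lit 214) (nat_lit 5) (nat_lit 207) (nat_lit 5) (nat_lit 459) (nat_lit 390) (nat_lit 291)) (XT.lf (nat_lit 0) (nat_lit 2372433170) (nat_lit 532) (nat_lit 6343798947) (nat_lit 608) (nat_lit 2718927856) (nat_lit 199) (nat_lit 5) (nat_lit 206) (nat_lit 5) (nat_lit 207) (nat_lit 5) (nat_lit 460) (nat_lit 390) (nat_lit 290))))) (XT.nd (nat_lit 234) (nat_lit 532) (nat_lit 0) (XT.nd (nat_lit 78) (nat_lit 1064) (nat_lit 0) (XT.lf (nat_lit 0) (nat_lit 9371849212) (nat_lit 532)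 (nat_lit 2187182103) (nat_lit 608) (nat_lit 4766599) (nat_lit 199) (nat_lit 5) (nat_lit 206) (nat_lit 5) (nat_lit 207) (nat_lit 5) (nat_lit 461) (nat_lit 390) (nat_lit 289)) (XT.nd (nat_lit 78) (nat_lit 456) (nat_lit 0) (XT.lf (nat_lit 0) (nat_lit 2750870706) (nat_lit 608) (nat_lit 6875309664) (nat_lit 76) (nat_lit 2068006016) (nat_lit 191) (nat_lit 5) (nat_lit 199) (nat_lit 5) (nat_lit 192) (nat_lit 5) (nat_lit 462) (nat_lit 390) (nat_lit 288)) (XT.lf (nat_lit 0) (nat_lit 130720910) (nat_lit 456) (nat_lit 5439619792) (nat_lit 532) (nat_lit 6256670940) (nat_lit 185) (nat_lit 5) (nat_lit 191) (nat_lit 5) (nat_lit 192) (nat_lit 5) (nat_lit 463) (nat_lit 390) (nat_lit 287)))) (XT.nd (nat_lit 78) (nat_lit 532) (nat_lit 0) (XT.lf (nat_lit 0) (nat_lit 7341137784) (nat_lit 456) (nat_lit 1130073963) (nat_lit 532) (nat_lit 3490786639) (nat_lit 185) (nat_lit 5) (nat_lit 191) (nat_lit 5) (nat_lit 192) (nat_lit 5) (nat_lit 464)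 (nat_lit 390) (nat_lit 286)) (XT.nd (nat_lit 78) (nat_lit 76) (nat_lit 0) (XT.lf (nat_lit 0) (nat_lit 2579978848) (nat_lit 456) (nat_lit 8867314384) (nat_lit 532) (nat_lit 652052883) (nat_lit 179) (nat_lit 5) (nat_lit 185) (nat_lit 5) (nat_lit 186) (nat_lit 5) (nat_lit 465) (nat_lit 390) (nat_lit 285)) (XT.lf (nat_lit 0) (nat_lit 2232049934) (nat_lit 532) (nat_lit 2302427876) (nat_lit 76) (nat_lit 7704316229) (nat_lit 178) (nat_lit 5) (nat_lit 185) (nat_lit 5) (nat_lit 179) (nat_lit 5) (nat_lit 466) (nat_lit 390) (nat_lit 284))))))) (XT.nd (nat_lit 858) (nat_lit 2356) (nat_lit 0) (XT.nd (nat_lit 390) (nat_lit 1672) (nat_lit 0) (XT.nd (nat_lit 156) (nat_lit 456) (nat_lit 0) (XT.nd (nat_lit 78) (nat_lit 456) (nat_lit 0) (XT.lf (nat_lit 0) (nat_lit 5093069749) (nat_lit 456) (nat_lit 84835326) (nat_lit 532) (nat_lit 7202788438) (nat_lit 172) (nat_lit 5) (nat_lit 178) (nat_lit 5) (nat_lit 179) (nat_lit 5) (nat_lit 467) (nat_lit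 390) (nat_lit 283)) (XT.lf (nat_lit 0) (nat_lit 86250408) (nat_lit 456) (nat_lit 8121345501) (nat_lit 532) (nat_lit 4317341418) (nat_lit 166) (nat_lit 5) (nat_lit 172) (nat_lit 5) (nat_lit 173) (nat_lit 5) (nat_lit 468) (nat_lit 390) (nat_lit 282))) (XT.nd (nat_lit 78) (nat_lit 456) (nat_lit 0) (XT.lf (nat_lit 0) (nat_lit 7677578639) (nat_lit 456) (nat_lit 3649863572) (nat_lit 532) (nat_lit 1344037205) (nat_lit 166) (nat_lit 5) (nat_lit 172) (nat_lit 5) (nat_lit 173) (nat_lit 5) (nat_lit 469) (nat_lit 390) (nat_lit 281)) (XT.nd (nat_lit 78) (nat_lit 0) (nat_lit 0) (XT.lf (nat_lit 0) (nat_lit 1669834475) (nat_lit 456) (nat_lit 10231941118) (nat_lit 76) (nat_lit 918896927) (nat_lit 160) (nat_lit 5) (nat_lit 166) (nat_lit 5) (nat_lit 161) (nat_lit 5) (nat_lit 470) (nat_lit 390) (nat_lit 280)) (XT.lf (nat_lit 0) (nat_lit 4764415728) (nat_lit 456) (nat_lit 2642870261) (nat_lit 76) (nat_lit 5564621604) (nat_lit 160) (nat_lit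 5) (nat_lit 166) (nat_lit 5) (nat_lit 161) (nat_lit 5) (nat_lit 471) (nat_lit 390) (nat_lit 279))))) (XT.nd (nat_lit 234) (nat_lit 760) (nat_lit 0) (XT.nd (nat_lit 78) (nat_lit 456) (nat_lit 0) (XT.lf (nat_lit 0) (nat_lit 5137809672) (nat_lit 456) (nat_lit 2797326274) (nat_lit 532) (nat_lit 5190750752) (nat_lit 154) (nat_lit 5) (nat_lit 160) (nat_lit 5) (nat_lit 161) (nat_lit 5) (nat_lit 472) (nat_lit 390) (nat_lit 278)) (XT.nd (nat_lit 78) (nat_lit 456) (nat_lit 0) (XT.lf (nat_lit 0) (nat_lit 11180521838) (nat_lit 532) (nat_lit 212849454) (nat_lit 76) (nat_lit 1889353264) (nat_lit 154) (nat_lit 5) (nat_lit 161) (nat_lit 5) (nat_lit 155) (nat_lit 5) (nat_lit 473) (nat_lit 390) (nat_lit 277)) (XT.lf (nat_lit 0) (nat_lit 1085103377) (nat_lit 456) (nat_lit 5674675948) (nat_lit 76) (nat_lit 6681773107) (nat_lit 148) (nat_lit 5) (nat_lit 154) (nat_lit 5) (nat_lit 149) (nat_lit 5) (nat_lit 474) (nat_lit 390) (nat_lit 276))))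 (XT.nd (nat_lit 78) (nat_lit 380) (nat_lit 0) (XT.lf (nat_lit 0) (nat_lit 2294484835) (nat_lit 380) (nat_lit 2011350537) (nat_lit 456) (nat_lit 9297490969) (nat_lit 143) (nat_lit 5) (nat_lit 148) (nat_lit 5) (nat_lit 149) (nat_lit 5) (nat_lit 475) (nat_lit 390) (nat_lit 275)) (XT.nd (nat_lit 78) (nat_lit 380) (nat_lit 0) (XT.lf (nat_lit 0) (nat_lit 7629299873) (nat_lit 456) (nat_lit 3313628677) (nat_lit 76) (nat_lit 2824644696) (nat_lit 143) (nat_lit 5) (nat_lit 149) (nat_lit 5) (nat_lit 144) (nat_lit 5) (nat_lit 476) (nat_lit 390) (nat_lit 274)) (XT.lf (nat_lit 0) (nat_lit 4865146658) (nat_lit 380) (nat_lit 6180953878) (nat_lit 456) (nat_lit 2888471015) (nat_lit 138) (nat_lit 5) (nat_lit 143) (nat_lit 5) (nat_lit 144) (nat_lit 5) (nat_lit 477) (nat_lit 390) (nat_lit 273)))))) (XT.nd (nat_lit 390) (nat_lit 1140) (nat_lit 0) (XT.nd (nat_lit 156) (nat_lit 760) (nat_lit 0) (XT.nd (nat_lit 78) (nat_lit 380) (nat_lit 0) (XT.lf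 (nat_lit 0) (nat_lit 425137140) (nat_lit 456) (nat_lit 881860692) (nat_lit 76) (nat_lit 12797772259) (nat_lit 137) (nat_lit 5) (nat_lit 143) (nat_lit 5) (nat_lit 138) (nat_lit 5) (nat_lit 478) (nat_lit 390) (nat_lit 272)) (XT.lf (nat_lit 0) (nat_lit 3821774432) (nat_lit 456) (nat_lit 6778935971) (nat_lit 76) (nat_lit 3676175249) (nat_lit 132) (nat_lit 5) (nat_lit 138) (nat_lit 5) (nat_lit 133) (nat_lit 5) (nat_lit 479) (nat_lit 390) (nat_lit 271))) (XT.nd (nat_lit 78) (nat_lit 380) (nat_lit 0) (XT.lf (nat_lit 0) (nat_lit 1590661992) (nat_lit 380) (nat_lit 5703111783) (nat_lit 456) (nat_lit 7158524673) (nat_lit 127) (nat_lit 5) (nat_lit 132) (nat_lit 5) (nat_lit 133) (nat_lit 5) (nat_lit 480) (nat_lit 390) (nat_lit 270)) (XT.nd (nat_lit 78) (nat_lit 380) (nat_lit 0) (XT.lf (nat_lit 0) (nat_lit 10193226486) (nat_lit 380) (nat_lit 670138459) (nat_lit 456) (nat_lit 3767294960) (nat_lit 127) (nat_lit 5) (nat_lit 132) (nat_lit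 5) (nat_lit 133) (nat_lit 5) (nat_lit 481) (nat_lit 390) (nat_lit 269)) (XT.lf (nat_lit 0) (nat_lit 4154677156) (nat_lit 380) (nat_lit 10388570102) (nat_lit 456) (nat_lit 268566718) (nat_lit 122) (nat_lit 5) (nat_lit 127) (nat_lit 5) (nat_lit 128) (nat_lit 5) (nat_lit 482) (nat_lit 390) (nat_lit 268))))) (XT.nd (nat_lit 234) (nat_lit 380) (nat_lit 0) (XT.nd (nat_lit 78) (nat_lit 684) (nat_lit 0) (XT.lf (nat_lit 0) (nat_lit 3274262419) (nat_lit 456) (nat_lit 2069420436) (nat_lit 76) (nat_lit 9652134820) (nat_lit 121) (nat_lit 5) (nat_lit 127) (nat_lit 5) (nat_lit 122) (nat_lit 5) (nat_lit 483) (nat_lit 390) (nat_lit 267)) (XT.nd (nat_lit 78) (nat_lit 380) (nat_lit 0) (XT.lf (nat_lit 0) (nat_lit 6751183796) (nat_lit 304) (nat_lit 160333673) (nat_lit 380) (nat_lit 8271408343) (nat_lit 117) (nat_lit 5) (nat_lit 121) (nat_lit 5) (nat_lit 122) (nat_lit 5) (nat_lit 484) (nat_lit 390) (nat_lit 266)) (XT.lf (nat_lit 0) (nat_lit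 348204819) (nat_lit 380) (nat_lit 10306270620) (nat_lit 456) (nat_lit 4718644633) (nat_lit 112) (nat_lit 5) (nat_lit 117) (nat_lit 5) (nat_lit 118) (nat_lit 5) (nat_lit 485) (nat_lit 390) (nat_lit 265)))) (XT.nd (nat_lit 78) (nat_lit 380) (nat_lit 0) (XT.lf (nat_lit 0) (nat_lit 9391401039) (nat_lit 380) (nat_lit 5122118986) (nat_lit 456) (nat_lit 1052776698) (nat_lit 112) (nat_lit 5) (nat_lit 117) (nat_lit 5) (nat_lit 118) (nat_lit 5) (nat_lit 486) (nat_lit 390) (nat_lit 264)) (XT.nd (nat_lit 78) (nat_lit 0) (nat_lit 0) (XT.lf (nat_lit 0) (nat_lit 2654717032) (nat_lit 380) (nat_lit 12917467335) (nat_lit 76) (nat_lit 190735814) (nat_lit 107) (nat_lit 5) (nat_lit 112) (nat_lit 5) (nat_lit 108) (nat_lit 5) (nat_lit 487) (nat_lit 390) (nat_lit 263)) (XT.lf (nat_lit 0) (nat_lit 6481808682) (nat_lit 380) (nat_lit 3899287850) (nat_lit 76) (nat_lit 5581052383) (nat_lit 107) (nat_lit 5) (nat_lit 112) (nat_lit 5) (nat_lit 108)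 (nat_lit 5) (nat_lit 488) (nat_lit 390) (nat_lit 262))))))))
noncomputable def xc122 : XT := (XT.nd (nat_lit 52182) (nat_lit 0) (nat_lit 33516) (XT.nd (nat_lit 858) (nat_lit 836) (nat_lit 0) (XT.nd (nat_lit 390) (nat_lit 988) (nat_lit 0) (XT.nd (nat_lit 156) (nat_lit 684) (nat_lit 0) (XT.nd (nat_lit 78) (nat_lit 0) (nat_lit 0) (XT.lf (nat_lit 0) (nat_lit 5344463135) (nat_lit 304) (nat_lit 5059893548) (nat_lit 380) (nat_lit 5760630075) (nat_lit 103) (nat_lit 5) (nat_lit 107) (nat_lit 5) (nat_lit 108) (nat_lit 5) (nat_lit 489) (nat_lit 390) (nat_lit 261)) (XT.lf (nat_lit 0) (nat_lit 14418387506) (nat_lit 380) (nat_lit 1572952337) (nat_lit 76) (nat_lit 380283642) (nat_lit 103) (nat_lit 5) (nat_lit 108) (nat_lit 5) (nat_lit 104) (nat_lit 5) (nat_lit 490) (nat_lit 390) (nat_lit 260))) (XT.nd (nat_lit 78) (nat_lit 304) (nat_lit 0) (XT.lf (nat_lit 0) (nat_lit 1974894774) (nat_lit 380) (nat_lit 8688748188) (nat_lit 76) (nat_lit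 5917103887) (nat_lit 98) (nat_lit 5) (nat_lit 103) (nat_lit 5) (nat_lit 99) (nat_lit 5) (nat_lit 491) (nat_lit 390) (nat_lit 259)) (XT.nd (nat_lit 78) (nat_lit 0) (nat_lit 0) (XT.lf (nat_lit 0) (nat_lit 745973073) (nat_lit 304) (nat_lit 5209606953) (nat_lit 380) (nat_lit 10838214131) (nat_lit 94) (nat_lit 5) (nat_lit 98) (nat_lit 5) (nat_lit 99) (nat_lit 5) (nat_lit 492) (nat_lit 390) (nat_lit 258)) (XT.lf (nat_lit 0) (nat_lit 10061602240) (nat_lit 380) (nat_lit 6550070474) (nat_lit 76) (nat_lit 398517787) (nat_lit 94) (nat_lit 5) (nat_lit 99) (nat_lit 5) (nat_lit 95) (nat_lit 5) (nat_lit 493) (nat_lit 390) (nat_lit 257))))) (XT.nd (nat_lit 234) (nat_lit 304) (nat_lit 0) (XT.nd (nat_lit 78) (nat_lit 380) (nat_lit 0) (XT.lf (nat_lit 0) (nat_lit 3119915574) (nat_lit 304) (nat_lit 11169621719) (nat_lit 380) (nat_lit 2940584137) (nat_lit 90) (nat_lit 5) (nat_lit 94) (nat_lit 5) (nat_lit 95) (nat_lit 5) (nat_lit 494) (nat_lit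 390) (nat_lit 256)) (XT.nd (nat_lit 78) (nat_lit 304) (nat_lit 0) (XT.lf (nat_lit 0) (nat_lit 1161847114) (nat_lit 380) (nat_lit 4413403671) (nat_lit 76) (nat_lit 11878467230) (nat_lit 89) (nat_lit 5) (nat_lit 94) (nat_lit 5) (nat_lit 90) (nat_lit 5) (nat_lit 495) (nat_lit 390) (nat_lit 255)) (XT.lf (nat_lit 0) (nat_lit 5329262784) (nat_lit 380) (nat_lit 12175761977) (nat_lit 76) (nat_lit 175929183) (nat_lit 85) (nat_lit 5) (nat_lit 90) (nat_lit 5) (nat_lit 86) (nat_lit 5) (nat_lit 496) (nat_lit 390) (nat_lit 254)))) (XT.nd (nat_lit 78) (nat_lit 304) (nat_lit 0) (XT.lf (nat_lit 0) (nat_lit 9632201628) (nat_lit 380) (nat_lit 2291058872) (nat_lit 76) (nat_lit 5988432910) (nat_lit 85) (nat_lit 5) (nat_lit 90) (nat_lit 5) (nat_lit 86) (nat_lit 5) (nat_lit 497) (nat_lit 390) (nat_lit 253)) (XT.nd (nat_lit 78) (nat_lit 76) (nat_lit 0) (XT.lf (nat_lit 0) (nat_lit 7871254898) (nat_lit 228) (nat_lit 6186775520) (nat_lit 304)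 (nat_lit 4088282894) (nat_lit 82) (nat_lit 5) (nat_lit 85) (nat_lit 5) (nat_lit 86) (nat_lit 5) (nat_lit 498) (nat_lit 390) (nat_lit 252)) (XT.lf (nat_lit 0) (nat_lit 185536324) (nat_lit 304) (nat_lit 142115956) (nat_lit 76) (nat_lit 18057926554) (nat_lit 81) (nat_lit 5) (nat_lit 85) (nat_lit 5) (nat_lit 82) (nat_lit 5) (nat_lit 499) (nat_lit 390) (nat_lit 251)))))) (XT.nd (nat_lit 50856) (nat_lit 0) (nat_lit 42484) (XT.nd (nat_lit 156) (nat_lit 304) (nat_lit 0) (XT.nd (nat_lit 78) (nat_lit 228) (nat_lit 0) (XT.lf (nat_lit 0) (nat_lit 4580151292) (nat_lit 380) (nat_lit 8386956740) (nat_lit 76) (nat_lit 5660182073) (nat_lit 77) (nat_lit 5) (nat_lit 82) (nat_lit 5) (nat_lit 78) (nat_lit 5) (nat_lit 500) (nat_lit 390) (nat_lit 250)) (XT.lf (nat_lit 0) (nat_lit 1959092471) (nat_lit 228) (nat_lit 7105522522) (nat_lit 304) (nat_lit 9809183579) (nat_lit 74) (nat_lit 5) (nat_lit 77) (nat_lit 5) (nat_lit 78) (nat_lit 5) (nat_lit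 501) (nat_lit 390) (nat_lit 249))) (XT.nd (nat_lit 78) (nat_lit 304) (nat_lit 0) (XT.lf (nat_lit 0) (nat_lit 12602934426) (nat_lit 228) (nat_lit 1078345552) (nat_lit 304) (nat_lit 5443109045) (nat_lit 74) (nat_lit 5) (nat_lit 77) (nat_lit 5) (nat_lit 78) (nat_lit 5) (nat_lit 502) (nat_lit 390) (nat_lit 248)) (XT.nd (nat_lit 78) (nat_lit 76) (nat_lit 0) (XT.lf (nat_lit 0) (nat_lit 4077644543) (nat_lit 228) (nat_lit 14358465745) (nat_lit 304) (nat_lit 942966370) (nat_lit 71) (nat_lit 5) (nat_lit 74) (nat_lit 5) (nat_lit 75) (nat_lit 5) (nat_lit 503) (nat_lit 390) (nat_lit 247)) (XT.lf (nat_lit 0) (nat_lit 3637012049) (nat_lit 304) (nat_lit 4714584009) (nat_lit 76) (nat_lit 11286037000) (nat_lit 70) (nat_lit 5) (nat_lit 74) (nat_lit 5) (nat_lit 71) (nat_lit 5) (nat_lit 504) (nat_lit 390) (nat_lit 246))))) (XT.nd (nat_lit 234) (nat_lit 760) (nat_lit 0) (XT.nd (nat_lit 78) (nat_lit 836) (nat_lit 0) (XT.lf (nat_lit 0) (nat_lit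 1569451013) (nat_lit 0) (nat_lit 1569451013) (nat_lit 684) (nat_lit 198669672) (nat_lit 650) (nat_lit 5) (nat_lit 650) (nat_lit 3) (nat_lit 659) (nat_lit 3) (nat_lit 391) (nat_lit 391) (nat_lit 358)) (XT.nd (nat_lit 78) (nat_lit 0) (nat_lit 0) (XT.lf (nat_lit 0) (nat_lit 1796532266) (nat_lit 836) (nat_lit 312151419) (nat_lit 836) (nat_lit 4588275974) (nat_lit 639) (nat_lit 3) (nat_lit 650) (nat_lit 3) (nat_lit 650) (nat_lit 5) (nat_lit 392) (nat_lit 391) (nat_lit 357)) (XT.lf (nat_lit 76) (nat_lit 2983572922) (nat_lit 0) (nat_lit 1007252114) (nat_lit 836) (nat_lit 2729127186) (nat_lit 640) (nat_lit 5) (nat_lit 639) (nat_lit 3) (nat_lit 650) (nat_lit 5) (nat_lit 393) (nat_lit 391) (nat_lit 356)))) (XT.nd (nat_lit 78) (nat_lit 836) (nat_lit 0) (XT.lf (nat_lit 0) (nat_lit 6175470972) (nat_lit 760) (nat_lit 425179836) (nat_lit 836) (nat_lit 143853687) (nat_lit 640) (nat_lit 5) (nat_lit 650) (nat_lit 5) (nat_lit 651) (nat_lit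 5) (nat_lit 394) (nat_lit 391) (nat_lit 355)) (XT.nd (nat_lit 78) (nat_lit 0) (nat_lit 0) (XT.lf (nat_lit 0) (nat_lit 1583167845) (nat_lit 836) (nat_lit 3826153744) (nat_lit 912) (nat_lit 1360635290) (nat_lit 629) (nat_lit 5) (nat_lit 640) (nat_lit 5) (nat_lit 641) (nat_lit 5) (nat_lit 395) (nat_lit 391) (nat_lit 354)) (XT.lf (nat_lit 0) (nat_lit 3718886460) (nat_lit 836) (nat_lit 444172210) (nat_lit 912) (nat_lit 2633850083) (nat_lit 629) (nat_lit 5) (nat_lit 640) (nat_lit 5) (nat_lit 641) (nat_lit 5) (nat_lit 396) (nat_lit 391) (nat_lit 353))))))) (XT.nd (nat_lit 858) (nat_lit 6156) (nat_lit 0) (XT.nd (nat_lit 390) (nat_lit 988) (nat_lit 0) (XT.nd (nat_lit 156) (nat_lit 912) (nat_lit 0) (XT.nd (nat_lit 78) (nat_lit 912) (nat_lit 0) (XT.lf (nat_lit 76) (nat_lit 3015137310) (nat_lit 0) (nat_lit 2848046035) (nat_lit 912) (nat_lit 961926022) (nat_lit 630) (nat_lit 5) (nat_lit 629) (nat_lit 5) (nat_lit 641) (nat_lit 5)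 (nat_lit 397) (nat_lit 391) (nat_lit 352)) (XT.lf (nat_lit 0) (nat_lit 1130572460) (nat_lit 912) (nat_lit 342341243) (nat_lit 988) (nat_lit 5381835406) (nat_lit 617) (nat_lit 5) (nat_lit 629) (nat_lit 5) (nat_lit 630) (nat_lit 5) (nat_lit 398) (nat_lit 391) (nat_lit 351))) (XT.nd (nat_lit 78) (nat_lit 912) (nat_lit 0) (XT.lf (nat_lit 76) (nat_lit 3200449627) (nat_lit 0) (nat_lit 20198388) (nat_lit 988) (nat_lit 3664859742) (nat_lit 618) (nat_lit 5) (nat_lit 617) (nat_lit 5) (nat_lit 630) (nat_lit 5) (nat_lit 399) (nat_lit 391) (nat_lit 350)) (XT.nd (nat_lit 78) (nat_lit 988) (nat_lit 0) (XT.lf (nat_lit 0) (nat_lit 5313115151) (nat_lit 912) (nat_lit 138397346) (nat_lit 988) (nat_lit 1466182205) (nat_lit 618) (nat_lit 5) (nat_lit 630) (nat_lit 5) (nat_lit 631) (nat_lit 5) (nat_lit 400) (nat_lit 391) (nat_lit 349)) (XT.lf (nat_lit 0) (nat_lit 462799707) (nat_lit 988) (nat_lit 3459435696) (nat_lit 1064) (nat_lit 3028801206)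 (nat_lit 605) (nat_lit 5) (nat_lit 618) (nat_lit 5) (nat_lit 619) (nat_lit 5) (nat_lit 401) (nat_lit 391) (nat_lit 348))))) (XT.nd (nat_lit 234) (nat_lit 988) (nat_lit 0) (XT.nd (nat_lit 78) (nat_lit 0) (nat_lit 0) (XT.lf (nat_lit 76) (nat_lit 171995292) (nat_lit 0) (nat_lit 2330348658) (nat_lit 1064) (nat_lit 4483466714) (nat_lit 606) (nat_lit 5) (nat_lit 605) (nat_lit 5) (nat_lit 619) (nat_lit 5) (nat_lit 402) (nat_lit 391) (nat_lit 347)) (XT.nd (nat_lit 78) (nat_lit 0) (nat_lit 76) (XT.lf (nat_lit 76) (nat_lit 3892473957) (nat_lit 0) (nat_lit 664428812) (nat_lit 1064) (nat_lit 2464915983) (nat_lit 606) (nat_lit 5) (nat_lit 605) (nat_lit 5) (nat_lit 619) (nat_lit 5) (nat_lit 403) (nat_lit 391) (nat_lit 346)) (XT.lf (nat_lit 76) (nat_lit 598974164) (nat_lit 0) (nat_lit 6016273736) (nat_lit 1064) (nat_lit 444067775) (nat_lit 607) (nat_lit 5) (nat_lit 606) (nat_lit 5) (nat_lit 620) (nat_lit 5) (nat_lit 404) (nat_lit 391)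 (nat_lit 345)))) (XT.nd (nat_lit 78) (nat_lit 0) (nat_lit 0) (XT.lf (nat_lit 0) (nat_lit 1574019308) (nat_lit 1064) (nat_lit 2699330382) (nat_lit 1140) (nat_lit 2824463914) (nat_lit 592) (nat_lit 5) (nat_lit 606) (nat_lit 5) (nat_lit 607) (nat_lit 5) (nat_lit 405) (nat_lit 391) (nat_lit 344)) (XT.nd (nat_lit 78) (nat_lit 0) (nat_lit 0) (XT.lf (nat_lit 76) (nat_lit 1117809363) (nat_lit 0) (nat_lit 2469400269) (nat_lit 1140) (nat_lit 3550620675) (nat_lit 593) (nat_lit 5) (nat_lit 592) (nat_lit 5) (nat_lit 607) (nat_lit 5) (nat_lit 406) (nat_lit 391) (nat_lit 343)) (XT.lf (nat_lit 76) (nat_lit 5017273710) (nat_lit 0) (nat_lit 595642944) (nat_lit 1140) (nat_lit 1566306490) (nat_lit 593) (nat_lit 5) (nat_lit 592) (nat_lit 5) (nat_lit 607) (nat_lit 5) (nat_lit 407) (nat_lit 391) (nat_lit 342)))))) (XT.nd (nat_lit 390) (nat_lit 3952) (nat_lit 0) (XT.nd (nat_lit 156) (nat_lit 1140) (nat_lit 0) (XT.nd (nat_lit 78) (nat_lit 0)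 (nat_lit 0) (XT.lf (nat_lit 0) (nat_lit 426589048) (nat_lit 1140) (nat_lit 5468012059) (nat_lit 1216) (nat_lit 1327305388) (nat_lit 578) (nat_lit 5) (nat_lit 593) (nat_lit 5) (nat_lit 594) (nat_lit 5) (nat_lit 408) (nat_lit 391) (nat_lit 341)) (XT.lf (nat_lit 0) (nat_lit 2412440289) (nat_lit 1140) (nat_lit 1533637831) (nat_lit 1216) (nat_lit 3319696568) (nat_lit 578) (nat_lit 5) (nat_lit 593) (nat_lit 5) (nat_lit 594) (nat_lit 5) (nat_lit 409) (nat_lit 391) (nat_lit 340))) (XT.nd (nat_lit 78) (nat_lit 1140) (nat_lit 0) (XT.lf (nat_lit 76) (nat_lit 2481149081) (nat_lit 0) (nat_lit 1929343719) (nat_lit 1216) (nat_lit 2900597029) (nat_lit 579) (nat_lit 5) (nat_lit 578) (nat_lit 5) (nat_lit 594) (nat_lit 5) (nat_lit 410) (nat_lit 391) (nat_lit 339)) (XT.nd (nat_lit 78) (nat_lit 1216) (nat_lit 0) (XT.lf (nat_lit 0) (nat_lit 6416807147) (nat_lit 1140) (nat_lit 792553543) (nat_lit 76) (nat_lit 148603457) (nat_lit 579) (nat_lit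 5) (nat_lit 594) (nat_lit 5) (nat_lit 580) (nat_lit 5) (nat_lit 411) (nat_lit 391) (nat_lit 338)) (XT.lf (nat_lit 0) (nat_lit 1035854784) (nat_lit 1216) (nat_lit 4087296723) (nat_lit 76) (nat_lit 2282660247) (nat_lit 563) (nat_lit 5) (nat_lit 579) (nat_lit 5) (nat_lit 564) (nat_lit 5) (nat_lit 412) (nat_lit 391) (nat_lit 337))))) (XT.nd (nat_lit 234) (nat_lit 1444) (nat_lit 0) (XT.nd (nat_lit 78) (nat_lit 1292) (nat_lit 0) (XT.lf (nat_lit 0) (nat_lit 30854160) (nat_lit 1216) (nat_lit 2972801686) (nat_lit 1292) (nat_lit 4451576826) (nat_lit 547) (nat_lit 5) (nat_lit 563) (nat_lit 5) (nat_lit 564) (nat_lit 5) (nat_lit 413) (nat_lit 391) (nat_lit 336)) (XT.nd (nat_lit 78) (nat_lit 1292) (nat_lit 0) (XT.lf (nat_lit 0) (nat_lit 4255657751) (nat_lit 1216) (nat_lit 741484363) (nat_lit 1292) (nat_lit 2508790762) (nat_lit 547) (nat_lit 5) (nat_lit 563) (nat_lit 5) (nat_lit 564) (nat_lit 5) (nat_lit 414) (nat_lit 391) (nat_lit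 335)) (XT.lf (nat_lit 0) (nat_lit 978793531) (nat_lit 1292) (nat_lit 6027792961) (nat_lit 1368) (nat_lit 551555934) (nat_lit 530) (nat_lit 5) (nat_lit 547) (nat_lit 5) (nat_lit 548) (nat_lit 5) (nat_lit 415) (nat_lit 391) (nat_lit 334)))) (XT.nd (nat_lit 78) (nat_lit 1368) (nat_lit 0) (XT.lf (nat_lit 0) (nat_lit 1412818390) (nat_lit 1368) (nat_lit 2320625329) (nat_lit 76) (nat_lit 3878042399) (nat_lit 529) (nat_lit 5) (nat_lit 547) (nat_lit 5) (nat_lit 530) (nat_lit 5) (nat_lit 416) (nat_lit 391) (nat_lit 333)) (XT.nd (nat_lit 78) (nat_lit 0) (nat_lit 0) (XT.lf (nat_lit 0) (nat_lit 2014936876) (nat_lit 1368) (nat_lit 1368107917) (nat_lit 1444) (nat_lit 4283316101) (nat_lit 511) (nat_lit 5) (nat_lit 529) (nat_lit 5) (nat_lit 530) (nat_lit 5) (nat_lit 417) (nat_lit 391) (nat_lit 332)) (XT.lf (nat_lit 0) (nat_lit 5376610566) (nat_lit 1444) (nat_lit 1291981417) (nat_lit 76) (nat_lit 1054078292) (nat_lit 511) (nat_lit 5)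 (nat_lit 530) (nat_lit 5) (nat_lit 512) (nat_lit 5) (nat_lit 418) (nat_lit 391) (nat_lit 331))))))))
noncomputable def xc123 : XT := (XT.nd (nat_lit 1716) (nat_lit 8436) (nat_lit 0) (XT.nd (nat_lit 858) (nat_lit 5092) (nat_lit 0) (XT.nd (nat_lit 390) (nat_lit 5624) (nat_lit 0) (XT.nd (nat_lit 156) (nat_lit 3116) (nat_lit 0) (XT.nd (nat_lit 78) (nat_lit 76) (nat_lit 0) (XT.lf (nat_lit 0) (nat_lit 3155860001) (nat_lit 1444) (nat_lit 4245970536) (nat_lit 1520) (nat_lit 378455147) (nat_lit 492) (nat_lit 5) (nat_lit 511) (nat_lit 5) (nat_lit 512) (nat_lit 5) (nat_lit 419) (nat_lit 391) (nat_lit 330)) (XT.lf (nat_lit 0) (nat_lit 1578381622) (nat_lit 1520) (nat_lit 170767094) (nat_lit 76) (nat_lit 6090283348) (nat_lit 491) (nat_lit 5) (nat_lit 511) (nat_lit 5) (nat_lit 492) (nat_lit 5) (nat_lit 420) (nat_lit 391) (nat_lit 329))) (XT.nd (nat_lit 78) (nat_lit 1596) (nat_lit 0) (XT.lf (nat_lit 0) (nat_lit 3566504896) (nat_lit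 1596) (nat_lit 3509007735) (nat_lit 76) (nat_lit 824268967) (nat_lit 471) (nat_lit 5) (nat_lit 492) (nat_lit 5) (nat_lit 472) (nat_lit 5) (nat_lit 421) (nat_lit 391) (nat_lit 328)) (XT.nd (nat_lit 78) (nat_lit 0) (nat_lit 0) (XT.lf (nat_lit 0) (nat_lit 1055411494) (nat_lit 1596) (nat_lit 4522373301) (nat_lit 1672) (nat_lit 2383899761) (nat_lit 450) (nat_lit 5) (nat_lit 471) (nat_lit 5) (nat_lit 472) (nat_lit 5) (nat_lit 422) (nat_lit 391) (nat_lit 327)) (XT.lf (nat_lit 0) (nat_lit 5727506817) (nat_lit 1596) (nat_lit 1889642493) (nat_lit 1672) (nat_lit 407933119) (nat_lit 450) (nat_lit 5) (nat_lit 471) (nat_lit 5) (nat_lit 472) (nat_lit 5) (nat_lit 423) (nat_lit 391) (nat_lit 326))))) (XT.nd (nat_lit 234) (nat_lit 2128) (nat_lit 0) (XT.nd (nat_lit 78) (nat_lit 1748) (nat_lit 0) (XT.lf (nat_lit 0) (nat_lit 1572139630) (nat_lit 1748) (nat_lit 5702115120) (nat_lit 76) (nat_lit 815584852) (nat_lit 427) (nat_lit 5) (nat_lit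 450) (nat_lit 5) (nat_lit 428) (nat_lit 5) (nat_lit 424) (nat_lit 391) (nat_lit 325)) (XT.nd (nat_lit 78) (nat_lit 1748) (nat_lit 0) (XT.lf (nat_lit 0) (nat_lit 3579673075) (nat_lit 1748) (nat_lit 1004603933) (nat_lit 76) (nat_lit 3571707780) (nat_lit 427) (nat_lit 5) (nat_lit 450) (nat_lit 5) (nat_lit 428) (nat_lit 5) (nat_lit 425) (nat_lit 391) (nat_lit 324)) (XT.lf (nat_lit 0) (nat_lit 3805813210) (nat_lit 1748) (nat_lit 1812216706) (nat_lit 1824) (nat_lit 2605622473) (nat_lit 404) (nat_lit 5) (nat_lit 427) (nat_lit 5) (nat_lit 428) (nat_lit 5) (nat_lit 426) (nat_lit 391) (nat_lit 323)))) (XT.nd (nat_lit 78) (nat_lit 988) (nat_lit 0) (XT.lf (nat_lit 0) (nat_lit 400679387) (nat_lit 1140) (nat_lit 7278902808) (nat_lit 1216) (nat_lit 613455294) (nat_lit 389) (nat_lit 5) (nat_lit 404) (nat_lit 5) (nat_lit 405) (nat_lit 5) (nat_lit 427) (nat_lit 391) (nat_lit 322)) (XT.nd (nat_lit 78) (nat_lit 912) (nat_lit 0) (XT.lf (nat_lit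 0) (nat_lit 1408466760) (nat_lit 1216) (nat_lit 3040877110) (nat_lit 76) (nat_lit 3914124112) (nat_lit 388) (nat_lit 5) (nat_lit 404) (nat_lit 5) (nat_lit 389) (nat_lit 5) (nat_lit 428) (nat_lit 391) (nat_lit 321)) (XT.lf (nat_lit 0) (nat_lit 1897371852) (nat_lit 912) (nat_lit 1544893742) (nat_lit 988) (nat_lit 4993379323) (nat_lit 376) (nat_lit 5) (nat_lit 388) (nat_lit 5) (nat_lit 389) (nat_lit 5) (nat_lit 429) (nat_lit 391) (nat_lit 320)))))) (XT.nd (nat_lit 390) (nat_lit 2508) (nat_lit 0) (XT.nd (nat_lit 156) (nat_lit 1748) (nat_lit 0) (XT.nd (nat_lit 78) (nat_lit 836) (nat_lit 0) (XT.lf (nat_lit 0) (nat_lit 5514260537) (nat_lit 988) (nat_lit 1574135152) (nat_lit 76) (nat_lit 1420931045) (nat_lit 376) (nat_lit 5) (nat_lit 389) (nat_lit 5) (nat_lit 377) (nat_lit 5) (nat_lit 430) (nat_lit 391) (nat_lit 319)) (XT.lf (nat_lit 0) (nat_lit 3493952636) (nat_lit 836) (nat_lit 4135065561) (nat_lit 912) (nat_lit 955449047)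 (nat_lit 365) (nat_lit 5) (nat_lit 376) (nat_lit 5) (nat_lit 377) (nat_lit 5) (nat_lit 431) (nat_lit 391) (nat_lit 318))) (XT.nd (nat_lit 78) (nat_lit 1672) (nat_lit 0) (XT.lf (nat_lit 0) (nat_lit 1089448718) (nat_lit 912) (nat_lit 14683643) (nat_lit 76) (nat_lit 7557258344) (nat_lit 364) (nat_lit 5) (nat_lit 376) (nat_lit 5) (nat_lit 365) (nat_lit 5) (nat_lit 432) (nat_lit 391) (nat_lit 317)) (XT.nd (nat_lit 78) (nat_lit 836) (nat_lit 0) (XT.lf (nat_lit 0) (nat_lit 3178580299) (nat_lit 912) (nat_lit 3558932401) (nat_lit 76) (nat_lit 2001901889) (nat_lit 353) (nat_lit 5) (nat_lit 365) (nat_lit 5) (nat_lit 354) (nat_lit 5) (nat_lit 433) (nat_lit 391) (nat_lit 316)) (XT.lf (nat_lit 0) (nat_lit 1644045667) (nat_lit 836) (nat_lit 3653165664) (nat_lit 912) (nat_lit 3522043919) (nat_lit 342) (nat_lit 5) (nat_lit 353) (nat_lit 5) (nat_lit 354) (nat_lit 5) (nat_lit 434) (nat_lit 391) (nat_lit 315))))) (XT.nd (nat_lit 234) (nat_lit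 1596) (nat_lit 0) (XT.nd (nat_lit 78) (nat_lit 912) (nat_lit 0) (XT.lf (nat_lit 0) (nat_lit 6968572329) (nat_lit 836) (nat_lit 483552026) (nat_lit 912) (nat_lit 1448700613) (nat_lit 342) (nat_lit 5) (nat_lit 353) (nat_lit 5) (nat_lit 354) (nat_lit 5) (nat_lit 435) (nat_lit 391) (nat_lit 314)) (XT.nd (nat_lit 78) (nat_lit 0) (nat_lit 0) (XT.lf (nat_lit 0) (nat_lit 668045787) (nat_lit 912) (nat_lit 5576504880) (nat_lit 76) (nat_lit 2739185493) (nat_lit 330) (nat_lit 5) (nat_lit 342) (nat_lit 5) (nat_lit 331) (nat_lit 5) (nat_lit 436) (nat_lit 391) (nat_lit 313)) (XT.lf (nat_lit 0) (nat_lit 2794787540) (nat_lit 912) (nat_lit 232170422) (nat_lit 76) (nat_lit 6041424752) (nat_lit 330) (nat_lit 5) (nat_lit 342) (nat_lit 5) (nat_lit 331) (nat_lit 5) (nat_lit 437) (nat_lit 391) (nat_lit 312)))) (XT.nd (nat_lit 78) (nat_lit 836) (nat_lit 0) (XT.lf (nat_lit 0) (nat_lit 4971429650) (nat_lit 836) (nat_lit 3898818864) (nat_lit 76)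 (nat_lit 284336010) (nat_lit 320) (nat_lit 5) (nat_lit 331) (nat_lit 5) (nat_lit 321) (nat_lit 5) (nat_lit 438) (nat_lit 391) (nat_lit 311)) (XT.nd (nat_lit 78) (nat_lit 76) (nat_lit 0) (XT.lf (nat_lit 0) (nat_lit 1584152740) (nat_lit 760) (nat_lit 5611064096) (nat_lit 836) (nat_lit 2047230735) (nat_lit 310) (nat_lit 5) (nat_lit 320) (nat_lit 5) (nat_lit 321) (nat_lit 5) (nat_lit 439) (nat_lit 391) (nat_lit 310)) (XT.lf (nat_lit 0) (nat_lit 127899828) (nat_lit 836) (nat_lit 2133814399) (nat_lit 76) (nat_lit 7070381437) (nat_lit 309) (nat_lit 5) (nat_lit 320) (nat_lit 5) (nat_lit 310) (nat_lit 5) (nat_lit 440) (nat_lit 391) (nat_lit 309))))))) (XT.nd (nat_lit 858) (nat_lit 3572) (nat_lit 0) (XT.nd (nat_lit 390) (nat_lit 2660) (nat_lit 0) (XT.nd (nat_lit 156) (nat_lit 1520) (nat_lit 0) (XT.nd (nat_lit 78) (nat_lit 0) (nat_lit 0) (XT.lf (nat_lit 0) (nat_lit 2322037770) (nat_lit 760) (nat_lit 5927817804) (nat_lit 76) (nat_lit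 1173361059) (nat_lit 300) (nat_lit 5) (nat_lit 310) (nat_lit 5) (nat_lit 301) (nat_lit 5) (nat_lit 441) (nat_lit 391) (nat_lit 308)) (XT.lf (nat_lit 0) (nat_lit 4562204012) (nat_lit 760) (nat_lit 295432813) (nat_lit 76) (nat_lit 4658489014) (nat_lit 300) (nat_lit 5) (nat_lit 310) (nat_lit 5) (nat_lit 301) (nat_lit 5) (nat_lit 442) (nat_lit 391) (nat_lit 307))) (XT.nd (nat_lit 78) (nat_lit 760) (nat_lit 0) (XT.lf (nat_lit 0) (nat_lit 5491616709) (nat_lit 760) (nat_lit 1364499787) (nat_lit 836) (nat_lit 2754606427) (nat_lit 290) (nat_lit 5) (nat_lit 300) (nat_lit 5) (nat_lit 301) (nat_lit 5) (nat_lit 443) (nat_lit 391) (nat_lit 306)) (XT.nd (nat_lit 78) (nat_lit 76) (nat_lit 0) (XT.lf (nat_lit 0) (nat_lit 1668512103) (nat_lit 684) (nat_lit 7528093653) (nat_lit 760) (nat_lit 510600612) (nat_lit 281) (nat_lit 5) (nat_lit 290) (nat_lit 5) (nat_lit 291) (nat_lit 5) (nat_lit 444) (nat_lit 391) (nat_lit 305)) (XT.lf (nat_lit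 0) (nat_lit 1765560618) (nat_lit 760) (nat_lit 2228594246) (nat_lit 76) (nat_lit 5811029806) (nat_lit 280) (nat_lit 5) (nat_lit 290) (nat_lit 5) (nat_lit 281) (nat_lit 5) (nat_lit 445) (nat_lit 391) (nat_lit 304))))) (XT.nd (nat_lit 234) (nat_lit 1368) (nat_lit 0) (XT.nd (nat_lit 78) (nat_lit 608) (nat_lit 0) (XT.lf (nat_lit 0) (nat_lit 3713141831) (nat_lit 684) (nat_lit 365632814) (nat_lit 760) (nat_lit 5826320965) (nat_lit 271) (nat_lit 5) (nat_lit 280) (nat_lit 5) (nat_lit 281) (nat_lit 5) (nat_lit 446) (nat_lit 391) (nat_lit 303)) (XT.nd (nat_lit 78) (nat_lit 608) (nat_lit 0) (XT.lf (nat_lit 0) (nat_lit 6449499517) (nat_lit 760) (nat_lit 254714189) (nat_lit 76) (nat_lit 3302573881) (nat_lit 271) (nat_lit 5) (nat_lit 281) (nat_lit 5) (nat_lit 272) (nat_lit 5) (nat_lit 447) (nat_lit 391) (nat_lit 302)) (XT.lf (nat_lit 0) (nat_lit 5845935678) (nat_lit 608) (nat_lit 3037116062) (nat_lit 684) (nat_lit 1227161004) (nat_lit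 263) (nat_lit 5) (nat_lit 271) (nat_lit 5) (nat_lit 272) (nat_lit 5) (nat_lit 448) (nat_lit 391) (nat_lit 301)))) (XT.nd (nat_lit 78) (nat_lit 608) (nat_lit 0) (XT.lf (nat_lit 0) (nat_lit 1128019176) (nat_lit 760) (nat_lit 8377108619) (nat_lit 76) (nat_lit 710566087) (nat_lit 253) (nat_lit 5) (nat_lit 263) (nat_lit 5) (nat_lit 254) (nat_lit 5) (nat_lit 449) (nat_lit 391) (nat_lit 300)) (XT.nd (nat_lit 78) (nat_lit 608) (nat_lit 0) (XT.lf (nat_lit 0) (nat_lit 3538231628) (nat_lit 760) (nat_lit 2259830198) (nat_lit 76) (nat_lit 4524580539) (nat_lit 253) (nat_lit 5) (nat_lit 263) (nat_lit 5) (nat_lit 254) (nat_lit 5) (nat_lit 450) (nat_lit 391) (nat_lit 299)) (XT.lf (nat_lit 0) (nat_lit 4002884149) (nat_lit 608) (nat_lit 1995661981) (nat_lit 684) (nat_lit 4433152749) (nat_lit 245) (nat_lit 5) (nat_lit 253) (nat_lit 5) (nat_lit 254) (nat_lit 5) (nat_lit 451) (nat_lit 391) (nat_lit 298)))))) (XT.nd (nat_lit 390) (nat_lit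 1748) (nat_lit 0) (XT.nd (nat_lit 156) (nat_lit 1140) (nat_lit 0) (XT.nd (nat_lit 78) (nat_lit 684) (nat_lit 0) (XT.lf (nat_lit 0) (nat_lit 8511712322) (nat_lit 684) (nat_lit 163135250) (nat_lit 76) (nat_lit 1868022923) (nat_lit 245) (nat_lit 5) (nat_lit 254) (nat_lit 5) (nat_lit 246) (nat_lit 5) (nat_lit 452) (nat_lit 391) (nat_lit 297)) (XT.lf (nat_lit 0) (nat_lit 444112548) (nat_lit 684) (nat_lit 4390820093) (nat_lit 76) (nat_lit 5820670528) (nat_lit 236) (nat_lit 5) (nat_lit 245) (nat_lit 5) (nat_lit 237) (nat_lit 5) (nat_lit 453) (nat_lit 391) (nat_lit 296))) (XT.nd (nat_lit 78) (nat_lit 608) (nat_lit 0) (XT.lf (nat_lit 0) (nat_lit 2036953498) (nat_lit 532) (nat_lit 895825430) (nat_lit 608) (nat_lit 7837727783) (nat_lit 229) (nat_lit 5) (nat_lit 236) (nat_lit 5) (nat_lit 237) (nat_lit 5) (nat_lit 454) (nat_lit 391) (nat_lit 295)) (XT.nd (nat_lit 78) (nat_lit 608) (nat_lit 0) (XT.lf (nat_lit 0) (nat_lit 5498112540)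 (nat_lit 608) (nat_lit 2284223887) (nat_lit 76) (nat_lit 3104840375) (nat_lit 229) (nat_lit 5) (nat_lit 237) (nat_lit 5) (nat_lit 230) (nat_lit 5) (nat_lit 455) (nat_lit 391) (nat_lit 294)) (XT.lf (nat_lit 0) (nat_lit 4315899974) (nat_lit 608) (nat_lit 3810222399) (nat_lit 684) (nat_lit 2879836764) (nat_lit 221) (nat_lit 5) (nat_lit 229) (nat_lit 5) (nat_lit 230) (nat_lit 5) (nat_lit 456) (nat_lit 391) (nat_lit 293))))) (XT.nd (nat_lit 234) (nat_lit 608) (nat_lit 0) (XT.nd (nat_lit 78) (nat_lit 1140) (nat_lit 0) (XT.lf (nat_lit 0) (nat_lit 10801319880) (nat_lit 684) (nat_lit 78574213) (nat_lit 76) (nat_lit 247336586) (nat_lit 221) (nat_lit 5) (nat_lit 230) (nat_lit 5) (nat_lit 222) (nat_lit 5) (nat_lit 457) (nat_lit 391) (nat_lit 292)) (XT.nd (nat_lit 78) (nat_lit 532) (nat_lit 0) (XT.lf (nat_lit 0) (nat_lit 2296305570) (nat_lit 608) (nat_lit 4565850370) (nat_lit 76) (nat_lit 4387539584) (nat_lit 213) (nat_lit 5) (nat_lit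 221) (nat_lit 5) (nat_lit 214) (nat_lit 5) (nat_lit 458) (nat_lit 391) (nat_lit 291)) (XT.lf (nat_lit 0) (nat_lit 2206127953) (nat_lit 532) (nat_lit 2753498887) (nat_lit 608) (nat_lit 6415085008) (nat_lit 206) (nat_lit 5) (nat_lit 213) (nat_lit 5) (nat_lit 214) (nat_lit 5) (nat_lit 459) (nat_lit 391) (nat_lit 290)))) (XT.nd (nat_lit 78) (nat_lit 608) (nat_lit 0) (XT.lf (nat_lit 0) (nat_lit 7694753905) (nat_lit 608) (nat_lit 2364541146) (nat_lit 76) (nat_lit 1442568305) (nat_lit 206) (nat_lit 5) (nat_lit 214) (nat_lit 5) (nat_lit 207) (nat_lit 5) (nat_lit 460) (nat_lit 391) (nat_lit 289)) (XT.nd (nat_lit 78) (nat_lit 76) (nat_lit 0) (XT.lf (nat_lit 0) (nat_lit 4589274205) (nat_lit 532) (nat_lit 5922130313) (nat_lit 608) (nat_lit 1119622489) (nat_lit 199) (nat_lit 5) (nat_lit 206) (nat_lit 5) (nat_lit 207) (nat_lit 5) (nat_lit 461) (nat_lit 391) (nat_lit 288)) (XT.lf (nat_lit 0) (nat_lit 1595197483) (nat_lit 608) (nat_lit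 87234811) (nat_lit 76) (nat_lit 10080239365) (nat_lit 198) (nat_lit 5) (nat_lit 206) (nat_lit 5) (nat_lit 199) (nat_lit 5) (nat_lit 462) (nat_lit 391) (nat_lit 287))))))))
noncomputable def xc124 : XT := (XT.nd (nat_lit 1716) (nat_lit 3876) (nat_lit 0) (XT.nd (nat_lit 858) (nat_lit 2508) (nat_lit 0) (XT.nd (nat_lit 390) (nat_lit 1824) (nat_lit 0) (XT.nd (nat_lit 156) (nat_lit 532) (nat_lit 0) (XT.nd (nat_lit 78) (nat_lit 456) (nat_lit 0) (XT.lf (nat_lit 0) (nat_lit 4391952493) (nat_lit 608) (nat_lit 4849968251) (nat_lit 76) (nat_lit 2654033052) (nat_lit 191) (nat_lit 5) (nat_lit 199) (nat_lit 5) (nat_lit 192) (nat_lit 5) (nat_lit 463) (nat_lit 391) (nat_lit 286)) (XT.lf (nat_lit 0) (nat_lit 2281953674) (nat_lit 456) (nat_lit 4968709168) (nat_lit 532) (nat_lit 4781123441) (nat_lit 185) (nat_lit 5) (nat_lit 191) (nat_lit 5) (nat_lit 192) (nat_lit 5) (nat_lit 464) (nat_lit 391) (nat_lit 285))) (XT.nd (nat_lit 78) (nat_lit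 532) (nat_lit 0) (XT.lf (nat_lit 0) (nat_lit 9594449114) (nat_lit 456) (nat_lit 584339148) (nat_lit 532) (nat_lit 1991307354) (nat_lit 185) (nat_lit 5) (nat_lit 191) (nat_lit 5) (nat_lit 192) (nat_lit 5) (nat_lit 465) (nat_lit 391) (nat_lit 284)) (XT.nd (nat_lit 78) (nat_lit 0) (nat_lit 0) (XT.lf (nat_lit 0) (nat_lit 879471970) (nat_lit 532) (nat_lit 7564758680) (nat_lit 76) (nat_lit 3866106943) (nat_lit 178) (nat_lit 5) (nat_lit 185) (nat_lit 5) (nat_lit 179) (nat_lit 5) (nat_lit 466) (nat_lit 391) (nat_lit 283)) (XT.lf (nat_lit 0) (nat_lit 3782419447) (nat_lit 532) (nat_lit 249772804) (nat_lit 76) (nat_lit 8420905306) (nat_lit 178) (nat_lit 5) (nat_lit 185) (nat_lit 5) (nat_lit 179) (nat_lit 5) (nat_lit 467) (nat_lit 391) (nat_lit 282))))) (XT.nd (nat_lit 234) (nat_lit 836) (nat_lit 0) (XT.nd (nat_lit 78) (nat_lit 532) (nat_lit 0) (XT.lf (nat_lit 0) (nat_lit 6774506453) (nat_lit 532) (nat_lit 5321636596) (nat_lit 76)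 (nat_lit 501952692) (nat_lit 172) (nat_lit 5) (nat_lit 179) (nat_lit 5) (nat_lit 173) (nat_lit 5) (nat_lit 468) (nat_lit 391) (nat_lit 281)) (XT.nd (nat_lit 78) (nat_lit 76) (nat_lit 0) (XT.lf (nat_lit 0) (nat_lit 2185263909) (nat_lit 456) (nat_lit 7664419631) (nat_lit 532) (nat_lit 2895849921) (nat_lit 166) (nat_lit 5) (nat_lit 172) (nat_lit 5) (nat_lit 173) (nat_lit 5) (nat_lit 469) (nat_lit 391) (nat_lit 280)) (XT.lf (nat_lit 0) (nat_lit 105946939) (nat_lit 532) (nat_lit 3008994336) (nat_lit 76) (nat_lit 9780637501) (nat_lit 165) (nat_lit 5) (nat_lit 172) (nat_lit 5) (nat_lit 166) (nat_lit 5) (nat_lit 470) (nat_lit 391) (nat_lit 279)))) (XT.nd (nat_lit 78) (nat_lit 456) (nat_lit 0) (XT.lf (nat_lit 0) (nat_lit 3150916057) (nat_lit 456) (nat_lit 8349172169) (nat_lit 76) (nat_lit 1547719984) (nat_lit 160) (nat_lit 5) (nat_lit 166) (nat_lit 5) (nat_lit 161) (nat_lit 5) (nat_lit 471) (nat_lit 391) (nat_lit 278)) (XT.nd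 (nat_lit 78) (nat_lit 456) (nat_lit 0) (XT.lf (nat_lit 0) (nat_lit 6279002957) (nat_lit 456) (nat_lit 649249459) (nat_lit 76) (nat_lit 6274389643) (nat_lit 160) (nat_lit 5) (nat_lit 166) (nat_lit 5) (nat_lit 161) (nat_lit 5) (nat_lit 472) (nat_lit 391) (nat_lit 277)) (XT.lf (nat_lit 0) (nat_lit 7273580401) (nat_lit 456) (nat_lit 2224927467) (nat_lit 532) (nat_lit 3861491701) (nat_lit 154) (nat_lit 5) (nat_lit 160) (nat_lit 5) (nat_lit 161) (nat_lit 5) (nat_lit 473) (nat_lit 391) (nat_lit 276)))))) (XT.nd (nat_lit 390) (nat_lit 1292) (nat_lit 0) (XT.nd (nat_lit 156) (nat_lit 760) (nat_lit 0) (XT.nd (nat_lit 78) (nat_lit 76) (nat_lit 0) (XT.lf (nat_lit 0) (nat_lit 1823812960) (nat_lit 380) (nat_lit 10973287029) (nat_lit 456) (nat_lit 723114332) (nat_lit 149) (nat_lit 5) (nat_lit 154) (nat_lit 5) (nat_lit 155) (nat_lit 5) (nat_lit 474) (nat_lit 391) (nat_lit 275)) (XT.lf (nat_lit 0) (nat_lit 2483209193) (nat_lit 456) (nat_lit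 3765854239) (nat_lit 76) (nat_lit 7433498459) (nat_lit 148) (nat_lit 5) (nat_lit 154) (nat_lit 5) (nat_lit 149) (nat_lit 5) (nat_lit 475) (nat_lit 391) (nat_lit 274))) (XT.nd (nat_lit 78) (nat_lit 380) (nat_lit 0) (XT.lf (nat_lit 0) (nat_lit 4349385055) (nat_lit 380) (nat_lit 1405026294) (nat_lit 456) (nat_lit 8093444575) (nat_lit 143) (nat_lit 5) (nat_lit 148) (nat_lit 5) (nat_lit 149) (nat_lit 5) (nat_lit 476) (nat_lit 391) (nat_lit 273)) (XT.nd (nat_lit 78) (nat_lit 380) (nat_lit 0) (XT.lf (nat_lit 0) (nat_lit 9121745781) (nat_lit 456) (nat_lit 1387401616) (nat_lit 76) (nat_lit 3506698000) (nat_lit 143) (nat_lit 5) (nat_lit 149) (nat_lit 5) (nat_lit 144) (nat_lit 5) (nat_lit 477) (nat_lit 391) (nat_lit 272)) (XT.lf (nat_lit 0) (nat_lit 6941840675) (nat_lit 380) (nat_lit 5651621539) (nat_lit 456) (nat_lit 1592995390) (nat_lit 138) (nat_lit 5) (nat_lit 143) (nat_lit 5) (nat_lit 144) (nat_lit 5) (nat_lit 478) (nat_lit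 391) (nat_lit 271))))) (XT.nd (nat_lit 234) (nat_lit 456) (nat_lit 0) (XT.nd (nat_lit 78) (nat_lit 380) (nat_lit 0) (XT.lf (nat_lit 0) (nat_lit 1072817680) (nat_lit 380) (nat_lit 677098423) (nat_lit 456) (nat_lit 12610358019) (nat_lit 132) (nat_lit 5) (nat_lit 137) (nat_lit 5) (nat_lit 138) (nat_lit 5) (nat_lit 479) (nat_lit 391) (nat_lit 270)) (XT.nd (nat_lit 78) (nat_lit 380) (nat_lit 0) (XT.lf (nat_lit 0) (nat_lit 5198692866) (nat_lit 456) (nat_lit 4947180836) (nat_lit 76) (nat_lit 4390279373) (nat_lit 132) (nat_lit 5) (nat_lit 138) (nat_lit 5) (nat_lit 133) (nat_lit 5) (nat_lit 480) (nat_lit 391) (nat_lit 269)) (XT.lf (nat_lit 0) (nat_lit 3576866101) (nat_lit 380) (nat_lit 5150455632) (nat_lit 456) (nat_lit 5988013714) (nat_lit 127) (nat_lit 5) (nat_lit 132) (nat_lit 5) (nat_lit 133) (nat_lit 5) (nat_lit 481) (nat_lit 391) (nat_lit 268)))) (XT.nd (nat_lit 78) (nat_lit 456) (nat_lit 0) (XT.lf (nat_lit 0) (nat_lit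 12313160495) (nat_lit 380) (nat_lit 29895750) (nat_lit 456) (nat_lit 2554717866) (nat_lit 127) (nat_lit 5) (nat_lit 132) (nat_lit 5) (nat_lit 133) (nat_lit 5) (nat_lit 482) (nat_lit 391) (nat_lit 267)) (XT.nd (nat_lit 78) (nat_lit 0) (nat_lit 0) (XT.lf (nat_lit 0) (nat_lit 992530791) (nat_lit 456) (nat_lit 8926898214) (nat_lit 76) (nat_lit 5163158517) (nat_lit 121) (nat_lit 5) (nat_lit 127) (nat_lit 5) (nat_lit 122) (nat_lit 5) (nat_lit 483) (nat_lit 391) (nat_lit 266)) (XT.lf (nat_lit 0) (nat_lit 4577861489) (nat_lit 456) (nat_lit 207276731) (nat_lit 76) (nat_lit 10485597470) (nat_lit 121) (nat_lit 5) (nat_lit 127) (nat_lit 5) (nat_lit 122) (nat_lit 5) (nat_lit 484) (nat_lit 391) (nat_lit 265))))))) (XT.nd (nat_lit 858) (nat_lit 1520) (nat_lit 0) (XT.nd (nat_lit 390) (nat_lit 1292) (nat_lit 0) (XT.nd (nat_lit 156) (nat_lit 380) (nat_lit 0) (XT.nd (nat_lit 78) (nat_lit 380) (nat_lit 0) (XT.lf (nat_lit 0) (nat_lit 8279117704)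 (nat_lit 380) (nat_lit 6687869372) (nat_lit 76) (nat_lit 494778420) (nat_lit 117) (nat_lit 5) (nat_lit 122) (nat_lit 5) (nat_lit 118) (nat_lit 5) (nat_lit 485) (nat_lit 391) (nat_lit 264)) (XT.lf (nat_lit 0) (nat_lit 2254039287) (nat_lit 380) (nat_lit 9832159973) (nat_lit 456) (nat_lit 3569783631) (nat_lit 112) (nat_lit 5) (nat_lit 117) (nat_lit 5) (nat_lit 118) (nat_lit 5) (nat_lit 486) (nat_lit 391) (nat_lit 263))) (XT.nd (nat_lit 78) (nat_lit 304) (nat_lit 0) (XT.lf (nat_lit 0) (nat_lit 143122503) (nat_lit 456) (nat_lit 4413580337) (nat_lit 76) (nat_lit 11296783748) (nat_lit 111) (nat_lit 5) (nat_lit 117) (nat_lit 5) (nat_lit 112) (nat_lit 5) (nat_lit 487) (nat_lit 391) (nat_lit 262)) (XT.nd (nat_lit 78) (nat_lit 0) (nat_lit 0) (XT.lf (nat_lit 0) (nat_lit 3903585511) (nat_lit 380) (nat_lit 11290664548) (nat_lit 76) (nat_lit 859799234) (nat_lit 107) (nat_lit 5) (nat_lit 112) (nat_lit 5) (nat_lit 108) (nat_lit 5) (nat_lit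 488) (nat_lit 391) (nat_lit 261)) (XT.lf (nat_lit 0) (nat_lit 7783772442) (nat_lit 380) (nat_lit 2129085241) (nat_lit 76) (nat_lit 6344878043) (nat_lit 107) (nat_lit 5) (nat_lit 112) (nat_lit 5) (nat_lit 108) (nat_lit 5) (nat_lit 489) (nat_lit 391) (nat_lit 260))))) (XT.nd (nat_lit 234) (nat_lit 608) (nat_lit 0) (XT.nd (nat_lit 78) (nat_lit 380) (nat_lit 0) (XT.lf (nat_lit 0) (nat_lit 7287381630) (nat_lit 304) (nat_lit 4486323676) (nat_lit 380) (nat_lit 4691150449) (nat_lit 103) (nat_lit 5) (nat_lit 107) (nat_lit 5) (nat_lit 108) (nat_lit 5) (nat_lit 490) (nat_lit 391) (nat_lit 259)) (XT.nd (nat_lit 78) (nat_lit 76) (nat_lit 0) (XT.lf (nat_lit 0) (nat_lit 217141295) (nat_lit 304) (nat_lit 15633810581) (nat_lit 380) (nat_lit 825018670) (nat_lit 99) (nat_lit 5) (nat_lit 103) (nat_lit 5) (nat_lit 104) (nat_lit 5) (nat_lit 491) (nat_lit 391) (nat_lit 258)) (XT.lf (nat_lit 0) (nat_lit 3154194784) (nat_lit 380) (nat_lit 7040442460)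 (nat_lit 76) (nat_lit 6694734847) (nat_lit 98) (nat_lit 5) (nat_lit 103) (nat_lit 5) (nat_lit 99) (nat_lit 5) (nat_lit 492) (nat_lit 391) (nat_lit 257)))) (XT.nd (nat_lit 78) (nat_lit 304) (nat_lit 0) (XT.lf (nat_lit 0) (nat_lit 2570985854) (nat_lit 304) (nat_lit 4632911152) (nat_lit 380) (nat_lit 9902999070) (nat_lit 94) (nat_lit 5) (nat_lit 98) (nat_lit 5) (nat_lit 99) (nat_lit 5) (nat_lit 493) (nat_lit 391) (nat_lit 256)) (XT.nd (nat_lit 78) (nat_lit 304) (nat_lit 0) (XT.lf (nat_lit 0) (nat_lit 11374232476) (nat_lit 380) (nat_lit 4888477268) (nat_lit 76) (nat_lit 1065270469) (nat_lit 94) (nat_lit 5) (nat_lit 99) (nat_lit 5) (nat_lit 95) (nat_lit 5) (nat_lit 494) (nat_lit 391) (nat_lit 255)) (XT.lf (nat_lit 0) (nat_lit 4963115115) (nat_lit 304) (nat_lit 10713381137) (nat_lit 380) (nat_lit 1876021759) (nat_lit 90) (nat_lit 5) (nat_lit 94) (nat_lit 5) (nat_lit 95) (nat_lit 5) (nat_lit 495) (nat_lit 391) (nat_lit 254))))))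 (XT.nd (nat_lit 390) (nat_lit 532) (nat_lit 0) (XT.nd (nat_lit 156) (nat_lit 608) (nat_lit 0) (XT.nd (nat_lit 78) (nat_lit 304) (nat_lit 0) (XT.lf (nat_lit 0) (nat_lit 2271986810) (nat_lit 380) (nat_lit 2741168422) (nat_lit 76) (nat_lit 12767723691) (nat_lit 89) (nat_lit 5) (nat_lit 94) (nat_lit 5) (nat_lit 90) (nat_lit 5) (nat_lit 496) (nat_lit 391) (nat_lit 253)) (XT.lf (nat_lit 0) (nat_lit 6517157037) (nat_lit 380) (nat_lit 10653008180) (nat_lit 76) (nat_lit 842609667) (nat_lit 85) (nat_lit 5) (nat_lit 90) (nat_lit 5) (nat_lit 86) (nat_lit 5) (nat_lit 497) (nat_lit 391) (nat_lit 252))) (XT.nd (nat_lit 78) (nat_lit 608) (nat_lit 0) (XT.lf (nat_lit 0) (nat_lit 10884952521) (nat_lit 380) (nat_lit 605243739) (nat_lit 76) (nat_lit 6758360293) (nat_lit 85) (nat_lit 5) (nat_lit 90) (nat_lit 5) (nat_lit 86) (nat_lit 5) (nat_lit 498) (nat_lit 391) (nat_lit 251)) (XT.nd (nat_lit 78) (nat_lit 380) (nat_lit 0) (XT.lf (nat_lit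 0) (nat_lit 9748923961) (nat_lit 228) (nat_lit 5640756480) (nat_lit 304) (nat_lit 3098384066) (nat_lit 82) (nat_lit 5) (nat_lit 85) (nat_lit 5) (nat_lit 86) (nat_lit 5) (nat_lit 499) (nat_lit 391) (nat_lit 250)) (XT.lf (nat_lit 0) (nat_lit 1238558827) (nat_lit 380) (nat_lit 17158230273) (nat_lit 76) (nat_lit 335356212) (nat_lit 77) (nat_lit 5) (nat_lit 82) (nat_lit 5) (nat_lit 78) (nat_lit 5) (nat_lit 500) (nat_lit 391) (nat_lit 249))))) (XT.nd (nat_lit 234) (nat_lit 304) (nat_lit 0) (XT.nd (nat_lit 78) (nat_lit 228) (nat_lit 0) (XT.lf (nat_lit 0) (nat_lit 5703559855) (nat_lit 380) (nat_lit 6849021652) (nat_lit 76) (nat_lit 6426462542) (nat_lit 77) (nat_lit 5) (nat_lit 82) (nat_lit 5) (nat_lit 78) (nat_lit 5) (nat_lit 501) (nat_lit 391) (nat_lit 248)) (XT.nd (nat_lit 78) (nat_lit 0) (nat_lit 0) (XT.lf (nat_lit 0) (nat_lit 3692727002) (nat_lit 228) (nat_lit 6575755857) (nat_lit 304) (nat_lit 8962187478) (nat_lit 74) (nat_lit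 5) (nat_lit 77) (nat_lit 5) (nat_lit 78) (nat_lit 5) (nat_lit 502) (nat_lit 391) (nat_lit 247)) (XT.lf (nat_lit 0) (nat_lit 14516221234) (nat_lit 228) (nat_lit 441209408) (nat_lit 304) (nat_lit 4529245959) (nat_lit 74) (nat_lit 5) (nat_lit 77) (nat_lit 5) (nat_lit 78) (nat_lit 5) (nat_lit 503) (nat_lit 391) (nat_lit 246)))) (XT.nd (nat_lit 50622) (nat_lit 0) (nat_lit 43244) (XT.lf (nat_lit 0) (nat_lit 55420255) (nat_lit 304) (nat_lit 13921603344) (nat_lit 76) (nat_lit 5769522972) (nat_lit 70) (nat_lit 5) (nat_lit 74) (nat_lit 5) (nat_lit 71) (nat_lit 5) (nat_lit 504) (nat_lit 391) (nat_lit 245)) (XT.nd (nat_lit 78) (nat_lit 0) (nat_lit 0) (XT.lf (nat_lit 0) (nat_lit 1978360655) (nat_lit 836) (nat_lit 690646796) (nat_lit 836) (nat_lit 690646796) (nat_lit 639) (nat_lit 3) (nat_lit 650) (nat_lit 3) (nat_lit 650) (nat_lit 5) (nat_lit 392) (nat_lit 392) (nat_lit 356)) (XT.lf (nat_lit 76) (nat_lit 1885790207) (nat_lit 0) (nat_lit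 4230183214) (nat_lit 836) (nat_lit 627042910) (nat_lit 640) (nat_lit 5) (nat_lit 639) (nat_lit 3) (nat_lit 650) (nat_lit 5) (nat_lit 393) (nat_lit 392) (nat_lit 355))))))))
noncomputable def xc125 : XT := (XT.nd (nat_lit 1716) (nat_lit 16416) (nat_lit 0) (XT.nd (nat_lit 858) (nat_lit 3420) (nat_lit 0) (XT.nd (nat_lit 390) (nat_lit 1976) (nat_lit 0) (XT.nd (nat_lit 156) (nat_lit 836) (nat_lit 0) (XT.nd (nat_lit 78) (nat_lit 0) (nat_lit 0) (XT.lf (nat_lit 0) (nat_lit 1484338337) (nat_lit 836) (nat_lit 1569558186) (nat_lit 912) (nat_lit 3714059028) (nat_lit 628) (nat_lit 5) (nat_lit 639) (nat_lit 3) (nat_lit 640) (nat_lit 5) (nat_lit 394) (nat_lit 392) (nat_lit 354)) (XT.lf (nat_lit 76) (nat_lit 1774203181) (nat_lit 0) (nat_lit 1812110294) (nat_lit 912) (nat_lit 3207889459) (nat_lit 629) (nat_lit 5) (nat_lit 628) (nat_lit 5) (nat_lit 640) (nat_lit 5) (nat_lit 395) (nat_lit 392) (nat_lit 353))) (XT.nd (nat_lit 78) (nat_lit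 836) (nat_lit 0) (XT.lf (nat_lit 76) (nat_lit 5177528550) (nat_lit 0) (nat_lit 509455559) (nat_lit 912) (nat_lit 1134885017) (nat_lit 629) (nat_lit 5) (nat_lit 628) (nat_lit 5) (nat_lit 640) (nat_lit 5) (nat_lit 396) (nat_lit 392) (nat_lit 352)) (XT.nd (nat_lit 78) (nat_lit 0) (nat_lit 0) (XT.lf (nat_lit 0) (nat_lit 930736202) (nat_lit 912) (nat_lit 5069264817) (nat_lit 988) (nat_lit 850706271) (nat_lit 617) (nat_lit 5) (nat_lit 629) (nat_lit 5) (nat_lit 630) (nat_lit 5) (nat_lit 397) (nat_lit 392) (nat_lit 351)) (XT.lf (nat_lit 0) (nat_lit 2984785095) (nat_lit 912) (nat_lit 1622630287) (nat_lit 988) (nat_lit 2273336002) (nat_lit 617) (nat_lit 5) (nat_lit 629) (nat_lit 5) (nat_lit 630) (nat_lit 5) (nat_lit 398) (nat_lit 392) (nat_lit 350))))) (XT.nd (nat_lit 234) (nat_lit 988) (nat_lit 0) (XT.nd (nat_lit 78) (nat_lit 988) (nat_lit 0) (XT.lf (nat_lit 76) (nat_lit 1888492439) (nat_lit 0) (nat_lit 3152522902) (nat_lit 988)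 (nat_lit 1871183936) (nat_lit 618) (nat_lit 5) (nat_lit 617) (nat_lit 5) (nat_lit 630) (nat_lit 5) (nat_lit 399) (nat_lit 392) (nat_lit 349)) (XT.nd (nat_lit 78) (nat_lit 0) (nat_lit 0) (XT.lf (nat_lit 0) (nat_lit 151805532) (nat_lit 988) (nat_lit 1483275863) (nat_lit 1064) (nat_lit 5309988347) (nat_lit 604) (nat_lit 5) (nat_lit 617) (nat_lit 5) (nat_lit 618) (nat_lit 5) (nat_lit 400) (nat_lit 392) (nat_lit 348)) (XT.lf (nat_lit 76) (nat_lit 2114164123) (nat_lit 0) (nat_lit 40075914) (nat_lit 1064) (nat_lit 4824852887) (nat_lit 605) (nat_lit 5) (nat_lit 604) (nat_lit 5) (nat_lit 618) (nat_lit 5) (nat_lit 401) (nat_lit 392) (nat_lit 347)))) (XT.nd (nat_lit 78) (nat_lit 1064) (nat_lit 0) (XT.lf (nat_lit 0) (nat_lit 4168252383) (nat_lit 988) (nat_lit 1250381890) (nat_lit 1064) (nat_lit 1595754743) (nat_lit 605) (nat_lit 5) (nat_lit 618) (nat_lit 5) (nat_lit 619) (nat_lit 5) (nat_lit 402) (nat_lit 392) (nat_lit 346)) (XT.nd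 (nat_lit 78) (nat_lit 1064) (nat_lit 0) (XT.lf (nat_lit 76) (nat_lit 2438689280) (nat_lit 0) (nat_lit 3752118332) (nat_lit 1064) (nat_lit 860240741) (nat_lit 606) (nat_lit 5) (nat_lit 605) (nat_lit 5) (nat_lit 619) (nat_lit 5) (nat_lit 403) (nat_lit 392) (nat_lit 345)) (XT.lf (nat_lit 0) (nat_lit 1111113027) (nat_lit 1064) (nat_lit 907346934) (nat_lit 1140) (nat_lit 5070630806) (nat_lit 591) (nat_lit 5) (nat_lit 605) (nat_lit 5) (nat_lit 606) (nat_lit 5) (nat_lit 404) (nat_lit 392) (nat_lit 344)))))) (XT.nd (nat_lit 390) (nat_lit 2356) (nat_lit 0) (XT.nd (nat_lit 156) (nat_lit 1064) (nat_lit 0) (XT.nd (nat_lit 78) (nat_lit 0) (nat_lit 76) (XT.lf (nat_lit 76) (nat_lit 2874410966) (nat_lit 0) (nat_lit 208145228) (nat_lit 1140) (nat_lit 4045801767) (nat_lit 592) (nat_lit 5) (nat_lit 591) (nat_lit 5) (nat_lit 606) (nat_lit 5) (nat_lit 405) (nat_lit 392) (nat_lit 343)) (XT.lf (nat_lit 0) (nat_lit 5064532440) (nat_lit 1064)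 (nat_lit 465070012) (nat_lit 1140) (nat_lit 1639406820) (nat_lit 592) (nat_lit 5) (nat_lit 606) (nat_lit 5) (nat_lit 607) (nat_lit 5) (nat_lit 406) (nat_lit 392) (nat_lit 342))) (XT.nd (nat_lit 78) (nat_lit 1140) (nat_lit 0) (XT.lf (nat_lit 76) (nat_lit 3413358271) (nat_lit 0) (nat_lit 3651563202) (nat_lit 1140) (nat_lit 145997117) (nat_lit 593) (nat_lit 5) (nat_lit 592) (nat_lit 5) (nat_lit 607) (nat_lit 5) (nat_lit 407) (nat_lit 392) (nat_lit 341)) (XT.nd (nat_lit 78) (nat_lit 0) (nat_lit 76) (XT.lf (nat_lit 76) (nat_lit 81046335) (nat_lit 0) (nat_lit 1705596942) (nat_lit 1216) (nat_lit 5467616513) (nat_lit 578) (nat_lit 5) (nat_lit 577) (nat_lit 5) (nat_lit 593) (nat_lit 5) (nat_lit 408) (nat_lit 392) (nat_lit 340)) (XT.lf (nat_lit 0) (nat_lit 3739824107) (nat_lit 1140) (nat_lit 3243020566) (nat_lit 1216) (nat_lit 315946256) (nat_lit 578) (nat_lit 5) (nat_lit 593) (nat_lit 5) (nat_lit 594) (nat_lit 5) (nat_lit 409)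 (nat_lit 392) (nat_lit 339))))) (XT.nd (nat_lit 234) (nat_lit 1216) (nat_lit 0) (XT.nd (nat_lit 78) (nat_lit 1216) (nat_lit 0) (XT.lf (nat_lit 76) (nat_lit 733894705) (nat_lit 0) (nat_lit 4971464496) (nat_lit 1216) (nat_lit 1639406570) (nat_lit 579) (nat_lit 5) (nat_lit 578) (nat_lit 5) (nat_lit 594) (nat_lit 5) (nat_lit 410) (nat_lit 392) (nat_lit 338)) (XT.nd (nat_lit 78) (nat_lit 0) (nat_lit 0) (XT.lf (nat_lit 0) (nat_lit 293850485) (nat_lit 1216) (nat_lit 2589723380) (nat_lit 1292) (nat_lit 4508473369) (nat_lit 562) (nat_lit 5) (nat_lit 578) (nat_lit 5) (nat_lit 579) (nat_lit 5) (nat_lit 411) (nat_lit 392) (nat_lit 337)) (XT.lf (nat_lit 76) (nat_lit 1490544441) (nat_lit 0) (nat_lit 721383410) (nat_lit 1292) (nat_lit 5228785410) (nat_lit 563) (nat_lit 5) (nat_lit 562) (nat_lit 5) (nat_lit 579) (nat_lit 5) (nat_lit 412) (nat_lit 392) (nat_lit 336)))) (XT.nd (nat_lit 78) (nat_lit 1292) (nat_lit 0) (XT.lf (nat_lit 0)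 (nat_lit 4154598992) (nat_lit 1216) (nat_lit 1842940191) (nat_lit 76) (nat_lit 1493106234) (nat_lit 563) (nat_lit 5) (nat_lit 579) (nat_lit 5) (nat_lit 564) (nat_lit 5) (nat_lit 413) (nat_lit 392) (nat_lit 335)) (XT.nd (nat_lit 78) (nat_lit 76) (nat_lit 0) (XT.lf (nat_lit 0) (nat_lit 2342270405) (nat_lit 1216) (nat_lit 3773743282) (nat_lit 1292) (nat_lit 1425981836) (nat_lit 547) (nat_lit 5) (nat_lit 563) (nat_lit 5) (nat_lit 564) (nat_lit 5) (nat_lit 414) (nat_lit 392) (nat_lit 334)) (XT.lf (nat_lit 0) (nat_lit 488102218) (nat_lit 1292) (nat_lit 991883038) (nat_lit 76) (nat_lit 6114882638) (nat_lit 546) (nat_lit 5) (nat_lit 563) (nat_lit 5) (nat_lit 547) (nat_lit 5) (nat_lit 415) (nat_lit 392) (nat_lit 333))))))) (XT.nd (nat_lit 858) (nat_lit 5624) (nat_lit 0) (XT.nd (nat_lit 390) (nat_lit 6612) (nat_lit 0) (XT.nd (nat_lit 156) (nat_lit 2888) (nat_lit 0) (XT.nd (nat_lit 78) (nat_lit 0) (nat_lit 0) (XT.lf (nat_lit 0)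 (nat_lit 2409689097) (nat_lit 1368) (nat_lit 4350668982) (nat_lit 76) (nat_lit 888500942) (nat_lit 529) (nat_lit 5) (nat_lit 547) (nat_lit 5) (nat_lit 530) (nat_lit 5) (nat_lit 416) (nat_lit 392) (nat_lit 332)) (XT.lf (nat_lit 0) (nat_lit 4347837229) (nat_lit 1368) (nat_lit 56631755) (nat_lit 76) (nat_lit 3299914203) (nat_lit 529) (nat_lit 5) (nat_lit 547) (nat_lit 5) (nat_lit 530) (nat_lit 5) (nat_lit 417) (nat_lit 392) (nat_lit 331))) (XT.nd (nat_lit 78) (nat_lit 1520) (nat_lit 0) (XT.lf (nat_lit 0) (nat_lit 4350441655) (nat_lit 1368) (nat_lit 1964933163) (nat_lit 1444) (nat_lit 1445845986) (nat_lit 511) (nat_lit 5) (nat_lit 529) (nat_lit 5) (nat_lit 530) (nat_lit 5) (nat_lit 418) (nat_lit 392) (nat_lit 330)) (XT.nd (nat_lit 78) (nat_lit 0) (nat_lit 0) (XT.lf (nat_lit 0) (nat_lit 469567243) (nat_lit 1520) (nat_lit 6816306376) (nat_lit 76) (nat_lit 533809183) (nat_lit 491) (nat_lit 5) (nat_lit 511) (nat_lit 5) (nat_lit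 492) (nat_lit 5) (nat_lit 419) (nat_lit 392) (nat_lit 329)) (XT.lf (nat_lit 0) (nat_lit 2403245453) (nat_lit 1520) (nat_lit 2380358202) (nat_lit 76) (nat_lit 3095547514) (nat_lit 491) (nat_lit 5) (nat_lit 511) (nat_lit 5) (nat_lit 492) (nat_lit 5) (nat_lit 420) (nat_lit 392) (nat_lit 328))))) (XT.nd (nat_lit 234) (nat_lit 3420) (nat_lit 0) (XT.nd (nat_lit 78) (nat_lit 1672) (nat_lit 0) (XT.lf (nat_lit 0) (nat_lit 2142196849) (nat_lit 1520) (nat_lit 2211275601) (nat_lit 1596) (nat_lit 3586793265) (nat_lit 471) (nat_lit 5) (nat_lit 491) (nat_lit 5) (nat_lit 492) (nat_lit 5) (nat_lit 421) (nat_lit 392) (nat_lit 327)) (XT.nd (nat_lit 78) (nat_lit 1672) (nat_lit 0) (XT.lf (nat_lit 0) (nat_lit 6325975602) (nat_lit 1596) (nat_lit 1248366615) (nat_lit 76) (nat_lit 428608941) (nat_lit 471) (nat_lit 5) (nat_lit 492) (nat_lit 5) (nat_lit 472) (nat_lit 5) (nat_lit 422) (nat_lit 392) (nat_lit 326)) (XT.lf (nat_lit 0) (nat_lit 269359962)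 (nat_lit 1672) (nat_lit 4676631979) (nat_lit 76) (nat_lit 3120839139) (nat_lit 449) (nat_lit 5) (nat_lit 471) (nat_lit 5) (nat_lit 450) (nat_lit 5) (nat_lit 423) (nat_lit 392) (nat_lit 325)))) (XT.nd (nat_lit 78) (nat_lit 3420) (nat_lit 0) (XT.lf (nat_lit 0) (nat_lit 2206078218) (nat_lit 1672) (nat_lit 34963690) (nat_lit 76) (nat_lit 5891260010) (nat_lit 449) (nat_lit 5) (nat_lit 471) (nat_lit 5) (nat_lit 450) (nat_lit 5) (nat_lit 424) (nat_lit 392) (nat_lit 324)) (XT.nd (nat_lit 78) (nat_lit 1748) (nat_lit 0) (XT.lf (nat_lit 0) (nat_lit 4181979717) (nat_lit 1748) (nat_lit 3470997655) (nat_lit 76) (nat_lit 546108789) (nat_lit 427) (nat_lit 5) (nat_lit 450) (nat_lit 5) (nat_lit 428) (nat_lit 5) (nat_lit 425) (nat_lit 392) (nat_lit 323)) (XT.lf (nat_lit 0) (nat_lit 1291417403) (nat_lit 1748) (nat_lit 4896074356) (nat_lit 1824) (nat_lit 2079925193) (nat_lit 404) (nat_lit 5) (nat_lit 427) (nat_lit 5) (nat_lit 428) (nat_lit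 5) (nat_lit 426) (nat_lit 392) (nat_lit 322)))))) (XT.nd (nat_lit 390) (nat_lit 2660) (nat_lit 0) (XT.nd (nat_lit 156) (nat_lit 1748) (nat_lit 0) (XT.nd (nat_lit 78) (nat_lit 1216) (nat_lit 0) (XT.lf (nat_lit 0) (nat_lit 6165979558) (nat_lit 1748) (nat_lit 2057515509) (nat_lit 1824) (nat_lit 113824134) (nat_lit 404) (nat_lit 5) (nat_lit 427) (nat_lit 5) (nat_lit 428) (nat_lit 5) (nat_lit 427) (nat_lit 392) (nat_lit 321)) (XT.lf (nat_lit 0) (nat_lit 1857631348) (nat_lit 1216) (nat_lit 5691497919) (nat_lit 76) (nat_lit 859439756) (nat_lit 388) (nat_lit 5) (nat_lit 404) (nat_lit 5) (nat_lit 389) (nat_lit 5) (nat_lit 428) (nat_lit 392) (nat_lit 320))) (XT.nd (nat_lit 78) (nat_lit 1748) (nat_lit 0) (XT.lf (nat_lit 0) (nat_lit 3863253018) (nat_lit 1216) (nat_lit 793219429) (nat_lit 76) (nat_lit 3824842868) (nat_lit 388) (nat_lit 5) (nat_lit 404) (nat_lit 5) (nat_lit 389) (nat_lit 5) (nat_lit 429) (nat_lit 392) (nat_lit 319))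 (XT.nd (nat_lit 78) (nat_lit 836) (nat_lit 0) (XT.lf (nat_lit 0) (nat_lit 4228607176) (nat_lit 912) (nat_lit 1676429475) (nat_lit 988) (nat_lit 2650570407) (nat_lit 376) (nat_lit 5) (nat_lit 388) (nat_lit 5) (nat_lit 389) (nat_lit 5) (nat_lit 430) (nat_lit 392) (nat_lit 318)) (XT.lf (nat_lit 0) (nat_lit 700323933) (nat_lit 836) (nat_lit 7275114209) (nat_lit 912) (nat_lit 656202137) (nat_lit 365) (nat_lit 5) (nat_lit 376) (nat_lit 5) (nat_lit 377) (nat_lit 5) (nat_lit 431) (nat_lit 392) (nat_lit 317))))) (XT.nd (nat_lit 234) (nat_lit 1748) (nat_lit 0) (XT.nd (nat_lit 78) (nat_lit 836) (nat_lit 0) (XT.lf (nat_lit 0) (nat_lit 1369535608) (nat_lit 912) (nat_lit 2872546905) (nat_lit 76) (nat_lit 4466752447) (nat_lit 364) (nat_lit 5) (nat_lit 376) (nat_lit 5) (nat_lit 365) (nat_lit 5) (nat_lit 432) (nat_lit 392) (nat_lit 316)) (XT.nd (nat_lit 78) (nat_lit 0) (nat_lit 0) (XT.lf (nat_lit 0) (nat_lit 2283054092) (nat_lit 836)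 (nat_lit 1128606832) (nat_lit 912) (nat_lit 5376143311) (nat_lit 353) (nat_lit 5) (nat_lit 364) (nat_lit 5) (nat_lit 365) (nat_lit 5) (nat_lit 433) (nat_lit 392) (nat_lit 315)) (XT.lf (nat_lit 0) (nat_lit 5497550817) (nat_lit 912) (nat_lit 1331031068) (nat_lit 76) (nat_lit 2039722999) (nat_lit 353) (nat_lit 5) (nat_lit 365) (nat_lit 5) (nat_lit 354) (nat_lit 5) (nat_lit 434) (nat_lit 392) (nat_lit 314)))) (XT.nd (nat_lit 78) (nat_lit 912) (nat_lit 0) (XT.lf (nat_lit 0) (nat_lit 3960881035) (nat_lit 836) (nat_lit 3668278875) (nat_lit 912) (nat_lit 1321185832) (nat_lit 342) (nat_lit 5) (nat_lit 353) (nat_lit 5) (nat_lit 354) (nat_lit 5) (nat_lit 435) (nat_lit 392) (nat_lit 313)) (XT.nd (nat_lit 78) (nat_lit 0) (nat_lit 0) (XT.lf (nat_lit 0) (nat_lit 311906958) (nat_lit 836) (nat_lit 429382776) (nat_lit 912) (nat_lit 8293007475) (nat_lit 330) (nat_lit 5) (nat_lit 341) (nat_lit 5) (nat_lit 342) (nat_lit 5) (nat_lit 436)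 (nat_lit 392) (nat_lit 312)) (XT.lf (nat_lit 0) (nat_lit 2851064732) (nat_lit 912) (nat_lit 3390283973) (nat_lit 76) (nat_lit 2877939163) (nat_lit 330) (nat_lit 5) (nat_lit 342) (nat_lit 5) (nat_lit 331) (nat_lit 5) (nat_lit 437) (nat_lit 392) (nat_lit 311))))))))
noncomputable def xc126 : XT := (XT.nd (nat_lit 1716) (nat_lit 6156) (nat_lit 0) (XT.nd (nat_lit 858) (nat_lit 3800) (nat_lit 0) (XT.nd (nat_lit 390) (nat_lit 2812) (nat_lit 0) (XT.nd (nat_lit 156) (nat_lit 1520) (nat_lit 0) (XT.nd (nat_lit 78) (nat_lit 0) (nat_lit 0) (XT.lf (nat_lit 0) (nat_lit 2042673259) (nat_lit 760) (nat_lit 2948388136) (nat_lit 836) (nat_lit 4215165868) (nat_lit 320) (nat_lit 5) (nat_lit 330) (nat_lit 5) (nat_lit 331) (nat_lit 5) (nat_lit 438) (nat_lit 392) (nat_lit 310)) (XT.lf (nat_lit 0) (nat_lit 7171691179) (nat_lit 836) (nat_lit 1697113887) (nat_lit 76) (nat_lit 426152975) (nat_lit 320) (nat_lit 5) (nat_lit 331) (nat_lit 5) (nat_lit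 321) (nat_lit 5) (nat_lit 439) (nat_lit 392) (nat_lit 309))) (XT.nd (nat_lit 78) (nat_lit 684) (nat_lit 0) (XT.lf (nat_lit 0) (nat_lit 27971521) (nat_lit 836) (nat_lit 5504786663) (nat_lit 76) (nat_lit 3852360020) (nat_lit 309) (nat_lit 5) (nat_lit 320) (nat_lit 5) (nat_lit 310) (nat_lit 5) (nat_lit 440) (nat_lit 392) (nat_lit 308)) (XT.nd (nat_lit 78) (nat_lit 0) (nat_lit 0) (XT.lf (nat_lit 0) (nat_lit 72614851) (nat_lit 684) (nat_lit 2106118434) (nat_lit 760) (nat_lit 7298377732) (nat_lit 300) (nat_lit 5) (nat_lit 309) (nat_lit 5) (nat_lit 310) (nat_lit 5) (nat_lit 441) (nat_lit 392) (nat_lit 307)) (XT.lf (nat_lit 0) (nat_lit 4392001299) (nat_lit 760) (nat_lit 3773291663) (nat_lit 76) (nat_lit 1405269459) (nat_lit 300) (nat_lit 5) (nat_lit 310) (nat_lit 5) (nat_lit 301) (nat_lit 5) (nat_lit 442) (nat_lit 392) (nat_lit 306))))) (XT.nd (nat_lit 234) (nat_lit 1292) (nat_lit 0) (XT.nd (nat_lit 78) (nat_lit 760) (nat_lit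 0) (XT.lf (nat_lit 0) (nat_lit 1952781867) (nat_lit 760) (nat_lit 4697190835) (nat_lit 836) (nat_lit 3015909778) (nat_lit 290) (nat_lit 5) (nat_lit 300) (nat_lit 5) (nat_lit 301) (nat_lit 5) (nat_lit 443) (nat_lit 392) (nat_lit 305)) (XT.nd (nat_lit 78) (nat_lit 760) (nat_lit 0) (XT.lf (nat_lit 0) (nat_lit 7815300030) (nat_lit 760) (nat_lit 1137259503) (nat_lit 836) (nat_lit 810568511) (nat_lit 290) (nat_lit 5) (nat_lit 300) (nat_lit 5) (nat_lit 301) (nat_lit 5) (nat_lit 444) (nat_lit 392) (nat_lit 304)) (XT.lf (nat_lit 0) (nat_lit 1436496923) (nat_lit 760) (nat_lit 5932375210) (nat_lit 76) (nat_lit 2492937676) (nat_lit 280) (nat_lit 5) (nat_lit 290) (nat_lit 5) (nat_lit 281) (nat_lit 5) (nat_lit 445) (nat_lit 392) (nat_lit 303)))) (XT.nd (nat_lit 78) (nat_lit 1292) (nat_lit 0) (XT.lf (nat_lit 0) (nat_lit 3713106141) (nat_lit 760) (nat_lit 53841151) (nat_lit 76) (nat_lit 6195509390) (nat_lit 280) (nat_lit 5) (nat_lit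 290) (nat_lit 5) (nat_lit 281) (nat_lit 5) (nat_lit 446) (nat_lit 392) (nat_lit 302)) (XT.nd (nat_lit 78) (nat_lit 608) (nat_lit 0) (XT.lf (nat_lit 0) (nat_lit 5992128826) (nat_lit 684) (nat_lit 57275364) (nat_lit 760) (nat_lit 4015436766) (nat_lit 271) (nat_lit 5) (nat_lit 280) (nat_lit 5) (nat_lit 281) (nat_lit 5) (nat_lit 447) (nat_lit 392) (nat_lit 301)) (XT.lf (nat_lit 0) (nat_lit 1963026367) (nat_lit 608) (nat_lit 6482231538) (nat_lit 684) (nat_lit 1723765864) (nat_lit 263) (nat_lit 5) (nat_lit 271) (nat_lit 5) (nat_lit 272) (nat_lit 5) (nat_lit 448) (nat_lit 392) (nat_lit 300)))))) (XT.nd (nat_lit 390) (nat_lit 1824) (nat_lit 0) (XT.nd (nat_lit 156) (nat_lit 1216) (nat_lit 0) (XT.nd (nat_lit 78) (nat_lit 684) (nat_lit 0) (XT.lf (nat_lit 0) (nat_lit 609230229) (nat_lit 684) (nat_lit 2133745884) (nat_lit 76) (nat_lit 7532170767) (nat_lit 262) (nat_lit 5) (nat_lit 271) (nat_lit 5) (nat_lit 263) (nat_lit 5) (nat_lit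 449) (nat_lit 392) (nat_lit 299)) (XT.lf (nat_lit 0) (nat_lit 2975576170) (nat_lit 760) (nat_lit 6316907784) (nat_lit 76) (nat_lit 1090492214) (nat_lit 253) (nat_lit 5) (nat_lit 263) (nat_lit 5) (nat_lit 254) (nat_lit 5) (nat_lit 450) (nat_lit 392) (nat_lit 298))) (XT.nd (nat_lit 78) (nat_lit 1216) (nat_lit 0) (XT.lf (nat_lit 0) (nat_lit 5398208623) (nat_lit 760) (nat_lit 120965030) (nat_lit 76) (nat_lit 4973616076) (nat_lit 253) (nat_lit 5) (nat_lit 263) (nat_lit 5) (nat_lit 254) (nat_lit 5) (nat_lit 451) (nat_lit 392) (nat_lit 297)) (XT.nd (nat_lit 78) (nat_lit 608) (nat_lit 0) (XT.lf (nat_lit 0) (nat_lit 6252634776) (nat_lit 608) (nat_lit 1634099129) (nat_lit 684) (nat_lit 2717723599) (nat_lit 245) (nat_lit 5) (nat_lit 253) (nat_lit 5) (nat_lit 254) (nat_lit 5) (nat_lit 452) (nat_lit 392) (nat_lit 296)) (XT.lf (nat_lit 0) (nat_lit 2019859181) (nat_lit 608) (nat_lit 8411303125) (nat_lit 684) (nat_lit 287080289) (nat_lit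 237) (nat_lit 5) (nat_lit 245) (nat_lit 5) (nat_lit 246) (nat_lit 5) (nat_lit 453) (nat_lit 392) (nat_lit 295))))) (XT.nd (nat_lit 234) (nat_lit 1216) (nat_lit 0) (XT.nd (nat_lit 78) (nat_lit 532) (nat_lit 0) (XT.lf (nat_lit 0) (nat_lit 2180834354) (nat_lit 684) (nat_lit 2309635544) (nat_lit 76) (nat_lit 6343207003) (nat_lit 236) (nat_lit 5) (nat_lit 245) (nat_lit 5) (nat_lit 237) (nat_lit 5) (nat_lit 454) (nat_lit 392) (nat_lit 294)) (XT.nd (nat_lit 78) (nat_lit 0) (nat_lit 0) (XT.lf (nat_lit 0) (nat_lit 4232423776) (nat_lit 532) (nat_lit 466961023) (nat_lit 608) (nat_lit 6251900942) (nat_lit 229) (nat_lit 5) (nat_lit 236) (nat_lit 5) (nat_lit 237) (nat_lit 5) (nat_lit 455) (nat_lit 392) (nat_lit 293)) (XT.lf (nat_lit 0) (nat_lit 7285379781) (nat_lit 608) (nat_lit 186318645) (nat_lit 76) (nat_lit 3599212970) (nat_lit 229) (nat_lit 5) (nat_lit 237) (nat_lit 5) (nat_lit 230) (nat_lit 5) (nat_lit 456) (nat_lit 392) (nat_lit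 292)))) (XT.nd (nat_lit 78) (nat_lit 608) (nat_lit 0) (XT.lf (nat_lit 0) (nat_lit 6531705130) (nat_lit 608) (nat_lit 3415182391) (nat_lit 684) (nat_lit 1245572178) (nat_lit 221) (nat_lit 5) (nat_lit 229) (nat_lit 5) (nat_lit 230) (nat_lit 5) (nat_lit 457) (nat_lit 392) (nat_lit 291)) (XT.nd (nat_lit 78) (nat_lit 0) (nat_lit 0) (XT.lf (nat_lit 0) (nat_lit 1325377623) (nat_lit 608) (nat_lit 9260582837) (nat_lit 76) (nat_lit 730352917) (nat_lit 213) (nat_lit 5) (nat_lit 221) (nat_lit 5) (nat_lit 214) (nat_lit 5) (nat_lit 458) (nat_lit 392) (nat_lit 290)) (XT.lf (nat_lit 0) (nat_lit 3963778289) (nat_lit 608) (nat_lit 2531430169) (nat_lit 76) (nat_lit 4946622449) (nat_lit 213) (nat_lit 5) (nat_lit 221) (nat_lit 5) (nat_lit 214) (nat_lit 5) (nat_lit 459) (nat_lit 392) (nat_lit 289))))))) (XT.nd (nat_lit 858) (nat_lit 2584) (nat_lit 0) (XT.nd (nat_lit 390) (nat_lit 1900) (nat_lit 0) (XT.nd (nat_lit 156) (nat_lit 1140) (nat_lit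 0) (XT.nd (nat_lit 78) (nat_lit 0) (nat_lit 0) (XT.lf (nat_lit 0) (nat_lit 4362002607) (nat_lit 532) (nat_lit 2300279242) (nat_lit 608) (nat_lit 4907435777) (nat_lit 206) (nat_lit 5) (nat_lit 213) (nat_lit 5) (nat_lit 214) (nat_lit 5) (nat_lit 460) (nat_lit 392) (nat_lit 288)) (XT.lf (nat_lit 0) (nat_lit 9423906458) (nat_lit 608) (nat_lit 312870792) (nat_lit 76) (nat_lit 1963207233) (nat_lit 206) (nat_lit 5) (nat_lit 214) (nat_lit 5) (nat_lit 207) (nat_lit 5) (nat_lit 461) (nat_lit 392) (nat_lit 287))) (XT.nd (nat_lit 78) (nat_lit 532) (nat_lit 0) (XT.lf (nat_lit 0) (nat_lit 441585977) (nat_lit 608) (nat_lit 5068779710) (nat_lit 76) (nat_lit 6321662660) (nat_lit 198) (nat_lit 5) (nat_lit 206) (nat_lit 5) (nat_lit 199) (nat_lit 5) (nat_lit 462) (nat_lit 392) (nat_lit 286)) (XT.nd (nat_lit 78) (nat_lit 0) (nat_lit 0) (XT.lf (nat_lit 0) (nat_lit 2002373579) (nat_lit 532) (nat_lit 1175594458) (nat_lit 608) (nat_lit 8788552437)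 (nat_lit 191) (nat_lit 5) (nat_lit 198) (nat_lit 5) (nat_lit 199) (nat_lit 5) (nat_lit 463) (nat_lit 392) (nat_lit 285)) (XT.lf (nat_lit 0) (nat_lit 6004267102) (nat_lit 608) (nat_lit 2868106018) (nat_lit 76) (nat_lit 3230630549) (nat_lit 191) (nat_lit 5) (nat_lit 199) (nat_lit 5) (nat_lit 192) (nat_lit 5) (nat_lit 464) (nat_lit 392) (nat_lit 284))))) (XT.nd (nat_lit 234) (nat_lit 912) (nat_lit 0) (XT.nd (nat_lit 78) (nat_lit 532) (nat_lit 0) (XT.lf (nat_lit 0) (nat_lit 4392777625) (nat_lit 456) (nat_lit 4510890906) (nat_lit 532) (nat_lit 3338221383) (nat_lit 185) (nat_lit 5) (nat_lit 191) (nat_lit 5) (nat_lit 192) (nat_lit 5) (nat_lit 465) (nat_lit 392) (nat_lit 283)) (XT.nd (nat_lit 78) (nat_lit 532) (nat_lit 0) (XT.lf (nat_lit 0) (nat_lit 11811029152) (nat_lit 456) (nat_lit 49758828) (nat_lit 532) (nat_lit 522776121) (nat_lit 185) (nat_lit 5) (nat_lit 191) (nat_lit 5) (nat_lit 192) (nat_lit 5) (nat_lit 466) (nat_lit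 392) (nat_lit 282)) (XT.lf (nat_lit 0) (nat_lit 2373265835) (nat_lit 532) (nat_lit 5658501276) (nat_lit 76) (nat_lit 4494902369) (nat_lit 178) (nat_lit 5) (nat_lit 185) (nat_lit 5) (nat_lit 179) (nat_lit 5) (nat_lit 467) (nat_lit 392) (nat_lit 281)))) (XT.nd (nat_lit 78) (nat_lit 456) (nat_lit 0) (XT.lf (nat_lit 0) (nat_lit 1785862050) (nat_lit 456) (nat_lit 3531060027) (nat_lit 532) (nat_lit 7355716448) (nat_lit 172) (nat_lit 5) (nat_lit 178) (nat_lit 5) (nat_lit 179) (nat_lit 5) (nat_lit 468) (nat_lit 392) (nat_lit 280)) (XT.nd (nat_lit 78) (nat_lit 456) (nat_lit 0) (XT.lf (nat_lit 0) (nat_lit 8345603175) (nat_lit 532) (nat_lit 3398871116) (nat_lit 76) (nat_lit 1076534078) (nat_lit 172) (nat_lit 5) (nat_lit 179) (nat_lit 5) (nat_lit 173) (nat_lit 5) (nat_lit 469) (nat_lit 392) (nat_lit 279)) (XT.lf (nat_lit 0) (nat_lit 4244817411) (nat_lit 456) (nat_lit 7222405468) (nat_lit 532) (nat_lit 1504479794) (nat_lit 166) (nat_lit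 5) (nat_lit 172) (nat_lit 5) (nat_lit 173) (nat_lit 5) (nat_lit 470) (nat_lit 392) (nat_lit 278)))))) (XT.nd (nat_lit 390) (nat_lit 1216) (nat_lit 0) (XT.nd (nat_lit 156) (nat_lit 912) (nat_lit 0) (XT.nd (nat_lit 78) (nat_lit 380) (nat_lit 0) (XT.lf (nat_lit 0) (nat_lit 1510300647) (nat_lit 532) (nat_lit 1073899763) (nat_lit 76) (nat_lit 10540927537) (nat_lit 165) (nat_lit 5) (nat_lit 172) (nat_lit 5) (nat_lit 166) (nat_lit 5) (nat_lit 471) (nat_lit 392) (nat_lit 277)) (XT.lf (nat_lit 0) (nat_lit 4605403902) (nat_lit 456) (nat_lit 6509804428) (nat_lit 76) (nat_lit 2165415175) (nat_lit 160) (nat_lit 5) (nat_lit 166) (nat_lit 5) (nat_lit 161) (nat_lit 5) (nat_lit 472) (nat_lit 392) (nat_lit 276))) (XT.nd (nat_lit 78) (nat_lit 456) (nat_lit 0) (XT.lf (nat_lit 0) (nat_lit 1322116309) (nat_lit 456) (nat_lit 6455236570) (nat_lit 532) (nat_lit 5661581251) (nat_lit 154) (nat_lit 5) (nat_lit 160) (nat_lit 5) (nat_lit 161) (nat_lit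 5) (nat_lit 473) (nat_lit 392) (nat_lit 275)) (XT.nd (nat_lit 78) (nat_lit 456) (nat_lit 0) (XT.lf (nat_lit 0) (nat_lit 9373122112) (nat_lit 456) (nat_lit 1665480099) (nat_lit 532) (nat_lit 2561295482) (nat_lit 154) (nat_lit 5) (nat_lit 160) (nat_lit 5) (nat_lit 161) (nat_lit 5) (nat_lit 474) (nat_lit 392) (nat_lit 274)) (XT.lf (nat_lit 0) (nat_lit 621512271) (nat_lit 456) (nat_lit 9942878563) (nat_lit 76) (nat_lit 3199047482) (nat_lit 148) (nat_lit 5) (nat_lit 154) (nat_lit 5) (nat_lit 149) (nat_lit 5) (nat_lit 475) (nat_lit 392) (nat_lit 273))))) (XT.nd (nat_lit 234) (nat_lit 456) (nat_lit 0) (XT.nd (nat_lit 78) (nat_lit 760) (nat_lit 0) (XT.lf (nat_lit 0) (nat_lit 3855829691) (nat_lit 456) (nat_lit 1897385060) (nat_lit 76) (nat_lit 8176257135) (nat_lit 148) (nat_lit 5) (nat_lit 154) (nat_lit 5) (nat_lit 149) (nat_lit 5) (nat_lit 476) (nat_lit 392) (nat_lit 272)) (XT.nd (nat_lit 78) (nat_lit 380) (nat_lit 0) (XT.lf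 (nat_lit 0) (nat_lit 6367370952) (nat_lit 380) (nat_lit 811681939) (nat_lit 456) (nat_lit 6919292500) (nat_lit 143) (nat_lit 5) (nat_lit 148) (nat_lit 5) (nat_lit 149) (nat_lit 5) (nat_lit 477) (nat_lit 392) (nat_lit 271)) (XT.lf (nat_lit 0) (nat_lit 506623251) (nat_lit 380) (nat_lit 10088678296) (nat_lit 456) (nat_lit 3674767179) (nat_lit 138) (nat_lit 5) (nat_lit 143) (nat_lit 5) (nat_lit 144) (nat_lit 5) (nat_lit 478) (nat_lit 392) (nat_lit 270)))) (XT.nd (nat_lit 78) (nat_lit 456) (nat_lit 0) (XT.lf (nat_lit 0) (nat_lit 8983206405) (nat_lit 380) (nat_lit 5137057452) (nat_lit 456) (nat_lit 324158406) (nat_lit 138) (nat_lit 5) (nat_lit 143) (nat_lit 5) (nat_lit 144) (nat_lit 5) (nat_lit 479) (nat_lit 392) (nat_lit 269)) (XT.nd (nat_lit 78) (nat_lit 0) (nat_lit 0) (XT.lf (nat_lit 0) (nat_lit 3001491874) (nat_lit 380) (nat_lit 54274119) (nat_lit 456) (nat_lit 11566041059) (nat_lit 132) (nat_lit 5) (nat_lit 137) (nat_lit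 5) (nat_lit 138) (nat_lit 5) (nat_lit 480) (nat_lit 392) (nat_lit 268)) (XT.lf (nat_lit 0) (nat_lit 6552650331) (nat_lit 456) (nat_lit 3155184569) (nat_lit 76) (nat_lit 5093791053) (nat_lit 132) (nat_lit 5) (nat_lit 138) (nat_lit 5) (nat_lit 133) (nat_lit 5) (nat_lit 481) (nat_lit 392) (nat_lit 267))))))))
noncomputable def xc127 : XT := (XT.nd (nat_lit 1716) (nat_lit 0) (nat_lit 0) (XT.nd (nat_lit 858) (nat_lit 1824) (nat_lit 0) (XT.nd (nat_lit 390) (nat_lit 1444) (nat_lit 0) (XT.nd (nat_lit 156) (nat_lit 760) (nat_lit 0) (XT.nd (nat_lit 78) (nat_lit 0) (nat_lit 0) (XT.lf (nat_lit 0) (nat_lit 5526902912) (nat_lit 380) (nat_lit 4612635845) (nat_lit 456) (nat_lit 4845104388) (nat_lit 127) (nat_lit 5) (nat_lit 132) (nat_lit 5) (nat_lit 133) (nat_lit 5) (nat_lit 482) (nat_lit 392) (nat_lit 266)) (XT.lf (nat_lit 0) (nat_lit 13807201029) (nat_lit 456) (nat_lit 774012008) (nat_lit 76) (nat_lit 589930100) (nat_lit 127) (nat_lit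 5) (nat_lit 133) (nat_lit 5) (nat_lit 128) (nat_lit 5) (nat_lit 483) (nat_lit 392) (nat_lit 265))) (XT.nd (nat_lit 78) (nat_lit 304) (nat_lit 0) (XT.lf (nat_lit 0) (nat_lit 2226218488) (nat_lit 456) (nat_lit 7239228223) (nat_lit 76) (nat_lit 5894284387) (nat_lit 121) (nat_lit 5) (nat_lit 127) (nat_lit 5) (nat_lit 122) (nat_lit 5) (nat_lit 484) (nat_lit 392) (nat_lit 264)) (XT.nd (nat_lit 78) (nat_lit 0) (nat_lit 0) (XT.lf (nat_lit 0) (nat_lit 1639698314) (nat_lit 304) (nat_lit 4230402767) (nat_lit 380) (nat_lit 9681808779) (nat_lit 117) (nat_lit 5) (nat_lit 121) (nat_lit 5) (nat_lit 122) (nat_lit 5) (nat_lit 485) (nat_lit 392) (nat_lit 263)) (XT.lf (nat_lit 0) (nat_lit 9627352594) (nat_lit 380) (nat_lit 4984404853) (nat_lit 76) (nat_lit 1135367862) (nat_lit 117) (nat_lit 5) (nat_lit 122) (nat_lit 5) (nat_lit 118) (nat_lit 5) (nat_lit 486) (nat_lit 392) (nat_lit 262))))) (XT.nd (nat_lit 234) (nat_lit 684) (nat_lit 0)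 (XT.nd (nat_lit 78) (nat_lit 380) (nat_lit 0) (XT.lf (nat_lit 0) (nat_lit 4124254993) (nat_lit 380) (nat_lit 9374981508) (nat_lit 456) (nat_lit 2446221697) (nat_lit 112) (nat_lit 5) (nat_lit 117) (nat_lit 5) (nat_lit 118) (nat_lit 5) (nat_lit 487) (nat_lit 392) (nat_lit 261)) (XT.nd (nat_lit 78) (nat_lit 304) (nat_lit 0) (XT.lf (nat_lit 0) (nat_lit 1302147231) (nat_lit 456) (nat_lit 2696929578) (nat_lit 76) (nat_lit 12148146649) (nat_lit 111) (nat_lit 5) (nat_lit 117) (nat_lit 5) (nat_lit 112) (nat_lit 5) (nat_lit 488) (nat_lit 392) (nat_lit 260)) (XT.lf (nat_lit 0) (nat_lit 5130997993) (nat_lit 380) (nat_lit 9704528460) (nat_lit 76) (nat_lit 1516411505) (nat_lit 107) (nat_lit 5) (nat_lit 112) (nat_lit 5) (nat_lit 108) (nat_lit 5) (nat_lit 489) (nat_lit 392) (nat_lit 259)))) (XT.nd (nat_lit 78) (nat_lit 684) (nat_lit 0) (XT.lf (nat_lit 0) (nat_lit 9066252569) (nat_lit 380) (nat_lit 395245986) (nat_lit 76) (nat_lit 7098654316)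 (nat_lit 107) (nat_lit 5) (nat_lit 112) (nat_lit 5) (nat_lit 108) (nat_lit 5) (nat_lit 490) (nat_lit 392) (nat_lit 258)) (XT.nd (nat_lit 78) (nat_lit 380) (nat_lit 0) (XT.lf (nat_lit 0) (nat_lit 9197863243) (nat_lit 304) (nat_lit 3927484462) (nat_lit 380) (nat_lit 3646284274) (nat_lit 103) (nat_lit 5) (nat_lit 107) (nat_lit 5) (nat_lit 108) (nat_lit 5) (nat_lit 491) (nat_lit 392) (nat_lit 257)) (XT.lf (nat_lit 0) (nat_lit 286970682) (nat_lit 380) (nat_lit 14996188517) (nat_lit 76) (nat_lit 1703901114) (nat_lit 98) (nat_lit 5) (nat_lit 103) (nat_lit 5) (nat_lit 99) (nat_lit 5) (nat_lit 492) (nat_lit 392) (nat_lit 256)))))) (XT.nd (nat_lit 390) (nat_lit 1140) (nat_lit 0) (XT.nd (nat_lit 156) (nat_lit 380) (nat_lit 0) (XT.nd (nat_lit 78) (nat_lit 304) (nat_lit 0) (XT.lf (nat_lit 0) (nat_lit 4312820889) (nat_lit 380) (nat_lit 5429924230) (nat_lit 76) (nat_lit 7462317437) (nat_lit 98) (nat_lit 5) (nat_lit 103) (nat_lit 5)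 (nat_lit 99) (nat_lit 5) (nat_lit 493) (nat_lit 392) (nat_lit 255)) (XT.lf (nat_lit 0) (nat_lit 4362210761) (nat_lit 304) (nat_lit 4071121143) (nat_lit 380) (nat_lit 8993812470) (nat_lit 94) (nat_lit 5) (nat_lit 98) (nat_lit 5) (nat_lit 99) (nat_lit 5) (nat_lit 494) (nat_lit 392) (nat_lit 254))) (XT.nd (nat_lit 78) (nat_lit 380) (nat_lit 0) (XT.lf (nat_lit 0) (nat_lit 12669958371) (nat_lit 380) (nat_lit 3263260832) (nat_lit 76) (nat_lit 1719776884) (nat_lit 94) (nat_lit 5) (nat_lit 99) (nat_lit 5) (nat_lit 95) (nat_lit 5) (nat_lit 495) (nat_lit 392) (nat_lit 253)) (XT.nd (nat_lit 78) (nat_lit 76) (nat_lit 0) (XT.lf (nat_lit 0) (nat_lit 6774027965) (nat_lit 304) (nat_lit 10274406722) (nat_lit 380) (nat_lit 833790117) (nat_lit 90) (nat_lit 5) (nat_lit 94) (nat_lit 5) (nat_lit 95) (nat_lit 5) (nat_lit 496) (nat_lit 392) (nat_lit 252)) (XT.lf (nat_lit 0) (nat_lit 3362123541) (nat_lit 380) (nat_lit 1103850959) (nat_lit 76)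 (nat_lit 13649459475) (nat_lit 89) (nat_lit 5) (nat_lit 94) (nat_lit 5) (nat_lit 90) (nat_lit 5) (nat_lit 497) (nat_lit 392) (nat_lit 251))))) (XT.nd (nat_lit 234) (nat_lit 608) (nat_lit 0) (XT.nd (nat_lit 78) (nat_lit 228) (nat_lit 0) (XT.lf (nat_lit 0) (nat_lit 7686820629) (nat_lit 380) (nat_lit 9168385687) (nat_lit 76) (nat_lit 1496872376) (nat_lit 85) (nat_lit 5) (nat_lit 90) (nat_lit 5) (nat_lit 86) (nat_lit 5) (nat_lit 498) (nat_lit 392) (nat_lit 250)) (XT.nd (nat_lit 78) (nat_lit 0) (nat_lit 0) (XT.lf (nat_lit 0) (nat_lit 1060960839) (nat_lit 228) (nat_lit 11067520812) (nat_lit 304) (nat_lit 6464367391) (nat_lit 82) (nat_lit 5) (nat_lit 85) (nat_lit 5) (nat_lit 86) (nat_lit 5) (nat_lit 499) (nat_lit 392) (nat_lit 249)) (XT.lf (nat_lit 0) (nat_lit 11597347237) (nat_lit 228) (nat_lit 5109824445) (nat_lit 304) (nat_lit 2130301300) (nat_lit 82) (nat_lit 5) (nat_lit 85) (nat_lit 5) (nat_lit 86) (nat_lit 5) (nat_lit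 500) (nat_lit 392) (nat_lit 248)))) (XT.nd (nat_lit 78) (nat_lit 228) (nat_lit 0) (XT.lf (nat_lit 0) (nat_lit 2274904059) (nat_lit 380) (nat_lit 15829165248) (nat_lit 76) (nat_lit 982334736) (nat_lit 77) (nat_lit 5) (nat_lit 82) (nat_lit 5) (nat_lit 78) (nat_lit 5) (nat_lit 501) (nat_lit 392) (nat_lit 247)) (XT.nd (nat_lit 78) (nat_lit 228) (nat_lit 0) (XT.lf (nat_lit 0) (nat_lit 6809370322) (nat_lit 380) (nat_lit 5346561270) (nat_lit 76) (nat_lit 7182708852) (nat_lit 77) (nat_lit 5) (nat_lit 82) (nat_lit 5) (nat_lit 78) (nat_lit 5) (nat_lit 502) (nat_lit 392) (nat_lit 246)) (XT.lf (nat_lit 0) (nat_lit 5395236562) (nat_lit 228) (nat_lit 6061483665) (nat_lit 304) (nat_lit 8138759398) (nat_lit 74) (nat_lit 5) (nat_lit 77) (nat_lit 5) (nat_lit 78) (nat_lit 5) (nat_lit 503) (nat_lit 392) (nat_lit 245))))))) (XT.nd (nat_lit 51480) (nat_lit 0) (nat_lit 37088) (XT.nd (nat_lit 51012) (nat_lit 0) (nat_lit 40280) (XT.nd (nat_lit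 50778) (nat_lit 0) (nat_lit 41192) (XT.nd (nat_lit 50700) (nat_lit 0) (nat_lit 42104) (XT.lf (nat_lit 0) (nat_lit 16221363800) (nat_lit 304) (nat_lit 3454916814) (nat_lit 76) (nat_lit 180689941) (nat_lit 74) (nat_lit 5) (nat_lit 78) (nat_lit 5) (nat_lit 75) (nat_lit 5) (nat_lit 504) (nat_lit 392) (nat_lit 244)) (XT.lf (nat_lit 0) (nat_lit 361505104) (nat_lit 0) (nat_lit 361505104) (nat_lit 836) (nat_lit 2660687847) (nat_lit 628) (nat_lit 5) (nat_lit 628) (nat_lit 3) (nat_lit 639) (nat_lit 3) (nat_lit 393) (nat_lit 393) (nat_lit 354))) (XT.nd (nat_lit 78) (nat_lit 912) (nat_lit 0) (XT.lf (nat_lit 0) (nat_lit 3517372344) (nat_lit 836) (nat_lit 2770340585) (nat_lit 912) (nat_lit 505190714) (nat_lit 628) (nat_lit 5) (nat_lit 639) (nat_lit 3) (nat_lit 640) (nat_lit 5) (nat_lit 394) (nat_lit 393) (nat_lit 353)) (XT.nd (nat_lit 78) (nat_lit 912) (nat_lit 0) (XT.lf (nat_lit 76) (nat_lit 543311036) (nat_lit 0) (nat_lit 5041464993)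 (nat_lit 912) (nat_lit 1235079782) (nat_lit 629) (nat_lit 5) (nat_lit 628) (nat_lit 5) (nat_lit 640) (nat_lit 5) (nat_lit 395) (nat_lit 393) (nat_lit 352)) (XT.lf (nat_lit 0) (nat_lit 800600437) (nat_lit 912) (nat_lit 2920563264) (nat_lit 988) (nat_lit 3126789025) (nat_lit 616) (nat_lit 5) (nat_lit 628) (nat_lit 5) (nat_lit 629) (nat_lit 5) (nat_lit 396) (nat_lit 393) (nat_lit 351))))) (XT.nd (nat_lit 234) (nat_lit 912) (nat_lit 0) (XT.nd (nat_lit 78) (nat_lit 0) (nat_lit 0) (XT.lf (nat_lit 76) (nat_lit 472358158) (nat_lit 0) (nat_lit 2339027693) (nat_lit 988) (nat_lit 4066069289) (nat_lit 617) (nat_lit 5) (nat_lit 616) (nat_lit 5) (nat_lit 629) (nat_lit 5) (nat_lit 397) (nat_lit 393) (nat_lit 350)) (XT.nd (nat_lit 78) (nat_lit 0) (nat_lit 76) (XT.lf (nat_lit 76) (nat_lit 3944717065) (nat_lit 0) (nat_lit 885956162) (nat_lit 988) (nat_lit 2077533576) (nat_lit 617) (nat_lit 5) (nat_lit 616) (nat_lit 5) (nat_lit 629) (nat_lit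 5) (nat_lit 398) (nat_lit 393) (nat_lit 349)) (XT.lf (nat_lit 76) (nat_lit 521275880) (nat_lit 0) (nat_lit 6326167901) (nat_lit 988) (nat_lit 93012207) (nat_lit 618) (nat_lit 5) (nat_lit 617) (nat_lit 5) (nat_lit 630) (nat_lit 5) (nat_lit 399) (nat_lit 393) (nat_lit 348)))) (XT.nd (nat_lit 78) (nat_lit 0) (nat_lit 0) (XT.lf (nat_lit 0) (nat_lit 1882047518) (nat_lit 988) (nat_lit 2904717621) (nat_lit 1064) (nat_lit 2186834214) (nat_lit 604) (nat_lit 5) (nat_lit 617) (nat_lit 5) (nat_lit 618) (nat_lit 5) (nat_lit 400) (nat_lit 393) (nat_lit 347)) (XT.nd (nat_lit 78) (nat_lit 0) (nat_lit 0) (XT.lf (nat_lit 76) (nat_lit 659503625) (nat_lit 0) (nat_lit 3191407600) (nat_lit 1064) (nat_lit 3157394127) (nat_lit 605) (nat_lit 5) (nat_lit 604) (nat_lit 5) (nat_lit 618) (nat_lit 5) (nat_lit 401) (nat_lit 393) (nat_lit 346)) (XT.lf (nat_lit 76) (nat_lit 4306007407) (nat_lit 0) (nat_lit 1524673456) (nat_lit 1064) (nat_lit 1213616612)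 (nat_lit 605) (nat_lit 5) (nat_lit 604) (nat_lit 5) (nat_lit 618) (nat_lit 5) (nat_lit 402) (nat_lit 393) (nat_lit 345)))))) (XT.nd (nat_lit 390) (nat_lit 1140) (nat_lit 0) (XT.nd (nat_lit 156) (nat_lit 1064) (nat_lit 0) (XT.nd (nat_lit 78) (nat_lit 0) (nat_lit 0) (XT.lf (nat_lit 0) (nat_lit 718921448) (nat_lit 1064) (nat_lit 6160018431) (nat_lit 1140) (nat_lit 202791977) (nat_lit 591) (nat_lit 5) (nat_lit 605) (nat_lit 5) (nat_lit 606) (nat_lit 5) (nat_lit 403) (nat_lit 393) (nat_lit 344)) (XT.lf (nat_lit 0) (nat_lit 2655976964) (nat_lit 1064) (nat_lit 2475124188) (nat_lit 1140) (nat_lit 1989032265) (nat_lit 591) (nat_lit 5) (nat_lit 605) (nat_lit 5) (nat_lit 606) (nat_lit 5) (nat_lit 404) (nat_lit 393) (nat_lit 343))) (XT.nd (nat_lit 78) (nat_lit 1064) (nat_lit 0) (XT.lf (nat_lit 76) (nat_lit 1271361743) (nat_lit 0) (nat_lit 3323085582) (nat_lit 1140) (nat_lit 2565623067) (nat_lit 592) (nat_lit 5) (nat_lit 591) (nat_lit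 5) (nat_lit 606) (nat_lit 5) (nat_lit 405) (nat_lit 393) (nat_lit 342)) (XT.nd (nat_lit 78) (nat_lit 1064) (nat_lit 0) (XT.lf (nat_lit 76) (nat_lit 5097737365) (nat_lit 0) (nat_lit 1445686437) (nat_lit 1140) (nat_lit 657968018) (nat_lit 592) (nat_lit 5) (nat_lit 591) (nat_lit 5) (nat_lit 606) (nat_lit 5) (nat_lit 406) (nat_lit 393) (nat_lit 341)) (XT.lf (nat_lit 0) (nat_lit 1241241154) (nat_lit 1140) (nat_lit 5504370902) (nat_lit 1216) (nat_lit 498374219) (nat_lit 577) (nat_lit 5) (nat_lit 592) (nat_lit 5) (nat_lit 593) (nat_lit 5) (nat_lit 407) (nat_lit 393) (nat_lit 340))))) (XT.nd (nat_lit 234) (nat_lit 1140) (nat_lit 0) (XT.nd (nat_lit 78) (nat_lit 0) (nat_lit 0) (XT.lf (nat_lit 0) (nat_lit 3149895281) (nat_lit 1140) (nat_lit 1642349626) (nat_lit 1216) (nat_lit 2495514577) (nat_lit 577) (nat_lit 5) (nat_lit 592) (nat_lit 5) (nat_lit 593) (nat_lit 5) (nat_lit 408) (nat_lit 393) (nat_lit 339)) (XT.nd (nat_lit 78) (nat_lit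 0) (nat_lit 0) (XT.lf (nat_lit 76) (nat_lit 2298189957) (nat_lit 0) (nat_lit 2770785796) (nat_lit 1216) (nat_lit 2264006231) (nat_lit 578) (nat_lit 5) (nat_lit 577) (nat_lit 5) (nat_lit 593) (nat_lit 5) (nat_lit 409) (nat_lit 393) (nat_lit 338)) (XT.lf (nat_lit 76) (nat_lit 6311129414) (nat_lit 0) (nat_lit 684311804) (nat_lit 1216) (nat_lit 384306168) (nat_lit 578) (nat_lit 5) (nat_lit 577) (nat_lit 5) (nat_lit 593) (nat_lit 5) (nat_lit 410) (nat_lit 393) (nat_lit 337)))) (XT.nd (nat_lit 78) (nat_lit 0) (nat_lit 0) (XT.lf (nat_lit 0) (nat_lit 1500380321) (nat_lit 1216) (nat_lit 4460067832) (nat_lit 1292) (nat_lit 1467068723) (nat_lit 562) (nat_lit 5) (nat_lit 578) (nat_lit 5) (nat_lit 579) (nat_lit 5) (nat_lit 411) (nat_lit 393) (nat_lit 336)) (XT.nd (nat_lit 78) (nat_lit 0) (nat_lit 0) (XT.lf (nat_lit 0) (nat_lit 3388594052) (nat_lit 1216) (nat_lit 413906417) (nat_lit 1292) (nat_lit 3674288346) (nat_lit 562) (nat_lit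 5) (nat_lit 578) (nat_lit 5) (nat_lit 579) (nat_lit 5) (nat_lit 412) (nat_lit 393) (nat_lit 335)) (XT.lf (nat_lit 76) (nat_lit 3733311422) (nat_lit 0) (nat_lit 1565523512) (nat_lit 1292) (nat_lit 2228543113) (nat_lit 563) (nat_lit 5) (nat_lit 562) (nat_lit 5) (nat_lit 579) (nat_lit 5) (nat_lit 413) (nat_lit 393) (nat_lit 334))))))))
noncomputable def xc128 : XT := (XT.nd (nat_lit 1638) (nat_lit 9424) (nat_lit 0) (XT.nd (nat_lit 780) (nat_lit 7296) (nat_lit 0) (XT.nd (nat_lit 390) (nat_lit 4712) (nat_lit 0) (XT.nd (nat_lit 156) (nat_lit 2660) (nat_lit 0) (XT.nd (nat_lit 78) (nat_lit 76) (nat_lit 0) (XT.lf (nat_lit 0) (nat_lit 360708839) (nat_lit 1216) (nat_lit 6857051037) (nat_lit 1292) (nat_lit 361826376) (nat_lit 547) (nat_lit 5) (nat_lit 563) (nat_lit 5) (nat_lit 564) (nat_lit 5) (nat_lit 414) (nat_lit 393) (nat_lit 333)) (XT.lf (nat_lit 0) (nat_lit 1518993682) (nat_lit 1292) (nat_lit 3032723991) (nat_lit 76) (nat_lit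 3080996896) (nat_lit 546) (nat_lit 5) (nat_lit 563) (nat_lit 5) (nat_lit 547) (nat_lit 5) (nat_lit 415) (nat_lit 393) (nat_lit 332))) (XT.nd (nat_lit 78) (nat_lit 1368) (nat_lit 0) (XT.lf (nat_lit 0) (nat_lit 1221507473) (nat_lit 1292) (nat_lit 2180776946) (nat_lit 1368) (nat_lit 4285195025) (nat_lit 529) (nat_lit 5) (nat_lit 546) (nat_lit 5) (nat_lit 547) (nat_lit 5) (nat_lit 416) (nat_lit 393) (nat_lit 331)) (XT.nd (nat_lit 78) (nat_lit 1368) (nat_lit 0) (XT.lf (nat_lit 0) (nat_lit 5307650008) (nat_lit 1368) (nat_lit 2172578360) (nat_lit 76) (nat_lit 263438565) (nat_lit 529) (nat_lit 5) (nat_lit 547) (nat_lit 5) (nat_lit 530) (nat_lit 5) (nat_lit 417) (nat_lit 393) (nat_lit 330)) (XT.lf (nat_lit 0) (nat_lit 2191669952) (nat_lit 1368) (nat_lit 5051243138) (nat_lit 1444) (nat_lit 558244471) (nat_lit 511) (nat_lit 5) (nat_lit 529) (nat_lit 5) (nat_lit 530) (nat_lit 5) (nat_lit 418) (nat_lit 393) (nat_lit 329))))) (XT.nd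 (nat_lit 156) (nat_lit 3192) (nat_lit 0) (XT.nd (nat_lit 78) (nat_lit 1444) (nat_lit 0) (XT.lf (nat_lit 0) (nat_lit 1317357591) (nat_lit 1444) (nat_lit 1225384214) (nat_lit 76) (nat_lit 5317333127) (nat_lit 510) (nat_lit 5) (nat_lit 529) (nat_lit 5) (nat_lit 511) (nat_lit 5) (nat_lit 419) (nat_lit 393) (nat_lit 328)) (XT.lf (nat_lit 0) (nat_lit 3208573221) (nat_lit 1520) (nat_lit 4664348514) (nat_lit 76) (nat_lit 47477904) (nat_lit 491) (nat_lit 5) (nat_lit 511) (nat_lit 5) (nat_lit 492) (nat_lit 5) (nat_lit 420) (nat_lit 393) (nat_lit 327))) (XT.nd (nat_lit 78) (nat_lit 3192) (nat_lit 0) (XT.lf (nat_lit 0) (nat_lit 5127403139) (nat_lit 1520) (nat_lit 184549690) (nat_lit 76) (nat_lit 2670196246) (nat_lit 491) (nat_lit 5) (nat_lit 511) (nat_lit 5) (nat_lit 492) (nat_lit 5) (nat_lit 421) (nat_lit 393) (nat_lit 326)) (XT.nd (nat_lit 78) (nat_lit 1672) (nat_lit 0) (XT.lf (nat_lit 0) (nat_lit 4413697148) (nat_lit 1520) (nat_lit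 2664935036) (nat_lit 1596) (nat_lit 966634627) (nat_lit 471) (nat_lit 5) (nat_lit 491) (nat_lit 5) (nat_lit 492) (nat_lit 5) (nat_lit 422) (nat_lit 393) (nat_lit 325)) (XT.lf (nat_lit 0) (nat_lit 920198851) (nat_lit 1672) (nat_lit 7136410444) (nat_lit 76) (nat_lit 53455463) (nat_lit 449) (nat_lit 5) (nat_lit 471) (nat_lit 5) (nat_lit 450) (nat_lit 5) (nat_lit 423) (nat_lit 393) (nat_lit 324)))))) (XT.nd (nat_lit 390) (nat_lit 2660) (nat_lit 0) (XT.nd (nat_lit 156) (nat_lit 2964) (nat_lit 0) (XT.nd (nat_lit 78) (nat_lit 1672) (nat_lit 0) (XT.lf (nat_lit 0) (nat_lit 2840151947) (nat_lit 1672) (nat_lit 2509515706) (nat_lit 76) (nat_lit 2826209665) (nat_lit 449) (nat_lit 5) (nat_lit 471) (nat_lit 5) (nat_lit 450) (nat_lit 5) (nat_lit 424) (nat_lit 393) (nat_lit 323)) (XT.lf (nat_lit 0) (nat_lit 2209639316) (nat_lit 1672) (nat_lit 2570009641) (nat_lit 1748) (nat_lit 3463746987) (nat_lit 427) (nat_lit 5) (nat_lit 449) (nat_lit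 5) (nat_lit 450) (nat_lit 5) (nat_lit 425) (nat_lit 393) (nat_lit 322))) (XT.nd (nat_lit 78) (nat_lit 2964) (nat_lit 0) (XT.lf (nat_lit 0) (nat_lit 6743894296) (nat_lit 1748) (nat_lit 1286323251) (nat_lit 76) (nat_lit 282340692) (nat_lit 427) (nat_lit 5) (nat_lit 450) (nat_lit 5) (nat_lit 428) (nat_lit 5) (nat_lit 426) (nat_lit 393) (nat_lit 321)) (XT.nd (nat_lit 78) (nat_lit 1140) (nat_lit 0) (XT.lf (nat_lit 0) (nat_lit 367620998) (nat_lit 1824) (nat_lit 4828863275) (nat_lit 76) (nat_lit 3186422610) (nat_lit 403) (nat_lit 5) (nat_lit 427) (nat_lit 5) (nat_lit 404) (nat_lit 5) (nat_lit 427) (nat_lit 393) (nat_lit 320)) (XT.lf (nat_lit 0) (nat_lit 14493057) (nat_lit 1140) (nat_lit 2284082448) (nat_lit 1216) (nat_lit 6156352398) (nat_lit 388) (nat_lit 5) (nat_lit 403) (nat_lit 5) (nat_lit 404) (nat_lit 5) (nat_lit 428) (nat_lit 393) (nat_lit 319))))) (XT.nd (nat_lit 234) (nat_lit 1748) (nat_lit 0) (XT.nd (nat_lit 78) (nat_lit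 912) (nat_lit 0) (XT.lf (nat_lit 0) (nat_lit 4273820173) (nat_lit 1216) (nat_lit 3542116874) (nat_lit 76) (nat_lit 712350389) (nat_lit 388) (nat_lit 5) (nat_lit 404) (nat_lit 5) (nat_lit 389) (nat_lit 5) (nat_lit 429) (nat_lit 393) (nat_lit 318)) (XT.nd (nat_lit 78) (nat_lit 0) (nat_lit 0) (XT.lf (nat_lit 0) (nat_lit 1428485340) (nat_lit 912) (nat_lit 4853695841) (nat_lit 988) (nat_lit 2321072037) (nat_lit 376) (nat_lit 5) (nat_lit 388) (nat_lit 5) (nat_lit 389) (nat_lit 5) (nat_lit 430) (nat_lit 393) (nat_lit 317)) (XT.lf (nat_lit 0) (nat_lit 6517416042) (nat_lit 912) (nat_lit 1806688032) (nat_lit 988) (nat_lit 355757417) (nat_lit 376) (nat_lit 5) (nat_lit 388) (nat_lit 5) (nat_lit 389) (nat_lit 5) (nat_lit 431) (nat_lit 393) (nat_lit 316)))) (XT.nd (nat_lit 78) (nat_lit 836) (nat_lit 0) (XT.lf (nat_lit 0) (nat_lit 1625052283) (nat_lit 912) (nat_lit 5817508220) (nat_lit 76) (nat_lit 1315281674) (nat_lit 364) (nat_lit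 5) (nat_lit 376) (nat_lit 5) (nat_lit 365) (nat_lit 5) (nat_lit 432) (nat_lit 393) (nat_lit 315)) (XT.nd (nat_lit 78) (nat_lit 836) (nat_lit 0) (XT.lf (nat_lit 0) (nat_lit 3637710762) (nat_lit 912) (nat_lit 706381428) (nat_lit 76) (nat_lit 4493313762) (nat_lit 364) (nat_lit 5) (nat_lit 376) (nat_lit 5) (nat_lit 365) (nat_lit 5) (nat_lit 433) (nat_lit 393) (nat_lit 314)) (XT.lf (nat_lit 0) (nat_lit 4537702533) (nat_lit 836) (nat_lit 1153381313) (nat_lit 912) (nat_lit 3227478152) (nat_lit 353) (nat_lit 5) (nat_lit 364) (nat_lit 5) (nat_lit 365) (nat_lit 5) (nat_lit 434) (nat_lit 393) (nat_lit 313))))))) (XT.nd (nat_lit 858) (nat_lit 3876) (nat_lit 0) (XT.nd (nat_lit 390) (nat_lit 3040) (nat_lit 0) (XT.nd (nat_lit 156) (nat_lit 1596) (nat_lit 0) (XT.nd (nat_lit 78) (nat_lit 76) (nat_lit 0) (XT.lf (nat_lit 0) (nat_lit 863476866) (nat_lit 836) (nat_lit 6917450254) (nat_lit 912) (nat_lit 1220516014) (nat_lit 342) (nat_lit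 5) (nat_lit 353) (nat_lit 5) (nat_lit 354) (nat_lit 5) (nat_lit 435) (nat_lit 393) (nat_lit 312)) (XT.lf (nat_lit 0) (nat_lit 824534481) (nat_lit 912) (nat_lit 2855877081) (nat_lit 76) (nat_lit 5405296833) (nat_lit 341) (nat_lit 5) (nat_lit 353) (nat_lit 5) (nat_lit 342) (nat_lit 5) (nat_lit 436) (nat_lit 393) (nat_lit 311))) (XT.nd (nat_lit 78) (nat_lit 760) (nat_lit 0) (XT.lf (nat_lit 0) (nat_lit 2528136736) (nat_lit 836) (nat_lit 354552905) (nat_lit 912) (nat_lit 6289046486) (nat_lit 330) (nat_lit 5) (nat_lit 341) (nat_lit 5) (nat_lit 342) (nat_lit 5) (nat_lit 437) (nat_lit 393) (nat_lit 310)) (XT.nd (nat_lit 78) (nat_lit 760) (nat_lit 0) (XT.lf (nat_lit 0) (nat_lit 4993493589) (nat_lit 912) (nat_lit 1249563120) (nat_lit 76) (nat_lit 3016207251) (nat_lit 330) (nat_lit 5) (nat_lit 342) (nat_lit 5) (nat_lit 331) (nat_lit 5) (nat_lit 438) (nat_lit 393) (nat_lit 309)) (XT.lf (nat_lit 0) (nat_lit 4277523476) (nat_lit 760)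 (nat_lit 2872121246) (nat_lit 836) (nat_lit 2198844084) (nat_lit 320) (nat_lit 5) (nat_lit 330) (nat_lit 5) (nat_lit 331) (nat_lit 5) (nat_lit 439) (nat_lit 393) (nat_lit 308))))) (XT.nd (nat_lit 234) (nat_lit 1520) (nat_lit 0) (XT.nd (nat_lit 78) (nat_lit 760) (nat_lit 0) (XT.lf (nat_lit 0) (nat_lit 466216902) (nat_lit 760) (nat_lit 8871190123) (nat_lit 836) (nat_lit 102330264) (nat_lit 310) (nat_lit 5) (nat_lit 320) (nat_lit 5) (nat_lit 321) (nat_lit 5) (nat_lit 440) (nat_lit 393) (nat_lit 307)) (XT.nd (nat_lit 78) (nat_lit 684) (nat_lit 0) (XT.lf (nat_lit 0) (nat_lit 2036181929) (nat_lit 836) (nat_lit 3410810649) (nat_lit 76) (nat_lit 4085026881) (nat_lit 309) (nat_lit 5) (nat_lit 320) (nat_lit 5) (nat_lit 310) (nat_lit 5) (nat_lit 441) (nat_lit 393) (nat_lit 306)) (XT.lf (nat_lit 0) (nat_lit 2263638424) (nat_lit 684) (nat_lit 1941170948) (nat_lit 760) (nat_lit 5421558454) (nat_lit 300) (nat_lit 5) (nat_lit 309) (nat_lit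 5) (nat_lit 310) (nat_lit 5) (nat_lit 442) (nat_lit 393) (nat_lit 305)))) (XT.nd (nat_lit 78) (nat_lit 1520) (nat_lit 0) (XT.lf (nat_lit 0) (nat_lit 6424788242) (nat_lit 760) (nat_lit 1663941564) (nat_lit 76) (nat_lit 1633722001) (nat_lit 300) (nat_lit 5) (nat_lit 310) (nat_lit 5) (nat_lit 301) (nat_lit 5) (nat_lit 443) (nat_lit 393) (nat_lit 304)) (XT.nd (nat_lit 78) (nat_lit 760) (nat_lit 0) (XT.lf (nat_lit 0) (nat_lit 4162279648) (nat_lit 760) (nat_lit 4541595161) (nat_lit 836) (nat_lit 1116296557) (nat_lit 290) (nat_lit 5) (nat_lit 300) (nat_lit 5) (nat_lit 301) (nat_lit 5) (nat_lit 444) (nat_lit 393) (nat_lit 303)) (XT.lf (nat_lit 0) (nat_lit 174544902) (nat_lit 684) (nat_lit 906952395) (nat_lit 760) (nat_lit 8838464995) (nat_lit 280) (nat_lit 5) (nat_lit 289) (nat_lit 5) (nat_lit 290) (nat_lit 5) (nat_lit 445) (nat_lit 393) (nat_lit 302)))))) (XT.nd (nat_lit 390) (nat_lit 2508) (nat_lit 0) (XT.nd (nat_lit 156)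 (nat_lit 684) (nat_lit 0) (XT.nd (nat_lit 78) (nat_lit 684) (nat_lit 0) (XT.lf (nat_lit 0) (nat_lit 3339966382) (nat_lit 760) (nat_lit 3875213910) (nat_lit 76) (nat_lit 2805795438) (nat_lit 280) (nat_lit 5) (nat_lit 290) (nat_lit 5) (nat_lit 281) (nat_lit 5) (nat_lit 446) (nat_lit 393) (nat_lit 301)) (XT.lf (nat_lit 0) (nat_lit 2105846467) (nat_lit 684) (nat_lit 3533174270) (nat_lit 760) (nat_lit 4485087827) (nat_lit 271) (nat_lit 5) (nat_lit 280) (nat_lit 5) (nat_lit 281) (nat_lit 5) (nat_lit 447) (nat_lit 393) (nat_lit 300))) (XT.nd (nat_lit 78) (nat_lit 684) (nat_lit 0) (XT.lf (nat_lit 0) (nat_lit 7987682701) (nat_lit 760) (nat_lit 1999777853) (nat_lit 76) (nat_lit 241778273) (nat_lit 271) (nat_lit 5) (nat_lit 281) (nat_lit 5) (nat_lit 272) (nat_lit 5) (nat_lit 448) (nat_lit 393) (nat_lit 299)) (XT.nd (nat_lit 78) (nat_lit 0) (nat_lit 0) (XT.lf (nat_lit 0) (nat_lit 73169573) (nat_lit 684) (nat_lit 6194299889) (nat_lit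 76) (nat_lit 4068464414) (nat_lit 262) (nat_lit 5) (nat_lit 271) (nat_lit 5) (nat_lit 263) (nat_lit 5) (nat_lit 449) (nat_lit 393) (nat_lit 298)) (XT.lf (nat_lit 0) (nat_lit 2394308075) (nat_lit 684) (nat_lit 54458259) (nat_lit 76) (nat_lit 7995904385) (nat_lit 262) (nat_lit 5) (nat_lit 271) (nat_lit 5) (nat_lit 263) (nat_lit 5) (nat_lit 450) (nat_lit 393) (nat_lit 297))))) (XT.nd (nat_lit 234) (nat_lit 1216) (nat_lit 0) (XT.nd (nat_lit 78) (nat_lit 608) (nat_lit 0) (XT.lf (nat_lit 0) (nat_lit 4789217460) (nat_lit 760) (nat_lit 4302008908) (nat_lit 76) (nat_lit 1463815713) (nat_lit 253) (nat_lit 5) (nat_lit 263) (nat_lit 5) (nat_lit 254) (nat_lit 5) (nat_lit 451) (nat_lit 393) (nat_lit 296)) (XT.nd (nat_lit 78) (nat_lit 0) (nat_lit 0) (XT.lf (nat_lit 0) (nat_lit 2002125902) (nat_lit 608) (nat_lit 5236781089) (nat_lit 684) (nat_lit 3428582854) (nat_lit 245) (nat_lit 5) (nat_lit 253) (nat_lit 5) (nat_lit 254) (nat_lit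 5) (nat_lit 452) (nat_lit 393) (nat_lit 295)) (XT.lf (nat_lit 0) (nat_lit 8463128595) (nat_lit 608) (nat_lit 1280894826) (nat_lit 684) (nat_lit 1038040965) (nat_lit 245) (nat_lit 5) (nat_lit 253) (nat_lit 5) (nat_lit 254) (nat_lit 5) (nat_lit 453) (nat_lit 393) (nat_lit 294)))) (XT.nd (nat_lit 78) (nat_lit 532) (nat_lit 0) (XT.lf (nat_lit 0) (nat_lit 1404978864) (nat_lit 684) (nat_lit 6743978369) (nat_lit 76) (nat_lit 2749336933) (nat_lit 236) (nat_lit 5) (nat_lit 245) (nat_lit 5) (nat_lit 237) (nat_lit 5) (nat_lit 454) (nat_lit 393) (nat_lit 293)) (XT.nd (nat_lit 78) (nat_lit 532) (nat_lit 0) (XT.lf (nat_lit 0) (nat_lit 3885196480) (nat_lit 684) (nat_lit 271052254) (nat_lit 76) (nat_lit 6860423954) (nat_lit 236) (nat_lit 5) (nat_lit 245) (nat_lit 5) (nat_lit 237) (nat_lit 5) (nat_lit 455) (nat_lit 393) (nat_lit 292)) (XT.lf (nat_lit 0) (nat_lit 6388132620) (nat_lit 532) (nat_lit 46868375) (nat_lit 608) (nat_lit 4702024124)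 (nat_lit 229) (nat_lit 5) (nat_lit 236) (nat_lit 5) (nat_lit 237) (nat_lit 5) (nat_lit 456) (nat_lit 393) (nat_lit 291))))))))
noncomputable def xc129 : XT := (XT.nd (nat_lit 1716) (nat_lit 4636) (nat_lit 0) (XT.nd (nat_lit 858) (nat_lit 2660) (nat_lit 0) (XT.nd (nat_lit 390) (nat_lit 2128) (nat_lit 0) (XT.nd (nat_lit 156) (nat_lit 1064) (nat_lit 0) (XT.nd (nat_lit 78) (nat_lit 76) (nat_lit 0) (XT.lf (nat_lit 0) (nat_lit 1895161888) (nat_lit 608) (nat_lit 7160403330) (nat_lit 684) (nat_lit 2203829981) (nat_lit 221) (nat_lit 5) (nat_lit 229) (nat_lit 5) (nat_lit 230) (nat_lit 5) (nat_lit 457) (nat_lit 393) (nat_lit 290)) (XT.lf (nat_lit 0) (nat_lit 351015845) (nat_lit 684) (nat_lit 2677169233) (nat_lit 76) (nat_lit 8355764460) (nat_lit 220) (nat_lit 5) (nat_lit 229) (nat_lit 5) (nat_lit 221) (nat_lit 5) (nat_lit 458) (nat_lit 393) (nat_lit 289))) (XT.nd (nat_lit 78) (nat_lit 532) (nat_lit 0) (XT.lf (nat_lit 0) (nat_lit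 2941636752) (nat_lit 608) (nat_lit 7361738408) (nat_lit 76) (nat_lit 1207050244) (nat_lit 213) (nat_lit 5) (nat_lit 221) (nat_lit 5) (nat_lit 214) (nat_lit 5) (nat_lit 459) (nat_lit 393) (nat_lit 288)) (XT.nd (nat_lit 78) (nat_lit 532) (nat_lit 0) (XT.lf (nat_lit 0) (nat_lit 5601633832) (nat_lit 608) (nat_lit 538866531) (nat_lit 76) (nat_lit 5498584573) (nat_lit 213) (nat_lit 5) (nat_lit 221) (nat_lit 5) (nat_lit 214) (nat_lit 5) (nat_lit 460) (nat_lit 393) (nat_lit 287)) (XT.lf (nat_lit 0) (nat_lit 6478992846) (nat_lit 532) (nat_lit 1857732709) (nat_lit 608) (nat_lit 3433159530) (nat_lit 206) (nat_lit 5) (nat_lit 213) (nat_lit 5) (nat_lit 214) (nat_lit 5) (nat_lit 461) (nat_lit 393) (nat_lit 286))))) (XT.nd (nat_lit 234) (nat_lit 988) (nat_lit 0) (XT.nd (nat_lit 78) (nat_lit 608) (nat_lit 0) (XT.lf (nat_lit 0) (nat_lit 1720897630) (nat_lit 532) (nat_lit 9416748473) (nat_lit 608) (nat_lit 765437808) (nat_lit 199) (nat_lit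 5) (nat_lit 206) (nat_lit 5) (nat_lit 207) (nat_lit 5) (nat_lit 462) (nat_lit 393) (nat_lit 285)) (XT.nd (nat_lit 78) (nat_lit 532) (nat_lit 0) (XT.lf (nat_lit 0) (nat_lit 1958129332) (nat_lit 608) (nat_lit 3145555699) (nat_lit 76) (nat_lit 6934449959) (nat_lit 198) (nat_lit 5) (nat_lit 206) (nat_lit 5) (nat_lit 199) (nat_lit 5) (nat_lit 463) (nat_lit 393) (nat_lit 284)) (XT.lf (nat_lit 0) (nat_lit 4053700922) (nat_lit 532) (nat_lit 679033701) (nat_lit 608) (nat_lit 7442919869) (nat_lit 191) (nat_lit 5) (nat_lit 198) (nat_lit 5) (nat_lit 199) (nat_lit 5) (nat_lit 464) (nat_lit 393) (nat_lit 283)))) (XT.nd (nat_lit 78) (nat_lit 988) (nat_lit 0) (XT.lf (nat_lit 0) (nat_lit 7589630759) (nat_lit 608) (nat_lit 927331270) (nat_lit 76) (nat_lit 3798431199) (nat_lit 191) (nat_lit 5) (nat_lit 199) (nat_lit 5) (nat_lit 192) (nat_lit 5) (nat_lit 465) (nat_lit 393) (nat_lit 282)) (XT.nd (nat_lit 78) (nat_lit 532) (nat_lit 0) (XT.lf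 (nat_lit 0) (nat_lit 6465624409) (nat_lit 456) (nat_lit 4065552741) (nat_lit 532) (nat_lit 1926204066) (nat_lit 185) (nat_lit 5) (nat_lit 191) (nat_lit 5) (nat_lit 192) (nat_lit 5) (nat_lit 466) (nat_lit 393) (nat_lit 281)) (XT.lf (nat_lit 0) (nat_lit 916824042) (nat_lit 532) (nat_lit 11202033260) (nat_lit 76) (nat_lit 483242180) (nat_lit 178) (nat_lit 5) (nat_lit 185) (nat_lit 5) (nat_lit 179) (nat_lit 5) (nat_lit 467) (nat_lit 393) (nat_lit 280)))))) (XT.nd (nat_lit 390) (nat_lit 1292) (nat_lit 0) (XT.nd (nat_lit 156) (nat_lit 912) (nat_lit 0) (XT.nd (nat_lit 78) (nat_lit 456) (nat_lit 0) (XT.lf (nat_lit 0) (nat_lit 3839612760) (nat_lit 532) (nat_lit 3794015998) (nat_lit 76) (nat_lit 5114859324) (nat_lit 178) (nat_lit 5) (nat_lit 185) (nat_lit 5) (nat_lit 179) (nat_lit 5) (nat_lit 468) (nat_lit 393) (nat_lit 279)) (XT.lf (nat_lit 0) (nat_lit 3786223705) (nat_lit 456) (nat_lit 3040852990) (nat_lit 532) (nat_lit 6070607734)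 (nat_lit 172) (nat_lit 5) (nat_lit 178) (nat_lit 5) (nat_lit 179) (nat_lit 5) (nat_lit 469) (nat_lit 393) (nat_lit 278))) (XT.nd (nat_lit 78) (nat_lit 912) (nat_lit 0) (XT.lf (nat_lit 0) (nat_lit 9892375478) (nat_lit 532) (nat_lit 1516446565) (nat_lit 76) (nat_lit 1640685225) (nat_lit 172) (nat_lit 5) (nat_lit 179) (nat_lit 5) (nat_lit 173) (nat_lit 5) (nat_lit 470) (nat_lit 393) (nat_lit 277)) (XT.nd (nat_lit 78) (nat_lit 456) (nat_lit 0) (XT.lf (nat_lit 0) (nat_lit 6267284140) (nat_lit 456) (nat_lit 6794667345) (nat_lit 532) (nat_lit 141559850) (nat_lit 166) (nat_lit 5) (nat_lit 172) (nat_lit 5) (nat_lit 173) (nat_lit 5) (nat_lit 471) (nat_lit 393) (nat_lit 276)) (XT.lf (nat_lit 0) (nat_lit 833347260) (nat_lit 380) (nat_lit 2060354327) (nat_lit 456) (nat_lit 10466559650) (nat_lit 160) (nat_lit 5) (nat_lit 165) (nat_lit 5) (nat_lit 166) (nat_lit 5) (nat_lit 472) (nat_lit 393) (nat_lit 275))))) (XT.nd (nat_lit 234) (nat_lit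 836) (nat_lit 0) (XT.nd (nat_lit 78) (nat_lit 456) (nat_lit 0) (XT.lf (nat_lit 0) (nat_lit 6034949046) (nat_lit 456) (nat_lit 4711558395) (nat_lit 76) (nat_lit 2772680409) (nat_lit 160) (nat_lit 5) (nat_lit 166) (nat_lit 5) (nat_lit 161) (nat_lit 5) (nat_lit 473) (nat_lit 393) (nat_lit 274)) (XT.nd (nat_lit 78) (nat_lit 0) (nat_lit 0) (XT.lf (nat_lit 0) (nat_lit 3264313638) (nat_lit 456) (nat_lit 5992237461) (nat_lit 532) (nat_lit 4424395177) (nat_lit 154) (nat_lit 5) (nat_lit 160) (nat_lit 5) (nat_lit 161) (nat_lit 5) (nat_lit 474) (nat_lit 393) (nat_lit 273)) (XT.lf (nat_lit 0) (nat_lit 11438775734) (nat_lit 456) (nat_lit 1118295739) (nat_lit 532) (nat_lit 1288582471) (nat_lit 154) (nat_lit 5) (nat_lit 160) (nat_lit 5) (nat_lit 161) (nat_lit 5) (nat_lit 475) (nat_lit 393) (nat_lit 272)))) (XT.nd (nat_lit 78) (nat_lit 380) (nat_lit 0) (XT.lf (nat_lit 0) (nat_lit 1930958510) (nat_lit 456) (nat_lit 8236063327) (nat_lit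 76) (nat_lit 3845468340) (nat_lit 148) (nat_lit 5) (nat_lit 154) (nat_lit 5) (nat_lit 149) (nat_lit 5) (nat_lit 476) (nat_lit 393) (nat_lit 271)) (XT.nd (nat_lit 78) (nat_lit 380) (nat_lit 0) (XT.lf (nat_lit 0) (nat_lit 5204530593) (nat_lit 456) (nat_lit 67026088) (nat_lit 76) (nat_lit 8910801796) (nat_lit 148) (nat_lit 5) (nat_lit 154) (nat_lit 5) (nat_lit 149) (nat_lit 5) (nat_lit 477) (nat_lit 393) (nat_lit 270)) (XT.lf (nat_lit 0) (nat_lit 8350733553) (nat_lit 380) (nat_lit 230602159) (nat_lit 456) (nat_lit 5773536707) (nat_lit 143) (nat_lit 5) (nat_lit 148) (nat_lit 5) (nat_lit 149) (nat_lit 5) (nat_lit 478) (nat_lit 393) (nat_lit 269))))))) (XT.nd (nat_lit 858) (nat_lit 2204) (nat_lit 0) (XT.nd (nat_lit 390) (nat_lit 1216) (nat_lit 0) (XT.nd (nat_lit 156) (nat_lit 760) (nat_lit 0) (XT.nd (nat_lit 78) (nat_lit 76) (nat_lit 0) (XT.lf (nat_lit 0) (nat_lit 2381980144) (nat_lit 380) (nat_lit 9675161159) (nat_lit 456)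 (nat_lit 2473069492) (nat_lit 138) (nat_lit 5) (nat_lit 143) (nat_lit 5) (nat_lit 144) (nat_lit 5) (nat_lit 479) (nat_lit 393) (nat_lit 268)) (XT.lf (nat_lit 0) (nat_lit 907487637) (nat_lit 456) (nat_lit 3722995064) (nat_lit 76) (nat_lit 10077944576) (nat_lit 137) (nat_lit 5) (nat_lit 143) (nat_lit 5) (nat_lit 138) (nat_lit 5) (nat_lit 480) (nat_lit 393) (nat_lit 267))) (XT.nd (nat_lit 78) (nat_lit 380) (nat_lit 0) (XT.lf (nat_lit 0) (nat_lit 4341996008) (nat_lit 456) (nat_lit 9998499421) (nat_lit 76) (nat_lit 548999872) (nat_lit 132) (nat_lit 5) (nat_lit 138) (nat_lit 5) (nat_lit 133) (nat_lit 5) (nat_lit 481) (nat_lit 393) (nat_lit 266)) (XT.nd (nat_lit 78) (nat_lit 380) (nat_lit 0) (XT.lf (nat_lit 0) (nat_lit 7885148558) (nat_lit 456) (nat_lit 1400775878) (nat_lit 76) (nat_lit 5787464348) (nat_lit 132) (nat_lit 5) (nat_lit 138) (nat_lit 5) (nat_lit 133) (nat_lit 5) (nat_lit 482) (nat_lit 393) (nat_lit 265)) (XT.lf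 (nat_lit 0) (nat_lit 7442996035) (nat_lit 380) (nat_lit 4088943829) (nat_lit 456) (nat_lit 3728367874) (nat_lit 127) (nat_lit 5) (nat_lit 132) (nat_lit 5) (nat_lit 133) (nat_lit 5) (nat_lit 483) (nat_lit 393) (nat_lit 264))))) (XT.nd (nat_lit 234) (nat_lit 456) (nat_lit 0) (XT.nd (nat_lit 78) (nat_lit 380) (nat_lit 0) (XT.lf (nat_lit 0) (nat_lit 1013589604) (nat_lit 380) (nat_lit 14246541688) (nat_lit 456) (nat_lit 190667550) (nat_lit 122) (nat_lit 5) (nat_lit 127) (nat_lit 5) (nat_lit 128) (nat_lit 5) (nat_lit 484) (nat_lit 393) (nat_lit 263)) (XT.nd (nat_lit 78) (nat_lit 304) (nat_lit 0) (XT.lf (nat_lit 0) (nat_lit 3437445165) (nat_lit 456) (nat_lit 5590271962) (nat_lit 76) (nat_lit 6615652100) (nat_lit 121) (nat_lit 5) (nat_lit 127) (nat_lit 5) (nat_lit 122) (nat_lit 5) (nat_lit 485) (nat_lit 393) (nat_lit 262)) (XT.lf (nat_lit 0) (nat_lit 3454432180) (nat_lit 304) (nat_lit 3688466250) (nat_lit 380) (nat_lit 8696723636)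 (nat_lit 117) (nat_lit 5) (nat_lit 121) (nat_lit 5) (nat_lit 122) (nat_lit 5) (nat_lit 486) (nat_lit 393) (nat_lit 261)))) (XT.nd (nat_lit 78) (nat_lit 456) (nat_lit 0) (XT.lf (nat_lit 0) (nat_lit 10956628342) (nat_lit 380) (nat_lit 3318212609) (nat_lit 76) (nat_lit 1764278482) (nat_lit 117) (nat_lit 5) (nat_lit 122) (nat_lit 5) (nat_lit 118) (nat_lit 5) (nat_lit 487) (nat_lit 393) (nat_lit 260)) (XT.nd (nat_lit 78) (nat_lit 76) (nat_lit 0) (XT.lf (nat_lit 0) (nat_lit 5961002801) (nat_lit 380) (nat_lit 8934048167) (nat_lit 456) (nat_lit 1346590184) (nat_lit 112) (nat_lit 5) (nat_lit 117) (nat_lit 5) (nat_lit 118) (nat_lit 5) (nat_lit 488) (nat_lit 393) (nat_lit 259)) (XT.lf (nat_lit 0) (nat_lit 2439457262) (nat_lit 456) (nat_lit 1016033138) (nat_lit 76) (nat_lit 12992250707) (nat_lit 111) (nat_lit 5) (nat_lit 117) (nat_lit 5) (nat_lit 112) (nat_lit 5) (nat_lit 489) (nat_lit 393) (nat_lit 258)))))) (XT.nd (nat_lit 390)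 (nat_lit 1216) (nat_lit 0) (XT.nd (nat_lit 156) (nat_lit 380) (nat_lit 0) (XT.nd (nat_lit 78) (nat_lit 304) (nat_lit 0) (XT.lf (nat_lit 0) (nat_lit 6338328420) (nat_lit 380) (nat_lit 8157029853) (nat_lit 76) (nat_lit 2161326707) (nat_lit 107) (nat_lit 5) (nat_lit 112) (nat_lit 5) (nat_lit 108) (nat_lit 5) (nat_lit 490) (nat_lit 393) (nat_lit 257)) (XT.lf (nat_lit 0) (nat_lit 1321622783) (nat_lit 304) (nat_lit 9017585167) (nat_lit 380) (nat_lit 6530121718) (nat_lit 103) (nat_lit 5) (nat_lit 107) (nat_lit 5) (nat_lit 108) (nat_lit 5) (nat_lit 491) (nat_lit 393) (nat_lit 256))) (XT.nd (nat_lit 78) (nat_lit 380) (nat_lit 0) (XT.lf (nat_lit 0) (nat_lit 11078027716) (nat_lit 304) (nat_lit 3382653059) (nat_lit 380) (nat_lit 2624737465) (nat_lit 103) (nat_lit 5) (nat_lit 107) (nat_lit 5) (nat_lit 108) (nat_lit 5) (nat_lit 492) (nat_lit 393) (nat_lit 255)) (XT.nd (nat_lit 78) (nat_lit 0) (nat_lit 0) (XT.lf (nat_lit 0) (nat_lit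 1366771085) (nat_lit 380) (nat_lit 13579124955) (nat_lit 76) (nat_lit 2359241776) (nat_lit 98) (nat_lit 5) (nat_lit 103) (nat_lit 5) (nat_lit 99) (nat_lit 5) (nat_lit 493) (nat_lit 393) (nat_lit 254)) (XT.lf (nat_lit 0) (nat_lit 5452078276) (nat_lit 380) (nat_lit 3855201801) (nat_lit 76) (nat_lit 8220644804) (nat_lit 98) (nat_lit 5) (nat_lit 103) (nat_lit 5) (nat_lit 99) (nat_lit 5) (nat_lit 494) (nat_lit 393) (nat_lit 253))))) (XT.nd (nat_lit 234) (nat_lit 532) (nat_lit 0) (XT.nd (nat_lit 78) (nat_lit 380) (nat_lit 0) (XT.lf (nat_lit 0) (nat_lit 6121701411) (nat_lit 304) (nat_lit 3523508357) (nat_lit 380) (nat_lit 8109437872) (nat_lit 94) (nat_lit 5) (nat_lit 98) (nat_lit 5) (nat_lit 99) (nat_lit 5) (nat_lit 495) (nat_lit 393) (nat_lit 252)) (XT.nd (nat_lit 78) (nat_lit 380) (nat_lit 0) (XT.lf (nat_lit 0) (nat_lit 13950117674) (nat_lit 380) (nat_lit 1672445713) (nat_lit 76) (nat_lit 2362785460) (nat_lit 94) (nat_lit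 5) (nat_lit 99) (nat_lit 5) (nat_lit 95) (nat_lit 5) (nat_lit 496) (nat_lit 393) (nat_lit 251)) (XT.lf (nat_lit 0) (nat_lit 184900833) (nat_lit 380) (nat_lit 9665877387) (nat_lit 76) (nat_lit 8368551979) (nat_lit 89) (nat_lit 5) (nat_lit 94) (nat_lit 5) (nat_lit 90) (nat_lit 5) (nat_lit 497) (nat_lit 393) (nat_lit 250)))) (XT.nd (nat_lit 78) (nat_lit 228) (nat_lit 0) (XT.lf (nat_lit 0) (nat_lit 507156410) (nat_lit 304) (nat_lit 3929632534) (nat_lit 380) (nat_lit 14020643211) (nat_lit 85) (nat_lit 5) (nat_lit 89) (nat_lit 5) (nat_lit 90) (nat_lit 5) (nat_lit 498) (nat_lit 393) (nat_lit 249)) (XT.nd (nat_lit 78) (nat_lit 228) (nat_lit 0) (XT.lf (nat_lit 0) (nat_lit 8839519413) (nat_lit 380) (nat_lit 7719993831) (nat_lit 76) (nat_lit 2139468911) (nat_lit 85) (nat_lit 5) (nat_lit 90) (nat_lit 5) (nat_lit 86) (nat_lit 5) (nat_lit 499) (nat_lit 393) (nat_lit 248)) (XT.lf (nat_lit 0) (nat_lit 2703204366) (nat_lit 228) (nat_lit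 10657746558) (nat_lit 304) (nat_lit 5583801359) (nat_lit 82) (nat_lit 5) (nat_lit 85) (nat_lit 5) (nat_lit 86) (nat_lit 5) (nat_lit 500) (nat_lit 393) (nat_lit 247))))))))
noncomputable def xc130 : XT := (XT.nd (nat_lit 52416) (nat_lit 0) (nat_lit 22040) (XT.nd (nat_lit 51558) (nat_lit 0) (nat_lit 37012) (XT.nd (nat_lit 51090) (nat_lit 0) (nat_lit 40204) (XT.nd (nat_lit 156) (nat_lit 228) (nat_lit 0) (XT.nd (nat_lit 78) (nat_lit 380) (nat_lit 0) (XT.lf (nat_lit 0) (nat_lit 13418533701) (nat_lit 228) (nat_lit 4593271257) (nat_lit 304) (nat_lit 1182854992) (nat_lit 82) (nat_lit 5) (nat_lit 85) (nat_lit 5) (nat_lit 86) (nat_lit 5) (nat_lit 501) (nat_lit 393) (nat_lit 246)) (XT.lf (nat_lit 0) (nat_lit 3292695542) (nat_lit 380) (nat_lit 14538453637) (nat_lit 76) (nat_lit 1617390311) (nat_lit 77) (nat_lit 5) (nat_lit 82) (nat_lit 5) (nat_lit 78) (nat_lit 5) (nat_lit 502) (nat_lit 393) (nat_lit 245))) (XT.nd (nat_lit 78) (nat_lit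 228) (nat_lit 0) (XT.lf (nat_lit 0) (nat_lit 7898786554) (nat_lit 380) (nat_lit 3877713166) (nat_lit 76) (nat_lit 7929705069) (nat_lit 77) (nat_lit 5) (nat_lit 82) (nat_lit 5) (nat_lit 78) (nat_lit 5) (nat_lit 503) (nat_lit 393) (nat_lit 244)) (XT.nd (nat_lit 50778) (nat_lit 0) (nat_lit 42104) (XT.lf (nat_lit 0) (nat_lit 7068553653) (nat_lit 228) (nat_lit 5562002738) (nat_lit 304) (nat_lit 7337797725) (nat_lit 74) (nat_lit 5) (nat_lit 77) (nat_lit 5) (nat_lit 78) (nat_lit 5) (nat_lit 504) (nat_lit 393) (nat_lit 243)) (XT.lf (nat_lit 0) (nat_lit 1388852693) (nat_lit 0) (nat_lit 1388852693) (nat_lit 836) (nat_lit 631840014) (nat_lit 628) (nat_lit 5) (nat_lit 628) (nat_lit 3) (nat_lit 639) (nat_lit 3) (nat_lit 394) (nat_lit 394) (nat_lit 352))))) (XT.nd (nat_lit 234) (nat_lit 912) (nat_lit 0) (XT.nd (nat_lit 78) (nat_lit 0) (nat_lit 0) (XT.lf (nat_lit 0) (nat_lit 728295222) (nat_lit 988) (nat_lit 744905377) (nat_lit 988)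 (nat_lit 5373520117) (nat_lit 615) (nat_lit 3) (nat_lit 628) (nat_lit 3) (nat_lit 628) (nat_lit 5) (nat_lit 395) (nat_lit 394) (nat_lit 351)) (XT.nd (nat_lit 78) (nat_lit 0) (nat_lit 76) (XT.lf (nat_lit 76) (nat_lit 2616850534) (nat_lit 0) (nat_lit 91202293) (nat_lit 988) (nat_lit 4167411498) (nat_lit 616) (nat_lit 5) (nat_lit 615) (nat_lit 3) (nat_lit 628) (nat_lit 5) (nat_lit 396) (nat_lit 394) (nat_lit 350)) (XT.lf (nat_lit 0) (nat_lit 4689867153) (nat_lit 912) (nat_lit 884979736) (nat_lit 988) (nat_lit 1330711611) (nat_lit 616) (nat_lit 5) (nat_lit 628) (nat_lit 5) (nat_lit 629) (nat_lit 5) (nat_lit 397) (nat_lit 394) (nat_lit 349)))) (XT.nd (nat_lit 78) (nat_lit 988) (nat_lit 0) (XT.lf (nat_lit 76) (nat_lit 2562023833) (nat_lit 0) (nat_lit 4116404431) (nat_lit 988) (nat_lit 258508523) (nat_lit 617) (nat_lit 5) (nat_lit 616) (nat_lit 5) (nat_lit 629) (nat_lit 5) (nat_lit 398) (nat_lit 394) (nat_lit 348)) (XT.nd (nat_lit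 78) (nat_lit 0) (nat_lit 0) (XT.lf (nat_lit 0) (nat_lit 1671334161) (nat_lit 988) (nat_lit 917788517) (nat_lit 1064) (nat_lit 4380491627) (nat_lit 603) (nat_lit 5) (nat_lit 616) (nat_lit 5) (nat_lit 617) (nat_lit 5) (nat_lit 399) (nat_lit 394) (nat_lit 347)) (XT.lf (nat_lit 76) (nat_lit 2613984738) (nat_lit 0) (nat_lit 990606401) (nat_lit 1064) (nat_lit 3398977510) (nat_lit 604) (nat_lit 5) (nat_lit 603) (nat_lit 5) (nat_lit 617) (nat_lit 5) (nat_lit 400) (nat_lit 394) (nat_lit 346)))))) (XT.nd (nat_lit 390) (nat_lit 2204) (nat_lit 0) (XT.nd (nat_lit 156) (nat_lit 0) (nat_lit 0) (XT.nd (nat_lit 78) (nat_lit 1064) (nat_lit 0) (XT.lf (nat_lit 0) (nat_lit 5539088124) (nat_lit 988) (nat_lit 841443838) (nat_lit 1064) (nat_lit 658441197) (nat_lit 604) (nat_lit 5) (nat_lit 617) (nat_lit 5) (nat_lit 618) (nat_lit 5) (nat_lit 401) (nat_lit 394) (nat_lit 345)) (XT.lf (nat_lit 0) (nat_lit 409054549) (nat_lit 1064) (nat_lit 4298138215)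 (nat_lit 1140) (nat_lit 2368305943) (nat_lit 590) (nat_lit 5) (nat_lit 604) (nat_lit 5) (nat_lit 605) (nat_lit 5) (nat_lit 402) (nat_lit 394) (nat_lit 344))) (XT.nd (nat_lit 78) (nat_lit 0) (nat_lit 0) (XT.lf (nat_lit 0) (nat_lit 2295364399) (nat_lit 1064) (nat_lit 670577837) (nat_lit 1140) (nat_lit 4147450019) (nat_lit 590) (nat_lit 5) (nat_lit 604) (nat_lit 5) (nat_lit 605) (nat_lit 5) (nat_lit 403) (nat_lit 394) (nat_lit 343)) (XT.nd (nat_lit 78) (nat_lit 0) (nat_lit 76) (XT.lf (nat_lit 76) (nat_lit 3042065792) (nat_lit 0) (nat_lit 1151568344) (nat_lit 1140) (nat_lit 2958945721) (nat_lit 591) (nat_lit 5) (nat_lit 590) (nat_lit 5) (nat_lit 605) (nat_lit 5) (nat_lit 404) (nat_lit 394) (nat_lit 342)) (XT.lf (nat_lit 0) (nat_lit 6094250930) (nat_lit 1064) (nat_lit 387193849) (nat_lit 1140) (nat_lit 711839248) (nat_lit 591) (nat_lit 5) (nat_lit 605) (nat_lit 5) (nat_lit 606) (nat_lit 5) (nat_lit 405) (nat_lit 394) (nat_lit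 341))))) (XT.nd (nat_lit 234) (nat_lit 1140) (nat_lit 0) (XT.nd (nat_lit 78) (nat_lit 0) (nat_lit 0) (XT.lf (nat_lit 0) (nat_lit 773519882) (nat_lit 1140) (nat_lit 3820031102) (nat_lit 1216) (nat_lit 2641449135) (nat_lit 576) (nat_lit 5) (nat_lit 591) (nat_lit 5) (nat_lit 592) (nat_lit 5) (nat_lit 406) (nat_lit 394) (nat_lit 340)) (XT.nd (nat_lit 78) (nat_lit 0) (nat_lit 0) (XT.lf (nat_lit 0) (nat_lit 2628001861) (nat_lit 1140) (nat_lit 14447750) (nat_lit 1216) (nat_lit 4635791019) (nat_lit 576) (nat_lit 5) (nat_lit 591) (nat_lit 5) (nat_lit 592) (nat_lit 5) (nat_lit 407) (nat_lit 394) (nat_lit 339)) (XT.lf (nat_lit 76) (nat_lit 3890748402) (nat_lit 0) (nat_lit 611502824) (nat_lit 1216) (nat_lit 2820460060) (nat_lit 577) (nat_lit 5) (nat_lit 576) (nat_lit 5) (nat_lit 592) (nat_lit 5) (nat_lit 408) (nat_lit 394) (nat_lit 338)))) (XT.nd (nat_lit 78) (nat_lit 1216) (nat_lit 0) (XT.lf (nat_lit 76) (nat_lit 474621972) (nat_lit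 0) (nat_lit 5910190978) (nat_lit 1216) (nat_lit 983860379) (nat_lit 578) (nat_lit 5) (nat_lit 577) (nat_lit 5) (nat_lit 593) (nat_lit 5) (nat_lit 409) (nat_lit 394) (nat_lit 337)) (XT.nd (nat_lit 78) (nat_lit 0) (nat_lit 0) (XT.lf (nat_lit 0) (nat_lit 863553705) (nat_lit 1216) (nat_lit 2947891849) (nat_lit 1292) (nat_lit 3604296400) (nat_lit 561) (nat_lit 5) (nat_lit 577) (nat_lit 5) (nat_lit 578) (nat_lit 5) (nat_lit 410) (nat_lit 394) (nat_lit 336)) (XT.lf (nat_lit 76) (nat_lit 1056412329) (nat_lit 0) (nat_lit 1644530020) (nat_lit 1292) (nat_lit 4763372983) (nat_lit 562) (nat_lit 5) (nat_lit 561) (nat_lit 5) (nat_lit 578) (nat_lit 5) (nat_lit 411) (nat_lit 394) (nat_lit 335))))))) (XT.nd (nat_lit 858) (nat_lit 8132) (nat_lit 0) (XT.nd (nat_lit 390) (nat_lit 5624) (nat_lit 0) (XT.nd (nat_lit 156) (nat_lit 1292) (nat_lit 0) (XT.nd (nat_lit 78) (nat_lit 0) (nat_lit 0) (XT.lf (nat_lit 0) (nat_lit 4558688474) (nat_lit 1216)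 (nat_lit 2365336414) (nat_lit 1292) (nat_lit 590180206) (nat_lit 562) (nat_lit 5) (nat_lit 578) (nat_lit 5) (nat_lit 579) (nat_lit 5) (nat_lit 412) (nat_lit 394) (nat_lit 334)) (XT.lf (nat_lit 76) (nat_lit 1741769639) (nat_lit 0) (nat_lit 4694827123) (nat_lit 1292) (nat_lit 1128852519) (nat_lit 563) (nat_lit 5) (nat_lit 562) (nat_lit 5) (nat_lit 579) (nat_lit 5) (nat_lit 413) (nat_lit 394) (nat_lit 333))) (XT.nd (nat_lit 78) (nat_lit 0) (nat_lit 0) (XT.lf (nat_lit 0) (nat_lit 701813430) (nat_lit 1292) (nat_lit 1687804703) (nat_lit 1368) (nat_lit 5228478992) (nat_lit 545) (nat_lit 5) (nat_lit 562) (nat_lit 5) (nat_lit 563) (nat_lit 5) (nat_lit 414) (nat_lit 394) (nat_lit 332)) (XT.nd (nat_lit 78) (nat_lit 0) (nat_lit 76) (XT.lf (nat_lit 76) (nat_lit 2528422206) (nat_lit 0) (nat_lit 3869660) (nat_lit 1368) (nat_lit 5139806341) (nat_lit 546) (nat_lit 5) (nat_lit 545) (nat_lit 5) (nat_lit 563) (nat_lit 5) (nat_lit 415) (nat_lit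 394) (nat_lit 331)) (XT.lf (nat_lit 0) (nat_lit 4389068969) (nat_lit 1292) (nat_lit 919645252) (nat_lit 76) (nat_lit 2418686806) (nat_lit 546) (nat_lit 5) (nat_lit 563) (nat_lit 5) (nat_lit 547) (nat_lit 5) (nat_lit 416) (nat_lit 394) (nat_lit 330))))) (XT.nd (nat_lit 234) (nat_lit 2964) (nat_lit 0) (XT.nd (nat_lit 78) (nat_lit 1444) (nat_lit 0) (XT.lf (nat_lit 0) (nat_lit 3405369965) (nat_lit 1292) (nat_lit 2862995720) (nat_lit 1368) (nat_lit 1515751729) (nat_lit 529) (nat_lit 5) (nat_lit 546) (nat_lit 5) (nat_lit 547) (nat_lit 5) (nat_lit 417) (nat_lit 394) (nat_lit 329)) (XT.nd (nat_lit 78) (nat_lit 1368) (nat_lit 0) (XT.lf (nat_lit 0) (nat_lit 308523372) (nat_lit 1368) (nat_lit 43209560) (nat_lit 76) (nat_lit 7490810318) (nat_lit 528) (nat_lit 5) (nat_lit 546) (nat_lit 5) (nat_lit 529) (nat_lit 5) (nat_lit 418) (nat_lit 394) (nat_lit 328)) (XT.lf (nat_lit 0) (nat_lit 2156469051) (nat_lit 1444) (nat_lit 3517945693)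 (nat_lit 76) (nat_lit 2227387172) (nat_lit 510) (nat_lit 5) (nat_lit 529) (nat_lit 5) (nat_lit 511) (nat_lit 5) (nat_lit 419) (nat_lit 394) (nat_lit 327)))) (XT.nd (nat_lit 78) (nat_lit 1520) (nat_lit 0) (XT.lf (nat_lit 0) (nat_lit 919058469) (nat_lit 1444) (nat_lit 3095721750) (nat_lit 1520) (nat_lit 3948011441) (nat_lit 491) (nat_lit 5) (nat_lit 510) (nat_lit 5) (nat_lit 511) (nat_lit 5) (nat_lit 420) (nat_lit 394) (nat_lit 326)) (XT.nd (nat_lit 78) (nat_lit 1520) (nat_lit 0) (XT.lf (nat_lit 0) (nat_lit 5464203762) (nat_lit 1444) (nat_lit 434985507) (nat_lit 1520) (nat_lit 2126047058) (nat_lit 491) (nat_lit 5) (nat_lit 510) (nat_lit 5) (nat_lit 511) (nat_lit 5) (nat_lit 421) (nat_lit 394) (nat_lit 325)) (XT.lf (nat_lit 0) (nat_lit 1994214914) (nat_lit 1520) (nat_lit 5820860888) (nat_lit 1596) (nat_lit 273991791) (nat_lit 471) (nat_lit 5) (nat_lit 491) (nat_lit 5) (nat_lit 492) (nat_lit 5) (nat_lit 422) (nat_lit 394)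 (nat_lit 324)))))) (XT.nd (nat_lit 390) (nat_lit 2964) (nat_lit 0) (XT.nd (nat_lit 156) (nat_lit 3496) (nat_lit 0) (XT.nd (nat_lit 78) (nat_lit 1596) (nat_lit 0) (XT.lf (nat_lit 0) (nat_lit 1580395021) (nat_lit 1596) (nat_lit 1520768538) (nat_lit 76) (nat_lit 5053085707) (nat_lit 470) (nat_lit 5) (nat_lit 491) (nat_lit 5) (nat_lit 471) (nat_lit 5) (nat_lit 423) (nat_lit 394) (nat_lit 323)) (XT.lf (nat_lit 0) (nat_lit 3156201683) (nat_lit 1596) (nat_lit 299448092) (nat_lit 1672) (nat_lit 4765312311) (nat_lit 449) (nat_lit 5) (nat_lit 470) (nat_lit 5) (nat_lit 471) (nat_lit 5) (nat_lit 424) (nat_lit 394) (nat_lit 322))) (XT.nd (nat_lit 78) (nat_lit 3496) (nat_lit 0) (XT.lf (nat_lit 0) (nat_lit 5362741978) (nat_lit 1672) (nat_lit 386840859) (nat_lit 76) (nat_lit 2539552142) (nat_lit 449) (nat_lit 5) (nat_lit 471) (nat_lit 5) (nat_lit 450) (nat_lit 5) (nat_lit 425) (nat_lit 394) (nat_lit 321)) (XT.nd (nat_lit 78) (nat_lit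 1824) (nat_lit 0) (XT.lf (nat_lit 0) (nat_lit 4412402098) (nat_lit 1672) (nat_lit 2894292934) (nat_lit 1748) (nat_lit 1052014137) (nat_lit 427) (nat_lit 5) (nat_lit 449) (nat_lit 5) (nat_lit 450) (nat_lit 5) (nat_lit 426) (nat_lit 394) (nat_lit 320)) (XT.lf (nat_lit 0) (nat_lit 825317825) (nat_lit 1824) (nat_lit 7569706929) (nat_lit 76) (nat_lit 35015325) (nat_lit 403) (nat_lit 5) (nat_lit 427) (nat_lit 5) (nat_lit 404) (nat_lit 5) (nat_lit 427) (nat_lit 394) (nat_lit 319))))) (XT.nd (nat_lit 234) (nat_lit 1824) (nat_lit 0) (XT.nd (nat_lit 78) (nat_lit 1140) (nat_lit 0) (XT.lf (nat_lit 0) (nat_lit 2740717873) (nat_lit 1824) (nat_lit 2740817391) (nat_lit 76) (nat_lit 3020842624) (nat_lit 403) (nat_lit 5) (nat_lit 427) (nat_lit 5) (nat_lit 404) (nat_lit 5) (nat_lit 428) (nat_lit 394) (nat_lit 318)) (XT.nd (nat_lit 78) (nat_lit 0) (nat_lit 0) (XT.lf (nat_lit 0) (nat_lit 2185033548) (nat_lit 1140) (nat_lit 2492961482) (nat_lit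 1216) (nat_lit 3898507329) (nat_lit 388) (nat_lit 5) (nat_lit 403) (nat_lit 5) (nat_lit 404) (nat_lit 5) (nat_lit 429) (nat_lit 394) (nat_lit 317)) (XT.lf (nat_lit 0) (nat_lit 6645951899) (nat_lit 1216) (nat_lit 1437631450) (nat_lit 76) (nat_lit 568698355) (nat_lit 388) (nat_lit 5) (nat_lit 404) (nat_lit 5) (nat_lit 389) (nat_lit 5) (nat_lit 430) (nat_lit 394) (nat_lit 316)))) (XT.nd (nat_lit 78) (nat_lit 912) (nat_lit 0) (XT.lf (nat_lit 0) (nat_lit 3618071442) (nat_lit 912) (nat_lit 5045603059) (nat_lit 988) (nat_lit 65704853) (nat_lit 376) (nat_lit 5) (nat_lit 388) (nat_lit 5) (nat_lit 389) (nat_lit 5) (nat_lit 431) (nat_lit 394) (nat_lit 315)) (XT.nd (nat_lit 78) (nat_lit 836) (nat_lit 0) (XT.lf (nat_lit 0) (nat_lit 1868945644) (nat_lit 988) (nat_lit 54308364) (nat_lit 76) (nat_lit 6884920633) (nat_lit 375) (nat_lit 5) (nat_lit 388) (nat_lit 5) (nat_lit 376) (nat_lit 5) (nat_lit 432) (nat_lit 394) (nat_lit 314)) (XT.lf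 (nat_lit 0) (nat_lit 3854400821) (nat_lit 912) (nat_lit 3753842292) (nat_lit 76) (nat_lit 1280044431) (nat_lit 364) (nat_lit 5) (nat_lit 376) (nat_lit 5) (nat_lit 365) (nat_lit 5) (nat_lit 433) (nat_lit 394) (nat_lit 313))))))))
noncomputable def xc131 : XT := (XT.nd (nat_lit 1716) (nat_lit 6688) (nat_lit 0) (XT.nd (nat_lit 858) (nat_lit 4104) (nat_lit 0) (XT.nd (nat_lit 390) (nat_lit 3040) (nat_lit 0) (XT.nd (nat_lit 156) (nat_lit 1748) (nat_lit 0) (XT.nd (nat_lit 78) (nat_lit 0) (nat_lit 0) (XT.lf (nat_lit 0) (nat_lit 1435589638) (nat_lit 836) (nat_lit 4437968190) (nat_lit 912) (nat_lit 3096575045) (nat_lit 353) (nat_lit 5) (nat_lit 364) (nat_lit 5) (nat_lit 365) (nat_lit 5) (nat_lit 434) (nat_lit 394) (nat_lit 312)) (XT.lf (nat_lit 0) (nat_lit 6751666272) (nat_lit 836) (nat_lit 1178565763) (nat_lit 912) (nat_lit 1123450221) (nat_lit 353) (nat_lit 5) (nat_lit 364) (nat_lit 5) (nat_lit 365) (nat_lit 5) (nat_lit 435)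 (nat_lit 394) (nat_lit 311))) (XT.nd (nat_lit 78) (nat_lit 836) (nat_lit 0) (XT.lf (nat_lit 0) (nat_lit 883626478) (nat_lit 912) (nat_lit 6111635506) (nat_lit 76) (nat_lit 2143411619) (nat_lit 341) (nat_lit 5) (nat_lit 353) (nat_lit 5) (nat_lit 342) (nat_lit 5) (nat_lit 436) (nat_lit 394) (nat_lit 310)) (XT.nd (nat_lit 78) (nat_lit 836) (nat_lit 0) (XT.lf (nat_lit 0) (nat_lit 2911834367) (nat_lit 912) (nat_lit 774752269) (nat_lit 76) (nat_lit 5538718229) (nat_lit 341) (nat_lit 5) (nat_lit 353) (nat_lit 5) (nat_lit 342) (nat_lit 5) (nat_lit 437) (nat_lit 394) (nat_lit 309)) (XT.lf (nat_lit 0) (nat_lit 4702874441) (nat_lit 836) (nat_lit 281465641) (nat_lit 912) (nat_lit 4329263076) (nat_lit 330) (nat_lit 5) (nat_lit 341) (nat_lit 5) (nat_lit 342) (nat_lit 5) (nat_lit 438) (nat_lit 394) (nat_lit 308))))) (XT.nd (nat_lit 234) (nat_lit 1444) (nat_lit 0) (XT.nd (nat_lit 78) (nat_lit 836) (nat_lit 0) (XT.lf (nat_lit 0) (nat_lit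 859484668) (nat_lit 760) (nat_lit 6243887783) (nat_lit 836) (nat_lit 2300202336) (nat_lit 320) (nat_lit 5) (nat_lit 330) (nat_lit 5) (nat_lit 331) (nat_lit 5) (nat_lit 439) (nat_lit 394) (nat_lit 307)) (XT.nd (nat_lit 78) (nat_lit 836) (nat_lit 0) (XT.lf (nat_lit 0) (nat_lit 6471875131) (nat_lit 760) (nat_lit 2799580346) (nat_lit 836) (nat_lit 223765698) (nat_lit 320) (nat_lit 5) (nat_lit 330) (nat_lit 5) (nat_lit 331) (nat_lit 5) (nat_lit 440) (nat_lit 394) (nat_lit 306)) (XT.lf (nat_lit 0) (nat_lit 1865277323) (nat_lit 836) (nat_lit 6991458457) (nat_lit 76) (nat_lit 731808721) (nat_lit 309) (nat_lit 5) (nat_lit 320) (nat_lit 5) (nat_lit 310) (nat_lit 5) (nat_lit 441) (nat_lit 394) (nat_lit 305)))) (XT.nd (nat_lit 78) (nat_lit 1444) (nat_lit 0) (XT.lf (nat_lit 0) (nat_lit 4006597010) (nat_lit 836) (nat_lit 1360541906) (nat_lit 76) (nat_lit 4316304178) (nat_lit 309) (nat_lit 5) (nat_lit 320) (nat_lit 5) (nat_lit 310)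 (nat_lit 5) (nat_lit 442) (nat_lit 394) (nat_lit 304)) (XT.nd (nat_lit 78) (nat_lit 760) (nat_lit 0) (XT.lf (nat_lit 0) (nat_lit 4413458746) (nat_lit 684) (nat_lit 1780965287) (nat_lit 760) (nat_lit 3585750070) (nat_lit 300) (nat_lit 5) (nat_lit 309) (nat_lit 5) (nat_lit 310) (nat_lit 5) (nat_lit 443) (nat_lit 394) (nat_lit 303)) (XT.lf (nat_lit 0) (nat_lit 408108893) (nat_lit 760) (nat_lit 8017247085) (nat_lit 836) (nat_lit 1453504690) (nat_lit 290) (nat_lit 5) (nat_lit 300) (nat_lit 5) (nat_lit 301) (nat_lit 5) (nat_lit 444) (nat_lit 394) (nat_lit 302)))))) (XT.nd (nat_lit 390) (nat_lit 2052) (nat_lit 0) (XT.nd (nat_lit 156) (nat_lit 1292) (nat_lit 0) (XT.nd (nat_lit 78) (nat_lit 684) (nat_lit 0) (XT.lf (nat_lit 0) (nat_lit 735428938) (nat_lit 836) (nat_lit 3652213443) (nat_lit 76) (nat_lit 5591322418) (nat_lit 289) (nat_lit 5) (nat_lit 300) (nat_lit 5) (nat_lit 290) (nat_lit 5) (nat_lit 445) (nat_lit 394) (nat_lit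 301)) (XT.lf (nat_lit 0) (nat_lit 2275588143) (nat_lit 684) (nat_lit 663822692) (nat_lit 760) (nat_lit 7141660830) (nat_lit 280) (nat_lit 5) (nat_lit 289) (nat_lit 5) (nat_lit 290) (nat_lit 5) (nat_lit 446) (nat_lit 394) (nat_lit 300))) (XT.nd (nat_lit 78) (nat_lit 1292) (nat_lit 0) (XT.lf (nat_lit 0) (nat_lit 5208706809) (nat_lit 760) (nat_lit 1861398692) (nat_lit 76) (nat_lit 3114697783) (nat_lit 280) (nat_lit 5) (nat_lit 290) (nat_lit 5) (nat_lit 281) (nat_lit 5) (nat_lit 447) (nat_lit 394) (nat_lit 299)) (XT.nd (nat_lit 78) (nat_lit 608) (nat_lit 0) (XT.lf (nat_lit 0) (nat_lit 4225524212) (nat_lit 684) (nat_lit 3306374764) (nat_lit 760) (nat_lit 2758547510) (nat_lit 271) (nat_lit 5) (nat_lit 280) (nat_lit 5) (nat_lit 281) (nat_lit 5) (nat_lit 448) (nat_lit 394) (nat_lit 298)) (XT.lf (nat_lit 0) (nat_lit 30999563) (nat_lit 608) (nat_lit 9863725464) (nat_lit 684) (nat_lit 503621143) (nat_lit 263) (nat_lit 5) (nat_lit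 271) (nat_lit 5) (nat_lit 272) (nat_lit 5) (nat_lit 449) (nat_lit 394) (nat_lit 297))))) (XT.nd (nat_lit 234) (nat_lit 1292) (nat_lit 0) (XT.nd (nat_lit 78) (nat_lit 684) (nat_lit 0) (XT.lf (nat_lit 0) (nat_lit 1812763593) (nat_lit 684) (nat_lit 4237830453) (nat_lit 76) (nat_lit 4456784880) (nat_lit 262) (nat_lit 5) (nat_lit 271) (nat_lit 5) (nat_lit 263) (nat_lit 5) (nat_lit 450) (nat_lit 394) (nat_lit 296)) (XT.nd (nat_lit 78) (nat_lit 0) (nat_lit 0) (XT.lf (nat_lit 0) (nat_lit 2010383264) (nat_lit 684) (nat_lit 2148913349) (nat_lit 760) (nat_lit 6459424477) (nat_lit 253) (nat_lit 5) (nat_lit 262) (nat_lit 5) (nat_lit 263) (nat_lit 5) (nat_lit 451) (nat_lit 394) (nat_lit 295)) (XT.lf (nat_lit 0) (nat_lit 6571016580) (nat_lit 760) (nat_lit 2329958898) (nat_lit 76) (nat_lit 1830955977) (nat_lit 253) (nat_lit 5) (nat_lit 263) (nat_lit 5) (nat_lit 254) (nat_lit 5) (nat_lit 452) (nat_lit 394) (nat_lit 294)))) (XT.nd (nat_lit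 78) (nat_lit 684) (nat_lit 0) (XT.lf (nat_lit 0) (nat_lit 4086718540) (nat_lit 608) (nat_lit 4963196823) (nat_lit 684) (nat_lit 1797118133) (nat_lit 245) (nat_lit 5) (nat_lit 253) (nat_lit 5) (nat_lit 254) (nat_lit 5) (nat_lit 453) (nat_lit 394) (nat_lit 293)) (XT.nd (nat_lit 78) (nat_lit 608) (nat_lit 0) (XT.lf (nat_lit 0) (nat_lit 599927821) (nat_lit 684) (nat_lit 331657219) (nat_lit 76) (nat_lit 10032898416) (nat_lit 244) (nat_lit 5) (nat_lit 253) (nat_lit 5) (nat_lit 245) (nat_lit 5) (nat_lit 454) (nat_lit 394) (nat_lit 292)) (XT.lf (nat_lit 0) (nat_lit 3061260244) (nat_lit 684) (nat_lit 4834959897) (nat_lit 76) (nat_lit 3187022506) (nat_lit 236) (nat_lit 5) (nat_lit 245) (nat_lit 5) (nat_lit 237) (nat_lit 5) (nat_lit 455) (nat_lit 394) (nat_lit 291))))))) (XT.nd (nat_lit 858) (nat_lit 2812) (nat_lit 0) (XT.nd (nat_lit 390) (nat_lit 2128) (nat_lit 0) (XT.nd (nat_lit 156) (nat_lit 1216) (nat_lit 0) (XT.nd (nat_lit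 78) (nat_lit 0) (nat_lit 0) (XT.lf (nat_lit 0) (nat_lit 1750303857) (nat_lit 532) (nat_lit 3820217355) (nat_lit 608) (nat_lit 5633887644) (nat_lit 229) (nat_lit 5) (nat_lit 236) (nat_lit 5) (nat_lit 237) (nat_lit 5) (nat_lit 456) (nat_lit 394) (nat_lit 290)) (XT.lf (nat_lit 0) (nat_lit 8143952583) (nat_lit 608) (nat_lit 2823607494) (nat_lit 76) (nat_lit 360164367) (nat_lit 229) (nat_lit 5) (nat_lit 237) (nat_lit 5) (nat_lit 230) (nat_lit 5) (nat_lit 457) (nat_lit 394) (nat_lit 289))) (XT.nd (nat_lit 78) (nat_lit 608) (nat_lit 0) (XT.lf (nat_lit 0) (nat_lit 3939728434) (nat_lit 608) (nat_lit 6859547221) (nat_lit 684) (nat_lit 653627871) (nat_lit 221) (nat_lit 5) (nat_lit 229) (nat_lit 5) (nat_lit 230) (nat_lit 5) (nat_lit 458) (nat_lit 394) (nat_lit 288)) (XT.nd (nat_lit 78) (nat_lit 532) (nat_lit 0) (XT.lf (nat_lit 0) (nat_lit 1900555238) (nat_lit 684) (nat_lit 742485393) (nat_lit 76) (nat_lit 8937326527) (nat_lit 220)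 (nat_lit 5) (nat_lit 229) (nat_lit 5) (nat_lit 221) (nat_lit 5) (nat_lit 459) (nat_lit 394) (nat_lit 287)) (XT.lf (nat_lit 0) (nat_lit 4528489072) (nat_lit 608) (nat_lit 5505843528) (nat_lit 76) (nat_lit 1675337989) (nat_lit 213) (nat_lit 5) (nat_lit 221) (nat_lit 5) (nat_lit 214) (nat_lit 5) (nat_lit 460) (nat_lit 394) (nat_lit 286))))) (XT.nd (nat_lit 234) (nat_lit 988) (nat_lit 0) (XT.nd (nat_lit 78) (nat_lit 608) (nat_lit 0) (XT.lf (nat_lit 0) (nat_lit 1433002823) (nat_lit 532) (nat_lit 5788026106) (nat_lit 608) (nat_lit 4620295426) (nat_lit 206) (nat_lit 5) (nat_lit 213) (nat_lit 5) (nat_lit 214) (nat_lit 5) (nat_lit 461) (nat_lit 394) (nat_lit 285)) (XT.nd (nat_lit 78) (nat_lit 608) (nat_lit 0) (XT.lf (nat_lit 0) (nat_lit 8559505217) (nat_lit 532) (nat_lit 1425306319) (nat_lit 608) (nat_lit 1990456936) (nat_lit 206) (nat_lit 5) (nat_lit 213) (nat_lit 5) (nat_lit 214) (nat_lit 5) (nat_lit 462) (nat_lit 394) (nat_lit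 284)) (XT.lf (nat_lit 0) (nat_lit 707641728) (nat_lit 608) (nat_lit 8395859309) (nat_lit 76) (nat_lit 3007810715) (nat_lit 198) (nat_lit 5) (nat_lit 206) (nat_lit 5) (nat_lit 199) (nat_lit 5) (nat_lit 463) (nat_lit 394) (nat_lit 283)))) (XT.nd (nat_lit 78) (nat_lit 988) (nat_lit 0) (XT.lf (nat_lit 0) (nat_lit 3446457274) (nat_lit 608) (nat_lit 1262484877) (nat_lit 76) (nat_lit 7540607284) (nat_lit 198) (nat_lit 5) (nat_lit 206) (nat_lit 5) (nat_lit 199) (nat_lit 5) (nat_lit 464) (nat_lit 394) (nat_lit 282)) (XT.nd (nat_lit 78) (nat_lit 456) (nat_lit 0) (XT.lf (nat_lit 0) (nat_lit 6067954363) (nat_lit 532) (nat_lit 192736784) (nat_lit 608) (nat_lit 6129452607) (nat_lit 191) (nat_lit 5) (nat_lit 198) (nat_lit 5) (nat_lit 199) (nat_lit 5) (nat_lit 465) (nat_lit 394) (nat_lit 281)) (XT.lf (nat_lit 0) (nat_lit 987621719) (nat_lit 456) (nat_lit 8168593723) (nat_lit 532) (nat_lit 3376839033) (nat_lit 185) (nat_lit 5) (nat_lit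 191) (nat_lit 5) (nat_lit 192) (nat_lit 5) (nat_lit 466) (nat_lit 394) (nat_lit 280)))))) (XT.nd (nat_lit 390) (nat_lit 1368) (nat_lit 0) (XT.nd (nat_lit 156) (nat_lit 912) (nat_lit 0) (XT.nd (nat_lit 78) (nat_lit 532) (nat_lit 0) (XT.lf (nat_lit 0) (nat_lit 8502848499) (nat_lit 456) (nat_lit 3632104104) (nat_lit 532) (nat_lit 543369300) (nat_lit 185) (nat_lit 5) (nat_lit 191) (nat_lit 5) (nat_lit 192) (nat_lit 5) (nat_lit 467) (nat_lit 394) (nat_lit 279)) (XT.lf (nat_lit 0) (nat_lit 2326220923) (nat_lit 532) (nat_lit 9487196177) (nat_lit 76) (nat_lit 1012572619) (nat_lit 178) (nat_lit 5) (nat_lit 185) (nat_lit 5) (nat_lit 179) (nat_lit 5) (nat_lit 468) (nat_lit 394) (nat_lit 278))) (XT.nd (nat_lit 78) (nat_lit 912) (nat_lit 0) (XT.lf (nat_lit 0) (nat_lit 5280189722) (nat_lit 532) (nat_lit 1969035780) (nat_lit 76) (nat_lit 5726632585) (nat_lit 178) (nat_lit 5) (nat_lit 185) (nat_lit 5) (nat_lit 179) (nat_lit 5) (nat_lit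 469) (nat_lit 394) (nat_lit 277)) (XT.nd (nat_lit 78) (nat_lit 456) (nat_lit 0) (XT.lf (nat_lit 0) (nat_lit 5750303055) (nat_lit 456) (nat_lit 2562619456) (nat_lit 532) (nat_lit 4815411812) (nat_lit 172) (nat_lit 5) (nat_lit 178) (nat_lit 5) (nat_lit 179) (nat_lit 5) (nat_lit 470) (nat_lit 394) (nat_lit 276)) (XT.lf (nat_lit 0) (nat_lit 332247475) (nat_lit 456) (nat_lit 11086411268) (nat_lit 532) (nat_lit 1864958477) (nat_lit 166) (nat_lit 5) (nat_lit 172) (nat_lit 5) (nat_lit 173) (nat_lit 5) (nat_lit 471) (nat_lit 394) (nat_lit 275))))) (XT.nd (nat_lit 234) (nat_lit 912) (nat_lit 0) (XT.nd (nat_lit 78) (nat_lit 380) (nat_lit 0) (XT.lf (nat_lit 0) (nat_lit 1178859808) (nat_lit 532) (nat_lit 5193822570) (nat_lit 76) (nat_lit 7068191406) (nat_lit 165) (nat_lit 5) (nat_lit 172) (nat_lit 5) (nat_lit 166) (nat_lit 5) (nat_lit 472) (nat_lit 394) (nat_lit 274)) (XT.nd (nat_lit 78) (nat_lit 0) (nat_lit 0) (XT.lf (nat_lit 0)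 (nat_lit 2717836209) (nat_lit 380) (nat_lit 1541314726) (nat_lit 456) (nat_lit 9341870506) (nat_lit 160) (nat_lit 5) (nat_lit 165) (nat_lit 5) (nat_lit 166) (nat_lit 5) (nat_lit 473) (nat_lit 394) (nat_lit 273)) (XT.lf (nat_lit 0) (nat_lit 7441150782) (nat_lit 456) (nat_lit 2952231198) (nat_lit 76) (nat_lit 3370191812) (nat_lit 160) (nat_lit 5) (nat_lit 166) (nat_lit 5) (nat_lit 161) (nat_lit 5) (nat_lit 474) (nat_lit 394) (nat_lit 272)))) (XT.nd (nat_lit 78) (nat_lit 456) (nat_lit 0) (XT.lf (nat_lit 0) (nat_lit 5170963812) (nat_lit 456) (nat_lit 5542970483) (nat_lit 532) (nat_lit 3214903746) (nat_lit 154) (nat_lit 5) (nat_lit 160) (nat_lit 5) (nat_lit 161) (nat_lit 5) (nat_lit 475) (nat_lit 394) (nat_lit 271)) (XT.nd (nat_lit 78) (nat_lit 456) (nat_lit 0) (XT.lf (nat_lit 0) (nat_lit 13472809975) (nat_lit 456) (nat_lit 582708981) (nat_lit 532) (nat_lit 41825361) (nat_lit 154) (nat_lit 5) (nat_lit 160) (nat_lit 5) (nat_lit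 161) (nat_lit 5) (nat_lit 476) (nat_lit 394) (nat_lit 270)) (XT.lf (nat_lit 0) (nat_lit 3216228963) (nat_lit 456) (nat_lit 6569111384) (nat_lit 76) (nat_lit 4482200764) (nat_lit 148) (nat_lit 5) (nat_lit 154) (nat_lit 5) (nat_lit 149) (nat_lit 5) (nat_lit 477) (nat_lit 394) (nat_lit 269))))))))
noncomputable def xc132 : XT := (XT.nd (nat_lit 1638) (nat_lit 912) (nat_lit 0) (XT.nd (nat_lit 780) (nat_lit 2128) (nat_lit 0) (XT.nd (nat_lit 390) (nat_lit 1140) (nat_lit 0) (XT.nd (nat_lit 156) (nat_lit 836) (nat_lit 0) (XT.nd (nat_lit 78) (nat_lit 0) (nat_lit 0) (XT.lf (nat_lit 0) (nat_lit 1750347561) (nat_lit 380) (nat_lit 4791845200) (nat_lit 456) (nat_lit 7898880822) (nat_lit 143) (nat_lit 5) (nat_lit 148) (nat_lit 5) (nat_lit 149) (nat_lit 5) (nat_lit 478) (nat_lit 394) (nat_lit 268)) (XT.lf (nat_lit 0) (nat_lit 9964987663) (nat_lit 456) (nat_lit 4318026170) (nat_lit 76) (nat_lit 334460009) (nat_lit 143) (nat_lit 5) (nat_lit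 149) (nat_lit 5) (nat_lit 144) (nat_lit 5) (nat_lit 479) (nat_lit 394) (nat_lit 267))) (XT.nd (nat_lit 78) (nat_lit 456) (nat_lit 0) (XT.lf (nat_lit 0) (nat_lit 4222415237) (nat_lit 380) (nat_lit 9277266166) (nat_lit 456) (nat_lit 1296855151) (nat_lit 138) (nat_lit 5) (nat_lit 143) (nat_lit 5) (nat_lit 144) (nat_lit 5) (nat_lit 480) (nat_lit 394) (nat_lit 266)) (XT.nd (nat_lit 78) (nat_lit 380) (nat_lit 0) (XT.lf (nat_lit 0) (nat_lit 2111520500) (nat_lit 456) (nat_lit 2023811782) (nat_lit 76) (nat_lit 10843305094) (nat_lit 137) (nat_lit 5) (nat_lit 143) (nat_lit 5) (nat_lit 138) (nat_lit 5) (nat_lit 481) (nat_lit 394) (nat_lit 265)) (XT.lf (nat_lit 0) (nat_lit 5606723399) (nat_lit 456) (nat_lit 8416594524) (nat_lit 76) (nat_lit 1140173472) (nat_lit 132) (nat_lit 5) (nat_lit 138) (nat_lit 5) (nat_lit 133) (nat_lit 5) (nat_lit 482) (nat_lit 394) (nat_lit 264))))) (XT.nd (nat_lit 156) (nat_lit 760) (nat_lit 0) (XT.nd (nat_lit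 78) (nat_lit 0) (nat_lit 0) (XT.lf (nat_lit 0) (nat_lit 322372743) (nat_lit 380) (nat_lit 8877363482) (nat_lit 456) (nat_lit 6151751207) (nat_lit 127) (nat_lit 5) (nat_lit 132) (nat_lit 5) (nat_lit 133) (nat_lit 5) (nat_lit 483) (nat_lit 394) (nat_lit 263)) (XT.lf (nat_lit 0) (nat_lit 9327299117) (nat_lit 380) (nat_lit 3578695858) (nat_lit 456) (nat_lit 2636423697) (nat_lit 127) (nat_lit 5) (nat_lit 132) (nat_lit 5) (nat_lit 133) (nat_lit 5) (nat_lit 484) (nat_lit 394) (nat_lit 262))) (XT.nd (nat_lit 78) (nat_lit 304) (nat_lit 0) (XT.lf (nat_lit 0) (nat_lit 951895542) (nat_lit 456) (nat_lit 12966121287) (nat_lit 76) (nat_lit 1818728642) (nat_lit 121) (nat_lit 5) (nat_lit 127) (nat_lit 5) (nat_lit 122) (nat_lit 5) (nat_lit 485) (nat_lit 394) (nat_lit 261)) (XT.nd (nat_lit 78) (nat_lit 304) (nat_lit 0) (XT.lf (nat_lit 0) (nat_lit 4627591903) (nat_lit 456) (nat_lit 3977989718) (nat_lit 76) (nat_lit 7328013225) (nat_lit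 121) (nat_lit 5) (nat_lit 127) (nat_lit 5) (nat_lit 122) (nat_lit 5) (nat_lit 486) (nat_lit 394) (nat_lit 260)) (XT.lf (nat_lit 0) (nat_lit 5236265824) (nat_lit 304) (nat_lit 3160020492) (nat_lit 380) (nat_lit 7737707976) (nat_lit 117) (nat_lit 5) (nat_lit 121) (nat_lit 5) (nat_lit 122) (nat_lit 5) (nat_lit 487) (nat_lit 394) (nat_lit 259)))))) (XT.nd (nat_lit 390) (nat_lit 1064) (nat_lit 0) (XT.nd (nat_lit 156) (nat_lit 684) (nat_lit 0) (XT.nd (nat_lit 78) (nat_lit 380) (nat_lit 0) (XT.lf (nat_lit 0) (nat_lit 12268349044) (nat_lit 380) (nat_lit 1687267806) (nat_lit 76) (nat_lit 2382227702) (nat_lit 117) (nat_lit 5) (nat_lit 122) (nat_lit 5) (nat_lit 118) (nat_lit 5) (nat_lit 488) (nat_lit 394) (nat_lit 258)) (XT.lf (nat_lit 0) (nat_lit 7766365405) (nat_lit 380) (nat_lit 8508698976) (nat_lit 456) (nat_lit 269565869) (nat_lit 112) (nat_lit 5) (nat_lit 117) (nat_lit 5) (nat_lit 118) (nat_lit 5) (nat_lit 489) (nat_lit 394)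 (nat_lit 257))) (XT.nd (nat_lit 78) (nat_lit 304) (nat_lit 0) (XT.lf (nat_lit 0) (nat_lit 639502663) (nat_lit 304) (nat_lit 2921011052) (nat_lit 380) (nat_lit 13194543217) (nat_lit 107) (nat_lit 5) (nat_lit 111) (nat_lit 5) (nat_lit 112) (nat_lit 5) (nat_lit 490) (nat_lit 394) (nat_lit 256)) (XT.nd (nat_lit 78) (nat_lit 304) (nat_lit 0) (XT.lf (nat_lit 0) (nat_lit 7526908203) (nat_lit 380) (nat_lit 6646209304) (nat_lit 76) (nat_lit 2795275053) (nat_lit 107) (nat_lit 5) (nat_lit 112) (nat_lit 5) (nat_lit 108) (nat_lit 5) (nat_lit 491) (nat_lit 394) (nat_lit 255)) (XT.lf (nat_lit 0) (nat_lit 3011003483) (nat_lit 304) (nat_lit 8586778936) (nat_lit 380) (nat_lit 5587711902) (nat_lit 103) (nat_lit 5) (nat_lit 107) (nat_lit 5) (nat_lit 108) (nat_lit 5) (nat_lit 492) (nat_lit 394) (nat_lit 254))))) (XT.nd (nat_lit 234) (nat_lit 684) (nat_lit 0) (XT.nd (nat_lit 78) (nat_lit 380) (nat_lit 0) (XT.lf (nat_lit 0) (nat_lit 12929929686)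 (nat_lit 304) (nat_lit 2851131676) (nat_lit 380) (nat_lit 1625259420) (nat_lit 103) (nat_lit 5) (nat_lit 107) (nat_lit 5) (nat_lit 108) (nat_lit 5) (nat_lit 493) (nat_lit 394) (nat_lit 253)) (XT.nd (nat_lit 78) (nat_lit 0) (nat_lit 0) (XT.lf (nat_lit 0) (nat_lit 2426460398) (nat_lit 380) (nat_lit 12200392833) (nat_lit 76) (nat_lit 3003564866) (nat_lit 98) (nat_lit 5) (nat_lit 103) (nat_lit 5) (nat_lit 99) (nat_lit 5) (nat_lit 494) (nat_lit 394) (nat_lit 252)) (XT.lf (nat_lit 0) (nat_lit 6573231500) (nat_lit 380) (nat_lit 2314350326) (nat_lit 76) (nat_lit 8970487361) (nat_lit 98) (nat_lit 5) (nat_lit 103) (nat_lit 5) (nat_lit 99) (nat_lit 5) (nat_lit 495) (nat_lit 394) (nat_lit 251)))) (XT.nd (nat_lit 78) (nat_lit 380) (nat_lit 0) (XT.lf (nat_lit 0) (nat_lit 7851446506) (nat_lit 304) (nat_lit 2989369518) (nat_lit 380) (nat_lit 7248701940) (nat_lit 94) (nat_lit 5) (nat_lit 98) (nat_lit 5) (nat_lit 99) (nat_lit 5) (nat_lit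 496) (nat_lit 394) (nat_lit 250)) (XT.nd (nat_lit 78) (nat_lit 380) (nat_lit 0) (XT.lf (nat_lit 0) (nat_lit 15216009816) (nat_lit 380) (nat_lit 114121909) (nat_lit 76) (nat_lit 2995021022) (nat_lit 94) (nat_lit 5) (nat_lit 99) (nat_lit 5) (nat_lit 95) (nat_lit 5) (nat_lit 497) (nat_lit 394) (nat_lit 249)) (XT.lf (nat_lit 0) (nat_lit 1173040161) (nat_lit 380) (nat_lit 8264652835) (nat_lit 76) (nat_lit 9126176117) (nat_lit 89) (nat_lit 5) (nat_lit 94) (nat_lit 5) (nat_lit 90) (nat_lit 5) (nat_lit 498) (nat_lit 394) (nat_lit 248))))))) (XT.nd (nat_lit 51636) (nat_lit 0) (nat_lit 36708) (XT.nd (nat_lit 390) (nat_lit 0) (nat_lit 0) (XT.nd (nat_lit 156) (nat_lit 608) (nat_lit 0) (XT.nd (nat_lit 78) (nat_lit 0) (nat_lit 0) (XT.lf (nat_lit 0) (nat_lit 2101351229) (nat_lit 304) (nat_lit 3399596749) (nat_lit 380) (nat_lit 13305968607) (nat_lit 85) (nat_lit 5) (nat_lit 89) (nat_lit 5) (nat_lit 90) (nat_lit 5) (nat_lit 499) (nat_lit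 394) (nat_lit 247)) (XT.lf (nat_lit 0) (nat_lit 9976481246) (nat_lit 380) (nat_lit 6305997350) (nat_lit 76) (nat_lit 2771127079) (nat_lit 85) (nat_lit 5) (nat_lit 90) (nat_lit 5) (nat_lit 86) (nat_lit 5) (nat_lit 500) (nat_lit 394) (nat_lit 246))) (XT.nd (nat_lit 78) (nat_lit 380) (nat_lit 0) (XT.lf (nat_lit 0) (nat_lit 4315346413) (nat_lit 228) (nat_lit 10264284158) (nat_lit 304) (nat_lit 4724837844) (nat_lit 82) (nat_lit 5) (nat_lit 85) (nat_lit 5) (nat_lit 86) (nat_lit 5) (nat_lit 501) (nat_lit 394) (nat_lit 245)) (XT.nd (nat_lit 78) (nat_lit 380) (nat_lit 0) (XT.lf (nat_lit 0) (nat_lit 15214431787) (nat_lit 228) (nat_lit 4090413809) (nat_lit 304) (nat_lit 254904698) (nat_lit 82) (nat_lit 5) (nat_lit 85) (nat_lit 5) (nat_lit 86) (nat_lit 5) (nat_lit 502) (nat_lit 394) (nat_lit 244)) (XT.lf (nat_lit 0) (nat_lit 4293087517) (nat_lit 380) (nat_lit 13284341014) (nat_lit 76) (nat_lit 2241249921) (nat_lit 77) (nat_lit 5)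 (nat_lit 82) (nat_lit 5) (nat_lit 78) (nat_lit 5) (nat_lit 503) (nat_lit 394) (nat_lit 243))))) (XT.nd (nat_lit 51012) (nat_lit 0) (nat_lit 39900) (XT.nd (nat_lit 50856) (nat_lit 0) (nat_lit 40888) (XT.lf (nat_lit 0) (nat_lit 8972976074) (nat_lit 380) (nat_lit 2440677532) (nat_lit 76) (nat_lit 8668212703) (nat_lit 77) (nat_lit 5) (nat_lit 82) (nat_lit 5) (nat_lit 78) (nat_lit 5) (nat_lit 504) (nat_lit 394) (nat_lit 242)) (XT.nd (nat_lit 78) (nat_lit 0) (nat_lit 0) (XT.lf (nat_lit 0) (nat_lit 1338941952) (nat_lit 988) (nat_lit 1049207871) (nat_lit 988) (nat_lit 1049207871) (nat_lit 615) (nat_lit 3) (nat_lit 628) (nat_lit 3) (nat_lit 628) (nat_lit 5) (nat_lit 395) (nat_lit 395) (nat_lit 350)) (XT.lf (nat_lit 76) (nat_lit 1232268366) (nat_lit 0) (nat_lit 3391076479) (nat_lit 988) (nat_lit 2280812425) (nat_lit 616) (nat_lit 5) (nat_lit 615) (nat_lit 3) (nat_lit 628) (nat_lit 5) (nat_lit 396) (nat_lit 395) (nat_lit 349))))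 (XT.nd (nat_lit 78) (nat_lit 988) (nat_lit 0) (XT.lf (nat_lit 76) (nat_lit 4632098565) (nat_lit 0) (nat_lit 1939411815) (nat_lit 988) (nat_lit 363426139) (nat_lit 616) (nat_lit 5) (nat_lit 615) (nat_lit 3) (nat_lit 628) (nat_lit 5) (nat_lit 397) (nat_lit 395) (nat_lit 348)) (XT.nd (nat_lit 78) (nat_lit 0) (nat_lit 76) (XT.lf (nat_lit 76) (nat_lit 1111749082) (nat_lit 0) (nat_lit 417243366) (nat_lit 1064) (nat_lit 5438004267) (nat_lit 603) (nat_lit 5) (nat_lit 602) (nat_lit 5) (nat_lit 616) (nat_lit 5) (nat_lit 398) (nat_lit 395) (nat_lit 347)) (XT.lf (nat_lit 0) (nat_lit 3428628752) (nat_lit 988) (nat_lit 2410490887) (nat_lit 1064) (nat_lit 1161068745) (nat_lit 603) (nat_lit 5) (nat_lit 616) (nat_lit 5) (nat_lit 617) (nat_lit 5) (nat_lit 399) (nat_lit 395) (nat_lit 346)))))) (XT.nd (nat_lit 390) (nat_lit 2204) (nat_lit 0) (XT.nd (nat_lit 156) (nat_lit 0) (nat_lit 0) (XT.nd (nat_lit 78) (nat_lit 1064) (nat_lit 0) (XT.lf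 (nat_lit 76) (nat_lit 1088134983) (nat_lit 0) (nat_lit 4240209631) (nat_lit 1064) (nat_lit 1706480114) (nat_lit 604) (nat_lit 5) (nat_lit 603) (nat_lit 5) (nat_lit 617) (nat_lit 5) (nat_lit 400) (nat_lit 395) (nat_lit 345)) (XT.lf (nat_lit 0) (nat_lit 162305256) (nat_lit 1064) (nat_lit 2408810862) (nat_lit 1140) (nat_lit 4499654470) (nat_lit 589) (nat_lit 5) (nat_lit 603) (nat_lit 5) (nat_lit 604) (nat_lit 5) (nat_lit 401) (nat_lit 395) (nat_lit 344))) (XT.nd (nat_lit 78) (nat_lit 0) (nat_lit 76) (XT.lf (nat_lit 76) (nat_lit 1177487222) (nat_lit 0) (nat_lit 829414117) (nat_lit 1140) (nat_lit 5101104008) (nat_lit 590) (nat_lit 5) (nat_lit 589) (nat_lit 5) (nat_lit 604) (nat_lit 5) (nat_lit 402) (nat_lit 395) (nat_lit 343)) (XT.nd (nat_lit 78) (nat_lit 0) (nat_lit 0) (XT.lf (nat_lit 0) (nat_lit 3865292707) (nat_lit 1064) (nat_lit 2311119767) (nat_lit 1140) (nat_lit 970055115) (nat_lit 590) (nat_lit 5) (nat_lit 604) (nat_lit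 5) (nat_lit 605) (nat_lit 5) (nat_lit 403) (nat_lit 395) (nat_lit 342)) (XT.lf (nat_lit 76) (nat_lit 1366263924) (nat_lit 0) (nat_lit 4364326560) (nat_lit 1140) (nat_lit 1455734271) (nat_lit 591) (nat_lit 5) (nat_lit 590) (nat_lit 5) (nat_lit 605) (nat_lit 5) (nat_lit 404) (nat_lit 395) (nat_lit 341))))) (XT.nd (nat_lit 234) (nat_lit 1140) (nat_lit 0) (XT.nd (nat_lit 78) (nat_lit 0) (nat_lit 0) (XT.lf (nat_lit 0) (nat_lit 372265476) (nat_lit 1140) (nat_lit 2108145499) (nat_lit 1216) (nat_lit 4747107434) (nat_lit 575) (nat_lit 5) (nat_lit 590) (nat_lit 5) (nat_lit 591) (nat_lit 5) (nat_lit 405) (nat_lit 395) (nat_lit 340)) (XT.nd (nat_lit 78) (nat_lit 0) (nat_lit 76) (XT.lf (nat_lit 76) (nat_lit 1663458967) (nat_lit 0) (nat_lit 521326168) (nat_lit 1216) (nat_lit 5085228579) (nat_lit 576) (nat_lit 5) (nat_lit 575) (nat_lit 5) (nat_lit 591) (nat_lit 5) (nat_lit 406) (nat_lit 395) (nat_lit 339)) (XT.lf (nat_lit 0) (nat_lit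 4014801342) (nat_lit 1140) (nat_lit 1811213694) (nat_lit 1216) (nat_lit 1487737855) (nat_lit 576) (nat_lit 5) (nat_lit 591) (nat_lit 5) (nat_lit 592) (nat_lit 5) (nat_lit 407) (nat_lit 395) (nat_lit 338)))) (XT.nd (nat_lit 78) (nat_lit 1216) (nat_lit 0) (XT.lf (nat_lit 76) (nat_lit 2056566941) (nat_lit 0) (nat_lit 3799907419) (nat_lit 1216) (nat_lit 1502409883) (nat_lit 577) (nat_lit 5) (nat_lit 576) (nat_lit 5) (nat_lit 592) (nat_lit 5) (nat_lit 408) (nat_lit 395) (nat_lit 337)) (XT.nd (nat_lit 78) (nat_lit 0) (nat_lit 76) (XT.lf (nat_lit 0) (nat_lit 296574277) (nat_lit 1216) (nat_lit 1408021300) (nat_lit 1292) (nat_lit 5700880776) (nat_lit 560) (nat_lit 5) (nat_lit 576) (nat_lit 5) (nat_lit 577) (nat_lit 5) (nat_lit 409) (nat_lit 395) (nat_lit 336)) (XT.lf (nat_lit 0) (nat_lit 2090558651) (nat_lit 1216) (nat_lit 4895414203) (nat_lit 1292) (nat_lit 467263530) (nat_lit 561) (nat_lit 5) (nat_lit 577) (nat_lit 5) (nat_lit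 578) (nat_lit 5) (nat_lit 410) (nat_lit 395) (nat_lit 335))))))))
noncomputable def xc133 : XT := (XT.nd (nat_lit 1716) (nat_lit 9880) (nat_lit 0) (XT.nd (nat_lit 858) (nat_lit 8816) (nat_lit 0) (XT.nd (nat_lit 390) (nat_lit 4104) (nat_lit 0) (XT.nd (nat_lit 156) (nat_lit 1216) (nat_lit 0) (XT.nd (nat_lit 78) (nat_lit 0) (nat_lit 0) (XT.lf (nat_lit 0) (nat_lit 3901348958) (nat_lit 1216) (nat_lit 918611892) (nat_lit 1292) (nat_lit 2682389350) (nat_lit 561) (nat_lit 5) (nat_lit 577) (nat_lit 5) (nat_lit 578) (nat_lit 5) (nat_lit 411) (nat_lit 395) (nat_lit 334)) (XT.lf (nat_lit 76) (nat_lit 3152039963) (nat_lit 0) (nat_lit 2577688474) (nat_lit 1292) (nat_lit 1823107162) (nat_lit 562) (nat_lit 5) (nat_lit 561) (nat_lit 5) (nat_lit 578) (nat_lit 5) (nat_lit 412) (nat_lit 395) (nat_lit 333))) (XT.nd (nat_lit 78) (nat_lit 1216) (nat_lit 0) (XT.lf (nat_lit 76) (nat_lit 7289708611) (nat_lit 0) (nat_lit 272631684) (nat_lit 1292)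 (nat_lit 42653561) (nat_lit 562) (nat_lit 5) (nat_lit 561) (nat_lit 5) (nat_lit 578) (nat_lit 5) (nat_lit 413) (nat_lit 395) (nat_lit 332)) (XT.nd (nat_lit 78) (nat_lit 0) (nat_lit 0) (XT.lf (nat_lit 0) (nat_lit 1751039388) (nat_lit 1292) (nat_lit 3807790438) (nat_lit 1368) (nat_lit 2099133197) (nat_lit 545) (nat_lit 5) (nat_lit 562) (nat_lit 5) (nat_lit 563) (nat_lit 5) (nat_lit 414) (nat_lit 395) (nat_lit 331)) (XT.lf (nat_lit 76) (nat_lit 366467998) (nat_lit 0) (nat_lit 3182513752) (nat_lit 1368) (nat_lit 4163640750) (nat_lit 546) (nat_lit 5) (nat_lit 545) (nat_lit 5) (nat_lit 563) (nat_lit 5) (nat_lit 415) (nat_lit 395) (nat_lit 330))))) (XT.nd (nat_lit 234) (nat_lit 2812) (nat_lit 0) (XT.nd (nat_lit 78) (nat_lit 1292) (nat_lit 0) (XT.lf (nat_lit 76) (nat_lit 4648507742) (nat_lit 0) (nat_lit 723114384) (nat_lit 1368) (nat_lit 2396993450) (nat_lit 546) (nat_lit 5) (nat_lit 545) (nat_lit 5) (nat_lit 563) (nat_lit 5)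 (nat_lit 416) (nat_lit 395) (nat_lit 329)) (XT.nd (nat_lit 78) (nat_lit 76) (nat_lit 0) (XT.lf (nat_lit 0) (nat_lit 1166586340) (nat_lit 1292) (nat_lit 6047264839) (nat_lit 1368) (nat_lit 612229511) (nat_lit 529) (nat_lit 5) (nat_lit 546) (nat_lit 5) (nat_lit 547) (nat_lit 5) (nat_lit 417) (nat_lit 395) (nat_lit 328)) (XT.lf (nat_lit 0) (nat_lit 1182496827) (nat_lit 1368) (nat_lit 2343629125) (nat_lit 76) (nat_lit 4358624314) (nat_lit 528) (nat_lit 5) (nat_lit 546) (nat_lit 5) (nat_lit 529) (nat_lit 5) (nat_lit 418) (nat_lit 395) (nat_lit 327)))) (XT.nd (nat_lit 78) (nat_lit 1444) (nat_lit 0) (XT.lf (nat_lit 0) (nat_lit 2054096666) (nat_lit 1368) (nat_lit 929116718) (nat_lit 1444) (nat_lit 4961747079) (nat_lit 510) (nat_lit 5) (nat_lit 528) (nat_lit 5) (nat_lit 529) (nat_lit 5) (nat_lit 419) (nat_lit 395) (nat_lit 326)) (XT.nd (nat_lit 78) (nat_lit 1444) (nat_lit 0) (XT.lf (nat_lit 0) (nat_lit 4812449746) (nat_lit 1444)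 (nat_lit 1473699949) (nat_lit 76) (nat_lit 1720388821) (nat_lit 510) (nat_lit 5) (nat_lit 529) (nat_lit 5) (nat_lit 511) (nat_lit 5) (nat_lit 420) (nat_lit 395) (nat_lit 325)) (XT.lf (nat_lit 0) (nat_lit 3038132423) (nat_lit 1444) (nat_lit 3632201426) (nat_lit 1520) (nat_lit 1399186511) (nat_lit 491) (nat_lit 5) (nat_lit 510) (nat_lit 5) (nat_lit 511) (nat_lit 5) (nat_lit 421) (nat_lit 395) (nat_lit 324)))))) (XT.nd (nat_lit 390) (nat_lit 3952) (nat_lit 0) (XT.nd (nat_lit 156) (nat_lit 3268) (nat_lit 0) (XT.nd (nat_lit 78) (nat_lit 1520) (nat_lit 0) (XT.lf (nat_lit 0) (nat_lit 402345007) (nat_lit 1520) (nat_lit 503900303) (nat_lit 76) (nat_lit 7227945614) (nat_lit 490) (nat_lit 5) (nat_lit 510) (nat_lit 5) (nat_lit 491) (nat_lit 5) (nat_lit 422) (nat_lit 395) (nat_lit 323)) (XT.lf (nat_lit 0) (nat_lit 2227557617) (nat_lit 1596) (nat_lit 4080591134) (nat_lit 76) (nat_lit 1891706177) (nat_lit 470) (nat_lit 5) (nat_lit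 491) (nat_lit 5) (nat_lit 471) (nat_lit 5) (nat_lit 423) (nat_lit 395) (nat_lit 322))) (XT.nd (nat_lit 78) (nat_lit 1672) (nat_lit 0) (XT.lf (nat_lit 0) (nat_lit 548504018) (nat_lit 1596) (nat_lit 3521338512) (nat_lit 1672) (nat_lit 4197390785) (nat_lit 449) (nat_lit 5) (nat_lit 470) (nat_lit 5) (nat_lit 471) (nat_lit 5) (nat_lit 424) (nat_lit 395) (nat_lit 321)) (XT.nd (nat_lit 78) (nat_lit 1672) (nat_lit 0) (XT.lf (nat_lit 0) (nat_lit 5298053507) (nat_lit 1596) (nat_lit 646360996) (nat_lit 1672) (nat_lit 2391648159) (nat_lit 449) (nat_lit 5) (nat_lit 470) (nat_lit 5) (nat_lit 471) (nat_lit 5) (nat_lit 425) (nat_lit 395) (nat_lit 320)) (XT.lf (nat_lit 0) (nat_lit 1716423686) (nat_lit 1672) (nat_lit 6134754769) (nat_lit 1748) (nat_lit 555208107) (nat_lit 427) (nat_lit 5) (nat_lit 449) (nat_lit 5) (nat_lit 450) (nat_lit 5) (nat_lit 426) (nat_lit 395) (nat_lit 319))))) (XT.nd (nat_lit 234) (nat_lit 2128) (nat_lit 0) (XT.nd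 (nat_lit 78) (nat_lit 1748) (nat_lit 0) (XT.lf (nat_lit 0) (nat_lit 1294410775) (nat_lit 1748) (nat_lit 1911368556) (nat_lit 76) (nat_lit 5272303278) (nat_lit 426) (nat_lit 5) (nat_lit 449) (nat_lit 5) (nat_lit 427) (nat_lit 5) (nat_lit 427) (nat_lit 395) (nat_lit 318)) (XT.nd (nat_lit 78) (nat_lit 0) (nat_lit 0) (XT.lf (nat_lit 0) (nat_lit 2970815991) (nat_lit 1748) (nat_lit 191609555) (nat_lit 1824) (nat_lit 5388948166) (nat_lit 403) (nat_lit 5) (nat_lit 426) (nat_lit 5) (nat_lit 427) (nat_lit 5) (nat_lit 428) (nat_lit 395) (nat_lit 317)) (XT.lf (nat_lit 0) (nat_lit 5069411945) (nat_lit 1824) (nat_lit 695842168) (nat_lit 76) (nat_lit 2860855365) (nat_lit 403) (nat_lit 5) (nat_lit 427) (nat_lit 5) (nat_lit 404) (nat_lit 5) (nat_lit 429) (nat_lit 395) (nat_lit 316)))) (XT.nd (nat_lit 78) (nat_lit 988) (nat_lit 0) (XT.lf (nat_lit 0) (nat_lit 4314711371) (nat_lit 1140) (nat_lit 2699680944) (nat_lit 1216) (nat_lit 1687961408)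 (nat_lit 388) (nat_lit 5) (nat_lit 403) (nat_lit 5) (nat_lit 404) (nat_lit 5) (nat_lit 430) (nat_lit 395) (nat_lit 315)) (XT.nd (nat_lit 78) (nat_lit 0) (nat_lit 0) (XT.lf (nat_lit 0) (nat_lit 197731161) (nat_lit 988) (nat_lit 8149011009) (nat_lit 76) (nat_lit 433713930) (nat_lit 375) (nat_lit 5) (nat_lit 388) (nat_lit 5) (nat_lit 376) (nat_lit 5) (nat_lit 431) (nat_lit 395) (nat_lit 314)) (XT.lf (nat_lit 0) (nat_lit 2117251262) (nat_lit 988) (nat_lit 3106206797) (nat_lit 76) (nat_lit 3636075232) (nat_lit 375) (nat_lit 5) (nat_lit 388) (nat_lit 5) (nat_lit 376) (nat_lit 5) (nat_lit 432) (nat_lit 395) (nat_lit 313))))))) (XT.nd (nat_lit 858) (nat_lit 4180) (nat_lit 0) (XT.nd (nat_lit 390) (nat_lit 3116) (nat_lit 0) (XT.nd (nat_lit 156) (nat_lit 1748) (nat_lit 0) (XT.nd (nat_lit 78) (nat_lit 0) (nat_lit 0) (XT.lf (nat_lit 0) (nat_lit 2036900314) (nat_lit 836) (nat_lit 2023228804) (nat_lit 912) (nat_lit 4880373583) (nat_lit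 364) (nat_lit 5) (nat_lit 375) (nat_lit 5) (nat_lit 376) (nat_lit 5) (nat_lit 433) (nat_lit 395) (nat_lit 312)) (XT.lf (nat_lit 0) (nat_lit 6043030064) (nat_lit 912) (nat_lit 1733555726) (nat_lit 76) (nat_lit 1246492228) (nat_lit 364) (nat_lit 5) (nat_lit 376) (nat_lit 5) (nat_lit 365) (nat_lit 5) (nat_lit 434) (nat_lit 395) (nat_lit 311))) (XT.nd (nat_lit 78) (nat_lit 912) (nat_lit 0) (XT.lf (nat_lit 0) (nat_lit 3545879557) (nat_lit 836) (nat_lit 4528802872) (nat_lit 912) (nat_lit 1032450179) (nat_lit 353) (nat_lit 5) (nat_lit 364) (nat_lit 5) (nat_lit 365) (nat_lit 5) (nat_lit 435) (nat_lit 395) (nat_lit 310)) (XT.nd (nat_lit 78) (nat_lit 836) (nat_lit 0) (XT.lf (nat_lit 0) (nat_lit 926141823) (nat_lit 912) (nat_lit 271814980) (nat_lit 76) (nat_lit 7995105743) (nat_lit 352) (nat_lit 5) (nat_lit 364) (nat_lit 5) (nat_lit 353) (nat_lit 5) (nat_lit 436) (nat_lit 395) (nat_lit 309)) (XT.lf (nat_lit 0) (nat_lit 2931504103)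 (nat_lit 912) (nat_lit 4137552183) (nat_lit 76) (nat_lit 2211098930) (nat_lit 341) (nat_lit 5) (nat_lit 353) (nat_lit 5) (nat_lit 342) (nat_lit 5) (nat_lit 437) (nat_lit 395) (nat_lit 308))))) (XT.nd (nat_lit 234) (nat_lit 1520) (nat_lit 0) (XT.nd (nat_lit 78) (nat_lit 760) (nat_lit 0) (XT.lf (nat_lit 0) (nat_lit 1281775194) (nat_lit 836) (nat_lit 3687015147) (nat_lit 912) (nat_lit 4400371963) (nat_lit 330) (nat_lit 5) (nat_lit 341) (nat_lit 5) (nat_lit 342) (nat_lit 5) (nat_lit 438) (nat_lit 395) (nat_lit 307)) (XT.nd (nat_lit 78) (nat_lit 760) (nat_lit 0) (XT.lf (nat_lit 0) (nat_lit 6838622596) (nat_lit 836) (nat_lit 210030054) (nat_lit 912) (nat_lit 2411269003) (nat_lit 330) (nat_lit 5) (nat_lit 341) (nat_lit 5) (nat_lit 342) (nat_lit 5) (nat_lit 439) (nat_lit 395) (nat_lit 306)) (XT.lf (nat_lit 0) (nat_lit 2944126503) (nat_lit 760) (nat_lit 6241330906) (nat_lit 836) (nat_lit 366740433) (nat_lit 320) (nat_lit 5) (nat_lit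 330) (nat_lit 5) (nat_lit 331) (nat_lit 5) (nat_lit 440) (nat_lit 395) (nat_lit 305)))) (XT.nd (nat_lit 78) (nat_lit 1444) (nat_lit 0) (XT.lf (nat_lit 0) (nat_lit 1689953289) (nat_lit 836) (nat_lit 1029342273) (nat_lit 76) (nat_lit 6926932732) (nat_lit 319) (nat_lit 5) (nat_lit 330) (nat_lit 5) (nat_lit 320) (nat_lit 5) (nat_lit 441) (nat_lit 395) (nat_lit 304)) (XT.nd (nat_lit 78) (nat_lit 684) (nat_lit 0) (XT.lf (nat_lit 0) (nat_lit 3794437225) (nat_lit 836) (nat_lit 5054341592) (nat_lit 76) (nat_lit 893088777) (nat_lit 309) (nat_lit 5) (nat_lit 320) (nat_lit 5) (nat_lit 310) (nat_lit 5) (nat_lit 442) (nat_lit 395) (nat_lit 303)) (XT.lf (nat_lit 0) (nat_lit 657086667) (nat_lit 684) (nat_lit 5288667698) (nat_lit 760) (nat_lit 3893578348) (nat_lit 300) (nat_lit 5) (nat_lit 309) (nat_lit 5) (nat_lit 310) (nat_lit 5) (nat_lit 443) (nat_lit 395) (nat_lit 302)))))) (XT.nd (nat_lit 390) (nat_lit 1976) (nat_lit 0) (XT.nd (nat_lit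 156) (nat_lit 1368) (nat_lit 0) (XT.nd (nat_lit 78) (nat_lit 836) (nat_lit 0) (XT.lf (nat_lit 0) (nat_lit 6524553329) (nat_lit 684) (nat_lit 1625284055) (nat_lit 760) (nat_lit 1788722709) (nat_lit 300) (nat_lit 5) (nat_lit 309) (nat_lit 5) (nat_lit 310) (nat_lit 5) (nat_lit 444) (nat_lit 395) (nat_lit 301)) (XT.lf (nat_lit 0) (nat_lit 359534340) (nat_lit 836) (nat_lit 7580498386) (nat_lit 76) (nat_lit 2099580174) (nat_lit 289) (nat_lit 5) (nat_lit 300) (nat_lit 5) (nat_lit 290) (nat_lit 5) (nat_lit 445) (nat_lit 395) (nat_lit 300))) (XT.nd (nat_lit 78) (nat_lit 1368) (nat_lit 0) (XT.lf (nat_lit 0) (nat_lit 2537063880) (nat_lit 836) (nat_lit 1695804215) (nat_lit 76) (nat_lit 5909384334) (nat_lit 289) (nat_lit 5) (nat_lit 300) (nat_lit 5) (nat_lit 290) (nat_lit 5) (nat_lit 446) (nat_lit 395) (nat_lit 299)) (XT.nd (nat_lit 78) (nat_lit 684) (nat_lit 0) (XT.lf (nat_lit 0) (nat_lit 4337201735) (nat_lit 684) (nat_lit 425975779)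 (nat_lit 760) (nat_lit 5483673723) (nat_lit 280) (nat_lit 5) (nat_lit 289) (nat_lit 5) (nat_lit 290) (nat_lit 5) (nat_lit 447) (nat_lit 395) (nat_lit 298)) (XT.lf (nat_lit 0) (nat_lit 112965913) (nat_lit 684) (nat_lit 6932618012) (nat_lit 760) (nat_lit 3307729704) (nat_lit 271) (nat_lit 5) (nat_lit 280) (nat_lit 5) (nat_lit 281) (nat_lit 5) (nat_lit 448) (nat_lit 395) (nat_lit 297))))) (XT.nd (nat_lit 234) (nat_lit 1292) (nat_lit 0) (XT.nd (nat_lit 78) (nat_lit 684) (nat_lit 0) (XT.lf (nat_lit 0) (nat_lit 6306921293) (nat_lit 684) (nat_lit 3086590119) (nat_lit 760) (nat_lit 1068003280) (nat_lit 271) (nat_lit 5) (nat_lit 280) (nat_lit 5) (nat_lit 281) (nat_lit 5) (nat_lit 449) (nat_lit 395) (nat_lit 296)) (XT.nd (nat_lit 78) (nat_lit 0) (nat_lit 0) (XT.lf (nat_lit 0) (nat_lit 1197093252) (nat_lit 684) (nat_lit 8531794150) (nat_lit 76) (nat_lit 842910409) (nat_lit 262) (nat_lit 5) (nat_lit 271) (nat_lit 5) (nat_lit 263)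 (nat_lit 5) (nat_lit 450) (nat_lit 395) (nat_lit 295)) (XT.lf (nat_lit 0) (nat_lit 3519655763) (nat_lit 684) (nat_lit 2323014365) (nat_lit 76) (nat_lit 4840952468) (nat_lit 262) (nat_lit 5) (nat_lit 271) (nat_lit 5) (nat_lit 263) (nat_lit 5) (nat_lit 451) (nat_lit 395) (nat_lit 294)))) (XT.nd (nat_lit 78) (nat_lit 608) (nat_lit 0) (XT.lf (nat_lit 0) (nat_lit 4037008543) (nat_lit 684) (nat_lit 1856250455) (nat_lit 760) (nat_lit 4904339444) (nat_lit 253) (nat_lit 5) (nat_lit 262) (nat_lit 5) (nat_lit 263) (nat_lit 5) (nat_lit 452) (nat_lit 395) (nat_lit 293)) (XT.nd (nat_lit 78) (nat_lit 608) (nat_lit 0) (XT.lf (nat_lit 0) (nat_lit 8322981674) (nat_lit 760) (nat_lit 398386039) (nat_lit 76) (nat_lit 2192319378) (nat_lit 253) (nat_lit 5) (nat_lit 263) (nat_lit 5) (nat_lit 254) (nat_lit 5) (nat_lit 453) (nat_lit 395) (nat_lit 292)) (XT.lf (nat_lit 0) (nat_lit 6133610659) (nat_lit 608) (nat_lit 4698831494) (nat_lit 684) (nat_lit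 199038602) (nat_lit 245) (nat_lit 5) (nat_lit 253) (nat_lit 5) (nat_lit 254) (nat_lit 5) (nat_lit 454) (nat_lit 395) (nat_lit 291))))))))
noncomputable def xc134 : XT := (XT.nd (nat_lit 1716) (nat_lit 4864) (nat_lit 0) (XT.nd (nat_lit 858) (nat_lit 2812) (nat_lit 0) (XT.nd (nat_lit 390) (nat_lit 2204) (nat_lit 0) (XT.nd (nat_lit 156) (nat_lit 1216) (nat_lit 0) (XT.nd (nat_lit 78) (nat_lit 0) (nat_lit 0) (XT.lf (nat_lit 0) (nat_lit 1631183296) (nat_lit 608) (nat_lit 572305769) (nat_lit 684) (nat_lit 8948007938) (nat_lit 236) (nat_lit 5) (nat_lit 244) (nat_lit 5) (nat_lit 245) (nat_lit 5) (nat_lit 455) (nat_lit 395) (nat_lit 290)) (XT.lf (nat_lit 0) (nat_lit 4687442968) (nat_lit 684) (nat_lit 2967128107) (nat_lit 76) (nat_lit 3618601128) (nat_lit 236) (nat_lit 5) (nat_lit 245) (nat_lit 5) (nat_lit 237) (nat_lit 5) (nat_lit 456) (nat_lit 395) (nat_lit 289))) (XT.nd (nat_lit 78) (nat_lit 684) (nat_lit 0) (XT.lf (nat_lit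 0) (nat_lit 3736916376) (nat_lit 532) (nat_lit 3491958461) (nat_lit 608) (nat_lit 4168255738) (nat_lit 229) (nat_lit 5) (nat_lit 236) (nat_lit 5) (nat_lit 237) (nat_lit 5) (nat_lit 457) (nat_lit 395) (nat_lit 288)) (XT.nd (nat_lit 78) (nat_lit 684) (nat_lit 0) (XT.lf (nat_lit 0) (nat_lit 9826018442) (nat_lit 608) (nat_lit 938564391) (nat_lit 76) (nat_lit 758893154) (nat_lit 229) (nat_lit 5) (nat_lit 237) (nat_lit 5) (nat_lit 230) (nat_lit 5) (nat_lit 458) (nat_lit 395) (nat_lit 287)) (XT.lf (nat_lit 0) (nat_lit 854317070) (nat_lit 684) (nat_lit 5709867555) (nat_lit 76) (nat_lit 5087215141) (nat_lit 220) (nat_lit 5) (nat_lit 229) (nat_lit 5) (nat_lit 221) (nat_lit 5) (nat_lit 459) (nat_lit 395) (nat_lit 286))))) (XT.nd (nat_lit 234) (nat_lit 1140) (nat_lit 0) (XT.nd (nat_lit 78) (nat_lit 532) (nat_lit 0) (XT.lf (nat_lit 0) (nat_lit 1169018729) (nat_lit 532) (nat_lit 2259758838) (nat_lit 608) (nat_lit 8352997678) (nat_lit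 213) (nat_lit 5) (nat_lit 220) (nat_lit 5) (nat_lit 221) (nat_lit 5) (nat_lit 460) (nat_lit 395) (nat_lit 285)) (XT.nd (nat_lit 78) (nat_lit 532) (nat_lit 0) (XT.lf (nat_lit 0) (nat_lit 6087743576) (nat_lit 608) (nat_lit 3690614716) (nat_lit 76) (nat_lit 2135744729) (nat_lit 213) (nat_lit 5) (nat_lit 221) (nat_lit 5) (nat_lit 214) (nat_lit 5) (nat_lit 461) (nat_lit 395) (nat_lit 284)) (XT.lf (nat_lit 0) (nat_lit 3374341814) (nat_lit 532) (nat_lit 5443413056) (nat_lit 608) (nat_lit 3230970173) (nat_lit 206) (nat_lit 5) (nat_lit 213) (nat_lit 5) (nat_lit 214) (nat_lit 5) (nat_lit 462) (nat_lit 395) (nat_lit 283)))) (XT.nd (nat_lit 78) (nat_lit 1140) (nat_lit 0) (XT.lf (nat_lit 0) (nat_lit 10605870747) (nat_lit 532) (nat_lit 1002465807) (nat_lit 608) (nat_lit 577588465) (nat_lit 206) (nat_lit 5) (nat_lit 213) (nat_lit 5) (nat_lit 214) (nat_lit 5) (nat_lit 463) (nat_lit 395) (nat_lit 282)) (XT.nd (nat_lit 78) (nat_lit 532)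 (nat_lit 0) (XT.lf (nat_lit 0) (nat_lit 2142544911) (nat_lit 608) (nat_lit 6655951068) (nat_lit 76) (nat_lit 3526269209) (nat_lit 198) (nat_lit 5) (nat_lit 206) (nat_lit 5) (nat_lit 199) (nat_lit 5) (nat_lit 464) (nat_lit 395) (nat_lit 281)) (XT.lf (nat_lit 0) (nat_lit 590426053) (nat_lit 532) (nat_lit 4321686302) (nat_lit 608) (nat_lit 7554142774) (nat_lit 191) (nat_lit 5) (nat_lit 198) (nat_lit 5) (nat_lit 199) (nat_lit 5) (nat_lit 465) (nat_lit 395) (nat_lit 280)))))) (XT.nd (nat_lit 390) (nat_lit 1824) (nat_lit 0) (XT.nd (nat_lit 156) (nat_lit 532) (nat_lit 0) (XT.nd (nat_lit 78) (nat_lit 456) (nat_lit 0) (XT.lf (nat_lit 0) (nat_lit 7765393051) (nat_lit 608) (nat_lit 4564467778) (nat_lit 76) (nat_lit 280152140) (nat_lit 191) (nat_lit 5) (nat_lit 199) (nat_lit 5) (nat_lit 192) (nat_lit 5) (nat_lit 466) (nat_lit 395) (nat_lit 279)) (XT.lf (nat_lit 0) (nat_lit 2877875724) (nat_lit 456) (nat_lit 7827299233) (nat_lit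 532) (nat_lit 2050886748) (nat_lit 185) (nat_lit 5) (nat_lit 191) (nat_lit 5) (nat_lit 192) (nat_lit 5) (nat_lit 467) (nat_lit 395) (nat_lit 278))) (XT.nd (nat_lit 78) (nat_lit 456) (nat_lit 0) (XT.lf (nat_lit 0) (nat_lit 801280468) (nat_lit 532) (nat_lit 2403317758) (nat_lit 76) (nat_lit 9700073057) (nat_lit 184) (nat_lit 5) (nat_lit 191) (nat_lit 5) (nat_lit 185) (nat_lit 5) (nat_lit 468) (nat_lit 395) (nat_lit 277)) (XT.nd (nat_lit 78) (nat_lit 0) (nat_lit 0) (XT.lf (nat_lit 0) (nat_lit 3709789171) (nat_lit 532) (nat_lit 7813351338) (nat_lit 76) (nat_lit 1532310419) (nat_lit 178) (nat_lit 5) (nat_lit 185) (nat_lit 5) (nat_lit 179) (nat_lit 5) (nat_lit 469) (nat_lit 395) (nat_lit 276)) (XT.lf (nat_lit 0) (nat_lit 6696620800) (nat_lit 532) (nat_lit 181368689) (nat_lit 76) (nat_lit 6330857733) (nat_lit 178) (nat_lit 5) (nat_lit 185) (nat_lit 5) (nat_lit 179) (nat_lit 5) (nat_lit 470) (nat_lit 395) (nat_lit 275))))) (XT.nd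 (nat_lit 234) (nat_lit 836) (nat_lit 0) (XT.nd (nat_lit 78) (nat_lit 532) (nat_lit 0) (XT.lf (nat_lit 0) (nat_lit 7680336871) (nat_lit 456) (nat_lit 2095753242) (nat_lit 532) (nat_lit 3588567341) (nat_lit 172) (nat_lit 5) (nat_lit 178) (nat_lit 5) (nat_lit 179) (nat_lit 5) (nat_lit 471) (nat_lit 395) (nat_lit 274)) (XT.nd (nat_lit 78) (nat_lit 76) (nat_lit 0) (XT.lf (nat_lit 0) (nat_lit 2164708269) (nat_lit 456) (nat_lit 10768955627) (nat_lit 532) (nat_lit 589593644) (nat_lit 166) (nat_lit 5) (nat_lit 172) (nat_lit 5) (nat_lit 173) (nat_lit 5) (nat_lit 472) (nat_lit 395) (nat_lit 273)) (XT.lf (nat_lit 0) (nat_lit 2472484237) (nat_lit 532) (nat_lit 3490517469) (nat_lit 76) (nat_lit 7721000850) (nat_lit 165) (nat_lit 5) (nat_lit 172) (nat_lit 5) (nat_lit 166) (nat_lit 5) (nat_lit 473) (nat_lit 395) (nat_lit 272)))) (XT.nd (nat_lit 78) (nat_lit 456) (nat_lit 0) (XT.lf (nat_lit 0) (nat_lit 4567485133) (nat_lit 380) (nat_lit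 1033649395) (nat_lit 456) (nat_lit 8246489214) (nat_lit 160) (nat_lit 5) (nat_lit 165) (nat_lit 5) (nat_lit 166) (nat_lit 5) (nat_lit 474) (nat_lit 395) (nat_lit 271)) (XT.nd (nat_lit 78) (nat_lit 456) (nat_lit 0) (XT.lf (nat_lit 0) (nat_lit 8825558913) (nat_lit 456) (nat_lit 1229693389) (nat_lit 76) (nat_lit 3958604679) (nat_lit 160) (nat_lit 5) (nat_lit 166) (nat_lit 5) (nat_lit 161) (nat_lit 5) (nat_lit 475) (nat_lit 395) (nat_lit 270)) (XT.lf (nat_lit 0) (nat_lit 7044244585) (nat_lit 456) (nat_lit 5106817468) (nat_lit 532) (nat_lit 2031624607) (nat_lit 154) (nat_lit 5) (nat_lit 160) (nat_lit 5) (nat_lit 161) (nat_lit 5) (nat_lit 476) (nat_lit 395) (nat_lit 269))))))) (XT.nd (nat_lit 858) (nat_lit 2356) (nat_lit 0) (XT.nd (nat_lit 390) (nat_lit 1292) (nat_lit 0) (XT.nd (nat_lit 156) (nat_lit 760) (nat_lit 0) (XT.nd (nat_lit 78) (nat_lit 0) (nat_lit 0) (XT.lf (nat_lit 0) (nat_lit 1129526233) (nat_lit 380) (nat_lit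 42778593) (nat_lit 456) (nat_lit 13182443142) (nat_lit 148) (nat_lit 5) (nat_lit 153) (nat_lit 5) (nat_lit 154) (nat_lit 5) (nat_lit 477) (nat_lit 395) (nat_lit 268)) (XT.lf (nat_lit 0) (nat_lit 4478795835) (nat_lit 456) (nat_lit 4939946505) (nat_lit 76) (nat_lit 5109929225) (nat_lit 148) (nat_lit 5) (nat_lit 154) (nat_lit 5) (nat_lit 149) (nat_lit 5) (nat_lit 478) (nat_lit 395) (nat_lit 267))) (XT.nd (nat_lit 78) (nat_lit 380) (nat_lit 0) (XT.lf (nat_lit 0) (nat_lit 3534319072) (nat_lit 380) (nat_lit 4324820329) (nat_lit 456) (nat_lit 6846783087) (nat_lit 143) (nat_lit 5) (nat_lit 148) (nat_lit 5) (nat_lit 149) (nat_lit 5) (nat_lit 479) (nat_lit 395) (nat_lit 266)) (XT.nd (nat_lit 78) (nat_lit 380) (nat_lit 0) (XT.lf (nat_lit 0) (nat_lit 11330716099) (nat_lit 456) (nat_lit 2669795855) (nat_lit 76) (nat_lit 885737192) (nat_lit 143) (nat_lit 5) (nat_lit 149) (nat_lit 5) (nat_lit 144) (nat_lit 5) (nat_lit 480) (nat_lit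 395) (nat_lit 265)) (XT.lf (nat_lit 0) (nat_lit 6030042598) (nat_lit 380) (nat_lit 8894377987) (nat_lit 456) (nat_lit 144711005) (nat_lit 138) (nat_lit 5) (nat_lit 143) (nat_lit 5) (nat_lit 144) (nat_lit 5) (nat_lit 481) (nat_lit 395) (nat_lit 264))))) (XT.nd (nat_lit 234) (nat_lit 456) (nat_lit 0) (XT.nd (nat_lit 78) (nat_lit 760) (nat_lit 0) (XT.lf (nat_lit 0) (nat_lit 3293584735) (nat_lit 456) (nat_lit 359517561) (nat_lit 76) (nat_lit 11602079718) (nat_lit 137) (nat_lit 5) (nat_lit 143) (nat_lit 5) (nat_lit 138) (nat_lit 5) (nat_lit 482) (nat_lit 395) (nat_lit 263)) (XT.nd (nat_lit 78) (nat_lit 380) (nat_lit 0) (XT.lf (nat_lit 0) (nat_lit 6851006532) (nat_lit 456) (nat_lit 6872243902) (nat_lit 76) (nat_lit 1720640919) (nat_lit 132) (nat_lit 5) (nat_lit 138) (nat_lit 5) (nat_lit 133) (nat_lit 5) (nat_lit 483) (nat_lit 395) (nat_lit 262)) (XT.lf (nat_lit 0) (nat_lit 2030235061) (nat_lit 380) (nat_lit 8474492273) (nat_lit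 456) (nat_lit 5131147471) (nat_lit 127) (nat_lit 5) (nat_lit 132) (nat_lit 5) (nat_lit 133) (nat_lit 5) (nat_lit 484) (nat_lit 395) (nat_lit 261)))) (XT.nd (nat_lit 78) (nat_lit 456) (nat_lit 0) (XT.lf (nat_lit 0) (nat_lit 11181898887) (nat_lit 380) (nat_lit 3081232051) (nat_lit 456) (nat_lit 1567937700) (nat_lit 127) (nat_lit 5) (nat_lit 132) (nat_lit 5) (nat_lit 133) (nat_lit 5) (nat_lit 485) (nat_lit 395) (nat_lit 260)) (XT.nd (nat_lit 78) (nat_lit 0) (nat_lit 0) (XT.lf (nat_lit 0) (nat_lit 2070343094) (nat_lit 456) (nat_lit 11535161671) (nat_lit 76) (nat_lit 2423777806) (nat_lit 121) (nat_lit 5) (nat_lit 127) (nat_lit 5) (nat_lit 122) (nat_lit 5) (nat_lit 486) (nat_lit 395) (nat_lit 259)) (XT.lf (nat_lit 0) (nat_lit 5797996331) (nat_lit 456) (nat_lit 2400410255) (nat_lit 76) (nat_lit 8032097599) (nat_lit 121) (nat_lit 5) (nat_lit 127) (nat_lit 5) (nat_lit 122) (nat_lit 5) (nat_lit 487) (nat_lit 395) (nat_lit 258))))))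 (XT.nd (nat_lit 390) (nat_lit 1292) (nat_lit 0) (XT.nd (nat_lit 156) (nat_lit 760) (nat_lit 0) (XT.nd (nat_lit 78) (nat_lit 0) (nat_lit 0) (XT.lf (nat_lit 0) (nat_lit 6987228166) (nat_lit 304) (nat_lit 2644390565) (nat_lit 380) (nat_lit 6803505836) (nat_lit 117) (nat_lit 5) (nat_lit 121) (nat_lit 5) (nat_lit 122) (nat_lit 5) (nat_lit 488) (nat_lit 395) (nat_lit 257)) (XT.lf (nat_lit 0) (nat_lit 13563877632) (nat_lit 380) (nat_lit 89612686) (nat_lit 76) (nat_lit 2989910367) (nat_lit 117) (nat_lit 5) (nat_lit 122) (nat_lit 5) (nat_lit 118) (nat_lit 5) (nat_lit 489) (nat_lit 395) (nat_lit 256))) (XT.nd (nat_lit 78) (nat_lit 304) (nat_lit 0) (XT.lf (nat_lit 0) (nat_lit 775820722) (nat_lit 456) (nat_lit 7317271142) (nat_lit 76) (nat_lit 8761333404) (nat_lit 111) (nat_lit 5) (nat_lit 117) (nat_lit 5) (nat_lit 112) (nat_lit 5) (nat_lit 490) (nat_lit 395) (nat_lit 255)) (XT.nd (nat_lit 78) (nat_lit 0) (nat_lit 0) (XT.lf (nat_lit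 0) (nat_lit 2276311421) (nat_lit 304) (nat_lit 2392595789) (nat_lit 380) (nat_lit 12400321061) (nat_lit 107) (nat_lit 5) (nat_lit 111) (nat_lit 5) (nat_lit 112) (nat_lit 5) (nat_lit 491) (nat_lit 395) (nat_lit 254)) (XT.lf (nat_lit 0) (nat_lit 8698028080) (nat_lit 380) (nat_lit 5170174295) (nat_lit 76) (nat_lit 3418963917) (nat_lit 107) (nat_lit 5) (nat_lit 112) (nat_lit 5) (nat_lit 108) (nat_lit 5) (nat_lit 492) (nat_lit 395) (nat_lit 253))))) (XT.nd (nat_lit 234) (nat_lit 608) (nat_lit 0) (XT.nd (nat_lit 78) (nat_lit 380) (nat_lit 0) (XT.lf (nat_lit 0) (nat_lit 4669597489) (nat_lit 304) (nat_lit 8171088589) (nat_lit 380) (nat_lit 4668120263) (nat_lit 103) (nat_lit 5) (nat_lit 107) (nat_lit 5) (nat_lit 108) (nat_lit 5) (nat_lit 493) (nat_lit 395) (nat_lit 252)) (XT.nd (nat_lit 78) (nat_lit 380) (nat_lit 0) (XT.lf (nat_lit 0) (nat_lit 14755561551) (nat_lit 304) (nat_lit 2332246539) (nat_lit 380) (nat_lit 646641200) (nat_lit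 103) (nat_lit 5) (nat_lit 107) (nat_lit 5) (nat_lit 108) (nat_lit 5) (nat_lit 494) (nat_lit 395) (nat_lit 251)) (XT.lf (nat_lit 0) (nat_lit 3467255938) (nat_lit 380) (nat_lit 10858169796) (nat_lit 76) (nat_lit 3637586811) (nat_lit 98) (nat_lit 5) (nat_lit 103) (nat_lit 5) (nat_lit 99) (nat_lit 5) (nat_lit 495) (nat_lit 395) (nat_lit 250)))) (XT.nd (nat_lit 78) (nat_lit 608) (nat_lit 0) (XT.lf (nat_lit 0) (nat_lit 7677506260) (nat_lit 380) (nat_lit 805509005) (nat_lit 76) (nat_lit 9712593822) (nat_lit 98) (nat_lit 5) (nat_lit 103) (nat_lit 5) (nat_lit 99) (nat_lit 5) (nat_lit 496) (nat_lit 395) (nat_lit 249)) (XT.nd (nat_lit 78) (nat_lit 304) (nat_lit 0) (XT.lf (nat_lit 0) (nat_lit 9553372655) (nat_lit 304) (nat_lit 2468025608) (nat_lit 380) (nat_lit 6410472702) (nat_lit 94) (nat_lit 5) (nat_lit 98) (nat_lit 5) (nat_lit 99) (nat_lit 5) (nat_lit 497) (nat_lit 395) (nat_lit 248)) (XT.lf (nat_lit 0) (nat_lit 1432343336)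 (nat_lit 304) (nat_lit 15045854055) (nat_lit 380) (nat_lit 2194142201) (nat_lit 90) (nat_lit 5) (nat_lit 94) (nat_lit 5) (nat_lit 95) (nat_lit 5) (nat_lit 498) (nat_lit 395) (nat_lit 247))))))))
noncomputable def xc135 : XT := (XT.nd (nat_lit 52572) (nat_lit 0) (nat_lit 22648) (XT.nd (nat_lit 51714) (nat_lit 0) (nat_lit 36708) (XT.nd (nat_lit 390) (nat_lit 304) (nat_lit 0) (XT.nd (nat_lit 156) (nat_lit 304) (nat_lit 0) (XT.nd (nat_lit 78) (nat_lit 304) (nat_lit 0) (XT.lf (nat_lit 0) (nat_lit 2142715219) (nat_lit 380) (nat_lit 6897321806) (nat_lit 76) (nat_lit 9876032491) (nat_lit 89) (nat_lit 5) (nat_lit 94) (nat_lit 5) (nat_lit 90) (nat_lit 5) (nat_lit 499) (nat_lit 395) (nat_lit 246)) (XT.lf (nat_lit 0) (nat_lit 3665919286) (nat_lit 304) (nat_lit 2882594031) (nat_lit 380) (nat_lit 12615640971) (nat_lit 85) (nat_lit 5) (nat_lit 89) (nat_lit 5) (nat_lit 90) (nat_lit 5) (nat_lit 500) (nat_lit 395) (nat_lit 245))) (XT.nd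 (nat_lit 78) (nat_lit 304) (nat_lit 0) (XT.lf (nat_lit 0) (nat_lit 11098897689) (nat_lit 380) (nat_lit 4924623682) (nat_lit 76) (nat_lit 3392551916) (nat_lit 85) (nat_lit 5) (nat_lit 90) (nat_lit 5) (nat_lit 86) (nat_lit 5) (nat_lit 501) (nat_lit 395) (nat_lit 244)) (XT.nd (nat_lit 78) (nat_lit 76) (nat_lit 0) (XT.lf (nat_lit 0) (nat_lit 5899229236) (nat_lit 228) (nat_lit 9886508201) (nat_lit 304) (nat_lit 3886386175) (nat_lit 82) (nat_lit 5) (nat_lit 85) (nat_lit 5) (nat_lit 86) (nat_lit 5) (nat_lit 502) (nat_lit 395) (nat_lit 243)) (XT.lf (nat_lit 0) (nat_lit 646066642) (nat_lit 304) (nat_lit 2950190937) (nat_lit 76) (nat_lit 16336529994) (nat_lit 81) (nat_lit 5) (nat_lit 85) (nat_lit 5) (nat_lit 82) (nat_lit 5) (nat_lit 503) (nat_lit 395) (nat_lit 242))))) (XT.nd (nat_lit 51090) (nat_lit 0) (nat_lit 39900) (XT.nd (nat_lit 50934) (nat_lit 0) (nat_lit 39900) (XT.lf (nat_lit 0) (nat_lit 5277198080) (nat_lit 380) (nat_lit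 12065135778) (nat_lit 76) (nat_lit 2854617599) (nat_lit 77) (nat_lit 5) (nat_lit 82) (nat_lit 5) (nat_lit 78) (nat_lit 5) (nat_lit 504) (nat_lit 395) (nat_lit 241)) (XT.nd (nat_lit 78) (nat_lit 988) (nat_lit 0) (XT.lf (nat_lit 0) (nat_lit 3263996779) (nat_lit 988) (nat_lit 101608484) (nat_lit 988) (nat_lit 101608484) (nat_lit 615) (nat_lit 3) (nat_lit 628) (nat_lit 3) (nat_lit 628) (nat_lit 5) (nat_lit 396) (nat_lit 396) (nat_lit 348)) (XT.lf (nat_lit 0) (nat_lit 1465210806) (nat_lit 988) (nat_lit 3794036705) (nat_lit 1064) (nat_lit 1706293159) (nat_lit 602) (nat_lit 5) (nat_lit 615) (nat_lit 3) (nat_lit 616) (nat_lit 5) (nat_lit 397) (nat_lit 396) (nat_lit 347)))) (XT.nd (nat_lit 78) (nat_lit 0) (nat_lit 0) (XT.lf (nat_lit 0) (nat_lit 3321547408) (nat_lit 988) (nat_lit 409051389) (nat_lit 1064) (nat_lit 3267592589) (nat_lit 602) (nat_lit 5) (nat_lit 615) (nat_lit 3) (nat_lit 616) (nat_lit 5) (nat_lit 398) (nat_lit 396)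 (nat_lit 346)) (XT.nd (nat_lit 78) (nat_lit 0) (nat_lit 0) (XT.lf (nat_lit 76) (nat_lit 3058674300) (nat_lit 0) (nat_lit 2128473131) (nat_lit 1064) (nat_lit 1844927527) (nat_lit 603) (nat_lit 5) (nat_lit 602) (nat_lit 5) (nat_lit 616) (nat_lit 5) (nat_lit 399) (nat_lit 396) (nat_lit 345)) (XT.lf (nat_lit 76) (nat_lit 6576389870) (nat_lit 0) (nat_lit 469466285) (nat_lit 1064) (nat_lit 21686247) (nat_lit 603) (nat_lit 5) (nat_lit 602) (nat_lit 5) (nat_lit 616) (nat_lit 5) (nat_lit 400) (nat_lit 396) (nat_lit 344)))))) (XT.nd (nat_lit 390) (nat_lit 1064) (nat_lit 0) (XT.nd (nat_lit 156) (nat_lit 1140) (nat_lit 0) (XT.nd (nat_lit 78) (nat_lit 0) (nat_lit 0) (XT.lf (nat_lit 0) (nat_lit 1795740802) (nat_lit 1064) (nat_lit 4048386129) (nat_lit 1140) (nat_lit 1259738325) (nat_lit 589) (nat_lit 5) (nat_lit 603) (nat_lit 5) (nat_lit 604) (nat_lit 5) (nat_lit 401) (nat_lit 396) (nat_lit 343)) (XT.lf (nat_lit 0) (nat_lit 3610180881)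 (nat_lit 1064) (nat_lit 490382943) (nat_lit 1140) (nat_lit 3041149636) (nat_lit 589) (nat_lit 5) (nat_lit 603) (nat_lit 5) (nat_lit 604) (nat_lit 5) (nat_lit 402) (nat_lit 396) (nat_lit 342))) (XT.nd (nat_lit 78) (nat_lit 1140) (nat_lit 0) (XT.lf (nat_lit 76) (nat_lit 3154702917) (nat_lit 0) (nat_lit 2282108707) (nat_lit 1140) (nat_lit 1744009413) (nat_lit 590) (nat_lit 5) (nat_lit 589) (nat_lit 5) (nat_lit 604) (nat_lit 5) (nat_lit 403) (nat_lit 396) (nat_lit 341)) (XT.nd (nat_lit 78) (nat_lit 0) (nat_lit 76) (XT.lf (nat_lit 0) (nat_lit 37356259) (nat_lit 1140) (nat_lit 367734850) (nat_lit 1216) (nat_lit 6816446388) (nat_lit 574) (nat_lit 5) (nat_lit 589) (nat_lit 5) (nat_lit 590) (nat_lit 5) (nat_lit 404) (nat_lit 396) (nat_lit 340)) (XT.lf (nat_lit 0) (nat_lit 1819729874) (nat_lit 1140) (nat_lit 3902328109) (nat_lit 1216) (nat_lit 1541024355) (nat_lit 575) (nat_lit 5) (nat_lit 590) (nat_lit 5) (nat_lit 591) (nat_lit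 5) (nat_lit 405) (nat_lit 396) (nat_lit 339))))) (XT.nd (nat_lit 234) (nat_lit 1140) (nat_lit 0) (XT.nd (nat_lit 78) (nat_lit 0) (nat_lit 0) (XT.lf (nat_lit 0) (nat_lit 3600401737) (nat_lit 1140) (nat_lit 165511042) (nat_lit 1216) (nat_lit 3540311171) (nat_lit 575) (nat_lit 5) (nat_lit 590) (nat_lit 5) (nat_lit 591) (nat_lit 5) (nat_lit 406) (nat_lit 396) (nat_lit 338)) (XT.nd (nat_lit 78) (nat_lit 0) (nat_lit 76) (XT.lf (nat_lit 76) (nat_lit 3668467636) (nat_lit 0) (nat_lit 1730355189) (nat_lit 1216) (nat_lit 1951781373) (nat_lit 576) (nat_lit 5) (nat_lit 575) (nat_lit 5) (nat_lit 591) (nat_lit 5) (nat_lit 407) (nat_lit 396) (nat_lit 337)) (XT.lf (nat_lit 76) (nat_lit 158892406) (nat_lit 0) (nat_lit 7037785486) (nat_lit 1216) (nat_lit 199943006) (nat_lit 577) (nat_lit 5) (nat_lit 576) (nat_lit 5) (nat_lit 592) (nat_lit 5) (nat_lit 408) (nat_lit 396) (nat_lit 336)))) (XT.nd (nat_lit 78) (nat_lit 0) (nat_lit 0) (XT.lf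 (nat_lit 0) (nat_lit 1561868698) (nat_lit 1216) (nat_lit 3365176366) (nat_lit 1292) (nat_lit 2516409262) (nat_lit 560) (nat_lit 5) (nat_lit 576) (nat_lit 5) (nat_lit 577) (nat_lit 5) (nat_lit 409) (nat_lit 396) (nat_lit 335)) (XT.nd (nat_lit 78) (nat_lit 0) (nat_lit 0) (XT.lf (nat_lit 76) (nat_lit 564593159) (nat_lit 0) (nat_lit 2755527646) (nat_lit 1292) (nat_lit 4171816666) (nat_lit 561) (nat_lit 5) (nat_lit 560) (nat_lit 5) (nat_lit 577) (nat_lit 5) (nat_lit 410) (nat_lit 396) (nat_lit 334)) (XT.lf (nat_lit 76) (nat_lit 4592432789) (nat_lit 0) (nat_lit 504510868) (nat_lit 1292) (nat_lit 2444795283) (nat_lit 561) (nat_lit 5) (nat_lit 560) (nat_lit 5) (nat_lit 577) (nat_lit 5) (nat_lit 411) (nat_lit 396) (nat_lit 333))))))) (XT.nd (nat_lit 858) (nat_lit 8740) (nat_lit 0) (XT.nd (nat_lit 390) (nat_lit 4104) (nat_lit 0) (XT.nd (nat_lit 156) (nat_lit 0) (nat_lit 0) (XT.nd (nat_lit 78) (nat_lit 1292) (nat_lit 0) (XT.lf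 (nat_lit 76) (nat_lit 1084386772) (nat_lit 0) (nat_lit 5805263266) (nat_lit 1292) (nat_lit 703295904) (nat_lit 562) (nat_lit 5) (nat_lit 561) (nat_lit 5) (nat_lit 578) (nat_lit 5) (nat_lit 412) (nat_lit 396) (nat_lit 332)) (XT.lf (nat_lit 0) (nat_lit 1044213470) (nat_lit 1292) (nat_lit 2443330907) (nat_lit 1368) (nat_lit 4157804118) (nat_lit 544) (nat_lit 5) (nat_lit 561) (nat_lit 5) (nat_lit 562) (nat_lit 5) (nat_lit 413) (nat_lit 396) (nat_lit 331))) (XT.nd (nat_lit 78) (nat_lit 0) (nat_lit 76) (XT.lf (nat_lit 76) (nat_lit 1694450910) (nat_lit 0) (nat_lit 1096550034) (nat_lit 1368) (nat_lit 4908245773) (nat_lit 545) (nat_lit 5) (nat_lit 544) (nat_lit 5) (nat_lit 562) (nat_lit 5) (nat_lit 414) (nat_lit 396) (nat_lit 330)) (XT.nd (nat_lit 78) (nat_lit 0) (nat_lit 0) (XT.lf (nat_lit 0) (nat_lit 4561307920) (nat_lit 1292) (nat_lit 1841571245) (nat_lit 1368) (nat_lit 1351587257) (nat_lit 545) (nat_lit 5) (nat_lit 562) (nat_lit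 5) (nat_lit 563) (nat_lit 5) (nat_lit 415) (nat_lit 396) (nat_lit 329)) (XT.lf (nat_lit 76) (nat_lit 2402735683) (nat_lit 0) (nat_lit 3951230037) (nat_lit 1368) (nat_lit 1457100802) (nat_lit 546) (nat_lit 5) (nat_lit 545) (nat_lit 5) (nat_lit 563) (nat_lit 5) (nat_lit 416) (nat_lit 396) (nat_lit 328))))) (XT.nd (nat_lit 234) (nat_lit 2812) (nat_lit 0) (XT.nd (nat_lit 78) (nat_lit 0) (nat_lit 76) (XT.lf (nat_lit 0) (nat_lit 286371505) (nat_lit 1368) (nat_lit 1140524649) (nat_lit 1444) (nat_lit 6442339908) (nat_lit 527) (nat_lit 5) (nat_lit 545) (nat_lit 5) (nat_lit 546) (nat_lit 5) (nat_lit 417) (nat_lit 396) (nat_lit 327)) (XT.nd (nat_lit 78) (nat_lit 0) (nat_lit 0) (XT.lf (nat_lit 0) (nat_lit 2038898975) (nat_lit 1368) (nat_lit 4717399166) (nat_lit 76) (nat_lit 1172218332) (nat_lit 528) (nat_lit 5) (nat_lit 546) (nat_lit 5) (nat_lit 529) (nat_lit 5) (nat_lit 418) (nat_lit 396) (nat_lit 326)) (XT.lf (nat_lit 0) (nat_lit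 3809267339) (nat_lit 1368) (nat_lit 359883500) (nat_lit 76) (nat_lit 3820189608) (nat_lit 528) (nat_lit 5) (nat_lit 546) (nat_lit 5) (nat_lit 529) (nat_lit 5) (nat_lit 419) (nat_lit 396) (nat_lit 325)))) (XT.nd (nat_lit 78) (nat_lit 1520) (nat_lit 0) (XT.lf (nat_lit 0) (nat_lit 4112437477) (nat_lit 1368) (nat_lit 1495616554) (nat_lit 1444) (nat_lit 2443480141) (nat_lit 510) (nat_lit 5) (nat_lit 528) (nat_lit 5) (nat_lit 529) (nat_lit 5) (nat_lit 420) (nat_lit 396) (nat_lit 324)) (XT.nd (nat_lit 78) (nat_lit 76) (nat_lit 0) (XT.lf (nat_lit 0) (nat_lit 536352391) (nat_lit 1444) (nat_lit 6887219817) (nat_lit 1520) (nat_lit 691797674) (nat_lit 491) (nat_lit 5) (nat_lit 510) (nat_lit 5) (nat_lit 511) (nat_lit 5) (nat_lit 421) (nat_lit 396) (nat_lit 323)) (XT.lf (nat_lit 0) (nat_lit 1084166811) (nat_lit 1520) (nat_lit 3069540607) (nat_lit 76) (nat_lit 4026573255) (nat_lit 490) (nat_lit 5) (nat_lit 510) (nat_lit 5) (nat_lit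 491) (nat_lit 5) (nat_lit 422) (nat_lit 396) (nat_lit 322)))))) (XT.nd (nat_lit 390) (nat_lit 3876) (nat_lit 0) (XT.nd (nat_lit 156) (nat_lit 3344) (nat_lit 0) (XT.nd (nat_lit 78) (nat_lit 0) (nat_lit 0) (XT.lf (nat_lit 0) (nat_lit 1518892188) (nat_lit 1520) (nat_lit 1345105941) (nat_lit 1596) (nat_lit 5382860344) (nat_lit 470) (nat_lit 5) (nat_lit 490) (nat_lit 5) (nat_lit 491) (nat_lit 5) (nat_lit 423) (nat_lit 396) (nat_lit 321)) (XT.lf (nat_lit 0) (nat_lit 4678264021) (nat_lit 1596) (nat_lit 2110738056) (nat_lit 76) (nat_lit 1525801212) (nat_lit 470) (nat_lit 5) (nat_lit 491) (nat_lit 5) (nat_lit 471) (nat_lit 5) (nat_lit 424) (nat_lit 396) (nat_lit 320))) (XT.nd (nat_lit 78) (nat_lit 1748) (nat_lit 0) (XT.lf (nat_lit 0) (nat_lit 2597442520) (nat_lit 1596) (nat_lit 3926004441) (nat_lit 1672) (nat_lit 1860779386) (nat_lit 449) (nat_lit 5) (nat_lit 470) (nat_lit 5) (nat_lit 471) (nat_lit 5) (nat_lit 425) (nat_lit 396)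 (nat_lit 319)) (XT.nd (nat_lit 78) (nat_lit 1748) (nat_lit 0) (XT.lf (nat_lit 0) (nat_lit 7402022833) (nat_lit 1596) (nat_lit 986973665) (nat_lit 1672) (nat_lit 66383853) (nat_lit 449) (nat_lit 5) (nat_lit 470) (nat_lit 5) (nat_lit 471) (nat_lit 5) (nat_lit 426) (nat_lit 396) (nat_lit 318)) (XT.lf (nat_lit 0) (nat_lit 1748361972) (nat_lit 1748) (nat_lit 4754499304) (nat_lit 76) (nat_lit 2024726476) (nat_lit 426) (nat_lit 5) (nat_lit 449) (nat_lit 5) (nat_lit 427) (nat_lit 5) (nat_lit 427) (nat_lit 396) (nat_lit 317))))) (XT.nd (nat_lit 234) (nat_lit 988) (nat_lit 0) (XT.nd (nat_lit 78) (nat_lit 1140) (nat_lit 0) (XT.lf (nat_lit 0) (nat_lit 76491543) (nat_lit 1748) (nat_lit 3506310900) (nat_lit 1824) (nat_lit 5018753376) (nat_lit 403) (nat_lit 5) (nat_lit 426) (nat_lit 5) (nat_lit 427) (nat_lit 5) (nat_lit 428) (nat_lit 396) (nat_lit 316)) (XT.nd (nat_lit 78) (nat_lit 1140) (nat_lit 0) (XT.lf (nat_lit 0) (nat_lit 5041993659)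 (nat_lit 1748) (nat_lit 414395831) (nat_lit 1824) (nat_lit 3220575453) (nat_lit 403) (nat_lit 5) (nat_lit 426) (nat_lit 5) (nat_lit 427) (nat_lit 5) (nat_lit 429) (nat_lit 396) (nat_lit 315)) (XT.lf (nat_lit 0) (nat_lit 1325884304) (nat_lit 1140) (nat_lit 6039106593) (nat_lit 1216) (nat_lit 1388951137) (nat_lit 388) (nat_lit 5) (nat_lit 403) (nat_lit 5) (nat_lit 404) (nat_lit 5) (nat_lit 430) (nat_lit 396) (nat_lit 314)))) (XT.nd (nat_lit 78) (nat_lit 912) (nat_lit 0) (XT.lf (nat_lit 0) (nat_lit 471661430) (nat_lit 1216) (nat_lit 2429617194) (nat_lit 76) (nat_lit 5931155189) (nat_lit 387) (nat_lit 5) (nat_lit 403) (nat_lit 5) (nat_lit 388) (nat_lit 5) (nat_lit 431) (nat_lit 396) (nat_lit 313)) (XT.nd (nat_lit 78) (nat_lit 0) (nat_lit 0) (XT.lf (nat_lit 0) (nat_lit 2342265438) (nat_lit 988) (nat_lit 6246410697) (nat_lit 76) (nat_lit 323818153) (nat_lit 375) (nat_lit 5) (nat_lit 388) (nat_lit 5) (nat_lit 376) (nat_lit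 5) (nat_lit 432) (nat_lit 396) (nat_lit 312)) (XT.lf (nat_lit 0) (nat_lit 4258203791) (nat_lit 988) (nat_lit 1143251979) (nat_lit 76) (nat_lit 3592551584) (nat_lit 375) (nat_lit 5) (nat_lit 388) (nat_lit 5) (nat_lit 376) (nat_lit 5) (nat_lit 433) (nat_lit 396) (nat_lit 311))))))))
noncomputable def xc136 : XT := (XT.nd (nat_lit 1638) (nat_lit 6916) (nat_lit 0) (XT.nd (nat_lit 780) (nat_lit 4864) (nat_lit 0) (XT.nd (nat_lit 390) (nat_lit 2432) (nat_lit 0) (XT.nd (nat_lit 156) (nat_lit 912) (nat_lit 0) (XT.nd (nat_lit 78) (nat_lit 836) (nat_lit 0) (XT.lf (nat_lit 0) (nat_lit 4089394386) (nat_lit 836) (nat_lit 2122457307) (nat_lit 912) (nat_lit 2865320809) (nat_lit 364) (nat_lit 5) (nat_lit 375) (nat_lit 5) (nat_lit 376) (nat_lit 5) (nat_lit 434) (nat_lit 396) (nat_lit 310)) (XT.lf (nat_lit 0) (nat_lit 249037223) (nat_lit 836) (nat_lit 7946017864) (nat_lit 912) (nat_lit 967145659) (nat_lit 353) (nat_lit 5) (nat_lit 364)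 (nat_lit 5) (nat_lit 365) (nat_lit 5) (nat_lit 435) (nat_lit 396) (nat_lit 309))) (XT.nd (nat_lit 78) (nat_lit 836) (nat_lit 0) (XT.lf (nat_lit 0) (nat_lit 977410552) (nat_lit 912) (nat_lit 3637404168) (nat_lit 76) (nat_lit 4633575566) (nat_lit 352) (nat_lit 5) (nat_lit 364) (nat_lit 5) (nat_lit 353) (nat_lit 5) (nat_lit 436) (nat_lit 396) (nat_lit 308)) (XT.nd (nat_lit 78) (nat_lit 0) (nat_lit 0) (XT.lf (nat_lit 0) (nat_lit 1733957060) (nat_lit 836) (nat_lit 1199120648) (nat_lit 912) (nat_lit 6403403556) (nat_lit 341) (nat_lit 5) (nat_lit 352) (nat_lit 5) (nat_lit 353) (nat_lit 5) (nat_lit 437) (nat_lit 396) (nat_lit 307)) (XT.lf (nat_lit 0) (nat_lit 4941503942) (nat_lit 912) (nat_lit 2205389700) (nat_lit 76) (nat_lit 2279176231) (nat_lit 341) (nat_lit 5) (nat_lit 353) (nat_lit 5) (nat_lit 342) (nat_lit 5) (nat_lit 438) (nat_lit 396) (nat_lit 306))))) (XT.nd (nat_lit 156) (nat_lit 1596) (nat_lit 0) (XT.nd (nat_lit 78)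 (nat_lit 0) (nat_lit 0) (XT.lf (nat_lit 0) (nat_lit 3309068214) (nat_lit 836) (nat_lit 3685201626) (nat_lit 912) (nat_lit 2523105545) (nat_lit 330) (nat_lit 5) (nat_lit 341) (nat_lit 5) (nat_lit 342) (nat_lit 5) (nat_lit 439) (nat_lit 396) (nat_lit 305)) (XT.lf (nat_lit 0) (nat_lit 8937804378) (nat_lit 836) (nat_lit 140158279) (nat_lit 912) (nat_lit 532755308) (nat_lit 330) (nat_lit 5) (nat_lit 341) (nat_lit 5) (nat_lit 342) (nat_lit 5) (nat_lit 440) (nat_lit 396) (nat_lit 304))) (XT.nd (nat_lit 78) (nat_lit 760) (nat_lit 0) (XT.lf (nat_lit 0) (nat_lit 1508478743) (nat_lit 836) (nat_lit 4725069904) (nat_lit 76) (nat_lit 3471578059) (nat_lit 319) (nat_lit 5) (nat_lit 330) (nat_lit 5) (nat_lit 320) (nat_lit 5) (nat_lit 441) (nat_lit 396) (nat_lit 303)) (XT.nd (nat_lit 78) (nat_lit 0) (nat_lit 0) (XT.lf (nat_lit 0) (nat_lit 935610322) (nat_lit 760) (nat_lit 2635047931) (nat_lit 836) (nat_lit 6230957753) (nat_lit 309) (nat_lit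 5) (nat_lit 319) (nat_lit 5) (nat_lit 320) (nat_lit 5) (nat_lit 442) (nat_lit 396) (nat_lit 302)) (XT.lf (nat_lit 0) (nat_lit 5688717315) (nat_lit 836) (nat_lit 3159132735) (nat_lit 76) (nat_lit 1051900073) (nat_lit 309) (nat_lit 5) (nat_lit 320) (nat_lit 5) (nat_lit 310) (nat_lit 5) (nat_lit 443) (nat_lit 396) (nat_lit 301)))))) (XT.nd (nat_lit 390) (nat_lit 2660) (nat_lit 0) (XT.nd (nat_lit 156) (nat_lit 1520) (nat_lit 0) (XT.nd (nat_lit 78) (nat_lit 0) (nat_lit 0) (XT.lf (nat_lit 0) (nat_lit 2653390565) (nat_lit 684) (nat_lit 5206891505) (nat_lit 760) (nat_lit 2139349560) (nat_lit 300) (nat_lit 5) (nat_lit 309) (nat_lit 5) (nat_lit 310) (nat_lit 5) (nat_lit 444) (nat_lit 396) (nat_lit 300)) (XT.lf (nat_lit 0) (nat_lit 8599321028) (nat_lit 684) (nat_lit 1473917631) (nat_lit 760) (nat_lit 28320344) (nat_lit 300) (nat_lit 5) (nat_lit 309) (nat_lit 5) (nat_lit 310) (nat_lit 5) (nat_lit 445) (nat_lit 396) (nat_lit 299)))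 (XT.nd (nat_lit 78) (nat_lit 684) (nat_lit 0) (XT.lf (nat_lit 0) (nat_lit 2118613619) (nat_lit 836) (nat_lit 5742448062) (nat_lit 76) (nat_lit 2343763412) (nat_lit 289) (nat_lit 5) (nat_lit 300) (nat_lit 5) (nat_lit 290) (nat_lit 5) (nat_lit 446) (nat_lit 396) (nat_lit 298)) (XT.nd (nat_lit 78) (nat_lit 0) (nat_lit 0) (XT.lf (nat_lit 0) (nat_lit 223863048) (nat_lit 684) (nat_lit 4082933411) (nat_lit 760) (nat_lit 6003389532) (nat_lit 280) (nat_lit 5) (nat_lit 289) (nat_lit 5) (nat_lit 290) (nat_lit 5) (nat_lit 447) (nat_lit 396) (nat_lit 297)) (XT.lf (nat_lit 0) (nat_lit 6361759908) (nat_lit 684) (nat_lit 193123354) (nat_lit 760) (nat_lit 3862454921) (nat_lit 280) (nat_lit 5) (nat_lit 289) (nat_lit 5) (nat_lit 290) (nat_lit 5) (nat_lit 448) (nat_lit 396) (nat_lit 296))))) (XT.nd (nat_lit 234) (nat_lit 1292) (nat_lit 0) (XT.nd (nat_lit 78) (nat_lit 684) (nat_lit 0) (XT.lf (nat_lit 0) (nat_lit 2072957190) (nat_lit 684)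 (nat_lit 6790964351) (nat_lit 760) (nat_lit 1662398828) (nat_lit 271) (nat_lit 5) (nat_lit 280) (nat_lit 5) (nat_lit 281) (nat_lit 5) (nat_lit 449) (nat_lit 396) (nat_lit 295)) (XT.nd (nat_lit 78) (nat_lit 608) (nat_lit 0) (XT.lf (nat_lit 0) (nat_lit 580844468) (nat_lit 760) (nat_lit 2288769856) (nat_lit 76) (nat_lit 7767662535) (nat_lit 270) (nat_lit 5) (nat_lit 280) (nat_lit 5) (nat_lit 271) (nat_lit 5) (nat_lit 450) (nat_lit 396) (nat_lit 294)) (XT.lf (nat_lit 0) (nat_lit 2858914429) (nat_lit 684) (nat_lit 6742064644) (nat_lit 76) (nat_lit 1149015568) (nat_lit 262) (nat_lit 5) (nat_lit 271) (nat_lit 5) (nat_lit 263) (nat_lit 5) (nat_lit 451) (nat_lit 396) (nat_lit 293)))) (XT.nd (nat_lit 78) (nat_lit 1292) (nat_lit 0) (XT.lf (nat_lit 0) (nat_lit 5195812909) (nat_lit 684) (nat_lit 447547800) (nat_lit 76) (nat_lit 5221346959) (nat_lit 262) (nat_lit 5) (nat_lit 271) (nat_lit 5) (nat_lit 263) (nat_lit 5) (nat_lit 452)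 (nat_lit 396) (nat_lit 292)) (XT.nd (nat_lit 78) (nat_lit 608) (nat_lit 0) (XT.lf (nat_lit 0) (nat_lit 6027031311) (nat_lit 684) (nat_lit 1570767658) (nat_lit 760) (nat_lit 3383555105) (nat_lit 253) (nat_lit 5) (nat_lit 262) (nat_lit 5) (nat_lit 263) (nat_lit 5) (nat_lit 453) (nat_lit 396) (nat_lit 291)) (XT.lf (nat_lit 0) (nat_lit 1514871255) (nat_lit 608) (nat_lit 8542022635) (nat_lit 684) (nat_lit 1043264124) (nat_lit 245) (nat_lit 5) (nat_lit 253) (nat_lit 5) (nat_lit 254) (nat_lit 5) (nat_lit 454) (nat_lit 396) (nat_lit 290))))))) (XT.nd (nat_lit 858) (nat_lit 3344) (nat_lit 0) (XT.nd (nat_lit 390) (nat_lit 1748) (nat_lit 0) (XT.nd (nat_lit 156) (nat_lit 1140) (nat_lit 0) (XT.nd (nat_lit 78) (nat_lit 608) (nat_lit 0) (XT.lf (nat_lit 0) (nat_lit 1349615774) (nat_lit 684) (nat_lit 3084626619) (nat_lit 76) (nat_lit 6786458743) (nat_lit 244) (nat_lit 5) (nat_lit 253) (nat_lit 5) (nat_lit 245) (nat_lit 5) (nat_lit 455)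 (nat_lit 396) (nat_lit 289)) (XT.lf (nat_lit 0) (nat_lit 3561124686) (nat_lit 608) (nat_lit 218333701) (nat_lit 684) (nat_lit 7564002971) (nat_lit 236) (nat_lit 5) (nat_lit 244) (nat_lit 5) (nat_lit 245) (nat_lit 5) (nat_lit 456) (nat_lit 396) (nat_lit 288))) (XT.nd (nat_lit 78) (nat_lit 1140) (nat_lit 0) (XT.lf (nat_lit 0) (nat_lit 6285380139) (nat_lit 684) (nat_lit 1138224814) (nat_lit 76) (nat_lit 4044527718) (nat_lit 236) (nat_lit 5) (nat_lit 245) (nat_lit 5) (nat_lit 237) (nat_lit 5) (nat_lit 457) (nat_lit 396) (nat_lit 287)) (XT.nd (nat_lit 78) (nat_lit 608) (nat_lit 0) (XT.lf (nat_lit 0) (nat_lit 5687477889) (nat_lit 532) (nat_lit 3172847957) (nat_lit 608) (nat_lit 2734598881) (nat_lit 229) (nat_lit 5) (nat_lit 236) (nat_lit 5) (nat_lit 237) (nat_lit 5) (nat_lit 458) (nat_lit 396) (nat_lit 286)) (XT.lf (nat_lit 0) (nat_lit 920865486) (nat_lit 608) (nat_lit 10567847125) (nat_lit 684) (nat_lit 235506487) (nat_lit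 221) (nat_lit 5) (nat_lit 229) (nat_lit 5) (nat_lit 230) (nat_lit 5) (nat_lit 459) (nat_lit 396) (nat_lit 285))))) (XT.nd (nat_lit 234) (nat_lit 1140) (nat_lit 0) (XT.nd (nat_lit 78) (nat_lit 532) (nat_lit 0) (XT.lf (nat_lit 0) (nat_lit 2324953588) (nat_lit 684) (nat_lit 3950513985) (nat_lit 76) (nat_lit 5579501899) (nat_lit 220) (nat_lit 5) (nat_lit 229) (nat_lit 5) (nat_lit 221) (nat_lit 5) (nat_lit 460) (nat_lit 396) (nat_lit 284)) (XT.nd (nat_lit 78) (nat_lit 0) (nat_lit 0) (XT.lf (nat_lit 0) (nat_lit 3053624031) (nat_lit 532) (nat_lit 1880862587) (nat_lit 608) (nat_lit 7053801770) (nat_lit 213) (nat_lit 5) (nat_lit 220) (nat_lit 5) (nat_lit 221) (nat_lit 5) (nat_lit 461) (nat_lit 396) (nat_lit 283)) (XT.lf (nat_lit 0) (nat_lit 7621152352) (nat_lit 608) (nat_lit 1913844846) (nat_lit 76) (nat_lit 2588782558) (nat_lit 213) (nat_lit 5) (nat_lit 221) (nat_lit 5) (nat_lit 214) (nat_lit 5) (nat_lit 462) (nat_lit 396) (nat_lit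 282)))) (XT.nd (nat_lit 78) (nat_lit 608) (nat_lit 0) (XT.lf (nat_lit 0) (nat_lit 5280235931) (nat_lit 532) (nat_lit 5109784612) (nat_lit 608) (nat_lit 1871395842) (nat_lit 206) (nat_lit 5) (nat_lit 213) (nat_lit 5) (nat_lit 214) (nat_lit 5) (nat_lit 463) (nat_lit 396) (nat_lit 281)) (XT.nd (nat_lit 78) (nat_lit 0) (nat_lit 0) (XT.lf (nat_lit 0) (nat_lit 216026118) (nat_lit 532) (nat_lit 581918968) (nat_lit 608) (nat_lit 11603836987) (nat_lit 198) (nat_lit 5) (nat_lit 205) (nat_lit 5) (nat_lit 206) (nat_lit 5) (nat_lit 464) (nat_lit 396) (nat_lit 280)) (XT.lf (nat_lit 0) (nat_lit 3550976690) (nat_lit 608) (nat_lit 4955327849) (nat_lit 76) (nat_lit 4037300437) (nat_lit 198) (nat_lit 5) (nat_lit 206) (nat_lit 5) (nat_lit 199) (nat_lit 5) (nat_lit 465) (nat_lit 396) (nat_lit 279)))))) (XT.nd (nat_lit 390) (nat_lit 1824) (nat_lit 0) (XT.nd (nat_lit 156) (nat_lit 988) (nat_lit 0) (XT.nd (nat_lit 78) (nat_lit 0) (nat_lit 0)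 (XT.lf (nat_lit 0) (nat_lit 2423912721) (nat_lit 532) (nat_lit 3937074209) (nat_lit 608) (nat_lit 6327243500) (nat_lit 191) (nat_lit 5) (nat_lit 198) (nat_lit 5) (nat_lit 199) (nat_lit 5) (nat_lit 466) (nat_lit 396) (nat_lit 278)) (XT.lf (nat_lit 0) (nat_lit 9247848627) (nat_lit 608) (nat_lit 2845983009) (nat_lit 76) (nat_lit 741508093) (nat_lit 191) (nat_lit 5) (nat_lit 199) (nat_lit 5) (nat_lit 192) (nat_lit 5) (nat_lit 467) (nat_lit 396) (nat_lit 277))) (XT.nd (nat_lit 78) (nat_lit 532) (nat_lit 0) (XT.lf (nat_lit 0) (nat_lit 4733300954) (nat_lit 456) (nat_lit 7498775663) (nat_lit 532) (nat_lit 752526296) (nat_lit 185) (nat_lit 5) (nat_lit 191) (nat_lit 5) (nat_lit 192) (nat_lit 5) (nat_lit 468) (nat_lit 396) (nat_lit 276)) (XT.nd (nat_lit 78) (nat_lit 456) (nat_lit 0) (XT.lf (nat_lit 0) (nat_lit 2113200196) (nat_lit 532) (nat_lit 671235476) (nat_lit 76) (nat_lit 10352099675) (nat_lit 184) (nat_lit 5) (nat_lit 191)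 (nat_lit 5) (nat_lit 185) (nat_lit 5) (nat_lit 469) (nat_lit 396) (nat_lit 275)) (XT.lf (nat_lit 0) (nat_lit 5069109743) (nat_lit 532) (nat_lit 6178395025) (nat_lit 76) (nat_lit 2043047310) (nat_lit 178) (nat_lit 5) (nat_lit 185) (nat_lit 5) (nat_lit 179) (nat_lit 5) (nat_lit 470) (nat_lit 396) (nat_lit 274))))) (XT.nd (nat_lit 234) (nat_lit 836) (nat_lit 0) (XT.nd (nat_lit 78) (nat_lit 532) (nat_lit 0) (XT.lf (nat_lit 0) (nat_lit 1591984411) (nat_lit 456) (nat_lit 6508831287) (nat_lit 532) (nat_lit 5346503836) (nat_lit 172) (nat_lit 5) (nat_lit 178) (nat_lit 5) (nat_lit 179) (nat_lit 5) (nat_lit 471) (nat_lit 396) (nat_lit 273)) (XT.nd (nat_lit 78) (nat_lit 532) (nat_lit 0) (XT.lf (nat_lit 0) (nat_lit 9578491624) (nat_lit 456) (nat_lit 1639668882) (nat_lit 532) (nat_lit 2388565612) (nat_lit 172) (nat_lit 5) (nat_lit 178) (nat_lit 5) (nat_lit 179) (nat_lit 5) (nat_lit 472) (nat_lit 396) (nat_lit 272)) (XT.lf (nat_lit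 0) (nat_lit 651646107) (nat_lit 532) (nat_lit 9810069044) (nat_lit 76) (nat_lit 3306900628) (nat_lit 165) (nat_lit 5) (nat_lit 172) (nat_lit 5) (nat_lit 166) (nat_lit 5) (nat_lit 473) (nat_lit 396) (nat_lit 271)))) (XT.nd (nat_lit 78) (nat_lit 836) (nat_lit 0) (XT.lf (nat_lit 0) (nat_lit 3742663672) (nat_lit 532) (nat_lit 1823321329) (nat_lit 76) (nat_lit 8367006426) (nat_lit 165) (nat_lit 5) (nat_lit 172) (nat_lit 5) (nat_lit 166) (nat_lit 5) (nat_lit 474) (nat_lit 396) (nat_lit 270)) (XT.nd (nat_lit 78) (nat_lit 456) (nat_lit 0) (XT.lf (nat_lit 0) (nat_lit 6384413651) (nat_lit 380) (nat_lit 536741043) (nat_lit 456) (nat_lit 7178990412) (nat_lit 160) (nat_lit 5) (nat_lit 165) (nat_lit 5) (nat_lit 166) (nat_lit 5) (nat_lit 475) (nat_lit 396) (nat_lit 269)) (XT.lf (nat_lit 0) (nat_lit 464202255) (nat_lit 456) (nat_lit 9728487585) (nat_lit 532) (nat_lit 4077366041) (nat_lit 154) (nat_lit 5) (nat_lit 160) (nat_lit 5) (nat_lit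 161) (nat_lit 5) (nat_lit 476) (nat_lit 396) (nat_lit 268))))))))
noncomputable def xc137 : XT := (XT.nd (nat_lit 1716) (nat_lit 988) (nat_lit 0) (XT.nd (nat_lit 858) (nat_lit 2052) (nat_lit 0) (XT.nd (nat_lit 390) (nat_lit 1672) (nat_lit 0) (XT.nd (nat_lit 156) (nat_lit 380) (nat_lit 0) (XT.nd (nat_lit 78) (nat_lit 456) (nat_lit 0) (XT.lf (nat_lit 0) (nat_lit 8886265095) (nat_lit 456) (nat_lit 4683182551) (nat_lit 532) (nat_lit 873124828) (nat_lit 154) (nat_lit 5) (nat_lit 160) (nat_lit 5) (nat_lit 161) (nat_lit 5) (nat_lit 477) (nat_lit 396) (nat_lit 267)) (XT.lf (nat_lit 0) (nat_lit 2370214968) (nat_lit 456) (nat_lit 11763416293) (nat_lit 76) (nat_lit 484471874) (nat_lit 148) (nat_lit 5) (nat_lit 154) (nat_lit 5) (nat_lit 149) (nat_lit 5) (nat_lit 478) (nat_lit 396) (nat_lit 266))) (XT.nd (nat_lit 78) (nat_lit 380) (nat_lit 0) (XT.lf (nat_lit 0) (nat_lit 5720084837) (nat_lit 456) (nat_lit 3346562519) (nat_lit 76)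 (nat_lit 5729317780) (nat_lit 148) (nat_lit 5) (nat_lit 154) (nat_lit 5) (nat_lit 149) (nat_lit 5) (nat_lit 479) (nat_lit 396) (nat_lit 265)) (XT.nd (nat_lit 78) (nat_lit 0) (nat_lit 0) (XT.lf (nat_lit 0) (nat_lit 5286055588) (nat_lit 380) (nat_lit 3870311569) (nat_lit 456) (nat_lit 5820632098) (nat_lit 143) (nat_lit 5) (nat_lit 148) (nat_lit 5) (nat_lit 149) (nat_lit 5) (nat_lit 480) (nat_lit 396) (nat_lit 264)) (XT.lf (nat_lit 0) (nat_lit 12678465256) (nat_lit 456) (nat_lit 1055957211) (nat_lit 76) (nat_lit 1426892902) (nat_lit 143) (nat_lit 5) (nat_lit 149) (nat_lit 5) (nat_lit 144) (nat_lit 5) (nat_lit 481) (nat_lit 396) (nat_lit 263))))) (XT.nd (nat_lit 234) (nat_lit 836) (nat_lit 0) (XT.nd (nat_lit 78) (nat_lit 380) (nat_lit 0) (XT.lf (nat_lit 0) (nat_lit 971814784) (nat_lit 456) (nat_lit 7547568837) (nat_lit 76) (nat_lit 6828573189) (nat_lit 137) (nat_lit 5) (nat_lit 143) (nat_lit 5) (nat_lit 138) (nat_lit 5)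 (nat_lit 482) (nat_lit 396) (nat_lit 262)) (XT.nd (nat_lit 78) (nat_lit 0) (nat_lit 0) (XT.lf (nat_lit 0) (nat_lit 1288766635) (nat_lit 380) (nat_lit 3174630010) (nat_lit 456) (nat_lit 11074587758) (nat_lit 132) (nat_lit 5) (nat_lit 137) (nat_lit 5) (nat_lit 138) (nat_lit 5) (nat_lit 483) (nat_lit 396) (nat_lit 261)) (XT.lf (nat_lit 0) (nat_lit 8076212615) (nat_lit 456) (nat_lit 5363511818) (nat_lit 76) (nat_lit 2291062944) (nat_lit 132) (nat_lit 5) (nat_lit 138) (nat_lit 5) (nat_lit 133) (nat_lit 5) (nat_lit 484) (nat_lit 396) (nat_lit 260)))) (XT.nd (nat_lit 78) (nat_lit 456) (nat_lit 0) (XT.lf (nat_lit 0) (nat_lit 3706186613) (nat_lit 380) (nat_lit 8086101997) (nat_lit 456) (nat_lit 4134540548) (nat_lit 127) (nat_lit 5) (nat_lit 132) (nat_lit 5) (nat_lit 133) (nat_lit 5) (nat_lit 485) (nat_lit 396) (nat_lit 259)) (XT.nd (nat_lit 78) (nat_lit 456) (nat_lit 0) (XT.lf (nat_lit 0) (nat_lit 13008818091) (nat_lit 380) (nat_lit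 2595915397) (nat_lit 456) (nat_lit 521620108) (nat_lit 127) (nat_lit 5) (nat_lit 132) (nat_lit 5) (nat_lit 133) (nat_lit 5) (nat_lit 486) (nat_lit 396) (nat_lit 258)) (XT.lf (nat_lit 0) (nat_lit 3168468182) (nat_lit 456) (nat_lit 10141218573) (nat_lit 76) (nat_lit 3018845626) (nat_lit 121) (nat_lit 5) (nat_lit 127) (nat_lit 5) (nat_lit 122) (nat_lit 5) (nat_lit 487) (nat_lit 396) (nat_lit 257)))))) (XT.nd (nat_lit 390) (nat_lit 988) (nat_lit 0) (XT.nd (nat_lit 156) (nat_lit 760) (nat_lit 0) (XT.nd (nat_lit 78) (nat_lit 304) (nat_lit 0) (XT.lf (nat_lit 0) (nat_lit 6949954518) (nat_lit 456) (nat_lit 855627940) (nat_lit 76) (nat_lit 8728614319) (nat_lit 121) (nat_lit 5) (nat_lit 127) (nat_lit 5) (nat_lit 122) (nat_lit 5) (nat_lit 488) (nat_lit 396) (nat_lit 256)) (XT.lf (nat_lit 0) (nat_lit 8709284365) (nat_lit 304) (nat_lit 2140924727) (nat_lit 380) (nat_lit 5892905154) (nat_lit 117) (nat_lit 5) (nat_lit 121) (nat_lit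 5) (nat_lit 122) (nat_lit 5) (nat_lit 489) (nat_lit 396) (nat_lit 255))) (XT.nd (nat_lit 78) (nat_lit 380) (nat_lit 0) (XT.lf (nat_lit 0) (nat_lit 1496270118) (nat_lit 380) (nat_lit 13357982395) (nat_lit 456) (nat_lit 2101444382) (nat_lit 112) (nat_lit 5) (nat_lit 117) (nat_lit 5) (nat_lit 118) (nat_lit 5) (nat_lit 490) (nat_lit 396) (nat_lit 254)) (XT.nd (nat_lit 78) (nat_lit 304) (nat_lit 0) (XT.lf (nat_lit 0) (nat_lit 1797845975) (nat_lit 456) (nat_lit 5892323027) (nat_lit 76) (nat_lit 9481032110) (nat_lit 111) (nat_lit 5) (nat_lit 117) (nat_lit 5) (nat_lit 112) (nat_lit 5) (nat_lit 491) (nat_lit 396) (nat_lit 253)) (XT.lf (nat_lit 0) (nat_lit 3882793730) (nat_lit 304) (nat_lit 1876399759) (nat_lit 380) (nat_lit 11631302280) (nat_lit 107) (nat_lit 5) (nat_lit 111) (nat_lit 5) (nat_lit 112) (nat_lit 5) (nat_lit 492) (nat_lit 396) (nat_lit 252))))) (XT.nd (nat_lit 234) (nat_lit 608) (nat_lit 0) (XT.nd (nat_lit 78) (nat_lit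 380) (nat_lit 0) (XT.lf (nat_lit 0) (nat_lit 9852939923) (nat_lit 380) (nat_lit 3727096433) (nat_lit 76) (nat_lit 4033078839) (nat_lit 107) (nat_lit 5) (nat_lit 112) (nat_lit 5) (nat_lit 108) (nat_lit 5) (nat_lit 493) (nat_lit 396) (nat_lit 251)) (XT.nd (nat_lit 78) (nat_lit 76) (nat_lit 0) (XT.lf (nat_lit 0) (nat_lit 6299296567) (nat_lit 304) (nat_lit 7769894900) (nat_lit 380) (nat_lit 3770185209) (nat_lit 103) (nat_lit 5) (nat_lit 107) (nat_lit 5) (nat_lit 108) (nat_lit 5) (nat_lit 494) (nat_lit 396) (nat_lit 250)) (XT.lf (nat_lit 0) (nat_lit 308190539) (nat_lit 380) (nat_lit 1515088239) (nat_lit 76) (nat_lit 16246597581) (nat_lit 102) (nat_lit 5) (nat_lit 107) (nat_lit 5) (nat_lit 103) (nat_lit 5) (nat_lit 495) (nat_lit 396) (nat_lit 249)))) (XT.nd (nat_lit 78) (nat_lit 304) (nat_lit 0) (XT.lf (nat_lit 0) (nat_lit 4490336478) (nat_lit 380) (nat_lit 9550697578) (nat_lit 76) (nat_lit 4262001991) (nat_lit 98) (nat_lit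 5) (nat_lit 103) (nat_lit 5) (nat_lit 99) (nat_lit 5) (nat_lit 496) (nat_lit 396) (nat_lit 248)) (XT.nd (nat_lit 78) (nat_lit 0) (nat_lit 0) (XT.lf (nat_lit 0) (nat_lit 682067044) (nat_lit 304) (nat_lit 8088452498) (nat_lit 380) (nat_lit 9770053600) (nat_lit 94) (nat_lit 5) (nat_lit 98) (nat_lit 5) (nat_lit 99) (nat_lit 5) (nat_lit 497) (nat_lit 396) (nat_lit 247)) (XT.lf (nat_lit 0) (nat_lit 11229347086) (nat_lit 304) (nat_lit 1958820856) (nat_lit 380) (nat_lit 5593657860) (nat_lit 94) (nat_lit 5) (nat_lit 98) (nat_lit 5) (nat_lit 99) (nat_lit 5) (nat_lit 498) (nat_lit 396) (nat_lit 246))))))) (XT.nd (nat_lit 51792) (nat_lit 0) (nat_lit 35112) (XT.nd (nat_lit 390) (nat_lit 76) (nat_lit 0) (XT.nd (nat_lit 156) (nat_lit 532) (nat_lit 0) (XT.nd (nat_lit 78) (nat_lit 76) (nat_lit 0) (XT.lf (nat_lit 0) (nat_lit 2951085008) (nat_lit 304) (nat_lit 14778084631) (nat_lit 380) (nat_lit 1298035884) (nat_lit 90) (nat_lit 5) (nat_lit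 94) (nat_lit 5) (nat_lit 95) (nat_lit 5) (nat_lit 499) (nat_lit 396) (nat_lit 245)) (XT.lf (nat_lit 0) (nat_lit 3095041126) (nat_lit 380) (nat_lit 5562157817) (nat_lit 76) (nat_lit 10618855766) (nat_lit 89) (nat_lit 5) (nat_lit 94) (nat_lit 5) (nat_lit 90) (nat_lit 5) (nat_lit 500) (nat_lit 396) (nat_lit 244))) (XT.nd (nat_lit 78) (nat_lit 228) (nat_lit 0) (XT.lf (nat_lit 0) (nat_lit 5202656581) (nat_lit 304) (nat_lit 2377967315) (nat_lit 380) (nat_lit 11948646785) (nat_lit 85) (nat_lit 5) (nat_lit 89) (nat_lit 5) (nat_lit 90) (nat_lit 5) (nat_lit 501) (nat_lit 396) (nat_lit 243)) (XT.nd (nat_lit 78) (nat_lit 228) (nat_lit 0) (XT.lf (nat_lit 0) (nat_lit 12207925640) (nat_lit 380) (nat_lit 3574160355) (nat_lit 76) (nat_lit 4004426692) (nat_lit 85) (nat_lit 5) (nat_lit 90) (nat_lit 5) (nat_lit 86) (nat_lit 5) (nat_lit 502) (nat_lit 396) (nat_lit 242)) (XT.lf (nat_lit 0) (nat_lit 7456637017) (nat_lit 228) (nat_lit 9523817719)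 (nat_lit 304) (nat_lit 3067392996) (nat_lit 82) (nat_lit 5) (nat_lit 85) (nat_lit 5) (nat_lit 86) (nat_lit 5) (nat_lit 503) (nat_lit 396) (nat_lit 241))))) (XT.nd (nat_lit 51168) (nat_lit 0) (nat_lit 38532) (XT.nd (nat_lit 51012) (nat_lit 0) (nat_lit 39596) (XT.lf (nat_lit 0) (nat_lit 1526596058) (nat_lit 304) (nat_lit 1586332558) (nat_lit 76) (nat_lit 17201029616) (nat_lit 81) (nat_lit 5) (nat_lit 85) (nat_lit 5) (nat_lit 82) (nat_lit 5) (nat_lit 504) (nat_lit 396) (nat_lit 240)) (XT.nd (nat_lit 78) (nat_lit 0) (nat_lit 0) (XT.lf (nat_lit 0) (nat_lit 821888639) (nat_lit 0) (nat_lit 821888639) (nat_lit 988) (nat_lit 1854968661) (nat_lit 602) (nat_lit 5) (nat_lit 602) (nat_lit 3) (nat_lit 615) (nat_lit 3) (nat_lit 397) (nat_lit 397) (nat_lit 346)) (XT.lf (nat_lit 0) (nat_lit 5060039541) (nat_lit 0) (nat_lit 49878091) (nat_lit 988) (nat_lit 1920915612) (nat_lit 602) (nat_lit 5) (nat_lit 602) (nat_lit 3) (nat_lit 615) (nat_lit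 3) (nat_lit 398) (nat_lit 397) (nat_lit 345)))) (XT.nd (nat_lit 78) (nat_lit 1064) (nat_lit 0) (XT.lf (nat_lit 76) (nat_lit 1464173995) (nat_lit 0) (nat_lit 5477505621) (nat_lit 1064) (nat_lit 123724918) (nat_lit 603) (nat_lit 5) (nat_lit 602) (nat_lit 5) (nat_lit 616) (nat_lit 5) (nat_lit 399) (nat_lit 397) (nat_lit 344)) (XT.nd (nat_lit 78) (nat_lit 0) (nat_lit 0) (XT.lf (nat_lit 0) (nat_lit 1654279408) (nat_lit 1064) (nat_lit 2142421902) (nat_lit 1140) (nat_lit 3304419460) (nat_lit 588) (nat_lit 5) (nat_lit 602) (nat_lit 5) (nat_lit 603) (nat_lit 5) (nat_lit 400) (nat_lit 397) (nat_lit 343)) (XT.lf (nat_lit 76) (nat_lit 1378252601) (nat_lit 0) (nat_lit 2051439592) (nat_lit 1140) (nat_lit 3708593537) (nat_lit 589) (nat_lit 5) (nat_lit 588) (nat_lit 5) (nat_lit 603) (nat_lit 5) (nat_lit 401) (nat_lit 397) (nat_lit 342)))))) (XT.nd (nat_lit 390) (nat_lit 2356) (nat_lit 0) (XT.nd (nat_lit 156) (nat_lit 1064) (nat_lit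 0) (XT.nd (nat_lit 78) (nat_lit 0) (nat_lit 76) (XT.lf (nat_lit 76) (nat_lit 4973976346) (nat_lit 0) (nat_lit 236301260) (nat_lit 1140) (nat_lit 1966543544) (nat_lit 589) (nat_lit 5) (nat_lit 588) (nat_lit 5) (nat_lit 603) (nat_lit 5) (nat_lit 402) (nat_lit 397) (nat_lit 341)) (XT.lf (nat_lit 76) (nat_lit 1408520903) (nat_lit 0) (nat_lit 5593879004) (nat_lit 1140) (nat_lit 214228915) (nat_lit 590) (nat_lit 5) (nat_lit 589) (nat_lit 5) (nat_lit 604) (nat_lit 5) (nat_lit 403) (nat_lit 397) (nat_lit 340))) (XT.nd (nat_lit 78) (nat_lit 0) (nat_lit 0) (XT.lf (nat_lit 0) (nat_lit 1525630529) (nat_lit 1140) (nat_lit 2172223118) (nat_lit 1216) (nat_lit 3559731383) (nat_lit 574) (nat_lit 5) (nat_lit 589) (nat_lit 5) (nat_lit 590) (nat_lit 5) (nat_lit 404) (nat_lit 397) (nat_lit 339)) (XT.nd (nat_lit 78) (nat_lit 0) (nat_lit 76) (XT.lf (nat_lit 76) (nat_lit 1530142899) (nat_lit 0) (nat_lit 1734747810) (nat_lit 1216) (nat_lit 4035110783)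 (nat_lit 575) (nat_lit 5) (nat_lit 574) (nat_lit 5) (nat_lit 590) (nat_lit 5) (nat_lit 405) (nat_lit 397) (nat_lit 338)) (XT.lf (nat_lit 0) (nat_lit 5013664619) (nat_lit 1140) (nat_lit 2034494899) (nat_lit 1216) (nat_lit 295630713) (nat_lit 575) (nat_lit 5) (nat_lit 590) (nat_lit 5) (nat_lit 591) (nat_lit 5) (nat_lit 406) (nat_lit 397) (nat_lit 337))))) (XT.nd (nat_lit 234) (nat_lit 1216) (nat_lit 0) (XT.nd (nat_lit 78) (nat_lit 1216) (nat_lit 0) (XT.lf (nat_lit 76) (nat_lit 1762013122) (nat_lit 0) (nat_lit 5017464403) (nat_lit 1216) (nat_lit 609354107) (nat_lit 576) (nat_lit 5) (nat_lit 575) (nat_lit 5) (nat_lit 591) (nat_lit 5) (nat_lit 407) (nat_lit 397) (nat_lit 336)) (XT.nd (nat_lit 78) (nat_lit 0) (nat_lit 0) (XT.lf (nat_lit 0) (nat_lit 1104037809) (nat_lit 1216) (nat_lit 1805575111) (nat_lit 1292) (nat_lit 4525564947) (nat_lit 559) (nat_lit 5) (nat_lit 575) (nat_lit 5) (nat_lit 576) (nat_lit 5) (nat_lit 408) (nat_lit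 397) (nat_lit 335)) (XT.lf (nat_lit 76) (nat_lit 2090401336) (nat_lit 0) (nat_lit 727001033) (nat_lit 1292) (nat_lit 4665507930) (nat_lit 560) (nat_lit 5) (nat_lit 559) (nat_lit 5) (nat_lit 576) (nat_lit 5) (nat_lit 409) (nat_lit 397) (nat_lit 334)))) (XT.nd (nat_lit 78) (nat_lit 1292) (nat_lit 0) (XT.lf (nat_lit 0) (nat_lit 4547958355) (nat_lit 1216) (nat_lit 1478195437) (nat_lit 1292) (nat_lit 1505801879) (nat_lit 560) (nat_lit 5) (nat_lit 576) (nat_lit 5) (nat_lit 577) (nat_lit 5) (nat_lit 410) (nat_lit 397) (nat_lit 333)) (XT.nd (nat_lit 78) (nat_lit 1292) (nat_lit 0) (XT.lf (nat_lit 76) (nat_lit 2517312343) (nat_lit 0) (nat_lit 3778729915) (nat_lit 1292) (nat_lit 1286297802) (nat_lit 561) (nat_lit 5) (nat_lit 560) (nat_lit 5) (nat_lit 577) (nat_lit 5) (nat_lit 411) (nat_lit 397) (nat_lit 332)) (XT.lf (nat_lit 0) (nat_lit 411579525) (nat_lit 1292) (nat_lit 1049369170) (nat_lit 1368) (nat_lit 6173300123) (nat_lit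 543) (nat_lit 5) (nat_lit 560) (nat_lit 5) (nat_lit 561) (nat_lit 5) (nat_lit 412) (nat_lit 397) (nat_lit 331))))))))
noncomputable def xc138 : XT := (XT.nd (nat_lit 1716) (nat_lit 9120) (nat_lit 0) (XT.nd (nat_lit 858) (nat_lit 9576) (nat_lit 0) (XT.nd (nat_lit 390) (nat_lit 2812) (nat_lit 0) (XT.nd (nat_lit 156) (nat_lit 1292) (nat_lit 0) (XT.nd (nat_lit 78) (nat_lit 0) (nat_lit 0) (XT.lf (nat_lit 0) (nat_lit 2114981987) (nat_lit 1292) (nat_lit 4640536407) (nat_lit 1368) (nat_lit 931746983) (nat_lit 544) (nat_lit 5) (nat_lit 561) (nat_lit 5) (nat_lit 562) (nat_lit 5) (nat_lit 413) (nat_lit 397) (nat_lit 330)) (XT.lf (nat_lit 0) (nat_lit 3832681544) (nat_lit 1292) (nat_lit 537750115) (nat_lit 1368) (nat_lit 3371321222) (nat_lit 544) (nat_lit 5) (nat_lit 561) (nat_lit 5) (nat_lit 562) (nat_lit 5) (nat_lit 414) (nat_lit 397) (nat_lit 329))) (XT.nd (nat_lit 78) (nat_lit 1292) (nat_lit 0) (XT.lf (nat_lit 76) (nat_lit 3669929131)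 (nat_lit 0) (nat_lit 1902815372) (nat_lit 1368) (nat_lit 2224840336) (nat_lit 545) (nat_lit 5) (nat_lit 544) (nat_lit 5) (nat_lit 562) (nat_lit 5) (nat_lit 415) (nat_lit 397) (nat_lit 328)) (XT.nd (nat_lit 78) (nat_lit 1368) (nat_lit 0) (XT.lf (nat_lit 76) (nat_lit 85789567) (nat_lit 0) (nat_lit 7234783006) (nat_lit 1368) (nat_lit 534516191) (nat_lit 546) (nat_lit 5) (nat_lit 545) (nat_lit 5) (nat_lit 563) (nat_lit 5) (nat_lit 416) (nat_lit 397) (nat_lit 327)) (XT.lf (nat_lit 0) (nat_lit 1179562351) (nat_lit 1368) (nat_lit 3520464240) (nat_lit 1444) (nat_lit 3213464738) (nat_lit 527) (nat_lit 5) (nat_lit 545) (nat_lit 5) (nat_lit 546) (nat_lit 5) (nat_lit 417) (nat_lit 397) (nat_lit 326))))) (XT.nd (nat_lit 234) (nat_lit 1520) (nat_lit 0) (XT.nd (nat_lit 78) (nat_lit 1292) (nat_lit 0) (XT.lf (nat_lit 76) (nat_lit 794519975) (nat_lit 0) (nat_lit 2097161852) (nat_lit 1444) (nat_lit 5081904886) (nat_lit 528) (nat_lit 5)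 (nat_lit 527) (nat_lit 5) (nat_lit 546) (nat_lit 5) (nat_lit 418) (nat_lit 397) (nat_lit 325)) (XT.nd (nat_lit 78) (nat_lit 1368) (nat_lit 0) (XT.lf (nat_lit 0) (nat_lit 4631755951) (nat_lit 1368) (nat_lit 2820944985) (nat_lit 76) (nat_lit 582322314) (nat_lit 528) (nat_lit 5) (nat_lit 546) (nat_lit 5) (nat_lit 529) (nat_lit 5) (nat_lit 419) (nat_lit 397) (nat_lit 324)) (XT.lf (nat_lit 0) (nat_lit 1605745294) (nat_lit 1368) (nat_lit 4792171186) (nat_lit 1444) (nat_lit 1699959565) (nat_lit 510) (nat_lit 5) (nat_lit 528) (nat_lit 5) (nat_lit 529) (nat_lit 5) (nat_lit 420) (nat_lit 397) (nat_lit 323)))) (XT.nd (nat_lit 78) (nat_lit 1444) (nat_lit 0) (XT.lf (nat_lit 0) (nat_lit 23202991) (nat_lit 1444) (nat_lit 2028811387) (nat_lit 76) (nat_lit 6110253787) (nat_lit 509) (nat_lit 5) (nat_lit 528) (nat_lit 5) (nat_lit 510) (nat_lit 5) (nat_lit 421) (nat_lit 397) (nat_lit 322)) (XT.nd (nat_lit 78) (nat_lit 0) (nat_lit 0) (XT.lf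 (nat_lit 0) (nat_lit 1747365451) (nat_lit 1520) (nat_lit 5713066446) (nat_lit 76) (nat_lit 767517975) (nat_lit 490) (nat_lit 5) (nat_lit 510) (nat_lit 5) (nat_lit 491) (nat_lit 5) (nat_lit 422) (nat_lit 397) (nat_lit 321)) (XT.lf (nat_lit 0) (nat_lit 3501678154) (nat_lit 1520) (nat_lit 1157451073) (nat_lit 76) (nat_lit 3635914867) (nat_lit 490) (nat_lit 5) (nat_lit 510) (nat_lit 5) (nat_lit 491) (nat_lit 5) (nat_lit 423) (nat_lit 397) (nat_lit 320)))))) (XT.nd (nat_lit 390) (nat_lit 4712) (nat_lit 0) (XT.nd (nat_lit 156) (nat_lit 3344) (nat_lit 0) (XT.nd (nat_lit 78) (nat_lit 0) (nat_lit 0) (XT.lf (nat_lit 0) (nat_lit 3509766955) (nat_lit 1520) (nat_lit 1773090970) (nat_lit 1596) (nat_lit 3080798638) (nat_lit 470) (nat_lit 5) (nat_lit 490) (nat_lit 5) (nat_lit 491) (nat_lit 5) (nat_lit 424) (nat_lit 397) (nat_lit 319)) (XT.lf (nat_lit 0) (nat_lit 7084550613) (nat_lit 1596) (nat_lit 181148798) (nat_lit 76) (nat_lit 1168255829)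 (nat_lit 470) (nat_lit 5) (nat_lit 491) (nat_lit 5) (nat_lit 471) (nat_lit 5) (nat_lit 425) (nat_lit 397) (nat_lit 318))) (XT.nd (nat_lit 78) (nat_lit 1672) (nat_lit 0) (XT.lf (nat_lit 0) (nat_lit 422950190) (nat_lit 1672) (nat_lit 3899996365) (nat_lit 76) (nat_lit 4182434586) (nat_lit 448) (nat_lit 5) (nat_lit 470) (nat_lit 5) (nat_lit 449) (nat_lit 5) (nat_lit 426) (nat_lit 397) (nat_lit 317)) (XT.nd (nat_lit 78) (nat_lit 0) (nat_lit 0) (XT.lf (nat_lit 0) (nat_lit 888848937) (nat_lit 1672) (nat_lit 1301130557) (nat_lit 1748) (nat_lit 6388542823) (nat_lit 426) (nat_lit 5) (nat_lit 448) (nat_lit 5) (nat_lit 449) (nat_lit 5) (nat_lit 427) (nat_lit 397) (nat_lit 316)) (XT.lf (nat_lit 0) (nat_lit 4000982955) (nat_lit 1748) (nat_lit 2864212554) (nat_lit 76) (nat_lit 1787768988) (nat_lit 426) (nat_lit 5) (nat_lit 449) (nat_lit 5) (nat_lit 427) (nat_lit 5) (nat_lit 428) (nat_lit 397) (nat_lit 315))))) (XT.nd (nat_lit 234)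 (nat_lit 1748) (nat_lit 0) (XT.nd (nat_lit 78) (nat_lit 1216) (nat_lit 0) (XT.lf (nat_lit 0) (nat_lit 2050336421) (nat_lit 1748) (nat_lit 3791097985) (nat_lit 1824) (nat_lit 2887607192) (nat_lit 403) (nat_lit 5) (nat_lit 426) (nat_lit 5) (nat_lit 427) (nat_lit 5) (nat_lit 429) (nat_lit 397) (nat_lit 314)) (XT.nd (nat_lit 78) (nat_lit 1216) (nat_lit 0) (XT.lf (nat_lit 0) (nat_lit 7076475735) (nat_lit 1748) (nat_lit 633135578) (nat_lit 1824) (nat_lit 1097221029) (nat_lit 403) (nat_lit 5) (nat_lit 426) (nat_lit 5) (nat_lit 427) (nat_lit 5) (nat_lit 430) (nat_lit 397) (nat_lit 313)) (XT.lf (nat_lit 0) (nat_lit 730087169) (nat_lit 1216) (nat_lit 5572715187) (nat_lit 76) (nat_lit 2583078412) (nat_lit 387) (nat_lit 5) (nat_lit 403) (nat_lit 5) (nat_lit 388) (nat_lit 5) (nat_lit 431) (nat_lit 397) (nat_lit 312)))) (XT.nd (nat_lit 78) (nat_lit 1748) (nat_lit 0) (XT.lf (nat_lit 0) (nat_lit 2567601187) (nat_lit 1216) (nat_lit 522616061)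 (nat_lit 76) (nat_lit 5876390659) (nat_lit 387) (nat_lit 5) (nat_lit 403) (nat_lit 5) (nat_lit 388) (nat_lit 5) (nat_lit 432) (nat_lit 397) (nat_lit 311)) (XT.nd (nat_lit 78) (nat_lit 836) (nat_lit 0) (XT.lf (nat_lit 0) (nat_lit 4446569084) (nat_lit 988) (nat_lit 4385967388) (nat_lit 76) (nat_lit 216328680) (nat_lit 375) (nat_lit 5) (nat_lit 388) (nat_lit 5) (nat_lit 376) (nat_lit 5) (nat_lit 433) (nat_lit 397) (nat_lit 310)) (XT.lf (nat_lit 0) (nat_lit 790695766) (nat_lit 836) (nat_lit 5574921838) (nat_lit 912) (nat_lit 2767109358) (nat_lit 364) (nat_lit 5) (nat_lit 375) (nat_lit 5) (nat_lit 376) (nat_lit 5) (nat_lit 434) (nat_lit 397) (nat_lit 309))))))) (XT.nd (nat_lit 858) (nat_lit 4256) (nat_lit 0) (XT.nd (nat_lit 390) (nat_lit 3116) (nat_lit 0) (XT.nd (nat_lit 156) (nat_lit 836) (nat_lit 0) (XT.nd (nat_lit 78) (nat_lit 912) (nat_lit 0) (XT.lf (nat_lit 0) (nat_lit 6104819399) (nat_lit 836) (nat_lit 2221388505) (nat_lit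 912) (nat_lit 892004150) (nat_lit 364) (nat_lit 5) (nat_lit 375) (nat_lit 5) (nat_lit 376) (nat_lit 5) (nat_lit 435) (nat_lit 397) (nat_lit 308)) (XT.lf (nat_lit 0) (nat_lit 1003604451) (nat_lit 912) (nat_lit 7096554674) (nat_lit 76) (nat_lit 1205196361) (nat_lit 352) (nat_lit 5) (nat_lit 364) (nat_lit 5) (nat_lit 353) (nat_lit 5) (nat_lit 436) (nat_lit 397) (nat_lit 307))) (XT.nd (nat_lit 78) (nat_lit 836) (nat_lit 0) (XT.lf (nat_lit 0) (nat_lit 2935346066) (nat_lit 912) (nat_lit 1760674622) (nat_lit 76) (nat_lit 4697908606) (nat_lit 352) (nat_lit 5) (nat_lit 364) (nat_lit 5) (nat_lit 353) (nat_lit 5) (nat_lit 437) (nat_lit 397) (nat_lit 306)) (XT.nd (nat_lit 78) (nat_lit 0) (nat_lit 0) (XT.lf (nat_lit 0) (nat_lit 3705288320) (nat_lit 836) (nat_lit 1199404681) (nat_lit 912) (nat_lit 4579610723) (nat_lit 341) (nat_lit 5) (nat_lit 352) (nat_lit 5) (nat_lit 353) (nat_lit 5) (nat_lit 438) (nat_lit 397) (nat_lit 305)) (XT.lf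 (nat_lit 0) (nat_lit 6915929711) (nat_lit 912) (nat_lit 312825515) (nat_lit 76) (nat_lit 2347688747) (nat_lit 341) (nat_lit 5) (nat_lit 353) (nat_lit 5) (nat_lit 342) (nat_lit 5) (nat_lit 439) (nat_lit 397) (nat_lit 304))))) (XT.nd (nat_lit 234) (nat_lit 1444) (nat_lit 0) (XT.nd (nat_lit 78) (nat_lit 836) (nat_lit 0) (XT.lf (nat_lit 0) (nat_lit 5299180294) (nat_lit 836) (nat_lit 3686285682) (nat_lit 912) (nat_lit 684607778) (nat_lit 330) (nat_lit 5) (nat_lit 341) (nat_lit 5) (nat_lit 342) (nat_lit 5) (nat_lit 440) (nat_lit 397) (nat_lit 303)) (XT.nd (nat_lit 78) (nat_lit 0) (nat_lit 0) (XT.lf (nat_lit 0) (nat_lit 1244572718) (nat_lit 760) (nat_lit 54857549) (nat_lit 836) (nat_lit 8466259610) (nat_lit 319) (nat_lit 5) (nat_lit 329) (nat_lit 5) (nat_lit 330) (nat_lit 5) (nat_lit 441) (nat_lit 397) (nat_lit 302)) (XT.lf (nat_lit 0) (nat_lit 3343384882) (nat_lit 836) (nat_lit 2884994102) (nat_lit 76) (nat_lit 3634168528)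 (nat_lit 319) (nat_lit 5) (nat_lit 330) (nat_lit 5) (nat_lit 320) (nat_lit 5) (nat_lit 442) (nat_lit 397) (nat_lit 301)))) (XT.nd (nat_lit 78) (nat_lit 684) (nat_lit 0) (XT.lf (nat_lit 0) (nat_lit 2876172246) (nat_lit 760) (nat_lit 2547726668) (nat_lit 836) (nat_lit 4537537377) (nat_lit 309) (nat_lit 5) (nat_lit 319) (nat_lit 5) (nat_lit 320) (nat_lit 5) (nat_lit 443) (nat_lit 397) (nat_lit 300)) (XT.nd (nat_lit 78) (nat_lit 684) (nat_lit 0) (XT.lf (nat_lit 0) (nat_lit 7550272655) (nat_lit 836) (nat_lit 1303538296) (nat_lit 76) (nat_lit 1208414354) (nat_lit 309) (nat_lit 5) (nat_lit 320) (nat_lit 5) (nat_lit 310) (nat_lit 5) (nat_lit 444) (nat_lit 397) (nat_lit 299)) (XT.lf (nat_lit 0) (nat_lit 4612611937) (nat_lit 684) (nat_lit 5130762565) (nat_lit 760) (nat_lit 421178885) (nat_lit 300) (nat_lit 5) (nat_lit 309) (nat_lit 5) (nat_lit 310) (nat_lit 5) (nat_lit 445) (nat_lit 397) (nat_lit 298)))))) (XT.nd (nat_lit 390)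 (nat_lit 2052) (nat_lit 0) (XT.nd (nat_lit 156) (nat_lit 1368) (nat_lit 0) (XT.nd (nat_lit 78) (nat_lit 0) (nat_lit 0) (XT.lf (nat_lit 0) (nat_lit 364639213) (nat_lit 760) (nat_lit 1313007025) (nat_lit 836) (nat_lit 8591292953) (nat_lit 289) (nat_lit 5) (nat_lit 299) (nat_lit 5) (nat_lit 300) (nat_lit 5) (nat_lit 446) (nat_lit 397) (nat_lit 297)) (XT.lf (nat_lit 0) (nat_lit 3844846513) (nat_lit 836) (nat_lit 3944897667) (nat_lit 76) (nat_lit 2584978967) (nat_lit 289) (nat_lit 5) (nat_lit 300) (nat_lit 5) (nat_lit 290) (nat_lit 5) (nat_lit 447) (nat_lit 397) (nat_lit 296))) (XT.nd (nat_lit 78) (nat_lit 684) (nat_lit 0) (XT.lf (nat_lit 0) (nat_lit 2128158091) (nat_lit 684) (nat_lit 3927952922) (nat_lit 760) (nat_lit 4426504111) (nat_lit 280) (nat_lit 5) (nat_lit 289) (nat_lit 5) (nat_lit 290) (nat_lit 5) (nat_lit 448) (nat_lit 397) (nat_lit 295)) (XT.nd (nat_lit 78) (nat_lit 684) (nat_lit 0) (XT.lf (nat_lit 0) (nat_lit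 8316775536) (nat_lit 760) (nat_lit 2241238377) (nat_lit 76) (nat_lit 34554146) (nat_lit 280) (nat_lit 5) (nat_lit 290) (nat_lit 5) (nat_lit 281) (nat_lit 5) (nat_lit 449) (nat_lit 397) (nat_lit 294)) (XT.lf (nat_lit 0) (nat_lit 3996127173) (nat_lit 684) (nat_lit 6657362242) (nat_lit 760) (nat_lit 50620400) (nat_lit 271) (nat_lit 5) (nat_lit 280) (nat_lit 5) (nat_lit 281) (nat_lit 5) (nat_lit 450) (nat_lit 397) (nat_lit 293))))) (XT.nd (nat_lit 234) (nat_lit 684) (nat_lit 0) (XT.nd (nat_lit 78) (nat_lit 1292) (nat_lit 0) (XT.lf (nat_lit 0) (nat_lit 2184080560) (nat_lit 760) (nat_lit 468106824) (nat_lit 76) (nat_lit 8165530529) (nat_lit 270) (nat_lit 5) (nat_lit 280) (nat_lit 5) (nat_lit 271) (nat_lit 5) (nat_lit 451) (nat_lit 397) (nat_lit 292)) (XT.nd (nat_lit 78) (nat_lit 684) (nat_lit 0) (XT.lf (nat_lit 0) (nat_lit 4490371179) (nat_lit 684) (nat_lit 4992663925) (nat_lit 76) (nat_lit 1450011019) (nat_lit 262) (nat_lit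 5) (nat_lit 271) (nat_lit 5) (nat_lit 263) (nat_lit 5) (nat_lit 452) (nat_lit 397) (nat_lit 291)) (XT.lf (nat_lit 0) (nat_lit 1409280298) (nat_lit 684) (nat_lit 5443009108) (nat_lit 760) (nat_lit 4198207444) (nat_lit 253) (nat_lit 5) (nat_lit 262) (nat_lit 5) (nat_lit 263) (nat_lit 5) (nat_lit 453) (nat_lit 397) (nat_lit 290)))) (XT.nd (nat_lit 78) (nat_lit 684) (nat_lit 0) (XT.lf (nat_lit 0) (nat_lit 7982714763) (nat_lit 684) (nat_lit 1292102460) (nat_lit 760) (nat_lit 1895217817) (nat_lit 253) (nat_lit 5) (nat_lit 262) (nat_lit 5) (nat_lit 263) (nat_lit 5) (nat_lit 454) (nat_lit 397) (nat_lit 289)) (XT.nd (nat_lit 78) (nat_lit 0) (nat_lit 0) (XT.lf (nat_lit 0) (nat_lit 469407736) (nat_lit 684) (nat_lit 7897649400) (nat_lit 76) (nat_lit 2924423007) (nat_lit 244) (nat_lit 5) (nat_lit 253) (nat_lit 5) (nat_lit 245) (nat_lit 5) (nat_lit 455) (nat_lit 397) (nat_lit 288)) (XT.lf (nat_lit 0) (nat_lit 2866393280) (nat_lit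 684) (nat_lit 1310599484) (nat_lit 76) (nat_lit 7237907481) (nat_lit 244) (nat_lit 5) (nat_lit 253) (nat_lit 5) (nat_lit 245) (nat_lit 5) (nat_lit 456) (nat_lit 397) (nat_lit 287))))))))
noncomputable def xc139 : XT := (XT.nd (nat_lit 1716) (nat_lit 4788) (nat_lit 0) (XT.nd (nat_lit 858) (nat_lit 2888) (nat_lit 0) (XT.nd (nat_lit 390) (nat_lit 2204) (nat_lit 0) (XT.nd (nat_lit 156) (nat_lit 684) (nat_lit 0) (XT.nd (nat_lit 78) (nat_lit 532) (nat_lit 0) (XT.lf (nat_lit 0) (nat_lit 5328296059) (nat_lit 684) (nat_lit 6085316060) (nat_lit 76) (nat_lit 126842505) (nat_lit 236) (nat_lit 5) (nat_lit 245) (nat_lit 5) (nat_lit 237) (nat_lit 5) (nat_lit 457) (nat_lit 397) (nat_lit 286)) (XT.lf (nat_lit 0) (nat_lit 662624090) (nat_lit 532) (nat_lit 7198544692) (nat_lit 608) (nat_lit 3806921990) (nat_lit 229) (nat_lit 5) (nat_lit 236) (nat_lit 5) (nat_lit 237) (nat_lit 5) (nat_lit 458) (nat_lit 397) (nat_lit 285))) (XT.nd (nat_lit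 78) (nat_lit 684) (nat_lit 0) (XT.lf (nat_lit 0) (nat_lit 7604210131) (nat_lit 532) (nat_lit 2862458632) (nat_lit 608) (nat_lit 1331176698) (nat_lit 229) (nat_lit 5) (nat_lit 236) (nat_lit 5) (nat_lit 237) (nat_lit 5) (nat_lit 459) (nat_lit 397) (nat_lit 284)) (XT.nd (nat_lit 78) (nat_lit 0) (nat_lit 0) (XT.lf (nat_lit 0) (nat_lit 1187983060) (nat_lit 684) (nat_lit 9181046411) (nat_lit 76) (nat_lit 1560824528) (nat_lit 220) (nat_lit 5) (nat_lit 229) (nat_lit 5) (nat_lit 221) (nat_lit 5) (nat_lit 460) (nat_lit 397) (nat_lit 283)) (XT.lf (nat_lit 0) (nat_lit 3768559712) (nat_lit 684) (nat_lit 2228725609) (nat_lit 76) (nat_lit 6066469153) (nat_lit 220) (nat_lit 5) (nat_lit 229) (nat_lit 5) (nat_lit 221) (nat_lit 5) (nat_lit 461) (nat_lit 397) (nat_lit 282))))) (XT.nd (nat_lit 234) (nat_lit 1140) (nat_lit 0) (XT.nd (nat_lit 78) (nat_lit 532) (nat_lit 0) (XT.lf (nat_lit 0) (nat_lit 4903647808) (nat_lit 532) (nat_lit 1510856397)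 (nat_lit 608) (nat_lit 5785558447) (nat_lit 213) (nat_lit 5) (nat_lit 220) (nat_lit 5) (nat_lit 221) (nat_lit 5) (nat_lit 462) (nat_lit 397) (nat_lit 281)) (XT.nd (nat_lit 78) (nat_lit 532) (nat_lit 0) (XT.lf (nat_lit 0) (nat_lit 9130413061) (nat_lit 608) (nat_lit 173399941) (nat_lit 76) (nat_lit 3034947804) (nat_lit 213) (nat_lit 5) (nat_lit 221) (nat_lit 5) (nat_lit 214) (nat_lit 5) (nat_lit 463) (nat_lit 397) (nat_lit 280)) (XT.lf (nat_lit 0) (nat_lit 7152860336) (nat_lit 532) (nat_lit 4786666286) (nat_lit 608) (nat_lit 539933203) (nat_lit 206) (nat_lit 5) (nat_lit 213) (nat_lit 5) (nat_lit 214) (nat_lit 5) (nat_lit 464) (nat_lit 397) (nat_lit 279)))) (XT.nd (nat_lit 78) (nat_lit 532) (nat_lit 0) (XT.lf (nat_lit 0) (nat_lit 1993917965) (nat_lit 532) (nat_lit 155949568) (nat_lit 608) (nat_lit 10472893755) (nat_lit 198) (nat_lit 5) (nat_lit 205) (nat_lit 5) (nat_lit 206) (nat_lit 5) (nat_lit 465) (nat_lit 397) (nat_lit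 278)) (XT.nd (nat_lit 78) (nat_lit 532) (nat_lit 0) (XT.lf (nat_lit 0) (nat_lit 4934549934) (nat_lit 608) (nat_lit 3291898612) (nat_lit 76) (nat_lit 4541446911) (nat_lit 198) (nat_lit 5) (nat_lit 206) (nat_lit 5) (nat_lit 199) (nat_lit 5) (nat_lit 466) (nat_lit 397) (nat_lit 277)) (XT.lf (nat_lit 0) (nat_lit 4223331139) (nat_lit 532) (nat_lit 3563061157) (nat_lit 608) (nat_lit 5129314966) (nat_lit 191) (nat_lit 5) (nat_lit 198) (nat_lit 5) (nat_lit 199) (nat_lit 5) (nat_lit 467) (nat_lit 397) (nat_lit 276)))))) (XT.nd (nat_lit 390) (nat_lit 1444) (nat_lit 0) (XT.nd (nat_lit 156) (nat_lit 912) (nat_lit 0) (XT.nd (nat_lit 78) (nat_lit 532) (nat_lit 0) (XT.lf (nat_lit 0) (nat_lit 10708418552) (nat_lit 608) (nat_lit 1163404280) (nat_lit 76) (nat_lit 1194393725) (nat_lit 191) (nat_lit 5) (nat_lit 199) (nat_lit 5) (nat_lit 192) (nat_lit 5) (nat_lit 468) (nat_lit 397) (nat_lit 275)) (XT.lf (nat_lit 0) (nat_lit 512974515) (nat_lit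 532) (nat_lit 6666100619) (nat_lit 76) (nat_lit 6039604449) (nat_lit 184) (nat_lit 5) (nat_lit 191) (nat_lit 5) (nat_lit 185) (nat_lit 5) (nat_lit 469) (nat_lit 397) (nat_lit 274))) (XT.nd (nat_lit 78) (nat_lit 456) (nat_lit 0) (XT.lf (nat_lit 0) (nat_lit 1040002935) (nat_lit 456) (nat_lit 2367786624) (nat_lit 532) (nat_lit 9966130603) (nat_lit 178) (nat_lit 5) (nat_lit 184) (nat_lit 5) (nat_lit 185) (nat_lit 5) (nat_lit 470) (nat_lit 397) (nat_lit 273)) (XT.nd (nat_lit 78) (nat_lit 456) (nat_lit 0) (XT.lf (nat_lit 0) (nat_lit 6405713765) (nat_lit 532) (nat_lit 4580294972) (nat_lit 76) (nat_lit 2545356434) (nat_lit 178) (nat_lit 5) (nat_lit 185) (nat_lit 5) (nat_lit 179) (nat_lit 5) (nat_lit 471) (nat_lit 397) (nat_lit 272)) (XT.lf (nat_lit 0) (nat_lit 3334165291) (nat_lit 456) (nat_lit 6150773181) (nat_lit 532) (nat_lit 4206597564) (nat_lit 172) (nat_lit 5) (nat_lit 178) (nat_lit 5) (nat_lit 179) (nat_lit 5) (nat_lit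 472) (nat_lit 397) (nat_lit 271))))) (XT.nd (nat_lit 234) (nat_lit 912) (nat_lit 0) (XT.nd (nat_lit 78) (nat_lit 532) (nat_lit 0) (XT.lf (nat_lit 0) (nat_lit 11446866546) (nat_lit 456) (nat_lit 1193800758) (nat_lit 532) (nat_lit 1213948348) (nat_lit 172) (nat_lit 5) (nat_lit 178) (nat_lit 5) (nat_lit 179) (nat_lit 5) (nat_lit 473) (nat_lit 397) (nat_lit 270)) (XT.nd (nat_lit 78) (nat_lit 0) (nat_lit 0) (XT.lf (nat_lit 0) (nat_lit 1861472903) (nat_lit 532) (nat_lit 8303322886) (nat_lit 76) (nat_lit 3854985268) (nat_lit 165) (nat_lit 5) (nat_lit 172) (nat_lit 5) (nat_lit 166) (nat_lit 5) (nat_lit 474) (nat_lit 397) (nat_lit 269)) (XT.lf (nat_lit 0) (nat_lit 4990844273) (nat_lit 532) (nat_lit 190231345) (nat_lit 76) (nat_lit 9006843247) (nat_lit 165) (nat_lit 5) (nat_lit 172) (nat_lit 5) (nat_lit 166) (nat_lit 5) (nat_lit 475) (nat_lit 397) (nat_lit 268)))) (XT.nd (nat_lit 78) (nat_lit 532) (nat_lit 0) (XT.lf (nat_lit 0)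 (nat_lit 8170674411) (nat_lit 380) (nat_lit 49992838) (nat_lit 456) (nat_lit 6137998338) (nat_lit 160) (nat_lit 5) (nat_lit 165) (nat_lit 5) (nat_lit 166) (nat_lit 5) (nat_lit 476) (nat_lit 397) (nat_lit 267)) (XT.nd (nat_lit 78) (nat_lit 76) (nat_lit 0) (XT.lf (nat_lit 0) (nat_lit 2141266318) (nat_lit 456) (nat_lit 9407595311) (nat_lit 532) (nat_lit 2983293488) (nat_lit 154) (nat_lit 5) (nat_lit 160) (nat_lit 5) (nat_lit 161) (nat_lit 5) (nat_lit 477) (nat_lit 397) (nat_lit 266)) (XT.lf (nat_lit 0) (nat_lit 258545248) (nat_lit 532) (nat_lit 4011211052) (nat_lit 76) (nat_lit 10438788622) (nat_lit 153) (nat_lit 5) (nat_lit 160) (nat_lit 5) (nat_lit 154) (nat_lit 5) (nat_lit 478) (nat_lit 397) (nat_lit 265))))))) (XT.nd (nat_lit 858) (nat_lit 2052) (nat_lit 0) (XT.nd (nat_lit 390) (nat_lit 1520) (nat_lit 0) (XT.nd (nat_lit 156) (nat_lit 836) (nat_lit 0) (XT.nd (nat_lit 78) (nat_lit 0) (nat_lit 0) (XT.lf (nat_lit 0) (nat_lit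 3546749742) (nat_lit 456) (nat_lit 10339681760) (nat_lit 76) (nat_lit 1001210302) (nat_lit 148) (nat_lit 5) (nat_lit 154) (nat_lit 5) (nat_lit 149) (nat_lit 5) (nat_lit 479) (nat_lit 397) (nat_lit 264)) (XT.lf (nat_lit 0) (nat_lit 6941477196) (nat_lit 456) (nat_lit 1787020378) (nat_lit 76) (nat_lit 6341010990) (nat_lit 148) (nat_lit 5) (nat_lit 154) (nat_lit 5) (nat_lit 149) (nat_lit 5) (nat_lit 480) (nat_lit 397) (nat_lit 263))) (XT.nd (nat_lit 78) (nat_lit 456) (nat_lit 0) (XT.lf (nat_lit 0) (nat_lit 7007549608) (nat_lit 380) (nat_lit 3427720524) (nat_lit 456) (nat_lit 4819122161) (nat_lit 143) (nat_lit 5) (nat_lit 148) (nat_lit 5) (nat_lit 149) (nat_lit 5) (nat_lit 481) (nat_lit 397) (nat_lit 262)) (XT.nd (nat_lit 78) (nat_lit 76) (nat_lit 0) (XT.lf (nat_lit 0) (nat_lit 532399977) (nat_lit 380) (nat_lit 13480691081) (nat_lit 456) (nat_lit 1429602593) (nat_lit 138) (nat_lit 5) (nat_lit 143) (nat_lit 5) (nat_lit 144)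 (nat_lit 5) (nat_lit 482) (nat_lit 397) (nat_lit 261)) (XT.lf (nat_lit 0) (nat_lit 2065341950) (nat_lit 456) (nat_lit 6092076937) (nat_lit 76) (nat_lit 7475797157) (nat_lit 137) (nat_lit 5) (nat_lit 143) (nat_lit 5) (nat_lit 138) (nat_lit 5) (nat_lit 483) (nat_lit 397) (nat_lit 260))))) (XT.nd (nat_lit 234) (nat_lit 760) (nat_lit 0) (XT.nd (nat_lit 78) (nat_lit 380) (nat_lit 0) (XT.lf (nat_lit 0) (nat_lit 2910416539) (nat_lit 380) (nat_lit 2705639780) (nat_lit 456) (nat_lit 10211206128) (nat_lit 132) (nat_lit 5) (nat_lit 137) (nat_lit 5) (nat_lit 138) (nat_lit 5) (nat_lit 484) (nat_lit 397) (nat_lit 259)) (XT.nd (nat_lit 78) (nat_lit 380) (nat_lit 0) (XT.lf (nat_lit 0) (nat_lit 9283667233) (nat_lit 456) (nat_lit 3888528149) (nat_lit 76) (nat_lit 2852079518) (nat_lit 132) (nat_lit 5) (nat_lit 138) (nat_lit 5) (nat_lit 133) (nat_lit 5) (nat_lit 485) (nat_lit 397) (nat_lit 258)) (XT.lf (nat_lit 0) (nat_lit 5352154685) (nat_lit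 380) (nat_lit 7711607081) (nat_lit 456) (nat_lit 3160685921) (nat_lit 127) (nat_lit 5) (nat_lit 132) (nat_lit 5) (nat_lit 133) (nat_lit 5) (nat_lit 486) (nat_lit 397) (nat_lit 257)))) (XT.nd (nat_lit 78) (nat_lit 684) (nat_lit 0) (XT.lf (nat_lit 0) (nat_lit 497169232) (nat_lit 456) (nat_lit 1621625306) (nat_lit 76) (nat_lit 14309512816) (nat_lit 126) (nat_lit 5) (nat_lit 132) (nat_lit 5) (nat_lit 127) (nat_lit 5) (nat_lit 487) (nat_lit 397) (nat_lit 256)) (XT.nd (nat_lit 78) (nat_lit 304) (nat_lit 0) (XT.lf (nat_lit 0) (nat_lit 4247522114) (nat_lit 456) (nat_lit 8782483611) (nat_lit 76) (nat_lit 3604589959) (nat_lit 121) (nat_lit 5) (nat_lit 127) (nat_lit 5) (nat_lit 122) (nat_lit 5) (nat_lit 488) (nat_lit 397) (nat_lit 255)) (XT.lf (nat_lit 0) (nat_lit 666947155) (nat_lit 304) (nat_lit 7422105901) (nat_lit 380) (nat_lit 8755635811) (nat_lit 117) (nat_lit 5) (nat_lit 121) (nat_lit 5) (nat_lit 122) (nat_lit 5) (nat_lit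 489) (nat_lit 397) (nat_lit 254)))))) (XT.nd (nat_lit 390) (nat_lit 1292) (nat_lit 0) (XT.nd (nat_lit 156) (nat_lit 380) (nat_lit 0) (XT.nd (nat_lit 78) (nat_lit 380) (nat_lit 0) (XT.lf (nat_lit 0) (nat_lit 10404338598) (nat_lit 304) (nat_lit 1648993462) (nat_lit 380) (nat_lit 5004735961) (nat_lit 117) (nat_lit 5) (nat_lit 121) (nat_lit 5) (nat_lit 122) (nat_lit 5) (nat_lit 490) (nat_lit 397) (nat_lit 253)) (XT.lf (nat_lit 0) (nat_lit 3053386776) (nat_lit 380) (nat_lit 13078053323) (nat_lit 456) (nat_lit 1143586200) (nat_lit 112) (nat_lit 5) (nat_lit 117) (nat_lit 5) (nat_lit 118) (nat_lit 5) (nat_lit 491) (nat_lit 397) (nat_lit 252))) (XT.nd (nat_lit 78) (nat_lit 304) (nat_lit 0) (XT.lf (nat_lit 0) (nat_lit 2801227768) (nat_lit 456) (nat_lit 4499891193) (nat_lit 76) (nat_lit 10193982277) (nat_lit 111) (nat_lit 5) (nat_lit 117) (nat_lit 5) (nat_lit 112) (nat_lit 5) (nat_lit 492) (nat_lit 397) (nat_lit 251)) (XT.nd (nat_lit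 78) (nat_lit 0) (nat_lit 0) (XT.lf (nat_lit 0) (nat_lit 5460791858) (nat_lit 304) (nat_lit 1371782476) (nat_lit 380) (nat_lit 10886395452) (nat_lit 107) (nat_lit 5) (nat_lit 111) (nat_lit 5) (nat_lit 112) (nat_lit 5) (nat_lit 493) (nat_lit 397) (nat_lit 250)) (XT.lf (nat_lit 0) (nat_lit 10992858469) (nat_lit 380) (nat_lit 2315208769) (nat_lit 76) (nat_lit 4638284479) (nat_lit 107) (nat_lit 5) (nat_lit 112) (nat_lit 5) (nat_lit 108) (nat_lit 5) (nat_lit 494) (nat_lit 397) (nat_lit 249))))) (XT.nd (nat_lit 234) (nat_lit 608) (nat_lit 0) (XT.nd (nat_lit 78) (nat_lit 380) (nat_lit 0) (XT.lf (nat_lit 0) (nat_lit 7901932949) (nat_lit 304) (nat_lit 7382602043) (nat_lit 380) (nat_lit 2892784743) (nat_lit 103) (nat_lit 5) (nat_lit 107) (nat_lit 5) (nat_lit 108) (nat_lit 5) (nat_lit 495) (nat_lit 397) (nat_lit 248)) (XT.nd (nat_lit 78) (nat_lit 304) (nat_lit 0) (XT.lf (nat_lit 0) (nat_lit 1236224912) (nat_lit 380) (nat_lit 85283446)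 (nat_lit 76) (nat_lit 17091169255) (nat_lit 102) (nat_lit 5) (nat_lit 107) (nat_lit 5) (nat_lit 103) (nat_lit 5) (nat_lit 496) (nat_lit 397) (nat_lit 247)) (XT.lf (nat_lit 0) (nat_lit 5496843920) (nat_lit 380) (nat_lit 8276279374) (nat_lit 76) (nat_lit 4877483712) (nat_lit 98) (nat_lit 5) (nat_lit 103) (nat_lit 5) (nat_lit 99) (nat_lit 5) (nat_lit 497) (nat_lit 397) (nat_lit 246)))) (XT.nd (nat_lit 78) (nat_lit 304) (nat_lit 0) (XT.lf (nat_lit 0) (nat_lit 2151499539) (nat_lit 304) (nat_lit 7702608544) (nat_lit 380) (nat_lit 9038960264) (nat_lit 94) (nat_lit 5) (nat_lit 98) (nat_lit 5) (nat_lit 99) (nat_lit 5) (nat_lit 498) (nat_lit 397) (nat_lit 245)) (XT.nd (nat_lit 78) (nat_lit 304) (nat_lit 0) (XT.lf (nat_lit 0) (nat_lit 12881180257) (nat_lit 304) (nat_lit 1461121779) (nat_lit 380) (nat_lit 4797203166) (nat_lit 94) (nat_lit 5) (nat_lit 98) (nat_lit 5) (nat_lit 99) (nat_lit 5) (nat_lit 499) (nat_lit 397) (nat_lit 244))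 (XT.lf (nat_lit 0) (nat_lit 4442339317) (nat_lit 304) (nat_lit 14527042608) (nat_lit 380) (nat_lit 420508365) (nat_lit 90) (nat_lit 5) (nat_lit 94) (nat_lit 5) (nat_lit 95) (nat_lit 5) (nat_lit 500) (nat_lit 397) (nat_lit 243))))))))
noncomputable def xc140 : XT := (XT.nd (nat_lit 52650) (nat_lit 0) (nat_lit 21356) (XT.nd (nat_lit 51792) (nat_lit 0) (nat_lit 35036) (XT.nd (nat_lit 51402) (nat_lit 0) (nat_lit 37316) (XT.nd (nat_lit 156) (nat_lit 228) (nat_lit 0) (XT.nd (nat_lit 78) (nat_lit 304) (nat_lit 0) (XT.lf (nat_lit 0) (nat_lit 4031097660) (nat_lit 380) (nat_lit 4257493222) (nat_lit 76) (nat_lit 11355360742) (nat_lit 89) (nat_lit 5) (nat_lit 94) (nat_lit 5) (nat_lit 90) (nat_lit 5) (nat_lit 501) (nat_lit 397) (nat_lit 242)) (XT.lf (nat_lit 0) (nat_lit 6713302282) (nat_lit 304) (nat_lit 1885082028) (nat_lit 380) (nat_lit 11304010526) (nat_lit 85) (nat_lit 5) (nat_lit 89) (nat_lit 5) (nat_lit 90) (nat_lit 5) (nat_lit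 502) (nat_lit 397) (nat_lit 241))) (XT.nd (nat_lit 78) (nat_lit 228) (nat_lit 0) (XT.lf (nat_lit 0) (nat_lit 13304688918) (nat_lit 380) (nat_lit 2252952480) (nat_lit 76) (nat_lit 4607413859) (nat_lit 85) (nat_lit 5) (nat_lit 90) (nat_lit 5) (nat_lit 86) (nat_lit 5) (nat_lit 503) (nat_lit 397) (nat_lit 240)) (XT.nd (nat_lit 51090) (nat_lit 0) (nat_lit 39520) (XT.lf (nat_lit 0) (nat_lit 8989298398) (nat_lit 228) (nat_lit 9175635243) (nat_lit 304) (nat_lit 2266840720) (nat_lit 82) (nat_lit 5) (nat_lit 85) (nat_lit 5) (nat_lit 86) (nat_lit 5) (nat_lit 504) (nat_lit 397) (nat_lit 239)) (XT.lf (nat_lit 0) (nat_lit 1727260906) (nat_lit 0) (nat_lit 1727260906) (nat_lit 988) (nat_lit 77803339) (nat_lit 602) (nat_lit 5) (nat_lit 602) (nat_lit 3) (nat_lit 615) (nat_lit 3) (nat_lit 398) (nat_lit 398) (nat_lit 344))))) (XT.nd (nat_lit 156) (nat_lit 1064) (nat_lit 0) (XT.nd (nat_lit 78) (nat_lit 0) (nat_lit 0) (XT.lf (nat_lit 0) (nat_lit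 1577089145) (nat_lit 1140) (nat_lit 206212220) (nat_lit 1140) (nat_lit 5316576899) (nat_lit 587) (nat_lit 3) (nat_lit 602) (nat_lit 3) (nat_lit 602) (nat_lit 5) (nat_lit 399) (nat_lit 398) (nat_lit 343)) (XT.lf (nat_lit 76) (nat_lit 3284647835) (nat_lit 0) (nat_lit 33599554) (nat_lit 1140) (nat_lit 3818045839) (nat_lit 588) (nat_lit 5) (nat_lit 587) (nat_lit 3) (nat_lit 602) (nat_lit 5) (nat_lit 400) (nat_lit 398) (nat_lit 342))) (XT.nd (nat_lit 78) (nat_lit 1140) (nat_lit 0) (XT.lf (nat_lit 0) (nat_lit 5062437083) (nat_lit 1064) (nat_lit 360752167) (nat_lit 1140) (nat_lit 1750903523) (nat_lit 588) (nat_lit 5) (nat_lit 602) (nat_lit 5) (nat_lit 603) (nat_lit 5) (nat_lit 401) (nat_lit 398) (nat_lit 341)) (XT.nd (nat_lit 78) (nat_lit 1140) (nat_lit 0) (XT.lf (nat_lit 76) (nat_lit 3218332417) (nat_lit 0) (nat_lit 3600615871) (nat_lit 1140) (nat_lit 394171314) (nat_lit 589) (nat_lit 5) (nat_lit 588) (nat_lit 5) (nat_lit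 603) (nat_lit 5) (nat_lit 402) (nat_lit 398) (nat_lit 340)) (XT.lf (nat_lit 0) (nat_lit 1299013451) (nat_lit 1140) (nat_lit 411872737) (nat_lit 1216) (nat_lit 5542700616) (nat_lit 573) (nat_lit 5) (nat_lit 588) (nat_lit 5) (nat_lit 589) (nat_lit 5) (nat_lit 403) (nat_lit 398) (nat_lit 339)))))) (XT.nd (nat_lit 390) (nat_lit 1140) (nat_lit 0) (XT.nd (nat_lit 156) (nat_lit 1216) (nat_lit 0) (XT.nd (nat_lit 78) (nat_lit 0) (nat_lit 0) (XT.lf (nat_lit 0) (nat_lit 3001204972) (nat_lit 1140) (nat_lit 4037686996) (nat_lit 1216) (nat_lit 256329744) (nat_lit 574) (nat_lit 5) (nat_lit 589) (nat_lit 5) (nat_lit 590) (nat_lit 5) (nat_lit 404) (nat_lit 398) (nat_lit 338)) (XT.lf (nat_lit 0) (nat_lit 4709920221) (nat_lit 1140) (nat_lit 367467239) (nat_lit 1216) (nat_lit 2260870779) (nat_lit 574) (nat_lit 5) (nat_lit 589) (nat_lit 5) (nat_lit 590) (nat_lit 5) (nat_lit 405) (nat_lit 398) (nat_lit 337))) (XT.nd (nat_lit 78) (nat_lit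 1216) (nat_lit 0) (XT.lf (nat_lit 76) (nat_lit 3396786884) (nat_lit 0) (nat_lit 3037260750) (nat_lit 1216) (nat_lit 948501264) (nat_lit 575) (nat_lit 5) (nat_lit 574) (nat_lit 5) (nat_lit 590) (nat_lit 5) (nat_lit 406) (nat_lit 398) (nat_lit 336)) (XT.nd (nat_lit 78) (nat_lit 0) (nat_lit 76) (XT.lf (nat_lit 0) (nat_lit 716928342) (nat_lit 1216) (nat_lit 215668817) (nat_lit 1292) (nat_lit 6495805765) (nat_lit 558) (nat_lit 5) (nat_lit 574) (nat_lit 5) (nat_lit 575) (nat_lit 5) (nat_lit 407) (nat_lit 398) (nat_lit 335)) (XT.lf (nat_lit 0) (nat_lit 2395183853) (nat_lit 1216) (nat_lit 3836026798) (nat_lit 1292) (nat_lit 1244010746) (nat_lit 559) (nat_lit 5) (nat_lit 575) (nat_lit 5) (nat_lit 576) (nat_lit 5) (nat_lit 408) (nat_lit 398) (nat_lit 334))))) (XT.nd (nat_lit 234) (nat_lit 1216) (nat_lit 0) (XT.nd (nat_lit 78) (nat_lit 0) (nat_lit 0) (XT.lf (nat_lit 76) (nat_lit 20635619) (nat_lit 0) (nat_lit 4055198710) (nat_lit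 1292) (nat_lit 3447782086) (nat_lit 560) (nat_lit 5) (nat_lit 559) (nat_lit 5) (nat_lit 576) (nat_lit 5) (nat_lit 409) (nat_lit 398) (nat_lit 333)) (XT.nd (nat_lit 78) (nat_lit 0) (nat_lit 76) (XT.lf (nat_lit 76) (nat_lit 3982010617) (nat_lit 0) (nat_lit 1795496783) (nat_lit 1292) (nat_lit 1795740187) (nat_lit 560) (nat_lit 5) (nat_lit 559) (nat_lit 5) (nat_lit 576) (nat_lit 5) (nat_lit 410) (nat_lit 398) (nat_lit 332)) (XT.lf (nat_lit 76) (nat_lit 375563444) (nat_lit 0) (nat_lit 7105904253) (nat_lit 1292) (nat_lit 143054732) (nat_lit 561) (nat_lit 5) (nat_lit 560) (nat_lit 5) (nat_lit 577) (nat_lit 5) (nat_lit 411) (nat_lit 398) (nat_lit 331)))) (XT.nd (nat_lit 78) (nat_lit 0) (nat_lit 0) (XT.lf (nat_lit 0) (nat_lit 1521424360) (nat_lit 1292) (nat_lit 3253170129) (nat_lit 1368) (nat_lit 2902064004) (nat_lit 543) (nat_lit 5) (nat_lit 560) (nat_lit 5) (nat_lit 561) (nat_lit 5) (nat_lit 412) (nat_lit 398) (nat_lit 330))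 (XT.nd (nat_lit 78) (nat_lit 0) (nat_lit 76) (XT.lf (nat_lit 76) (nat_lit 807528061) (nat_lit 0) (nat_lit 2378546348) (nat_lit 1368) (nat_lit 4544383212) (nat_lit 544) (nat_lit 5) (nat_lit 543) (nat_lit 5) (nat_lit 561) (nat_lit 5) (nat_lit 413) (nat_lit 398) (nat_lit 329)) (XT.lf (nat_lit 0) (nat_lit 4870599083) (nat_lit 1292) (nat_lit 2817222223) (nat_lit 1368) (nat_lit 97794689) (nat_lit 544) (nat_lit 5) (nat_lit 561) (nat_lit 5) (nat_lit 562) (nat_lit 5) (nat_lit 414) (nat_lit 398) (nat_lit 328))))))) (XT.nd (nat_lit 858) (nat_lit 8132) (nat_lit 0) (XT.nd (nat_lit 390) (nat_lit 4256) (nat_lit 0) (XT.nd (nat_lit 156) (nat_lit 0) (nat_lit 0) (XT.nd (nat_lit 78) (nat_lit 1368) (nat_lit 0) (XT.lf (nat_lit 76) (nat_lit 1347724365) (nat_lit 0) (nat_lit 5230476282) (nat_lit 1368) (nat_lit 1263903765) (nat_lit 545) (nat_lit 5) (nat_lit 544) (nat_lit 5) (nat_lit 562) (nat_lit 5) (nat_lit 415) (nat_lit 398) (nat_lit 327))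 (XT.lf (nat_lit 0) (nat_lit 398920004) (nat_lit 1368) (nat_lit 2293152390) (nat_lit 1444) (nat_lit 5207925674) (nat_lit 526) (nat_lit 5) (nat_lit 544) (nat_lit 5) (nat_lit 545) (nat_lit 5) (nat_lit 416) (nat_lit 398) (nat_lit 326))) (XT.nd (nat_lit 78) (nat_lit 0) (nat_lit 76) (XT.lf (nat_lit 76) (nat_lit 1985145185) (nat_lit 0) (nat_lit 71688571) (nat_lit 1444) (nat_lit 5902487372) (nat_lit 527) (nat_lit 5) (nat_lit 526) (nat_lit 5) (nat_lit 545) (nat_lit 5) (nat_lit 417) (nat_lit 398) (nat_lit 325)) (XT.nd (nat_lit 78) (nat_lit 0) (nat_lit 0) (XT.lf (nat_lit 0) (nat_lit 3746706874) (nat_lit 1368) (nat_lit 1681623676) (nat_lit 1444) (nat_lit 2591537567) (nat_lit 527) (nat_lit 5) (nat_lit 545) (nat_lit 5) (nat_lit 546) (nat_lit 5) (nat_lit 418) (nat_lit 398) (nat_lit 324)) (XT.lf (nat_lit 76) (nat_lit 2707099369) (nat_lit 0) (nat_lit 2748410340) (nat_lit 1444) (nat_lit 2626426919) (nat_lit 528) (nat_lit 5) (nat_lit 527)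 (nat_lit 5) (nat_lit 546) (nat_lit 5) (nat_lit 419) (nat_lit 398) (nat_lit 323))))) (XT.nd (nat_lit 234) (nat_lit 2964) (nat_lit 0) (XT.nd (nat_lit 78) (nat_lit 1444) (nat_lit 0) (XT.lf (nat_lit 0) (nat_lit 7177369728) (nat_lit 1368) (nat_lit 963866995) (nat_lit 76) (nat_lit 4445130) (nat_lit 528) (nat_lit 5) (nat_lit 546) (nat_lit 5) (nat_lit 529) (nat_lit 5) (nat_lit 420) (nat_lit 398) (nat_lit 322)) (XT.nd (nat_lit 78) (nat_lit 0) (nat_lit 0) (XT.lf (nat_lit 0) (nat_lit 722963914) (nat_lit 1444) (nat_lit 4676514126) (nat_lit 76) (nat_lit 2810952911) (nat_lit 509) (nat_lit 5) (nat_lit 528) (nat_lit 5) (nat_lit 510) (nat_lit 5) (nat_lit 421) (nat_lit 398) (nat_lit 321)) (XT.lf (nat_lit 0) (nat_lit 2410119493) (nat_lit 1444) (nat_lit 173111898) (nat_lit 76) (nat_lit 5693627455) (nat_lit 509) (nat_lit 5) (nat_lit 528) (nat_lit 5) (nat_lit 510) (nat_lit 5) (nat_lit 422) (nat_lit 398) (nat_lit 320)))) (XT.nd (nat_lit 78)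 (nat_lit 1520) (nat_lit 0) (XT.lf (nat_lit 0) (nat_lit 4131163747) (nat_lit 1520) (nat_lit 3892543121) (nat_lit 76) (nat_lit 320917499) (nat_lit 490) (nat_lit 5) (nat_lit 510) (nat_lit 5) (nat_lit 491) (nat_lit 5) (nat_lit 423) (nat_lit 398) (nat_lit 319)) (XT.nd (nat_lit 78) (nat_lit 0) (nat_lit 0) (XT.lf (nat_lit 0) (nat_lit 725766158) (nat_lit 1520) (nat_lit 5153452799) (nat_lit 1596) (nat_lit 2534686185) (nat_lit 470) (nat_lit 5) (nat_lit 490) (nat_lit 5) (nat_lit 491) (nat_lit 5) (nat_lit 424) (nat_lit 398) (nat_lit 318)) (XT.lf (nat_lit 0) (nat_lit 5464330733) (nat_lit 1520) (nat_lit 2194061161) (nat_lit 1596) (nat_lit 826268020) (nat_lit 470) (nat_lit 5) (nat_lit 490) (nat_lit 5) (nat_lit 491) (nat_lit 5) (nat_lit 425) (nat_lit 398) (nat_lit 317)))))) (XT.nd (nat_lit 390) (nat_lit 3040) (nat_lit 0) (XT.nd (nat_lit 156) (nat_lit 3420) (nat_lit 0) (XT.nd (nat_lit 78) (nat_lit 0) (nat_lit 0) (XT.lf (nat_lit 0) (nat_lit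 891467243) (nat_lit 1672) (nat_lit 6829764882) (nat_lit 76) (nat_lit 835746408) (nat_lit 448) (nat_lit 5) (nat_lit 470) (nat_lit 5) (nat_lit 449) (nat_lit 5) (nat_lit 426) (nat_lit 398) (nat_lit 316)) (XT.lf (nat_lit 0) (nat_lit 2638303291) (nat_lit 1672) (nat_lit 2065078092) (nat_lit 76) (nat_lit 3927147563) (nat_lit 448) (nat_lit 5) (nat_lit 470) (nat_lit 5) (nat_lit 449) (nat_lit 5) (nat_lit 427) (nat_lit 398) (nat_lit 315))) (XT.nd (nat_lit 78) (nat_lit 1748) (nat_lit 0) (XT.lf (nat_lit 0) (nat_lit 2806959128) (nat_lit 1672) (nat_lit 1602779843) (nat_lit 1748) (nat_lit 4296028775) (nat_lit 426) (nat_lit 5) (nat_lit 448) (nat_lit 5) (nat_lit 449) (nat_lit 5) (nat_lit 428) (nat_lit 398) (nat_lit 314)) (XT.nd (nat_lit 78) (nat_lit 1748) (nat_lit 0) (XT.lf (nat_lit 0) (nat_lit 6212542160) (nat_lit 1748) (nat_lit 1013214667) (nat_lit 76) (nat_lit 1556846150) (nat_lit 426) (nat_lit 5) (nat_lit 449) (nat_lit 5) (nat_lit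 427) (nat_lit 5) (nat_lit 429) (nat_lit 398) (nat_lit 313)) (XT.lf (nat_lit 0) (nat_lit 3987070799) (nat_lit 1748) (nat_lit 4073245269) (nat_lit 1824) (nat_lit 800490775) (nat_lit 403) (nat_lit 5) (nat_lit 426) (nat_lit 5) (nat_lit 427) (nat_lit 5) (nat_lit 430) (nat_lit 398) (nat_lit 312))))) (XT.nd (nat_lit 234) (nat_lit 912) (nat_lit 0) (XT.nd (nat_lit 78) (nat_lit 912) (nat_lit 0) (XT.lf (nat_lit 0) (nat_lit 130899122) (nat_lit 1140) (nat_lit 840696920) (nat_lit 1216) (nat_lit 7969252153) (nat_lit 387) (nat_lit 5) (nat_lit 402) (nat_lit 5) (nat_lit 403) (nat_lit 5) (nat_lit 431) (nat_lit 398) (nat_lit 311)) (XT.nd (nat_lit 78) (nat_lit 912) (nat_lit 0) (XT.lf (nat_lit 0) (nat_lit 2790283547) (nat_lit 1216) (nat_lit 3766920984) (nat_lit 76) (nat_lit 2464752104) (nat_lit 387) (nat_lit 5) (nat_lit 403) (nat_lit 5) (nat_lit 388) (nat_lit 5) (nat_lit 432) (nat_lit 398) (nat_lit 310)) (XT.lf (nat_lit 0) (nat_lit 1364482448)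 (nat_lit 912) (nat_lit 3268814824) (nat_lit 988) (nat_lit 4471640368) (nat_lit 375) (nat_lit 5) (nat_lit 387) (nat_lit 5) (nat_lit 388) (nat_lit 5) (nat_lit 433) (nat_lit 398) (nat_lit 309)))) (XT.nd (nat_lit 78) (nat_lit 912) (nat_lit 0) (XT.lf (nat_lit 0) (nat_lit 6513065188) (nat_lit 988) (nat_lit 2565409609) (nat_lit 76) (nat_lit 111114850) (nat_lit 375) (nat_lit 5) (nat_lit 388) (nat_lit 5) (nat_lit 376) (nat_lit 5) (nat_lit 434) (nat_lit 398) (nat_lit 308)) (XT.nd (nat_lit 78) (nat_lit 76) (nat_lit 0) (XT.lf (nat_lit 0) (nat_lit 2702232354) (nat_lit 836) (nat_lit 5741794835) (nat_lit 912) (nat_lit 831644610) (nat_lit 364) (nat_lit 5) (nat_lit 375) (nat_lit 5) (nat_lit 376) (nat_lit 5) (nat_lit 435) (nat_lit 398) (nat_lit 307)) (XT.lf (nat_lit 0) (nat_lit 1028262207) (nat_lit 912) (nat_lit 1284942671) (nat_lit 76) (nat_lit 7050305037) (nat_lit 363) (nat_lit 5) (nat_lit 375) (nat_lit 5) (nat_lit 364) (nat_lit 5)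 (nat_lit 436) (nat_lit 398) (nat_lit 306))))))))
noncomputable def xc141 : XT := (XT.nd (nat_lit 1716) (nat_lit 6688) (nat_lit 0) (XT.nd (nat_lit 858) (nat_lit 4028) (nat_lit 0) (XT.nd (nat_lit 390) (nat_lit 3040) (nat_lit 0) (XT.nd (nat_lit 156) (nat_lit 912) (nat_lit 0) (XT.nd (nat_lit 78) (nat_lit 836) (nat_lit 0) (XT.lf (nat_lit 0) (nat_lit 2924056249) (nat_lit 912) (nat_lit 5327233189) (nat_lit 76) (nat_lit 1201517473) (nat_lit 352) (nat_lit 5) (nat_lit 364) (nat_lit 5) (nat_lit 353) (nat_lit 5) (nat_lit 437) (nat_lit 398) (nat_lit 305)) (XT.lf (nat_lit 0) (nat_lit 78924025) (nat_lit 836) (nat_lit 4778758751) (nat_lit 912) (nat_lit 4686217125) (nat_lit 341) (nat_lit 5) (nat_lit 352) (nat_lit 5) (nat_lit 353) (nat_lit 5) (nat_lit 438) (nat_lit 398) (nat_lit 304))) (XT.nd (nat_lit 78) (nat_lit 912) (nat_lit 0) (XT.lf (nat_lit 0) (nat_lit 5640843644) (nat_lit 836) (nat_lit 1200614631) (nat_lit 912) (nat_lit 2795135171)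 (nat_lit 341) (nat_lit 5) (nat_lit 352) (nat_lit 5) (nat_lit 353) (nat_lit 5) (nat_lit 439) (nat_lit 398) (nat_lit 303)) (XT.nd (nat_lit 78) (nat_lit 76) (nat_lit 0) (XT.lf (nat_lit 0) (nat_lit 1562884126) (nat_lit 836) (nat_lit 7304275484) (nat_lit 912) (nat_lit 863944307) (nat_lit 330) (nat_lit 5) (nat_lit 341) (nat_lit 5) (nat_lit 342) (nat_lit 5) (nat_lit 440) (nat_lit 398) (nat_lit 302)) (XT.lf (nat_lit 0) (nat_lit 1102655616) (nat_lit 912) (nat_lit 2580156325) (nat_lit 76) (nat_lit 6144331025) (nat_lit 329) (nat_lit 5) (nat_lit 341) (nat_lit 5) (nat_lit 330) (nat_lit 5) (nat_lit 441) (nat_lit 398) (nat_lit 301))))) (XT.nd (nat_lit 234) (nat_lit 1520) (nat_lit 0) (XT.nd (nat_lit 78) (nat_lit 760) (nat_lit 0) (XT.lf (nat_lit 0) (nat_lit 3094405151) (nat_lit 836) (nat_lit 6794531895) (nat_lit 76) (nat_lit 36111418) (nat_lit 319) (nat_lit 5) (nat_lit 330) (nat_lit 5) (nat_lit 320) (nat_lit 5) (nat_lit 442) (nat_lit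 398) (nat_lit 300)) (XT.nd (nat_lit 78) (nat_lit 760) (nat_lit 0) (XT.lf (nat_lit 0) (nat_lit 5144909024) (nat_lit 836) (nat_lit 1083238776) (nat_lit 76) (nat_lit 3796393333) (nat_lit 319) (nat_lit 5) (nat_lit 330) (nat_lit 5) (nat_lit 320) (nat_lit 5) (nat_lit 443) (nat_lit 398) (nat_lit 299)) (XT.lf (nat_lit 0) (nat_lit 4780917642) (nat_lit 760) (nat_lit 2464096214) (nat_lit 836) (nat_lit 2880845284) (nat_lit 309) (nat_lit 5) (nat_lit 319) (nat_lit 5) (nat_lit 320) (nat_lit 5) (nat_lit 444) (nat_lit 398) (nat_lit 298)))) (XT.nd (nat_lit 78) (nat_lit 836) (nat_lit 0) (XT.lf (nat_lit 0) (nat_lit 521499134) (nat_lit 684) (nat_lit 8863077419) (nat_lit 760) (nat_lit 844684996) (nat_lit 300) (nat_lit 5) (nat_lit 309) (nat_lit 5) (nat_lit 310) (nat_lit 5) (nat_lit 445) (nat_lit 398) (nat_lit 297)) (XT.nd (nat_lit 78) (nat_lit 760) (nat_lit 0) (XT.lf (nat_lit 0) (nat_lit 1246410924) (nat_lit 760) (nat_lit 3805336027) (nat_lit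 76) (nat_lit 5282224472) (nat_lit 299) (nat_lit 5) (nat_lit 309) (nat_lit 5) (nat_lit 300) (nat_lit 5) (nat_lit 446) (nat_lit 398) (nat_lit 296)) (XT.lf (nat_lit 0) (nat_lit 2214583993) (nat_lit 760) (nat_lit 1146205433) (nat_lit 836) (nat_lit 7080025729) (nat_lit 289) (nat_lit 5) (nat_lit 299) (nat_lit 5) (nat_lit 300) (nat_lit 5) (nat_lit 447) (nat_lit 398) (nat_lit 295)))))) (XT.nd (nat_lit 390) (nat_lit 1976) (nat_lit 0) (XT.nd (nat_lit 156) (nat_lit 1368) (nat_lit 0) (XT.nd (nat_lit 78) (nat_lit 684) (nat_lit 0) (XT.lf (nat_lit 0) (nat_lit 5540217706) (nat_lit 836) (nat_lit 2185657061) (nat_lit 76) (nat_lit 2823472363) (nat_lit 289) (nat_lit 5) (nat_lit 300) (nat_lit 5) (nat_lit 290) (nat_lit 5) (nat_lit 448) (nat_lit 398) (nat_lit 294)) (XT.lf (nat_lit 0) (nat_lit 3996766796) (nat_lit 684) (nat_lit 3779061809) (nat_lit 760) (nat_lit 2883975743) (nat_lit 280) (nat_lit 5) (nat_lit 289) (nat_lit 5) (nat_lit 290) (nat_lit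 5) (nat_lit 449) (nat_lit 398) (nat_lit 293))) (XT.nd (nat_lit 78) (nat_lit 1368) (nat_lit 0) (XT.lf (nat_lit 0) (nat_lit 10051809212) (nat_lit 760) (nat_lit 465443670) (nat_lit 76) (nat_lit 255311034) (nat_lit 280) (nat_lit 5) (nat_lit 290) (nat_lit 5) (nat_lit 281) (nat_lit 5) (nat_lit 450) (nat_lit 398) (nat_lit 292)) (XT.nd (nat_lit 78) (nat_lit 608) (nat_lit 0) (XT.lf (nat_lit 0) (nat_lit 1509455348) (nat_lit 760) (nat_lit 5011965464) (nat_lit 76) (nat_lit 4365106843) (nat_lit 270) (nat_lit 5) (nat_lit 280) (nat_lit 5) (nat_lit 271) (nat_lit 5) (nat_lit 451) (nat_lit 398) (nat_lit 291)) (XT.lf (nat_lit 0) (nat_lit 1333988893) (nat_lit 608) (nat_lit 2432249109) (nat_lit 684) (nat_lit 7236610988) (nat_lit 262) (nat_lit 5) (nat_lit 270) (nat_lit 5) (nat_lit 271) (nat_lit 5) (nat_lit 452) (nat_lit 398) (nat_lit 290))))) (XT.nd (nat_lit 234) (nat_lit 1292) (nat_lit 0) (XT.nd (nat_lit 78) (nat_lit 684) (nat_lit 0) (XT.lf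 (nat_lit 0) (nat_lit 6093325913) (nat_lit 684) (nat_lit 3281442605) (nat_lit 76) (nat_lit 1746230712) (nat_lit 262) (nat_lit 5) (nat_lit 271) (nat_lit 5) (nat_lit 263) (nat_lit 5) (nat_lit 453) (nat_lit 398) (nat_lit 289)) (XT.nd (nat_lit 78) (nat_lit 0) (nat_lit 0) (XT.lf (nat_lit 0) (nat_lit 3236625538) (nat_lit 684) (nat_lit 5247868749) (nat_lit 760) (nat_lit 2756673172) (nat_lit 253) (nat_lit 5) (nat_lit 262) (nat_lit 5) (nat_lit 263) (nat_lit 5) (nat_lit 454) (nat_lit 398) (nat_lit 288)) (XT.lf (nat_lit 0) (nat_lit 9906251053) (nat_lit 684) (nat_lit 1019904763) (nat_lit 760) (nat_lit 437535486) (nat_lit 253) (nat_lit 5) (nat_lit 262) (nat_lit 5) (nat_lit 263) (nat_lit 5) (nat_lit 455) (nat_lit 398) (nat_lit 287)))) (XT.nd (nat_lit 78) (nat_lit 608) (nat_lit 0) (XT.lf (nat_lit 0) (nat_lit 1939369608) (nat_lit 684) (nat_lit 6255877223) (nat_lit 76) (nat_lit 3292440450) (nat_lit 244) (nat_lit 5) (nat_lit 253) (nat_lit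 5) (nat_lit 245) (nat_lit 5) (nat_lit 456) (nat_lit 398) (nat_lit 286)) (XT.nd (nat_lit 78) (nat_lit 0) (nat_lit 0) (XT.lf (nat_lit 0) (nat_lit 433307872) (nat_lit 608) (nat_lit 3925161613) (nat_lit 684) (nat_lit 7255630867) (nat_lit 236) (nat_lit 5) (nat_lit 244) (nat_lit 5) (nat_lit 245) (nat_lit 5) (nat_lit 457) (nat_lit 398) (nat_lit 285)) (XT.lf (nat_lit 0) (nat_lit 6852292222) (nat_lit 684) (nat_lit 4427686139) (nat_lit 76) (nat_lit 462541720) (nat_lit 236) (nat_lit 5) (nat_lit 245) (nat_lit 5) (nat_lit 237) (nat_lit 5) (nat_lit 458) (nat_lit 398) (nat_lit 284))))))) (XT.nd (nat_lit 858) (nat_lit 2812) (nat_lit 0) (XT.nd (nat_lit 390) (nat_lit 2128) (nat_lit 0) (XT.nd (nat_lit 156) (nat_lit 1140) (nat_lit 0) (XT.nd (nat_lit 78) (nat_lit 76) (nat_lit 0) (XT.lf (nat_lit 0) (nat_lit 2443506655) (nat_lit 532) (nat_lit 6975999621) (nat_lit 608) (nat_lit 2453536744) (nat_lit 229) (nat_lit 5) (nat_lit 236) (nat_lit 5)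 (nat_lit 237) (nat_lit 5) (nat_lit 459) (nat_lit 398) (nat_lit 283)) (XT.lf (nat_lit 0) (nat_lit 43120527) (nat_lit 608) (nat_lit 2516968538) (nat_lit 76) (nat_lit 9445855114) (nat_lit 228) (nat_lit 5) (nat_lit 236) (nat_lit 5) (nat_lit 229) (nat_lit 5) (nat_lit 460) (nat_lit 398) (nat_lit 282))) (XT.nd (nat_lit 78) (nat_lit 532) (nat_lit 0) (XT.lf (nat_lit 0) (nat_lit 2581455517) (nat_lit 684) (nat_lit 7599178462) (nat_lit 76) (nat_lit 1960057896) (nat_lit 220) (nat_lit 5) (nat_lit 229) (nat_lit 5) (nat_lit 221) (nat_lit 5) (nat_lit 461) (nat_lit 398) (nat_lit 281)) (XT.nd (nat_lit 78) (nat_lit 532) (nat_lit 0) (XT.lf (nat_lit 0) (nat_lit 5186786589) (nat_lit 684) (nat_lit 542428673) (nat_lit 76) (nat_lit 6548599397) (nat_lit 220) (nat_lit 5) (nat_lit 229) (nat_lit 5) (nat_lit 221) (nat_lit 5) (nat_lit 462) (nat_lit 398) (nat_lit 280)) (XT.lf (nat_lit 0) (nat_lit 6721204900) (nat_lit 532) (nat_lit 1149278599) (nat_lit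 608) (nat_lit 4546675845) (nat_lit 213) (nat_lit 5) (nat_lit 220) (nat_lit 5) (nat_lit 221) (nat_lit 5) (nat_lit 463) (nat_lit 398) (nat_lit 279))))) (XT.nd (nat_lit 234) (nat_lit 988) (nat_lit 0) (XT.nd (nat_lit 78) (nat_lit 608) (nat_lit 0) (XT.lf (nat_lit 0) (nat_lit 1553153818) (nat_lit 532) (nat_lit 9074101612) (nat_lit 608) (nat_lit 1931652012) (nat_lit 206) (nat_lit 5) (nat_lit 213) (nat_lit 5) (nat_lit 214) (nat_lit 5) (nat_lit 464) (nat_lit 398) (nat_lit 278)) (XT.nd (nat_lit 78) (nat_lit 532) (nat_lit 0) (XT.lf (nat_lit 0) (nat_lit 754969848) (nat_lit 608) (nat_lit 3713564961) (nat_lit 76) (nat_lit 8234285607) (nat_lit 205) (nat_lit 5) (nat_lit 213) (nat_lit 5) (nat_lit 206) (nat_lit 5) (nat_lit 465) (nat_lit 398) (nat_lit 277)) (XT.lf (nat_lit 0) (nat_lit 3478649468) (nat_lit 608) (nat_lit 9112411143) (nat_lit 76) (nat_lit 258116148) (nat_lit 198) (nat_lit 5) (nat_lit 206) (nat_lit 5) (nat_lit 199) (nat_lit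 5) (nat_lit 466) (nat_lit 398) (nat_lit 276)))) (XT.nd (nat_lit 78) (nat_lit 988) (nat_lit 0) (XT.lf (nat_lit 0) (nat_lit 6294826584) (nat_lit 608) (nat_lit 1663642203) (nat_lit 76) (nat_lit 5039235159) (nat_lit 198) (nat_lit 5) (nat_lit 206) (nat_lit 5) (nat_lit 199) (nat_lit 5) (nat_lit 467) (nat_lit 398) (nat_lit 275)) (XT.nd (nat_lit 78) (nat_lit 456) (nat_lit 0) (XT.lf (nat_lit 0) (nat_lit 5990746786) (nat_lit 532) (nat_lit 3199148855) (nat_lit 608) (nat_lit 3958858778) (nat_lit 191) (nat_lit 5) (nat_lit 198) (nat_lit 5) (nat_lit 199) (nat_lit 5) (nat_lit 468) (nat_lit 398) (nat_lit 274)) (XT.lf (nat_lit 0) (nat_lit 491728285) (nat_lit 456) (nat_lit 11660130611) (nat_lit 532) (nat_lit 1150791182) (nat_lit 185) (nat_lit 5) (nat_lit 191) (nat_lit 5) (nat_lit 192) (nat_lit 5) (nat_lit 469) (nat_lit 398) (nat_lit 273)))))) (XT.nd (nat_lit 390) (nat_lit 1824) (nat_lit 0) (XT.nd (nat_lit 156) (nat_lit 456) (nat_lit 0)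 (XT.nd (nat_lit 78) (nat_lit 456) (nat_lit 0) (XT.lf (nat_lit 0) (nat_lit 1744383977) (nat_lit 532) (nat_lit 5121948812) (nat_lit 76) (nat_lit 6592003873) (nat_lit 184) (nat_lit 5) (nat_lit 191) (nat_lit 5) (nat_lit 185) (nat_lit 5) (nat_lit 470) (nat_lit 398) (nat_lit 272)) (XT.lf (nat_lit 0) (nat_lit 2727240802) (nat_lit 456) (nat_lit 1956730023) (nat_lit 532) (nat_lit 8932979473) (nat_lit 178) (nat_lit 5) (nat_lit 184) (nat_lit 5) (nat_lit 185) (nat_lit 5) (nat_lit 471) (nat_lit 398) (nat_lit 271))) (XT.nd (nat_lit 78) (nat_lit 456) (nat_lit 0) (XT.lf (nat_lit 0) (nat_lit 7721084698) (nat_lit 532) (nat_lit 3017087382) (nat_lit 76) (nat_lit 3039793144) (nat_lit 178) (nat_lit 5) (nat_lit 185) (nat_lit 5) (nat_lit 179) (nat_lit 5) (nat_lit 472) (nat_lit 398) (nat_lit 270)) (XT.nd (nat_lit 78) (nat_lit 0) (nat_lit 0) (XT.lf (nat_lit 0) (nat_lit 5044775155) (nat_lit 456) (nat_lit 5804512664) (nat_lit 532) (nat_lit 3092309343)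 (nat_lit 172) (nat_lit 5) (nat_lit 178) (nat_lit 5) (nat_lit 179) (nat_lit 5) (nat_lit 473) (nat_lit 398) (nat_lit 269)) (XT.lf (nat_lit 0) (nat_lit 13287496581) (nat_lit 456) (nat_lit 757602282) (nat_lit 532) (nat_lit 63305576) (nat_lit 172) (nat_lit 5) (nat_lit 178) (nat_lit 5) (nat_lit 179) (nat_lit 5) (nat_lit 474) (nat_lit 398) (nat_lit 268))))) (XT.nd (nat_lit 234) (nat_lit 912) (nat_lit 0) (XT.nd (nat_lit 78) (nat_lit 380) (nat_lit 0) (XT.lf (nat_lit 0) (nat_lit 3049023270) (nat_lit 532) (nat_lit 6832569333) (nat_lit 76) (nat_lit 4395317025) (nat_lit 165) (nat_lit 5) (nat_lit 172) (nat_lit 5) (nat_lit 166) (nat_lit 5) (nat_lit 475) (nat_lit 398) (nat_lit 267)) (XT.nd (nat_lit 78) (nat_lit 0) (nat_lit 0) (XT.lf (nat_lit 0) (nat_lit 1429436849) (nat_lit 380) (nat_lit 4798270758) (nat_lit 456) (nat_lit 8220973185) (nat_lit 160) (nat_lit 5) (nat_lit 165) (nat_lit 5) (nat_lit 166) (nat_lit 5) (nat_lit 476) (nat_lit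 398) (nat_lit 266)) (XT.lf (nat_lit 0) (nat_lit 9503857024) (nat_lit 456) (nat_lit 4697785821) (nat_lit 76) (nat_lit 421570014) (nat_lit 160) (nat_lit 5) (nat_lit 166) (nat_lit 5) (nat_lit 161) (nat_lit 5) (nat_lit 477) (nat_lit 398) (nat_lit 265)))) (XT.nd (nat_lit 78) (nat_lit 456) (nat_lit 0) (XT.lf (nat_lit 0) (nat_lit 3787109731) (nat_lit 456) (nat_lit 9100301211) (nat_lit 532) (nat_lit 1912990237) (nat_lit 154) (nat_lit 5) (nat_lit 160) (nat_lit 5) (nat_lit 161) (nat_lit 5) (nat_lit 478) (nat_lit 398) (nat_lit 264)) (XT.nd (nat_lit 78) (nat_lit 380) (nat_lit 0) (XT.lf (nat_lit 0) (nat_lit 1356999851) (nat_lit 532) (nat_lit 2505083686) (nat_lit 76) (nat_lit 11118530547) (nat_lit 153) (nat_lit 5) (nat_lit 160) (nat_lit 5) (nat_lit 154) (nat_lit 5) (nat_lit 479) (nat_lit 398) (nat_lit 263)) (XT.lf (nat_lit 0) (nat_lit 4702969700) (nat_lit 456) (nat_lit 8951893639) (nat_lit 76) (nat_lit 1508594169) (nat_lit 148) (nat_lit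 5) (nat_lit 154) (nat_lit 5) (nat_lit 149) (nat_lit 5) (nat_lit 480) (nat_lit 398) (nat_lit 262))))))))
noncomputable def xc142 : XT := (XT.nd (nat_lit 1716) (nat_lit 304) (nat_lit 0) (XT.nd (nat_lit 858) (nat_lit 2128) (nat_lit 0) (XT.nd (nat_lit 390) (nat_lit 1140) (nat_lit 0) (XT.nd (nat_lit 156) (nat_lit 836) (nat_lit 0) (XT.nd (nat_lit 78) (nat_lit 380) (nat_lit 0) (XT.lf (nat_lit 0) (nat_lit 8144311606) (nat_lit 456) (nat_lit 259445338) (nat_lit 76) (nat_lit 6945634798) (nat_lit 148) (nat_lit 5) (nat_lit 154) (nat_lit 5) (nat_lit 149) (nat_lit 5) (nat_lit 481) (nat_lit 398) (nat_lit 261)) (XT.lf (nat_lit 0) (nat_lit 8700731078) (nat_lit 380) (nat_lit 2996469786) (nat_lit 456) (nat_lit 3840992322) (nat_lit 143) (nat_lit 5) (nat_lit 148) (nat_lit 5) (nat_lit 149) (nat_lit 5) (nat_lit 482) (nat_lit 398) (nat_lit 260))) (XT.nd (nat_lit 78) (nat_lit 456) (nat_lit 0) (XT.lf (nat_lit 0) (nat_lit 2103784339) (nat_lit 380)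 (nat_lit 13235457167) (nat_lit 456) (nat_lit 391170162) (nat_lit 138) (nat_lit 5) (nat_lit 143) (nat_lit 5) (nat_lit 144) (nat_lit 5) (nat_lit 483) (nat_lit 398) (nat_lit 259)) (XT.nd (nat_lit 78) (nat_lit 380) (nat_lit 0) (XT.lf (nat_lit 0) (nat_lit 3139031402) (nat_lit 456) (nat_lit 4669855349) (nat_lit 76) (nat_lit 8116136344) (nat_lit 137) (nat_lit 5) (nat_lit 143) (nat_lit 5) (nat_lit 138) (nat_lit 5) (nat_lit 484) (nat_lit 398) (nat_lit 258)) (XT.lf (nat_lit 0) (nat_lit 4502529686) (nat_lit 380) (nat_lit 2247946704) (nat_lit 456) (nat_lit 9372683821) (nat_lit 132) (nat_lit 5) (nat_lit 137) (nat_lit 5) (nat_lit 138) (nat_lit 5) (nat_lit 485) (nat_lit 398) (nat_lit 257))))) (XT.nd (nat_lit 234) (nat_lit 684) (nat_lit 0) (XT.nd (nat_lit 78) (nat_lit 456) (nat_lit 0) (XT.lf (nat_lit 0) (nat_lit 10474656193) (nat_lit 456) (nat_lit 2445485655) (nat_lit 76) (nat_lit 3404310761) (nat_lit 132) (nat_lit 5) (nat_lit 138)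 (nat_lit 5) (nat_lit 133) (nat_lit 5) (nat_lit 486) (nat_lit 398) (nat_lit 256)) (XT.nd (nat_lit 78) (nat_lit 76) (nat_lit 0) (XT.lf (nat_lit 0) (nat_lit 6970005487) (nat_lit 380) (nat_lit 7350444224) (nat_lit 456) (nat_lit 2208381149) (nat_lit 127) (nat_lit 5) (nat_lit 132) (nat_lit 5) (nat_lit 133) (nat_lit 5) (nat_lit 487) (nat_lit 398) (nat_lit 255)) (XT.lf (nat_lit 0) (nat_lit 1489661423) (nat_lit 456) (nat_lit 159626372) (nat_lit 76) (nat_lit 15087744874) (nat_lit 126) (nat_lit 5) (nat_lit 132) (nat_lit 5) (nat_lit 127) (nat_lit 5) (nat_lit 488) (nat_lit 398) (nat_lit 254)))) (XT.nd (nat_lit 78) (nat_lit 304) (nat_lit 0) (XT.lf (nat_lit 0) (nat_lit 5308716856) (nat_lit 456) (nat_lit 7457211202) (nat_lit 76) (nat_lit 4181648520) (nat_lit 121) (nat_lit 5) (nat_lit 127) (nat_lit 5) (nat_lit 122) (nat_lit 5) (nat_lit 489) (nat_lit 398) (nat_lit 253)) (XT.nd (nat_lit 78) (nat_lit 0) (nat_lit 0) (XT.lf (nat_lit 0) (nat_lit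 2171333692) (nat_lit 304) (nat_lit 7046283549) (nat_lit 380) (nat_lit 7944447257) (nat_lit 117) (nat_lit 5) (nat_lit 121) (nat_lit 5) (nat_lit 122) (nat_lit 5) (nat_lit 490) (nat_lit 398) (nat_lit 252)) (XT.lf (nat_lit 0) (nat_lit 12074236737) (nat_lit 304) (nat_lit 1167988557) (nat_lit 380) (nat_lit 4137868651) (nat_lit 117) (nat_lit 5) (nat_lit 121) (nat_lit 5) (nat_lit 122) (nat_lit 5) (nat_lit 491) (nat_lit 398) (nat_lit 251)))))) (XT.nd (nat_lit 390) (nat_lit 1064) (nat_lit 0) (XT.nd (nat_lit 156) (nat_lit 608) (nat_lit 0) (XT.nd (nat_lit 78) (nat_lit 76) (nat_lit 0) (XT.lf (nat_lit 0) (nat_lit 4582343070) (nat_lit 380) (nat_lit 12813769791) (nat_lit 456) (nat_lit 205397687) (nat_lit 112) (nat_lit 5) (nat_lit 117) (nat_lit 5) (nat_lit 118) (nat_lit 5) (nat_lit 492) (nat_lit 398) (nat_lit 250)) (XT.lf (nat_lit 0) (nat_lit 3787110910) (nat_lit 456) (nat_lit 3138256669) (nat_lit 76) (nat_lit 10900869925) (nat_lit 111)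 (nat_lit 5) (nat_lit 117) (nat_lit 5) (nat_lit 112) (nat_lit 5) (nat_lit 493) (nat_lit 398) (nat_lit 249))) (XT.nd (nat_lit 78) (nat_lit 304) (nat_lit 0) (XT.lf (nat_lit 0) (nat_lit 7012089829) (nat_lit 304) (nat_lit 878125011) (nat_lit 380) (nat_lit 10164549280) (nat_lit 107) (nat_lit 5) (nat_lit 111) (nat_lit 5) (nat_lit 112) (nat_lit 5) (nat_lit 494) (nat_lit 398) (nat_lit 248)) (XT.nd (nat_lit 78) (nat_lit 304) (nat_lit 0) (XT.lf (nat_lit 0) (nat_lit 12118962993) (nat_lit 380) (nat_lit 932803225) (nat_lit 76) (nat_lit 5235225546) (nat_lit 107) (nat_lit 5) (nat_lit 112) (nat_lit 5) (nat_lit 108) (nat_lit 5) (nat_lit 495) (nat_lit 398) (nat_lit 247)) (XT.lf (nat_lit 0) (nat_lit 9479281922) (nat_lit 304) (nat_lit 7008636672) (nat_lit 380) (nat_lit 2034834814) (nat_lit 103) (nat_lit 5) (nat_lit 107) (nat_lit 5) (nat_lit 108) (nat_lit 5) (nat_lit 496) (nat_lit 398) (nat_lit 246))))) (XT.nd (nat_lit 234) (nat_lit 380)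 (nat_lit 0) (XT.nd (nat_lit 78) (nat_lit 304) (nat_lit 0) (XT.lf (nat_lit 0) (nat_lit 1333914250) (nat_lit 304) (nat_lit 821769019) (nat_lit 380) (nat_lit 16607200523) (nat_lit 98) (nat_lit 5) (nat_lit 102) (nat_lit 5) (nat_lit 103) (nat_lit 5) (nat_lit 497) (nat_lit 398) (nat_lit 245)) (XT.nd (nat_lit 78) (nat_lit 304) (nat_lit 0) (XT.lf (nat_lit 0) (nat_lit 6487884905) (nat_lit 380) (nat_lit 7033277323) (nat_lit 76) (nat_lit 5484685136) (nat_lit 98) (nat_lit 5) (nat_lit 103) (nat_lit 5) (nat_lit 99) (nat_lit 5) (nat_lit 498) (nat_lit 398) (nat_lit 244)) (XT.lf (nat_lit 0) (nat_lit 3593790539) (nat_lit 304) (nat_lit 7330312191) (nat_lit 380) (nat_lit 8329221969) (nat_lit 94) (nat_lit 5) (nat_lit 98) (nat_lit 5) (nat_lit 99) (nat_lit 5) (nat_lit 499) (nat_lit 398) (nat_lit 243)))) (XT.nd (nat_lit 78) (nat_lit 380) (nat_lit 0) (XT.lf (nat_lit 0) (nat_lit 14510628382) (nat_lit 304) (nat_lit 974316250) (nat_lit 380) (nat_lit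 4020090857) (nat_lit 94) (nat_lit 5) (nat_lit 98) (nat_lit 5) (nat_lit 99) (nat_lit 5) (nat_lit 500) (nat_lit 398) (nat_lit 242)) (XT.nd (nat_lit 78) (nat_lit 0) (nat_lit 0) (XT.lf (nat_lit 0) (nat_lit 433722214) (nat_lit 380) (nat_lit 13855572315) (nat_lit 76) (nat_lit 5471170656) (nat_lit 89) (nat_lit 5) (nat_lit 94) (nat_lit 5) (nat_lit 90) (nat_lit 5) (nat_lit 501) (nat_lit 398) (nat_lit 241)) (XT.lf (nat_lit 0) (nat_lit 4951930793) (nat_lit 380) (nat_lit 2981716758) (nat_lit 76) (nat_lit 12086243293) (nat_lit 89) (nat_lit 5) (nat_lit 94) (nat_lit 5) (nat_lit 90) (nat_lit 5) (nat_lit 502) (nat_lit 398) (nat_lit 240))))))) (XT.nd (nat_lit 51948) (nat_lit 0) (nat_lit 33516) (XT.nd (nat_lit 51480) (nat_lit 0) (nat_lit 35948) (XT.nd (nat_lit 51246) (nat_lit 0) (nat_lit 38152) (XT.nd (nat_lit 78) (nat_lit 0) (nat_lit 0) (XT.lf (nat_lit 0) (nat_lit 8199541193) (nat_lit 304) (nat_lit 1403325158) (nat_lit 380) (nat_lit 10680793164)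 (nat_lit 85) (nat_lit 5) (nat_lit 89) (nat_lit 5) (nat_lit 90) (nat_lit 5) (nat_lit 503) (nat_lit 398) (nat_lit 239)) (XT.lf (nat_lit 0) (nat_lit 14390279780) (nat_lit 380) (nat_lit 959400341) (nat_lit 76) (nat_lit 5202155977) (nat_lit 85) (nat_lit 5) (nat_lit 90) (nat_lit 5) (nat_lit 86) (nat_lit 5) (nat_lit 504) (nat_lit 398) (nat_lit 238))) (XT.nd (nat_lit 78) (nat_lit 0) (nat_lit 0) (XT.lf (nat_lit 0) (nat_lit 1642625550) (nat_lit 1140) (nat_lit 962573776) (nat_lit 1140) (nat_lit 962573776) (nat_lit 587) (nat_lit 3) (nat_lit 602) (nat_lit 3) (nat_lit 602) (nat_lit 5) (nat_lit 399) (nat_lit 399) (nat_lit 342)) (XT.nd (nat_lit 78) (nat_lit 0) (nat_lit 0) (XT.lf (nat_lit 76) (nat_lit 1531467637) (nat_lit 0) (nat_lit 3461506877) (nat_lit 1140) (nat_lit 2179665475) (nat_lit 588) (nat_lit 5) (nat_lit 587) (nat_lit 3) (nat_lit 602) (nat_lit 5) (nat_lit 400) (nat_lit 399) (nat_lit 341)) (XT.lf (nat_lit 76) (nat_lit 5060732324)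 (nat_lit 0) (nat_lit 1643220580) (nat_lit 1140) (nat_lit 507160779) (nat_lit 588) (nat_lit 5) (nat_lit 587) (nat_lit 3) (nat_lit 602) (nat_lit 5) (nat_lit 401) (nat_lit 399) (nat_lit 340))))) (XT.nd (nat_lit 234) (nat_lit 1140) (nat_lit 0) (XT.nd (nat_lit 78) (nat_lit 0) (nat_lit 0) (XT.lf (nat_lit 0) (nat_lit 1150503428) (nat_lit 1140) (nat_lit 5854474345) (nat_lit 1216) (nat_lit 245894044) (nat_lit 573) (nat_lit 5) (nat_lit 588) (nat_lit 5) (nat_lit 589) (nat_lit 5) (nat_lit 402) (nat_lit 399) (nat_lit 339)) (XT.nd (nat_lit 78) (nat_lit 0) (nat_lit 0) (XT.lf (nat_lit 0) (nat_lit 2817512851) (nat_lit 1140) (nat_lit 2285792624) (nat_lit 1216) (nat_lit 2188411826) (nat_lit 573) (nat_lit 5) (nat_lit 588) (nat_lit 5) (nat_lit 589) (nat_lit 5) (nat_lit 403) (nat_lit 399) (nat_lit 338)) (XT.lf (nat_lit 76) (nat_lit 1348834821) (nat_lit 0) (nat_lit 3136185618) (nat_lit 1216) (nat_lit 2849034617) (nat_lit 574) (nat_lit 5) (nat_lit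 573) (nat_lit 5) (nat_lit 589) (nat_lit 5) (nat_lit 404) (nat_lit 399) (nat_lit 337)))) (XT.nd (nat_lit 78) (nat_lit 1140) (nat_lit 0) (XT.lf (nat_lit 76) (nat_lit 5064173310) (nat_lit 0) (nat_lit 1096110753) (nat_lit 1216) (nat_lit 1217485542) (nat_lit 574) (nat_lit 5) (nat_lit 573) (nat_lit 5) (nat_lit 589) (nat_lit 5) (nat_lit 405) (nat_lit 399) (nat_lit 336)) (XT.nd (nat_lit 78) (nat_lit 0) (nat_lit 0) (XT.lf (nat_lit 0) (nat_lit 416255766) (nat_lit 1216) (nat_lit 6005360172) (nat_lit 1292) (nat_lit 1001193559) (nat_lit 558) (nat_lit 5) (nat_lit 574) (nat_lit 5) (nat_lit 575) (nat_lit 5) (nat_lit 406) (nat_lit 399) (nat_lit 335)) (XT.lf (nat_lit 0) (nat_lit 2049611610) (nat_lit 1216) (nat_lit 2253227447) (nat_lit 1292) (nat_lit 3166102452) (nat_lit 558) (nat_lit 5) (nat_lit 574) (nat_lit 5) (nat_lit 575) (nat_lit 5) (nat_lit 407) (nat_lit 399) (nat_lit 334)))))) (XT.nd (nat_lit 390) (nat_lit 1216) (nat_lit 0) (XT.nd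 (nat_lit 156) (nat_lit 1216) (nat_lit 0) (XT.nd (nat_lit 78) (nat_lit 0) (nat_lit 76) (XT.lf (nat_lit 76) (nat_lit 1571181329) (nat_lit 0) (nat_lit 2115771379) (nat_lit 1292) (nat_lit 3829633865) (nat_lit 559) (nat_lit 5) (nat_lit 558) (nat_lit 5) (nat_lit 575) (nat_lit 5) (nat_lit 408) (nat_lit 399) (nat_lit 333)) (XT.lf (nat_lit 0) (nat_lit 5334834377) (nat_lit 1216) (nat_lit 2087206555) (nat_lit 1292) (nat_lit 143604176) (nat_lit 559) (nat_lit 5) (nat_lit 575) (nat_lit 5) (nat_lit 576) (nat_lit 5) (nat_lit 409) (nat_lit 399) (nat_lit 332))) (XT.nd (nat_lit 78) (nat_lit 1292) (nat_lit 0) (XT.lf (nat_lit 76) (nat_lit 1834578973) (nat_lit 0) (nat_lit 5169592614) (nat_lit 1292) (nat_lit 611759392) (nat_lit 560) (nat_lit 5) (nat_lit 559) (nat_lit 5) (nat_lit 576) (nat_lit 5) (nat_lit 410) (nat_lit 399) (nat_lit 331)) (XT.nd (nat_lit 78) (nat_lit 0) (nat_lit 0) (XT.lf (nat_lit 0) (nat_lit 1003033201) (nat_lit 1292) (nat_lit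 1834671979) (nat_lit 1368) (nat_lit 4829857963) (nat_lit 542) (nat_lit 5) (nat_lit 559) (nat_lit 5) (nat_lit 560) (nat_lit 5) (nat_lit 411) (nat_lit 399) (nat_lit 330)) (XT.lf (nat_lit 76) (nat_lit 2192131260) (nat_lit 0) (nat_lit 427663586) (nat_lit 1368) (nat_lit 5100810132) (nat_lit 543) (nat_lit 5) (nat_lit 542) (nat_lit 5) (nat_lit 560) (nat_lit 5) (nat_lit 412) (nat_lit 399) (nat_lit 329))))) (XT.nd (nat_lit 234) (nat_lit 1292) (nat_lit 0) (XT.nd (nat_lit 78) (nat_lit 0) (nat_lit 0) (XT.lf (nat_lit 0) (nat_lit 4258735482) (nat_lit 1292) (nat_lit 1487553394) (nat_lit 1368) (nat_lit 2028636794) (nat_lit 543) (nat_lit 5) (nat_lit 560) (nat_lit 5) (nat_lit 561) (nat_lit 5) (nat_lit 413) (nat_lit 399) (nat_lit 328)) (XT.nd (nat_lit 78) (nat_lit 0) (nat_lit 0) (XT.lf (nat_lit 76) (nat_lit 2642314811) (nat_lit 0) (nat_lit 3273095382) (nat_lit 1368) (nat_lit 1915238078) (nat_lit 544) (nat_lit 5) (nat_lit 543) (nat_lit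 5) (nat_lit 561) (nat_lit 5) (nat_lit 414) (nat_lit 399) (nat_lit 327)) (XT.lf (nat_lit 76) (nat_lit 6851407683) (nat_lit 0) (nat_lit 729294476) (nat_lit 1368) (nat_lit 307287808) (nat_lit 544) (nat_lit 5) (nat_lit 543) (nat_lit 5) (nat_lit 561) (nat_lit 5) (nat_lit 415) (nat_lit 399) (nat_lit 326)))) (XT.nd (nat_lit 78) (nat_lit 0) (nat_lit 0) (XT.lf (nat_lit 0) (nat_lit 1314485210) (nat_lit 1368) (nat_lit 4750875473) (nat_lit 1444) (nat_lit 1880975624) (nat_lit 526) (nat_lit 5) (nat_lit 544) (nat_lit 5) (nat_lit 545) (nat_lit 5) (nat_lit 416) (nat_lit 399) (nat_lit 325)) (XT.nd (nat_lit 78) (nat_lit 0) (nat_lit 0) (XT.lf (nat_lit 0) (nat_lit 2942936835) (nat_lit 1368) (nat_lit 510562544) (nat_lit 1444) (nat_lit 4552755909) (nat_lit 526) (nat_lit 5) (nat_lit 544) (nat_lit 5) (nat_lit 545) (nat_lit 5) (nat_lit 417) (nat_lit 399) (nat_lit 324)) (XT.lf (nat_lit 76) (nat_lit 3841271687) (nat_lit 0) (nat_lit 754804358) (nat_lit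 1444) (nat_lit 3471467458) (nat_lit 527) (nat_lit 5) (nat_lit 526) (nat_lit 5) (nat_lit 545) (nat_lit 5) (nat_lit 418) (nat_lit 399) (nat_lit 323))))))))
noncomputable def xc143 : XT := (XT.nd (nat_lit 1716) (nat_lit 9196) (nat_lit 0) (XT.nd (nat_lit 858) (nat_lit 6460) (nat_lit 0) (XT.nd (nat_lit 390) (nat_lit 4864) (nat_lit 0) (XT.nd (nat_lit 156) (nat_lit 2812) (nat_lit 0) (XT.nd (nat_lit 78) (nat_lit 0) (nat_lit 0) (XT.lf (nat_lit 76) (nat_lit 121448012) (nat_lit 0) (nat_lit 6145765523) (nat_lit 1444) (nat_lit 1863158206) (nat_lit 528) (nat_lit 5) (nat_lit 527) (nat_lit 5) (nat_lit 546) (nat_lit 5) (nat_lit 419) (nat_lit 399) (nat_lit 322)) (XT.lf (nat_lit 76) (nat_lit 4584279605) (nat_lit 0) (nat_lit 3389023732) (nat_lit 1444) (nat_lit 221135326) (nat_lit 528) (nat_lit 5) (nat_lit 527) (nat_lit 5) (nat_lit 546) (nat_lit 5) (nat_lit 420) (nat_lit 399) (nat_lit 321))) (XT.nd (nat_lit 78) (nat_lit 1368) (nat_lit 0)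 (XT.lf (nat_lit 76) (nat_lit 854323695) (nat_lit 0) (nat_lit 554493205) (nat_lit 1520) (nat_lit 6851310377) (nat_lit 509) (nat_lit 5) (nat_lit 508) (nat_lit 5) (nat_lit 528) (nat_lit 5) (nat_lit 421) (nat_lit 399) (nat_lit 320)) (XT.nd (nat_lit 78) (nat_lit 1444) (nat_lit 0) (XT.lf (nat_lit 0) (nat_lit 3077082449) (nat_lit 1444) (nat_lit 2910950569) (nat_lit 76) (nat_lit 2338905884) (nat_lit 509) (nat_lit 5) (nat_lit 528) (nat_lit 5) (nat_lit 510) (nat_lit 5) (nat_lit 422) (nat_lit 399) (nat_lit 319)) (XT.lf (nat_lit 0) (nat_lit 1667942244) (nat_lit 1444) (nat_lit 3094992611) (nat_lit 1520) (nat_lit 3632479220) (nat_lit 490) (nat_lit 5) (nat_lit 509) (nat_lit 5) (nat_lit 510) (nat_lit 5) (nat_lit 423) (nat_lit 399) (nat_lit 318))))) (XT.nd (nat_lit 234) (nat_lit 3268) (nat_lit 0) (XT.nd (nat_lit 78) (nat_lit 1596) (nat_lit 0) (XT.lf (nat_lit 0) (nat_lit 6353969427) (nat_lit 1444) (nat_lit 118227446) (nat_lit 1520) (nat_lit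 1993279540) (nat_lit 490) (nat_lit 5) (nat_lit 509) (nat_lit 5) (nat_lit 510) (nat_lit 5) (nat_lit 424) (nat_lit 399) (nat_lit 317)) (XT.nd (nat_lit 78) (nat_lit 76) (nat_lit 0) (XT.lf (nat_lit 0) (nat_lit 2587701519) (nat_lit 1520) (nat_lit 5634471239) (nat_lit 1596) (nat_lit 314647956) (nat_lit 470) (nat_lit 5) (nat_lit 490) (nat_lit 5) (nat_lit 491) (nat_lit 5) (nat_lit 425) (nat_lit 399) (nat_lit 316)) (XT.lf (nat_lit 0) (nat_lit 1365270686) (nat_lit 1596) (nat_lit 1234048625) (nat_lit 76) (nat_lit 6010381092) (nat_lit 469) (nat_lit 5) (nat_lit 490) (nat_lit 5) (nat_lit 470) (nat_lit 5) (nat_lit 426) (nat_lit 399) (nat_lit 315)))) (XT.nd (nat_lit 78) (nat_lit 1672) (nat_lit 0) (XT.lf (nat_lit 0) (nat_lit 3072918252) (nat_lit 1672) (nat_lit 5090950179) (nat_lit 76) (nat_lit 520171421) (nat_lit 448) (nat_lit 5) (nat_lit 470) (nat_lit 5) (nat_lit 449) (nat_lit 5) (nat_lit 427) (nat_lit 399) (nat_lit 314)) (XT.nd (nat_lit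 78) (nat_lit 1672) (nat_lit 0) (XT.lf (nat_lit 0) (nat_lit 4812267067) (nat_lit 1672) (nat_lit 267742398) (nat_lit 76) (nat_lit 3679916088) (nat_lit 448) (nat_lit 5) (nat_lit 470) (nat_lit 5) (nat_lit 449) (nat_lit 5) (nat_lit 428) (nat_lit 399) (nat_lit 313)) (XT.lf (nat_lit 0) (nat_lit 4689639269) (nat_lit 1672) (nat_lit 1899759196) (nat_lit 1748) (nat_lit 2247880815) (nat_lit 426) (nat_lit 5) (nat_lit 448) (nat_lit 5) (nat_lit 449) (nat_lit 5) (nat_lit 429) (nat_lit 399) (nat_lit 312)))))) (XT.nd (nat_lit 390) (nat_lit 2584) (nat_lit 0) (XT.nd (nat_lit 156) (nat_lit 2052) (nat_lit 0) (XT.nd (nat_lit 78) (nat_lit 76) (nat_lit 0) (XT.lf (nat_lit 0) (nat_lit 811343167) (nat_lit 1748) (nat_lit 7579486881) (nat_lit 1824) (nat_lit 525584906) (nat_lit 403) (nat_lit 5) (nat_lit 426) (nat_lit 5) (nat_lit 427) (nat_lit 5) (nat_lit 430) (nat_lit 399) (nat_lit 311)) (XT.lf (nat_lit 0) (nat_lit 1228750661) (nat_lit 1824) (nat_lit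 3116027410) (nat_lit 76) (nat_lit 4651930225) (nat_lit 402) (nat_lit 5) (nat_lit 426) (nat_lit 5) (nat_lit 403) (nat_lit 5) (nat_lit 431) (nat_lit 399) (nat_lit 310))) (XT.nd (nat_lit 78) (nat_lit 912) (nat_lit 0) (XT.lf (nat_lit 0) (nat_lit 1971228919) (nat_lit 1140) (nat_lit 1026380394) (nat_lit 1216) (nat_lit 6081208676) (nat_lit 387) (nat_lit 5) (nat_lit 402) (nat_lit 5) (nat_lit 403) (nat_lit 5) (nat_lit 432) (nat_lit 399) (nat_lit 309)) (XT.nd (nat_lit 78) (nat_lit 912) (nat_lit 0) (XT.lf (nat_lit 0) (nat_lit 4812250921) (nat_lit 1216) (nat_lit 1999459994) (nat_lit 76) (nat_lit 2350660106) (nat_lit 387) (nat_lit 5) (nat_lit 403) (nat_lit 5) (nat_lit 388) (nat_lit 5) (nat_lit 433) (nat_lit 399) (nat_lit 308)) (XT.lf (nat_lit 0) (nat_lit 3222447827) (nat_lit 912) (nat_lit 3443010864) (nat_lit 988) (nat_lit 2582100034) (nat_lit 375) (nat_lit 5) (nat_lit 387) (nat_lit 5) (nat_lit 388) (nat_lit 5) (nat_lit 434) (nat_lit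 399) (nat_lit 307))))) (XT.nd (nat_lit 234) (nat_lit 836) (nat_lit 0) (XT.nd (nat_lit 78) (nat_lit 1748) (nat_lit 0) (XT.lf (nat_lit 0) (nat_lit 8544099965) (nat_lit 988) (nat_lit 782541402) (nat_lit 76) (nat_lit 8050331) (nat_lit 375) (nat_lit 5) (nat_lit 388) (nat_lit 5) (nat_lit 376) (nat_lit 5) (nat_lit 435) (nat_lit 399) (nat_lit 306)) (XT.nd (nat_lit 78) (nat_lit 836) (nat_lit 0) (XT.lf (nat_lit 0) (nat_lit 1051253369) (nat_lit 912) (nat_lit 4851547198) (nat_lit 76) (nat_lit 3520078618) (nat_lit 363) (nat_lit 5) (nat_lit 375) (nat_lit 5) (nat_lit 364) (nat_lit 5) (nat_lit 436) (nat_lit 399) (nat_lit 305)) (XT.lf (nat_lit 0) (nat_lit 507637264) (nat_lit 836) (nat_lit 2395864105) (nat_lit 912) (nat_lit 6609549884) (nat_lit 352) (nat_lit 5) (nat_lit 363) (nat_lit 5) (nat_lit 364) (nat_lit 5) (nat_lit 437) (nat_lit 399) (nat_lit 304)))) (XT.nd (nat_lit 78) (nat_lit 836) (nat_lit 0) (XT.lf (nat_lit 0) (nat_lit 4809123023)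 (nat_lit 912) (nat_lit 3596741542) (nat_lit 76) (nat_lit 1198843847) (nat_lit 352) (nat_lit 5) (nat_lit 364) (nat_lit 5) (nat_lit 353) (nat_lit 5) (nat_lit 438) (nat_lit 399) (nat_lit 303)) (XT.nd (nat_lit 78) (nat_lit 0) (nat_lit 0) (XT.lf (nat_lit 0) (nat_lit 1905453051) (nat_lit 836) (nat_lit 4852002413) (nat_lit 912) (nat_lit 2940659344) (nat_lit 341) (nat_lit 5) (nat_lit 352) (nat_lit 5) (nat_lit 353) (nat_lit 5) (nat_lit 439) (nat_lit 399) (nat_lit 302)) (XT.lf (nat_lit 0) (nat_lit 7542827718) (nat_lit 836) (nat_lit 1202733284) (nat_lit 912) (nat_lit 1047820106) (nat_lit 341) (nat_lit 5) (nat_lit 352) (nat_lit 5) (nat_lit 353) (nat_lit 5) (nat_lit 440) (nat_lit 399) (nat_lit 301))))))) (XT.nd (nat_lit 858) (nat_lit 3800) (nat_lit 0) (XT.nd (nat_lit 390) (nat_lit 2964) (nat_lit 0) (XT.nd (nat_lit 156) (nat_lit 1520) (nat_lit 0) (XT.nd (nat_lit 78) (nat_lit 0) (nat_lit 0) (XT.lf (nat_lit 0) (nat_lit 886998149) (nat_lit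 912) (nat_lit 6488979194) (nat_lit 76) (nat_lit 2514154317) (nat_lit 329) (nat_lit 5) (nat_lit 341) (nat_lit 5) (nat_lit 330) (nat_lit 5) (nat_lit 441) (nat_lit 399) (nat_lit 300)) (XT.lf (nat_lit 0) (nat_lit 2846928280) (nat_lit 912) (nat_lit 830893267) (nat_lit 76) (nat_lit 6310855686) (nat_lit 329) (nat_lit 5) (nat_lit 341) (nat_lit 5) (nat_lit 330) (nat_lit 5) (nat_lit 442) (nat_lit 399) (nat_lit 299))) (XT.nd (nat_lit 78) (nat_lit 760) (nat_lit 0) (XT.lf (nat_lit 0) (nat_lit 4856936827) (nat_lit 836) (nat_lit 5107427230) (nat_lit 76) (nat_lit 124619366) (nat_lit 319) (nat_lit 5) (nat_lit 330) (nat_lit 5) (nat_lit 320) (nat_lit 5) (nat_lit 443) (nat_lit 399) (nat_lit 298)) (XT.nd (nat_lit 78) (nat_lit 0) (nat_lit 0) (XT.lf (nat_lit 0) (nat_lit 691414774) (nat_lit 760) (nat_lit 6228179174) (nat_lit 836) (nat_lit 3271459980) (nat_lit 309) (nat_lit 5) (nat_lit 319) (nat_lit 5) (nat_lit 320) (nat_lit 5) (nat_lit 444)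 (nat_lit 399) (nat_lit 297)) (XT.lf (nat_lit 0) (nat_lit 6652028066) (nat_lit 760) (nat_lit 2384019249) (nat_lit 836) (nat_lit 1258874684) (nat_lit 309) (nat_lit 5) (nat_lit 319) (nat_lit 5) (nat_lit 320) (nat_lit 5) (nat_lit 445) (nat_lit 399) (nat_lit 296))))) (XT.nd (nat_lit 234) (nat_lit 1444) (nat_lit 0) (XT.nd (nat_lit 78) (nat_lit 760) (nat_lit 0) (XT.lf (nat_lit 0) (nat_lit 787347606) (nat_lit 760) (nat_lit 8077838441) (nat_lit 76) (nat_lit 1535509066) (nat_lit 299) (nat_lit 5) (nat_lit 309) (nat_lit 5) (nat_lit 300) (nat_lit 5) (nat_lit 446) (nat_lit 399) (nat_lit 295)) (XT.nd (nat_lit 78) (nat_lit 760) (nat_lit 0) (XT.lf (nat_lit 0) (nat_lit 2876855362) (nat_lit 760) (nat_lit 2098614039) (nat_lit 76) (nat_lit 5532570132) (nat_lit 299) (nat_lit 5) (nat_lit 309) (nat_lit 5) (nat_lit 300) (nat_lit 5) (nat_lit 447) (nat_lit 399) (nat_lit 294)) (XT.lf (nat_lit 0) (nat_lit 4029975245) (nat_lit 760) (nat_lit 983564631)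 (nat_lit 836) (nat_lit 5603889717) (nat_lit 289) (nat_lit 5) (nat_lit 299) (nat_lit 5) (nat_lit 300) (nat_lit 5) (nat_lit 448) (nat_lit 399) (nat_lit 293)))) (XT.nd (nat_lit 78) (nat_lit 1444) (nat_lit 0) (XT.lf (nat_lit 0) (nat_lit 7206648994) (nat_lit 836) (nat_lit 462608803) (nat_lit 76) (nat_lit 3059482196) (nat_lit 289) (nat_lit 5) (nat_lit 300) (nat_lit 5) (nat_lit 290) (nat_lit 5) (nat_lit 449) (nat_lit 399) (nat_lit 292)) (XT.nd (nat_lit 78) (nat_lit 760) (nat_lit 0) (XT.lf (nat_lit 0) (nat_lit 5831840100) (nat_lit 684) (nat_lit 3636025042) (nat_lit 760) (nat_lit 1373932794) (nat_lit 280) (nat_lit 5) (nat_lit 289) (nat_lit 5) (nat_lit 290) (nat_lit 5) (nat_lit 450) (nat_lit 399) (nat_lit 291)) (XT.lf (nat_lit 0) (nat_lit 801142717) (nat_lit 760) (nat_lit 9670383174) (nat_lit 76) (nat_lit 485597588) (nat_lit 270) (nat_lit 5) (nat_lit 280) (nat_lit 5) (nat_lit 271) (nat_lit 5) (nat_lit 451) (nat_lit 399) (nat_lit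 290)))))) (XT.nd (nat_lit 390) (nat_lit 1824) (nat_lit 0) (XT.nd (nat_lit 156) (nat_lit 1368) (nat_lit 0) (XT.nd (nat_lit 78) (nat_lit 608) (nat_lit 0) (XT.lf (nat_lit 0) (nat_lit 3039462778) (nat_lit 760) (nat_lit 3353418155) (nat_lit 76) (nat_lit 4680936039) (nat_lit 270) (nat_lit 5) (nat_lit 280) (nat_lit 5) (nat_lit 271) (nat_lit 5) (nat_lit 452) (nat_lit 399) (nat_lit 289)) (XT.lf (nat_lit 0) (nat_lit 3107884324) (nat_lit 608) (nat_lit 2215432641) (nat_lit 684) (nat_lit 5869517773) (nat_lit 262) (nat_lit 5) (nat_lit 270) (nat_lit 5) (nat_lit 271) (nat_lit 5) (nat_lit 453) (nat_lit 399) (nat_lit 288))) (XT.nd (nat_lit 78) (nat_lit 1368) (nat_lit 0) (XT.lf (nat_lit 0) (nat_lit 7669582388) (nat_lit 684) (nat_lit 1606323093) (nat_lit 76) (nat_lit 2037998341) (nat_lit 262) (nat_lit 5) (nat_lit 271) (nat_lit 5) (nat_lit 263) (nat_lit 5) (nat_lit 454) (nat_lit 399) (nat_lit 287)) (XT.nd (nat_lit 78) (nat_lit 684) (nat_lit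 0) (XT.lf (nat_lit 0) (nat_lit 5030654121) (nat_lit 684) (nat_lit 5060630295) (nat_lit 760) (nat_lit 1345545177) (nat_lit 253) (nat_lit 5) (nat_lit 262) (nat_lit 5) (nat_lit 263) (nat_lit 5) (nat_lit 455) (nat_lit 399) (nat_lit 286)) (XT.lf (nat_lit 0) (nat_lit 234022230) (nat_lit 608) (nat_lit 745722139) (nat_lit 684) (nat_lit 10582472230) (nat_lit 244) (nat_lit 5) (nat_lit 252) (nat_lit 5) (nat_lit 253) (nat_lit 5) (nat_lit 456) (nat_lit 399) (nat_lit 285))))) (XT.nd (nat_lit 234) (nat_lit 1216) (nat_lit 0) (XT.nd (nat_lit 78) (nat_lit 608) (nat_lit 0) (XT.lf (nat_lit 0) (nat_lit 3382014860) (nat_lit 684) (nat_lit 4651155125) (nat_lit 76) (nat_lit 3655798854) (nat_lit 244) (nat_lit 5) (nat_lit 253) (nat_lit 5) (nat_lit 245) (nat_lit 5) (nat_lit 457) (nat_lit 399) (nat_lit 284)) (XT.nd (nat_lit 78) (nat_lit 0) (nat_lit 0) (XT.lf (nat_lit 0) (nat_lit 2160433148) (nat_lit 608) (nat_lit 3672694337) (nat_lit 684) (nat_lit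 5985117816) (nat_lit 236) (nat_lit 5) (nat_lit 244) (nat_lit 5) (nat_lit 245) (nat_lit 5) (nat_lit 458) (nat_lit 399) (nat_lit 283)) (XT.lf (nat_lit 0) (nat_lit 8351727764) (nat_lit 684) (nat_lit 2805997414) (nat_lit 76) (nat_lit 792017819) (nat_lit 236) (nat_lit 5) (nat_lit 245) (nat_lit 5) (nat_lit 237) (nat_lit 5) (nat_lit 459) (nat_lit 399) (nat_lit 282)))) (XT.nd (nat_lit 78) (nat_lit 684) (nat_lit 0) (XT.lf (nat_lit 0) (nat_lit 4191367641) (nat_lit 532) (nat_lit 6763235911) (nat_lit 608) (nat_lit 1128593939) (nat_lit 229) (nat_lit 5) (nat_lit 236) (nat_lit 5) (nat_lit 237) (nat_lit 5) (nat_lit 460) (nat_lit 399) (nat_lit 281)) (XT.nd (nat_lit 78) (nat_lit 608) (nat_lit 0) (XT.lf (nat_lit 0) (nat_lit 1373387942) (nat_lit 608) (nat_lit 883605718) (nat_lit 76) (nat_lit 9962123511) (nat_lit 228) (nat_lit 5) (nat_lit 236) (nat_lit 5) (nat_lit 229) (nat_lit 5) (nat_lit 461) (nat_lit 399) (nat_lit 280)) (XT.lf (nat_lit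 0) (nat_lit 3949609806) (nat_lit 684) (nat_lit 6054229238) (nat_lit 76) (nat_lit 2352985389) (nat_lit 220) (nat_lit 5) (nat_lit 229) (nat_lit 5) (nat_lit 221) (nat_lit 5) (nat_lit 462) (nat_lit 399) (nat_lit 279))))))))
noncomputable def xc144 : XT := (XT.nd (nat_lit 1638) (nat_lit 4408) (nat_lit 0) (XT.nd (nat_lit 780) (nat_lit 2660) (nat_lit 0) (XT.nd (nat_lit 390) (nat_lit 1520) (nat_lit 0) (XT.nd (nat_lit 156) (nat_lit 1140) (nat_lit 0) (XT.nd (nat_lit 78) (nat_lit 0) (nat_lit 0) (XT.lf (nat_lit 0) (nat_lit 1125138750) (nat_lit 532) (nat_lit 5463399676) (nat_lit 608) (nat_lit 5908528305) (nat_lit 213) (nat_lit 5) (nat_lit 220) (nat_lit 5) (nat_lit 221) (nat_lit 5) (nat_lit 463) (nat_lit 399) (nat_lit 278)) (XT.lf (nat_lit 0) (nat_lit 8508343470) (nat_lit 532) (nat_lit 795683119) (nat_lit 608) (nat_lit 3335616118) (nat_lit 213) (nat_lit 5) (nat_lit 220) (nat_lit 5) (nat_lit 221) (nat_lit 5) (nat_lit 464) (nat_lit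 399) (nat_lit 277))) (XT.nd (nat_lit 78) (nat_lit 608) (nat_lit 0) (XT.lf (nat_lit 0) (nat_lit 3249319010) (nat_lit 532) (nat_lit 8854800745) (nat_lit 608) (nat_lit 680348908) (nat_lit 206) (nat_lit 5) (nat_lit 213) (nat_lit 5) (nat_lit 214) (nat_lit 5) (nat_lit 465) (nat_lit 399) (nat_lit 276)) (XT.nd (nat_lit 78) (nat_lit 532) (nat_lit 0) (XT.lf (nat_lit 0) (nat_lit 2018126500) (nat_lit 608) (nat_lit 2138479473) (nat_lit 76) (nat_lit 8774991997) (nat_lit 205) (nat_lit 5) (nat_lit 213) (nat_lit 5) (nat_lit 206) (nat_lit 5) (nat_lit 466) (nat_lit 399) (nat_lit 275)) (XT.lf (nat_lit 0) (nat_lit 4785071135) (nat_lit 608) (nat_lit 7633782521) (nat_lit 76) (nat_lit 662258186) (nat_lit 198) (nat_lit 5) (nat_lit 206) (nat_lit 5) (nat_lit 199) (nat_lit 5) (nat_lit 467) (nat_lit 399) (nat_lit 274))))) (XT.nd (nat_lit 156) (nat_lit 988) (nat_lit 0) (XT.nd (nat_lit 78) (nat_lit 532) (nat_lit 0) (XT.lf (nat_lit 0) (nat_lit 7633319857)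 (nat_lit 608) (nat_lit 68604415) (nat_lit 76) (nat_lit 5531176445) (nat_lit 198) (nat_lit 5) (nat_lit 206) (nat_lit 5) (nat_lit 199) (nat_lit 5) (nat_lit 468) (nat_lit 399) (nat_lit 273)) (XT.lf (nat_lit 0) (nat_lit 7728159783) (nat_lit 532) (nat_lit 2844856625) (nat_lit 608) (nat_lit 2814427257) (nat_lit 191) (nat_lit 5) (nat_lit 198) (nat_lit 5) (nat_lit 199) (nat_lit 5) (nat_lit 469) (nat_lit 399) (nat_lit 272))) (XT.nd (nat_lit 78) (nat_lit 456) (nat_lit 0) (XT.lf (nat_lit 0) (nat_lit 38793538) (nat_lit 532) (nat_lit 11414936919) (nat_lit 76) (nat_lit 2090893168) (nat_lit 184) (nat_lit 5) (nat_lit 191) (nat_lit 5) (nat_lit 185) (nat_lit 5) (nat_lit 470) (nat_lit 399) (nat_lit 271)) (XT.nd (nat_lit 78) (nat_lit 456) (nat_lit 0) (XT.lf (nat_lit 0) (nat_lit 2953002886) (nat_lit 532) (nat_lit 3612052321) (nat_lit 76) (nat_lit 7138691447) (nat_lit 184) (nat_lit 5) (nat_lit 191) (nat_lit 5) (nat_lit 185) (nat_lit 5) (nat_lit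 471) (nat_lit 399) (nat_lit 270)) (XT.lf (nat_lit 0) (nat_lit 4383513615) (nat_lit 456) (nat_lit 1555252999) (nat_lit 532) (nat_lit 7927023778) (nat_lit 178) (nat_lit 5) (nat_lit 184) (nat_lit 5) (nat_lit 185) (nat_lit 5) (nat_lit 472) (nat_lit 399) (nat_lit 269)))))) (XT.nd (nat_lit 390) (nat_lit 1292) (nat_lit 0) (XT.nd (nat_lit 156) (nat_lit 912) (nat_lit 0) (XT.nd (nat_lit 78) (nat_lit 456) (nat_lit 0) (XT.lf (nat_lit 0) (nat_lit 9016660426) (nat_lit 532) (nat_lit 1486874065) (nat_lit 76) (nat_lit 3526895795) (nat_lit 178) (nat_lit 5) (nat_lit 185) (nat_lit 5) (nat_lit 179) (nat_lit 5) (nat_lit 473) (nat_lit 399) (nat_lit 268)) (XT.lf (nat_lit 0) (nat_lit 6725761545) (nat_lit 456) (nat_lit 5469549494) (nat_lit 532) (nat_lit 2002271472) (nat_lit 172) (nat_lit 5) (nat_lit 178) (nat_lit 5) (nat_lit 179) (nat_lit 5) (nat_lit 474) (nat_lit 399) (nat_lit 267))) (XT.nd (nat_lit 78) (nat_lit 380) (nat_lit 0) (XT.lf (nat_lit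 0) (nat_lit 736933421) (nat_lit 456) (nat_lit 318613567) (nat_lit 532) (nat_lit 13312392967) (nat_lit 165) (nat_lit 5) (nat_lit 171) (nat_lit 5) (nat_lit 172) (nat_lit 5) (nat_lit 475) (nat_lit 399) (nat_lit 266)) (XT.nd (nat_lit 78) (nat_lit 380) (nat_lit 0) (XT.lf (nat_lit 0) (nat_lit 4215656281) (nat_lit 532) (nat_lit 5395960425) (nat_lit 76) (nat_lit 4928467552) (nat_lit 165) (nat_lit 5) (nat_lit 172) (nat_lit 5) (nat_lit 166) (nat_lit 5) (nat_lit 476) (nat_lit 399) (nat_lit 265)) (XT.lf (nat_lit 0) (nat_lit 3020935484) (nat_lit 380) (nat_lit 4425446807) (nat_lit 456) (nat_lit 7269144107) (nat_lit 160) (nat_lit 5) (nat_lit 165) (nat_lit 5) (nat_lit 166) (nat_lit 5) (nat_lit 477) (nat_lit 399) (nat_lit 264))))) (XT.nd (nat_lit 234) (nat_lit 760) (nat_lit 0) (XT.nd (nat_lit 78) (nat_lit 532) (nat_lit 0) (XT.lf (nat_lit 0) (nat_lit 10769585364) (nat_lit 456) (nat_lit 3240766815) (nat_lit 76) (nat_lit 883571129) (nat_lit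 160) (nat_lit 5) (nat_lit 166) (nat_lit 5) (nat_lit 161) (nat_lit 5) (nat_lit 478) (nat_lit 399) (nat_lit 263)) (XT.nd (nat_lit 78) (nat_lit 76) (nat_lit 0) (XT.lf (nat_lit 0) (nat_lit 5403622867) (nat_lit 456) (nat_lit 8806100001) (nat_lit 532) (nat_lit 865158999) (nat_lit 154) (nat_lit 5) (nat_lit 160) (nat_lit 5) (nat_lit 161) (nat_lit 5) (nat_lit 479) (nat_lit 399) (nat_lit 262)) (XT.lf (nat_lit 0) (nat_lit 2434970009) (nat_lit 532) (nat_lit 1030433739) (nat_lit 76) (nat_lit 11793579120) (nat_lit 153) (nat_lit 5) (nat_lit 160) (nat_lit 5) (nat_lit 154) (nat_lit 5) (nat_lit 480) (nat_lit 399) (nat_lit 261)))) (XT.nd (nat_lit 78) (nat_lit 380) (nat_lit 0) (XT.lf (nat_lit 0) (nat_lit 5840171119) (nat_lit 456) (nat_lit 7598269308) (nat_lit 76) (nat_lit 2007200943) (nat_lit 148) (nat_lit 5) (nat_lit 154) (nat_lit 5) (nat_lit 149) (nat_lit 5) (nat_lit 481) (nat_lit 399) (nat_lit 260)) (XT.nd (nat_lit 78) (nat_lit 0) (nat_lit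 0) (XT.lf (nat_lit 0) (nat_lit 1254427804) (nat_lit 380) (nat_lit 8083602870) (nat_lit 456) (nat_lit 6297514160) (nat_lit 143) (nat_lit 5) (nat_lit 148) (nat_lit 5) (nat_lit 149) (nat_lit 5) (nat_lit 482) (nat_lit 399) (nat_lit 259)) (XT.lf (nat_lit 0) (nat_lit 10367470111) (nat_lit 380) (nat_lit 2576002077) (nat_lit 456) (nat_lit 2885024508) (nat_lit 143) (nat_lit 5) (nat_lit 148) (nat_lit 5) (nat_lit 149) (nat_lit 5) (nat_lit 483) (nat_lit 399) (nat_lit 258))))))) (XT.nd (nat_lit 858) (nat_lit 1976) (nat_lit 0) (XT.nd (nat_lit 390) (nat_lit 1216) (nat_lit 0) (XT.nd (nat_lit 156) (nat_lit 760) (nat_lit 0) (XT.nd (nat_lit 78) (nat_lit 0) (nat_lit 0) (XT.lf (nat_lit 0) (nat_lit 618379123) (nat_lit 456) (nat_lit 12382781966) (nat_lit 76) (nat_lit 3023462319) (nat_lit 137) (nat_lit 5) (nat_lit 143) (nat_lit 5) (nat_lit 138) (nat_lit 5) (nat_lit 484) (nat_lit 399) (nat_lit 257)) (XT.lf (nat_lit 0) (nat_lit 4194105968) (nat_lit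 456) (nat_lit 3279147183) (nat_lit 76) (nat_lit 8750223051) (nat_lit 137) (nat_lit 5) (nat_lit 143) (nat_lit 5) (nat_lit 138) (nat_lit 5) (nat_lit 485) (nat_lit 399) (nat_lit 256))) (XT.nd (nat_lit 78) (nat_lit 380) (nat_lit 0) (XT.lf (nat_lit 0) (nat_lit 6066921703) (nat_lit 380) (nat_lit 1800973811) (nat_lit 456) (nat_lit 8557882183) (nat_lit 132) (nat_lit 5) (nat_lit 137) (nat_lit 5) (nat_lit 138) (nat_lit 5) (nat_lit 486) (nat_lit 399) (nat_lit 255)) (XT.nd (nat_lit 78) (nat_lit 380) (nat_lit 0) (XT.lf (nat_lit 0) (nat_lit 11650427301) (nat_lit 456) (nat_lit 1032637335) (nat_lit 76) (nat_lit 3948357812) (nat_lit 132) (nat_lit 5) (nat_lit 138) (nat_lit 5) (nat_lit 133) (nat_lit 5) (nat_lit 487) (nat_lit 399) (nat_lit 254)) (XT.lf (nat_lit 0) (nat_lit 8561546801) (nat_lit 380) (nat_lit 7002071526) (nat_lit 456) (nat_lit 1276464102) (nat_lit 127) (nat_lit 5) (nat_lit 132) (nat_lit 5) (nat_lit 133) (nat_lit 5) (nat_lit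 488) (nat_lit 399) (nat_lit 253))))) (XT.nd (nat_lit 234) (nat_lit 456) (nat_lit 0) (XT.nd (nat_lit 78) (nat_lit 304) (nat_lit 0) (XT.lf (nat_lit 0) (nat_lit 1290507179) (nat_lit 380) (nat_lit 1181721539) (nat_lit 456) (nat_lit 14580306638) (nat_lit 121) (nat_lit 5) (nat_lit 126) (nat_lit 5) (nat_lit 127) (nat_lit 5) (nat_lit 489) (nat_lit 399) (nat_lit 252)) (XT.nd (nat_lit 78) (nat_lit 304) (nat_lit 0) (XT.lf (nat_lit 0) (nat_lit 6353226736) (nat_lit 456) (nat_lit 6163715978) (nat_lit 76) (nat_lit 4750639779) (nat_lit 121) (nat_lit 5) (nat_lit 127) (nat_lit 5) (nat_lit 122) (nat_lit 5) (nat_lit 490) (nat_lit 399) (nat_lit 251)) (XT.lf (nat_lit 0) (nat_lit 3647908765) (nat_lit 304) (nat_lit 6683302578) (nat_lit 380) (nat_lit 7155334212) (nat_lit 117) (nat_lit 5) (nat_lit 121) (nat_lit 5) (nat_lit 122) (nat_lit 5) (nat_lit 491) (nat_lit 399) (nat_lit 250)))) (XT.nd (nat_lit 78) (nat_lit 456) (nat_lit 0) (XT.lf (nat_lit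 0) (nat_lit 13720768921) (nat_lit 304) (nat_lit 697322209) (nat_lit 380) (nat_lit 3291212308) (nat_lit 117) (nat_lit 5) (nat_lit 121) (nat_lit 5) (nat_lit 122) (nat_lit 5) (nat_lit 492) (nat_lit 399) (nat_lit 249)) (XT.nd (nat_lit 78) (nat_lit 0) (nat_lit 0) (XT.lf (nat_lit 0) (nat_lit 704868128) (nat_lit 456) (nat_lit 11855021611) (nat_lit 76) (nat_lit 5375280423) (nat_lit 111) (nat_lit 5) (nat_lit 117) (nat_lit 5) (nat_lit 112) (nat_lit 5) (nat_lit 493) (nat_lit 399) (nat_lit 248)) (XT.lf (nat_lit 0) (nat_lit 4756604173) (nat_lit 456) (nat_lit 1805758109) (nat_lit 76) (nat_lit 11602362912) (nat_lit 111) (nat_lit 5) (nat_lit 117) (nat_lit 5) (nat_lit 112) (nat_lit 5) (nat_lit 494) (nat_lit 399) (nat_lit 247)))))) (XT.nd (nat_lit 390) (nat_lit 988) (nat_lit 0) (XT.nd (nat_lit 156) (nat_lit 380) (nat_lit 0) (XT.nd (nat_lit 78) (nat_lit 304) (nat_lit 0) (XT.lf (nat_lit 0) (nat_lit 8538415954) (nat_lit 304) (nat_lit 394829076)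 (nat_lit 380) (nat_lit 9464750991) (nat_lit 107) (nat_lit 5) (nat_lit 111) (nat_lit 5) (nat_lit 112) (nat_lit 5) (nat_lit 495) (nat_lit 399) (nat_lit 246)) (XT.lf (nat_lit 0) (nat_lit 427377016) (nat_lit 304) (nat_lit 12807796716) (nat_lit 380) (nat_lit 5399925489) (nat_lit 103) (nat_lit 5) (nat_lit 107) (nat_lit 5) (nat_lit 108) (nat_lit 5) (nat_lit 496) (nat_lit 399) (nat_lit 245))) (XT.nd (nat_lit 78) (nat_lit 380) (nat_lit 0) (XT.lf (nat_lit 0) (nat_lit 11033064325) (nat_lit 304) (nat_lit 6647447034) (nat_lit 380) (nat_lit 1195287735) (nat_lit 103) (nat_lit 5) (nat_lit 107) (nat_lit 5) (nat_lit 108) (nat_lit 5) (nat_lit 497) (nat_lit 399) (nat_lit 244)) (XT.nd (nat_lit 78) (nat_lit 0) (nat_lit 0) (XT.lf (nat_lit 0) (nat_lit 2727431641) (nat_lit 304) (nat_lit 331905622) (nat_lit 380) (nat_lit 16061446634) (nat_lit 98) (nat_lit 5) (nat_lit 102) (nat_lit 5) (nat_lit 103) (nat_lit 5) (nat_lit 498) (nat_lit 399) (nat_lit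 243)) (XT.lf (nat_lit 0) (nat_lit 7464532363) (nat_lit 380) (nat_lit 5820110075) (nat_lit 76) (nat_lit 6084240190) (nat_lit 98) (nat_lit 5) (nat_lit 103) (nat_lit 5) (nat_lit 99) (nat_lit 5) (nat_lit 499) (nat_lit 399) (nat_lit 242))))) (XT.nd (nat_lit 234) (nat_lit 304) (nat_lit 0) (XT.nd (nat_lit 78) (nat_lit 380) (nat_lit 0) (XT.lf (nat_lit 0) (nat_lit 5010592349) (nat_lit 304) (nat_lit 6971008666) (nat_lit 380) (nat_lit 7639868788) (nat_lit 94) (nat_lit 5) (nat_lit 98) (nat_lit 5) (nat_lit 99) (nat_lit 5) (nat_lit 500) (nat_lit 399) (nat_lit 241)) (XT.nd (nat_lit 78) (nat_lit 380) (nat_lit 0) (XT.lf (nat_lit 0) (nat_lit 16119395851) (nat_lit 304) (nat_lit 497812605) (nat_lit 380) (nat_lit 3261338144) (nat_lit 94) (nat_lit 5) (nat_lit 98) (nat_lit 5) (nat_lit 99) (nat_lit 5) (nat_lit 501) (nat_lit 399) (nat_lit 240)) (XT.lf (nat_lit 0) (nat_lit 1266133109) (nat_lit 380) (nat_lit 12798442263) (nat_lit 76) (nat_lit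 6074491458) (nat_lit 89) (nat_lit 5) (nat_lit 94) (nat_lit 5) (nat_lit 90) (nat_lit 5) (nat_lit 502) (nat_lit 399) (nat_lit 239)))) (XT.nd (nat_lit 78) (nat_lit 304) (nat_lit 0) (XT.lf (nat_lit 0) (nat_lit 5858554165) (nat_lit 380) (nat_lit 1733271193) (nat_lit 76) (nat_lit 12812181285) (nat_lit 89) (nat_lit 5) (nat_lit 94) (nat_lit 5) (nat_lit 90) (nat_lit 5) (nat_lit 503) (nat_lit 399) (nat_lit 238)) (XT.nd (nat_lit 51246) (nat_lit 0) (nat_lit 38152) (XT.lf (nat_lit 0) (nat_lit 9663006128) (nat_lit 304) (nat_lit 932104359) (nat_lit 380) (nat_lit 10078090715) (nat_lit 85) (nat_lit 5) (nat_lit 89) (nat_lit 5) (nat_lit 90) (nat_lit 5) (nat_lit 504) (nat_lit 399) (nat_lit 237)) (XT.lf (nat_lit 0) (nat_lit 3329595846) (nat_lit 1140) (nat_lit 137845532) (nat_lit 1140) (nat_lit 137845532) (nat_lit 587) (nat_lit 3) (nat_lit 602) (nat_lit 3) (nat_lit 602) (nat_lit 5) (nat_lit 400) (nat_lit 400) (nat_lit 340))))))))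
noncomputable def xc145 : XT := (XT.nd (nat_lit 1716) (nat_lit 14364) (nat_lit 0) (XT.nd (nat_lit 858) (nat_lit 2508) (nat_lit 0) (XT.nd (nat_lit 390) (nat_lit 1216) (nat_lit 0) (XT.nd (nat_lit 156) (nat_lit 1140) (nat_lit 0) (XT.nd (nat_lit 78) (nat_lit 0) (nat_lit 0) (XT.lf (nat_lit 0) (nat_lit 1083175768) (nat_lit 1140) (nat_lit 4017693581) (nat_lit 1216) (nat_lit 2148506985) (nat_lit 572) (nat_lit 5) (nat_lit 587) (nat_lit 3) (nat_lit 588) (nat_lit 5) (nat_lit 401) (nat_lit 400) (nat_lit 339)) (XT.lf (nat_lit 0) (nat_lit 2702496337) (nat_lit 1140) (nat_lit 501925063) (nat_lit 1216) (nat_lit 4085290405) (nat_lit 572) (nat_lit 5) (nat_lit 587) (nat_lit 3) (nat_lit 588) (nat_lit 5) (nat_lit 402) (nat_lit 400) (nat_lit 338))) (XT.nd (nat_lit 78) (nat_lit 1140) (nat_lit 0) (XT.lf (nat_lit 76) (nat_lit 3103007790) (nat_lit 0) (nat_lit 1229759308) (nat_lit 1216) (nat_lit 2998534134) (nat_lit 573) (nat_lit 5) (nat_lit 572)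 (nat_lit 5) (nat_lit 588) (nat_lit 5) (nat_lit 403) (nat_lit 400) (nat_lit 337)) (XT.nd (nat_lit 78) (nat_lit 1216) (nat_lit 0) (XT.lf (nat_lit 0) (nat_lit 5963342705) (nat_lit 1140) (nat_lit 614592004) (nat_lit 1216) (nat_lit 796451906) (nat_lit 573) (nat_lit 5) (nat_lit 588) (nat_lit 5) (nat_lit 589) (nat_lit 5) (nat_lit 404) (nat_lit 400) (nat_lit 336)) (XT.lf (nat_lit 0) (nat_lit 193536266) (nat_lit 1216) (nat_lit 4338428951) (nat_lit 1292) (nat_lit 2886597491) (nat_lit 557) (nat_lit 5) (nat_lit 573) (nat_lit 5) (nat_lit 574) (nat_lit 5) (nat_lit 405) (nat_lit 400) (nat_lit 335))))) (XT.nd (nat_lit 234) (nat_lit 1216) (nat_lit 0) (XT.nd (nat_lit 78) (nat_lit 0) (nat_lit 0) (XT.lf (nat_lit 0) (nat_lit 1775862093) (nat_lit 1216) (nat_lit 638444707) (nat_lit 1292) (nat_lit 5049855135) (nat_lit 557) (nat_lit 5) (nat_lit 573) (nat_lit 5) (nat_lit 574) (nat_lit 5) (nat_lit 406) (nat_lit 400) (nat_lit 334)) (XT.nd (nat_lit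 78) (nat_lit 0) (nat_lit 76) (XT.lf (nat_lit 76) (nat_lit 3154739805) (nat_lit 0) (nat_lit 216732897) (nat_lit 1292) (nat_lit 4139584454) (nat_lit 558) (nat_lit 5) (nat_lit 557) (nat_lit 5) (nat_lit 574) (nat_lit 5) (nat_lit 407) (nat_lit 400) (nat_lit 333)) (XT.lf (nat_lit 0) (nat_lit 4978333889) (nat_lit 1216) (nat_lit 562451606) (nat_lit 1292) (nat_lit 2018534464) (nat_lit 558) (nat_lit 5) (nat_lit 574) (nat_lit 5) (nat_lit 575) (nat_lit 5) (nat_lit 408) (nat_lit 400) (nat_lit 332)))) (XT.nd (nat_lit 78) (nat_lit 1292) (nat_lit 0) (XT.lf (nat_lit 76) (nat_lit 3327025343) (nat_lit 0) (nat_lit 3275970388) (nat_lit 1292) (nat_lit 1005855141) (nat_lit 559) (nat_lit 5) (nat_lit 558) (nat_lit 5) (nat_lit 575) (nat_lit 5) (nat_lit 409) (nat_lit 400) (nat_lit 331)) (XT.nd (nat_lit 78) (nat_lit 0) (nat_lit 76) (XT.lf (nat_lit 0) (nat_lit 559653987) (nat_lit 1292) (nat_lit 384131883) (nat_lit 1368) (nat_lit 6716188920) (nat_lit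 541) (nat_lit 5) (nat_lit 558) (nat_lit 5) (nat_lit 559) (nat_lit 5) (nat_lit 410) (nat_lit 400) (nat_lit 330)) (XT.lf (nat_lit 0) (nat_lit 2139743836) (nat_lit 1292) (nat_lit 4112047845) (nat_lit 1368) (nat_lit 1460276945) (nat_lit 542) (nat_lit 5) (nat_lit 559) (nat_lit 5) (nat_lit 560) (nat_lit 5) (nat_lit 411) (nat_lit 400) (nat_lit 329)))))) (XT.nd (nat_lit 390) (nat_lit 1292) (nat_lit 0) (XT.nd (nat_lit 156) (nat_lit 1292) (nat_lit 0) (XT.nd (nat_lit 78) (nat_lit 0) (nat_lit 0) (XT.lf (nat_lit 0) (nat_lit 3724617998) (nat_lit 1292) (nat_lit 125404816) (nat_lit 1368) (nat_lit 3915732769) (nat_lit 542) (nat_lit 5) (nat_lit 559) (nat_lit 5) (nat_lit 560) (nat_lit 5) (nat_lit 412) (nat_lit 400) (nat_lit 328)) (XT.lf (nat_lit 76) (nat_lit 3970447905) (nat_lit 0) (nat_lit 1361557266) (nat_lit 1368) (nat_lit 2488709402) (nat_lit 543) (nat_lit 5) (nat_lit 542) (nat_lit 5) (nat_lit 560) (nat_lit 5) (nat_lit 413) (nat_lit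 400) (nat_lit 327))) (XT.nd (nat_lit 78) (nat_lit 1368) (nat_lit 0) (XT.lf (nat_lit 76) (nat_lit 245508015) (nat_lit 0) (nat_lit 6701767258) (nat_lit 1368) (nat_lit 929997081) (nat_lit 544) (nat_lit 5) (nat_lit 543) (nat_lit 5) (nat_lit 561) (nat_lit 5) (nat_lit 414) (nat_lit 400) (nat_lit 326)) (XT.nd (nat_lit 78) (nat_lit 0) (nat_lit 0) (XT.lf (nat_lit 0) (nat_lit 652200370) (nat_lit 1368) (nat_lit 3496069227) (nat_lit 1444) (nat_lit 3786600459) (nat_lit 525) (nat_lit 5) (nat_lit 543) (nat_lit 5) (nat_lit 544) (nat_lit 5) (nat_lit 415) (nat_lit 400) (nat_lit 325)) (XT.lf (nat_lit 76) (nat_lit 702311645) (nat_lit 0) (nat_lit 1522456914) (nat_lit 1444) (nat_lit 5769318107) (nat_lit 526) (nat_lit 5) (nat_lit 525) (nat_lit 5) (nat_lit 544) (nat_lit 5) (nat_lit 416) (nat_lit 400) (nat_lit 324))))) (XT.nd (nat_lit 234) (nat_lit 1368) (nat_lit 0) (XT.nd (nat_lit 78) (nat_lit 0) (nat_lit 0) (XT.lf (nat_lit 0) (nat_lit 3827087102)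 (nat_lit 1368) (nat_lit 3053292106) (nat_lit 1444) (nat_lit 1174155648) (nat_lit 526) (nat_lit 5) (nat_lit 544) (nat_lit 5) (nat_lit 545) (nat_lit 5) (nat_lit 417) (nat_lit 400) (nat_lit 323)) (XT.nd (nat_lit 78) (nat_lit 0) (nat_lit 0) (XT.lf (nat_lit 76) (nat_lit 1253112844) (nat_lit 0) (nat_lit 4194379735) (nat_lit 1444) (nat_lit 2668991586) (nat_lit 527) (nat_lit 5) (nat_lit 526) (nat_lit 5) (nat_lit 545) (nat_lit 5) (nat_lit 418) (nat_lit 400) (nat_lit 322)) (XT.lf (nat_lit 76) (nat_lit 5663986777) (nat_lit 0) (nat_lit 1425111917) (nat_lit 1444) (nat_lit 1090810628) (nat_lit 527) (nat_lit 5) (nat_lit 526) (nat_lit 5) (nat_lit 545) (nat_lit 5) (nat_lit 419) (nat_lit 400) (nat_lit 321)))) (XT.nd (nat_lit 78) (nat_lit 0) (nat_lit 0) (XT.lf (nat_lit 0) (nat_lit 502527878) (nat_lit 1444) (nat_lit 6336942675) (nat_lit 1520) (nat_lit 1405269268) (nat_lit 508) (nat_lit 5) (nat_lit 527) (nat_lit 5) (nat_lit 528) (nat_lit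 5) (nat_lit 420) (nat_lit 400) (nat_lit 320)) (XT.nd (nat_lit 78) (nat_lit 0) (nat_lit 0) (XT.lf (nat_lit 0) (nat_lit 2108797143) (nat_lit 1444) (nat_lit 1896759795) (nat_lit 1520) (nat_lit 4305264368) (nat_lit 508) (nat_lit 5) (nat_lit 527) (nat_lit 5) (nat_lit 528) (nat_lit 5) (nat_lit 421) (nat_lit 400) (nat_lit 319)) (XT.lf (nat_lit 76) (nat_lit 2643810392) (nat_lit 0) (nat_lit 1090373720) (nat_lit 1520) (nat_lit 4644312204) (nat_lit 509) (nat_lit 5) (nat_lit 508) (nat_lit 5) (nat_lit 528) (nat_lit 5) (nat_lit 422) (nat_lit 400) (nat_lit 318))))))) (XT.nd (nat_lit 858) (nat_lit 5168) (nat_lit 0) (XT.nd (nat_lit 390) (nat_lit 4636) (nat_lit 0) (XT.nd (nat_lit 156) (nat_lit 3192) (nat_lit 0) (XT.nd (nat_lit 78) (nat_lit 1444) (nat_lit 0) (XT.lf (nat_lit 0) (nat_lit 5387431535) (nat_lit 1444) (nat_lit 1182266621) (nat_lit 76) (nat_lit 1877931132) (nat_lit 509) (nat_lit 5) (nat_lit 528) (nat_lit 5) (nat_lit 510) (nat_lit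 5) (nat_lit 423) (nat_lit 400) (nat_lit 317)) (XT.lf (nat_lit 0) (nat_lit 3476448108) (nat_lit 1444) (nat_lit 3597984049) (nat_lit 1520) (nat_lit 1443710286) (nat_lit 490) (nat_lit 5) (nat_lit 509) (nat_lit 5) (nat_lit 510) (nat_lit 5) (nat_lit 424) (nat_lit 400) (nat_lit 316))) (XT.nd (nat_lit 78) (nat_lit 3116) (nat_lit 0) (XT.lf (nat_lit 0) (nat_lit 181519547) (nat_lit 1520) (nat_lit 370297087) (nat_lit 76) (nat_lit 8038651390) (nat_lit 489) (nat_lit 5) (nat_lit 509) (nat_lit 5) (nat_lit 490) (nat_lit 5) (nat_lit 425) (nat_lit 400) (nat_lit 315)) (XT.nd (nat_lit 78) (nat_lit 1596) (nat_lit 0) (XT.lf (nat_lit 0) (nat_lit 1837200321) (nat_lit 1596) (nat_lit 4260904911) (nat_lit 76) (nat_lit 2565609113) (nat_lit 469) (nat_lit 5) (nat_lit 490) (nat_lit 5) (nat_lit 470) (nat_lit 5) (nat_lit 426) (nat_lit 400) (nat_lit 314)) (XT.lf (nat_lit 0) (nat_lit 517779713) (nat_lit 1596) (nat_lit 2989856233) (nat_lit 1672) (nat_lit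 5231167249) (nat_lit 448) (nat_lit 5) (nat_lit 469) (nat_lit 5) (nat_lit 470) (nat_lit 5) (nat_lit 427) (nat_lit 400) (nat_lit 313))))) (XT.nd (nat_lit 234) (nat_lit 2964) (nat_lit 0) (XT.nd (nat_lit 78) (nat_lit 1672) (nat_lit 0) (XT.lf (nat_lit 0) (nat_lit 5213982215) (nat_lit 1672) (nat_lit 3390183637) (nat_lit 76) (nat_lit 211188156) (nat_lit 448) (nat_lit 5) (nat_lit 470) (nat_lit 5) (nat_lit 449) (nat_lit 5) (nat_lit 428) (nat_lit 400) (nat_lit 312)) (XT.nd (nat_lit 78) (nat_lit 0) (nat_lit 0) (XT.lf (nat_lit 0) (nat_lit 1513999864) (nat_lit 1672) (nat_lit 5443171453) (nat_lit 1748) (nat_lit 1936220227) (nat_lit 426) (nat_lit 5) (nat_lit 448) (nat_lit 5) (nat_lit 449) (nat_lit 5) (nat_lit 429) (nat_lit 400) (nat_lit 311)) (XT.lf (nat_lit 0) (nat_lit 6539046201) (nat_lit 1672) (nat_lit 2192390823) (nat_lit 1748) (nat_lit 241638378) (nat_lit 426) (nat_lit 5) (nat_lit 448) (nat_lit 5) (nat_lit 449) (nat_lit 5) (nat_lit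 430) (nat_lit 400) (nat_lit 310)))) (XT.nd (nat_lit 78) (nat_lit 1140) (nat_lit 0) (XT.lf (nat_lit 0) (nat_lit 1465584103) (nat_lit 1824) (nat_lit 6450082635) (nat_lit 76) (nat_lit 1138537591) (nat_lit 402) (nat_lit 5) (nat_lit 426) (nat_lit 5) (nat_lit 403) (nat_lit 5) (nat_lit 431) (nat_lit 400) (nat_lit 309)) (XT.nd (nat_lit 78) (nat_lit 1140) (nat_lit 0) (XT.lf (nat_lit 0) (nat_lit 3208864601) (nat_lit 1824) (nat_lit 1400299043) (nat_lit 76) (nat_lit 4527666526) (nat_lit 402) (nat_lit 5) (nat_lit 426) (nat_lit 5) (nat_lit 403) (nat_lit 5) (nat_lit 432) (nat_lit 400) (nat_lit 308)) (XT.lf (nat_lit 0) (nat_lit 3777004723) (nat_lit 1140) (nat_lit 1209220127) (nat_lit 1216) (nat_lit 4234908473) (nat_lit 387) (nat_lit 5) (nat_lit 402) (nat_lit 5) (nat_lit 403) (nat_lit 5) (nat_lit 433) (nat_lit 400) (nat_lit 307)))))) (XT.nd (nat_lit 390) (nat_lit 2508) (nat_lit 0) (XT.nd (nat_lit 156) (nat_lit 1748) (nat_lit 0) (XT.nd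 (nat_lit 78) (nat_lit 912) (nat_lit 0) (XT.lf (nat_lit 0) (nat_lit 6798309186) (nat_lit 1216) (nat_lit 268207930) (nat_lit 76) (nat_lit 2240630786) (nat_lit 387) (nat_lit 5) (nat_lit 403) (nat_lit 5) (nat_lit 388) (nat_lit 5) (nat_lit 434) (nat_lit 400) (nat_lit 306)) (XT.lf (nat_lit 0) (nat_lit 5046485144) (nat_lit 912) (nat_lit 3616465221) (nat_lit 988) (nat_lit 731614833) (nat_lit 375) (nat_lit 5) (nat_lit 387) (nat_lit 5) (nat_lit 388) (nat_lit 5) (nat_lit 435) (nat_lit 400) (nat_lit 305))) (XT.nd (nat_lit 78) (nat_lit 836) (nat_lit 0) (XT.lf (nat_lit 0) (nat_lit 969999168) (nat_lit 836) (nat_lit 80789891) (nat_lit 912) (nat_lit 8433133474) (nat_lit 363) (nat_lit 5) (nat_lit 374) (nat_lit 5) (nat_lit 375) (nat_lit 5) (nat_lit 436) (nat_lit 400) (nat_lit 304)) (XT.nd (nat_lit 78) (nat_lit 836) (nat_lit 0) (XT.lf (nat_lit 0) (nat_lit 2887354907) (nat_lit 912) (nat_lit 3172479087) (nat_lit 76) (nat_lit 3514578321) (nat_lit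 363) (nat_lit 5) (nat_lit 375) (nat_lit 5) (nat_lit 364) (nat_lit 5) (nat_lit 437) (nat_lit 400) (nat_lit 303)) (XT.lf (nat_lit 0) (nat_lit 2282204202) (nat_lit 836) (nat_lit 2470309677) (nat_lit 912) (nat_lit 4914368839) (nat_lit 352) (nat_lit 5) (nat_lit 363) (nat_lit 5) (nat_lit 364) (nat_lit 5) (nat_lit 438) (nat_lit 400) (nat_lit 302))))) (XT.nd (nat_lit 234) (nat_lit 1596) (nat_lit 0) (XT.nd (nat_lit 78) (nat_lit 912) (nat_lit 0) (XT.lf (nat_lit 0) (nat_lit 6660962585) (nat_lit 912) (nat_lit 1902974421) (nat_lit 76) (nat_lit 1197153697) (nat_lit 352) (nat_lit 5) (nat_lit 364) (nat_lit 5) (nat_lit 353) (nat_lit 5) (nat_lit 439) (nat_lit 400) (nat_lit 301)) (XT.nd (nat_lit 78) (nat_lit 76) (nat_lit 0) (XT.lf (nat_lit 0) (nat_lit 3697647604) (nat_lit 836) (nat_lit 4927578109) (nat_lit 912) (nat_lit 1231611974) (nat_lit 341) (nat_lit 5) (nat_lit 352) (nat_lit 5) (nat_lit 353) (nat_lit 5) (nat_lit 440) (nat_lit 400)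 (nat_lit 300)) (XT.lf (nat_lit 0) (nat_lit 655706127) (nat_lit 912) (nat_lit 545638206) (nat_lit 76) (nat_lit 8753269671) (nat_lit 340) (nat_lit 5) (nat_lit 352) (nat_lit 5) (nat_lit 341) (nat_lit 5) (nat_lit 441) (nat_lit 400) (nat_lit 299)))) (XT.nd (nat_lit 78) (nat_lit 760) (nat_lit 0) (XT.lf (nat_lit 0) (nat_lit 2593188653) (nat_lit 912) (nat_lit 4853203694) (nat_lit 76) (nat_lit 2607219796) (nat_lit 329) (nat_lit 5) (nat_lit 341) (nat_lit 5) (nat_lit 330) (nat_lit 5) (nat_lit 442) (nat_lit 400) (nat_lit 298)) (XT.nd (nat_lit 78) (nat_lit 0) (nat_lit 0) (XT.lf (nat_lit 0) (nat_lit 895165479) (nat_lit 760) (nat_lit 3669857042) (nat_lit 836) (nat_lit 5589662850) (nat_lit 319) (nat_lit 5) (nat_lit 329) (nat_lit 5) (nat_lit 330) (nat_lit 5) (nat_lit 443) (nat_lit 400) (nat_lit 297)) (XT.lf (nat_lit 0) (nat_lit 6588681073) (nat_lit 836) (nat_lit 3457369602) (nat_lit 76) (nat_lit 211488647) (nat_lit 319) (nat_lit 5) (nat_lit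 330) (nat_lit 5) (nat_lit 320) (nat_lit 5) (nat_lit 444) (nat_lit 400) (nat_lit 296))))))))
noncomputable def xc146 : XT := (XT.nd (nat_lit 1716) (nat_lit 5928) (nat_lit 0) (XT.nd (nat_lit 858) (nat_lit 3648) (nat_lit 0) (XT.nd (nat_lit 390) (nat_lit 2736) (nat_lit 0) (XT.nd (nat_lit 156) (nat_lit 1444) (nat_lit 0) (XT.nd (nat_lit 78) (nat_lit 76) (nat_lit 0) (XT.lf (nat_lit 0) (nat_lit 2445921570) (nat_lit 760) (nat_lit 6225920317) (nat_lit 836) (nat_lit 1690234763) (nat_lit 309) (nat_lit 5) (nat_lit 319) (nat_lit 5) (nat_lit 320) (nat_lit 5) (nat_lit 445) (nat_lit 400) (nat_lit 295)) (XT.lf (nat_lit 0) (nat_lit 325982758) (nat_lit 836) (nat_lit 1979193634) (nat_lit 76) (nat_lit 8163445903) (nat_lit 308) (nat_lit 5) (nat_lit 319) (nat_lit 5) (nat_lit 309) (nat_lit 5) (nat_lit 446) (nat_lit 400) (nat_lit 294))) (XT.nd (nat_lit 78) (nat_lit 760) (nat_lit 0) (XT.lf (nat_lit 0) (nat_lit 2377130068) (nat_lit 760) (nat_lit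 6491523926) (nat_lit 76) (nat_lit 1708083140) (nat_lit 299) (nat_lit 5) (nat_lit 309) (nat_lit 5) (nat_lit 300) (nat_lit 5) (nat_lit 447) (nat_lit 400) (nat_lit 293)) (XT.nd (nat_lit 78) (nat_lit 760) (nat_lit 0) (XT.lf (nat_lit 0) (nat_lit 4477564537) (nat_lit 760) (nat_lit 426987023) (nat_lit 76) (nat_lit 5782303782) (nat_lit 299) (nat_lit 5) (nat_lit 309) (nat_lit 5) (nat_lit 300) (nat_lit 5) (nat_lit 448) (nat_lit 400) (nat_lit 292)) (XT.lf (nat_lit 0) (nat_lit 5812900368) (nat_lit 760) (nat_lit 824876725) (nat_lit 836) (nat_lit 4161049665) (nat_lit 289) (nat_lit 5) (nat_lit 299) (nat_lit 5) (nat_lit 300) (nat_lit 5) (nat_lit 449) (nat_lit 400) (nat_lit 291))))) (XT.nd (nat_lit 234) (nat_lit 1292) (nat_lit 0) (XT.nd (nat_lit 78) (nat_lit 760) (nat_lit 0) (XT.lf (nat_lit 0) (nat_lit 1242591734) (nat_lit 684) (nat_lit 7611478014) (nat_lit 760) (nat_lit 2058716448) (nat_lit 280) (nat_lit 5) (nat_lit 289) (nat_lit 5)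 (nat_lit 290) (nat_lit 5) (nat_lit 450) (nat_lit 400) (nat_lit 290)) (XT.nd (nat_lit 78) (nat_lit 684) (nat_lit 0) (XT.lf (nat_lit 0) (nat_lit 104051646) (nat_lit 760) (nat_lit 3393866855) (nat_lit 76) (nat_lit 7530710836) (nat_lit 279) (nat_lit 5) (nat_lit 289) (nat_lit 5) (nat_lit 280) (nat_lit 5) (nat_lit 451) (nat_lit 400) (nat_lit 289)) (XT.lf (nat_lit 0) (nat_lit 2287575692) (nat_lit 760) (nat_lit 8139490232) (nat_lit 76) (nat_lit 719355677) (nat_lit 270) (nat_lit 5) (nat_lit 280) (nat_lit 5) (nat_lit 271) (nat_lit 5) (nat_lit 452) (nat_lit 400) (nat_lit 288)))) (XT.nd (nat_lit 78) (nat_lit 1292) (nat_lit 0) (XT.lf (nat_lit 0) (nat_lit 4541830583) (nat_lit 760) (nat_lit 1729995729) (nat_lit 76) (nat_lit 4994207835) (nat_lit 270) (nat_lit 5) (nat_lit 280) (nat_lit 5) (nat_lit 271) (nat_lit 5) (nat_lit 453) (nat_lit 400) (nat_lit 287)) (XT.nd (nat_lit 78) (nat_lit 684) (nat_lit 0) (XT.lf (nat_lit 0) (nat_lit 4849411150)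 (nat_lit 608) (nat_lit 2004588036) (nat_lit 684) (nat_lit 4533788719) (nat_lit 262) (nat_lit 5) (nat_lit 270) (nat_lit 5) (nat_lit 271) (nat_lit 5) (nat_lit 454) (nat_lit 400) (nat_lit 286)) (XT.lf (nat_lit 0) (nat_lit 35164619) (nat_lit 684) (nat_lit 9185951950) (nat_lit 760) (nat_lit 2290691488) (nat_lit 253) (nat_lit 5) (nat_lit 262) (nat_lit 5) (nat_lit 263) (nat_lit 5) (nat_lit 455) (nat_lit 400) (nat_lit 285)))))) (XT.nd (nat_lit 390) (nat_lit 2356) (nat_lit 0) (XT.nd (nat_lit 156) (nat_lit 608) (nat_lit 0) (XT.nd (nat_lit 78) (nat_lit 608) (nat_lit 0) (XT.lf (nat_lit 0) (nat_lit 36385118) (nat_lit 760) (nat_lit 4844364110) (nat_lit 76) (nat_lit 6756783320) (nat_lit 252) (nat_lit 5) (nat_lit 262) (nat_lit 5) (nat_lit 253) (nat_lit 5) (nat_lit 456) (nat_lit 400) (nat_lit 284)) (XT.lf (nat_lit 0) (nat_lit 1908667283) (nat_lit 608) (nat_lit 465084286) (nat_lit 684) (nat_lit 9391833830) (nat_lit 244) (nat_lit 5) (nat_lit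 252) (nat_lit 5) (nat_lit 253) (nat_lit 5) (nat_lit 457) (nat_lit 400) (nat_lit 283))) (XT.nd (nat_lit 78) (nat_lit 608) (nat_lit 0) (XT.lf (nat_lit 0) (nat_lit 4798999505) (nat_lit 684) (nat_lit 3081510366) (nat_lit 76) (nat_lit 4014871767) (nat_lit 244) (nat_lit 5) (nat_lit 253) (nat_lit 5) (nat_lit 245) (nat_lit 5) (nat_lit 458) (nat_lit 400) (nat_lit 282)) (XT.nd (nat_lit 78) (nat_lit 0) (nat_lit 0) (XT.lf (nat_lit 0) (nat_lit 3855371068) (nat_lit 608) (nat_lit 3428029704) (nat_lit 684) (nat_lit 4744164973) (nat_lit 236) (nat_lit 5) (nat_lit 244) (nat_lit 5) (nat_lit 245) (nat_lit 5) (nat_lit 459) (nat_lit 400) (nat_lit 281)) (XT.lf (nat_lit 0) (nat_lit 9828248764) (nat_lit 684) (nat_lit 1218285714) (nat_lit 76) (nat_lit 1115648703) (nat_lit 236) (nat_lit 5) (nat_lit 245) (nat_lit 5) (nat_lit 237) (nat_lit 5) (nat_lit 460) (nat_lit 400) (nat_lit 280))))) (XT.nd (nat_lit 234) (nat_lit 1140) (nat_lit 0) (XT.nd (nat_lit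 78) (nat_lit 608) (nat_lit 0) (XT.lf (nat_lit 0) (nat_lit 167270167) (nat_lit 608) (nat_lit 6391503893) (nat_lit 76) (nat_lit 5739819322) (nat_lit 228) (nat_lit 5) (nat_lit 236) (nat_lit 5) (nat_lit 229) (nat_lit 5) (nat_lit 461) (nat_lit 400) (nat_lit 279)) (XT.nd (nat_lit 78) (nat_lit 0) (nat_lit 0) (XT.lf (nat_lit 0) (nat_lit 726573289) (nat_lit 608) (nat_lit 1956782395) (nat_lit 684) (nat_lit 9754149933) (nat_lit 220) (nat_lit 5) (nat_lit 228) (nat_lit 5) (nat_lit 229) (nat_lit 5) (nat_lit 462) (nat_lit 400) (nat_lit 278)) (XT.lf (nat_lit 0) (nat_lit 5294004903) (nat_lit 684) (nat_lit 4544274998) (nat_lit 76) (nat_lit 2740035806) (nat_lit 220) (nat_lit 5) (nat_lit 229) (nat_lit 5) (nat_lit 221) (nat_lit 5) (nat_lit 463) (nat_lit 400) (nat_lit 277)))) (XT.nd (nat_lit 78) (nat_lit 608) (nat_lit 0) (XT.lf (nat_lit 0) (nat_lit 2767949831) (nat_lit 532) (nat_lit 5203470560) (nat_lit 608) (nat_lit 4750234907) (nat_lit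 213) (nat_lit 5) (nat_lit 220) (nat_lit 5) (nat_lit 221) (nat_lit 5) (nat_lit 464) (nat_lit 400) (nat_lit 276)) (XT.nd (nat_lit 78) (nat_lit 608) (nat_lit 0) (XT.lf (nat_lit 0) (nat_lit 10267047894) (nat_lit 532) (nat_lit 449638831) (nat_lit 608) (nat_lit 2150893181) (nat_lit 213) (nat_lit 5) (nat_lit 220) (nat_lit 5) (nat_lit 221) (nat_lit 5) (nat_lit 465) (nat_lit 400) (nat_lit 275)) (XT.lf (nat_lit 0) (nat_lit 538731013) (nat_lit 608) (nat_lit 8104330567) (nat_lit 76) (nat_lit 4372403378) (nat_lit 205) (nat_lit 5) (nat_lit 213) (nat_lit 5) (nat_lit 206) (nat_lit 5) (nat_lit 466) (nat_lit 400) (nat_lit 274))))))) (XT.nd (nat_lit 858) (nat_lit 2888) (nat_lit 0) (XT.nd (nat_lit 390) (nat_lit 1444) (nat_lit 0) (XT.nd (nat_lit 156) (nat_lit 1064) (nat_lit 0) (XT.nd (nat_lit 78) (nat_lit 532) (nat_lit 0) (XT.lf (nat_lit 0) (nat_lit 3258082700) (nat_lit 608) (nat_lit 595938810) (nat_lit 76) (nat_lit 9311911173) (nat_lit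 205) (nat_lit 5) (nat_lit 213) (nat_lit 5) (nat_lit 206) (nat_lit 5) (nat_lit 467) (nat_lit 400) (nat_lit 273)) (XT.lf (nat_lit 0) (nat_lit 6069592893) (nat_lit 608) (nat_lit 6190075199) (nat_lit 76) (nat_lit 1058990195) (nat_lit 198) (nat_lit 5) (nat_lit 206) (nat_lit 5) (nat_lit 199) (nat_lit 5) (nat_lit 468) (nat_lit 400) (nat_lit 272))) (XT.nd (nat_lit 78) (nat_lit 532) (nat_lit 0) (XT.lf (nat_lit 0) (nat_lit 1514973997) (nat_lit 532) (nat_lit 7446358605) (nat_lit 608) (nat_lit 4512629688) (nat_lit 191) (nat_lit 5) (nat_lit 198) (nat_lit 5) (nat_lit 199) (nat_lit 5) (nat_lit 469) (nat_lit 400) (nat_lit 271)) (XT.nd (nat_lit 78) (nat_lit 532) (nat_lit 0) (XT.lf (nat_lit 0) (nat_lit 9437507737) (nat_lit 532) (nat_lit 2499720687) (nat_lit 608) (nat_lit 1694621323) (nat_lit 191) (nat_lit 5) (nat_lit 198) (nat_lit 5) (nat_lit 199) (nat_lit 5) (nat_lit 470) (nat_lit 400) (nat_lit 270)) (XT.lf (nat_lit 0) (nat_lit 1190286301)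 (nat_lit 532) (nat_lit 10062514611) (nat_lit 76) (nat_lit 2539424263) (nat_lit 184) (nat_lit 5) (nat_lit 191) (nat_lit 5) (nat_lit 185) (nat_lit 5) (nat_lit 471) (nat_lit 400) (nat_lit 269))))) (XT.nd (nat_lit 234) (nat_lit 532) (nat_lit 0) (XT.nd (nat_lit 78) (nat_lit 912) (nat_lit 0) (XT.lf (nat_lit 0) (nat_lit 4140216760) (nat_lit 532) (nat_lit 2134566852) (nat_lit 76) (nat_lit 7680203738) (nat_lit 184) (nat_lit 5) (nat_lit 191) (nat_lit 5) (nat_lit 185) (nat_lit 5) (nat_lit 472) (nat_lit 400) (nat_lit 268)) (XT.nd (nat_lit 78) (nat_lit 456) (nat_lit 0) (XT.lf (nat_lit 0) (nat_lit 6010714833) (nat_lit 456) (nat_lit 1162855921) (nat_lit 532) (nat_lit 6946949024) (nat_lit 178) (nat_lit 5) (nat_lit 184) (nat_lit 5) (nat_lit 185) (nat_lit 5) (nat_lit 473) (nat_lit 400) (nat_lit 267)) (XT.lf (nat_lit 0) (nat_lit 12342196) (nat_lit 456) (nat_lit 10281573205) (nat_lit 532) (nat_lit 3994924424) (nat_lit 172) (nat_lit 5) (nat_lit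 178) (nat_lit 5) (nat_lit 179) (nat_lit 5) (nat_lit 474) (nat_lit 400) (nat_lit 266)))) (XT.nd (nat_lit 78) (nat_lit 532) (nat_lit 0) (XT.lf (nat_lit 0) (nat_lit 8379010807) (nat_lit 456) (nat_lit 5145402015) (nat_lit 532) (nat_lit 935161906) (nat_lit 172) (nat_lit 5) (nat_lit 178) (nat_lit 5) (nat_lit 179) (nat_lit 5) (nat_lit 475) (nat_lit 400) (nat_lit 265)) (XT.nd (nat_lit 78) (nat_lit 0) (nat_lit 0) (XT.lf (nat_lit 0) (nat_lit 2158520989) (nat_lit 532) (nat_lit 12359104588) (nat_lit 76) (nat_lit 115790317) (nat_lit 165) (nat_lit 5) (nat_lit 172) (nat_lit 5) (nat_lit 166) (nat_lit 5) (nat_lit 476) (nat_lit 400) (nat_lit 264)) (XT.lf (nat_lit 0) (nat_lit 5362688116) (nat_lit 532) (nat_lit 3991710954) (nat_lit 76) (nat_lit 5454991715) (nat_lit 165) (nat_lit 5) (nat_lit 172) (nat_lit 5) (nat_lit 166) (nat_lit 5) (nat_lit 477) (nat_lit 400) (nat_lit 263)))))) (XT.nd (nat_lit 390) (nat_lit 1596) (nat_lit 0) (XT.nd (nat_lit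 156) (nat_lit 912) (nat_lit 0) (XT.nd (nat_lit 78) (nat_lit 0) (nat_lit 0) (XT.lf (nat_lit 0) (nat_lit 4583574395) (nat_lit 380) (nat_lit 4063370040) (nat_lit 456) (nat_lit 6341623739) (nat_lit 160) (nat_lit 5) (nat_lit 165) (nat_lit 5) (nat_lit 166) (nat_lit 5) (nat_lit 478) (nat_lit 400) (nat_lit 262)) (XT.lf (nat_lit 0) (nat_lit 12018859424) (nat_lit 456) (nat_lit 1814833669) (nat_lit 76) (nat_lit 1337199602) (nat_lit 160) (nat_lit 5) (nat_lit 166) (nat_lit 5) (nat_lit 161) (nat_lit 5) (nat_lit 479) (nat_lit 400) (nat_lit 261))) (XT.nd (nat_lit 78) (nat_lit 380) (nat_lit 0) (XT.lf (nat_lit 0) (nat_lit 159337118) (nat_lit 532) (nat_lit 8364100120) (nat_lit 76) (nat_lit 6832229897) (nat_lit 153) (nat_lit 5) (nat_lit 160) (nat_lit 5) (nat_lit 154) (nat_lit 5) (nat_lit 480) (nat_lit 400) (nat_lit 260)) (XT.nd (nat_lit 78) (nat_lit 0) (nat_lit 0) (XT.lf (nat_lit 0) (nat_lit 420009747) (nat_lit 380) (nat_lit 3076411788)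 (nat_lit 456) (nat_lit 12047267862) (nat_lit 148) (nat_lit 5) (nat_lit 153) (nat_lit 5) (nat_lit 154) (nat_lit 5) (nat_lit 481) (nat_lit 400) (nat_lit 259)) (XT.lf (nat_lit 0) (nat_lit 6959610091) (nat_lit 456) (nat_lit 6277087632) (nat_lit 76) (nat_lit 2497589955) (nat_lit 148) (nat_lit 5) (nat_lit 154) (nat_lit 5) (nat_lit 149) (nat_lit 5) (nat_lit 482) (nat_lit 400) (nat_lit 258))))) (XT.nd (nat_lit 234) (nat_lit 760) (nat_lit 0) (XT.nd (nat_lit 78) (nat_lit 456) (nat_lit 0) (XT.lf (nat_lit 0) (nat_lit 2742971665) (nat_lit 380) (nat_lit 7774297374) (nat_lit 456) (nat_lit 5410927521) (nat_lit 143) (nat_lit 5) (nat_lit 148) (nat_lit 5) (nat_lit 149) (nat_lit 5) (nat_lit 483) (nat_lit 400) (nat_lit 257)) (XT.nd (nat_lit 78) (nat_lit 456) (nat_lit 0) (XT.lf (nat_lit 0) (nat_lit 12009579616) (nat_lit 380) (nat_lit 2165779418) (nat_lit 456) (nat_lit 1950041740) (nat_lit 143) (nat_lit 5) (nat_lit 148) (nat_lit 5) (nat_lit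 149) (nat_lit 5) (nat_lit 484) (nat_lit 400) (nat_lit 256)) (XT.lf (nat_lit 0) (nat_lit 1603583900) (nat_lit 456) (nat_lit 11175432435) (nat_lit 76) (nat_lit 3546445271) (nat_lit 137) (nat_lit 5) (nat_lit 143) (nat_lit 5) (nat_lit 138) (nat_lit 5) (nat_lit 485) (nat_lit 400) (nat_lit 255)))) (XT.nd (nat_lit 78) (nat_lit 760) (nat_lit 0) (XT.lf (nat_lit 0) (nat_lit 5231750042) (nat_lit 456) (nat_lit 1918254470) (nat_lit 76) (nat_lit 9378672322) (nat_lit 137) (nat_lit 5) (nat_lit 143) (nat_lit 5) (nat_lit 138) (nat_lit 5) (nat_lit 486) (nat_lit 400) (nat_lit 254)) (XT.nd (nat_lit 78) (nat_lit 380) (nat_lit 0) (XT.lf (nat_lit 0) (nat_lit 7605351085) (nat_lit 380) (nat_lit 1364163773) (nat_lit 456) (nat_lit 7765703307) (nat_lit 132) (nat_lit 5) (nat_lit 137) (nat_lit 5) (nat_lit 138) (nat_lit 5) (nat_lit 487) (nat_lit 400) (nat_lit 253)) (XT.lf (nat_lit 0) (nat_lit 356380093) (nat_lit 380) (nat_lit 12458125842) (nat_lit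 456) (nat_lit 4130737427) (nat_lit 127) (nat_lit 5) (nat_lit 132) (nat_lit 5) (nat_lit 133) (nat_lit 5) (nat_lit 488) (nat_lit 400) (nat_lit 252))))))))
noncomputable def xc147 : XT := (XT.nd (nat_lit 52962) (nat_lit 0) (nat_lit 27284) (XT.nd (nat_lit 858) (nat_lit 684) (nat_lit 0) (XT.nd (nat_lit 390) (nat_lit 1444) (nat_lit 0) (XT.nd (nat_lit 156) (nat_lit 304) (nat_lit 0) (XT.nd (nat_lit 78) (nat_lit 456) (nat_lit 0) (XT.lf (nat_lit 0) (nat_lit 10128530528) (nat_lit 380) (nat_lit 6665967645) (nat_lit 456) (nat_lit 363811272) (nat_lit 127) (nat_lit 5) (nat_lit 132) (nat_lit 5) (nat_lit 133) (nat_lit 5) (nat_lit 489) (nat_lit 400) (nat_lit 251)) (XT.lf (nat_lit 0) (nat_lit 2715288736) (nat_lit 380) (nat_lit 723190829) (nat_lit 456) (nat_lit 13936594977) (nat_lit 121) (nat_lit 5) (nat_lit 126) (nat_lit 5) (nat_lit 127) (nat_lit 5) (nat_lit 490) (nat_lit 400) (nat_lit 250))) (XT.nd (nat_lit 78) (nat_lit 304) (nat_lit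 0) (XT.lf (nat_lit 0) (nat_lit 7382190102) (nat_lit 456) (nat_lit 4900370298) (nat_lit 76) (nat_lit 5312163808) (nat_lit 121) (nat_lit 5) (nat_lit 127) (nat_lit 5) (nat_lit 122) (nat_lit 5) (nat_lit 491) (nat_lit 400) (nat_lit 249)) (XT.nd (nat_lit 78) (nat_lit 0) (nat_lit 0) (XT.lf (nat_lit 0) (nat_lit 5098364440) (nat_lit 304) (nat_lit 6332629297) (nat_lit 380) (nat_lit 6387250978) (nat_lit 117) (nat_lit 5) (nat_lit 121) (nat_lit 5) (nat_lit 122) (nat_lit 5) (nat_lit 492) (nat_lit 400) (nat_lit 248)) (XT.lf (nat_lit 0) (nat_lit 15345672045) (nat_lit 304) (nat_lit 236426170) (nat_lit 380) (nat_lit 2463713106) (nat_lit 117) (nat_lit 5) (nat_lit 121) (nat_lit 5) (nat_lit 122) (nat_lit 5) (nat_lit 493) (nat_lit 400) (nat_lit 247))))) (XT.nd (nat_lit 234) (nat_lit 684) (nat_lit 0) (XT.nd (nat_lit 78) (nat_lit 304) (nat_lit 0) (XT.lf (nat_lit 0) (nat_lit 1595192004) (nat_lit 456) (nat_lit 10724216460) (nat_lit 76) (nat_lit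 5956781707) (nat_lit 111) (nat_lit 5) (nat_lit 117) (nat_lit 5) (nat_lit 112) (nat_lit 5) (nat_lit 494) (nat_lit 400) (nat_lit 246)) (XT.nd (nat_lit 78) (nat_lit 304) (nat_lit 0) (XT.lf (nat_lit 0) (nat_lit 5710781859) (nat_lit 456) (nat_lit 500789366) (nat_lit 76) (nat_lit 12299111812) (nat_lit 111) (nat_lit 5) (nat_lit 117) (nat_lit 5) (nat_lit 112) (nat_lit 5) (nat_lit 495) (nat_lit 400) (nat_lit 245)) (XT.lf (nat_lit 0) (nat_lit 9963272292) (nat_lit 380) (nat_lit 8707851829) (nat_lit 76) (nat_lit 77651880) (nat_lit 107) (nat_lit 5) (nat_lit 112) (nat_lit 5) (nat_lit 108) (nat_lit 5) (nat_lit 496) (nat_lit 400) (nat_lit 244)))) (XT.nd (nat_lit 78) (nat_lit 380) (nat_lit 0) (XT.lf (nat_lit 0) (nat_lit 1773372365) (nat_lit 304) (nat_lit 12572420913) (nat_lit 380) (nat_lit 4644939906) (nat_lit 103) (nat_lit 5) (nat_lit 107) (nat_lit 5) (nat_lit 108) (nat_lit 5) (nat_lit 497) (nat_lit 400) (nat_lit 243)) (XT.nd (nat_lit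 78) (nat_lit 380) (nat_lit 0) (XT.lf (nat_lit 0) (nat_lit 12564948953) (nat_lit 304) (nat_lit 6298502115) (nat_lit 380) (nat_lit 373130653) (nat_lit 103) (nat_lit 5) (nat_lit 107) (nat_lit 5) (nat_lit 108) (nat_lit 5) (nat_lit 498) (nat_lit 400) (nat_lit 242)) (XT.lf (nat_lit 0) (nat_lit 3948610036) (nat_lit 380) (nat_lit 15391734198) (nat_lit 76) (nat_lit 146152554) (nat_lit 98) (nat_lit 5) (nat_lit 103) (nat_lit 5) (nat_lit 99) (nat_lit 5) (nat_lit 499) (nat_lit 400) (nat_lit 241)))))) (XT.nd (nat_lit 51636) (nat_lit 0) (nat_lit 35492) (XT.nd (nat_lit 156) (nat_lit 380) (nat_lit 0) (XT.nd (nat_lit 78) (nat_lit 304) (nat_lit 0) (XT.lf (nat_lit 0) (nat_lit 8427827009) (nat_lit 380) (nat_lit 4635250460) (nat_lit 76) (nat_lit 6676764432) (nat_lit 98) (nat_lit 5) (nat_lit 103) (nat_lit 5) (nat_lit 99) (nat_lit 5) (nat_lit 500) (nat_lit 400) (nat_lit 240)) (XT.lf (nat_lit 0) (nat_lit 6403505080) (nat_lit 304) (nat_lit 6624164163)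 (nat_lit 380) (nat_lit 6969965644) (nat_lit 94) (nat_lit 5) (nat_lit 98) (nat_lit 5) (nat_lit 99) (nat_lit 5) (nat_lit 501) (nat_lit 400) (nat_lit 239))) (XT.nd (nat_lit 78) (nat_lit 380) (nat_lit 0) (XT.lf (nat_lit 0) (nat_lit 17709137575) (nat_lit 304) (nat_lit 31038783) (nat_lit 380) (nat_lit 2519995770) (nat_lit 94) (nat_lit 5) (nat_lit 98) (nat_lit 5) (nat_lit 99) (nat_lit 5) (nat_lit 502) (nat_lit 400) (nat_lit 238)) (XT.nd (nat_lit 78) (nat_lit 0) (nat_lit 0) (XT.lf (nat_lit 0) (nat_lit 2083205532) (nat_lit 380) (nat_lit 11771979834) (nat_lit 76) (nat_lit 6670700038) (nat_lit 89) (nat_lit 5) (nat_lit 94) (nat_lit 5) (nat_lit 90) (nat_lit 5) (nat_lit 503) (nat_lit 400) (nat_lit 237)) (XT.lf (nat_lit 0) (nat_lit 6751950504) (nat_lit 380) (nat_lit 510651053) (nat_lit 76) (nat_lit 13533835451) (nat_lit 89) (nat_lit 5) (nat_lit 94) (nat_lit 5) (nat_lit 90) (nat_lit 5) (nat_lit 504) (nat_lit 400) (nat_lit 236))))) (XT.nd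 (nat_lit 234) (nat_lit 1216) (nat_lit 0) (XT.nd (nat_lit 78) (nat_lit 0) (nat_lit 0) (XT.lf (nat_lit 0) (nat_lit 666192644) (nat_lit 0) (nat_lit 666192644) (nat_lit 1140) (nat_lit 2312130328) (nat_lit 572) (nat_lit 5) (nat_lit 572) (nat_lit 3) (nat_lit 587) (nat_lit 3) (nat_lit 401) (nat_lit 401) (nat_lit 338)) (XT.nd (nat_lit 78) (nat_lit 0) (nat_lit 0) (XT.lf (nat_lit 0) (nat_lit 4254854772) (nat_lit 1140) (nat_lit 2443042312) (nat_lit 1216) (nat_lit 632063517) (nat_lit 572) (nat_lit 5) (nat_lit 587) (nat_lit 3) (nat_lit 588) (nat_lit 5) (nat_lit 402) (nat_lit 401) (nat_lit 337)) (XT.lf (nat_lit 76) (nat_lit 1125349657) (nat_lit 0) (nat_lit 4726753602) (nat_lit 1216) (nat_lit 1520116202) (nat_lit 573) (nat_lit 5) (nat_lit 572) (nat_lit 5) (nat_lit 588) (nat_lit 5) (nat_lit 403) (nat_lit 401) (nat_lit 336)))) (XT.nd (nat_lit 78) (nat_lit 0) (nat_lit 0) (XT.lf (nat_lit 0) (nat_lit 41221026) (nat_lit 1216) (nat_lit 2639139430)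 (nat_lit 1292) (nat_lit 4735449666) (nat_lit 556) (nat_lit 5) (nat_lit 572) (nat_lit 5) (nat_lit 573) (nat_lit 5) (nat_lit 404) (nat_lit 401) (nat_lit 335)) (XT.nd (nat_lit 78) (nat_lit 0) (nat_lit 76) (XT.lf (nat_lit 76) (nat_lit 1022686918) (nat_lit 0) (nat_lit 557805055) (nat_lit 1292) (nat_lit 5880255547) (nat_lit 557) (nat_lit 5) (nat_lit 556) (nat_lit 5) (nat_lit 573) (nat_lit 5) (nat_lit 405) (nat_lit 401) (nat_lit 334)) (XT.lf (nat_lit 0) (nat_lit 3139966260) (nat_lit 1216) (nat_lit 2745432142) (nat_lit 1292) (nat_lit 1621413680) (nat_lit 557) (nat_lit 5) (nat_lit 573) (nat_lit 5) (nat_lit 574) (nat_lit 5) (nat_lit 406) (nat_lit 401) (nat_lit 333))))))) (XT.nd (nat_lit 858) (nat_lit 5776) (nat_lit 0) (XT.nd (nat_lit 390) (nat_lit 1292) (nat_lit 0) (XT.nd (nat_lit 156) (nat_lit 1216) (nat_lit 0) (XT.nd (nat_lit 78) (nat_lit 0) (nat_lit 0) (XT.lf (nat_lit 76) (nat_lit 1008846412) (nat_lit 0) (nat_lit 3693945051)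 (nat_lit 1292) (nat_lit 2851579690) (nat_lit 558) (nat_lit 5) (nat_lit 557) (nat_lit 5) (nat_lit 574) (nat_lit 5) (nat_lit 407) (nat_lit 401) (nat_lit 332)) (XT.lf (nat_lit 76) (nat_lit 4853829013) (nat_lit 0) (nat_lit 1423991210) (nat_lit 1292) (nat_lit 1325458363) (nat_lit 558) (nat_lit 5) (nat_lit 557) (nat_lit 5) (nat_lit 574) (nat_lit 5) (nat_lit 408) (nat_lit 401) (nat_lit 331))) (XT.nd (nat_lit 78) (nat_lit 0) (nat_lit 0) (XT.lf (nat_lit 0) (nat_lit 204330305) (nat_lit 1292) (nat_lit 6545713865) (nat_lit 1368) (nat_lit 903581934) (nat_lit 541) (nat_lit 5) (nat_lit 558) (nat_lit 5) (nat_lit 559) (nat_lit 5) (nat_lit 409) (nat_lit 401) (nat_lit 330)) (XT.nd (nat_lit 78) (nat_lit 0) (nat_lit 0) (XT.lf (nat_lit 0) (nat_lit 1738668214) (nat_lit 1292) (nat_lit 2665629003) (nat_lit 1368) (nat_lit 3300689298) (nat_lit 541) (nat_lit 5) (nat_lit 558) (nat_lit 5) (nat_lit 559) (nat_lit 5) (nat_lit 410) (nat_lit 401) (nat_lit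 329)) (XT.lf (nat_lit 76) (nat_lit 1286997769) (nat_lit 0) (nat_lit 1989445192) (nat_lit 1368) (nat_lit 4481491066) (nat_lit 542) (nat_lit 5) (nat_lit 541) (nat_lit 5) (nat_lit 559) (nat_lit 5) (nat_lit 411) (nat_lit 401) (nat_lit 328))))) (XT.nd (nat_lit 234) (nat_lit 0) (nat_lit 76) (XT.nd (nat_lit 78) (nat_lit 1368) (nat_lit 0) (XT.lf (nat_lit 0) (nat_lit 4831091784) (nat_lit 1292) (nat_lit 2482562722) (nat_lit 1368) (nat_lit 498578215) (nat_lit 542) (nat_lit 5) (nat_lit 559) (nat_lit 5) (nat_lit 560) (nat_lit 5) (nat_lit 412) (nat_lit 401) (nat_lit 327)) (XT.nd (nat_lit 78) (nat_lit 1368) (nat_lit 0) (XT.lf (nat_lit 76) (nat_lit 1570851916) (nat_lit 0) (nat_lit 4835078113) (nat_lit 1368) (nat_lit 1461919747) (nat_lit 543) (nat_lit 5) (nat_lit 542) (nat_lit 5) (nat_lit 560) (nat_lit 5) (nat_lit 413) (nat_lit 401) (nat_lit 326)) (XT.lf (nat_lit 0) (nat_lit 69319651) (nat_lit 1368) (nat_lit 2208411900) (nat_lit 1444)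 (nat_lit 5647194319) (nat_lit 524) (nat_lit 5) (nat_lit 542) (nat_lit 5) (nat_lit 543) (nat_lit 5) (nat_lit 414) (nat_lit 401) (nat_lit 325)))) (XT.nd (nat_lit 78) (nat_lit 0) (nat_lit 0) (XT.lf (nat_lit 0) (nat_lit 1593375511) (nat_lit 1368) (nat_lit 6029861091) (nat_lit 1444) (nat_lit 360091775) (nat_lit 525) (nat_lit 5) (nat_lit 543) (nat_lit 5) (nat_lit 544) (nat_lit 5) (nat_lit 415) (nat_lit 401) (nat_lit 324)) (XT.nd (nat_lit 78) (nat_lit 0) (nat_lit 0) (XT.lf (nat_lit 0) (nat_lit 3145177235) (nat_lit 1368) (nat_lit 1851892950) (nat_lit 1444) (nat_lit 3045896681) (nat_lit 525) (nat_lit 5) (nat_lit 543) (nat_lit 5) (nat_lit 544) (nat_lit 5) (nat_lit 416) (nat_lit 401) (nat_lit 323)) (XT.lf (nat_lit 76) (nat_lit 2419178582) (nat_lit 0) (nat_lit 2292447913) (nat_lit 1444) (nat_lit 3392512365) (nat_lit 526) (nat_lit 5) (nat_lit 525) (nat_lit 5) (nat_lit 544) (nat_lit 5) (nat_lit 417) (nat_lit 401) (nat_lit 322))))))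 (XT.nd (nat_lit 390) (nat_lit 4484) (nat_lit 0) (XT.nd (nat_lit 156) (nat_lit 1444) (nat_lit 0) (XT.nd (nat_lit 78) (nat_lit 0) (nat_lit 0) (XT.lf (nat_lit 0) (nat_lit 6293394499) (nat_lit 1368) (nat_lit 1391365949) (nat_lit 1444) (nat_lit 482106764) (nat_lit 526) (nat_lit 5) (nat_lit 544) (nat_lit 5) (nat_lit 545) (nat_lit 5) (nat_lit 418) (nat_lit 401) (nat_lit 321)) (XT.lf (nat_lit 76) (nat_lit 2989831627) (nat_lit 0) (nat_lit 4920631518) (nat_lit 1444) (nat_lit 320326144) (nat_lit 527) (nat_lit 5) (nat_lit 526) (nat_lit 5) (nat_lit 545) (nat_lit 5) (nat_lit 419) (nat_lit 401) (nat_lit 320))) (XT.nd (nat_lit 78) (nat_lit 0) (nat_lit 76) (XT.lf (nat_lit 0) (nat_lit 1226026261) (nat_lit 1444) (nat_lit 849129425) (nat_lit 1520) (nat_lit 6221107603) (nat_lit 507) (nat_lit 5) (nat_lit 526) (nat_lit 5) (nat_lit 527) (nat_lit 5) (nat_lit 420) (nat_lit 401) (nat_lit 319)) (XT.nd (nat_lit 78) (nat_lit 0) (nat_lit 0) (XT.lf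 (nat_lit 0) (nat_lit 2798261711) (nat_lit 1444) (nat_lit 4714526653) (nat_lit 1520) (nat_lit 850242899) (nat_lit 508) (nat_lit 5) (nat_lit 527) (nat_lit 5) (nat_lit 528) (nat_lit 5) (nat_lit 421) (nat_lit 401) (nat_lit 318)) (XT.lf (nat_lit 0) (nat_lit 4391839043) (nat_lit 1444) (nat_lit 219837269) (nat_lit 1520) (nat_lit 3819671856) (nat_lit 508) (nat_lit 5) (nat_lit 527) (nat_lit 5) (nat_lit 528) (nat_lit 5) (nat_lit 422) (nat_lit 401) (nat_lit 317))))) (XT.nd (nat_lit 234) (nat_lit 3116) (nat_lit 0) (XT.nd (nat_lit 78) (nat_lit 1444) (nat_lit 0) (XT.lf (nat_lit 76) (nat_lit 4400262363) (nat_lit 0) (nat_lit 1616593585) (nat_lit 1520) (nat_lit 2484195391) (nat_lit 509) (nat_lit 5) (nat_lit 508) (nat_lit 5) (nat_lit 528) (nat_lit 5) (nat_lit 423) (nat_lit 401) (nat_lit 316)) (XT.nd (nat_lit 78) (nat_lit 76) (nat_lit 0) (XT.lf (nat_lit 0) (nat_lit 518402325) (nat_lit 1444) (nat_lit 7141627154) (nat_lit 1520) (nat_lit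 912417034) (nat_lit 490) (nat_lit 5) (nat_lit 509) (nat_lit 5) (nat_lit 510) (nat_lit 5) (nat_lit 424) (nat_lit 401) (nat_lit 315)) (XT.lf (nat_lit 0) (nat_lit 691826380) (nat_lit 1520) (nat_lit 3397438292) (nat_lit 76) (nat_lit 4555724068) (nat_lit 489) (nat_lit 5) (nat_lit 509) (nat_lit 5) (nat_lit 490) (nat_lit 5) (nat_lit 425) (nat_lit 401) (nat_lit 314)))) (XT.nd (nat_lit 78) (nat_lit 1596) (nat_lit 0) (XT.lf (nat_lit 0) (nat_lit 1341388477) (nat_lit 1520) (nat_lit 955507568) (nat_lit 1596) (nat_lit 6422356399) (nat_lit 469) (nat_lit 5) (nat_lit 489) (nat_lit 5) (nat_lit 490) (nat_lit 5) (nat_lit 426) (nat_lit 401) (nat_lit 313)) (XT.nd (nat_lit 78) (nat_lit 1596) (nat_lit 0) (XT.lf (nat_lit 0) (nat_lit 3944236560) (nat_lit 1596) (nat_lit 2611104835) (nat_lit 76) (nat_lit 2239466864) (nat_lit 469) (nat_lit 5) (nat_lit 490) (nat_lit 5) (nat_lit 470) (nat_lit 5) (nat_lit 427) (nat_lit 401) (nat_lit 312)) (XT.lf (nat_lit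 0) (nat_lit 2251738888) (nat_lit 1596) (nat_lit 3366938823) (nat_lit 1672) (nat_lit 3253324427) (nat_lit 448) (nat_lit 5) (nat_lit 469) (nat_lit 5) (nat_lit 470) (nat_lit 5) (nat_lit 428) (nat_lit 401) (nat_lit 311))))))))
noncomputable def xc148 : XT := (XT.nd (nat_lit 1638) (nat_lit 7448) (nat_lit 0) (XT.nd (nat_lit 780) (nat_lit 5624) (nat_lit 0) (XT.nd (nat_lit 390) (nat_lit 1824) (nat_lit 0) (XT.nd (nat_lit 156) (nat_lit 2888) (nat_lit 0) (XT.nd (nat_lit 78) (nat_lit 1748) (nat_lit 0) (XT.lf (nat_lit 0) (nat_lit 7224926739) (nat_lit 1596) (nat_lit 92789550) (nat_lit 1672) (nat_lit 1633211260) (nat_lit 448) (nat_lit 5) (nat_lit 469) (nat_lit 5) (nat_lit 470) (nat_lit 5) (nat_lit 429) (nat_lit 401) (nat_lit 310)) (XT.lf (nat_lit 0) (nat_lit 35563196) (nat_lit 1748) (nat_lit 5765876610) (nat_lit 76) (nat_lit 3229668357) (nat_lit 425) (nat_lit 5) (nat_lit 448) (nat_lit 5) (nat_lit 426) (nat_lit 5) (nat_lit 430) (nat_lit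 401) (nat_lit 309))) (XT.nd (nat_lit 78) (nat_lit 2888) (nat_lit 0) (XT.lf (nat_lit 0) (nat_lit 1702453597) (nat_lit 1748) (nat_lit 767109282) (nat_lit 76) (nat_lit 6643390677) (nat_lit 425) (nat_lit 5) (nat_lit 448) (nat_lit 5) (nat_lit 426) (nat_lit 5) (nat_lit 431) (nat_lit 401) (nat_lit 308)) (XT.nd (nat_lit 78) (nat_lit 1140) (nat_lit 0) (XT.lf (nat_lit 0) (nat_lit 3412090812) (nat_lit 1824) (nat_lit 4835899077) (nat_lit 76) (nat_lit 948266868) (nat_lit 402) (nat_lit 5) (nat_lit 426) (nat_lit 5) (nat_lit 403) (nat_lit 5) (nat_lit 432) (nat_lit 401) (nat_lit 307)) (XT.lf (nat_lit 0) (nat_lit 284430441) (nat_lit 1140) (nat_lit 4870061130) (nat_lit 1216) (nat_lit 4126771936) (nat_lit 387) (nat_lit 5) (nat_lit 402) (nat_lit 5) (nat_lit 403) (nat_lit 5) (nat_lit 433) (nat_lit 401) (nat_lit 306))))) (XT.nd (nat_lit 156) (nat_lit 912) (nat_lit 0) (XT.nd (nat_lit 78) (nat_lit 912) (nat_lit 0) (XT.lf (nat_lit 0) (nat_lit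 5550306472) (nat_lit 1140) (nat_lit 1389413877) (nat_lit 1216) (nat_lit 2428099169) (nat_lit 387) (nat_lit 5) (nat_lit 402) (nat_lit 5) (nat_lit 403) (nat_lit 5) (nat_lit 434) (nat_lit 401) (nat_lit 305)) (XT.lf (nat_lit 0) (nat_lit 1447878909) (nat_lit 912) (nat_lit 7312226546) (nat_lit 988) (nat_lit 696020713) (nat_lit 375) (nat_lit 5) (nat_lit 387) (nat_lit 5) (nat_lit 388) (nat_lit 5) (nat_lit 435) (nat_lit 401) (nat_lit 304))) (XT.nd (nat_lit 78) (nat_lit 836) (nat_lit 0) (XT.lf (nat_lit 0) (nat_lit 1067827292) (nat_lit 988) (nat_lit 2714334172) (nat_lit 76) (nat_lit 5763683271) (nat_lit 374) (nat_lit 5) (nat_lit 387) (nat_lit 5) (nat_lit 375) (nat_lit 5) (nat_lit 436) (nat_lit 401) (nat_lit 303)) (XT.nd (nat_lit 78) (nat_lit 0) (nat_lit 0) (XT.lf (nat_lit 0) (nat_lit 2693972936) (nat_lit 836) (nat_lit 157808204) (nat_lit 912) (nat_lit 6785609608) (nat_lit 363) (nat_lit 5) (nat_lit 374) (nat_lit 5) (nat_lit 375)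 (nat_lit 5) (nat_lit 437) (nat_lit 401) (nat_lit 302)) (XT.lf (nat_lit 0) (nat_lit 4689696844) (nat_lit 912) (nat_lit 1528797706) (nat_lit 76) (nat_lit 3511915380) (nat_lit 363) (nat_lit 5) (nat_lit 375) (nat_lit 5) (nat_lit 364) (nat_lit 5) (nat_lit 438) (nat_lit 401) (nat_lit 301)))))) (XT.nd (nat_lit 390) (nat_lit 3040) (nat_lit 0) (XT.nd (nat_lit 156) (nat_lit 1748) (nat_lit 0) (XT.nd (nat_lit 78) (nat_lit 0) (nat_lit 0) (XT.lf (nat_lit 0) (nat_lit 4023748125) (nat_lit 836) (nat_lit 2545214036) (nat_lit 912) (nat_lit 3256243257) (nat_lit 352) (nat_lit 5) (nat_lit 363) (nat_lit 5) (nat_lit 364) (nat_lit 5) (nat_lit 439) (nat_lit 401) (nat_lit 300)) (XT.lf (nat_lit 0) (nat_lit 8481664633) (nat_lit 912) (nat_lit 243896316) (nat_lit 76) (nat_lit 1196426426) (nat_lit 352) (nat_lit 5) (nat_lit 364) (nat_lit 5) (nat_lit 353) (nat_lit 5) (nat_lit 440) (nat_lit 401) (nat_lit 299))) (XT.nd (nat_lit 78) (nat_lit 836) (nat_lit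 0) (XT.lf (nat_lit 0) (nat_lit 437158556) (nat_lit 912) (nat_lit 4565406685) (nat_lit 76) (nat_lit 5017480650) (nat_lit 340) (nat_lit 5) (nat_lit 352) (nat_lit 5) (nat_lit 341) (nat_lit 5) (nat_lit 441) (nat_lit 401) (nat_lit 298)) (XT.nd (nat_lit 78) (nat_lit 0) (nat_lit 0) (XT.lf (nat_lit 0) (nat_lit 1133621412) (nat_lit 836) (nat_lit 1186605041) (nat_lit 912) (nat_lit 7799909415) (nat_lit 329) (nat_lit 5) (nat_lit 340) (nat_lit 5) (nat_lit 341) (nat_lit 5) (nat_lit 442) (nat_lit 401) (nat_lit 297)) (XT.lf (nat_lit 0) (nat_lit 4267938375) (nat_lit 912) (nat_lit 3253271341) (nat_lit 76) (nat_lit 2700485292) (nat_lit 329) (nat_lit 5) (nat_lit 341) (nat_lit 5) (nat_lit 330) (nat_lit 5) (nat_lit 443) (nat_lit 401) (nat_lit 296))))) (XT.nd (nat_lit 234) (nat_lit 1520) (nat_lit 0) (XT.nd (nat_lit 78) (nat_lit 760) (nat_lit 0) (XT.lf (nat_lit 0) (nat_lit 2598900766) (nat_lit 760) (nat_lit 3659432400) (nat_lit 836) (nat_lit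 4066884473) (nat_lit 319) (nat_lit 5) (nat_lit 329) (nat_lit 5) (nat_lit 330) (nat_lit 5) (nat_lit 444) (nat_lit 401) (nat_lit 295)) (XT.nd (nat_lit 78) (nat_lit 760) (nat_lit 0) (XT.lf (nat_lit 0) (nat_lit 8291586481) (nat_lit 836) (nat_lit 1842351122) (nat_lit 76) (nat_lit 296818855) (nat_lit 319) (nat_lit 5) (nat_lit 330) (nat_lit 5) (nat_lit 320) (nat_lit 5) (nat_lit 445) (nat_lit 401) (nat_lit 294)) (XT.lf (nat_lit 0) (nat_lit 4167925835) (nat_lit 760) (nat_lit 6228540953) (nat_lit 836) (nat_lit 141326638) (nat_lit 309) (nat_lit 5) (nat_lit 319) (nat_lit 5) (nat_lit 320) (nat_lit 5) (nat_lit 446) (nat_lit 401) (nat_lit 293)))) (XT.nd (nat_lit 78) (nat_lit 1444) (nat_lit 0) (XT.lf (nat_lit 0) (nat_lit 1863831096) (nat_lit 836) (nat_lit 357665185) (nat_lit 76) (nat_lit 8425390346) (nat_lit 308) (nat_lit 5) (nat_lit 319) (nat_lit 5) (nat_lit 309) (nat_lit 5) (nat_lit 447) (nat_lit 401) (nat_lit 292)) (XT.nd (nat_lit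 78) (nat_lit 760) (nat_lit 0) (XT.lf (nat_lit 0) (nat_lit 3937586461) (nat_lit 760) (nat_lit 4941355094) (nat_lit 76) (nat_lit 1878599947) (nat_lit 299) (nat_lit 5) (nat_lit 309) (nat_lit 5) (nat_lit 300) (nat_lit 5) (nat_lit 448) (nat_lit 401) (nat_lit 291)) (XT.lf (nat_lit 0) (nat_lit 1227631998) (nat_lit 760) (nat_lit 4830703246) (nat_lit 836) (nat_lit 4811969975) (nat_lit 289) (nat_lit 5) (nat_lit 299) (nat_lit 5) (nat_lit 300) (nat_lit 5) (nat_lit 449) (nat_lit 401) (nat_lit 290))))))) (XT.nd (nat_lit 858) (nat_lit 3420) (nat_lit 0) (XT.nd (nat_lit 390) (nat_lit 2584) (nat_lit 0) (XT.nd (nat_lit 156) (nat_lit 760) (nat_lit 0) (XT.nd (nat_lit 78) (nat_lit 684) (nat_lit 0) (XT.lf (nat_lit 0) (nat_lit 7565380614) (nat_lit 760) (nat_lit 669940966) (nat_lit 836) (nat_lit 2749732168) (nat_lit 289) (nat_lit 5) (nat_lit 299) (nat_lit 5) (nat_lit 300) (nat_lit 5) (nat_lit 450) (nat_lit 401) (nat_lit 289)) (XT.lf (nat_lit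 0) (nat_lit 2921349277) (nat_lit 684) (nat_lit 7557698946) (nat_lit 760) (nat_lit 622590886) (nat_lit 280) (nat_lit 5) (nat_lit 289) (nat_lit 5) (nat_lit 290) (nat_lit 5) (nat_lit 451) (nat_lit 401) (nat_lit 288))) (XT.nd (nat_lit 78) (nat_lit 684) (nat_lit 0) (XT.lf (nat_lit 0) (nat_lit 1535470755) (nat_lit 760) (nat_lit 1820845263) (nat_lit 76) (nat_lit 7863871550) (nat_lit 279) (nat_lit 5) (nat_lit 289) (nat_lit 5) (nat_lit 280) (nat_lit 5) (nat_lit 452) (nat_lit 401) (nat_lit 287)) (XT.nd (nat_lit 78) (nat_lit 0) (nat_lit 0) (XT.lf (nat_lit 0) (nat_lit 3746639510) (nat_lit 760) (nat_lit 6644936125) (nat_lit 76) (nat_lit 949088942) (nat_lit 270) (nat_lit 5) (nat_lit 280) (nat_lit 5) (nat_lit 271) (nat_lit 5) (nat_lit 453) (nat_lit 401) (nat_lit 286)) (XT.lf (nat_lit 0) (nat_lit 6018267492) (nat_lit 760) (nat_lit 139748671) (nat_lit 76) (nat_lit 5305215670) (nat_lit 270) (nat_lit 5) (nat_lit 280) (nat_lit 5) (nat_lit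 271) (nat_lit 5) (nat_lit 454) (nat_lit 401) (nat_lit 285))))) (XT.nd (nat_lit 234) (nat_lit 1216) (nat_lit 0) (XT.nd (nat_lit 78) (nat_lit 760) (nat_lit 0) (XT.lf (nat_lit 0) (nat_lit 6560556563) (nat_lit 608) (nat_lit 1799434451) (nat_lit 684) (nat_lit 3227771482) (nat_lit 262) (nat_lit 5) (nat_lit 270) (nat_lit 5) (nat_lit 271) (nat_lit 5) (nat_lit 455) (nat_lit 401) (nat_lit 284)) (XT.nd (nat_lit 78) (nat_lit 76) (nat_lit 0) (XT.lf (nat_lit 0) (nat_lit 1665422223) (nat_lit 684) (nat_lit 9094328333) (nat_lit 760) (nat_lit 954814397) (nat_lit 253) (nat_lit 5) (nat_lit 262) (nat_lit 5) (nat_lit 263) (nat_lit 5) (nat_lit 456) (nat_lit 401) (nat_lit 283)) (XT.lf (nat_lit 0) (nat_lit 1373945953) (nat_lit 760) (nat_lit 3325503625) (nat_lit 76) (nat_lit 7143717267) (nat_lit 252) (nat_lit 5) (nat_lit 262) (nat_lit 5) (nat_lit 253) (nat_lit 5) (nat_lit 457) (nat_lit 401) (nat_lit 282)))) (XT.nd (nat_lit 78) (nat_lit 608) (nat_lit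 0) (XT.lf (nat_lit 0) (nat_lit 3551958477) (nat_lit 608) (nat_lit 190310333) (nat_lit 684) (nat_lit 8231835208) (nat_lit 244) (nat_lit 5) (nat_lit 252) (nat_lit 5) (nat_lit 253) (nat_lit 5) (nat_lit 458) (nat_lit 401) (nat_lit 281)) (XT.nd (nat_lit 78) (nat_lit 608) (nat_lit 0) (XT.lf (nat_lit 0) (nat_lit 6191927157) (nat_lit 684) (nat_lit 1545036131) (nat_lit 76) (nat_lit 4370022081) (nat_lit 244) (nat_lit 5) (nat_lit 253) (nat_lit 5) (nat_lit 245) (nat_lit 5) (nat_lit 459) (nat_lit 401) (nat_lit 280)) (XT.lf (nat_lit 0) (nat_lit 5520069087) (nat_lit 608) (nat_lit 3190824709) (nat_lit 684) (nat_lit 3531228973) (nat_lit 236) (nat_lit 5) (nat_lit 244) (nat_lit 5) (nat_lit 245) (nat_lit 5) (nat_lit 460) (nat_lit 401) (nat_lit 279)))))) (XT.nd (nat_lit 390) (nat_lit 1672) (nat_lit 0) (XT.nd (nat_lit 156) (nat_lit 1140) (nat_lit 0) (XT.nd (nat_lit 78) (nat_lit 76) (nat_lit 0) (XT.lf (nat_lit 0) (nat_lit 341831414) (nat_lit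 532) (nat_lit 10943839211) (nat_lit 608) (nat_lit 1094188305) (nat_lit 229) (nat_lit 5) (nat_lit 236) (nat_lit 5) (nat_lit 237) (nat_lit 5) (nat_lit 461) (nat_lit 401) (nat_lit 278)) (XT.lf (nat_lit 0) (nat_lit 1423343598) (nat_lit 608) (nat_lit 4932743792) (nat_lit 76) (nat_lit 6163086145) (nat_lit 228) (nat_lit 5) (nat_lit 236) (nat_lit 5) (nat_lit 229) (nat_lit 5) (nat_lit 462) (nat_lit 401) (nat_lit 277))) (XT.nd (nat_lit 78) (nat_lit 532) (nat_lit 0) (XT.lf (nat_lit 0) (nat_lit 2317256841) (nat_lit 608) (nat_lit 1658164114) (nat_lit 684) (nat_lit 8685736267) (nat_lit 220) (nat_lit 5) (nat_lit 228) (nat_lit 5) (nat_lit 229) (nat_lit 5) (nat_lit 463) (nat_lit 401) (nat_lit 276)) (XT.nd (nat_lit 78) (nat_lit 532) (nat_lit 0) (XT.lf (nat_lit 0) (nat_lit 6616150766) (nat_lit 684) (nat_lit 3067456899) (nat_lit 76) (nat_lit 3121624978) (nat_lit 220) (nat_lit 5) (nat_lit 229) (nat_lit 5) (nat_lit 221) (nat_lit 5) (nat_lit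 464) (nat_lit 401) (nat_lit 275)) (XT.lf (nat_lit 0) (nat_lit 4380698587) (nat_lit 532) (nat_lit 4952679235) (nat_lit 608) (nat_lit 3618342292) (nat_lit 213) (nat_lit 5) (nat_lit 220) (nat_lit 5) (nat_lit 221) (nat_lit 5) (nat_lit 465) (nat_lit 401) (nat_lit 274))))) (XT.nd (nat_lit 234) (nat_lit 532) (nat_lit 0) (XT.nd (nat_lit 78) (nat_lit 1140) (nat_lit 0) (XT.lf (nat_lit 0) (nat_lit 11999241558) (nat_lit 532) (nat_lit 110728925) (nat_lit 608) (nat_lit 991070542) (nat_lit 213) (nat_lit 5) (nat_lit 220) (nat_lit 5) (nat_lit 221) (nat_lit 5) (nat_lit 466) (nat_lit 401) (nat_lit 273)) (XT.nd (nat_lit 78) (nat_lit 532) (nat_lit 0) (XT.lf (nat_lit 0) (nat_lit 1725577860) (nat_lit 608) (nat_lit 6712191440) (nat_lit 76) (nat_lit 4814184129) (nat_lit 205) (nat_lit 5) (nat_lit 213) (nat_lit 5) (nat_lit 206) (nat_lit 5) (nat_lit 467) (nat_lit 401) (nat_lit 272)) (XT.lf (nat_lit 0) (nat_lit 928064874) (nat_lit 532) (nat_lit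 3554217079) (nat_lit 608) (nat_lit 8923495119) (nat_lit 198) (nat_lit 5) (nat_lit 205) (nat_lit 5) (nat_lit 206) (nat_lit 5) (nat_lit 468) (nat_lit 401) (nat_lit 271)))) (XT.nd (nat_lit 78) (nat_lit 532) (nat_lit 0) (XT.lf (nat_lit 0) (nat_lit 7333641743) (nat_lit 608) (nat_lit 4779483227) (nat_lit 76) (nat_lit 1448765584) (nat_lit 198) (nat_lit 5) (nat_lit 206) (nat_lit 5) (nat_lit 199) (nat_lit 5) (nat_lit 469) (nat_lit 401) (nat_lit 270)) (XT.nd (nat_lit 78) (nat_lit 0) (nat_lit 0) (XT.lf (nat_lit 0) (nat_lit 3069572259) (nat_lit 532) (nat_lit 7201135708) (nat_lit 608) (nat_lit 3449848479) (nat_lit 191) (nat_lit 5) (nat_lit 198) (nat_lit 5) (nat_lit 199) (nat_lit 5) (nat_lit 470) (nat_lit 401) (nat_lit 269)) (XT.lf (nat_lit 0) (nat_lit 11120668462) (nat_lit 532) (nat_lit 2163293464) (nat_lit 608) (nat_lit 598088453) (nat_lit 191) (nat_lit 5) (nat_lit 198) (nat_lit 5) (nat_lit 199) (nat_lit 5) (nat_lit 471) (nat_lit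 401) (nat_lit 268))))))))
noncomputable def xc149 : XT := (XT.nd (nat_lit 1716) (nat_lit 2128) (nat_lit 0) (XT.nd (nat_lit 858) (nat_lit 2356) (nat_lit 0) (XT.nd (nat_lit 390) (nat_lit 1748) (nat_lit 0) (XT.nd (nat_lit 156) (nat_lit 988) (nat_lit 0) (XT.nd (nat_lit 78) (nat_lit 0) (nat_lit 0) (XT.lf (nat_lit 0) (nat_lit 2320125179) (nat_lit 532) (nat_lit 8744425182) (nat_lit 76) (nat_lit 2981132810) (nat_lit 184) (nat_lit 5) (nat_lit 191) (nat_lit 5) (nat_lit 185) (nat_lit 5) (nat_lit 472) (nat_lit 401) (nat_lit 267)) (XT.lf (nat_lit 0) (nat_lit 5307367323) (nat_lit 532) (nat_lit 687709443) (nat_lit 76) (nat_lit 8217062775) (nat_lit 184) (nat_lit 5) (nat_lit 191) (nat_lit 5) (nat_lit 185) (nat_lit 5) (nat_lit 473) (nat_lit 401) (nat_lit 266))) (XT.nd (nat_lit 78) (nat_lit 532) (nat_lit 0) (XT.lf (nat_lit 0) (nat_lit 7610678213) (nat_lit 456) (nat_lit 779056006) (nat_lit 532) (nat_lit 5991486592) (nat_lit 178) (nat_lit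 5) (nat_lit 184) (nat_lit 5) (nat_lit 185) (nat_lit 5) (nat_lit 474) (nat_lit 401) (nat_lit 265)) (XT.nd (nat_lit 78) (nat_lit 76) (nat_lit 0) (XT.lf (nat_lit 0) (nat_lit 1501543973) (nat_lit 456) (nat_lit 10062166955) (nat_lit 532) (nat_lit 2989376839) (nat_lit 172) (nat_lit 5) (nat_lit 178) (nat_lit 5) (nat_lit 179) (nat_lit 5) (nat_lit 475) (nat_lit 401) (nat_lit 264)) (XT.lf (nat_lit 0) (nat_lit 108851099) (nat_lit 532) (nat_lit 4722024866) (nat_lit 76) (nat_lit 9896769214) (nat_lit 171) (nat_lit 5) (nat_lit 178) (nat_lit 5) (nat_lit 172) (nat_lit 5) (nat_lit 476) (nat_lit 401) (nat_lit 263))))) (XT.nd (nat_lit 234) (nat_lit 912) (nat_lit 0) (XT.nd (nat_lit 78) (nat_lit 380) (nat_lit 0) (XT.lf (nat_lit 0) (nat_lit 3243572497) (nat_lit 532) (nat_lit 11123768366) (nat_lit 76) (nat_lit 537669664) (nat_lit 165) (nat_lit 5) (nat_lit 172) (nat_lit 5) (nat_lit 166) (nat_lit 5) (nat_lit 477) (nat_lit 401) (nat_lit 262))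 (XT.nd (nat_lit 78) (nat_lit 380) (nat_lit 0) (XT.lf (nat_lit 0) (nat_lit 6491393926) (nat_lit 532) (nat_lit 2618095846) (nat_lit 76) (nat_lit 5975428354) (nat_lit 165) (nat_lit 5) (nat_lit 172) (nat_lit 5) (nat_lit 166) (nat_lit 5) (nat_lit 478) (nat_lit 401) (nat_lit 261)) (XT.lf (nat_lit 0) (nat_lit 6119133044) (nat_lit 380) (nat_lit 3711548529) (nat_lit 456) (nat_lit 5437215104) (nat_lit 160) (nat_lit 5) (nat_lit 165) (nat_lit 5) (nat_lit 166) (nat_lit 5) (nat_lit 479) (nat_lit 401) (nat_lit 260)))) (XT.nd (nat_lit 78) (nat_lit 912) (nat_lit 0) (XT.lf (nat_lit 0) (nat_lit 13252972053) (nat_lit 456) (nat_lit 418269439) (nat_lit 76) (nat_lit 1782971900) (nat_lit 160) (nat_lit 5) (nat_lit 166) (nat_lit 5) (nat_lit 161) (nat_lit 5) (nat_lit 480) (nat_lit 401) (nat_lit 259)) (XT.nd (nat_lit 78) (nat_lit 380) (nat_lit 0) (XT.lf (nat_lit 0) (nat_lit 1152744590) (nat_lit 532) (nat_lit 7094574614) (nat_lit 76) (nat_lit 7395443049)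 (nat_lit 153) (nat_lit 5) (nat_lit 160) (nat_lit 5) (nat_lit 154) (nat_lit 5) (nat_lit 481) (nat_lit 401) (nat_lit 258)) (XT.lf (nat_lit 0) (nat_lit 1855764768) (nat_lit 380) (nat_lit 2690657169) (nat_lit 456) (nat_lit 11288330192) (nat_lit 148) (nat_lit 5) (nat_lit 153) (nat_lit 5) (nat_lit 154) (nat_lit 5) (nat_lit 482) (nat_lit 401) (nat_lit 257)))))) (XT.nd (nat_lit 390) (nat_lit 1520) (nat_lit 0) (XT.nd (nat_lit 156) (nat_lit 456) (nat_lit 0) (XT.nd (nat_lit 78) (nat_lit 380) (nat_lit 0) (XT.lf (nat_lit 0) (nat_lit 8062504281) (nat_lit 456) (nat_lit 4986686418) (nat_lit 76) (nat_lit 2980303186) (nat_lit 148) (nat_lit 5) (nat_lit 154) (nat_lit 5) (nat_lit 149) (nat_lit 5) (nat_lit 483) (nat_lit 401) (nat_lit 256)) (XT.lf (nat_lit 0) (nat_lit 4204458651) (nat_lit 380) (nat_lit 7477094399) (nat_lit 456) (nat_lit 4545927191) (nat_lit 143) (nat_lit 5) (nat_lit 148) (nat_lit 5) (nat_lit 149) (nat_lit 5) (nat_lit 484)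 (nat_lit 401) (nat_lit 255))) (XT.nd (nat_lit 78) (nat_lit 456) (nat_lit 0) (XT.lf (nat_lit 0) (nat_lit 13628817828) (nat_lit 380) (nat_lit 1765282338) (nat_lit 456) (nat_lit 1034906418) (nat_lit 143) (nat_lit 5) (nat_lit 148) (nat_lit 5) (nat_lit 149) (nat_lit 5) (nat_lit 485) (nat_lit 401) (nat_lit 254)) (XT.nd (nat_lit 78) (nat_lit 0) (nat_lit 0) (XT.lf (nat_lit 0) (nat_lit 2570716318) (nat_lit 456) (nat_lit 10000435538) (nat_lit 76) (nat_lit 4061927911) (nat_lit 137) (nat_lit 5) (nat_lit 143) (nat_lit 5) (nat_lit 138) (nat_lit 5) (nat_lit 486) (nat_lit 401) (nat_lit 253)) (XT.lf (nat_lit 0) (nat_lit 6253111259) (nat_lit 456) (nat_lit 585535691) (nat_lit 76) (nat_lit 10002082763) (nat_lit 137) (nat_lit 5) (nat_lit 143) (nat_lit 5) (nat_lit 138) (nat_lit 5) (nat_lit 487) (nat_lit 401) (nat_lit 252))))) (XT.nd (nat_lit 234) (nat_lit 684) (nat_lit 0) (XT.nd (nat_lit 78) (nat_lit 456) (nat_lit 0) (XT.lf (nat_lit 0) (nat_lit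 9119521687) (nat_lit 380) (nat_lit 936978081) (nat_lit 456) (nat_lit 6995088385) (nat_lit 132) (nat_lit 5) (nat_lit 137) (nat_lit 5) (nat_lit 138) (nat_lit 5) (nat_lit 488) (nat_lit 401) (nat_lit 251)) (XT.nd (nat_lit 78) (nat_lit 76) (nat_lit 0) (XT.lf (nat_lit 0) (nat_lit 1731892784) (nat_lit 380) (nat_lit 12240479230) (nat_lit 456) (nat_lit 3293565790) (nat_lit 127) (nat_lit 5) (nat_lit 132) (nat_lit 5) (nat_lit 133) (nat_lit 5) (nat_lit 489) (nat_lit 401) (nat_lit 250)) (XT.lf (nat_lit 0) (nat_lit 523704107) (nat_lit 456) (nat_lit 5814412551) (nat_lit 76) (nat_lit 11145436709) (nat_lit 126) (nat_lit 5) (nat_lit 132) (nat_lit 5) (nat_lit 127) (nat_lit 5) (nat_lit 490) (nat_lit 401) (nat_lit 249)))) (XT.nd (nat_lit 78) (nat_lit 304) (nat_lit 0) (XT.lf (nat_lit 0) (nat_lit 4114242158) (nat_lit 380) (nat_lit 274212564) (nat_lit 456) (nat_lit 13316328612) (nat_lit 121) (nat_lit 5) (nat_lit 126) (nat_lit 5) (nat_lit 127)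 (nat_lit 5) (nat_lit 491) (nat_lit 401) (nat_lit 248)) (XT.nd (nat_lit 78) (nat_lit 304) (nat_lit 0) (XT.lf (nat_lit 0) (nat_lit 8396710903) (nat_lit 456) (nat_lit 3665601849) (nat_lit 76) (nat_lit 5866803119) (nat_lit 121) (nat_lit 5) (nat_lit 127) (nat_lit 5) (nat_lit 122) (nat_lit 5) (nat_lit 492) (nat_lit 401) (nat_lit 247)) (XT.lf (nat_lit 0) (nat_lit 6524339322) (nat_lit 304) (nat_lit 5993750037) (nat_lit 380) (nat_lit 5639188696) (nat_lit 117) (nat_lit 5) (nat_lit 121) (nat_lit 5) (nat_lit 122) (nat_lit 5) (nat_lit 493) (nat_lit 401) (nat_lit 246))))))) (XT.nd (nat_lit 52182) (nat_lit 0) (nat_lit 34276) (XT.nd (nat_lit 390) (nat_lit 1064) (nat_lit 0) (XT.nd (nat_lit 156) (nat_lit 608) (nat_lit 0) (XT.nd (nat_lit 78) (nat_lit 456) (nat_lit 0) (XT.lf (nat_lit 0) (nat_lit 16736780608) (nat_lit 380) (nat_lit 1440501221) (nat_lit 76) (nat_lit 212426046) (nat_lit 117) (nat_lit 5) (nat_lit 122) (nat_lit 5) (nat_lit 118)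 (nat_lit 5) (nat_lit 494) (nat_lit 401) (nat_lit 245)) (XT.lf (nat_lit 0) (nat_lit 2469297416) (nat_lit 456) (nat_lit 9623912648) (nat_lit 76) (nat_lit 6531507186) (nat_lit 111) (nat_lit 5) (nat_lit 117) (nat_lit 5) (nat_lit 112) (nat_lit 5) (nat_lit 495) (nat_lit 401) (nat_lit 244))) (XT.nd (nat_lit 78) (nat_lit 304) (nat_lit 0) (XT.lf (nat_lit 0) (nat_lit 788544734) (nat_lit 304) (nat_lit 5867260332) (nat_lit 380) (nat_lit 12208325780) (nat_lit 107) (nat_lit 5) (nat_lit 111) (nat_lit 5) (nat_lit 112) (nat_lit 5) (nat_lit 496) (nat_lit 401) (nat_lit 243)) (XT.nd (nat_lit 78) (nat_lit 304) (nat_lit 0) (XT.lf (nat_lit 0) (nat_lit 10983353888) (nat_lit 380) (nat_lit 7587982454) (nat_lit 76) (nat_lit 535852091) (nat_lit 107) (nat_lit 5) (nat_lit 112) (nat_lit 5) (nat_lit 108) (nat_lit 5) (nat_lit 497) (nat_lit 401) (nat_lit 242)) (XT.lf (nat_lit 0) (nat_lit 3094352892) (nat_lit 304) (nat_lit 12351424371) (nat_lit 380) (nat_lit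 3908365335) (nat_lit 103) (nat_lit 5) (nat_lit 107) (nat_lit 5) (nat_lit 108) (nat_lit 5) (nat_lit 498) (nat_lit 401) (nat_lit 241))))) (XT.nd (nat_lit 234) (nat_lit 684) (nat_lit 0) (XT.nd (nat_lit 78) (nat_lit 304) (nat_lit 0) (XT.lf (nat_lit 0) (nat_lit 426942083) (nat_lit 380) (nat_lit 5531483734) (nat_lit 76) (nat_lit 13646747784) (nat_lit 102) (nat_lit 5) (nat_lit 107) (nat_lit 5) (nat_lit 103) (nat_lit 5) (nat_lit 499) (nat_lit 401) (nat_lit 240)) (XT.nd (nat_lit 78) (nat_lit 0) (nat_lit 0) (XT.lf (nat_lit 0) (nat_lit 4825625373) (nat_lit 380) (nat_lit 14423822003) (nat_lit 76) (nat_lit 610682897) (nat_lit 98) (nat_lit 5) (nat_lit 103) (nat_lit 5) (nat_lit 99) (nat_lit 5) (nat_lit 500) (nat_lit 401) (nat_lit 239)) (XT.lf (nat_lit 0) (nat_lit 9378778780) (nat_lit 380) (nat_lit 3477223235) (nat_lit 76) (nat_lit 7262855890) (nat_lit 98) (nat_lit 5) (nat_lit 103) (nat_lit 5) (nat_lit 99) (nat_lit 5) (nat_lit 501)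 (nat_lit 401) (nat_lit 238)))) (XT.nd (nat_lit 78) (nat_lit 380) (nat_lit 0) (XT.lf (nat_lit 0) (nat_lit 7774078914) (nat_lit 304) (nat_lit 6289265020) (nat_lit 380) (nat_lit 6318610901) (nat_lit 94) (nat_lit 5) (nat_lit 98) (nat_lit 5) (nat_lit 99) (nat_lit 5) (nat_lit 502) (nat_lit 401) (nat_lit 237)) (XT.nd (nat_lit 78) (nat_lit 380) (nat_lit 0) (XT.lf (nat_lit 0) (nat_lit 18857672235) (nat_lit 380) (nat_lit 1371357605) (nat_lit 76) (nat_lit 420964114) (nat_lit 94) (nat_lit 5) (nat_lit 99) (nat_lit 5) (nat_lit 95) (nat_lit 5) (nat_lit 503) (nat_lit 401) (nat_lit 236)) (XT.lf (nat_lit 0) (nat_lit 2885874795) (nat_lit 380) (nat_lit 10774786525) (nat_lit 76) (nat_lit 7260398883) (nat_lit 89) (nat_lit 5) (nat_lit 94) (nat_lit 5) (nat_lit 90) (nat_lit 5) (nat_lit 504) (nat_lit 401) (nat_lit 235)))))) (XT.nd (nat_lit 390) (nat_lit 1216) (nat_lit 0) (XT.nd (nat_lit 156) (nat_lit 1216) (nat_lit 0) (XT.nd (nat_lit 78) (nat_lit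 0) (nat_lit 0) (XT.lf (nat_lit 0) (nat_lit 1454093651) (nat_lit 0) (nat_lit 1454093651) (nat_lit 1140) (nat_lit 777547820) (nat_lit 572) (nat_lit 5) (nat_lit 572) (nat_lit 3) (nat_lit 587) (nat_lit 3) (nat_lit 402) (nat_lit 402) (nat_lit 336)) (XT.lf (nat_lit 0) (nat_lit 6507761697) (nat_lit 0) (nat_lit 865506158) (nat_lit 1140) (nat_lit 41277167) (nat_lit 572) (nat_lit 5) (nat_lit 572) (nat_lit 3) (nat_lit 587) (nat_lit 3) (nat_lit 403) (nat_lit 402) (nat_lit 335))) (XT.nd (nat_lit 78) (nat_lit 0) (nat_lit 0) (XT.lf (nat_lit 0) (nat_lit 1469437392) (nat_lit 1216) (nat_lit 4740306835) (nat_lit 1292) (nat_lit 1248832442) (nat_lit 556) (nat_lit 5) (nat_lit 572) (nat_lit 5) (nat_lit 573) (nat_lit 5) (nat_lit 404) (nat_lit 402) (nat_lit 334)) (XT.nd (nat_lit 78) (nat_lit 0) (nat_lit 0) (XT.lf (nat_lit 0) (nat_lit 2982849946) (nat_lit 1216) (nat_lit 1102281659) (nat_lit 1292) (nat_lit 3418907935) (nat_lit 556) (nat_lit 5)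 (nat_lit 572) (nat_lit 5) (nat_lit 573) (nat_lit 5) (nat_lit 405) (nat_lit 402) (nat_lit 333)) (XT.lf (nat_lit 76) (nat_lit 2622323055) (nat_lit 0) (nat_lit 1883173524) (nat_lit 1292) (nat_lit 3045352217) (nat_lit 557) (nat_lit 5) (nat_lit 556) (nat_lit 5) (nat_lit 573) (nat_lit 5) (nat_lit 406) (nat_lit 402) (nat_lit 332))))) (XT.nd (nat_lit 234) (nat_lit 0) (nat_lit 0) (XT.nd (nat_lit 78) (nat_lit 1292) (nat_lit 0) (XT.lf (nat_lit 0) (nat_lit 6031061691) (nat_lit 1216) (nat_lit 1185802734) (nat_lit 1292) (nat_lit 382296624) (nat_lit 557) (nat_lit 5) (nat_lit 573) (nat_lit 5) (nat_lit 574) (nat_lit 5) (nat_lit 407) (nat_lit 402) (nat_lit 331)) (XT.nd (nat_lit 78) (nat_lit 1292) (nat_lit 0) (XT.lf (nat_lit 76) (nat_lit 2632939430) (nat_lit 0) (nat_lit 4947160869) (nat_lit 1292) (nat_lit 68495812) (nat_lit 558) (nat_lit 5) (nat_lit 557) (nat_lit 5) (nat_lit 574) (nat_lit 5) (nat_lit 408) (nat_lit 402) (nat_lit 330)) (XT.lf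 (nat_lit 0) (nat_lit 1413672439) (nat_lit 1292) (nat_lit 1185524772) (nat_lit 1368) (nat_lit 5100213422) (nat_lit 540) (nat_lit 5) (nat_lit 557) (nat_lit 5) (nat_lit 558) (nat_lit 5) (nat_lit 409) (nat_lit 402) (nat_lit 329)))) (XT.nd (nat_lit 78) (nat_lit 0) (nat_lit 76) (XT.lf (nat_lit 76) (nat_lit 2735798189) (nat_lit 0) (nat_lit 170968616) (nat_lit 1368) (nat_lit 4844836484) (nat_lit 541) (nat_lit 5) (nat_lit 540) (nat_lit 5) (nat_lit 558) (nat_lit 5) (nat_lit 410) (nat_lit 402) (nat_lit 328)) (XT.nd (nat_lit 78) (nat_lit 0) (nat_lit 0) (XT.lf (nat_lit 0) (nat_lit 4417794375) (nat_lit 1292) (nat_lit 1089595422) (nat_lit 1368) (nat_lit 2297703176) (nat_lit 541) (nat_lit 5) (nat_lit 558) (nat_lit 5) (nat_lit 559) (nat_lit 5) (nat_lit 411) (nat_lit 402) (nat_lit 327)) (XT.lf (nat_lit 76) (nat_lit 2931364503) (nat_lit 0) (nat_lit 3013619257) (nat_lit 1368) (nat_lit 1914964183) (nat_lit 542) (nat_lit 5) (nat_lit 541)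 (nat_lit 5) (nat_lit 559) (nat_lit 5) (nat_lit 412) (nat_lit 402) (nat_lit 326))))))))
noncomputable def xc150 : XT := (XT.nd (nat_lit 1716) (nat_lit 9500) (nat_lit 0) (XT.nd (nat_lit 858) (nat_lit 9044) (nat_lit 0) (XT.nd (nat_lit 390) (nat_lit 1368) (nat_lit 0) (XT.nd (nat_lit 156) (nat_lit 0) (nat_lit 0) (XT.nd (nat_lit 78) (nat_lit 1292) (nat_lit 0) (XT.lf (nat_lit 76) (nat_lit 7026565034) (nat_lit 0) (nat_lit 449775353) (nat_lit 1368) (nat_lit 440101191) (nat_lit 542) (nat_lit 5) (nat_lit 541) (nat_lit 5) (nat_lit 559) (nat_lit 5) (nat_lit 413) (nat_lit 402) (nat_lit 325)) (XT.lf (nat_lit 0) (nat_lit 1052428639) (nat_lit 1368) (nat_lit 4744257620) (nat_lit 1444) (nat_lit 2177211572) (nat_lit 524) (nat_lit 5) (nat_lit 542) (nat_lit 5) (nat_lit 543) (nat_lit 5) (nat_lit 414) (nat_lit 402) (nat_lit 324))) (XT.nd (nat_lit 78) (nat_lit 0) (nat_lit 0) (XT.lf (nat_lit 0) (nat_lit 2545245235) (nat_lit 1368) (nat_lit 616306991)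 (nat_lit 1444) (nat_lit 4871379445) (nat_lit 524) (nat_lit 5) (nat_lit 542) (nat_lit 5) (nat_lit 543) (nat_lit 5) (nat_lit 415) (nat_lit 402) (nat_lit 323)) (XT.nd (nat_lit 78) (nat_lit 0) (nat_lit 76) (XT.lf (nat_lit 76) (nat_lit 3620509558) (nat_lit 0) (nat_lit 438889749) (nat_lit 1444) (nat_lit 4033930223) (nat_lit 525) (nat_lit 5) (nat_lit 524) (nat_lit 5) (nat_lit 543) (nat_lit 5) (nat_lit 416) (nat_lit 402) (nat_lit 322)) (XT.lf (nat_lit 0) (nat_lit 5591714821) (nat_lit 1368) (nat_lit 241393648) (nat_lit 1444) (nat_lit 2322082024) (nat_lit 525) (nat_lit 5) (nat_lit 543) (nat_lit 5) (nat_lit 544) (nat_lit 5) (nat_lit 417) (nat_lit 402) (nat_lit 321))))) (XT.nd (nat_lit 234) (nat_lit 0) (nat_lit 76) (XT.nd (nat_lit 78) (nat_lit 1444) (nat_lit 0) (XT.lf (nat_lit 76) (nat_lit 4104260253) (nat_lit 0) (nat_lit 3049121420) (nat_lit 1444) (nat_lit 1064945365) (nat_lit 526) (nat_lit 5) (nat_lit 525) (nat_lit 5) (nat_lit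 544) (nat_lit 5) (nat_lit 418) (nat_lit 402) (nat_lit 320)) (XT.nd (nat_lit 78) (nat_lit 0) (nat_lit 76) (XT.lf (nat_lit 76) (nat_lit 235877815) (nat_lit 0) (nat_lit 194165185) (nat_lit 1520) (nat_lit 7853183758) (nat_lit 507) (nat_lit 5) (nat_lit 506) (nat_lit 5) (nat_lit 526) (nat_lit 5) (nat_lit 419) (nat_lit 402) (nat_lit 319)) (XT.lf (nat_lit 0) (nat_lit 1956043472) (nat_lit 1444) (nat_lit 3667294999) (nat_lit 1520) (nat_lit 2725649523) (nat_lit 507) (nat_lit 5) (nat_lit 526) (nat_lit 5) (nat_lit 527) (nat_lit 5) (nat_lit 420) (nat_lit 402) (nat_lit 318)))) (XT.nd (nat_lit 78) (nat_lit 0) (nat_lit 76) (XT.lf (nat_lit 76) (nat_lit 787709578) (nat_lit 0) (nat_lit 2701766230) (nat_lit 1520) (nat_lit 4927061923) (nat_lit 508) (nat_lit 5) (nat_lit 507) (nat_lit 5) (nat_lit 527) (nat_lit 5) (nat_lit 421) (nat_lit 402) (nat_lit 317)) (XT.nd (nat_lit 78) (nat_lit 0) (nat_lit 0) (XT.lf (nat_lit 0) (nat_lit 5051154355) (nat_lit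 1444) (nat_lit 3127584126) (nat_lit 1520) (nat_lit 306759718) (nat_lit 508) (nat_lit 5) (nat_lit 527) (nat_lit 5) (nat_lit 528) (nat_lit 5) (nat_lit 422) (nat_lit 402) (nat_lit 316)) (XT.lf (nat_lit 76) (nat_lit 1442958348) (nat_lit 0) (nat_lit 5199936518) (nat_lit 1520) (nat_lit 1912977510) (nat_lit 509) (nat_lit 5) (nat_lit 508) (nat_lit 5) (nat_lit 528) (nat_lit 5) (nat_lit 423) (nat_lit 402) (nat_lit 315)))))) (XT.nd (nat_lit 390) (nat_lit 6232) (nat_lit 0) (XT.nd (nat_lit 156) (nat_lit 1520) (nat_lit 0) (XT.nd (nat_lit 78) (nat_lit 1444) (nat_lit 0) (XT.lf (nat_lit 76) (nat_lit 6125691449) (nat_lit 0) (nat_lit 2133750899) (nat_lit 1520) (nat_lit 368363096) (nat_lit 509) (nat_lit 5) (nat_lit 508) (nat_lit 5) (nat_lit 528) (nat_lit 5) (nat_lit 424) (nat_lit 402) (nat_lit 314)) (XT.lf (nat_lit 0) (nat_lit 1184577392) (nat_lit 1520) (nat_lit 6507583620) (nat_lit 76) (nat_lit 1009004525) (nat_lit 489) (nat_lit 5) (nat_lit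 509) (nat_lit 5) (nat_lit 490) (nat_lit 5) (nat_lit 425) (nat_lit 402) (nat_lit 313))) (XT.nd (nat_lit 78) (nat_lit 1520) (nat_lit 0) (XT.lf (nat_lit 0) (nat_lit 2767463813) (nat_lit 1520) (nat_lit 1797250827) (nat_lit 76) (nat_lit 4211163328) (nat_lit 489) (nat_lit 5) (nat_lit 509) (nat_lit 5) (nat_lit 490) (nat_lit 5) (nat_lit 426) (nat_lit 402) (nat_lit 312)) (XT.nd (nat_lit 78) (nat_lit 0) (nat_lit 0) (XT.lf (nat_lit 0) (nat_lit 3025377897) (nat_lit 1520) (nat_lit 1349588899) (nat_lit 1596) (nat_lit 4477268700) (nat_lit 469) (nat_lit 5) (nat_lit 489) (nat_lit 5) (nat_lit 490) (nat_lit 5) (nat_lit 427) (nat_lit 402) (nat_lit 311)) (XT.lf (nat_lit 0) (nat_lit 6013021554) (nat_lit 1596) (nat_lit 995681628) (nat_lit 76) (nat_lit 1921458785) (nat_lit 469) (nat_lit 5) (nat_lit 490) (nat_lit 5) (nat_lit 470) (nat_lit 5) (nat_lit 428) (nat_lit 402) (nat_lit 310))))) (XT.nd (nat_lit 234) (nat_lit 2888) (nat_lit 0) (XT.nd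 (nat_lit 78) (nat_lit 1748) (nat_lit 0) (XT.lf (nat_lit 0) (nat_lit 3953447618) (nat_lit 1596) (nat_lit 3739242483) (nat_lit 1672) (nat_lit 1316789447) (nat_lit 448) (nat_lit 5) (nat_lit 469) (nat_lit 5) (nat_lit 470) (nat_lit 5) (nat_lit 429) (nat_lit 402) (nat_lit 309)) (XT.nd (nat_lit 78) (nat_lit 1672) (nat_lit 0) (XT.lf (nat_lit 0) (nat_lit 292590521) (nat_lit 1672) (nat_lit 99076563) (nat_lit 76) (nat_lit 8699061466) (nat_lit 447) (nat_lit 5) (nat_lit 469) (nat_lit 5) (nat_lit 448) (nat_lit 5) (nat_lit 430) (nat_lit 402) (nat_lit 308)) (XT.lf (nat_lit 0) (nat_lit 1943815862) (nat_lit 1748) (nat_lit 4200801741) (nat_lit 76) (nat_lit 3028274137) (nat_lit 425) (nat_lit 5) (nat_lit 448) (nat_lit 5) (nat_lit 426) (nat_lit 5) (nat_lit 431) (nat_lit 402) (nat_lit 307)))) (XT.nd (nat_lit 78) (nat_lit 1140) (nat_lit 0) (XT.lf (nat_lit 0) (nat_lit 876487351) (nat_lit 1748) (nat_lit 2735844684) (nat_lit 1824) (nat_lit 5644689732)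 (nat_lit 402) (nat_lit 5) (nat_lit 425) (nat_lit 5) (nat_lit 426) (nat_lit 5) (nat_lit 432) (nat_lit 402) (nat_lit 306)) (XT.nd (nat_lit 78) (nat_lit 1140) (nat_lit 0) (XT.lf (nat_lit 0) (nat_lit 5323080635) (nat_lit 1824) (nat_lit 3257121854) (nat_lit 76) (nat_lit 762463391) (nat_lit 402) (nat_lit 5) (nat_lit 426) (nat_lit 5) (nat_lit 403) (nat_lit 5) (nat_lit 433) (nat_lit 402) (nat_lit 305)) (XT.lf (nat_lit 0) (nat_lit 1954591259) (nat_lit 1140) (nat_lit 5120412693) (nat_lit 1216) (nat_lit 2354888283) (nat_lit 387) (nat_lit 5) (nat_lit 402) (nat_lit 5) (nat_lit 403) (nat_lit 5) (nat_lit 434) (nat_lit 402) (nat_lit 304))))))) (XT.nd (nat_lit 858) (nat_lit 4332) (nat_lit 0) (XT.nd (nat_lit 390) (nat_lit 2508) (nat_lit 0) (XT.nd (nat_lit 156) (nat_lit 1672) (nat_lit 0) (XT.nd (nat_lit 78) (nat_lit 988) (nat_lit 0) (XT.lf (nat_lit 0) (nat_lit 7293148101) (nat_lit 1140) (nat_lit 1567153468) (nat_lit 1216) (nat_lit 658603219)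 (nat_lit 387) (nat_lit 5) (nat_lit 402) (nat_lit 5) (nat_lit 403) (nat_lit 5) (nat_lit 435) (nat_lit 402) (nat_lit 303)) (XT.lf (nat_lit 0) (nat_lit 1068278952) (nat_lit 988) (nat_lit 6481584804) (nat_lit 76) (nat_lit 2059488232) (nat_lit 374) (nat_lit 5) (nat_lit 387) (nat_lit 5) (nat_lit 375) (nat_lit 5) (nat_lit 436) (nat_lit 402) (nat_lit 302))) (XT.nd (nat_lit 78) (nat_lit 1672) (nat_lit 0) (XT.lf (nat_lit 0) (nat_lit 2823408421) (nat_lit 988) (nat_lit 1119387530) (nat_lit 76) (nat_lit 5758682451) (nat_lit 374) (nat_lit 5) (nat_lit 387) (nat_lit 5) (nat_lit 375) (nat_lit 5) (nat_lit 437) (nat_lit 402) (nat_lit 301)) (XT.nd (nat_lit 78) (nat_lit 836) (nat_lit 0) (XT.lf (nat_lit 0) (nat_lit 4386235501) (nat_lit 836) (nat_lit 233438911) (nat_lit 912) (nat_lit 5175660002) (nat_lit 363) (nat_lit 5) (nat_lit 374) (nat_lit 5) (nat_lit 375) (nat_lit 5) (nat_lit 438) (nat_lit 402) (nat_lit 300)) (XT.lf (nat_lit 0) (nat_lit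 82549985) (nat_lit 836) (nat_lit 6378326860) (nat_lit 912) (nat_lit 3430018076) (nat_lit 352) (nat_lit 5) (nat_lit 363) (nat_lit 5) (nat_lit 364) (nat_lit 5) (nat_lit 439) (nat_lit 402) (nat_lit 299))))) (XT.nd (nat_lit 234) (nat_lit 1596) (nat_lit 0) (XT.nd (nat_lit 78) (nat_lit 912) (nat_lit 0) (XT.lf (nat_lit 0) (nat_lit 5734269069) (nat_lit 836) (nat_lit 2620626357) (nat_lit 912) (nat_lit 1633158819) (nat_lit 352) (nat_lit 5) (nat_lit 363) (nat_lit 5) (nat_lit 364) (nat_lit 5) (nat_lit 440) (nat_lit 402) (nat_lit 298)) (XT.nd (nat_lit 78) (nat_lit 0) (nat_lit 0) (XT.lf (nat_lit 0) (nat_lit 192537166) (nat_lit 912) (nat_lit 8687686044) (nat_lit 76) (nat_lit 1207004422) (nat_lit 340) (nat_lit 5) (nat_lit 352) (nat_lit 5) (nat_lit 341) (nat_lit 5) (nat_lit 441) (nat_lit 402) (nat_lit 297)) (XT.lf (nat_lit 0) (nat_lit 2057711513) (nat_lit 912) (nat_lit 3014259196) (nat_lit 76) (nat_lit 5115708244) (nat_lit 340) (nat_lit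 5) (nat_lit 352) (nat_lit 5) (nat_lit 341) (nat_lit 5) (nat_lit 442) (nat_lit 402) (nat_lit 296)))) (XT.nd (nat_lit 78) (nat_lit 760) (nat_lit 0) (XT.lf (nat_lit 0) (nat_lit 2787943833) (nat_lit 836) (nat_lit 1169486575) (nat_lit 912) (nat_lit 6332770953) (nat_lit 329) (nat_lit 5) (nat_lit 340) (nat_lit 5) (nat_lit 341) (nat_lit 5) (nat_lit 443) (nat_lit 402) (nat_lit 295)) (XT.nd (nat_lit 78) (nat_lit 760) (nat_lit 0) (XT.lf (nat_lit 0) (nat_lit 5913164452) (nat_lit 912) (nat_lit 1687236780) (nat_lit 76) (nat_lit 2794019315) (nat_lit 329) (nat_lit 5) (nat_lit 341) (nat_lit 5) (nat_lit 330) (nat_lit 5) (nat_lit 444) (nat_lit 402) (nat_lit 294)) (XT.lf (nat_lit 0) (nat_lit 4271247848) (nat_lit 760) (nat_lit 3652054168) (nat_lit 836) (nat_lit 2577122938) (nat_lit 319) (nat_lit 5) (nat_lit 329) (nat_lit 5) (nat_lit 330) (nat_lit 5) (nat_lit 445) (nat_lit 402) (nat_lit 293)))))) (XT.nd (nat_lit 390) (nat_lit 2052) (nat_lit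 0) (XT.nd (nat_lit 156) (nat_lit 1444) (nat_lit 0) (XT.nd (nat_lit 78) (nat_lit 836) (nat_lit 0) (XT.lf (nat_lit 0) (nat_lit 9967541034) (nat_lit 836) (nat_lit 260430485) (nat_lit 76) (nat_lit 380706439) (nat_lit 319) (nat_lit 5) (nat_lit 330) (nat_lit 5) (nat_lit 320) (nat_lit 5) (nat_lit 446) (nat_lit 402) (nat_lit 292)) (XT.lf (nat_lit 0) (nat_lit 1359040052) (nat_lit 836) (nat_lit 4867787514) (nat_lit 76) (nat_lit 4491242296) (nat_lit 308) (nat_lit 5) (nat_lit 319) (nat_lit 5) (nat_lit 309) (nat_lit 5) (nat_lit 447) (nat_lit 402) (nat_lit 291))) (XT.nd (nat_lit 78) (nat_lit 760) (nat_lit 0) (XT.lf (nat_lit 0) (nat_lit 1248160668) (nat_lit 684) (nat_lit 2132916259) (nat_lit 760) (nat_lit 7448685205) (nat_lit 299) (nat_lit 5) (nat_lit 308) (nat_lit 5) (nat_lit 309) (nat_lit 5) (nat_lit 448) (nat_lit 402) (nat_lit 290)) (XT.nd (nat_lit 78) (nat_lit 760) (nat_lit 0) (XT.lf (nat_lit 0) (nat_lit 5470503695) (nat_lit 760)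 (nat_lit 3425419306) (nat_lit 76) (nat_lit 2047232254) (nat_lit 299) (nat_lit 5) (nat_lit 309) (nat_lit 5) (nat_lit 300) (nat_lit 5) (nat_lit 449) (nat_lit 402) (nat_lit 289)) (XT.lf (nat_lit 0) (nat_lit 2856324088) (nat_lit 760) (nat_lit 4759245454) (nat_lit 836) (nat_lit 3442975559) (nat_lit 289) (nat_lit 5) (nat_lit 299) (nat_lit 5) (nat_lit 300) (nat_lit 5) (nat_lit 450) (nat_lit 402) (nat_lit 288))))) (XT.nd (nat_lit 234) (nat_lit 1292) (nat_lit 0) (XT.nd (nat_lit 78) (nat_lit 760) (nat_lit 0) (XT.lf (nat_lit 0) (nat_lit 9289373962) (nat_lit 760) (nat_lit 518563456) (nat_lit 836) (nat_lit 1368223071) (nat_lit 289) (nat_lit 5) (nat_lit 299) (nat_lit 5) (nat_lit 300) (nat_lit 5) (nat_lit 451) (nat_lit 402) (nat_lit 287)) (XT.nd (nat_lit 78) (nat_lit 0) (nat_lit 0) (XT.lf (nat_lit 0) (nat_lit 774597833) (nat_lit 760) (nat_lit 6731048071) (nat_lit 76) (nat_lit 3789663002) (nat_lit 279) (nat_lit 5) (nat_lit 289) (nat_lit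 5) (nat_lit 280) (nat_lit 5) (nat_lit 452) (nat_lit 402) (nat_lit 286)) (XT.lf (nat_lit 0) (nat_lit 2940015306) (nat_lit 760) (nat_lit 280081344) (nat_lit 76) (nat_lit 8196606976) (nat_lit 279) (nat_lit 5) (nat_lit 289) (nat_lit 5) (nat_lit 280) (nat_lit 5) (nat_lit 453) (nat_lit 402) (nat_lit 285)))) (XT.nd (nat_lit 78) (nat_lit 608) (nat_lit 0) (XT.lf (nat_lit 0) (nat_lit 5180003964) (nat_lit 760) (nat_lit 5184847620) (nat_lit 76) (nat_lit 1175054719) (nat_lit 270) (nat_lit 5) (nat_lit 280) (nat_lit 5) (nat_lit 271) (nat_lit 5) (nat_lit 454) (nat_lit 402) (nat_lit 284)) (XT.nd (nat_lit 78) (nat_lit 0) (nat_lit 0) (XT.lf (nat_lit 0) (nat_lit 1438069073) (nat_lit 608) (nat_lit 6041696416) (nat_lit 684) (nat_lit 4185513297) (nat_lit 262) (nat_lit 5) (nat_lit 270) (nat_lit 5) (nat_lit 271) (nat_lit 5) (nat_lit 455) (nat_lit 402) (nat_lit 283)) (XT.lf (nat_lit 0) (nat_lit 8243245193) (nat_lit 608) (nat_lit 1599700969) (nat_lit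 684) (nat_lit 1949869191) (nat_lit 262) (nat_lit 5) (nat_lit 270) (nat_lit 5) (nat_lit 271) (nat_lit 5) (nat_lit 456) (nat_lit 402) (nat_lit 282))))))))
noncomputable def xc151 : XT := (XT.nd (nat_lit 1716) (nat_lit 4788) (nat_lit 0) (XT.nd (nat_lit 858) (nat_lit 3040) (nat_lit 0) (XT.nd (nat_lit 390) (nat_lit 2356) (nat_lit 0) (XT.nd (nat_lit 156) (nat_lit 1216) (nat_lit 0) (XT.nd (nat_lit 78) (nat_lit 0) (nat_lit 0) (XT.lf (nat_lit 0) (nat_lit 349483046) (nat_lit 760) (nat_lit 8659735873) (nat_lit 76) (nat_lit 2913179138) (nat_lit 252) (nat_lit 5) (nat_lit 262) (nat_lit 5) (nat_lit 253) (nat_lit 5) (nat_lit 457) (nat_lit 402) (nat_lit 281)) (XT.lf (nat_lit 0) (nat_lit 2686347145) (nat_lit 760) (nat_lit 1839007386) (nat_lit 76) (nat_lit 7528612258) (nat_lit 252) (nat_lit 5) (nat_lit 262) (nat_lit 5) (nat_lit 253) (nat_lit 5) (nat_lit 458) (nat_lit 402) (nat_lit 280))) (XT.nd (nat_lit 78) (nat_lit 608) (nat_lit 0) (XT.lf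 (nat_lit 0) (nat_lit 5087371169) (nat_lit 684) (nat_lit 7022559058) (nat_lit 76) (nat_lit 77892939) (nat_lit 244) (nat_lit 5) (nat_lit 253) (nat_lit 5) (nat_lit 245) (nat_lit 5) (nat_lit 459) (nat_lit 402) (nat_lit 279)) (XT.nd (nat_lit 78) (nat_lit 608) (nat_lit 0) (XT.lf (nat_lit 0) (nat_lit 7562351304) (nat_lit 684) (nat_lit 39888755) (nat_lit 76) (nat_lit 4721602529) (nat_lit 244) (nat_lit 5) (nat_lit 253) (nat_lit 5) (nat_lit 245) (nat_lit 5) (nat_lit 460) (nat_lit 402) (nat_lit 278)) (XT.lf (nat_lit 0) (nat_lit 7156412988) (nat_lit 608) (nat_lit 2960748864) (nat_lit 684) (nat_lit 2344818471) (nat_lit 236) (nat_lit 5) (nat_lit 244) (nat_lit 5) (nat_lit 245) (nat_lit 5) (nat_lit 461) (nat_lit 402) (nat_lit 277))))) (XT.nd (nat_lit 234) (nat_lit 1140) (nat_lit 0) (XT.nd (nat_lit 78) (nat_lit 608) (nat_lit 0) (XT.lf (nat_lit 0) (nat_lit 126730147) (nat_lit 608) (nat_lit 10716061219) (nat_lit 76) (nat_lit 1759915830)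 (nat_lit 228) (nat_lit 5) (nat_lit 236) (nat_lit 5) (nat_lit 229) (nat_lit 5) (nat_lit 462) (nat_lit 402) (nat_lit 276)) (XT.nd (nat_lit 78) (nat_lit 608) (nat_lit 0) (XT.lf (nat_lit 0) (nat_lit 2655893541) (nat_lit 608) (nat_lit 3506417719) (nat_lit 76) (nat_lit 6582840021) (nat_lit 228) (nat_lit 5) (nat_lit 236) (nat_lit 5) (nat_lit 229) (nat_lit 5) (nat_lit 463) (nat_lit 402) (nat_lit 275)) (XT.lf (nat_lit 0) (nat_lit 3878550157) (nat_lit 608) (nat_lit 1366688865) (nat_lit 684) (nat_lit 7645017443) (nat_lit 220) (nat_lit 5) (nat_lit 228) (nat_lit 5) (nat_lit 229) (nat_lit 5) (nat_lit 464) (nat_lit 402) (nat_lit 274)))) (XT.nd (nat_lit 78) (nat_lit 1140) (nat_lit 0) (XT.lf (nat_lit 0) (nat_lit 7917510464) (nat_lit 684) (nat_lit 1621978280) (nat_lit 76) (nat_lit 3498156340) (nat_lit 220) (nat_lit 5) (nat_lit 229) (nat_lit 5) (nat_lit 221) (nat_lit 5) (nat_lit 465) (nat_lit 402) (nat_lit 273)) (XT.nd (nat_lit 78) (nat_lit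 608) (nat_lit 0) (XT.lf (nat_lit 0) (nat_lit 5965226976) (nat_lit 532) (nat_lit 4710651759) (nat_lit 608) (nat_lit 2511453743) (nat_lit 213) (nat_lit 5) (nat_lit 220) (nat_lit 5) (nat_lit 221) (nat_lit 5) (nat_lit 466) (nat_lit 402) (nat_lit 272)) (XT.lf (nat_lit 0) (nat_lit 147202139) (nat_lit 608) (nat_lit 12970883986) (nat_lit 76) (nat_lit 221916753) (nat_lit 205) (nat_lit 5) (nat_lit 213) (nat_lit 5) (nat_lit 206) (nat_lit 5) (nat_lit 467) (nat_lit 402) (nat_lit 271)))))) (XT.nd (nat_lit 390) (nat_lit 1900) (nat_lit 0) (XT.nd (nat_lit 156) (nat_lit 608) (nat_lit 0) (XT.nd (nat_lit 78) (nat_lit 532) (nat_lit 0) (XT.lf (nat_lit 0) (nat_lit 2890493325) (nat_lit 608) (nat_lit 5352562010) (nat_lit 76) (nat_lit 5251041325) (nat_lit 205) (nat_lit 5) (nat_lit 213) (nat_lit 5) (nat_lit 206) (nat_lit 5) (nat_lit 468) (nat_lit 402) (nat_lit 270)) (XT.lf (nat_lit 0) (nat_lit 2430671316) (nat_lit 532) (nat_lit 3259130807) (nat_lit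 608) (nat_lit 7961450883) (nat_lit 198) (nat_lit 5) (nat_lit 205) (nat_lit 5) (nat_lit 206) (nat_lit 5) (nat_lit 469) (nat_lit 402) (nat_lit 269))) (XT.nd (nat_lit 78) (nat_lit 608) (nat_lit 0) (XT.lf (nat_lit 0) (nat_lit 8578600807) (nat_lit 608) (nat_lit 3400261785) (nat_lit 76) (nat_lit 1832023464) (nat_lit 198) (nat_lit 5) (nat_lit 206) (nat_lit 5) (nat_lit 199) (nat_lit 5) (nat_lit 470) (nat_lit 402) (nat_lit 268)) (XT.nd (nat_lit 78) (nat_lit 76) (nat_lit 0) (XT.lf (nat_lit 0) (nat_lit 4596072107) (nat_lit 532) (nat_lit 6966313680) (nat_lit 608) (nat_lit 2410585353) (nat_lit 191) (nat_lit 5) (nat_lit 198) (nat_lit 5) (nat_lit 199) (nat_lit 5) (nat_lit 471) (nat_lit 402) (nat_lit 267)) (XT.lf (nat_lit 0) (nat_lit 470230171) (nat_lit 608) (nat_lit 1361757256) (nat_lit 76) (nat_lit 12306076955) (nat_lit 190) (nat_lit 5) (nat_lit 198) (nat_lit 5) (nat_lit 191) (nat_lit 5) (nat_lit 472) (nat_lit 402) (nat_lit 266)))))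 (XT.nd (nat_lit 234) (nat_lit 988) (nat_lit 0) (XT.nd (nat_lit 78) (nat_lit 456) (nat_lit 0) (XT.lf (nat_lit 0) (nat_lit 3429612220) (nat_lit 532) (nat_lit 7458971778) (nat_lit 76) (nat_lit 3416495625) (nat_lit 184) (nat_lit 5) (nat_lit 191) (nat_lit 5) (nat_lit 185) (nat_lit 5) (nat_lit 473) (nat_lit 402) (nat_lit 265)) (XT.nd (nat_lit 78) (nat_lit 0) (nat_lit 0) (XT.lf (nat_lit 0) (nat_lit 739948681) (nat_lit 456) (nat_lit 5720609968) (nat_lit 532) (nat_lit 8014632291) (nat_lit 178) (nat_lit 5) (nat_lit 184) (nat_lit 5) (nat_lit 185) (nat_lit 5) (nat_lit 474) (nat_lit 402) (nat_lit 264)) (XT.lf (nat_lit 0) (nat_lit 9185180401) (nat_lit 456) (nat_lit 403386613) (nat_lit 532) (nat_lit 5059411853) (nat_lit 178) (nat_lit 5) (nat_lit 184) (nat_lit 5) (nat_lit 185) (nat_lit 5) (nat_lit 475) (nat_lit 402) (nat_lit 263)))) (XT.nd (nat_lit 78) (nat_lit 532) (nat_lit 0) (XT.lf (nat_lit 0) (nat_lit 2962711850) (nat_lit 456) (nat_lit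 9854877312) (nat_lit 532) (nat_lit 2005867495) (nat_lit 172) (nat_lit 5) (nat_lit 178) (nat_lit 5) (nat_lit 179) (nat_lit 5) (nat_lit 476) (nat_lit 402) (nat_lit 262)) (XT.nd (nat_lit 78) (nat_lit 456) (nat_lit 0) (XT.lf (nat_lit 0) (nat_lit 1120453468) (nat_lit 532) (nat_lit 3399743710) (nat_lit 76) (nat_lit 10481580965) (nat_lit 171) (nat_lit 5) (nat_lit 178) (nat_lit 5) (nat_lit 172) (nat_lit 5) (nat_lit 477) (nat_lit 402) (nat_lit 261)) (XT.lf (nat_lit 0) (nat_lit 4309867523) (nat_lit 532) (nat_lit 9921293413) (nat_lit 76) (nat_lit 951694435) (nat_lit 165) (nat_lit 5) (nat_lit 172) (nat_lit 5) (nat_lit 166) (nat_lit 5) (nat_lit 478) (nat_lit 402) (nat_lit 260))))))) (XT.nd (nat_lit 858) (nat_lit 2280) (nat_lit 0) (XT.nd (nat_lit 390) (nat_lit 1216) (nat_lit 0) (XT.nd (nat_lit 156) (nat_lit 912) (nat_lit 0) (XT.nd (nat_lit 78) (nat_lit 380) (nat_lit 0) (XT.lf (nat_lit 0) (nat_lit 7603009624) (nat_lit 532) (nat_lit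 1273447645) (nat_lit 76) (nat_lit 6490301017) (nat_lit 165) (nat_lit 5) (nat_lit 172) (nat_lit 5) (nat_lit 166) (nat_lit 5) (nat_lit 479) (nat_lit 402) (nat_lit 259)) (XT.lf (nat_lit 0) (nat_lit 7629334967) (nat_lit 380) (nat_lit 3369507958) (nat_lit 456) (nat_lit 4554762645) (nat_lit 160) (nat_lit 5) (nat_lit 165) (nat_lit 5) (nat_lit 166) (nat_lit 5) (nat_lit 480) (nat_lit 402) (nat_lit 258))) (XT.nd (nat_lit 78) (nat_lit 456) (nat_lit 0) (XT.lf (nat_lit 0) (nat_lit 963219131) (nat_lit 456) (nat_lit 13516213703) (nat_lit 532) (nat_lit 1264422991) (nat_lit 154) (nat_lit 5) (nat_lit 160) (nat_lit 5) (nat_lit 161) (nat_lit 5) (nat_lit 481) (nat_lit 402) (nat_lit 257)) (XT.nd (nat_lit 78) (nat_lit 380) (nat_lit 0) (XT.lf (nat_lit 0) (nat_lit 2127568734) (nat_lit 532) (nat_lit 5855451586) (nat_lit 76) (nat_lit 7953356288) (nat_lit 153) (nat_lit 5) (nat_lit 160) (nat_lit 5) (nat_lit 154) (nat_lit 5) (nat_lit 482) (nat_lit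 402) (nat_lit 256)) (XT.lf (nat_lit 0) (nat_lit 3264808962) (nat_lit 380) (nat_lit 2314555996) (nat_lit 456) (nat_lit 10553040445) (nat_lit 148) (nat_lit 5) (nat_lit 153) (nat_lit 5) (nat_lit 154) (nat_lit 5) (nat_lit 483) (nat_lit 402) (nat_lit 255))))) (XT.nd (nat_lit 234) (nat_lit 836) (nat_lit 0) (XT.nd (nat_lit 78) (nat_lit 380) (nat_lit 0) (XT.lf (nat_lit 0) (nat_lit 9150034633) (nat_lit 456) (nat_lit 3725459971) (nat_lit 76) (nat_lit 3455866027) (nat_lit 148) (nat_lit 5) (nat_lit 154) (nat_lit 5) (nat_lit 149) (nat_lit 5) (nat_lit 484) (nat_lit 402) (nat_lit 254)) (XT.nd (nat_lit 78) (nat_lit 0) (nat_lit 0) (XT.lf (nat_lit 0) (nat_lit 5640554314) (nat_lit 380) (nat_lit 7191525828) (nat_lit 456) (nat_lit 3701418130) (nat_lit 143) (nat_lit 5) (nat_lit 148) (nat_lit 5) (nat_lit 149) (nat_lit 5) (nat_lit 485) (nat_lit 402) (nat_lit 253)) (XT.lf (nat_lit 0) (nat_lit 15226890743) (nat_lit 380) (nat_lit 1374009103) (nat_lit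 456) (nat_lit 138518660) (nat_lit 143) (nat_lit 5) (nat_lit 148) (nat_lit 5) (nat_lit 149) (nat_lit 5) (nat_lit 486) (nat_lit 402) (nat_lit 252)))) (XT.nd (nat_lit 78) (nat_lit 380) (nat_lit 0) (XT.lf (nat_lit 0) (nat_lit 3520881836) (nat_lit 456) (nat_lit 8856244378) (nat_lit 76) (nat_lit 4570457641) (nat_lit 137) (nat_lit 5) (nat_lit 143) (nat_lit 5) (nat_lit 138) (nat_lit 5) (nat_lit 487) (nat_lit 402) (nat_lit 251)) (XT.nd (nat_lit 78) (nat_lit 0) (nat_lit 0) (XT.lf (nat_lit 0) (nat_lit 730172955) (nat_lit 380) (nat_lit 6533869915) (nat_lit 456) (nat_lit 9895605143) (nat_lit 132) (nat_lit 5) (nat_lit 137) (nat_lit 5) (nat_lit 138) (nat_lit 5) (nat_lit 488) (nat_lit 402) (nat_lit 250)) (XT.lf (nat_lit 0) (nat_lit 10611085112) (nat_lit 380) (nat_lit 518896259) (nat_lit 456) (nat_lit 6245016116) (nat_lit 132) (nat_lit 5) (nat_lit 137) (nat_lit 5) (nat_lit 138) (nat_lit 5) (nat_lit 489) (nat_lit 402) (nat_lit 249))))))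 (XT.nd (nat_lit 390) (nat_lit 1140) (nat_lit 0) (XT.nd (nat_lit 156) (nat_lit 684) (nat_lit 0) (XT.nd (nat_lit 78) (nat_lit 76) (nat_lit 0) (XT.lf (nat_lit 0) (nat_lit 3081779668) (nat_lit 380) (nat_lit 12036606453) (nat_lit 456) (nat_lit 2475367148) (nat_lit 127) (nat_lit 5) (nat_lit 132) (nat_lit 5) (nat_lit 133) (nat_lit 5) (nat_lit 490) (nat_lit 402) (nat_lit 248)) (XT.lf (nat_lit 0) (nat_lit 1389546054) (nat_lit 456) (nat_lit 4629708300) (nat_lit 76) (nat_lit 11796697442) (nat_lit 126) (nat_lit 5) (nat_lit 132) (nat_lit 5) (nat_lit 127) (nat_lit 5) (nat_lit 491) (nat_lit 402) (nat_lit 247))) (XT.nd (nat_lit 78) (nat_lit 304) (nat_lit 0) (XT.lf (nat_lit 0) (nat_lit 5324287251) (nat_lit 456) (nat_lit 12553893028) (nat_lit 76) (nat_lit 163575412) (nat_lit 121) (nat_lit 5) (nat_lit 127) (nat_lit 5) (nat_lit 122) (nat_lit 5) (nat_lit 492) (nat_lit 402) (nat_lit 246)) (XT.nd (nat_lit 78) (nat_lit 304) (nat_lit 0) (XT.lf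 (nat_lit 0) (nat_lit 9397860231) (nat_lit 456) (nat_lit 2457891342) (nat_lit 76) (nat_lit 6415123451) (nat_lit 121) (nat_lit 5) (nat_lit 127) (nat_lit 5) (nat_lit 122) (nat_lit 5) (nat_lit 493) (nat_lit 402) (nat_lit 245)) (XT.lf (nat_lit 0) (nat_lit 7927420873) (nat_lit 304) (nat_lit 5666170361) (nat_lit 380) (nat_lit 4910173832) (nat_lit 117) (nat_lit 5) (nat_lit 121) (nat_lit 5) (nat_lit 122) (nat_lit 5) (nat_lit 494) (nat_lit 402) (nat_lit 244))))) (XT.nd (nat_lit 234) (nat_lit 380) (nat_lit 0) (XT.nd (nat_lit 78) (nat_lit 760) (nat_lit 0) (XT.lf (nat_lit 0) (nat_lit 17883325299) (nat_lit 380) (nat_lit 208185616) (nat_lit 76) (nat_lit 649602242) (nat_lit 117) (nat_lit 5) (nat_lit 122) (nat_lit 5) (nat_lit 118) (nat_lit 5) (nat_lit 495) (nat_lit 402) (nat_lit 243)) (XT.nd (nat_lit 78) (nat_lit 304) (nat_lit 0) (XT.lf (nat_lit 0) (nat_lit 3328181221) (nat_lit 456) (nat_lit 8552657585) (nat_lit 76) (nat_lit 7100036066)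 (nat_lit 111) (nat_lit 5) (nat_lit 117) (nat_lit 5) (nat_lit 112) (nat_lit 5) (nat_lit 496) (nat_lit 402) (nat_lit 242)) (XT.lf (nat_lit 0) (nat_lit 2059734909) (nat_lit 304) (nat_lit 5530962623) (nat_lit 380) (nat_lit 11634536516) (nat_lit 107) (nat_lit 5) (nat_lit 111) (nat_lit 5) (nat_lit 112) (nat_lit 5) (nat_lit 497) (nat_lit 402) (nat_lit 241)))) (XT.nd (nat_lit 78) (nat_lit 380) (nat_lit 0) (XT.lf (nat_lit 0) (nat_lit 11991963824) (nat_lit 380) (nat_lit 6495964314) (nat_lit 76) (nat_lit 985484140) (nat_lit 107) (nat_lit 5) (nat_lit 112) (nat_lit 5) (nat_lit 108) (nat_lit 5) (nat_lit 498) (nat_lit 402) (nat_lit 240)) (XT.nd (nat_lit 78) (nat_lit 76) (nat_lit 0) (XT.lf (nat_lit 0) (nat_lit 4391834990) (nat_lit 304) (nat_lit 12144353512) (nat_lit 380) (nat_lit 3189268734) (nat_lit 103) (nat_lit 5) (nat_lit 107) (nat_lit 5) (nat_lit 108) (nat_lit 5) (nat_lit 499) (nat_lit 402) (nat_lit 239)) (XT.lf (nat_lit 0) (nat_lit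 1206860971) (nat_lit 380) (nat_lit 4420361558) (nat_lit 76) (nat_lit 14354494013) (nat_lit 102) (nat_lit 5) (nat_lit 107) (nat_lit 5) (nat_lit 103) (nat_lit 5) (nat_lit 500) (nat_lit 402) (nat_lit 238))))))))
noncomputable def xc152 : XT := (XT.nd (nat_lit 53040) (nat_lit 0) (nat_lit 19608) (XT.nd (nat_lit 52182) (nat_lit 0) (nat_lit 31312) (XT.nd (nat_lit 51792) (nat_lit 0) (nat_lit 33820) (XT.nd (nat_lit 156) (nat_lit 304) (nat_lit 0) (XT.nd (nat_lit 78) (nat_lit 0) (nat_lit 0) (XT.lf (nat_lit 0) (nat_lit 5689192029) (nat_lit 380) (nat_lit 13486090371) (nat_lit 76) (nat_lit 1066579073) (nat_lit 98) (nat_lit 5) (nat_lit 103) (nat_lit 5) (nat_lit 99) (nat_lit 5) (nat_lit 501) (nat_lit 402) (nat_lit 237)) (XT.lf (nat_lit 0) (nat_lit 10318368226) (nat_lit 380) (nat_lit 2344602923) (nat_lit 76) (nat_lit 7843095869) (nat_lit 98) (nat_lit 5) (nat_lit 103) (nat_lit 5) (nat_lit 99) (nat_lit 5) (nat_lit 502) (nat_lit 402) (nat_lit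 236))) (XT.nd (nat_lit 78) (nat_lit 0) (nat_lit 0) (XT.lf (nat_lit 0) (nat_lit 9123816291) (nat_lit 304) (nat_lit 5965816924) (nat_lit 380) (nat_lit 5684935007) (nat_lit 94) (nat_lit 5) (nat_lit 98) (nat_lit 5) (nat_lit 99) (nat_lit 5) (nat_lit 503) (nat_lit 402) (nat_lit 235)) (XT.nd (nat_lit 51480) (nat_lit 0) (nat_lit 35036) (XT.lf (nat_lit 0) (nat_lit 19968099330) (nat_lit 380) (nat_lit 216074181) (nat_lit 76) (nat_lit 864032044) (nat_lit 94) (nat_lit 5) (nat_lit 99) (nat_lit 5) (nat_lit 95) (nat_lit 5) (nat_lit 504) (nat_lit 402) (nat_lit 234)) (XT.lf (nat_lit 0) (nat_lit 716814879) (nat_lit 1292) (nat_lit 1506049818) (nat_lit 1292) (nat_lit 1506049818) (nat_lit 555) (nat_lit 3) (nat_lit 572) (nat_lit 3) (nat_lit 572) (nat_lit 5) (nat_lit 403) (nat_lit 403) (nat_lit 334))))) (XT.nd (nat_lit 156) (nat_lit 1216) (nat_lit 0) (XT.nd (nat_lit 78) (nat_lit 0) (nat_lit 0) (XT.lf (nat_lit 76) (nat_lit 583149852) (nat_lit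 0) (nat_lit 2319305470) (nat_lit 1292) (nat_lit 4600235255) (nat_lit 556) (nat_lit 5) (nat_lit 555) (nat_lit 3) (nat_lit 572) (nat_lit 5) (nat_lit 404) (nat_lit 403) (nat_lit 333)) (XT.lf (nat_lit 76) (nat_lit 4271461142) (nat_lit 0) (nat_lit 111228837) (nat_lit 1292) (nat_lit 3166135168) (nat_lit 556) (nat_lit 5) (nat_lit 555) (nat_lit 3) (nat_lit 572) (nat_lit 5) (nat_lit 405) (nat_lit 403) (nat_lit 332))) (XT.nd (nat_lit 78) (nat_lit 1292) (nat_lit 0) (XT.lf (nat_lit 76) (nat_lit 408949027) (nat_lit 0) (nat_lit 5462822563) (nat_lit 1292) (nat_lit 1724542094) (nat_lit 557) (nat_lit 5) (nat_lit 556) (nat_lit 5) (nat_lit 573) (nat_lit 5) (nat_lit 406) (nat_lit 403) (nat_lit 331)) (XT.nd (nat_lit 78) (nat_lit 1292) (nat_lit 0) (XT.lf (nat_lit 76) (nat_lit 4192630337) (nat_lit 0) (nat_lit 3184016895) (nat_lit 1292) (nat_lit 268400321) (nat_lit 557) (nat_lit 5) (nat_lit 556) (nat_lit 5) (nat_lit 573) (nat_lit 5) (nat_lit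 407) (nat_lit 403) (nat_lit 330)) (XT.lf (nat_lit 76) (nat_lit 333562100) (nat_lit 0) (nat_lit 833262484) (nat_lit 1368) (nat_lit 6528470300) (nat_lit 540) (nat_lit 5) (nat_lit 539) (nat_lit 5) (nat_lit 557) (nat_lit 5) (nat_lit 408) (nat_lit 403) (nat_lit 329)))))) (XT.nd (nat_lit 390) (nat_lit 1292) (nat_lit 0) (XT.nd (nat_lit 156) (nat_lit 1292) (nat_lit 0) (XT.nd (nat_lit 78) (nat_lit 0) (nat_lit 0) (XT.lf (nat_lit 0) (nat_lit 2625078683) (nat_lit 1292) (nat_lit 3536951570) (nat_lit 1368) (nat_lit 1584537949) (nat_lit 540) (nat_lit 5) (nat_lit 557) (nat_lit 5) (nat_lit 558) (nat_lit 5) (nat_lit 409) (nat_lit 403) (nat_lit 328)) (XT.lf (nat_lit 76) (nat_lit 342873967) (nat_lit 0) (nat_lit 3742502115) (nat_lit 1368) (nat_lit 3714047944) (nat_lit 541) (nat_lit 5) (nat_lit 540) (nat_lit 5) (nat_lit 558) (nat_lit 5) (nat_lit 410) (nat_lit 403) (nat_lit 327))) (XT.nd (nat_lit 78) (nat_lit 1292) (nat_lit 0) (XT.lf (nat_lit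 76) (nat_lit 4327944874) (nat_lit 0) (nat_lit 1236355002) (nat_lit 1368) (nat_lit 2289262997) (nat_lit 541) (nat_lit 5) (nat_lit 540) (nat_lit 5) (nat_lit 558) (nat_lit 5) (nat_lit 411) (nat_lit 403) (nat_lit 326)) (XT.nd (nat_lit 78) (nat_lit 1368) (nat_lit 0) (XT.lf (nat_lit 76) (nat_lit 460731914) (nat_lit 0) (nat_lit 6590079079) (nat_lit 1368) (nat_lit 858427364) (nat_lit 542) (nat_lit 5) (nat_lit 541) (nat_lit 5) (nat_lit 559) (nat_lit 5) (nat_lit 412) (nat_lit 403) (nat_lit 325)) (XT.lf (nat_lit 0) (nat_lit 591885587) (nat_lit 1368) (nat_lit 3424194477) (nat_lit 1444) (nat_lit 3949907869) (nat_lit 523) (nat_lit 5) (nat_lit 541) (nat_lit 5) (nat_lit 542) (nat_lit 5) (nat_lit 413) (nat_lit 403) (nat_lit 324))))) (XT.nd (nat_lit 234) (nat_lit 1292) (nat_lit 0) (XT.nd (nat_lit 78) (nat_lit 0) (nat_lit 76) (XT.lf (nat_lit 76) (nat_lit 663033113) (nat_lit 0) (nat_lit 1368385039) (nat_lit 1444) (nat_lit 5992919937) (nat_lit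 524) (nat_lit 5) (nat_lit 523) (nat_lit 5) (nat_lit 542) (nat_lit 5) (nat_lit 414) (nat_lit 403) (nat_lit 323)) (XT.nd (nat_lit 78) (nat_lit 0) (nat_lit 0) (XT.lf (nat_lit 0) (nat_lit 3499496025) (nat_lit 1368) (nat_lit 3234953412) (nat_lit 1444) (nat_lit 1349423685) (nat_lit 524) (nat_lit 5) (nat_lit 542) (nat_lit 5) (nat_lit 543) (nat_lit 5) (nat_lit 415) (nat_lit 403) (nat_lit 322)) (XT.lf (nat_lit 76) (nat_lit 956648148) (nat_lit 0) (nat_lit 4024163003) (nat_lit 1444) (nat_lit 3164122904) (nat_lit 525) (nat_lit 5) (nat_lit 524) (nat_lit 5) (nat_lit 543) (nat_lit 5) (nat_lit 416) (nat_lit 403) (nat_lit 321)))) (XT.nd (nat_lit 78) (nat_lit 1368) (nat_lit 0) (XT.lf (nat_lit 76) (nat_lit 5255307478) (nat_lit 0) (nat_lit 1227237420) (nat_lit 1444) (nat_lit 1724867926) (nat_lit 525) (nat_lit 5) (nat_lit 524) (nat_lit 5) (nat_lit 543) (nat_lit 5) (nat_lit 417) (nat_lit 403) (nat_lit 320)) (XT.nd (nat_lit 78) (nat_lit 1444)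 (nat_lit 0) (XT.lf (nat_lit 76) (nat_lit 1355112304) (nat_lit 0) (nat_lit 6648309728) (nat_lit 1444) (nat_lit 267949180) (nat_lit 526) (nat_lit 5) (nat_lit 525) (nat_lit 5) (nat_lit 544) (nat_lit 5) (nat_lit 418) (nat_lit 403) (nat_lit 319)) (XT.lf (nat_lit 0) (nat_lit 1200205898) (nat_lit 1444) (nat_lit 2585066302) (nat_lit 1520) (nat_lit 4551228665) (nat_lit 506) (nat_lit 5) (nat_lit 525) (nat_lit 5) (nat_lit 526) (nat_lit 5) (nat_lit 419) (nat_lit 403) (nat_lit 318))))))) (XT.nd (nat_lit 858) (nat_lit 7220) (nat_lit 0) (XT.nd (nat_lit 390) (nat_lit 3116) (nat_lit 0) (XT.nd (nat_lit 156) (nat_lit 1368) (nat_lit 0) (XT.nd (nat_lit 78) (nat_lit 0) (nat_lit 76) (XT.lf (nat_lit 76) (nat_lit 1834270433) (nat_lit 0) (nat_lit 842371488) (nat_lit 1520) (nat_lit 5726617167) (nat_lit 507) (nat_lit 5) (nat_lit 506) (nat_lit 5) (nat_lit 526) (nat_lit 5) (nat_lit 420) (nat_lit 403) (nat_lit 317)) (XT.lf (nat_lit 0) (nat_lit 4185178742)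 (nat_lit 1444) (nat_lit 2129375566) (nat_lit 1520) (nat_lit 2156758016) (nat_lit 507) (nat_lit 5) (nat_lit 526) (nat_lit 5) (nat_lit 527) (nat_lit 5) (nat_lit 421) (nat_lit 403) (nat_lit 316))) (XT.nd (nat_lit 78) (nat_lit 1444) (nat_lit 0) (XT.lf (nat_lit 76) (nat_lit 2404128672) (nat_lit 0) (nat_lit 3312602171) (nat_lit 1520) (nat_lit 2824149957) (nat_lit 508) (nat_lit 5) (nat_lit 507) (nat_lit 5) (nat_lit 527) (nat_lit 5) (nat_lit 422) (nat_lit 403) (nat_lit 315)) (XT.nd (nat_lit 78) (nat_lit 1444) (nat_lit 0) (XT.lf (nat_lit 76) (nat_lit 7036451361) (nat_lit 0) (nat_lit 228829836) (nat_lit 1520) (nat_lit 1346842956) (nat_lit 508) (nat_lit 5) (nat_lit 507) (nat_lit 5) (nat_lit 527) (nat_lit 5) (nat_lit 423) (nat_lit 403) (nat_lit 314)) (XT.lf (nat_lit 0) (nat_lit 169564615) (nat_lit 1520) (nat_lit 5608551826) (nat_lit 1596) (nat_lit 2906432521) (nat_lit 488) (nat_lit 5) (nat_lit 508) (nat_lit 5) (nat_lit 509) (nat_lit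 5) (nat_lit 424) (nat_lit 403) (nat_lit 313))))) (XT.nd (nat_lit 234) (nat_lit 3116) (nat_lit 0) (XT.nd (nat_lit 78) (nat_lit 0) (nat_lit 76) (XT.lf (nat_lit 0) (nat_lit 1683325698) (nat_lit 1520) (nat_lit 947803297) (nat_lit 1596) (nat_lit 6127424255) (nat_lit 488) (nat_lit 5) (nat_lit 508) (nat_lit 5) (nat_lit 509) (nat_lit 5) (nat_lit 425) (nat_lit 403) (nat_lit 312)) (XT.nd (nat_lit 78) (nat_lit 0) (nat_lit 0) (XT.lf (nat_lit 0) (nat_lit 3229642377) (nat_lit 1520) (nat_lit 5002307615) (nat_lit 76) (nat_lit 602052046) (nat_lit 489) (nat_lit 5) (nat_lit 509) (nat_lit 5) (nat_lit 490) (nat_lit 5) (nat_lit 426) (nat_lit 403) (nat_lit 311)) (XT.lf (nat_lit 0) (nat_lit 4804551753) (nat_lit 1520) (nat_lit 229835376) (nat_lit 76) (nat_lit 3876629174) (nat_lit 489) (nat_lit 5) (nat_lit 509) (nat_lit 5) (nat_lit 490) (nat_lit 5) (nat_lit 427) (nat_lit 403) (nat_lit 310)))) (XT.nd (nat_lit 78) (nat_lit 1672) (nat_lit 0) (XT.lf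 (nat_lit 0) (nat_lit 4678697499) (nat_lit 1520) (nat_lit 1736991268) (nat_lit 1596) (nat_lit 2573797132) (nat_lit 469) (nat_lit 5) (nat_lit 489) (nat_lit 5) (nat_lit 490) (nat_lit 5) (nat_lit 428) (nat_lit 403) (nat_lit 309)) (XT.nd (nat_lit 78) (nat_lit 76) (nat_lit 0) (XT.lf (nat_lit 0) (nat_lit 595098162) (nat_lit 1596) (nat_lit 7454677605) (nat_lit 1672) (nat_lit 1019944020) (nat_lit 448) (nat_lit 5) (nat_lit 469) (nat_lit 5) (nat_lit 470) (nat_lit 5) (nat_lit 429) (nat_lit 403) (nat_lit 308)) (XT.lf (nat_lit 0) (nat_lit 573134945) (nat_lit 1672) (nat_lit 3530169076) (nat_lit 76) (nat_lit 5047878872) (nat_lit 447) (nat_lit 5) (nat_lit 469) (nat_lit 5) (nat_lit 448) (nat_lit 5) (nat_lit 430) (nat_lit 403) (nat_lit 307)))))) (XT.nd (nat_lit 390) (nat_lit 2660) (nat_lit 0) (XT.nd (nat_lit 156) (nat_lit 2888) (nat_lit 0) (XT.nd (nat_lit 78) (nat_lit 0) (nat_lit 0) (XT.lf (nat_lit 0) (nat_lit 1505215462) (nat_lit 1672)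 (nat_lit 664416248) (nat_lit 1748) (nat_lit 7064813350) (nat_lit 425) (nat_lit 5) (nat_lit 447) (nat_lit 5) (nat_lit 448) (nat_lit 5) (nat_lit 431) (nat_lit 403) (nat_lit 306)) (XT.lf (nat_lit 0) (nat_lit 3816161423) (nat_lit 1748) (nat_lit 2669677060) (nat_lit 76) (nat_lit 2833180654) (nat_lit 425) (nat_lit 5) (nat_lit 448) (nat_lit 5) (nat_lit 426) (nat_lit 5) (nat_lit 432) (nat_lit 403) (nat_lit 305))) (XT.nd (nat_lit 78) (nat_lit 1140) (nat_lit 0) (XT.lf (nat_lit 0) (nat_lit 2498531888) (nat_lit 1748) (nat_lit 2993983229) (nat_lit 1824) (nat_lit 3912840266) (nat_lit 402) (nat_lit 5) (nat_lit 425) (nat_lit 5) (nat_lit 426) (nat_lit 5) (nat_lit 433) (nat_lit 403) (nat_lit 304)) (XT.nd (nat_lit 78) (nat_lit 1140) (nat_lit 0) (XT.lf (nat_lit 0) (nat_lit 7200734104) (nat_lit 1824) (nat_lit 1711830607) (nat_lit 76) (nat_lit 580895267) (nat_lit 402) (nat_lit 5) (nat_lit 426) (nat_lit 5) (nat_lit 403) (nat_lit 5) (nat_lit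 434) (nat_lit 403) (nat_lit 303)) (XT.lf (nat_lit 0) (nat_lit 3593521810) (nat_lit 1140) (nat_lit 5369832040) (nat_lit 1216) (nat_lit 619576310) (nat_lit 387) (nat_lit 5) (nat_lit 402) (nat_lit 5) (nat_lit 403) (nat_lit 5) (nat_lit 435) (nat_lit 403) (nat_lit 302))))) (XT.nd (nat_lit 234) (nat_lit 836) (nat_lit 0) (XT.nd (nat_lit 78) (nat_lit 1748) (nat_lit 0) (XT.lf (nat_lit 0) (nat_lit 1061577438) (nat_lit 1216) (nat_lit 673923878) (nat_lit 76) (nat_lit 7938779220) (nat_lit 386) (nat_lit 5) (nat_lit 402) (nat_lit 5) (nat_lit 387) (nat_lit 5) (nat_lit 436) (nat_lit 403) (nat_lit 301)) (XT.nd (nat_lit 78) (nat_lit 836) (nat_lit 0) (XT.lf (nat_lit 0) (nat_lit 2789864711) (nat_lit 988) (nat_lit 4994321083) (nat_lit 76) (nat_lit 1982761835) (nat_lit 374) (nat_lit 5) (nat_lit 387) (nat_lit 5) (nat_lit 375) (nat_lit 5) (nat_lit 437) (nat_lit 403) (nat_lit 300)) (XT.lf (nat_lit 0) (nat_lit 449309074) (nat_lit 836) (nat_lit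 4100367258) (nat_lit 912) (nat_lit 5311860158) (nat_lit 363) (nat_lit 5) (nat_lit 374) (nat_lit 5) (nat_lit 375) (nat_lit 5) (nat_lit 438) (nat_lit 403) (nat_lit 299)))) (XT.nd (nat_lit 78) (nat_lit 836) (nat_lit 0) (XT.lf (nat_lit 0) (nat_lit 6048722904) (nat_lit 836) (nat_lit 307767958) (nat_lit 912) (nat_lit 3601297579) (nat_lit 363) (nat_lit 5) (nat_lit 374) (nat_lit 5) (nat_lit 375) (nat_lit 5) (nat_lit 439) (nat_lit 403) (nat_lit 298)) (XT.nd (nat_lit 78) (nat_lit 0) (nat_lit 0) (XT.lf (nat_lit 0) (nat_lit 1682285280) (nat_lit 836) (nat_lit 6529920887) (nat_lit 912) (nat_lit 1843511278) (nat_lit 352) (nat_lit 5) (nat_lit 363) (nat_lit 5) (nat_lit 364) (nat_lit 5) (nat_lit 440) (nat_lit 403) (nat_lit 297)) (XT.lf (nat_lit 0) (nat_lit 7415703759) (nat_lit 836) (nat_lit 2696595247) (nat_lit 912) (nat_lit 43167916) (nat_lit 352) (nat_lit 5) (nat_lit 363) (nat_lit 5) (nat_lit 364) (nat_lit 5) (nat_lit 441) (nat_lit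 403) (nat_lit 296))))))))
noncomputable def xc153 : XT := (XT.nd (nat_lit 1716) (nat_lit 6080) (nat_lit 0) (XT.nd (nat_lit 858) (nat_lit 4636) (nat_lit 0) (XT.nd (nat_lit 390) (nat_lit 2280) (nat_lit 0) (XT.nd (nat_lit 156) (nat_lit 1596) (nat_lit 0) (XT.nd (nat_lit 78) (nat_lit 0) (nat_lit 0) (XT.lf (nat_lit 0) (nat_lit 1776593581) (nat_lit 912) (nat_lit 7251189155) (nat_lit 76) (nat_lit 1229064100) (nat_lit 340) (nat_lit 5) (nat_lit 352) (nat_lit 5) (nat_lit 341) (nat_lit 5) (nat_lit 442) (nat_lit 403) (nat_lit 295)) (XT.lf (nat_lit 0) (nat_lit 3648086991) (nat_lit 912) (nat_lit 1495867312) (nat_lit 76) (nat_lit 5215982790) (nat_lit 340) (nat_lit 5) (nat_lit 352) (nat_lit 5) (nat_lit 341) (nat_lit 5) (nat_lit 443) (nat_lit 403) (nat_lit 294))) (XT.nd (nat_lit 78) (nat_lit 760) (nat_lit 0) (XT.lf (nat_lit 0) (nat_lit 4411993745) (nat_lit 836) (nat_lit 1153612018) (nat_lit 912) (nat_lit 4899318096) (nat_lit 329) (nat_lit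 5) (nat_lit 340) (nat_lit 5) (nat_lit 341) (nat_lit 5) (nat_lit 444) (nat_lit 403) (nat_lit 293)) (XT.nd (nat_lit 78) (nat_lit 760) (nat_lit 0) (XT.lf (nat_lit 0) (nat_lit 7530723502) (nat_lit 912) (nat_lit 153219128) (nat_lit 76) (nat_lit 2887889242) (nat_lit 329) (nat_lit 5) (nat_lit 341) (nat_lit 5) (nat_lit 330) (nat_lit 5) (nat_lit 445) (nat_lit 403) (nat_lit 292)) (XT.lf (nat_lit 0) (nat_lit 5914120966) (nat_lit 760) (nat_lit 3647656881) (nat_lit 836) (nat_lit 1118573869) (nat_lit 319) (nat_lit 5) (nat_lit 329) (nat_lit 5) (nat_lit 330) (nat_lit 5) (nat_lit 446) (nat_lit 403) (nat_lit 291))))) (XT.nd (nat_lit 234) (nat_lit 760) (nat_lit 0) (XT.nd (nat_lit 78) (nat_lit 684) (nat_lit 0) (XT.lf (nat_lit 0) (nat_lit 824723258) (nat_lit 836) (nat_lit 9489188951) (nat_lit 76) (nat_lit 477159263) (nat_lit 308) (nat_lit 5) (nat_lit 319) (nat_lit 5) (nat_lit 309) (nat_lit 5) (nat_lit 447) (nat_lit 403) (nat_lit 290)) (XT.nd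 (nat_lit 78) (nat_lit 684) (nat_lit 0) (XT.lf (nat_lit 0) (nat_lit 2829226072) (nat_lit 836) (nat_lit 3399840023) (nat_lit 76) (nat_lit 4674051294) (nat_lit 308) (nat_lit 5) (nat_lit 319) (nat_lit 5) (nat_lit 309) (nat_lit 5) (nat_lit 448) (nat_lit 403) (nat_lit 289)) (XT.lf (nat_lit 0) (nat_lit 2828129075) (nat_lit 684) (nat_lit 2045376515) (nat_lit 760) (nat_lit 6143910774) (nat_lit 299) (nat_lit 5) (nat_lit 308) (nat_lit 5) (nat_lit 309) (nat_lit 5) (nat_lit 449) (nat_lit 403) (nat_lit 288)))) (XT.nd (nat_lit 78) (nat_lit 760) (nat_lit 0) (XT.lf (nat_lit 0) (nat_lit 6977612256) (nat_lit 760) (nat_lit 1941868013) (nat_lit 76) (nat_lit 2214147976) (nat_lit 299) (nat_lit 5) (nat_lit 309) (nat_lit 5) (nat_lit 300) (nat_lit 5) (nat_lit 450) (nat_lit 403) (nat_lit 287)) (XT.nd (nat_lit 78) (nat_lit 0) (nat_lit 0) (XT.lf (nat_lit 0) (nat_lit 4455299330) (nat_lit 760) (nat_lit 4692884942) (nat_lit 836) (nat_lit 2103498071)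 (nat_lit 289) (nat_lit 5) (nat_lit 299) (nat_lit 5) (nat_lit 300) (nat_lit 5) (nat_lit 451) (nat_lit 403) (nat_lit 286)) (XT.lf (nat_lit 0) (nat_lit 10986777872) (nat_lit 760) (nat_lit 370556861) (nat_lit 836) (nat_lit 14864984) (nat_lit 289) (nat_lit 5) (nat_lit 299) (nat_lit 5) (nat_lit 300) (nat_lit 5) (nat_lit 452) (nat_lit 403) (nat_lit 285)))))) (XT.nd (nat_lit 390) (nat_lit 2584) (nat_lit 0) (XT.nd (nat_lit 156) (nat_lit 608) (nat_lit 0) (XT.nd (nat_lit 78) (nat_lit 684) (nat_lit 0) (XT.lf (nat_lit 0) (nat_lit 2136986983) (nat_lit 760) (nat_lit 5319413323) (nat_lit 76) (nat_lit 4037473904) (nat_lit 279) (nat_lit 5) (nat_lit 289) (nat_lit 5) (nat_lit 280) (nat_lit 5) (nat_lit 453) (nat_lit 403) (nat_lit 284)) (XT.lf (nat_lit 0) (nat_lit 1246603426) (nat_lit 684) (nat_lit 3080793406) (nat_lit 760) (nat_lit 7290674212) (nat_lit 270) (nat_lit 5) (nat_lit 279) (nat_lit 5) (nat_lit 280) (nat_lit 5) (nat_lit 454) (nat_lit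 403) (nat_lit 283))) (XT.nd (nat_lit 78) (nat_lit 608) (nat_lit 0) (XT.lf (nat_lit 0) (nat_lit 6589286151) (nat_lit 760) (nat_lit 3757414980) (nat_lit 76) (nat_lit 1397502371) (nat_lit 270) (nat_lit 5) (nat_lit 280) (nat_lit 5) (nat_lit 271) (nat_lit 5) (nat_lit 455) (nat_lit 403) (nat_lit 282)) (XT.nd (nat_lit 78) (nat_lit 0) (nat_lit 0) (XT.lf (nat_lit 0) (nat_lit 2987886826) (nat_lit 608) (nat_lit 5931430178) (nat_lit 684) (nat_lit 2953088543) (nat_lit 262) (nat_lit 5) (nat_lit 270) (nat_lit 5) (nat_lit 271) (nat_lit 5) (nat_lit 456) (nat_lit 403) (nat_lit 281)) (XT.lf (nat_lit 0) (nat_lit 9899341833) (nat_lit 608) (nat_lit 1405126198) (nat_lit 684) (nat_lit 698538124) (nat_lit 262) (nat_lit 5) (nat_lit 270) (nat_lit 5) (nat_lit 271) (nat_lit 5) (nat_lit 457) (nat_lit 403) (nat_lit 280))))) (XT.nd (nat_lit 234) (nat_lit 1216) (nat_lit 0) (XT.nd (nat_lit 78) (nat_lit 608) (nat_lit 0) (XT.lf (nat_lit 0) (nat_lit 1616200425)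 (nat_lit 760) (nat_lit 7310375383) (nat_lit 76) (nat_lit 3208717864) (nat_lit 252) (nat_lit 5) (nat_lit 262) (nat_lit 5) (nat_lit 253) (nat_lit 5) (nat_lit 458) (nat_lit 403) (nat_lit 279)) (XT.nd (nat_lit 78) (nat_lit 608) (nat_lit 0) (XT.lf (nat_lit 0) (nat_lit 3975101263) (nat_lit 760) (nat_lit 383086349) (nat_lit 76) (nat_lit 7911807193) (nat_lit 252) (nat_lit 5) (nat_lit 262) (nat_lit 5) (nat_lit 253) (nat_lit 5) (nat_lit 459) (nat_lit 403) (nat_lit 278)) (XT.lf (nat_lit 0) (nat_lit 6411261341) (nat_lit 684) (nat_lit 5657080730) (nat_lit 76) (nat_lit 338450805) (nat_lit 244) (nat_lit 5) (nat_lit 253) (nat_lit 5) (nat_lit 245) (nat_lit 5) (nat_lit 460) (nat_lit 403) (nat_lit 277)))) (XT.nd (nat_lit 78) (nat_lit 608) (nat_lit 0) (XT.lf (nat_lit 0) (nat_lit 1454794844) (nat_lit 608) (nat_lit 7466428145) (nat_lit 684) (nat_lit 3624606803) (nat_lit 236) (nat_lit 5) (nat_lit 244) (nat_lit 5) (nat_lit 245) (nat_lit 5)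 (nat_lit 461) (nat_lit 403) (nat_lit 276)) (XT.nd (nat_lit 78) (nat_lit 608) (nat_lit 0) (XT.lf (nat_lit 0) (nat_lit 8766229559) (nat_lit 608) (nat_lit 2737483700) (nat_lit 684) (nat_lit 1183491963) (nat_lit 236) (nat_lit 5) (nat_lit 244) (nat_lit 5) (nat_lit 245) (nat_lit 5) (nat_lit 462) (nat_lit 403) (nat_lit 275)) (XT.lf (nat_lit 0) (nat_lit 1309738349) (nat_lit 608) (nat_lit 9435303081) (nat_lit 76) (nat_lit 2085792729) (nat_lit 228) (nat_lit 5) (nat_lit 236) (nat_lit 5) (nat_lit 229) (nat_lit 5) (nat_lit 463) (nat_lit 403) (nat_lit 274))))))) (XT.nd (nat_lit 858) (nat_lit 2736) (nat_lit 0) (XT.nd (nat_lit 390) (nat_lit 1596) (nat_lit 0) (XT.nd (nat_lit 156) (nat_lit 1140) (nat_lit 0) (XT.nd (nat_lit 78) (nat_lit 608) (nat_lit 0) (XT.lf (nat_lit 0) (nat_lit 3866338470) (nat_lit 608) (nat_lit 2110781993) (nat_lit 76) (nat_lit 6999475823) (nat_lit 228) (nat_lit 5) (nat_lit 236) (nat_lit 5) (nat_lit 229) (nat_lit 5)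 (nat_lit 464) (nat_lit 403) (nat_lit 273)) (XT.lf (nat_lit 0) (nat_lit 5412242056) (nat_lit 608) (nat_lit 1081990220) (nat_lit 684) (nat_lit 6630642177) (nat_lit 220) (nat_lit 5) (nat_lit 228) (nat_lit 5) (nat_lit 229) (nat_lit 5) (nat_lit 465) (nat_lit 403) (nat_lit 272))) (XT.nd (nat_lit 78) (nat_lit 1140) (nat_lit 0) (XT.lf (nat_lit 0) (nat_lit 9199502237) (nat_lit 684) (nat_lit 206102046) (nat_lit 76) (nat_lit 3870021487) (nat_lit 220) (nat_lit 5) (nat_lit 229) (nat_lit 5) (nat_lit 221) (nat_lit 5) (nat_lit 466) (nat_lit 403) (nat_lit 271)) (XT.nd (nat_lit 78) (nat_lit 608) (nat_lit 0) (XT.lf (nat_lit 0) (nat_lit 7523318922) (nat_lit 532) (nat_lit 4477028326) (nat_lit 608) (nat_lit 1428219347) (nat_lit 213) (nat_lit 5) (nat_lit 220) (nat_lit 5) (nat_lit 221) (nat_lit 5) (nat_lit 467) (nat_lit 403) (nat_lit 270)) (XT.lf (nat_lit 0) (nat_lit 1258385308) (nat_lit 608) (nat_lit 11765720040) (nat_lit 76) (nat_lit 560250689)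 (nat_lit 205) (nat_lit 5) (nat_lit 213) (nat_lit 5) (nat_lit 206) (nat_lit 5) (nat_lit 468) (nat_lit 403) (nat_lit 269))))) (XT.nd (nat_lit 234) (nat_lit 1064) (nat_lit 0) (XT.nd (nat_lit 78) (nat_lit 532) (nat_lit 0) (XT.lf (nat_lit 0) (nat_lit 4034812139) (nat_lit 608) (nat_lit 4023748911) (nat_lit 76) (nat_lit 5683410780) (nat_lit 205) (nat_lit 5) (nat_lit 213) (nat_lit 5) (nat_lit 206) (nat_lit 5) (nat_lit 469) (nat_lit 403) (nat_lit 268)) (XT.nd (nat_lit 78) (nat_lit 0) (nat_lit 0) (XT.lf (nat_lit 0) (nat_lit 3905702606) (nat_lit 532) (nat_lit 2972361661) (nat_lit 608) (nat_lit 7024453316) (nat_lit 198) (nat_lit 5) (nat_lit 205) (nat_lit 5) (nat_lit 206) (nat_lit 5) (nat_lit 470) (nat_lit 403) (nat_lit 267)) (XT.lf (nat_lit 0) (nat_lit 9805811260) (nat_lit 608) (nat_lit 2050724626) (nat_lit 76) (nat_lit 2209189279) (nat_lit 198) (nat_lit 5) (nat_lit 206) (nat_lit 5) (nat_lit 199) (nat_lit 5) (nat_lit 471) (nat_lit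 403) (nat_lit 266)))) (XT.nd (nat_lit 78) (nat_lit 532) (nat_lit 0) (XT.lf (nat_lit 0) (nat_lit 6096210007) (nat_lit 532) (nat_lit 6741506215) (nat_lit 608) (nat_lit 1393572055) (nat_lit 191) (nat_lit 5) (nat_lit 198) (nat_lit 5) (nat_lit 199) (nat_lit 5) (nat_lit 472) (nat_lit 403) (nat_lit 265)) (XT.nd (nat_lit 78) (nat_lit 0) (nat_lit 0) (XT.lf (nat_lit 0) (nat_lit 5633042) (nat_lit 456) (nat_lit 1504679862) (nat_lit 532) (nat_lit 12889648692) (nat_lit 184) (nat_lit 5) (nat_lit 190) (nat_lit 5) (nat_lit 191) (nat_lit 5) (nat_lit 473) (nat_lit 403) (nat_lit 264)) (XT.lf (nat_lit 0) (nat_lit 4520008134) (nat_lit 532) (nat_lit 6204516161) (nat_lit 76) (nat_lit 3845975247) (nat_lit 184) (nat_lit 5) (nat_lit 191) (nat_lit 5) (nat_lit 185) (nat_lit 5) (nat_lit 474) (nat_lit 403) (nat_lit 263)))))) (XT.nd (nat_lit 390) (nat_lit 1292) (nat_lit 0) (XT.nd (nat_lit 156) (nat_lit 988) (nat_lit 0) (XT.nd (nat_lit 78) (nat_lit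 0) (nat_lit 0) (XT.lf (nat_lit 0) (nat_lit 2149148265) (nat_lit 456) (nat_lit 5451443233) (nat_lit 532) (nat_lit 7143646043) (nat_lit 178) (nat_lit 5) (nat_lit 184) (nat_lit 5) (nat_lit 185) (nat_lit 5) (nat_lit 475) (nat_lit 403) (nat_lit 262)) (XT.lf (nat_lit 0) (nat_lit 10735943431) (nat_lit 456) (nat_lit 35396567) (nat_lit 532) (nat_lit 4149542351) (nat_lit 178) (nat_lit 5) (nat_lit 184) (nat_lit 5) (nat_lit 185) (nat_lit 5) (nat_lit 476) (nat_lit 403) (nat_lit 261))) (XT.nd (nat_lit 78) (nat_lit 532) (nat_lit 0) (XT.lf (nat_lit 0) (nat_lit 4397530292) (nat_lit 456) (nat_lit 9659305709) (nat_lit 532) (nat_lit 1043200455) (nat_lit 172) (nat_lit 5) (nat_lit 178) (nat_lit 5) (nat_lit 179) (nat_lit 5) (nat_lit 477) (nat_lit 403) (nat_lit 260)) (XT.nd (nat_lit 78) (nat_lit 456) (nat_lit 0) (XT.lf (nat_lit 0) (nat_lit 2113090667) (nat_lit 532) (nat_lit 2106029958) (nat_lit 76) (nat_lit 11063066069) (nat_lit 171) (nat_lit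 5) (nat_lit 178) (nat_lit 5) (nat_lit 172) (nat_lit 5) (nat_lit 478) (nat_lit 403) (nat_lit 259)) (XT.lf (nat_lit 0) (nat_lit 5358601951) (nat_lit 532) (nat_lit 8750101518) (nat_lit 76) (nat_lit 1358340182) (nat_lit 165) (nat_lit 5) (nat_lit 172) (nat_lit 5) (nat_lit 166) (nat_lit 5) (nat_lit 479) (nat_lit 403) (nat_lit 258))))) (XT.nd (nat_lit 234) (nat_lit 456) (nat_lit 0) (XT.nd (nat_lit 78) (nat_lit 456) (nat_lit 0) (XT.lf (nat_lit 0) (nat_lit 44428603) (nat_lit 380) (nat_lit 8654593474) (nat_lit 456) (nat_lit 6955978519) (nat_lit 160) (nat_lit 5) (nat_lit 165) (nat_lit 5) (nat_lit 166) (nat_lit 5) (nat_lit 480) (nat_lit 403) (nat_lit 257)) (XT.nd (nat_lit 78) (nat_lit 456) (nat_lit 0) (XT.lf (nat_lit 0) (nat_lit 9115850215) (nat_lit 380) (nat_lit 3036790907) (nat_lit 456) (nat_lit 3693150516) (nat_lit 160) (nat_lit 5) (nat_lit 165) (nat_lit 5) (nat_lit 166) (nat_lit 5) (nat_lit 481) (nat_lit 403) (nat_lit 256))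 (XT.lf (nat_lit 0) (nat_lit 2323817339) (nat_lit 456) (nat_lit 13371970922) (nat_lit 532) (nat_lit 344203839) (nat_lit 154) (nat_lit 5) (nat_lit 160) (nat_lit 5) (nat_lit 161) (nat_lit 5) (nat_lit 482) (nat_lit 403) (nat_lit 255)))) (XT.nd (nat_lit 78) (nat_lit 380) (nat_lit 0) (XT.lf (nat_lit 0) (nat_lit 3084931000) (nat_lit 532) (nat_lit 4645172574) (nat_lit 76) (nat_lit 8506506821) (nat_lit 153) (nat_lit 5) (nat_lit 160) (nat_lit 5) (nat_lit 154) (nat_lit 5) (nat_lit 483) (nat_lit 403) (nat_lit 254)) (XT.nd (nat_lit 78) (nat_lit 0) (nat_lit 0) (XT.lf (nat_lit 0) (nat_lit 4648760369) (nat_lit 380) (nat_lit 1947626896) (nat_lit 456) (nat_lit 9840363892) (nat_lit 148) (nat_lit 5) (nat_lit 153) (nat_lit 5) (nat_lit 154) (nat_lit 5) (nat_lit 484) (nat_lit 403) (nat_lit 253)) (XT.lf (nat_lit 0) (nat_lit 10223347000) (nat_lit 456) (nat_lit 2491856738) (nat_lit 76) (nat_lit 3924788017) (nat_lit 148) (nat_lit 5) (nat_lit 154)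 (nat_lit 5) (nat_lit 149) (nat_lit 5) (nat_lit 485) (nat_lit 403) (nat_lit 252))))))))
noncomputable def xc154 : XT := (XT.nd (nat_lit 53196) (nat_lit 0) (nat_lit 28500) (XT.nd (nat_lit 858) (nat_lit 1368) (nat_lit 0) (XT.nd (nat_lit 390) (nat_lit 1520) (nat_lit 0) (XT.nd (nat_lit 156) (nat_lit 760) (nat_lit 0) (XT.nd (nat_lit 78) (nat_lit 76) (nat_lit 0) (XT.lf (nat_lit 0) (nat_lit 7052871830) (nat_lit 380) (nat_lit 6917141755) (nat_lit 456) (nat_lit 2876342682) (nat_lit 143) (nat_lit 5) (nat_lit 148) (nat_lit 5) (nat_lit 149) (nat_lit 5) (nat_lit 486) (nat_lit 403) (nat_lit 251)) (XT.lf (nat_lit 0) (nat_lit 730477627) (nat_lit 456) (nat_lit 256095465) (nat_lit 76) (nat_lit 16070074953) (nat_lit 142) (nat_lit 5) (nat_lit 148) (nat_lit 5) (nat_lit 143) (nat_lit 5) (nat_lit 487) (nat_lit 403) (nat_lit 250))) (XT.nd (nat_lit 78) (nat_lit 380) (nat_lit 0) (XT.lf (nat_lit 0) (nat_lit 4455151060) (nat_lit 456) (nat_lit 7741366313)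 (nat_lit 76) (nat_lit 5072565728) (nat_lit 137) (nat_lit 5) (nat_lit 143) (nat_lit 5) (nat_lit 138) (nat_lit 5) (nat_lit 488) (nat_lit 403) (nat_lit 249)) (XT.nd (nat_lit 78) (nat_lit 0) (nat_lit 0) (XT.lf (nat_lit 0) (nat_lit 2028279347) (nat_lit 380) (nat_lit 6236291055) (nat_lit 456) (nat_lit 9220993680) (nat_lit 132) (nat_lit 5) (nat_lit 137) (nat_lit 5) (nat_lit 138) (nat_lit 5) (nat_lit 489) (nat_lit 403) (nat_lit 248)) (XT.lf (nat_lit 0) (nat_lit 12081643022) (nat_lit 380) (nat_lit 109415107) (nat_lit 456) (nat_lit 5514501177) (nat_lit 132) (nat_lit 5) (nat_lit 137) (nat_lit 5) (nat_lit 138) (nat_lit 5) (nat_lit 490) (nat_lit 403) (nat_lit 247))))) (XT.nd (nat_lit 234) (nat_lit 684) (nat_lit 0) (XT.nd (nat_lit 78) (nat_lit 456) (nat_lit 0) (XT.lf (nat_lit 0) (nat_lit 4407591567) (nat_lit 380) (nat_lit 11846079103) (nat_lit 456) (nat_lit 1675134046) (nat_lit 127) (nat_lit 5) (nat_lit 132) (nat_lit 5) (nat_lit 133)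 (nat_lit 5) (nat_lit 491) (nat_lit 403) (nat_lit 246)) (XT.nd (nat_lit 78) (nat_lit 380) (nat_lit 0) (XT.lf (nat_lit 0) (nat_lit 2239489863) (nat_lit 456) (nat_lit 3471829089) (nat_lit 76) (nat_lit 12444349959) (nat_lit 126) (nat_lit 5) (nat_lit 132) (nat_lit 5) (nat_lit 127) (nat_lit 5) (nat_lit 492) (nat_lit 403) (nat_lit 245)) (XT.lf (nat_lit 0) (nat_lit 6247650555) (nat_lit 456) (nat_lit 11549066433) (nat_lit 76) (nat_lit 589380518) (nat_lit 121) (nat_lit 5) (nat_lit 127) (nat_lit 5) (nat_lit 122) (nat_lit 5) (nat_lit 493) (nat_lit 403) (nat_lit 244)))) (XT.nd (nat_lit 78) (nat_lit 684) (nat_lit 0) (XT.lf (nat_lit 0) (nat_lit 10386677786) (nat_lit 456) (nat_lit 1275770291) (nat_lit 76) (nat_lit 6957674545) (nat_lit 121) (nat_lit 5) (nat_lit 127) (nat_lit 5) (nat_lit 122) (nat_lit 5) (nat_lit 494) (nat_lit 403) (nat_lit 243)) (XT.nd (nat_lit 78) (nat_lit 380) (nat_lit 0) (XT.lf (nat_lit 0) (nat_lit 9309147649) (nat_lit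 304) (nat_lit 5349414302) (nat_lit 380) (nat_lit 4199266738) (nat_lit 117) (nat_lit 5) (nat_lit 121) (nat_lit 5) (nat_lit 122) (nat_lit 5) (nat_lit 495) (nat_lit 403) (nat_lit 242)) (XT.lf (nat_lit 0) (nat_lit 1013092141) (nat_lit 380) (nat_lit 18014762872) (nat_lit 456) (nat_lit 72196377) (nat_lit 112) (nat_lit 5) (nat_lit 117) (nat_lit 5) (nat_lit 118) (nat_lit 5) (nat_lit 496) (nat_lit 403) (nat_lit 241)))))) (XT.nd (nat_lit 390) (nat_lit 608) (nat_lit 0) (XT.nd (nat_lit 156) (nat_lit 380) (nat_lit 0) (XT.nd (nat_lit 78) (nat_lit 304) (nat_lit 0) (XT.lf (nat_lit 0) (nat_lit 4172808915) (nat_lit 456) (nat_lit 7509049726) (nat_lit 76) (nat_lit 7662931381) (nat_lit 111) (nat_lit 5) (nat_lit 117) (nat_lit 5) (nat_lit 112) (nat_lit 5) (nat_lit 497) (nat_lit 403) (nat_lit 240)) (XT.lf (nat_lit 0) (nat_lit 3307599427) (nat_lit 304) (nat_lit 5205554467) (nat_lit 380) (nat_lit 11081033687) (nat_lit 107) (nat_lit 5) (nat_lit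 111) (nat_lit 5) (nat_lit 112) (nat_lit 5) (nat_lit 498) (nat_lit 403) (nat_lit 239))) (XT.nd (nat_lit 78) (nat_lit 380) (nat_lit 0) (XT.lf (nat_lit 0) (nat_lit 12990110347) (nat_lit 380) (nat_lit 5430403219) (nat_lit 76) (nat_lit 1427065225) (nat_lit 107) (nat_lit 5) (nat_lit 112) (nat_lit 5) (nat_lit 108) (nat_lit 5) (nat_lit 499) (nat_lit 403) (nat_lit 238)) (XT.nd (nat_lit 78) (nat_lit 76) (nat_lit 0) (XT.lf (nat_lit 0) (nat_lit 5667287069) (nat_lit 304) (nat_lit 11950774466) (nat_lit 380) (nat_lit 2486748931) (nat_lit 103) (nat_lit 5) (nat_lit 107) (nat_lit 5) (nat_lit 108) (nat_lit 5) (nat_lit 500) (nat_lit 403) (nat_lit 237)) (XT.lf (nat_lit 0) (nat_lit 1972424610) (nat_lit 380) (nat_lit 3334459052) (nat_lit 76) (nat_lit 15059510916) (nat_lit 102) (nat_lit 5) (nat_lit 107) (nat_lit 5) (nat_lit 103) (nat_lit 5) (nat_lit 501) (nat_lit 403) (nat_lit 236))))) (XT.nd (nat_lit 51714) (nat_lit 0) (nat_lit 35036) (XT.nd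 (nat_lit 78) (nat_lit 304) (nat_lit 0) (XT.lf (nat_lit 0) (nat_lit 6540244370) (nat_lit 380) (nat_lit 12577219259) (nat_lit 76) (nat_lit 1514364440) (nat_lit 98) (nat_lit 5) (nat_lit 103) (nat_lit 5) (nat_lit 99) (nat_lit 5) (nat_lit 502) (nat_lit 403) (nat_lit 235)) (XT.nd (nat_lit 78) (nat_lit 304) (nat_lit 0) (XT.lf (nat_lit 0) (nat_lit 11247547846) (nat_lit 380) (nat_lit 1236011727) (nat_lit 76) (nat_lit 8418049733) (nat_lit 98) (nat_lit 5) (nat_lit 103) (nat_lit 5) (nat_lit 99) (nat_lit 5) (nat_lit 503) (nat_lit 403) (nat_lit 234)) (XT.lf (nat_lit 0) (nat_lit 10454174007) (nat_lit 304) (nat_lit 5653344146) (nat_lit 380) (nat_lit 5068099189) (nat_lit 94) (nat_lit 5) (nat_lit 98) (nat_lit 5) (nat_lit 99) (nat_lit 5) (nat_lit 504) (nat_lit 403) (nat_lit 233)))) (XT.nd (nat_lit 78) (nat_lit 0) (nat_lit 0) (XT.lf (nat_lit 0) (nat_lit 2172435321) (nat_lit 1292) (nat_lit 800804456) (nat_lit 1292) (nat_lit 800804456) (nat_lit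 555) (nat_lit 3) (nat_lit 572) (nat_lit 3) (nat_lit 572) (nat_lit 5) (nat_lit 404) (nat_lit 404) (nat_lit 332)) (XT.nd (nat_lit 78) (nat_lit 0) (nat_lit 0) (XT.lf (nat_lit 76) (nat_lit 2055869693) (nat_lit 0) (nat_lit 3740168228) (nat_lit 1292) (nat_lit 1798774446) (nat_lit 556) (nat_lit 5) (nat_lit 555) (nat_lit 3) (nat_lit 572) (nat_lit 5) (nat_lit 405) (nat_lit 404) (nat_lit 331)) (XT.lf (nat_lit 76) (nat_lit 5789299035) (nat_lit 0) (nat_lit 1460979539) (nat_lit 1292) (nat_lit 392726976) (nat_lit 556) (nat_lit 5) (nat_lit 555) (nat_lit 3) (nat_lit 572) (nat_lit 5) (nat_lit 406) (nat_lit 404) (nat_lit 330))))))) (XT.nd (nat_lit 858) (nat_lit 4028) (nat_lit 0) (XT.nd (nat_lit 390) (nat_lit 1292) (nat_lit 0) (XT.nd (nat_lit 156) (nat_lit 0) (nat_lit 0) (XT.nd (nat_lit 78) (nat_lit 0) (nat_lit 0) (XT.lf (nat_lit 0) (nat_lit 1009762498) (nat_lit 1292) (nat_lit 5793952145) (nat_lit 1368) (nat_lit 888688316) (nat_lit 539)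 (nat_lit 5) (nat_lit 556) (nat_lit 5) (nat_lit 557) (nat_lit 5) (nat_lit 407) (nat_lit 404) (nat_lit 329)) (XT.lf (nat_lit 0) (nat_lit 2421709841) (nat_lit 1292) (nat_lit 2023865528) (nat_lit 1368) (nat_lit 3297442591) (nat_lit 539) (nat_lit 5) (nat_lit 556) (nat_lit 5) (nat_lit 557) (nat_lit 5) (nat_lit 408) (nat_lit 404) (nat_lit 328))) (XT.nd (nat_lit 78) (nat_lit 0) (nat_lit 76) (XT.lf (nat_lit 76) (nat_lit 1826214951) (nat_lit 0) (nat_lit 2012699640) (nat_lit 1368) (nat_lit 3956204903) (nat_lit 540) (nat_lit 5) (nat_lit 539) (nat_lit 5) (nat_lit 557) (nat_lit 5) (nat_lit 409) (nat_lit 404) (nat_lit 327)) (XT.nd (nat_lit 78) (nat_lit 0) (nat_lit 0) (XT.lf (nat_lit 0) (nat_lit 5266995972) (nat_lit 1292) (nat_lit 2090423560) (nat_lit 1368) (nat_lit 491207194) (nat_lit 540) (nat_lit 5) (nat_lit 557) (nat_lit 5) (nat_lit 558) (nat_lit 5) (nat_lit 410) (nat_lit 404) (nat_lit 326)) (XT.lf (nat_lit 76) (nat_lit 1857016468)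 (nat_lit 0) (nat_lit 4858496288) (nat_lit 1368) (nat_lit 1187867906) (nat_lit 541) (nat_lit 5) (nat_lit 540) (nat_lit 5) (nat_lit 558) (nat_lit 5) (nat_lit 411) (nat_lit 404) (nat_lit 325))))) (XT.nd (nat_lit 234) (nat_lit 0) (nat_lit 76) (XT.nd (nat_lit 78) (nat_lit 0) (nat_lit 76) (XT.lf (nat_lit 0) (nat_lit 211611107) (nat_lit 1368) (nat_lit 2068780513) (nat_lit 1444) (nat_lit 5679203056) (nat_lit 522) (nat_lit 5) (nat_lit 540) (nat_lit 5) (nat_lit 541) (nat_lit 5) (nat_lit 412) (nat_lit 404) (nat_lit 324)) (XT.nd (nat_lit 78) (nat_lit 0) (nat_lit 0) (XT.lf (nat_lit 0) (nat_lit 1606016757) (nat_lit 1368) (nat_lit 6032694809) (nat_lit 1444) (nat_lit 378420741) (nat_lit 523) (nat_lit 5) (nat_lit 541) (nat_lit 5) (nat_lit 542) (nat_lit 5) (nat_lit 413) (nat_lit 404) (nat_lit 323)) (XT.lf (nat_lit 0) (nat_lit 3025418467) (nat_lit 1368) (nat_lit 1964152078) (nat_lit 1444) (nat_lit 3086320954) (nat_lit 523) (nat_lit 5)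 (nat_lit 541) (nat_lit 5) (nat_lit 542) (nat_lit 5) (nat_lit 414) (nat_lit 404) (nat_lit 322)))) (XT.nd (nat_lit 78) (nat_lit 0) (nat_lit 76) (XT.lf (nat_lit 76) (nat_lit 2194763970) (nat_lit 0) (nat_lit 2261352410) (nat_lit 1444) (nat_lit 3680064046) (nat_lit 524) (nat_lit 5) (nat_lit 523) (nat_lit 5) (nat_lit 542) (nat_lit 5) (nat_lit 415) (nat_lit 404) (nat_lit 321)) (XT.nd (nat_lit 78) (nat_lit 0) (nat_lit 0) (XT.lf (nat_lit 0) (nat_lit 5901299493) (nat_lit 1368) (nat_lit 1757755748) (nat_lit 1444) (nat_lit 538914928) (nat_lit 524) (nat_lit 5) (nat_lit 542) (nat_lit 5) (nat_lit 543) (nat_lit 5) (nat_lit 416) (nat_lit 404) (nat_lit 320)) (XT.lf (nat_lit 76) (nat_lit 2507533785) (nat_lit 0) (nat_lit 4868930455) (nat_lit 1444) (nat_lit 884522126) (nat_lit 525) (nat_lit 5) (nat_lit 524) (nat_lit 5) (nat_lit 543) (nat_lit 5) (nat_lit 417) (nat_lit 404) (nat_lit 319)))))) (XT.nd (nat_lit 390) (nat_lit 2736) (nat_lit 0)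 (XT.nd (nat_lit 156) (nat_lit 0) (nat_lit 76) (XT.nd (nat_lit 78) (nat_lit 0) (nat_lit 76) (XT.lf (nat_lit 0) (nat_lit 530528618) (nat_lit 1444) (nat_lit 1466991651) (nat_lit 1520) (nat_lit 6328043191) (nat_lit 505) (nat_lit 5) (nat_lit 524) (nat_lit 5) (nat_lit 525) (nat_lit 5) (nat_lit 418) (nat_lit 404) (nat_lit 318)) (XT.lf (nat_lit 0) (nat_lit 1957927186) (nat_lit 1444) (nat_lit 5480035863) (nat_lit 1520) (nat_lit 953445816) (nat_lit 506) (nat_lit 5) (nat_lit 525) (nat_lit 5) (nat_lit 526) (nat_lit 5) (nat_lit 419) (nat_lit 404) (nat_lit 317))) (XT.nd (nat_lit 78) (nat_lit 0) (nat_lit 0) (XT.lf (nat_lit 0) (nat_lit 3408181452) (nat_lit 1444) (nat_lit 1094832603) (nat_lit 1520) (nat_lit 3955682258) (nat_lit 506) (nat_lit 5) (nat_lit 525) (nat_lit 5) (nat_lit 526) (nat_lit 5) (nat_lit 420) (nat_lit 404) (nat_lit 316)) (XT.nd (nat_lit 78) (nat_lit 0) (nat_lit 76) (XT.lf (nat_lit 76) (nat_lit 3402746558) (nat_lit 0)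 (nat_lit 1478522070) (nat_lit 1520) (nat_lit 3646195391) (nat_lit 507) (nat_lit 5) (nat_lit 506) (nat_lit 5) (nat_lit 526) (nat_lit 5) (nat_lit 421) (nat_lit 404) (nat_lit 315)) (XT.lf (nat_lit 0) (nat_lit 6373855789) (nat_lit 1444) (nat_lit 623265142) (nat_lit 1520) (nat_lit 1600696235) (nat_lit 507) (nat_lit 5) (nat_lit 526) (nat_lit 5) (nat_lit 527) (nat_lit 5) (nat_lit 422) (nat_lit 404) (nat_lit 314))))) (XT.nd (nat_lit 234) (nat_lit 1368) (nat_lit 0) (XT.nd (nat_lit 78) (nat_lit 1520) (nat_lit 0) (XT.lf (nat_lit 76) (nat_lit 3990720379) (nat_lit 0) (nat_lit 3914033586) (nat_lit 1520) (nat_lit 764664863) (nat_lit 508) (nat_lit 5) (nat_lit 507) (nat_lit 5) (nat_lit 527) (nat_lit 5) (nat_lit 423) (nat_lit 404) (nat_lit 313)) (XT.nd (nat_lit 78) (nat_lit 0) (nat_lit 76) (XT.lf (nat_lit 0) (nat_lit 691508917) (nat_lit 1520) (nat_lit 61942784) (nat_lit 1596) (nat_lit 7989373369) (nat_lit 487) (nat_lit 5) (nat_lit 507)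 (nat_lit 5) (nat_lit 508) (nat_lit 5) (nat_lit 424) (nat_lit 404) (nat_lit 312)) (XT.lf (nat_lit 0) (nat_lit 2186807168) (nat_lit 1520) (nat_lit 4150219443) (nat_lit 1596) (nat_lit 2480176965) (nat_lit 488) (nat_lit 5) (nat_lit 508) (nat_lit 5) (nat_lit 509) (nat_lit 5) (nat_lit 425) (nat_lit 404) (nat_lit 311)))) (XT.nd (nat_lit 78) (nat_lit 1444) (nat_lit 0) (XT.lf (nat_lit 76) (nat_lit 580564073) (nat_lit 0) (nat_lit 3114561526) (nat_lit 1596) (nat_lit 5198291596) (nat_lit 489) (nat_lit 5) (nat_lit 488) (nat_lit 5) (nat_lit 509) (nat_lit 5) (nat_lit 426) (nat_lit 404) (nat_lit 310)) (XT.nd (nat_lit 78) (nat_lit 1520) (nat_lit 0) (XT.lf (nat_lit 0) (nat_lit 5237116267) (nat_lit 1520) (nat_lit 3530431740) (nat_lit 76) (nat_lit 203546596) (nat_lit 489) (nat_lit 5) (nat_lit 509) (nat_lit 5) (nat_lit 490) (nat_lit 5) (nat_lit 427) (nat_lit 404) (nat_lit 309)) (XT.lf (nat_lit 0) (nat_lit 1324032872) (nat_lit 1520) (nat_lit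 5489991751) (nat_lit 1596) (nat_lit 2236228825) (nat_lit 469) (nat_lit 5) (nat_lit 489) (nat_lit 5) (nat_lit 490) (nat_lit 5) (nat_lit 428) (nat_lit 404) (nat_lit 308))))))))
noncomputable def xc155 : XT := (XT.nd (nat_lit 1716) (nat_lit 7676) (nat_lit 0) (XT.nd (nat_lit 858) (nat_lit 4864) (nat_lit 0) (XT.nd (nat_lit 390) (nat_lit 4712) (nat_lit 0) (XT.nd (nat_lit 156) (nat_lit 1672) (nat_lit 0) (XT.nd (nat_lit 78) (nat_lit 1672) (nat_lit 0) (XT.lf (nat_lit 0) (nat_lit 6303232660) (nat_lit 1520) (nat_lit 2118146502) (nat_lit 1596) (nat_lit 709647409) (nat_lit 469) (nat_lit 5) (nat_lit 489) (nat_lit 5) (nat_lit 490) (nat_lit 5) (nat_lit 429) (nat_lit 404) (nat_lit 307)) (XT.lf (nat_lit 0) (nat_lit 834717905) (nat_lit 1672) (nat_lit 7050827076) (nat_lit 76) (nat_lit 1327801690) (nat_lit 447) (nat_lit 5) (nat_lit 469) (nat_lit 5) (nat_lit 448) (nat_lit 5) (nat_lit 430) (nat_lit 404) (nat_lit 306))) (XT.nd (nat_lit 78)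 (nat_lit 1672) (nat_lit 0) (XT.lf (nat_lit 0) (nat_lit 2409515803) (nat_lit 1672) (nat_lit 2045348550) (nat_lit 76) (nat_lit 4842182783) (nat_lit 447) (nat_lit 5) (nat_lit 469) (nat_lit 5) (nat_lit 448) (nat_lit 5) (nat_lit 431) (nat_lit 404) (nat_lit 305)) (XT.nd (nat_lit 78) (nat_lit 0) (nat_lit 0) (XT.lf (nat_lit 0) (nat_lit 3080510627) (nat_lit 1672) (nat_lit 931681572) (nat_lit 1748) (nat_lit 5370310316) (nat_lit 425) (nat_lit 5) (nat_lit 447) (nat_lit 5) (nat_lit 448) (nat_lit 5) (nat_lit 432) (nat_lit 404) (nat_lit 304)) (XT.lf (nat_lit 0) (nat_lit 5654758051) (nat_lit 1748) (nat_lit 1170647768) (nat_lit 76) (nat_lit 2644112851) (nat_lit 425) (nat_lit 5) (nat_lit 448) (nat_lit 5) (nat_lit 426) (nat_lit 5) (nat_lit 433) (nat_lit 404) (nat_lit 303))))) (XT.nd (nat_lit 234) (nat_lit 1748) (nat_lit 0) (XT.nd (nat_lit 78) (nat_lit 1216) (nat_lit 0) (XT.lf (nat_lit 0) (nat_lit 4090712051) (nat_lit 1748) (nat_lit 3249385434)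 (nat_lit 1824) (nat_lit 2217987440) (nat_lit 402) (nat_lit 5) (nat_lit 425) (nat_lit 5) (nat_lit 426) (nat_lit 5) (nat_lit 434) (nat_lit 404) (nat_lit 302)) (XT.nd (nat_lit 78) (nat_lit 1216) (nat_lit 0) (XT.lf (nat_lit 0) (nat_lit 9047163103) (nat_lit 1824) (nat_lit 198168638) (nat_lit 76) (nat_lit 403338440) (nat_lit 402) (nat_lit 5) (nat_lit 426) (nat_lit 5) (nat_lit 403) (nat_lit 5) (nat_lit 435) (nat_lit 404) (nat_lit 301)) (XT.lf (nat_lit 0) (nat_lit 1067048249) (nat_lit 1216) (nat_lit 4544322448) (nat_lit 76) (nat_lit 4128898579) (nat_lit 386) (nat_lit 5) (nat_lit 402) (nat_lit 5) (nat_lit 387) (nat_lit 5) (nat_lit 436) (nat_lit 404) (nat_lit 300)))) (XT.nd (nat_lit 78) (nat_lit 836) (nat_lit 0) (XT.lf (nat_lit 0) (nat_lit 853965113) (nat_lit 912) (nat_lit 1891964572) (nat_lit 988) (nat_lit 7087998562) (nat_lit 374) (nat_lit 5) (nat_lit 386) (nat_lit 5) (nat_lit 387) (nat_lit 5) (nat_lit 437) (nat_lit 404) (nat_lit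 299)) (XT.nd (nat_lit 78) (nat_lit 836) (nat_lit 0) (XT.lf (nat_lit 0) (nat_lit 4479860564) (nat_lit 988) (nat_lit 3540098107) (nat_lit 76) (nat_lit 1909079738) (nat_lit 374) (nat_lit 5) (nat_lit 387) (nat_lit 5) (nat_lit 375) (nat_lit 5) (nat_lit 438) (nat_lit 404) (nat_lit 298)) (XT.lf (nat_lit 0) (nat_lit 2002180249) (nat_lit 836) (nat_lit 4250668984) (nat_lit 912) (nat_lit 3773121261) (nat_lit 363) (nat_lit 5) (nat_lit 374) (nat_lit 5) (nat_lit 375) (nat_lit 5) (nat_lit 439) (nat_lit 404) (nat_lit 297)))))) (XT.nd (nat_lit 390) (nat_lit 3116) (nat_lit 0) (XT.nd (nat_lit 156) (nat_lit 912) (nat_lit 0) (XT.nd (nat_lit 78) (nat_lit 836) (nat_lit 0) (XT.lf (nat_lit 0) (nat_lit 7683310101) (nat_lit 836) (nat_lit 380878593) (nat_lit 912) (nat_lit 2060601863) (nat_lit 363) (nat_lit 5) (nat_lit 374) (nat_lit 5) (nat_lit 375) (nat_lit 5) (nat_lit 440) (nat_lit 404) (nat_lit 296)) (XT.lf (nat_lit 0) (nat_lit 3251959720) (nat_lit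 836) (nat_lit 6683613778) (nat_lit 912) (nat_lit 289544171) (nat_lit 352) (nat_lit 5) (nat_lit 363) (nat_lit 5) (nat_lit 364) (nat_lit 5) (nat_lit 441) (nat_lit 404) (nat_lit 295))) (XT.nd (nat_lit 78) (nat_lit 836) (nat_lit 0) (XT.lf (nat_lit 0) (nat_lit 1495735628) (nat_lit 912) (nat_lit 1267395991) (nat_lit 76) (nat_lit 7564155556) (nat_lit 351) (nat_lit 5) (nat_lit 363) (nat_lit 5) (nat_lit 352) (nat_lit 5) (nat_lit 442) (nat_lit 404) (nat_lit 294)) (XT.nd (nat_lit 78) (nat_lit 0) (nat_lit 0) (XT.lf (nat_lit 0) (nat_lit 3330969813) (nat_lit 912) (nat_lit 5848490322) (nat_lit 76) (nat_lit 1251645755) (nat_lit 340) (nat_lit 5) (nat_lit 352) (nat_lit 5) (nat_lit 341) (nat_lit 5) (nat_lit 443) (nat_lit 404) (nat_lit 293)) (XT.lf (nat_lit 0) (nat_lit 5210111829) (nat_lit 912) (nat_lit 8409544) (nat_lit 76) (nat_lit 5318342028) (nat_lit 340) (nat_lit 5) (nat_lit 352) (nat_lit 5) (nat_lit 341) (nat_lit 5) (nat_lit 444)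 (nat_lit 404) (nat_lit 292))))) (XT.nd (nat_lit 234) (nat_lit 1444) (nat_lit 0) (XT.nd (nat_lit 78) (nat_lit 836) (nat_lit 0) (XT.lf (nat_lit 0) (nat_lit 6007626003) (nat_lit 836) (nat_lit 1138944649) (nat_lit 912) (nat_lit 3497777088) (nat_lit 329) (nat_lit 5) (nat_lit 340) (nat_lit 5) (nat_lit 341) (nat_lit 5) (nat_lit 445) (nat_lit 404) (nat_lit 291)) (XT.nd (nat_lit 78) (nat_lit 76) (nat_lit 0) (XT.lf (nat_lit 0) (nat_lit 1368549525) (nat_lit 760) (nat_lit 7762750257) (nat_lit 836) (nat_lit 1622497393) (nat_lit 319) (nat_lit 5) (nat_lit 329) (nat_lit 5) (nat_lit 330) (nat_lit 5) (nat_lit 446) (nat_lit 404) (nat_lit 290)) (XT.lf (nat_lit 0) (nat_lit 306435124) (nat_lit 836) (nat_lit 3337687210) (nat_lit 76) (nat_lit 7220882471) (nat_lit 318) (nat_lit 5) (nat_lit 329) (nat_lit 5) (nat_lit 319) (nat_lit 5) (nat_lit 447) (nat_lit 404) (nat_lit 289)))) (XT.nd (nat_lit 78) (nat_lit 684) (nat_lit 0) (XT.lf (nat_lit 0) (nat_lit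 2255928722) (nat_lit 836) (nat_lit 8144361710) (nat_lit 76) (nat_lit 577863381) (nat_lit 308) (nat_lit 5) (nat_lit 319) (nat_lit 5) (nat_lit 309) (nat_lit 5) (nat_lit 448) (nat_lit 404) (nat_lit 288)) (XT.nd (nat_lit 78) (nat_lit 684) (nat_lit 0) (XT.lf (nat_lit 0) (nat_lit 4272782161) (nat_lit 836) (nat_lit 1963316215) (nat_lit 76) (nat_lit 4856905783) (nat_lit 308) (nat_lit 5) (nat_lit 319) (nat_lit 5) (nat_lit 309) (nat_lit 5) (nat_lit 449) (nat_lit 404) (nat_lit 287)) (XT.lf (nat_lit 0) (nat_lit 4379314103) (nat_lit 684) (nat_lit 1961141726) (nat_lit 760) (nat_lit 4869491665) (nat_lit 299) (nat_lit 5) (nat_lit 308) (nat_lit 5) (nat_lit 309) (nat_lit 5) (nat_lit 450) (nat_lit 404) (nat_lit 286))))))) (XT.nd (nat_lit 858) (nat_lit 3496) (nat_lit 0) (XT.nd (nat_lit 390) (nat_lit 1976) (nat_lit 0) (XT.nd (nat_lit 156) (nat_lit 1444) (nat_lit 0) (XT.nd (nat_lit 78) (nat_lit 760) (nat_lit 0) (XT.lf (nat_lit 0) (nat_lit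 8460588652) (nat_lit 760) (nat_lit 488914063) (nat_lit 76) (nat_lit 2379510401) (nat_lit 299) (nat_lit 5) (nat_lit 309) (nat_lit 5) (nat_lit 300) (nat_lit 5) (nat_lit 451) (nat_lit 404) (nat_lit 285)) (XT.lf (nat_lit 0) (nat_lit 6026382210) (nat_lit 760) (nat_lit 4631470225) (nat_lit 836) (nat_lit 791918475) (nat_lit 289) (nat_lit 5) (nat_lit 299) (nat_lit 5) (nat_lit 300) (nat_lit 5) (nat_lit 452) (nat_lit 404) (nat_lit 284))) (XT.nd (nat_lit 78) (nat_lit 684) (nat_lit 0) (XT.lf (nat_lit 0) (nat_lit 1092008860) (nat_lit 684) (nat_lit 209819914) (nat_lit 760) (nat_lit 10271086031) (nat_lit 279) (nat_lit 5) (nat_lit 288) (nat_lit 5) (nat_lit 289) (nat_lit 5) (nat_lit 453) (nat_lit 404) (nat_lit 283)) (XT.nd (nat_lit 78) (nat_lit 684) (nat_lit 0) (XT.lf (nat_lit 0) (nat_lit 3474322255) (nat_lit 760) (nat_lit 3939588873) (nat_lit 76) (nat_lit 4283561369) (nat_lit 279) (nat_lit 5) (nat_lit 289) (nat_lit 5) (nat_lit 280)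 (nat_lit 5) (nat_lit 454) (nat_lit 404) (nat_lit 282)) (XT.lf (nat_lit 0) (nat_lit 2747970495) (nat_lit 684) (nat_lit 2944771575) (nat_lit 760) (nat_lit 6131734756) (nat_lit 270) (nat_lit 5) (nat_lit 279) (nat_lit 5) (nat_lit 280) (nat_lit 5) (nat_lit 455) (nat_lit 404) (nat_lit 281))))) (XT.nd (nat_lit 234) (nat_lit 1292) (nat_lit 0) (XT.nd (nat_lit 78) (nat_lit 684) (nat_lit 0) (XT.lf (nat_lit 0) (nat_lit 7976052754) (nat_lit 760) (nat_lit 2360889315) (nat_lit 76) (nat_lit 1616673639) (nat_lit 270) (nat_lit 5) (nat_lit 280) (nat_lit 5) (nat_lit 271) (nat_lit 5) (nat_lit 456) (nat_lit 404) (nat_lit 280)) (XT.nd (nat_lit 78) (nat_lit 76) (nat_lit 0) (XT.lf (nat_lit 0) (nat_lit 4509636461) (nat_lit 608) (nat_lit 5827932515) (nat_lit 684) (nat_lit 1747122421) (nat_lit 262) (nat_lit 5) (nat_lit 270) (nat_lit 5) (nat_lit 271) (nat_lit 5) (nat_lit 457) (nat_lit 404) (nat_lit 279)) (XT.lf (nat_lit 0) (nat_lit 520793465) (nat_lit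 684) (nat_lit 691169609) (nat_lit 76) (nat_lit 11006365796) (nat_lit 261) (nat_lit 5) (nat_lit 270) (nat_lit 5) (nat_lit 262) (nat_lit 5) (nat_lit 458) (nat_lit 404) (nat_lit 278)))) (XT.nd (nat_lit 78) (nat_lit 608) (nat_lit 0) (XT.lf (nat_lit 0) (nat_lit 2859335390) (nat_lit 760) (nat_lit 5993150357) (nat_lit 76) (nat_lit 3500953682) (nat_lit 252) (nat_lit 5) (nat_lit 262) (nat_lit 5) (nat_lit 253) (nat_lit 5) (nat_lit 459) (nat_lit 404) (nat_lit 277)) (XT.nd (nat_lit 78) (nat_lit 0) (nat_lit 0) (XT.lf (nat_lit 0) (nat_lit 1057863774) (nat_lit 608) (nat_lit 4190677432) (nat_lit 684) (nat_lit 7242637582) (nat_lit 244) (nat_lit 5) (nat_lit 252) (nat_lit 5) (nat_lit 253) (nat_lit 5) (nat_lit 460) (nat_lit 404) (nat_lit 276)) (XT.lf (nat_lit 0) (nat_lit 7714172025) (nat_lit 684) (nat_lit 4322769914) (nat_lit 76) (nat_lit 594162541) (nat_lit 244) (nat_lit 5) (nat_lit 253) (nat_lit 5) (nat_lit 245) (nat_lit 5) (nat_lit 461)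 (nat_lit 404) (nat_lit 275)))))) (XT.nd (nat_lit 390) (nat_lit 1672) (nat_lit 0) (XT.nd (nat_lit 156) (nat_lit 1216) (nat_lit 0) (XT.nd (nat_lit 78) (nat_lit 0) (nat_lit 0) (XT.lf (nat_lit 0) (nat_lit 2921820458) (nat_lit 608) (nat_lit 7338815393) (nat_lit 684) (nat_lit 2512566706) (nat_lit 236) (nat_lit 5) (nat_lit 244) (nat_lit 5) (nat_lit 245) (nat_lit 5) (nat_lit 462) (nat_lit 404) (nat_lit 274)) (XT.lf (nat_lit 0) (nat_lit 10351289167) (nat_lit 608) (nat_lit 2520722280) (nat_lit 684) (nat_lit 45855691) (nat_lit 236) (nat_lit 5) (nat_lit 244) (nat_lit 5) (nat_lit 245) (nat_lit 5) (nat_lit 463) (nat_lit 404) (nat_lit 273))) (XT.nd (nat_lit 78) (nat_lit 608) (nat_lit 0) (XT.lf (nat_lit 0) (nat_lit 2470567486) (nat_lit 608) (nat_lit 8186985535) (nat_lit 76) (nat_lit 2406899761) (nat_lit 228) (nat_lit 5) (nat_lit 236) (nat_lit 5) (nat_lit 229) (nat_lit 5) (nat_lit 464) (nat_lit 404) (nat_lit 272)) (XT.nd (nat_lit 78)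 (nat_lit 608) (nat_lit 0) (XT.lf (nat_lit 0) (nat_lit 5056051877) (nat_lit 608) (nat_lit 744150958) (nat_lit 76) (nat_lit 7413378259) (nat_lit 228) (nat_lit 5) (nat_lit 236) (nat_lit 5) (nat_lit 229) (nat_lit 5) (nat_lit 465) (nat_lit 404) (nat_lit 271)) (XT.lf (nat_lit 0) (nat_lit 6920064843) (nat_lit 608) (nat_lit 803714201) (nat_lit 684) (nat_lit 5641306141) (nat_lit 220) (nat_lit 5) (nat_lit 228) (nat_lit 5) (nat_lit 229) (nat_lit 5) (nat_lit 466) (nat_lit 404) (nat_lit 270))))) (XT.nd (nat_lit 234) (nat_lit 532) (nat_lit 0) (XT.nd (nat_lit 78) (nat_lit 608) (nat_lit 0) (XT.lf (nat_lit 0) (nat_lit 1197558032) (nat_lit 532) (nat_lit 9273718782) (nat_lit 608) (nat_lit 3047818022) (nat_lit 213) (nat_lit 5) (nat_lit 220) (nat_lit 5) (nat_lit 221) (nat_lit 5) (nat_lit 467) (nat_lit 404) (nat_lit 269)) (XT.nd (nat_lit 78) (nat_lit 608) (nat_lit 0) (XT.lf (nat_lit 0) (nat_lit 9056702837) (nat_lit 532) (nat_lit 4251462715)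 (nat_lit 608) (nat_lit 367334031) (nat_lit 213) (nat_lit 5) (nat_lit 220) (nat_lit 5) (nat_lit 221) (nat_lit 5) (nat_lit 468) (nat_lit 404) (nat_lit 268)) (XT.lf (nat_lit 0) (nat_lit 2348757864) (nat_lit 608) (nat_lit 10593324304) (nat_lit 76) (nat_lit 892385731) (nat_lit 205) (nat_lit 5) (nat_lit 213) (nat_lit 5) (nat_lit 206) (nat_lit 5) (nat_lit 469) (nat_lit 404) (nat_lit 267)))) (XT.nd (nat_lit 78) (nat_lit 532) (nat_lit 0) (XT.lf (nat_lit 0) (nat_lit 5159826862) (nat_lit 608) (nat_lit 2724115913) (nat_lit 76) (nat_lit 6111716278) (nat_lit 205) (nat_lit 5) (nat_lit 213) (nat_lit 5) (nat_lit 206) (nat_lit 5) (nat_lit 470) (nat_lit 404) (nat_lit 266)) (XT.nd (nat_lit 78) (nat_lit 0) (nat_lit 0) (XT.lf (nat_lit 0) (nat_lit 5354844977) (nat_lit 532) (nat_lit 2693523848) (nat_lit 608) (nat_lit 6111283613) (nat_lit 198) (nat_lit 5) (nat_lit 205) (nat_lit 5) (nat_lit 206) (nat_lit 5) (nat_lit 471) (nat_lit 404) (nat_lit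 265)) (XT.lf (nat_lit 0) (nat_lit 11016574194) (nat_lit 608) (nat_lit 729241623) (nat_lit 76) (nat_lit 2580675395) (nat_lit 198) (nat_lit 5) (nat_lit 206) (nat_lit 5) (nat_lit 199) (nat_lit 5) (nat_lit 472) (nat_lit 404) (nat_lit 264))))))))
noncomputable def xc156 : XT := (XT.nd (nat_lit 1716) (nat_lit 1748) (nat_lit 0) (XT.nd (nat_lit 858) (nat_lit 2432) (nat_lit 0) (XT.nd (nat_lit 390) (nat_lit 1900) (nat_lit 0) (XT.nd (nat_lit 156) (nat_lit 456) (nat_lit 0) (XT.nd (nat_lit 78) (nat_lit 532) (nat_lit 0) (XT.lf (nat_lit 0) (nat_lit 7571667903) (nat_lit 532) (nat_lit 6526342357) (nat_lit 608) (nat_lit 397582476) (nat_lit 191) (nat_lit 5) (nat_lit 198) (nat_lit 5) (nat_lit 199) (nat_lit 5) (nat_lit 473) (nat_lit 404) (nat_lit 263)) (XT.lf (nat_lit 0) (nat_lit 1363958334) (nat_lit 456) (nat_lit 1175999734) (nat_lit 532) (nat_lit 12127773198) (nat_lit 184) (nat_lit 5) (nat_lit 190) (nat_lit 5) (nat_lit 191) (nat_lit 5)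 (nat_lit 474) (nat_lit 404) (nat_lit 262))) (XT.nd (nat_lit 78) (nat_lit 456) (nat_lit 0) (XT.lf (nat_lit 0) (nat_lit 5592534083) (nat_lit 532) (nat_lit 4979476292) (nat_lit 76) (nat_lit 4270020579) (nat_lit 184) (nat_lit 5) (nat_lit 191) (nat_lit 5) (nat_lit 185) (nat_lit 5) (nat_lit 475) (nat_lit 404) (nat_lit 261)) (XT.nd (nat_lit 78) (nat_lit 0) (nat_lit 0) (XT.lf (nat_lit 0) (nat_lit 3532385566) (nat_lit 456) (nat_lit 5191788001) (nat_lit 532) (nat_lit 6295285887) (nat_lit 178) (nat_lit 5) (nat_lit 184) (nat_lit 5) (nat_lit 185) (nat_lit 5) (nat_lit 476) (nat_lit 404) (nat_lit 260)) (XT.lf (nat_lit 0) (nat_lit 11941399032) (nat_lit 532) (nat_lit 2937497956) (nat_lit 76) (nat_lit 321083468) (nat_lit 178) (nat_lit 5) (nat_lit 185) (nat_lit 5) (nat_lit 179) (nat_lit 5) (nat_lit 477) (nat_lit 404) (nat_lit 259))))) (XT.nd (nat_lit 234) (nat_lit 912) (nat_lit 0) (XT.nd (nat_lit 78) (nat_lit 532) (nat_lit 0) (XT.lf (nat_lit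 0) (nat_lit 5807630268) (nat_lit 456) (nat_lit 9475070497) (nat_lit 532) (nat_lit 100219413) (nat_lit 172) (nat_lit 5) (nat_lit 178) (nat_lit 5) (nat_lit 179) (nat_lit 5) (nat_lit 478) (nat_lit 404) (nat_lit 258)) (XT.nd (nat_lit 78) (nat_lit 456) (nat_lit 0) (XT.lf (nat_lit 0) (nat_lit 3087905470) (nat_lit 532) (nat_lit 839318738) (nat_lit 76) (nat_lit 11641741352) (nat_lit 171) (nat_lit 5) (nat_lit 178) (nat_lit 5) (nat_lit 172) (nat_lit 5) (nat_lit 479) (nat_lit 404) (nat_lit 257)) (XT.lf (nat_lit 0) (nat_lit 6390934580) (nat_lit 532) (nat_lit 7608669712) (nat_lit 76) (nat_lit 1758067404) (nat_lit 165) (nat_lit 5) (nat_lit 172) (nat_lit 5) (nat_lit 166) (nat_lit 5) (nat_lit 480) (nat_lit 404) (nat_lit 256)))) (XT.nd (nat_lit 78) (nat_lit 532) (nat_lit 0) (XT.lf (nat_lit 0) (nat_lit 1353090263) (nat_lit 380) (nat_lit 8435423373) (nat_lit 456) (nat_lit 6161071244) (nat_lit 160) (nat_lit 5) (nat_lit 165) (nat_lit 5)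 (nat_lit 166) (nat_lit 5) (nat_lit 481) (nat_lit 404) (nat_lit 255)) (XT.nd (nat_lit 78) (nat_lit 532) (nat_lit 0) (XT.lf (nat_lit 0) (nat_lit 10580297697) (nat_lit 380) (nat_lit 2712956166) (nat_lit 456) (nat_lit 2851300933) (nat_lit 160) (nat_lit 5) (nat_lit 165) (nat_lit 5) (nat_lit 166) (nat_lit 5) (nat_lit 482) (nat_lit 404) (nat_lit 254)) (XT.lf (nat_lit 0) (nat_lit 550390088) (nat_lit 532) (nat_lit 12686857933) (nat_lit 76) (nat_lit 3105458388) (nat_lit 153) (nat_lit 5) (nat_lit 160) (nat_lit 5) (nat_lit 154) (nat_lit 5) (nat_lit 483) (nat_lit 404) (nat_lit 253)))))) (XT.nd (nat_lit 390) (nat_lit 1216) (nat_lit 0) (XT.nd (nat_lit 156) (nat_lit 836) (nat_lit 0) (XT.nd (nat_lit 78) (nat_lit 380) (nat_lit 0) (XT.lf (nat_lit 0) (nat_lit 4025917291) (nat_lit 532) (nat_lit 3462232077) (nat_lit 76) (nat_lit 9055417626) (nat_lit 153) (nat_lit 5) (nat_lit 160) (nat_lit 5) (nat_lit 154) (nat_lit 5) (nat_lit 484) (nat_lit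 404) (nat_lit 252)) (XT.lf (nat_lit 0) (nat_lit 6009185815) (nat_lit 380) (nat_lit 1589405059) (nat_lit 456) (nat_lit 9149303656) (nat_lit 148) (nat_lit 5) (nat_lit 153) (nat_lit 5) (nat_lit 154) (nat_lit 5) (nat_lit 485) (nat_lit 404) (nat_lit 251))) (XT.nd (nat_lit 78) (nat_lit 836) (nat_lit 0) (XT.lf (nat_lit 0) (nat_lit 11283553726) (nat_lit 456) (nat_lit 1284377040) (nat_lit 76) (nat_lit 4387563544) (nat_lit 148) (nat_lit 5) (nat_lit 154) (nat_lit 5) (nat_lit 149) (nat_lit 5) (nat_lit 486) (nat_lit 404) (nat_lit 250)) (XT.nd (nat_lit 78) (nat_lit 456) (nat_lit 0) (XT.lf (nat_lit 0) (nat_lit 8442974278) (nat_lit 380) (nat_lit 6653509782) (nat_lit 456) (nat_lit 2069679022) (nat_lit 143) (nat_lit 5) (nat_lit 148) (nat_lit 5) (nat_lit 149) (nat_lit 5) (nat_lit 487) (nat_lit 404) (nat_lit 249)) (XT.lf (nat_lit 0) (nat_lit 987572485) (nat_lit 380) (nat_lit 600060492) (nat_lit 456) (nat_lit 15793125153) (nat_lit 137) (nat_lit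 5) (nat_lit 142) (nat_lit 5) (nat_lit 143) (nat_lit 5) (nat_lit 488) (nat_lit 404) (nat_lit 248))))) (XT.nd (nat_lit 234) (nat_lit 836) (nat_lit 0) (XT.nd (nat_lit 78) (nat_lit 380) (nat_lit 0) (XT.lf (nat_lit 0) (nat_lit 5374561259) (nat_lit 456) (nat_lit 6654360737) (nat_lit 76) (nat_lit 5568768037) (nat_lit 137) (nat_lit 5) (nat_lit 143) (nat_lit 5) (nat_lit 138) (nat_lit 5) (nat_lit 489) (nat_lit 404) (nat_lit 247)) (XT.nd (nat_lit 78) (nat_lit 0) (nat_lit 0) (XT.lf (nat_lit 0) (nat_lit 3302507883) (nat_lit 380) (nat_lit 5949390330) (nat_lit 456) (nat_lit 8566771141) (nat_lit 132) (nat_lit 5) (nat_lit 137) (nat_lit 5) (nat_lit 138) (nat_lit 5) (nat_lit 490) (nat_lit 404) (nat_lit 246)) (XT.lf (nat_lit 0) (nat_lit 13242692880) (nat_lit 456) (nat_lit 4512536276) (nat_lit 76) (nat_lit 288123024) (nat_lit 132) (nat_lit 5) (nat_lit 138) (nat_lit 5) (nat_lit 133) (nat_lit 5) (nat_lit 491) (nat_lit 404) (nat_lit 245))))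 (XT.nd (nat_lit 78) (nat_lit 456) (nat_lit 0) (XT.lf (nat_lit 0) (nat_lit 5710830197) (nat_lit 380) (nat_lit 11668487537) (nat_lit 456) (nat_lit 891892740) (nat_lit 127) (nat_lit 5) (nat_lit 132) (nat_lit 5) (nat_lit 133) (nat_lit 5) (nat_lit 492) (nat_lit 404) (nat_lit 244)) (XT.nd (nat_lit 78) (nat_lit 380) (nat_lit 0) (XT.lf (nat_lit 0) (nat_lit 3074507350) (nat_lit 456) (nat_lit 2339349698) (nat_lit 76) (nat_lit 13088967993) (nat_lit 126) (nat_lit 5) (nat_lit 132) (nat_lit 5) (nat_lit 127) (nat_lit 5) (nat_lit 493) (nat_lit 404) (nat_lit 243)) (XT.lf (nat_lit 0) (nat_lit 7157760773) (nat_lit 456) (nat_lit 10572911607) (nat_lit 76) (nat_lit 1007294232) (nat_lit 121) (nat_lit 5) (nat_lit 127) (nat_lit 5) (nat_lit 122) (nat_lit 5) (nat_lit 494) (nat_lit 404) (nat_lit 242))))))) (XT.nd (nat_lit 52416) (nat_lit 0) (nat_lit 32224) (XT.nd (nat_lit 390) (nat_lit 684) (nat_lit 0) (XT.nd (nat_lit 156) (nat_lit 760) (nat_lit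 0) (XT.nd (nat_lit 78) (nat_lit 304) (nat_lit 0) (XT.lf (nat_lit 0) (nat_lit 11364173310) (nat_lit 456) (nat_lit 117818878) (nat_lit 76) (nat_lit 7494990882) (nat_lit 121) (nat_lit 5) (nat_lit 127) (nat_lit 5) (nat_lit 122) (nat_lit 5) (nat_lit 495) (nat_lit 404) (nat_lit 241)) (XT.lf (nat_lit 0) (nat_lit 10671011455) (nat_lit 304) (nat_lit 5043023631) (nat_lit 380) (nat_lit 3505560252) (nat_lit 117) (nat_lit 5) (nat_lit 121) (nat_lit 5) (nat_lit 122) (nat_lit 5) (nat_lit 496) (nat_lit 404) (nat_lit 240))) (XT.nd (nat_lit 78) (nat_lit 304) (nat_lit 0) (XT.lf (nat_lit 0) (nat_lit 690133411) (nat_lit 456) (nat_lit 17257376185) (nat_lit 76) (nat_lit 1519157926) (nat_lit 111) (nat_lit 5) (nat_lit 117) (nat_lit 5) (nat_lit 112) (nat_lit 5) (nat_lit 497) (nat_lit 404) (nat_lit 239)) (XT.nd (nat_lit 78) (nat_lit 304) (nat_lit 0) (XT.lf (nat_lit 0) (nat_lit 5004115986) (nat_lit 456) (nat_lit 6491736477) (nat_lit 76) (nat_lit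 8220740753) (nat_lit 111) (nat_lit 5) (nat_lit 117) (nat_lit 5) (nat_lit 112) (nat_lit 5) (nat_lit 498) (nat_lit 404) (nat_lit 238)) (XT.lf (nat_lit 0) (nat_lit 4533564776) (nat_lit 304) (nat_lit 4890569624) (nat_lit 380) (nat_lit 10546989655) (nat_lit 107) (nat_lit 5) (nat_lit 111) (nat_lit 5) (nat_lit 112) (nat_lit 5) (nat_lit 499) (nat_lit 404) (nat_lit 237))))) (XT.nd (nat_lit 234) (nat_lit 304) (nat_lit 0) (XT.nd (nat_lit 78) (nat_lit 380) (nat_lit 0) (XT.lf (nat_lit 0) (nat_lit 13978773805) (nat_lit 380) (nat_lit 4389952862) (nat_lit 76) (nat_lit 1861096151) (nat_lit 107) (nat_lit 5) (nat_lit 112) (nat_lit 5) (nat_lit 108) (nat_lit 5) (nat_lit 500) (nat_lit 404) (nat_lit 236)) (XT.nd (nat_lit 78) (nat_lit 76) (nat_lit 0) (XT.lf (nat_lit 0) (nat_lit 6922131637) (nat_lit 304) (nat_lit 11770272351) (nat_lit 380) (nat_lit 1799935295) (nat_lit 103) (nat_lit 5) (nat_lit 107) (nat_lit 5) (nat_lit 108) (nat_lit 5) (nat_lit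 501) (nat_lit 404) (nat_lit 235)) (XT.lf (nat_lit 0) (nat_lit 2724509030) (nat_lit 380) (nat_lit 2272438373) (nat_lit 76) (nat_lit 15762399540) (nat_lit 102) (nat_lit 5) (nat_lit 107) (nat_lit 5) (nat_lit 103) (nat_lit 5) (nat_lit 502) (nat_lit 404) (nat_lit 234)))) (XT.nd (nat_lit 78) (nat_lit 0) (nat_lit 0) (XT.lf (nat_lit 0) (nat_lit 7379688724) (nat_lit 380) (nat_lit 11695936925) (nat_lit 76) (nat_lit 1954545795) (nat_lit 98) (nat_lit 5) (nat_lit 103) (nat_lit 5) (nat_lit 99) (nat_lit 5) (nat_lit 503) (nat_lit 404) (nat_lit 233)) (XT.nd (nat_lit 51636) (nat_lit 0) (nat_lit 34732) (XT.lf (nat_lit 0) (nat_lit 12167243378) (nat_lit 380) (nat_lit 150117531) (nat_lit 76) (nat_lit 8988267654) (nat_lit 98) (nat_lit 5) (nat_lit 103) (nat_lit 5) (nat_lit 99) (nat_lit 5) (nat_lit 504) (nat_lit 404) (nat_lit 232)) (XT.lf (nat_lit 0) (nat_lit 3601201352) (nat_lit 1292) (nat_lit 110009359) (nat_lit 1292) (nat_lit 110009359) (nat_lit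 555) (nat_lit 3) (nat_lit 572) (nat_lit 3) (nat_lit 572) (nat_lit 5) (nat_lit 405) (nat_lit 405) (nat_lit 330)))))) (XT.nd (nat_lit 390) (nat_lit 1216) (nat_lit 0) (XT.nd (nat_lit 156) (nat_lit 0) (nat_lit 0) (XT.nd (nat_lit 78) (nat_lit 0) (nat_lit 0) (XT.lf (nat_lit 0) (nat_lit 933947120) (nat_lit 1292) (nat_lit 4195861240) (nat_lit 1368) (nat_lit 2561094916) (nat_lit 538) (nat_lit 5) (nat_lit 555) (nat_lit 3) (nat_lit 556) (nat_lit 5) (nat_lit 406) (nat_lit 405) (nat_lit 329)) (XT.lf (nat_lit 0) (nat_lit 2295489810) (nat_lit 1292) (nat_lit 474505418) (nat_lit 1368) (nat_lit 4970977756) (nat_lit 538) (nat_lit 5) (nat_lit 555) (nat_lit 3) (nat_lit 556) (nat_lit 5) (nat_lit 407) (nat_lit 405) (nat_lit 328))) (XT.nd (nat_lit 78) (nat_lit 0) (nat_lit 76) (XT.lf (nat_lit 76) (nat_lit 3346876566) (nat_lit 0) (nat_lit 324292240) (nat_lit 1368) (nat_lit 4121151775) (nat_lit 539) (nat_lit 5) (nat_lit 538) (nat_lit 5) (nat_lit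 556) (nat_lit 5) (nat_lit 408) (nat_lit 405) (nat_lit 327)) (XT.nd (nat_lit 78) (nat_lit 0) (nat_lit 0) (XT.lf (nat_lit 0) (nat_lit 5057502409) (nat_lit 1292) (nat_lit 626604904) (nat_lit 1368) (nat_lit 2160939313) (nat_lit 539) (nat_lit 5) (nat_lit 556) (nat_lit 5) (nat_lit 557) (nat_lit 5) (nat_lit 409) (nat_lit 405) (nat_lit 326)) (XT.lf (nat_lit 76) (nat_lit 3291018382) (nat_lit 0) (nat_lit 3170573690) (nat_lit 1368) (nat_lit 1437448568) (nat_lit 540) (nat_lit 5) (nat_lit 539) (nat_lit 5) (nat_lit 557) (nat_lit 5) (nat_lit 410) (nat_lit 405) (nat_lit 325))))) (XT.nd (nat_lit 234) (nat_lit 0) (nat_lit 0) (XT.nd (nat_lit 78) (nat_lit 1292) (nat_lit 0) (XT.lf (nat_lit 76) (nat_lit 7277003072) (nat_lit 0) (nat_lit 588016157) (nat_lit 1368) (nat_lit 89683952) (nat_lit 540) (nat_lit 5) (nat_lit 539) (nat_lit 5) (nat_lit 557) (nat_lit 5) (nat_lit 411) (nat_lit 405) (nat_lit 324)) (XT.nd (nat_lit 78) (nat_lit 0) (nat_lit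 0) (XT.lf (nat_lit 0) (nat_lit 1270966189) (nat_lit 1368) (nat_lit 4676886407) (nat_lit 1444) (nat_lit 2063417063) (nat_lit 522) (nat_lit 5) (nat_lit 540) (nat_lit 5) (nat_lit 541) (nat_lit 5) (nat_lit 412) (nat_lit 405) (nat_lit 323)) (XT.lf (nat_lit 0) (nat_lit 2634177419) (nat_lit 1368) (nat_lit 656687107) (nat_lit 1444) (nat_lit 4778573073) (nat_lit 522) (nat_lit 5) (nat_lit 540) (nat_lit 5) (nat_lit 541) (nat_lit 5) (nat_lit 413) (nat_lit 405) (nat_lit 322)))) (XT.nd (nat_lit 78) (nat_lit 0) (nat_lit 76) (XT.lf (nat_lit 76) (nat_lit 3470623159) (nat_lit 0) (nat_lit 545265105) (nat_lit 1444) (nat_lit 4113068638) (nat_lit 523) (nat_lit 5) (nat_lit 522) (nat_lit 5) (nat_lit 541) (nat_lit 5) (nat_lit 414) (nat_lit 405) (nat_lit 321)) (XT.nd (nat_lit 78) (nat_lit 0) (nat_lit 0) (XT.lf (nat_lit 0) (nat_lit 5413584630) (nat_lit 1368) (nat_lit 534263370) (nat_lit 1444) (nat_lit 2242064028) (nat_lit 523) (nat_lit 5) (nat_lit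 541) (nat_lit 5) (nat_lit 542) (nat_lit 5) (nat_lit 415) (nat_lit 405) (nat_lit 320)) (XT.lf (nat_lit 76) (nat_lit 3698165395) (nat_lit 0) (nat_lit 3138566839) (nat_lit 1444) (nat_lit 1415416297) (nat_lit 524) (nat_lit 5) (nat_lit 523) (nat_lit 5) (nat_lit 542) (nat_lit 5) (nat_lit 416) (nat_lit 405) (nat_lit 319))))))))
noncomputable def xc157 : XT := (XT.nd (nat_lit 1716) (nat_lit 9272) (nat_lit 0) (XT.nd (nat_lit 858) (nat_lit 8588) (nat_lit 0) (XT.nd (nat_lit 390) (nat_lit 1368) (nat_lit 0) (XT.nd (nat_lit 156) (nat_lit 0) (nat_lit 0) (XT.nd (nat_lit 78) (nat_lit 1368) (nat_lit 0) (XT.lf (nat_lit 76) (nat_lit 8003595819) (nat_lit 0) (nat_lit 258675541) (nat_lit 1444) (nat_lit 53891812) (nat_lit 524) (nat_lit 5) (nat_lit 523) (nat_lit 5) (nat_lit 542) (nat_lit 5) (nat_lit 417) (nat_lit 405) (nat_lit 318)) (XT.lf (nat_lit 0) (nat_lit 1331992181) (nat_lit 1444) (nat_lit 4359984620) (nat_lit 1520) (nat_lit 2689026763)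 (nat_lit 505) (nat_lit 5) (nat_lit 524) (nat_lit 5) (nat_lit 525) (nat_lit 5) (nat_lit 418) (nat_lit 405) (nat_lit 317))) (XT.nd (nat_lit 78) (nat_lit 0) (nat_lit 76) (XT.lf (nat_lit 0) (nat_lit 2719935337) (nat_lit 1444) (nat_lit 23116532) (nat_lit 1520) (nat_lit 5704591796) (nat_lit 505) (nat_lit 5) (nat_lit 524) (nat_lit 5) (nat_lit 525) (nat_lit 5) (nat_lit 419) (nat_lit 405) (nat_lit 316)) (XT.nd (nat_lit 78) (nat_lit 0) (nat_lit 0) (XT.lf (nat_lit 0) (nat_lit 4138234197) (nat_lit 1444) (nat_lit 4077935575) (nat_lit 1520) (nat_lit 299405928) (nat_lit 506) (nat_lit 5) (nat_lit 525) (nat_lit 5) (nat_lit 526) (nat_lit 5) (nat_lit 420) (nat_lit 405) (nat_lit 315)) (XT.lf (nat_lit 76) (nat_lit 370185605) (nat_lit 0) (nat_lit 5207728130) (nat_lit 1520) (nat_lit 3007103195) (nat_lit 507) (nat_lit 5) (nat_lit 506) (nat_lit 5) (nat_lit 526) (nat_lit 5) (nat_lit 421) (nat_lit 405) (nat_lit 314))))) (XT.nd (nat_lit 234) (nat_lit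 0) (nat_lit 0) (XT.nd (nat_lit 78) (nat_lit 1444) (nat_lit 0) (XT.lf (nat_lit 76) (nat_lit 4943110906) (nat_lit 0) (nat_lit 2103347367) (nat_lit 1520) (nat_lit 1609397923) (nat_lit 507) (nat_lit 5) (nat_lit 506) (nat_lit 5) (nat_lit 526) (nat_lit 5) (nat_lit 422) (nat_lit 405) (nat_lit 313)) (XT.nd (nat_lit 78) (nat_lit 1520) (nat_lit 0) (XT.lf (nat_lit 76) (nat_lit 864163319) (nat_lit 0) (nat_lit 7666015093) (nat_lit 1520) (nat_lit 198228168) (nat_lit 508) (nat_lit 5) (nat_lit 507) (nat_lit 5) (nat_lit 527) (nat_lit 5) (nat_lit 423) (nat_lit 405) (nat_lit 312)) (XT.lf (nat_lit 0) (nat_lit 1237399918) (nat_lit 1520) (nat_lit 3261008437) (nat_lit 1596) (nat_lit 4303598212) (nat_lit 487) (nat_lit 5) (nat_lit 507) (nat_lit 5) (nat_lit 508) (nat_lit 5) (nat_lit 424) (nat_lit 405) (nat_lit 311)))) (XT.nd (nat_lit 78) (nat_lit 0) (nat_lit 76) (XT.lf (nat_lit 76) (nat_lit 1432269474) (nat_lit 0) (nat_lit 1250142186) (nat_lit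 1596) (nat_lit 6194984008) (nat_lit 488) (nat_lit 5) (nat_lit 487) (nat_lit 5) (nat_lit 508) (nat_lit 5) (nat_lit 425) (nat_lit 405) (nat_lit 310)) (XT.nd (nat_lit 78) (nat_lit 0) (nat_lit 0) (XT.lf (nat_lit 0) (nat_lit 4166194273) (nat_lit 1520) (nat_lit 2723704974) (nat_lit 1596) (nat_lit 2064205526) (nat_lit 488) (nat_lit 5) (nat_lit 508) (nat_lit 5) (nat_lit 509) (nat_lit 5) (nat_lit 426) (nat_lit 405) (nat_lit 309)) (XT.lf (nat_lit 76) (nat_lit 2091763167) (nat_lit 0) (nat_lit 3584698283) (nat_lit 1596) (nat_lit 3355959877) (nat_lit 489) (nat_lit 5) (nat_lit 488) (nat_lit 5) (nat_lit 509) (nat_lit 5) (nat_lit 427) (nat_lit 405) (nat_lit 308)))))) (XT.nd (nat_lit 390) (nat_lit 5548) (nat_lit 0) (XT.nd (nat_lit 156) (nat_lit 1672) (nat_lit 0) (XT.nd (nat_lit 78) (nat_lit 1444) (nat_lit 0) (XT.lf (nat_lit 76) (nat_lit 7021053473) (nat_lit 0) (nat_lit 189471900) (nat_lit 1596) (nat_lit 1901916273) (nat_lit 489) (nat_lit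 5) (nat_lit 488) (nat_lit 5) (nat_lit 509) (nat_lit 5) (nat_lit 428) (nat_lit 405) (nat_lit 307)) (XT.lf (nat_lit 0) (nat_lit 2851455893) (nat_lit 1520) (nat_lit 5939414536) (nat_lit 1596) (nat_lit 402889024) (nat_lit 469) (nat_lit 5) (nat_lit 489) (nat_lit 5) (nat_lit 490) (nat_lit 5) (nat_lit 429) (nat_lit 405) (nat_lit 306))) (XT.nd (nat_lit 78) (nat_lit 1596) (nat_lit 0) (XT.lf (nat_lit 0) (nat_lit 1102744337) (nat_lit 1596) (nat_lit 1383328776) (nat_lit 76) (nat_lit 6790665102) (nat_lit 468) (nat_lit 5) (nat_lit 489) (nat_lit 5) (nat_lit 469) (nat_lit 5) (nat_lit 430) (nat_lit 405) (nat_lit 305)) (XT.nd (nat_lit 78) (nat_lit 0) (nat_lit 0) (XT.lf (nat_lit 0) (nat_lit 2640547714) (nat_lit 1672) (nat_lit 5666918218) (nat_lit 76) (nat_lit 1053716874) (nat_lit 447) (nat_lit 5) (nat_lit 469) (nat_lit 5) (nat_lit 448) (nat_lit 5) (nat_lit 431) (nat_lit 405) (nat_lit 304)) (XT.lf (nat_lit 0) (nat_lit 4211760482) (nat_lit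 1672) (nat_lit 591230619) (nat_lit 76) (nat_lit 4644280507) (nat_lit 447) (nat_lit 5) (nat_lit 469) (nat_lit 5) (nat_lit 448) (nat_lit 5) (nat_lit 432) (nat_lit 405) (nat_lit 303))))) (XT.nd (nat_lit 234) (nat_lit 2128) (nat_lit 0) (XT.nd (nat_lit 78) (nat_lit 1748) (nat_lit 0) (XT.lf (nat_lit 0) (nat_lit 4627310051) (nat_lit 1672) (nat_lit 1194429965) (nat_lit 1748) (nat_lit 3713203545) (nat_lit 425) (nat_lit 5) (nat_lit 447) (nat_lit 5) (nat_lit 448) (nat_lit 5) (nat_lit 433) (nat_lit 405) (nat_lit 302)) (XT.nd (nat_lit 78) (nat_lit 0) (nat_lit 0) (XT.lf (nat_lit 0) (nat_lit 302040960) (nat_lit 1748) (nat_lit 7161615477) (nat_lit 1824) (nat_lit 2160725832) (nat_lit 402) (nat_lit 5) (nat_lit 425) (nat_lit 5) (nat_lit 426) (nat_lit 5) (nat_lit 434) (nat_lit 405) (nat_lit 301)) (XT.lf (nat_lit 0) (nat_lit 5654849942) (nat_lit 1748) (nat_lit 3502303305) (nat_lit 1824) (nat_lit 558089566) (nat_lit 402) (nat_lit 5) (nat_lit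 425) (nat_lit 5) (nat_lit 426) (nat_lit 5) (nat_lit 435) (nat_lit 405) (nat_lit 300)))) (XT.nd (nat_lit 78) (nat_lit 912) (nat_lit 0) (XT.lf (nat_lit 0) (nat_lit 1050746998) (nat_lit 1216) (nat_lit 8512328560) (nat_lit 76) (nat_lit 244947459) (nat_lit 386) (nat_lit 5) (nat_lit 402) (nat_lit 5) (nat_lit 387) (nat_lit 5) (nat_lit 436) (nat_lit 405) (nat_lit 299)) (XT.nd (nat_lit 78) (nat_lit 912) (nat_lit 0) (XT.lf (nat_lit 0) (nat_lit 2713463911) (nat_lit 1216) (nat_lit 3135044619) (nat_lit 76) (nat_lit 4053500436) (nat_lit 386) (nat_lit 5) (nat_lit 402) (nat_lit 5) (nat_lit 387) (nat_lit 5) (nat_lit 437) (nat_lit 405) (nat_lit 298)) (XT.lf (nat_lit 0) (nat_lit 2361339191) (nat_lit 912) (nat_lit 2042395557) (nat_lit 988) (nat_lit 5594261196) (nat_lit 374) (nat_lit 5) (nat_lit 386) (nat_lit 5) (nat_lit 387) (nat_lit 5) (nat_lit 438) (nat_lit 405) (nat_lit 297))))))) (XT.nd (nat_lit 858) (nat_lit 4256) (nat_lit 0) (XT.nd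 (nat_lit 390) (nat_lit 2432) (nat_lit 0) (XT.nd (nat_lit 156) (nat_lit 1748) (nat_lit 0) (XT.nd (nat_lit 78) (nat_lit 836) (nat_lit 0) (XT.lf (nat_lit 0) (nat_lit 6140198412) (nat_lit 988) (nat_lit 2117138634) (nat_lit 76) (nat_lit 1838325026) (nat_lit 374) (nat_lit 5) (nat_lit 387) (nat_lit 5) (nat_lit 375) (nat_lit 5) (nat_lit 439) (nat_lit 405) (nat_lit 296)) (XT.lf (nat_lit 0) (nat_lit 3526157911) (nat_lit 836) (nat_lit 4401324791) (nat_lit 912) (nat_lit 2267484012) (nat_lit 363) (nat_lit 5) (nat_lit 374) (nat_lit 5) (nat_lit 375) (nat_lit 5) (nat_lit 440) (nat_lit 405) (nat_lit 295))) (XT.nd (nat_lit 78) (nat_lit 1748) (nat_lit 0) (XT.lf (nat_lit 0) (nat_lit 9291813615) (nat_lit 836) (nat_lit 452851486) (nat_lit 912) (nat_lit 551716180) (nat_lit 363) (nat_lit 5) (nat_lit 374) (nat_lit 5) (nat_lit 375) (nat_lit 5) (nat_lit 441) (nat_lit 405) (nat_lit 294)) (XT.nd (nat_lit 78) (nat_lit 836) (nat_lit 0) (XT.lf (nat_lit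 0) (nat_lit 1217547557) (nat_lit 912) (nat_lit 5613765798) (nat_lit 76) (nat_lit 3567663838) (nat_lit 351) (nat_lit 5) (nat_lit 363) (nat_lit 5) (nat_lit 352) (nat_lit 5) (nat_lit 442) (nat_lit 405) (nat_lit 293)) (XT.lf (nat_lit 0) (nat_lit 177165727) (nat_lit 836) (nat_lit 2829055714) (nat_lit 912) (nat_lit 7497508883) (nat_lit 340) (nat_lit 5) (nat_lit 351) (nat_lit 5) (nat_lit 352) (nat_lit 5) (nat_lit 443) (nat_lit 405) (nat_lit 292))))) (XT.nd (nat_lit 234) (nat_lit 1596) (nat_lit 0) (XT.nd (nat_lit 78) (nat_lit 836) (nat_lit 0) (XT.lf (nat_lit 0) (nat_lit 4857454993) (nat_lit 912) (nat_lit 4477837467) (nat_lit 76) (nat_lit 1274756692) (nat_lit 340) (nat_lit 5) (nat_lit 352) (nat_lit 5) (nat_lit 341) (nat_lit 5) (nat_lit 444) (nat_lit 405) (nat_lit 291)) (XT.nd (nat_lit 78) (nat_lit 0) (nat_lit 0) (XT.lf (nat_lit 0) (nat_lit 1469143940) (nat_lit 836) (nat_lit 5285949746) (nat_lit 912) (nat_lit 3963219292) (nat_lit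 329) (nat_lit 5) (nat_lit 340) (nat_lit 5) (nat_lit 341) (nat_lit 5) (nat_lit 445) (nat_lit 405) (nat_lit 290)) (XT.lf (nat_lit 0) (nat_lit 7576637022) (nat_lit 836) (nat_lit 1125449408) (nat_lit 912) (nat_lit 2126433735) (nat_lit 329) (nat_lit 5) (nat_lit 340) (nat_lit 5) (nat_lit 341) (nat_lit 5) (nat_lit 446) (nat_lit 405) (nat_lit 289)))) (XT.nd (nat_lit 78) (nat_lit 836) (nat_lit 0) (XT.lf (nat_lit 0) (nat_lit 2863538702) (nat_lit 760) (nat_lit 7845033356) (nat_lit 836) (nat_lit 231954367) (nat_lit 319) (nat_lit 5) (nat_lit 329) (nat_lit 5) (nat_lit 330) (nat_lit 5) (nat_lit 447) (nat_lit 405) (nat_lit 288)) (XT.nd (nat_lit 78) (nat_lit 760) (nat_lit 0) (XT.lf (nat_lit 0) (nat_lit 1689358106) (nat_lit 836) (nat_lit 1946866576) (nat_lit 76) (nat_lit 7418108187) (nat_lit 318) (nat_lit 5) (nat_lit 329) (nat_lit 5) (nat_lit 319) (nat_lit 5) (nat_lit 448) (nat_lit 405) (nat_lit 287)) (XT.lf (nat_lit 0) (nat_lit 3660823343)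 (nat_lit 836) (nat_lit 6832228740) (nat_lit 76) (nat_lit 677041691) (nat_lit 308) (nat_lit 5) (nat_lit 319) (nat_lit 5) (nat_lit 309) (nat_lit 5) (nat_lit 449) (nat_lit 405) (nat_lit 286)))))) (XT.nd (nat_lit 390) (nat_lit 2052) (nat_lit 0) (XT.nd (nat_lit 156) (nat_lit 1520) (nat_lit 0) (XT.nd (nat_lit 78) (nat_lit 684) (nat_lit 0) (XT.lf (nat_lit 0) (nat_lit 5691351576) (nat_lit 836) (nat_lit 556484300) (nat_lit 76) (nat_lit 5039946881) (nat_lit 308) (nat_lit 5) (nat_lit 319) (nat_lit 5) (nat_lit 309) (nat_lit 5) (nat_lit 450) (nat_lit 405) (nat_lit 285)) (XT.lf (nat_lit 0) (nat_lit 5903484820) (nat_lit 684) (nat_lit 1880081670) (nat_lit 760) (nat_lit 3623842933) (nat_lit 299) (nat_lit 5) (nat_lit 308) (nat_lit 5) (nat_lit 309) (nat_lit 5) (nat_lit 451) (nat_lit 405) (nat_lit 284))) (XT.nd (nat_lit 78) (nat_lit 760) (nat_lit 0) (XT.lf (nat_lit 0) (nat_lit 947598819) (nat_lit 760) (nat_lit 8979611399) (nat_lit 836)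 (nat_lit 1602032032) (nat_lit 289) (nat_lit 5) (nat_lit 299) (nat_lit 5) (nat_lit 300) (nat_lit 5) (nat_lit 452) (nat_lit 405) (nat_lit 283)) (XT.nd (nat_lit 78) (nat_lit 684) (nat_lit 0) (XT.lf (nat_lit 0) (nat_lit 486858754) (nat_lit 836) (nat_lit 4084730798) (nat_lit 76) (nat_lit 7081213946) (nat_lit 288) (nat_lit 5) (nat_lit 299) (nat_lit 5) (nat_lit 289) (nat_lit 5) (nat_lit 453) (nat_lit 405) (nat_lit 282)) (XT.lf (nat_lit 0) (nat_lit 2546244159) (nat_lit 684) (nat_lit 49766076) (nat_lit 760) (nat_lit 9182620277) (nat_lit 279) (nat_lit 5) (nat_lit 288) (nat_lit 5) (nat_lit 289) (nat_lit 5) (nat_lit 454) (nat_lit 405) (nat_lit 281))))) (XT.nd (nat_lit 234) (nat_lit 1368) (nat_lit 0) (XT.nd (nat_lit 78) (nat_lit 684) (nat_lit 0) (XT.lf (nat_lit 0) (nat_lit 4788133511) (nat_lit 760) (nat_lit 2589879386) (nat_lit 76) (nat_lit 4528150308) (nat_lit 279) (nat_lit 5) (nat_lit 289) (nat_lit 5) (nat_lit 280) (nat_lit 5)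 (nat_lit 455) (nat_lit 405) (nat_lit 280)) (XT.nd (nat_lit 78) (nat_lit 0) (nat_lit 0) (XT.lf (nat_lit 0) (nat_lit 4222033136) (nat_lit 684) (nat_lit 2813703821) (nat_lit 760) (nat_lit 5000281659) (nat_lit 270) (nat_lit 5) (nat_lit 279) (nat_lit 5) (nat_lit 280) (nat_lit 5) (nat_lit 456) (nat_lit 405) (nat_lit 279)) (XT.lf (nat_lit 0) (nat_lit 9341822251) (nat_lit 760) (nat_lit 993580031) (nat_lit 76) (nat_lit 1832802979) (nat_lit 270) (nat_lit 5) (nat_lit 280) (nat_lit 5) (nat_lit 271) (nat_lit 5) (nat_lit 457) (nat_lit 405) (nat_lit 278)))) (XT.nd (nat_lit 78) (nat_lit 760) (nat_lit 0) (XT.lf (nat_lit 0) (nat_lit 6005050161) (nat_lit 608) (nat_lit 5730990333) (nat_lit 684) (nat_lit 566159552) (nat_lit 262) (nat_lit 5) (nat_lit 270) (nat_lit 5) (nat_lit 271) (nat_lit 5) (nat_lit 458) (nat_lit 405) (nat_lit 277)) (XT.nd (nat_lit 78) (nat_lit 0) (nat_lit 0) (XT.lf (nat_lit 0) (nat_lit 697797648) (nat_lit 684) (nat_lit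 1014372154) (nat_lit 760) (nat_lit 10726569280) (nat_lit 252) (nat_lit 5) (nat_lit 261) (nat_lit 5) (nat_lit 262) (nat_lit 5) (nat_lit 459) (nat_lit 405) (nat_lit 276)) (XT.lf (nat_lit 0) (nat_lit 4080315789) (nat_lit 760) (nat_lit 4706407699) (nat_lit 76) (nat_lit 3790178311) (nat_lit 252) (nat_lit 5) (nat_lit 262) (nat_lit 5) (nat_lit 253) (nat_lit 5) (nat_lit 460) (nat_lit 405) (nat_lit 275))))))))
noncomputable def xc158 : XT := (XT.nd (nat_lit 1716) (nat_lit 4712) (nat_lit 0) (XT.nd (nat_lit 858) (nat_lit 3420) (nat_lit 0) (XT.nd (nat_lit 390) (nat_lit 1748) (nat_lit 0) (XT.nd (nat_lit 156) (nat_lit 1216) (nat_lit 0) (XT.nd (nat_lit 78) (nat_lit 0) (nat_lit 0) (XT.lf (nat_lit 0) (nat_lit 2476372730) (nat_lit 608) (nat_lit 4027186041) (nat_lit 684) (nat_lit 6214118595) (nat_lit 244) (nat_lit 5) (nat_lit 252) (nat_lit 5) (nat_lit 253) (nat_lit 5) (nat_lit 461) (nat_lit 405) (nat_lit 274)) (XT.lf (nat_lit 0) (nat_lit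 8997526454) (nat_lit 684) (nat_lit 3017979224) (nat_lit 76) (nat_lit 845321763) (nat_lit 244) (nat_lit 5) (nat_lit 253) (nat_lit 5) (nat_lit 245) (nat_lit 5) (nat_lit 462) (nat_lit 405) (nat_lit 273))) (XT.nd (nat_lit 78) (nat_lit 608) (nat_lit 0) (XT.lf (nat_lit 0) (nat_lit 4362350020) (nat_lit 608) (nat_lit 7219404354) (nat_lit 684) (nat_lit 1424282638) (nat_lit 236) (nat_lit 5) (nat_lit 244) (nat_lit 5) (nat_lit 245) (nat_lit 5) (nat_lit 463) (nat_lit 405) (nat_lit 272)) (XT.nd (nat_lit 78) (nat_lit 532) (nat_lit 0) (XT.lf (nat_lit 0) (nat_lit 1055412496) (nat_lit 684) (nat_lit 1247673869) (nat_lit 76) (nat_lit 10850813368) (nat_lit 235) (nat_lit 5) (nat_lit 244) (nat_lit 5) (nat_lit 236) (nat_lit 5) (nat_lit 464) (nat_lit 405) (nat_lit 271)) (XT.lf (nat_lit 0) (nat_lit 3610553971) (nat_lit 608) (nat_lit 6969503016) (nat_lit 76) (nat_lit 2723579835) (nat_lit 228) (nat_lit 5) (nat_lit 236) (nat_lit 5) (nat_lit 229)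 (nat_lit 5) (nat_lit 465) (nat_lit 405) (nat_lit 270))))) (XT.nd (nat_lit 234) (nat_lit 608) (nat_lit 0) (XT.nd (nat_lit 78) (nat_lit 532) (nat_lit 0) (XT.lf (nat_lit 0) (nat_lit 603014101) (nat_lit 608) (nat_lit 5627265289) (nat_lit 684) (nat_lit 7225823438) (nat_lit 220) (nat_lit 5) (nat_lit 228) (nat_lit 5) (nat_lit 229) (nat_lit 5) (nat_lit 466) (nat_lit 405) (nat_lit 269)) (XT.nd (nat_lit 78) (nat_lit 532) (nat_lit 0) (XT.lf (nat_lit 0) (nat_lit 8403696769) (nat_lit 608) (nat_lit 531518760) (nat_lit 684) (nat_lit 4675750026) (nat_lit 220) (nat_lit 5) (nat_lit 228) (nat_lit 5) (nat_lit 229) (nat_lit 5) (nat_lit 467) (nat_lit 405) (nat_lit 268)) (XT.lf (nat_lit 0) (nat_lit 2577310700) (nat_lit 532) (nat_lit 9150265532) (nat_lit 608) (nat_lit 2040686438) (nat_lit 213) (nat_lit 5) (nat_lit 220) (nat_lit 5) (nat_lit 221) (nat_lit 5) (nat_lit 468) (nat_lit 405) (nat_lit 267)))) (XT.nd (nat_lit 78) (nat_lit 532) (nat_lit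 0) (XT.lf (nat_lit 0) (nat_lit 663644840) (nat_lit 608) (nat_lit 3365523501) (nat_lit 76) (nat_lit 9898955812) (nat_lit 212) (nat_lit 5) (nat_lit 220) (nat_lit 5) (nat_lit 213) (nat_lit 5) (nat_lit 469) (nat_lit 405) (nat_lit 266)) (XT.nd (nat_lit 78) (nat_lit 0) (nat_lit 0) (XT.lf (nat_lit 0) (nat_lit 3419574668) (nat_lit 608) (nat_lit 9452143754) (nat_lit 76) (nat_lit 1218701370) (nat_lit 205) (nat_lit 5) (nat_lit 213) (nat_lit 5) (nat_lit 206) (nat_lit 5) (nat_lit 470) (nat_lit 405) (nat_lit 265)) (XT.lf (nat_lit 0) (nat_lit 6266789720) (nat_lit 608) (nat_lit 1452081529) (nat_lit 76) (nat_lit 6536370137) (nat_lit 205) (nat_lit 5) (nat_lit 213) (nat_lit 5) (nat_lit 206) (nat_lit 5) (nat_lit 471) (nat_lit 405) (nat_lit 264)))))) (XT.nd (nat_lit 390) (nat_lit 1824) (nat_lit 0) (XT.nd (nat_lit 156) (nat_lit 532) (nat_lit 0) (XT.nd (nat_lit 78) (nat_lit 532) (nat_lit 0) (XT.lf (nat_lit 0) (nat_lit 6779731495) (nat_lit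 532) (nat_lit 2422245299) (nat_lit 608) (nat_lit 5220765369) (nat_lit 198) (nat_lit 5) (nat_lit 205) (nat_lit 5) (nat_lit 206) (nat_lit 5) (nat_lit 472) (nat_lit 405) (nat_lit 263)) (XT.lf (nat_lit 0) (nat_lit 573282302) (nat_lit 532) (nat_lit 11642592246) (nat_lit 608) (nat_lit 2377321512) (nat_lit 191) (nat_lit 5) (nat_lit 198) (nat_lit 5) (nat_lit 199) (nat_lit 5) (nat_lit 473) (nat_lit 405) (nat_lit 262))) (XT.nd (nat_lit 78) (nat_lit 456) (nat_lit 0) (XT.lf (nat_lit 0) (nat_lit 570981084) (nat_lit 608) (nat_lit 5745653247) (nat_lit 76) (nat_lit 8449262927) (nat_lit 190) (nat_lit 5) (nat_lit 198) (nat_lit 5) (nat_lit 191) (nat_lit 5) (nat_lit 474) (nat_lit 405) (nat_lit 261)) (XT.nd (nat_lit 78) (nat_lit 0) (nat_lit 0) (XT.lf (nat_lit 0) (nat_lit 2696709080) (nat_lit 456) (nat_lit 854677624) (nat_lit 532) (nat_lit 11390255164) (nat_lit 184) (nat_lit 5) (nat_lit 190) (nat_lit 5) (nat_lit 191) (nat_lit 5) (nat_lit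 475) (nat_lit 405) (nat_lit 260)) (XT.lf (nat_lit 0) (nat_lit 6648373411) (nat_lit 532) (nat_lit 3782323996) (nat_lit 76) (nat_lit 4689067499) (nat_lit 184) (nat_lit 5) (nat_lit 191) (nat_lit 5) (nat_lit 185) (nat_lit 5) (nat_lit 476) (nat_lit 405) (nat_lit 259))))) (XT.nd (nat_lit 234) (nat_lit 836) (nat_lit 0) (XT.nd (nat_lit 78) (nat_lit 532) (nat_lit 0) (XT.lf (nat_lit 0) (nat_lit 4891243904) (nat_lit 456) (nat_lit 4941256117) (nat_lit 532) (nat_lit 5468449316) (nat_lit 178) (nat_lit 5) (nat_lit 184) (nat_lit 5) (nat_lit 185) (nat_lit 5) (nat_lit 477) (nat_lit 405) (nat_lit 258)) (XT.nd (nat_lit 78) (nat_lit 532) (nat_lit 0) (XT.lf (nat_lit 0) (nat_lit 13098015024) (nat_lit 532) (nat_lit 1717023265) (nat_lit 76) (nat_lit 670367930) (nat_lit 178) (nat_lit 5) (nat_lit 185) (nat_lit 5) (nat_lit 179) (nat_lit 5) (nat_lit 478) (nat_lit 405) (nat_lit 257)) (XT.lf (nat_lit 0) (nat_lit 813384518) (nat_lit 532) (nat_lit 8482963553)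 (nat_lit 76) (nat_lit 6375748815) (nat_lit 171) (nat_lit 5) (nat_lit 178) (nat_lit 5) (nat_lit 172) (nat_lit 5) (nat_lit 479) (nat_lit 405) (nat_lit 256)))) (XT.nd (nat_lit 78) (nat_lit 380) (nat_lit 0) (XT.lf (nat_lit 0) (nat_lit 407244253) (nat_lit 456) (nat_lit 3641404246) (nat_lit 532) (nat_lit 11813511167) (nat_lit 165) (nat_lit 5) (nat_lit 171) (nat_lit 5) (nat_lit 172) (nat_lit 5) (nat_lit 480) (nat_lit 405) (nat_lit 255)) (XT.nd (nat_lit 78) (nat_lit 380) (nat_lit 0) (XT.lf (nat_lit 0) (nat_lit 7407988748) (nat_lit 532) (nat_lit 6495528001) (nat_lit 76) (nat_lit 2151322194) (nat_lit 165) (nat_lit 5) (nat_lit 172) (nat_lit 5) (nat_lit 166) (nat_lit 5) (nat_lit 481) (nat_lit 405) (nat_lit 254)) (XT.lf (nat_lit 0) (nat_lit 2637142732) (nat_lit 380) (nat_lit 8227101880) (nat_lit 456) (nat_lit 5386535225) (nat_lit 160) (nat_lit 5) (nat_lit 165) (nat_lit 5) (nat_lit 166) (nat_lit 5) (nat_lit 482) (nat_lit 405) (nat_lit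 253))))))) (XT.nd (nat_lit 858) (nat_lit 2204) (nat_lit 0) (XT.nd (nat_lit 390) (nat_lit 1596) (nat_lit 0) (XT.nd (nat_lit 156) (nat_lit 380) (nat_lit 0) (XT.nd (nat_lit 78) (nat_lit 532) (nat_lit 0) (XT.lf (nat_lit 0) (nat_lit 12024247439) (nat_lit 380) (nat_lit 2397578074) (nat_lit 456) (nat_lit 2028172594) (nat_lit 160) (nat_lit 5) (nat_lit 165) (nat_lit 5) (nat_lit 166) (nat_lit 5) (nat_lit 483) (nat_lit 405) (nat_lit 252)) (XT.lf (nat_lit 0) (nat_lit 1423444626) (nat_lit 532) (nat_lit 11689767692) (nat_lit 76) (nat_lit 3538921152) (nat_lit 153) (nat_lit 5) (nat_lit 160) (nat_lit 5) (nat_lit 154) (nat_lit 5) (nat_lit 484) (nat_lit 405) (nat_lit 251))) (XT.nd (nat_lit 78) (nat_lit 380) (nat_lit 0) (XT.lf (nat_lit 0) (nat_lit 4951579495) (nat_lit 532) (nat_lit 2305175345) (nat_lit 76) (nat_lit 9600598132) (nat_lit 153) (nat_lit 5) (nat_lit 160) (nat_lit 5) (nat_lit 154) (nat_lit 5) (nat_lit 485) (nat_lit 405) (nat_lit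 250)) (XT.nd (nat_lit 78) (nat_lit 0) (nat_lit 0) (XT.lf (nat_lit 0) (nat_lit 7347603132) (nat_lit 380) (nat_lit 1239441550) (nat_lit 456) (nat_lit 8478899193) (nat_lit 148) (nat_lit 5) (nat_lit 153) (nat_lit 5) (nat_lit 154) (nat_lit 5) (nat_lit 486) (nat_lit 405) (nat_lit 249)) (XT.lf (nat_lit 0) (nat_lit 12331735169) (nat_lit 456) (nat_lit 101570893) (nat_lit 76) (nat_lit 4844672529) (nat_lit 148) (nat_lit 5) (nat_lit 154) (nat_lit 5) (nat_lit 149) (nat_lit 5) (nat_lit 487) (nat_lit 405) (nat_lit 248))))) (XT.nd (nat_lit 234) (nat_lit 760) (nat_lit 0) (XT.nd (nat_lit 78) (nat_lit 456) (nat_lit 0) (XT.lf (nat_lit 0) (nat_lit 9812376835) (nat_lit 380) (nat_lit 6400214342) (nat_lit 456) (nat_lit 1280439660) (nat_lit 143) (nat_lit 5) (nat_lit 148) (nat_lit 5) (nat_lit 149) (nat_lit 5) (nat_lit 488) (nat_lit 405) (nat_lit 247)) (XT.nd (nat_lit 78) (nat_lit 0) (nat_lit 0) (XT.lf (nat_lit 0) (nat_lit 2210958405) (nat_lit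 380) (nat_lit 219907754) (nat_lit 456) (nat_lit 15281112243) (nat_lit 137) (nat_lit 5) (nat_lit 142) (nat_lit 5) (nat_lit 143) (nat_lit 5) (nat_lit 489) (nat_lit 405) (nat_lit 246)) (XT.lf (nat_lit 0) (nat_lit 6280117823) (nat_lit 456) (nat_lit 5593836934) (nat_lit 76) (nat_lit 6059565730) (nat_lit 137) (nat_lit 5) (nat_lit 143) (nat_lit 5) (nat_lit 138) (nat_lit 5) (nat_lit 490) (nat_lit 405) (nat_lit 245)))) (XT.nd (nat_lit 78) (nat_lit 380) (nat_lit 0) (XT.lf (nat_lit 0) (nat_lit 4554316354) (nat_lit 380) (nat_lit 5672735551) (nat_lit 456) (nat_lit 7932029659) (nat_lit 132) (nat_lit 5) (nat_lit 137) (nat_lit 5) (nat_lit 138) (nat_lit 5) (nat_lit 491) (nat_lit 405) (nat_lit 244)) (XT.nd (nat_lit 78) (nat_lit 380) (nat_lit 0) (XT.lf (nat_lit 0) (nat_lit 14284688406) (nat_lit 456) (nat_lit 3427149043) (nat_lit 76) (nat_lit 676683193) (nat_lit 132) (nat_lit 5) (nat_lit 138) (nat_lit 5) (nat_lit 133) (nat_lit 5) (nat_lit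 492) (nat_lit 405) (nat_lit 243)) (XT.lf (nat_lit 0) (nat_lit 6992950299) (nat_lit 380) (nat_lit 11503440191) (nat_lit 456) (nat_lit 124701772) (nat_lit 127) (nat_lit 5) (nat_lit 132) (nat_lit 5) (nat_lit 133) (nat_lit 5) (nat_lit 493) (nat_lit 405) (nat_lit 242)))))) (XT.nd (nat_lit 390) (nat_lit 988) (nat_lit 0) (XT.nd (nat_lit 156) (nat_lit 760) (nat_lit 0) (XT.nd (nat_lit 78) (nat_lit 380) (nat_lit 0) (XT.lf (nat_lit 0) (nat_lit 3895539682) (nat_lit 456) (nat_lit 1230892582) (nat_lit 76) (nat_lit 13731111669) (nat_lit 126) (nat_lit 5) (nat_lit 132) (nat_lit 5) (nat_lit 127) (nat_lit 5) (nat_lit 494) (nat_lit 405) (nat_lit 241)) (XT.lf (nat_lit 0) (nat_lit 8055584584) (nat_lit 456) (nat_lit 9624108252) (nat_lit 76) (nat_lit 1417795848) (nat_lit 121) (nat_lit 5) (nat_lit 127) (nat_lit 5) (nat_lit 122) (nat_lit 5) (nat_lit 495) (nat_lit 405) (nat_lit 240))) (XT.nd (nat_lit 78) (nat_lit 456) (nat_lit 0) (XT.lf (nat_lit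 0) (nat_lit 1030855964) (nat_lit 304) (nat_lit 11307164984) (nat_lit 380) (nat_lit 7003429434) (nat_lit 117) (nat_lit 5) (nat_lit 121) (nat_lit 5) (nat_lit 122) (nat_lit 5) (nat_lit 496) (nat_lit 405) (nat_lit 239)) (XT.nd (nat_lit 78) (nat_lit 456) (nat_lit 0) (XT.lf (nat_lit 0) (nat_lit 12014459416) (nat_lit 304) (nat_lit 4746557155) (nat_lit 380) (nat_lit 2828178358) (nat_lit 117) (nat_lit 5) (nat_lit 121) (nat_lit 5) (nat_lit 122) (nat_lit 5) (nat_lit 497) (nat_lit 405) (nat_lit 238)) (XT.lf (nat_lit 0) (nat_lit 1437123229) (nat_lit 456) (nat_lit 16457921509) (nat_lit 76) (nat_lit 1946159462) (nat_lit 111) (nat_lit 5) (nat_lit 117) (nat_lit 5) (nat_lit 112) (nat_lit 5) (nat_lit 498) (nat_lit 405) (nat_lit 237))))) (XT.nd (nat_lit 234) (nat_lit 684) (nat_lit 0) (XT.nd (nat_lit 78) (nat_lit 304) (nat_lit 0) (XT.lf (nat_lit 0) (nat_lit 5823009237) (nat_lit 456) (nat_lit 5499412187) (nat_lit 76) (nat_lit 8773997114)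 (nat_lit 111) (nat_lit 5) (nat_lit 117) (nat_lit 5) (nat_lit 112) (nat_lit 5) (nat_lit 499) (nat_lit 405) (nat_lit 236)) (XT.nd (nat_lit 78) (nat_lit 0) (nat_lit 0) (XT.lf (nat_lit 0) (nat_lit 5739012466) (nat_lit 304) (nat_lit 4585559090) (nat_lit 380) (nat_lit 10031608123) (nat_lit 107) (nat_lit 5) (nat_lit 111) (nat_lit 5) (nat_lit 112) (nat_lit 5) (nat_lit 500) (nat_lit 405) (nat_lit 235)) (XT.lf (nat_lit 0) (nat_lit 14958907962) (nat_lit 380) (nat_lit 3373312837) (nat_lit 76) (nat_lit 2288062040) (nat_lit 107) (nat_lit 5) (nat_lit 112) (nat_lit 5) (nat_lit 108) (nat_lit 5) (nat_lit 501) (nat_lit 405) (nat_lit 234)))) (XT.nd (nat_lit 78) (nat_lit 380) (nat_lit 0) (XT.lf (nat_lit 0) (nat_lit 8157747305) (nat_lit 304) (nat_lit 11602450573) (nat_lit 380) (nat_lit 1127986467) (nat_lit 103) (nat_lit 5) (nat_lit 107) (nat_lit 5) (nat_lit 108) (nat_lit 5) (nat_lit 502) (nat_lit 405) (nat_lit 233)) (XT.nd (nat_lit 78) (nat_lit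 304) (nat_lit 0) (XT.lf (nat_lit 0) (nat_lit 3463962617) (nat_lit 380) (nat_lit 1233006461) (nat_lit 76) (nat_lit 16463747499) (nat_lit 102) (nat_lit 5) (nat_lit 107) (nat_lit 5) (nat_lit 103) (nat_lit 5) (nat_lit 503) (nat_lit 405) (nat_lit 232)) (XT.lf (nat_lit 0) (nat_lit 8208404630) (nat_lit 380) (nat_lit 10841017986) (nat_lit 76) (nat_lit 2387614090) (nat_lit 98) (nat_lit 5) (nat_lit 103) (nat_lit 5) (nat_lit 99) (nat_lit 5) (nat_lit 504) (nat_lit 405) (nat_lit 231))))))))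
noncomputable def xc159 : XT := (XT.nd (nat_lit 1716) (nat_lit 12768) (nat_lit 0) (XT.nd (nat_lit 858) (nat_lit 2660) (nat_lit 0) (XT.nd (nat_lit 390) (nat_lit 1292) (nat_lit 0) (XT.nd (nat_lit 156) (nat_lit 0) (nat_lit 0) (XT.nd (nat_lit 78) (nat_lit 0) (nat_lit 0) (XT.lf (nat_lit 0) (nat_lit 563424015) (nat_lit 0) (nat_lit 563424015) (nat_lit 1292) (nat_lit 2743294936) (nat_lit 538) (nat_lit 5) (nat_lit 538) (nat_lit 3) (nat_lit 555) (nat_lit 3) (nat_lit 406) (nat_lit 406) (nat_lit 328)) (XT.lf (nat_lit 0) (nat_lit 3590682560) (nat_lit 1292) (nat_lit 2893823183) (nat_lit 1368) (nat_lit 1306348251) (nat_lit 538) (nat_lit 5) (nat_lit 555) (nat_lit 3) (nat_lit 556) (nat_lit 5) (nat_lit 407) (nat_lit 406) (nat_lit 327))) (XT.nd (nat_lit 78) (nat_lit 0) (nat_lit 0) (XT.lf (nat_lit 76) (nat_lit 886409581) (nat_lit 0) (nat_lit 4047075083) (nat_lit 1368) (nat_lit 2909381552) (nat_lit 539) (nat_lit 5) (nat_lit 538) (nat_lit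 5) (nat_lit 556) (nat_lit 5) (nat_lit 408) (nat_lit 406) (nat_lit 326)) (XT.nd (nat_lit 78) (nat_lit 0) (nat_lit 76) (XT.lf (nat_lit 76) (nat_lit 4763654444) (nat_lit 0) (nat_lit 1525319345) (nat_lit 1368) (nat_lit 1607242310) (nat_lit 539) (nat_lit 5) (nat_lit 538) (nat_lit 5) (nat_lit 556) (nat_lit 5) (nat_lit 409) (nat_lit 406) (nat_lit 325)) (XT.lf (nat_lit 76) (nat_lit 752642861) (nat_lit 0) (nat_lit 6897784344) (nat_lit 1368) (nat_lit 300642446) (nat_lit 540) (nat_lit 5) (nat_lit 539) (nat_lit 5) (nat_lit 557) (nat_lit 5) (nat_lit 410) (nat_lit 406) (nat_lit 324))))) (XT.nd (nat_lit 234) (nat_lit 0) (nat_lit 76) (XT.nd (nat_lit 78) (nat_lit 0) (nat_lit 0) (XT.lf (nat_lit 0) (nat_lit 1017284850) (nat_lit 1368) (nat_lit 3284095305) (nat_lit 1444) (nat_lit 3705544695) (nat_lit 521) (nat_lit 5) (nat_lit 539) (nat_lit 5) (nat_lit 540) (nat_lit 5) (nat_lit 411) (nat_lit 406) (nat_lit 323)) (XT.nd (nat_lit 78) (nat_lit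 0) (nat_lit 76) (XT.lf (nat_lit 76) (nat_lit 697475446) (nat_lit 0) (nat_lit 1632709400) (nat_lit 1444) (nat_lit 5734232734) (nat_lit 522) (nat_lit 5) (nat_lit 521) (nat_lit 5) (nat_lit 540) (nat_lit 5) (nat_lit 412) (nat_lit 406) (nat_lit 322)) (XT.lf (nat_lit 0) (nat_lit 3667301287) (nat_lit 1368) (nat_lit 3345454512) (nat_lit 1444) (nat_lit 1110357910) (nat_lit 522) (nat_lit 5) (nat_lit 540) (nat_lit 5) (nat_lit 541) (nat_lit 5) (nat_lit 413) (nat_lit 406) (nat_lit 321)))) (XT.nd (nat_lit 78) (nat_lit 0) (nat_lit 0) (XT.lf (nat_lit 76) (nat_lit 736872407) (nat_lit 0) (nat_lit 4279200054) (nat_lit 1444) (nat_lit 3167225515) (nat_lit 523) (nat_lit 5) (nat_lit 522) (nat_lit 5) (nat_lit 541) (nat_lit 5) (nat_lit 414) (nat_lit 406) (nat_lit 320)) (XT.nd (nat_lit 78) (nat_lit 0) (nat_lit 76) (XT.lf (nat_lit 76) (nat_lit 4927873685) (nat_lit 0) (nat_lit 1456193335) (nat_lit 1444) (nat_lit 1860786168) (nat_lit 523) (nat_lit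 5) (nat_lit 522) (nat_lit 5) (nat_lit 541) (nat_lit 5) (nat_lit 415) (nat_lit 406) (nat_lit 319)) (XT.lf (nat_lit 76) (nat_lit 878697659) (nat_lit 0) (nat_lit 6886135756) (nat_lit 1444) (nat_lit 543109830) (nat_lit 524) (nat_lit 5) (nat_lit 523) (nat_lit 5) (nat_lit 542) (nat_lit 5) (nat_lit 416) (nat_lit 406) (nat_lit 318)))))) (XT.nd (nat_lit 390) (nat_lit 1368) (nat_lit 0) (XT.nd (nat_lit 156) (nat_lit 0) (nat_lit 76) (XT.nd (nat_lit 78) (nat_lit 0) (nat_lit 0) (XT.lf (nat_lit 0) (nat_lit 793186317) (nat_lit 1444) (nat_lit 3202509457) (nat_lit 1520) (nat_lit 4376451431) (nat_lit 504) (nat_lit 5) (nat_lit 523) (nat_lit 5) (nat_lit 524) (nat_lit 5) (nat_lit 417) (nat_lit 406) (nat_lit 317)) (XT.lf (nat_lit 76) (nat_lit 1101056919) (nat_lit 0) (nat_lit 1026329663) (nat_lit 1520) (nat_lit 6310619144) (nat_lit 505) (nat_lit 5) (nat_lit 504) (nat_lit 5) (nat_lit 524) (nat_lit 5) (nat_lit 418) (nat_lit 406) (nat_lit 316)))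 (XT.nd (nat_lit 78) (nat_lit 0) (nat_lit 0) (XT.lf (nat_lit 0) (nat_lit 3494706679) (nat_lit 1444) (nat_lit 3002855928) (nat_lit 1520) (nat_lit 2007501161) (nat_lit 505) (nat_lit 5) (nat_lit 524) (nat_lit 5) (nat_lit 525) (nat_lit 5) (nat_lit 419) (nat_lit 406) (nat_lit 315)) (XT.nd (nat_lit 78) (nat_lit 0) (nat_lit 0) (XT.lf (nat_lit 76) (nat_lit 1410934009) (nat_lit 0) (nat_lit 3466751591) (nat_lit 1520) (nat_lit 3696021972) (nat_lit 506) (nat_lit 5) (nat_lit 505) (nat_lit 5) (nat_lit 525) (nat_lit 5) (nat_lit 420) (nat_lit 406) (nat_lit 314)) (XT.lf (nat_lit 76) (nat_lit 5935134659) (nat_lit 0) (nat_lit 346116502) (nat_lit 1520) (nat_lit 2362625188) (nat_lit 506) (nat_lit 5) (nat_lit 505) (nat_lit 5) (nat_lit 525) (nat_lit 5) (nat_lit 421) (nat_lit 406) (nat_lit 313))))) (XT.nd (nat_lit 234) (nat_lit 0) (nat_lit 76) (XT.nd (nat_lit 78) (nat_lit 1520) (nat_lit 0) (XT.lf (nat_lit 76) (nat_lit 1821029921) (nat_lit 0)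 (nat_lit 5895465885) (nat_lit 1520) (nat_lit 998890969) (nat_lit 507) (nat_lit 5) (nat_lit 506) (nat_lit 5) (nat_lit 526) (nat_lit 5) (nat_lit 422) (nat_lit 406) (nat_lit 312)) (XT.nd (nat_lit 78) (nat_lit 0) (nat_lit 76) (XT.lf (nat_lit 0) (nat_lit 381147196) (nat_lit 1520) (nat_lit 2333849804) (nat_lit 1596) (nat_lit 6073406076) (nat_lit 486) (nat_lit 5) (nat_lit 506) (nat_lit 5) (nat_lit 507) (nat_lit 5) (nat_lit 423) (nat_lit 406) (nat_lit 311)) (XT.lf (nat_lit 0) (nat_lit 1768232383) (nat_lit 1520) (nat_lit 6543548716) (nat_lit 1596) (nat_lit 551119951) (nat_lit 487) (nat_lit 5) (nat_lit 507) (nat_lit 5) (nat_lit 508) (nat_lit 5) (nat_lit 424) (nat_lit 406) (nat_lit 310)))) (XT.nd (nat_lit 78) (nat_lit 0) (nat_lit 0) (XT.lf (nat_lit 0) (nat_lit 3191337448) (nat_lit 1520) (nat_lit 1878516211) (nat_lit 1596) (nat_lit 3868879394) (nat_lit 487) (nat_lit 5) (nat_lit 507) (nat_lit 5) (nat_lit 508) (nat_lit 5) (nat_lit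 425) (nat_lit 406) (nat_lit 309)) (XT.nd (nat_lit 78) (nat_lit 0) (nat_lit 76) (XT.lf (nat_lit 76) (nat_lit 2899102834) (nat_lit 0) (nat_lit 1737657015) (nat_lit 1596) (nat_lit 4379454190) (nat_lit 488) (nat_lit 5) (nat_lit 487) (nat_lit 5) (nat_lit 508) (nat_lit 5) (nat_lit 426) (nat_lit 406) (nat_lit 308)) (XT.lf (nat_lit 0) (nat_lit 6110005434) (nat_lit 1520) (nat_lit 1327276673) (nat_lit 1596) (nat_lit 1657993502) (nat_lit 488) (nat_lit 5) (nat_lit 508) (nat_lit 5) (nat_lit 509) (nat_lit 5) (nat_lit 427) (nat_lit 406) (nat_lit 307))))))) (XT.nd (nat_lit 858) (nat_lit 5168) (nat_lit 0) (XT.nd (nat_lit 390) (nat_lit 4636) (nat_lit 0) (XT.nd (nat_lit 156) (nat_lit 3116) (nat_lit 0) (XT.nd (nat_lit 78) (nat_lit 0) (nat_lit 0) (XT.lf (nat_lit 76) (nat_lit 3574955421) (nat_lit 0) (nat_lit 4048400637) (nat_lit 1596) (nat_lit 1552358630) (nat_lit 489) (nat_lit 5) (nat_lit 488) (nat_lit 5) (nat_lit 509) (nat_lit 5) (nat_lit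 428) (nat_lit 406) (nat_lit 306)) (XT.lf (nat_lit 76) (nat_lit 8574569631) (nat_lit 0) (nat_lit 577583287) (nat_lit 1596) (nat_lit 105914947) (nat_lit 489) (nat_lit 5) (nat_lit 488) (nat_lit 5) (nat_lit 509) (nat_lit 5) (nat_lit 429) (nat_lit 406) (nat_lit 305))) (XT.nd (nat_lit 78) (nat_lit 1596) (nat_lit 0) (XT.lf (nat_lit 0) (nat_lit 1375904991) (nat_lit 1596) (nat_lit 4999499765) (nat_lit 76) (nat_lit 2966005915) (nat_lit 468) (nat_lit 5) (nat_lit 489) (nat_lit 5) (nat_lit 469) (nat_lit 5) (nat_lit 430) (nat_lit 406) (nat_lit 304)) (XT.nd (nat_lit 78) (nat_lit 0) (nat_lit 0) (XT.lf (nat_lit 0) (nat_lit 27583794) (nat_lit 1596) (nat_lit 2843926046) (nat_lit 1672) (nat_lit 6555193544) (nat_lit 447) (nat_lit 5) (nat_lit 468) (nat_lit 5) (nat_lit 469) (nat_lit 5) (nat_lit 431) (nat_lit 406) (nat_lit 303)) (XT.lf (nat_lit 0) (nat_lit 4413019808) (nat_lit 1672) (nat_lit 4314545894) (nat_lit 76) (nat_lit 785824612) (nat_lit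 447) (nat_lit 5) (nat_lit 469) (nat_lit 5) (nat_lit 448) (nat_lit 5) (nat_lit 432) (nat_lit 406) (nat_lit 302))))) (XT.nd (nat_lit 234) (nat_lit 1216) (nat_lit 0) (XT.nd (nat_lit 78) (nat_lit 1748) (nat_lit 0) (XT.lf (nat_lit 0) (nat_lit 844998336) (nat_lit 1672) (nat_lit 5142425940) (nat_lit 1748) (nat_lit 3614353484) (nat_lit 425) (nat_lit 5) (nat_lit 447) (nat_lit 5) (nat_lit 448) (nat_lit 5) (nat_lit 433) (nat_lit 406) (nat_lit 301)) (XT.nd (nat_lit 78) (nat_lit 1748) (nat_lit 0) (XT.lf (nat_lit 0) (nat_lit 6147373756) (nat_lit 1672) (nat_lit 1452954053) (nat_lit 1748) (nat_lit 2091472828) (nat_lit 425) (nat_lit 5) (nat_lit 447) (nat_lit 5) (nat_lit 448) (nat_lit 5) (nat_lit 434) (nat_lit 406) (nat_lit 300)) (XT.lf (nat_lit 0) (nat_lit 1761340260) (nat_lit 1748) (nat_lit 7489093043) (nat_lit 1824) (nat_lit 533099541) (nat_lit 402) (nat_lit 5) (nat_lit 425) (nat_lit 5) (nat_lit 426) (nat_lit 5) (nat_lit 435) (nat_lit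 406) (nat_lit 299)))) (XT.nd (nat_lit 78) (nat_lit 1140) (nat_lit 0) (XT.lf (nat_lit 0) (nat_lit 1054809995) (nat_lit 1824) (nat_lit 2691093650) (nat_lit 76) (nat_lit 6130821832) (nat_lit 401) (nat_lit 5) (nat_lit 425) (nat_lit 5) (nat_lit 402) (nat_lit 5) (nat_lit 436) (nat_lit 406) (nat_lit 298)) (XT.nd (nat_lit 78) (nat_lit 0) (nat_lit 0) (XT.lf (nat_lit 0) (nat_lit 2664972425) (nat_lit 1216) (nat_lit 7211825839) (nat_lit 76) (nat_lit 94967865) (nat_lit 386) (nat_lit 5) (nat_lit 402) (nat_lit 5) (nat_lit 387) (nat_lit 5) (nat_lit 437) (nat_lit 406) (nat_lit 297)) (XT.lf (nat_lit 0) (nat_lit 4329704255) (nat_lit 1216) (nat_lit 1755834440) (nat_lit 76) (nat_lit 3982728736) (nat_lit 386) (nat_lit 5) (nat_lit 402) (nat_lit 5) (nat_lit 387) (nat_lit 5) (nat_lit 438) (nat_lit 406) (nat_lit 296)))))) (XT.nd (nat_lit 390) (nat_lit 2508) (nat_lit 0) (XT.nd (nat_lit 156) (nat_lit 1748) (nat_lit 0) (XT.nd (nat_lit 78) (nat_lit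 0) (nat_lit 0) (XT.lf (nat_lit 0) (nat_lit 3840990789) (nat_lit 912) (nat_lit 2191463088) (nat_lit 988) (nat_lit 4134157438) (nat_lit 374) (nat_lit 5) (nat_lit 386) (nat_lit 5) (nat_lit 387) (nat_lit 5) (nat_lit 439) (nat_lit 406) (nat_lit 295)) (XT.lf (nat_lit 0) (nat_lit 7772749243) (nat_lit 988) (nat_lit 723724548) (nat_lit 76) (nat_lit 1770385349) (nat_lit 374) (nat_lit 5) (nat_lit 387) (nat_lit 5) (nat_lit 375) (nat_lit 5) (nat_lit 440) (nat_lit 406) (nat_lit 294))) (XT.nd (nat_lit 78) (nat_lit 912) (nat_lit 0) (XT.lf (nat_lit 0) (nat_lit 5022992159) (nat_lit 836) (nat_lit 4552444738) (nat_lit 912) (nat_lit 793130045) (nat_lit 363) (nat_lit 5) (nat_lit 374) (nat_lit 5) (nat_lit 375) (nat_lit 5) (nat_lit 441) (nat_lit 406) (nat_lit 293)) (XT.nd (nat_lit 78) (nat_lit 0) (nat_lit 0) (XT.lf (nat_lit 0) (nat_lit 402651329) (nat_lit 836) (nat_lit 514958176) (nat_lit 912) (nat_lit 9554821716) (nat_lit 351) (nat_lit 5)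 (nat_lit 362) (nat_lit 5) (nat_lit 363) (nat_lit 5) (nat_lit 442) (nat_lit 406) (nat_lit 292)) (XT.lf (nat_lit 0) (nat_lit 2692311081) (nat_lit 912) (nat_lit 4287231233) (nat_lit 76) (nat_lit 3597924631) (nat_lit 351) (nat_lit 5) (nat_lit 363) (nat_lit 5) (nat_lit 352) (nat_lit 5) (nat_lit 443) (nat_lit 406) (nat_lit 291))))) (XT.nd (nat_lit 234) (nat_lit 836) (nat_lit 0) (XT.nd (nat_lit 78) (nat_lit 836) (nat_lit 0) (XT.lf (nat_lit 0) (nat_lit 1610053068) (nat_lit 836) (nat_lit 2887546162) (nat_lit 912) (nat_lit 6187108535) (nat_lit 340) (nat_lit 5) (nat_lit 351) (nat_lit 5) (nat_lit 352) (nat_lit 5) (nat_lit 444) (nat_lit 406) (nat_lit 290)) (XT.nd (nat_lit 78) (nat_lit 836) (nat_lit 0) (XT.lf (nat_lit 0) (nat_lit 6357781508) (nat_lit 912) (nat_lit 3137537757) (nat_lit 76) (nat_lit 1298404480) (nat_lit 340) (nat_lit 5) (nat_lit 352) (nat_lit 5) (nat_lit 341) (nat_lit 5) (nat_lit 445) (nat_lit 406) (nat_lit 289)) (XT.lf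 (nat_lit 0) (nat_lit 2918976328) (nat_lit 836) (nat_lit 5356105864) (nat_lit 912) (nat_lit 2629445546) (nat_lit 329) (nat_lit 5) (nat_lit 340) (nat_lit 5) (nat_lit 341) (nat_lit 5) (nat_lit 446) (nat_lit 406) (nat_lit 288)))) (XT.nd (nat_lit 78) (nat_lit 836) (nat_lit 0) (XT.lf (nat_lit 0) (nat_lit 9120767321) (nat_lit 836) (nat_lit 1113092831) (nat_lit 912) (nat_lit 783630908) (nat_lit 329) (nat_lit 5) (nat_lit 340) (nat_lit 5) (nat_lit 341) (nat_lit 5) (nat_lit 447) (nat_lit 406) (nat_lit 287)) (XT.nd (nat_lit 78) (nat_lit 0) (nat_lit 0) (XT.lf (nat_lit 0) (nat_lit 1116307823) (nat_lit 836) (nat_lit 6807996869) (nat_lit 76) (nat_lit 3207639424) (nat_lit 318) (nat_lit 5) (nat_lit 329) (nat_lit 5) (nat_lit 319) (nat_lit 5) (nat_lit 448) (nat_lit 406) (nat_lit 286)) (XT.lf (nat_lit 0) (nat_lit 3046476947) (nat_lit 836) (nat_lit 584828920) (nat_lit 76) (nat_lit 7617227816) (nat_lit 318) (nat_lit 5) (nat_lit 329) (nat_lit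 5) (nat_lit 319) (nat_lit 5) (nat_lit 449) (nat_lit 406) (nat_lit 285))))))))
noncomputable def xc160 : XT := (XT.nd (nat_lit 1638) (nat_lit 6080) (nat_lit 0) (XT.nd (nat_lit 780) (nat_lit 3724) (nat_lit 0) (XT.nd (nat_lit 390) (nat_lit 2052) (nat_lit 0) (XT.nd (nat_lit 156) (nat_lit 836) (nat_lit 0) (XT.nd (nat_lit 78) (nat_lit 684) (nat_lit 0) (XT.lf (nat_lit 0) (nat_lit 5041014096) (nat_lit 836) (nat_lit 5551129943) (nat_lit 76) (nat_lit 774801135) (nat_lit 308) (nat_lit 5) (nat_lit 319) (nat_lit 5) (nat_lit 309) (nat_lit 5) (nat_lit 450) (nat_lit 406) (nat_lit 284)) (XT.lf (nat_lit 0) (nat_lit 833258835) (nat_lit 684) (nat_lit 6258677180) (nat_lit 760) (nat_lit 4395464318) (nat_lit 299) (nat_lit 5) (nat_lit 308) (nat_lit 5) (nat_lit 309) (nat_lit 5) (nat_lit 451) (nat_lit 406) (nat_lit 283))) (XT.nd (nat_lit 78) (nat_lit 836) (nat_lit 0) (XT.lf (nat_lit 0) (nat_lit 7402354627) (nat_lit 684) (nat_lit 1802071144) (nat_lit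 760) (nat_lit 2405433050) (nat_lit 299) (nat_lit 5) (nat_lit 308) (nat_lit 5) (nat_lit 309) (nat_lit 5) (nat_lit 452) (nat_lit 406) (nat_lit 282)) (XT.nd (nat_lit 78) (nat_lit 76) (nat_lit 0) (XT.lf (nat_lit 0) (nat_lit 2363050722) (nat_lit 760) (nat_lit 9012886962) (nat_lit 836) (nat_lit 358498462) (nat_lit 289) (nat_lit 5) (nat_lit 299) (nat_lit 5) (nat_lit 300) (nat_lit 5) (nat_lit 453) (nat_lit 406) (nat_lit 281)) (XT.lf (nat_lit 0) (nat_lit 1730757523) (nat_lit 836) (nat_lit 2780534235) (nat_lit 76) (nat_lit 7349512332) (nat_lit 288) (nat_lit 5) (nat_lit 299) (nat_lit 5) (nat_lit 289) (nat_lit 5) (nat_lit 454) (nat_lit 406) (nat_lit 280))))) (XT.nd (nat_lit 156) (nat_lit 1368) (nat_lit 0) (XT.nd (nat_lit 78) (nat_lit 0) (nat_lit 0) (XT.lf (nat_lit 0) (nat_lit 3867527149) (nat_lit 760) (nat_lit 8016213067) (nat_lit 76) (nat_lit 105706025) (nat_lit 279) (nat_lit 5) (nat_lit 289) (nat_lit 5) (nat_lit 280) (nat_lit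 5) (nat_lit 455) (nat_lit 406) (nat_lit 279)) (XT.lf (nat_lit 0) (nat_lit 6079902343) (nat_lit 760) (nat_lit 1268646154) (nat_lit 76) (nat_lit 4771460057) (nat_lit 279) (nat_lit 5) (nat_lit 289) (nat_lit 5) (nat_lit 280) (nat_lit 5) (nat_lit 456) (nat_lit 406) (nat_lit 278))) (XT.nd (nat_lit 78) (nat_lit 684) (nat_lit 0) (XT.lf (nat_lit 0) (nat_lit 5670471521) (nat_lit 684) (nat_lit 2687391214) (nat_lit 760) (nat_lit 3894897256) (nat_lit 270) (nat_lit 5) (nat_lit 279) (nat_lit 5) (nat_lit 280) (nat_lit 5) (nat_lit 457) (nat_lit 406) (nat_lit 277)) (XT.nd (nat_lit 78) (nat_lit 76) (nat_lit 0) (XT.lf (nat_lit 0) (nat_lit 350747747) (nat_lit 608) (nat_lit 10339596581) (nat_lit 684) (nat_lit 1697647428) (nat_lit 262) (nat_lit 5) (nat_lit 270) (nat_lit 5) (nat_lit 271) (nat_lit 5) (nat_lit 458) (nat_lit 406) (nat_lit 276)) (XT.lf (nat_lit 0) (nat_lit 583453696) (nat_lit 684) (nat_lit 5053030827) (nat_lit 76) (nat_lit 6888436714)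 (nat_lit 261) (nat_lit 5) (nat_lit 270) (nat_lit 5) (nat_lit 262) (nat_lit 5) (nat_lit 459) (nat_lit 406) (nat_lit 275)))))) (XT.nd (nat_lit 390) (nat_lit 1824) (nat_lit 0) (XT.nd (nat_lit 156) (nat_lit 1216) (nat_lit 0) (XT.nd (nat_lit 78) (nat_lit 0) (nat_lit 0) (XT.lf (nat_lit 0) (nat_lit 2069077357) (nat_lit 684) (nat_lit 816896183) (nat_lit 760) (nat_lit 9778425054) (nat_lit 252) (nat_lit 5) (nat_lit 261) (nat_lit 5) (nat_lit 262) (nat_lit 5) (nat_lit 460) (nat_lit 406) (nat_lit 274)) (XT.lf (nat_lit 0) (nat_lit 5280524268) (nat_lit 760) (nat_lit 3448550401) (nat_lit 76) (nat_lit 4076675414) (nat_lit 252) (nat_lit 5) (nat_lit 262) (nat_lit 5) (nat_lit 253) (nat_lit 5) (nat_lit 461) (nat_lit 406) (nat_lit 273))) (XT.nd (nat_lit 78) (nat_lit 608) (nat_lit 0) (XT.lf (nat_lit 0) (nat_lit 3868990996) (nat_lit 608) (nat_lit 3870027974) (nat_lit 684) (nat_lit 5210592683) (nat_lit 244) (nat_lit 5) (nat_lit 252) (nat_lit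 5) (nat_lit 253) (nat_lit 5) (nat_lit 462) (nat_lit 406) (nat_lit 272)) (XT.nd (nat_lit 78) (nat_lit 608) (nat_lit 0) (XT.lf (nat_lit 0) (nat_lit 10262704769) (nat_lit 684) (nat_lit 1741116502) (nat_lit 76) (nat_lit 1092212792) (nat_lit 244) (nat_lit 5) (nat_lit 253) (nat_lit 5) (nat_lit 245) (nat_lit 5) (nat_lit 463) (nat_lit 406) (nat_lit 271)) (XT.lf (nat_lit 0) (nat_lit 5778021813) (nat_lit 608) (nat_lit 7107941474) (nat_lit 684) (nat_lit 358443605) (nat_lit 236) (nat_lit 5) (nat_lit 244) (nat_lit 5) (nat_lit 245) (nat_lit 5) (nat_lit 464) (nat_lit 406) (nat_lit 270))))) (XT.nd (nat_lit 234) (nat_lit 608) (nat_lit 0) (XT.nd (nat_lit 78) (nat_lit 608) (nat_lit 0) (XT.lf (nat_lit 0) (nat_lit 44694685) (nat_lit 532) (nat_lit 2090912739) (nat_lit 608) (nat_lit 11259900812) (nat_lit 228) (nat_lit 5) (nat_lit 235) (nat_lit 5) (nat_lit 236) (nat_lit 5) (nat_lit 465) (nat_lit 406) (nat_lit 269)) (XT.nd (nat_lit 78) (nat_lit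 608) (nat_lit 0) (XT.lf (nat_lit 0) (nat_lit 4730991824) (nat_lit 608) (nat_lit 5781305389) (nat_lit 76) (nat_lit 3036165693) (nat_lit 228) (nat_lit 5) (nat_lit 236) (nat_lit 5) (nat_lit 229) (nat_lit 5) (nat_lit 466) (nat_lit 406) (nat_lit 268)) (XT.lf (nat_lit 0) (nat_lit 1933927941) (nat_lit 608) (nat_lit 5457193217) (nat_lit 684) (nat_lit 6313102419) (nat_lit 220) (nat_lit 5) (nat_lit 228) (nat_lit 5) (nat_lit 229) (nat_lit 5) (nat_lit 467) (nat_lit 406) (nat_lit 267)))) (XT.nd (nat_lit 78) (nat_lit 608) (nat_lit 0) (XT.lf (nat_lit 0) (nat_lit 9864764388) (nat_lit 608) (nat_lit 265073274) (nat_lit 684) (nat_lit 3732757686) (nat_lit 220) (nat_lit 5) (nat_lit 228) (nat_lit 5) (nat_lit 229) (nat_lit 5) (nat_lit 468) (nat_lit 406) (nat_lit 266)) (XT.nd (nat_lit 78) (nat_lit 76) (nat_lit 0) (XT.lf (nat_lit 0) (nat_lit 3932010997) (nat_lit 532) (nat_lit 9036339253) (nat_lit 608) (nat_lit 1054887380) (nat_lit 213) (nat_lit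 5) (nat_lit 220) (nat_lit 5) (nat_lit 221) (nat_lit 5) (nat_lit 469) (nat_lit 406) (nat_lit 265)) (XT.lf (nat_lit 0) (nat_lit 1670200654) (nat_lit 608) (nat_lit 2141776201) (nat_lit 76) (nat_lit 10374588600) (nat_lit 212) (nat_lit 5) (nat_lit 220) (nat_lit 5) (nat_lit 213) (nat_lit 5) (nat_lit 470) (nat_lit 406) (nat_lit 264))))))) (XT.nd (nat_lit 858) (nat_lit 2508) (nat_lit 0) (XT.nd (nat_lit 390) (nat_lit 1900) (nat_lit 0) (XT.nd (nat_lit 156) (nat_lit 1140) (nat_lit 0) (XT.nd (nat_lit 78) (nat_lit 0) (nat_lit 0) (XT.lf (nat_lit 0) (nat_lit 4472050790) (nat_lit 608) (nat_lit 8340680059) (nat_lit 76) (nat_lit 1539565136) (nat_lit 205) (nat_lit 5) (nat_lit 213) (nat_lit 5) (nat_lit 206) (nat_lit 5) (nat_lit 471) (nat_lit 406) (nat_lit 263)) (XT.lf (nat_lit 0) (nat_lit 7356914365) (nat_lit 608) (nat_lit 206116718) (nat_lit 76) (nat_lit 6957773754) (nat_lit 205) (nat_lit 5) (nat_lit 213) (nat_lit 5) (nat_lit 206) (nat_lit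 5) (nat_lit 472) (nat_lit 406) (nat_lit 262))) (XT.nd (nat_lit 78) (nat_lit 608) (nat_lit 0) (XT.lf (nat_lit 0) (nat_lit 8181944366) (nat_lit 532) (nat_lit 2158167112) (nat_lit 608) (nat_lit 4351762841) (nat_lit 198) (nat_lit 5) (nat_lit 205) (nat_lit 5) (nat_lit 206) (nat_lit 5) (nat_lit 473) (nat_lit 406) (nat_lit 261)) (XT.nd (nat_lit 78) (nat_lit 76) (nat_lit 0) (XT.lf (nat_lit 0) (nat_lit 1860212980) (nat_lit 532) (nat_lit 11545636945) (nat_lit 608) (nat_lit 1460060836) (nat_lit 191) (nat_lit 5) (nat_lit 198) (nat_lit 5) (nat_lit 199) (nat_lit 5) (nat_lit 474) (nat_lit 406) (nat_lit 260)) (XT.lf (nat_lit 0) (nat_lit 1515884517) (nat_lit 608) (nat_lit 4597477994) (nat_lit 76) (nat_lit 8928956121) (nat_lit 190) (nat_lit 5) (nat_lit 198) (nat_lit 5) (nat_lit 191) (nat_lit 5) (nat_lit 475) (nat_lit 406) (nat_lit 259))))) (XT.nd (nat_lit 234) (nat_lit 988) (nat_lit 0) (XT.nd (nat_lit 78) (nat_lit 456) (nat_lit 0) (XT.lf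 (nat_lit 0) (nat_lit 4005421789) (nat_lit 456) (nat_lit 540319711) (nat_lit 532) (nat_lit 10676044217) (nat_lit 184) (nat_lit 5) (nat_lit 190) (nat_lit 5) (nat_lit 191) (nat_lit 5) (nat_lit 476) (nat_lit 406) (nat_lit 258)) (XT.nd (nat_lit 78) (nat_lit 456) (nat_lit 0) (XT.lf (nat_lit 0) (nat_lit 7688673296) (nat_lit 532) (nat_lit 2611582718) (nat_lit 76) (nat_lit 5103539456) (nat_lit 184) (nat_lit 5) (nat_lit 191) (nat_lit 5) (nat_lit 185) (nat_lit 5) (nat_lit 477) (nat_lit 406) (nat_lit 257)) (XT.lf (nat_lit 0) (nat_lit 6227256620) (nat_lit 456) (nat_lit 4699474123) (nat_lit 532) (nat_lit 4662072157) (nat_lit 178) (nat_lit 5) (nat_lit 184) (nat_lit 5) (nat_lit 185) (nat_lit 5) (nat_lit 478) (nat_lit 406) (nat_lit 256)))) (XT.nd (nat_lit 78) (nat_lit 988) (nat_lit 0) (XT.lf (nat_lit 0) (nat_lit 14242124510) (nat_lit 532) (nat_lit 521812932) (nat_lit 76) (nat_lit 1013324301) (nat_lit 178) (nat_lit 5) (nat_lit 185) (nat_lit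 5) (nat_lit 179) (nat_lit 5) (nat_lit 479) (nat_lit 406) (nat_lit 255)) (XT.nd (nat_lit 78) (nat_lit 456) (nat_lit 0) (XT.lf (nat_lit 0) (nat_lit 1708417719) (nat_lit 532) (nat_lit 7419281368) (nat_lit 76) (nat_lit 6840062949) (nat_lit 171) (nat_lit 5) (nat_lit 178) (nat_lit 5) (nat_lit 172) (nat_lit 5) (nat_lit 480) (nat_lit 406) (nat_lit 254)) (XT.lf (nat_lit 0) (nat_lit 1640616506) (nat_lit 456) (nat_lit 3358494767) (nat_lit 532) (nat_lit 11162704265) (nat_lit 165) (nat_lit 5) (nat_lit 171) (nat_lit 5) (nat_lit 172) (nat_lit 5) (nat_lit 481) (nat_lit 406) (nat_lit 253)))))) (XT.nd (nat_lit 390) (nat_lit 1596) (nat_lit 0) (XT.nd (nat_lit 156) (nat_lit 532) (nat_lit 0) (XT.nd (nat_lit 78) (nat_lit 380) (nat_lit 0) (XT.lf (nat_lit 0) (nat_lit 8410853903) (nat_lit 532) (nat_lit 5409257183) (nat_lit 76) (nat_lit 2538536876) (nat_lit 165) (nat_lit 5) (nat_lit 172) (nat_lit 5) (nat_lit 166) (nat_lit 5) (nat_lit 482) (nat_lit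 406) (nat_lit 252)) (XT.lf (nat_lit 0) (nat_lit 3898065772) (nat_lit 380) (nat_lit 8029254491) (nat_lit 456) (nat_lit 4631369500) (nat_lit 160) (nat_lit 5) (nat_lit 165) (nat_lit 5) (nat_lit 166) (nat_lit 5) (nat_lit 483) (nat_lit 406) (nat_lit 251))) (XT.nd (nat_lit 78) (nat_lit 532) (nat_lit 0) (XT.lf (nat_lit 0) (nat_lit 13449222765) (nat_lit 380) (nat_lit 2090245883) (nat_lit 456) (nat_lit 1222759155) (nat_lit 160) (nat_lit 5) (nat_lit 165) (nat_lit 5) (nat_lit 166) (nat_lit 5) (nat_lit 484) (nat_lit 406) (nat_lit 250)) (XT.nd (nat_lit 78) (nat_lit 0) (nat_lit 0) (XT.lf (nat_lit 0) (nat_lit 2280485928) (nat_lit 532) (nat_lit 10721306797) (nat_lit 76) (nat_lit 3966633059) (nat_lit 153) (nat_lit 5) (nat_lit 160) (nat_lit 5) (nat_lit 154) (nat_lit 5) (nat_lit 485) (nat_lit 406) (nat_lit 249)) (XT.lf (nat_lit 0) (nat_lit 5862936977) (nat_lit 532) (nat_lit 1172596256) (nat_lit 76) (nat_lit 10142544883) (nat_lit 153) (nat_lit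 5) (nat_lit 160) (nat_lit 5) (nat_lit 154) (nat_lit 5) (nat_lit 486) (nat_lit 406) (nat_lit 248))))) (XT.nd (nat_lit 234) (nat_lit 836) (nat_lit 0) (XT.nd (nat_lit 78) (nat_lit 380) (nat_lit 0) (XT.lf (nat_lit 0) (nat_lit 8665483300) (nat_lit 380) (nat_lit 897302651) (nat_lit 456) (nat_lit 7828224835) (nat_lit 148) (nat_lit 5) (nat_lit 153) (nat_lit 5) (nat_lit 154) (nat_lit 5) (nat_lit 487) (nat_lit 406) (nat_lit 247)) (XT.nd (nat_lit 78) (nat_lit 0) (nat_lit 0) (XT.lf (nat_lit 0) (nat_lit 1072023879) (nat_lit 380) (nat_lit 12303877570) (nat_lit 456) (nat_lit 4231517494) (nat_lit 143) (nat_lit 5) (nat_lit 148) (nat_lit 5) (nat_lit 149) (nat_lit 5) (nat_lit 488) (nat_lit 406) (nat_lit 246)) (XT.lf (nat_lit 0) (nat_lit 11162548893) (nat_lit 380) (nat_lit 6156856042) (nat_lit 456) (nat_lit 507669999) (nat_lit 143) (nat_lit 5) (nat_lit 148) (nat_lit 5) (nat_lit 149) (nat_lit 5) (nat_lit 489) (nat_lit 406) (nat_lit 245))))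 (XT.nd (nat_lit 78) (nat_lit 380) (nat_lit 0) (XT.lf (nat_lit 0) (nat_lit 3260444138) (nat_lit 456) (nat_lit 14639377175) (nat_lit 76) (nat_lit 150618581) (nat_lit 137) (nat_lit 5) (nat_lit 143) (nat_lit 5) (nat_lit 138) (nat_lit 5) (nat_lit 490) (nat_lit 406) (nat_lit 244)) (XT.nd (nat_lit 78) (nat_lit 380) (nat_lit 0) (XT.lf (nat_lit 0) (nat_lit 7172795668) (nat_lit 456) (nat_lit 4558452026) (nat_lit 76) (nat_lit 6545445945) (nat_lit 137) (nat_lit 5) (nat_lit 143) (nat_lit 5) (nat_lit 138) (nat_lit 5) (nat_lit 491) (nat_lit 406) (nat_lit 243)) (XT.lf (nat_lit 0) (nat_lit 5785116554) (nat_lit 380) (nat_lit 5405910960) (nat_lit 456) (nat_lit 7315894295) (nat_lit 132) (nat_lit 5) (nat_lit 137) (nat_lit 5) (nat_lit 138) (nat_lit 5) (nat_lit 492) (nat_lit 406) (nat_lit 242))))))))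
noncomputable def xc161 : XT := (XT.nd (nat_lit 53430) (nat_lit 0) (nat_lit 21584) (XT.nd (nat_lit 858) (nat_lit 76) (nat_lit 0) (XT.nd (nat_lit 390) (nat_lit 1064) (nat_lit 0) (XT.nd (nat_lit 156) (nat_lit 684) (nat_lit 0) (XT.nd (nat_lit 78) (nat_lit 456) (nat_lit 0) (XT.lf (nat_lit 0) (nat_lit 15317346485) (nat_lit 456) (nat_lit 2365705521) (nat_lit 76) (nat_lit 1058150063) (nat_lit 132) (nat_lit 5) (nat_lit 138) (nat_lit 5) (nat_lit 133) (nat_lit 5) (nat_lit 493) (nat_lit 406) (nat_lit 241)) (XT.lf (nat_lit 0) (nat_lit 619121589) (nat_lit 456) (nat_lit 10727286698) (nat_lit 76) (nat_lit 7632085465) (nat_lit 126) (nat_lit 5) (nat_lit 132) (nat_lit 5) (nat_lit 127) (nat_lit 5) (nat_lit 494) (nat_lit 406) (nat_lit 240))) (XT.nd (nat_lit 78) (nat_lit 684) (nat_lit 0) (XT.lf (nat_lit 0) (nat_lit 4703498712) (nat_lit 456) (nat_lit 145125861) (nat_lit 76) (nat_lit 14371328209) (nat_lit 126) (nat_lit 5) (nat_lit 132) (nat_lit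 5) (nat_lit 127) (nat_lit 5) (nat_lit 495) (nat_lit 406) (nat_lit 239)) (XT.nd (nat_lit 78) (nat_lit 304) (nat_lit 0) (XT.lf (nat_lit 0) (nat_lit 8942060170) (nat_lit 456) (nat_lit 8701383202) (nat_lit 76) (nat_lit 1821349508) (nat_lit 121) (nat_lit 5) (nat_lit 127) (nat_lit 5) (nat_lit 122) (nat_lit 5) (nat_lit 496) (nat_lit 406) (nat_lit 238)) (XT.lf (nat_lit 0) (nat_lit 2159343409) (nat_lit 304) (nat_lit 11143772061) (nat_lit 380) (nat_lit 6410661650) (nat_lit 117) (nat_lit 5) (nat_lit 121) (nat_lit 5) (nat_lit 122) (nat_lit 5) (nat_lit 497) (nat_lit 406) (nat_lit 237))))) (XT.nd (nat_lit 234) (nat_lit 608) (nat_lit 0) (XT.nd (nat_lit 78) (nat_lit 456) (nat_lit 0) (XT.lf (nat_lit 0) (nat_lit 13340895982) (nat_lit 304) (nat_lit 4459590040) (nat_lit 380) (nat_lit 2166274893) (nat_lit 117) (nat_lit 5) (nat_lit 121) (nat_lit 5) (nat_lit 122) (nat_lit 5) (nat_lit 498) (nat_lit 406) (nat_lit 236)) (XT.nd (nat_lit 78) (nat_lit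 0) (nat_lit 0) (XT.lf (nat_lit 0) (nat_lit 2170582293) (nat_lit 456) (nat_lit 15686924039) (nat_lit 76) (nat_lit 2366299853) (nat_lit 111) (nat_lit 5) (nat_lit 117) (nat_lit 5) (nat_lit 112) (nat_lit 5) (nat_lit 499) (nat_lit 406) (nat_lit 235)) (XT.lf (nat_lit 0) (nat_lit 6630368049) (nat_lit 456) (nat_lit 4530816214) (nat_lit 76) (nat_lit 9323219412) (nat_lit 111) (nat_lit 5) (nat_lit 117) (nat_lit 5) (nat_lit 112) (nat_lit 5) (nat_lit 500) (nat_lit 406) (nat_lit 234)))) (XT.nd (nat_lit 78) (nat_lit 304) (nat_lit 0) (XT.lf (nat_lit 0) (nat_lit 6925280983) (nat_lit 304) (nat_lit 4290090411) (nat_lit 380) (nat_lit 9534122904) (nat_lit 107) (nat_lit 5) (nat_lit 111) (nat_lit 5) (nat_lit 112) (nat_lit 5) (nat_lit 501) (nat_lit 406) (nat_lit 233)) (XT.nd (nat_lit 78) (nat_lit 304) (nat_lit 0) (XT.lf (nat_lit 0) (nat_lit 15931441254) (nat_lit 380) (nat_lit 2379226727) (nat_lit 76) (nat_lit 2708433013) (nat_lit 107) (nat_lit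 5) (nat_lit 112) (nat_lit 5) (nat_lit 108) (nat_lit 5) (nat_lit 502) (nat_lit 406) (nat_lit 232)) (XT.lf (nat_lit 0) (nat_lit 9375470721) (nat_lit 304) (nat_lit 11446930165) (nat_lit 380) (nat_lit 470089129) (nat_lit 103) (nat_lit 5) (nat_lit 107) (nat_lit 5) (nat_lit 108) (nat_lit 5) (nat_lit 503) (nat_lit 406) (nat_lit 231)))))) (XT.nd (nat_lit 52104) (nat_lit 0) (nat_lit 30476) (XT.nd (nat_lit 51870) (nat_lit 0) (nat_lit 31768) (XT.nd (nat_lit 51792) (nat_lit 0) (nat_lit 33136) (XT.lf (nat_lit 0) (nat_lit 4191607312) (nat_lit 380) (nat_lit 214913149) (nat_lit 76) (nat_lit 17164129684) (nat_lit 102) (nat_lit 5) (nat_lit 107) (nat_lit 5) (nat_lit 103) (nat_lit 5) (nat_lit 504) (nat_lit 406) (nat_lit 230)) (XT.lf (nat_lit 0) (nat_lit 1223380827) (nat_lit 0) (nat_lit 1223380827) (nat_lit 1292) (nat_lit 1474294374) (nat_lit 538) (nat_lit 5) (nat_lit 538) (nat_lit 3) (nat_lit 555) (nat_lit 3) (nat_lit 407) (nat_lit 407)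 (nat_lit 326))) (XT.nd (nat_lit 78) (nat_lit 1368) (nat_lit 0) (XT.lf (nat_lit 0) (nat_lit 6198113760) (nat_lit 1292) (nat_lit 1619562699) (nat_lit 1368) (nat_lit 77219003) (nat_lit 538) (nat_lit 5) (nat_lit 555) (nat_lit 3) (nat_lit 556) (nat_lit 5) (nat_lit 408) (nat_lit 407) (nat_lit 325)) (XT.nd (nat_lit 78) (nat_lit 1368) (nat_lit 0) (XT.lf (nat_lit 76) (nat_lit 2227510662) (nat_lit 0) (nat_lit 5299135468) (nat_lit 1368) (nat_lit 422145163) (nat_lit 539) (nat_lit 5) (nat_lit 538) (nat_lit 5) (nat_lit 556) (nat_lit 5) (nat_lit 409) (nat_lit 407) (nat_lit 324)) (XT.lf (nat_lit 0) (nat_lit 844898334) (nat_lit 1368) (nat_lit 1853413452) (nat_lit 1444) (nat_lit 5305783888) (nat_lit 520) (nat_lit 5) (nat_lit 538) (nat_lit 5) (nat_lit 539) (nat_lit 5) (nat_lit 410) (nat_lit 407) (nat_lit 323))))) (XT.nd (nat_lit 234) (nat_lit 1292) (nat_lit 0) (XT.nd (nat_lit 78) (nat_lit 0) (nat_lit 76) (XT.lf (nat_lit 76) (nat_lit 2099320494)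 (nat_lit 0) (nat_lit 14071672) (nat_lit 1444) (nat_lit 5947435897) (nat_lit 521) (nat_lit 5) (nat_lit 520) (nat_lit 5) (nat_lit 539) (nat_lit 5) (nat_lit 411) (nat_lit 407) (nat_lit 322)) (XT.nd (nat_lit 78) (nat_lit 0) (nat_lit 0) (XT.lf (nat_lit 0) (nat_lit 3406193547) (nat_lit 1368) (nat_lit 1997828084) (nat_lit 1444) (nat_lit 2714707428) (nat_lit 521) (nat_lit 5) (nat_lit 539) (nat_lit 5) (nat_lit 540) (nat_lit 5) (nat_lit 412) (nat_lit 407) (nat_lit 321)) (XT.lf (nat_lit 76) (nat_lit 2054479680) (nat_lit 0) (nat_lit 2653149454) (nat_lit 1444) (nat_lit 3470515841) (nat_lit 522) (nat_lit 5) (nat_lit 521) (nat_lit 5) (nat_lit 540) (nat_lit 5) (nat_lit 413) (nat_lit 407) (nat_lit 320)))) (XT.nd (nat_lit 78) (nat_lit 1444) (nat_lit 0) (XT.lf (nat_lit 0) (nat_lit 6019497538) (nat_lit 1368) (nat_lit 2042727285) (nat_lit 1444) (nat_lit 176848523) (nat_lit 522) (nat_lit 5) (nat_lit 540) (nat_lit 5) (nat_lit 541) (nat_lit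 5) (nat_lit 414) (nat_lit 407) (nat_lit 319)) (XT.nd (nat_lit 78) (nat_lit 1444) (nat_lit 0) (XT.lf (nat_lit 76) (nat_lit 2112235406) (nat_lit 0) (nat_lit 5247159474) (nat_lit 1444) (nat_lit 941801552) (nat_lit 523) (nat_lit 5) (nat_lit 522) (nat_lit 5) (nat_lit 541) (nat_lit 5) (nat_lit 415) (nat_lit 407) (nat_lit 318)) (XT.lf (nat_lit 0) (nat_lit 341352374) (nat_lit 1444) (nat_lit 2006748114) (nat_lit 1520) (nat_lit 6016734749) (nat_lit 503) (nat_lit 5) (nat_lit 522) (nat_lit 5) (nat_lit 523) (nat_lit 5) (nat_lit 416) (nat_lit 407) (nat_lit 317))))))) (XT.nd (nat_lit 858) (nat_lit 7600) (nat_lit 0) (XT.nd (nat_lit 390) (nat_lit 1368) (nat_lit 0) (XT.nd (nat_lit 156) (nat_lit 0) (nat_lit 0) (XT.nd (nat_lit 78) (nat_lit 0) (nat_lit 0) (XT.lf (nat_lit 0) (nat_lit 1627779918) (nat_lit 1444) (nat_lit 6169155583) (nat_lit 1520) (nat_lit 632893672) (nat_lit 504) (nat_lit 5) (nat_lit 523) (nat_lit 5) (nat_lit 524) (nat_lit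 5) (nat_lit 417) (nat_lit 407) (nat_lit 316)) (XT.lf (nat_lit 0) (nat_lit 2940899556) (nat_lit 1444) (nat_lit 1889032037) (nat_lit 1520) (nat_lit 3666183192) (nat_lit 504) (nat_lit 5) (nat_lit 523) (nat_lit 5) (nat_lit 524) (nat_lit 5) (nat_lit 418) (nat_lit 407) (nat_lit 315))) (XT.nd (nat_lit 78) (nat_lit 0) (nat_lit 76) (XT.lf (nat_lit 76) (nat_lit 2491542985) (nat_lit 0) (nat_lit 1777324853) (nat_lit 1520) (nat_lit 4295097397) (nat_lit 505) (nat_lit 5) (nat_lit 504) (nat_lit 5) (nat_lit 524) (nat_lit 5) (nat_lit 419) (nat_lit 407) (nat_lit 314)) (XT.nd (nat_lit 78) (nat_lit 0) (nat_lit 0) (XT.lf (nat_lit 0) (nat_lit 5617729084) (nat_lit 1444) (nat_lit 1674669694) (nat_lit 1520) (nat_lit 1340897881) (nat_lit 505) (nat_lit 5) (nat_lit 524) (nat_lit 5) (nat_lit 525) (nat_lit 5) (nat_lit 420) (nat_lit 407) (nat_lit 313)) (XT.lf (nat_lit 76) (nat_lit 2818262862) (nat_lit 0) (nat_lit 4178801403) (nat_lit 1520) (nat_lit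 1706890941) (nat_lit 506) (nat_lit 5) (nat_lit 505) (nat_lit 5) (nat_lit 525) (nat_lit 5) (nat_lit 421) (nat_lit 407) (nat_lit 312))))) (XT.nd (nat_lit 234) (nat_lit 0) (nat_lit 76) (XT.nd (nat_lit 78) (nat_lit 1444) (nat_lit 0) (XT.lf (nat_lit 76) (nat_lit 7405906149) (nat_lit 0) (nat_lit 983151361) (nat_lit 1520) (nat_lit 387278212) (nat_lit 506) (nat_lit 5) (nat_lit 505) (nat_lit 5) (nat_lit 525) (nat_lit 5) (nat_lit 422) (nat_lit 407) (nat_lit 311)) (XT.nd (nat_lit 78) (nat_lit 0) (nat_lit 0) (XT.lf (nat_lit 0) (nat_lit 956457960) (nat_lit 1520) (nat_lit 5611420851) (nat_lit 1596) (nat_lit 2281964268) (nat_lit 486) (nat_lit 5) (nat_lit 506) (nat_lit 5) (nat_lit 507) (nat_lit 5) (nat_lit 423) (nat_lit 407) (nat_lit 310)) (XT.lf (nat_lit 0) (nat_lit 2312264358) (nat_lit 1520) (nat_lit 994048400) (nat_lit 1596) (nat_lit 5618658641) (nat_lit 486) (nat_lit 5) (nat_lit 506) (nat_lit 5) (nat_lit 507) (nat_lit 5) (nat_lit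 424) (nat_lit 407) (nat_lit 309)))) (XT.nd (nat_lit 78) (nat_lit 0) (nat_lit 0) (XT.lf (nat_lit 0) (nat_lit 3694959316) (nat_lit 1520) (nat_lit 5255093813) (nat_lit 1596) (nat_lit 51563152) (nat_lit 487) (nat_lit 5) (nat_lit 507) (nat_lit 5) (nat_lit 508) (nat_lit 5) (nat_lit 425) (nat_lit 407) (nat_lit 308)) (XT.nd (nat_lit 78) (nat_lit 0) (nat_lit 0) (XT.lf (nat_lit 0) (nat_lit 5109440947) (nat_lit 1520) (nat_lit 524590578) (nat_lit 1596) (nat_lit 3445689141) (nat_lit 487) (nat_lit 5) (nat_lit 507) (nat_lit 5) (nat_lit 508) (nat_lit 5) (nat_lit 426) (nat_lit 407) (nat_lit 307)) (XT.lf (nat_lit 76) (nat_lit 4339426270) (nat_lit 0) (nat_lit 2216962236) (nat_lit 1596) (nat_lit 2602924186) (nat_lit 488) (nat_lit 5) (nat_lit 487) (nat_lit 5) (nat_lit 508) (nat_lit 5) (nat_lit 427) (nat_lit 407) (nat_lit 306)))))) (XT.nd (nat_lit 390) (nat_lit 4636) (nat_lit 0) (XT.nd (nat_lit 156) (nat_lit 1520) (nat_lit 0) (XT.nd (nat_lit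 78) (nat_lit 1596) (nat_lit 0) (XT.lf (nat_lit 76) (nat_lit 41281296) (nat_lit 0) (nat_lit 7979434559) (nat_lit 1596) (nat_lit 1220020788) (nat_lit 489) (nat_lit 5) (nat_lit 488) (nat_lit 5) (nat_lit 509) (nat_lit 5) (nat_lit 428) (nat_lit 407) (nat_lit 305)) (XT.lf (nat_lit 0) (nat_lit 211856820) (nat_lit 1596) (nat_lit 4292876383) (nat_lit 1672) (nat_lit 4818563379) (nat_lit 467) (nat_lit 5) (nat_lit 488) (nat_lit 5) (nat_lit 489) (nat_lit 5) (nat_lit 429) (nat_lit 407) (nat_lit 304))) (XT.nd (nat_lit 78) (nat_lit 1520) (nat_lit 0) (XT.lf (nat_lit 76) (nat_lit 694621296) (nat_lit 0) (nat_lit 942974208) (nat_lit 1672) (nat_lit 7770128126) (nat_lit 468) (nat_lit 5) (nat_lit 467) (nat_lit 5) (nat_lit 489) (nat_lit 5) (nat_lit 430) (nat_lit 407) (nat_lit 303)) (XT.nd (nat_lit 78) (nat_lit 1596) (nat_lit 0) (XT.lf (nat_lit 0) (nat_lit 3115708899) (nat_lit 1596) (nat_lit 3689472721) (nat_lit 76) (nat_lit 2688188623) (nat_lit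 468) (nat_lit 5) (nat_lit 489) (nat_lit 5) (nat_lit 469) (nat_lit 5) (nat_lit 431) (nat_lit 407) (nat_lit 302)) (XT.lf (nat_lit 0) (nat_lit 1428876080) (nat_lit 1596) (nat_lit 3187870070) (nat_lit 1672) (nat_lit 4964124469) (nat_lit 447) (nat_lit 5) (nat_lit 468) (nat_lit 5) (nat_lit 469) (nat_lit 5) (nat_lit 432) (nat_lit 407) (nat_lit 301))))) (XT.nd (nat_lit 234) (nat_lit 2964) (nat_lit 0) (XT.nd (nat_lit 78) (nat_lit 1672) (nat_lit 0) (XT.lf (nat_lit 0) (nat_lit 6154164807) (nat_lit 1672) (nat_lit 2992041456) (nat_lit 76) (nat_lit 523795430) (nat_lit 447) (nat_lit 5) (nat_lit 469) (nat_lit 5) (nat_lit 448) (nat_lit 5) (nat_lit 433) (nat_lit 407) (nat_lit 300)) (XT.nd (nat_lit 78) (nat_lit 0) (nat_lit 0) (XT.lf (nat_lit 0) (nat_lit 2261425267) (nat_lit 1672) (nat_lit 5475309251) (nat_lit 1748) (nat_lit 2023900565) (nat_lit 425) (nat_lit 5) (nat_lit 447) (nat_lit 5) (nat_lit 448) (nat_lit 5) (nat_lit 434) (nat_lit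 407) (nat_lit 299)) (XT.lf (nat_lit 0) (nat_lit 7642406491) (nat_lit 1672) (nat_lit 1707537441) (nat_lit 1748) (nat_lit 503165041) (nat_lit 425) (nat_lit 5) (nat_lit 447) (nat_lit 5) (nat_lit 448) (nat_lit 5) (nat_lit 435) (nat_lit 407) (nat_lit 298)))) (XT.nd (nat_lit 78) (nat_lit 1140) (nat_lit 0) (XT.lf (nat_lit 0) (nat_lit 1048267565) (nat_lit 1824) (nat_lit 6760663700) (nat_lit 76) (nat_lit 2138091755) (nat_lit 401) (nat_lit 5) (nat_lit 425) (nat_lit 5) (nat_lit 402) (nat_lit 5) (nat_lit 436) (nat_lit 407) (nat_lit 297)) (XT.nd (nat_lit 78) (nat_lit 1140) (nat_lit 0) (XT.lf (nat_lit 0) (nat_lit 2629727340) (nat_lit 1824) (nat_lit 1354285841) (nat_lit 76) (nat_lit 6058628090) (nat_lit 401) (nat_lit 5) (nat_lit 425) (nat_lit 5) (nat_lit 402) (nat_lit 5) (nat_lit 437) (nat_lit 407) (nat_lit 296)) (XT.lf (nat_lit 0) (nat_lit 4197269929) (nat_lit 1140) (nat_lit 52688213) (nat_lit 1216) (nat_lit 5890077925) (nat_lit 386)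 (nat_lit 5) (nat_lit 401) (nat_lit 5) (nat_lit 402) (nat_lit 5) (nat_lit 438) (nat_lit 407) (nat_lit 295))))))))
noncomputable def xc162 : XT := (XT.nd (nat_lit 1716) (nat_lit 7296) (nat_lit 0) (XT.nd (nat_lit 858) (nat_lit 4332) (nat_lit 0) (XT.nd (nat_lit 390) (nat_lit 2508) (nat_lit 0) (XT.nd (nat_lit 156) (nat_lit 1748) (nat_lit 0) (XT.nd (nat_lit 78) (nat_lit 912) (nat_lit 0) (XT.lf (nat_lit 0) (nat_lit 5917616166) (nat_lit 1216) (nat_lit 405031223) (nat_lit 76) (nat_lit 3916437800) (nat_lit 386) (nat_lit 5) (nat_lit 402) (nat_lit 5) (nat_lit 387) (nat_lit 5) (nat_lit 439) (nat_lit 407) (nat_lit 294)) (XT.lf (nat_lit 0) (nat_lit 5294612617) (nat_lit 912) (nat_lit 2339309671) (nat_lit 988) (nat_lit 2705893852) (nat_lit 374) (nat_lit 5) (nat_lit 386) (nat_lit 5) (nat_lit 387) (nat_lit 5) (nat_lit 440) (nat_lit 407) (nat_lit 293))) (XT.nd (nat_lit 78) (nat_lit 912) (nat_lit 0) (XT.lf (nat_lit 0) (nat_lit 650334889)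 (nat_lit 836) (nat_lit 8733213297) (nat_lit 912) (nat_lit 1059040264) (nat_lit 363) (nat_lit 5) (nat_lit 374) (nat_lit 5) (nat_lit 375) (nat_lit 5) (nat_lit 441) (nat_lit 407) (nat_lit 292)) (XT.nd (nat_lit 78) (nat_lit 836) (nat_lit 0) (XT.lf (nat_lit 0) (nat_lit 643151905) (nat_lit 912) (nat_lit 4056669296) (nat_lit 76) (nat_lit 5846909901) (nat_lit 362) (nat_lit 5) (nat_lit 374) (nat_lit 5) (nat_lit 363) (nat_lit 5) (nat_lit 442) (nat_lit 407) (nat_lit 291)) (XT.lf (nat_lit 0) (nat_lit 1792120372) (nat_lit 836) (nat_lit 566079478) (nat_lit 912) (nat_lit 8294763134) (nat_lit 351) (nat_lit 5) (nat_lit 362) (nat_lit 5) (nat_lit 363) (nat_lit 5) (nat_lit 443) (nat_lit 407) (nat_lit 290))))) (XT.nd (nat_lit 234) (nat_lit 1672) (nat_lit 0) (XT.nd (nat_lit 78) (nat_lit 836) (nat_lit 0) (XT.lf (nat_lit 0) (nat_lit 4140248588) (nat_lit 912) (nat_lit 2990036718) (nat_lit 76) (nat_lit 3630386311) (nat_lit 351) (nat_lit 5) (nat_lit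 363) (nat_lit 5) (nat_lit 352) (nat_lit 5) (nat_lit 444) (nat_lit 407) (nat_lit 289)) (XT.nd (nat_lit 78) (nat_lit 0) (nat_lit 0) (XT.lf (nat_lit 0) (nat_lit 3016094986) (nat_lit 836) (nat_lit 2947132278) (nat_lit 912) (nat_lit 4907207370) (nat_lit 340) (nat_lit 5) (nat_lit 351) (nat_lit 5) (nat_lit 352) (nat_lit 5) (nat_lit 445) (nat_lit 407) (nat_lit 288)) (XT.lf (nat_lit 0) (nat_lit 7833627464) (nat_lit 912) (nat_lit 1825955121) (nat_lit 76) (nat_lit 1322596959) (nat_lit 340) (nat_lit 5) (nat_lit 352) (nat_lit 5) (nat_lit 341) (nat_lit 5) (nat_lit 446) (nat_lit 407) (nat_lit 287)))) (XT.nd (nat_lit 78) (nat_lit 836) (nat_lit 0) (XT.lf (nat_lit 0) (nat_lit 4342647579) (nat_lit 836) (nat_lit 5429046055) (nat_lit 912) (nat_lit 1323866318) (nat_lit 329) (nat_lit 5) (nat_lit 340) (nat_lit 5) (nat_lit 341) (nat_lit 5) (nat_lit 447) (nat_lit 407) (nat_lit 286)) (XT.nd (nat_lit 78) (nat_lit 760) (nat_lit 0) (XT.lf (nat_lit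 0) (nat_lit 525253522) (nat_lit 912) (nat_lit 573064745) (nat_lit 76) (nat_lit 10112925715) (nat_lit 328) (nat_lit 5) (nat_lit 340) (nat_lit 5) (nat_lit 329) (nat_lit 5) (nat_lit 448) (nat_lit 407) (nat_lit 285)) (XT.lf (nat_lit 0) (nat_lit 2436017979) (nat_lit 836) (nat_lit 5570651916) (nat_lit 76) (nat_lit 3321554433) (nat_lit 318) (nat_lit 5) (nat_lit 329) (nat_lit 5) (nat_lit 319) (nat_lit 5) (nat_lit 449) (nat_lit 407) (nat_lit 284)))))) (XT.nd (nat_lit 390) (nat_lit 2052) (nat_lit 0) (XT.nd (nat_lit 156) (nat_lit 1520) (nat_lit 0) (XT.nd (nat_lit 78) (nat_lit 0) (nat_lit 0) (XT.lf (nat_lit 0) (nat_lit 760015665) (nat_lit 760) (nat_lit 3624270444) (nat_lit 836) (nat_lit 7063277723) (nat_lit 308) (nat_lit 5) (nat_lit 318) (nat_lit 5) (nat_lit 319) (nat_lit 5) (nat_lit 450) (nat_lit 407) (nat_lit 283)) (XT.lf (nat_lit 0) (nat_lit 6398057259) (nat_lit 836) (nat_lit 4299461872) (nat_lit 76) (nat_lit 871245457) (nat_lit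 308) (nat_lit 5) (nat_lit 319) (nat_lit 5) (nat_lit 309) (nat_lit 5) (nat_lit 451) (nat_lit 407) (nat_lit 282))) (XT.nd (nat_lit 78) (nat_lit 836) (nat_lit 0) (XT.lf (nat_lit 0) (nat_lit 2203649610) (nat_lit 684) (nat_lit 6270505469) (nat_lit 760) (nat_lit 3217798367) (nat_lit 299) (nat_lit 5) (nat_lit 308) (nat_lit 5) (nat_lit 309) (nat_lit 5) (nat_lit 452) (nat_lit 407) (nat_lit 281)) (XT.nd (nat_lit 78) (nat_lit 836) (nat_lit 0) (XT.lf (nat_lit 0) (nat_lit 8877583680) (nat_lit 684) (nat_lit 1726989768) (nat_lit 760) (nat_lit 1212781675) (nat_lit 299) (nat_lit 5) (nat_lit 308) (nat_lit 5) (nat_lit 309) (nat_lit 5) (nat_lit 453) (nat_lit 407) (nat_lit 280)) (XT.lf (nat_lit 0) (nat_lit 849089723) (nat_lit 836) (nat_lit 8197722128) (nat_lit 76) (nat_lit 2897796306) (nat_lit 288) (nat_lit 5) (nat_lit 299) (nat_lit 5) (nat_lit 289) (nat_lit 5) (nat_lit 454) (nat_lit 407) (nat_lit 279))))) (XT.nd (nat_lit 234) (nat_lit 684)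 (nat_lit 0) (XT.nd (nat_lit 78) (nat_lit 1368) (nat_lit 0) (XT.lf (nat_lit 0) (nat_lit 2951610269) (nat_lit 836) (nat_lit 1504069584) (nat_lit 76) (nat_lit 7618257775) (nat_lit 288) (nat_lit 5) (nat_lit 299) (nat_lit 5) (nat_lit 289) (nat_lit 5) (nat_lit 455) (nat_lit 407) (nat_lit 278)) (XT.nd (nat_lit 78) (nat_lit 684) (nat_lit 0) (XT.lf (nat_lit 0) (nat_lit 5117432752) (nat_lit 760) (nat_lit 6830428682) (nat_lit 76) (nat_lit 257571854) (nat_lit 279) (nat_lit 5) (nat_lit 289) (nat_lit 5) (nat_lit 280) (nat_lit 5) (nat_lit 456) (nat_lit 407) (nat_lit 277)) (XT.lf (nat_lit 0) (nat_lit 26036759) (nat_lit 684) (nat_lit 7325196464) (nat_lit 760) (nat_lit 4987836948) (nat_lit 270) (nat_lit 5) (nat_lit 279) (nat_lit 5) (nat_lit 280) (nat_lit 5) (nat_lit 457) (nat_lit 407) (nat_lit 276)))) (XT.nd (nat_lit 78) (nat_lit 684) (nat_lit 0) (XT.lf (nat_lit 0) (nat_lit 7094912979) (nat_lit 684) (nat_lit 2565642418) (nat_lit 760)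 (nat_lit 2814211930) (nat_lit 270) (nat_lit 5) (nat_lit 279) (nat_lit 5) (nat_lit 280) (nat_lit 5) (nat_lit 458) (nat_lit 407) (nat_lit 275)) (XT.nd (nat_lit 78) (nat_lit 76) (nat_lit 0) (XT.lf (nat_lit 0) (nat_lit 1681933808) (nat_lit 608) (nat_lit 10345201910) (nat_lit 684) (nat_lit 585825638) (nat_lit 262) (nat_lit 5) (nat_lit 270) (nat_lit 5) (nat_lit 271) (nat_lit 5) (nat_lit 459) (nat_lit 407) (nat_lit 274)) (XT.lf (nat_lit 0) (nat_lit 1703698943) (nat_lit 684) (nat_lit 3840834374) (nat_lit 76) (nat_lit 7208397113) (nat_lit 261) (nat_lit 5) (nat_lit 270) (nat_lit 5) (nat_lit 262) (nat_lit 5) (nat_lit 460) (nat_lit 407) (nat_lit 273))))))) (XT.nd (nat_lit 858) (nat_lit 3572) (nat_lit 0) (XT.nd (nat_lit 390) (nat_lit 1748) (nat_lit 0) (XT.nd (nat_lit 156) (nat_lit 1292) (nat_lit 0) (XT.nd (nat_lit 78) (nat_lit 0) (nat_lit 0) (XT.lf (nat_lit 0) (nat_lit 3415076125) (nat_lit 684) (nat_lit 623926712) (nat_lit 760) (nat_lit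 8856466054) (nat_lit 252) (nat_lit 5) (nat_lit 261) (nat_lit 5) (nat_lit 262) (nat_lit 5) (nat_lit 461) (nat_lit 407) (nat_lit 272)) (XT.lf (nat_lit 0) (nat_lit 6461300231) (nat_lit 760) (nat_lit 2218035199) (nat_lit 76) (nat_lit 4360720972) (nat_lit 252) (nat_lit 5) (nat_lit 262) (nat_lit 5) (nat_lit 253) (nat_lit 5) (nat_lit 462) (nat_lit 407) (nat_lit 271))) (XT.nd (nat_lit 78) (nat_lit 684) (nat_lit 0) (XT.lf (nat_lit 0) (nat_lit 5237307774) (nat_lit 608) (nat_lit 3718956997) (nat_lit 684) (nat_lit 4230790423) (nat_lit 244) (nat_lit 5) (nat_lit 252) (nat_lit 5) (nat_lit 253) (nat_lit 5) (nat_lit 463) (nat_lit 407) (nat_lit 270)) (XT.nd (nat_lit 78) (nat_lit 684) (nat_lit 0) (XT.lf (nat_lit 0) (nat_lit 11511045933) (nat_lit 684) (nat_lit 490642496) (nat_lit 76) (nat_lit 1335111059) (nat_lit 244) (nat_lit 5) (nat_lit 253) (nat_lit 5) (nat_lit 245) (nat_lit 5) (nat_lit 464) (nat_lit 407) (nat_lit 269)) (XT.lf (nat_lit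 0) (nat_lit 677218370) (nat_lit 684) (nat_lit 6322421479) (nat_lit 76) (nat_lit 6488659825) (nat_lit 235) (nat_lit 5) (nat_lit 244) (nat_lit 5) (nat_lit 236) (nat_lit 5) (nat_lit 465) (nat_lit 407) (nat_lit 268))))) (XT.nd (nat_lit 234) (nat_lit 608) (nat_lit 0) (XT.nd (nat_lit 78) (nat_lit 608) (nat_lit 0) (XT.lf (nat_lit 0) (nat_lit 1328013204) (nat_lit 532) (nat_lit 1876314852) (nat_lit 608) (nat_lit 10438293590) (nat_lit 228) (nat_lit 5) (nat_lit 235) (nat_lit 5) (nat_lit 236) (nat_lit 5) (nat_lit 466) (nat_lit 407) (nat_lit 267)) (XT.nd (nat_lit 78) (nat_lit 608) (nat_lit 0) (XT.lf (nat_lit 0) (nat_lit 5833134511) (nat_lit 608) (nat_lit 4620895657) (nat_lit 76) (nat_lit 3344980378) (nat_lit 228) (nat_lit 5) (nat_lit 236) (nat_lit 5) (nat_lit 229) (nat_lit 5) (nat_lit 467) (nat_lit 407) (nat_lit 266)) (XT.lf (nat_lit 0) (nat_lit 3240247366) (nat_lit 608) (nat_lit 5294694080) (nat_lit 684) (nat_lit 5423180800) (nat_lit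 220) (nat_lit 5) (nat_lit 228) (nat_lit 5) (nat_lit 229) (nat_lit 5) (nat_lit 468) (nat_lit 407) (nat_lit 265)))) (XT.nd (nat_lit 78) (nat_lit 608) (nat_lit 0) (XT.lf (nat_lit 0) (nat_lit 11304844840) (nat_lit 608) (nat_lit 4058071) (nat_lit 684) (nat_lit 2811154342) (nat_lit 220) (nat_lit 5) (nat_lit 228) (nat_lit 5) (nat_lit 229) (nat_lit 5) (nat_lit 469) (nat_lit 407) (nat_lit 264)) (XT.nd (nat_lit 78) (nat_lit 76) (nat_lit 0) (XT.lf (nat_lit 0) (nat_lit 5263202238) (nat_lit 532) (nat_lit 8931664664) (nat_lit 608) (nat_lit 89236966) (nat_lit 213) (nat_lit 5) (nat_lit 220) (nat_lit 5) (nat_lit 221) (nat_lit 5) (nat_lit 470) (nat_lit 407) (nat_lit 263)) (XT.lf (nat_lit 0) (nat_lit 2658317199) (nat_lit 608) (nat_lit 943687302) (nat_lit 76) (nat_lit 10848952415) (nat_lit 212) (nat_lit 5) (nat_lit 220) (nat_lit 5) (nat_lit 213) (nat_lit 5) (nat_lit 471) (nat_lit 407) (nat_lit 262)))))) (XT.nd (nat_lit 390) (nat_lit 1900)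 (nat_lit 0) (XT.nd (nat_lit 156) (nat_lit 608) (nat_lit 0) (XT.nd (nat_lit 78) (nat_lit 532) (nat_lit 0) (XT.lf (nat_lit 0) (nat_lit 5507363229) (nat_lit 608) (nat_lit 7257487345) (nat_lit 76) (nat_lit 1855333119) (nat_lit 205) (nat_lit 5) (nat_lit 213) (nat_lit 5) (nat_lit 206) (nat_lit 5) (nat_lit 472) (nat_lit 407) (nat_lit 261)) (XT.lf (nat_lit 0) (nat_lit 1028749570) (nat_lit 532) (nat_lit 7409307331) (nat_lit 608) (nat_lit 6354247885) (nat_lit 198) (nat_lit 5) (nat_lit 205) (nat_lit 5) (nat_lit 206) (nat_lit 5) (nat_lit 473) (nat_lit 407) (nat_lit 260))) (XT.nd (nat_lit 78) (nat_lit 608) (nat_lit 0) (XT.lf (nat_lit 0) (nat_lit 9563017165) (nat_lit 532) (nat_lit 1900943014) (nat_lit 608) (nat_lit 3503179264) (nat_lit 198) (nat_lit 5) (nat_lit 205) (nat_lit 5) (nat_lit 206) (nat_lit 5) (nat_lit 474) (nat_lit 407) (nat_lit 259)) (XT.nd (nat_lit 78) (nat_lit 76) (nat_lit 0) (XT.lf (nat_lit 0) (nat_lit 3123354411) (nat_lit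 532) (nat_lit 11459549351) (nat_lit 608) (nat_lit 561919582) (nat_lit 191) (nat_lit 5) (nat_lit 198) (nat_lit 5) (nat_lit 199) (nat_lit 5) (nat_lit 475) (nat_lit 407) (nat_lit 258)) (XT.lf (nat_lit 0) (nat_lit 2443437705) (nat_lit 608) (nat_lit 3475386494) (nat_lit 76) (nat_lit 9406178010) (nat_lit 190) (nat_lit 5) (nat_lit 198) (nat_lit 5) (nat_lit 191) (nat_lit 5) (nat_lit 476) (nat_lit 407) (nat_lit 257))))) (XT.nd (nat_lit 234) (nat_lit 988) (nat_lit 0) (XT.nd (nat_lit 78) (nat_lit 456) (nat_lit 0) (XT.lf (nat_lit 0) (nat_lit 5291584172) (nat_lit 456) (nat_lit 232545305) (nat_lit 532) (nat_lit 9984128683) (nat_lit 184) (nat_lit 5) (nat_lit 190) (nat_lit 5) (nat_lit 191) (nat_lit 5) (nat_lit 477) (nat_lit 407) (nat_lit 256)) (XT.nd (nat_lit 78) (nat_lit 456) (nat_lit 0) (XT.lf (nat_lit 0) (nat_lit 8714546354) (nat_lit 532) (nat_lit 1465825371) (nat_lit 76) (nat_lit 5513848046) (nat_lit 184) (nat_lit 5) (nat_lit 191)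 (nat_lit 5) (nat_lit 185) (nat_lit 5) (nat_lit 478) (nat_lit 407) (nat_lit 255)) (XT.lf (nat_lit 0) (nat_lit 7541909247) (nat_lit 456) (nat_lit 4466082679) (nat_lit 532) (nat_lit 3875126995) (nat_lit 178) (nat_lit 5) (nat_lit 184) (nat_lit 5) (nat_lit 185) (nat_lit 5) (nat_lit 479) (nat_lit 407) (nat_lit 254)))) (XT.nd (nat_lit 78) (nat_lit 532) (nat_lit 0) (XT.lf (nat_lit 0) (nat_lit 658188916) (nat_lit 456) (nat_lit 14720945740) (nat_lit 532) (nat_lit 696427492) (nat_lit 172) (nat_lit 5) (nat_lit 178) (nat_lit 5) (nat_lit 179) (nat_lit 5) (nat_lit 480) (nat_lit 407) (nat_lit 253)) (XT.nd (nat_lit 78) (nat_lit 456) (nat_lit 0) (XT.lf (nat_lit 0) (nat_lit 2587228048) (nat_lit 532) (nat_lit 6382217691) (nat_lit 76) (nat_lit 7300585045) (nat_lit 171) (nat_lit 5) (nat_lit 178) (nat_lit 5) (nat_lit 172) (nat_lit 5) (nat_lit 481) (nat_lit 407) (nat_lit 252)) (XT.lf (nat_lit 0) (nat_lit 2851079131) (nat_lit 456) (nat_lit 3083740821)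 (nat_lit 532) (nat_lit 10533327511) (nat_lit 165) (nat_lit 5) (nat_lit 171) (nat_lit 5) (nat_lit 172) (nat_lit 5) (nat_lit 482) (nat_lit 407) (nat_lit 251))))))))
noncomputable def xc163 : XT := (XT.nd (nat_lit 53508) (nat_lit 0) (nat_lit 27740) (XT.nd (nat_lit 858) (nat_lit 2280) (nat_lit 0) (XT.nd (nat_lit 390) (nat_lit 1596) (nat_lit 0) (XT.nd (nat_lit 156) (nat_lit 532) (nat_lit 0) (XT.nd (nat_lit 78) (nat_lit 380) (nat_lit 0) (XT.lf (nat_lit 0) (nat_lit 9400587109) (nat_lit 532) (nat_lit 4348486754) (nat_lit 76) (nat_lit 2920130603) (nat_lit 165) (nat_lit 5) (nat_lit 172) (nat_lit 5) (nat_lit 166) (nat_lit 5) (nat_lit 483) (nat_lit 407) (nat_lit 250)) (XT.lf (nat_lit 0) (nat_lit 5137292163) (nat_lit 380) (nat_lit 7841522176) (nat_lit 456) (nat_lit 3894607781) (nat_lit 160) (nat_lit 5) (nat_lit 165) (nat_lit 5) (nat_lit 166) (nat_lit 5) (nat_lit 484) (nat_lit 407) (nat_lit 249))) (XT.nd (nat_lit 78) (nat_lit 532)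 (nat_lit 0) (XT.lf (nat_lit 0) (nat_lit 14856702393) (nat_lit 380) (nat_lit 1790563149) (nat_lit 456) (nat_lit 434087760) (nat_lit 160) (nat_lit 5) (nat_lit 165) (nat_lit 5) (nat_lit 166) (nat_lit 5) (nat_lit 485) (nat_lit 407) (nat_lit 248)) (XT.nd (nat_lit 78) (nat_lit 0) (nat_lit 0) (XT.lf (nat_lit 0) (nat_lit 3122493580) (nat_lit 532) (nat_lit 9780161761) (nat_lit 76) (nat_lit 4389039042) (nat_lit 153) (nat_lit 5) (nat_lit 160) (nat_lit 5) (nat_lit 154) (nat_lit 5) (nat_lit 486) (nat_lit 407) (nat_lit 247)) (XT.lf (nat_lit 0) (nat_lit 6760978004) (nat_lit 532) (nat_lit 63135267) (nat_lit 76) (nat_lit 10681742174) (nat_lit 153) (nat_lit 5) (nat_lit 160) (nat_lit 5) (nat_lit 154) (nat_lit 5) (nat_lit 487) (nat_lit 407) (nat_lit 246))))) (XT.nd (nat_lit 234) (nat_lit 760) (nat_lit 0) (XT.nd (nat_lit 78) (nat_lit 456) (nat_lit 0) (XT.lf (nat_lit 0) (nat_lit 9964252506) (nat_lit 380) (nat_lit 562569225) (nat_lit 456)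 (nat_lit 7196388389) (nat_lit 148) (nat_lit 5) (nat_lit 153) (nat_lit 5) (nat_lit 154) (nat_lit 5) (nat_lit 488) (nat_lit 407) (nat_lit 245)) (XT.nd (nat_lit 78) (nat_lit 76) (nat_lit 0) (XT.lf (nat_lit 0) (nat_lit 2224762907) (nat_lit 380) (nat_lit 12185874154) (nat_lit 456) (nat_lit 3533423870) (nat_lit 143) (nat_lit 5) (nat_lit 148) (nat_lit 5) (nat_lit 149) (nat_lit 5) (nat_lit 489) (nat_lit 407) (nat_lit 244)) (XT.lf (nat_lit 0) (nat_lit 246280112) (nat_lit 456) (nat_lit 5675118256) (nat_lit 76) (nat_lit 12246983315) (nat_lit 142) (nat_lit 5) (nat_lit 148) (nat_lit 5) (nat_lit 143) (nat_lit 5) (nat_lit 490) (nat_lit 407) (nat_lit 243)))) (XT.nd (nat_lit 78) (nat_lit 380) (nat_lit 0) (XT.lf (nat_lit 0) (nat_lit 4077687813) (nat_lit 456) (nat_lit 13807398398) (nat_lit 76) (nat_lit 511169090) (nat_lit 137) (nat_lit 5) (nat_lit 143) (nat_lit 5) (nat_lit 138) (nat_lit 5) (nat_lit 491) (nat_lit 407) (nat_lit 242)) (XT.nd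 (nat_lit 78) (nat_lit 380) (nat_lit 0) (XT.lf (nat_lit 0) (nat_lit 8053540593) (nat_lit 456) (nat_lit 3546908988) (nat_lit 76) (nat_lit 7026882450) (nat_lit 137) (nat_lit 5) (nat_lit 143) (nat_lit 5) (nat_lit 138) (nat_lit 5) (nat_lit 492) (nat_lit 407) (nat_lit 241)) (XT.lf (nat_lit 0) (nat_lit 6996276279) (nat_lit 380) (nat_lit 5148516586) (nat_lit 456) (nat_lit 6717521719) (nat_lit 132) (nat_lit 5) (nat_lit 137) (nat_lit 5) (nat_lit 138) (nat_lit 5) (nat_lit 493) (nat_lit 407) (nat_lit 240)))))) (XT.nd (nat_lit 390) (nat_lit 1140) (nat_lit 0) (XT.nd (nat_lit 156) (nat_lit 684) (nat_lit 0) (XT.nd (nat_lit 78) (nat_lit 456) (nat_lit 0) (XT.lf (nat_lit 0) (nat_lit 16341652190) (nat_lit 456) (nat_lit 1326911881) (nat_lit 76) (nat_lit 1432958976) (nat_lit 132) (nat_lit 5) (nat_lit 138) (nat_lit 5) (nat_lit 133) (nat_lit 5) (nat_lit 494) (nat_lit 407) (nat_lit 239)) (XT.lf (nat_lit 0) (nat_lit 1347237585) (nat_lit 456)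 (nat_lit 9853220105) (nat_lit 76) (nat_lit 8143152965) (nat_lit 126) (nat_lit 5) (nat_lit 132) (nat_lit 5) (nat_lit 127) (nat_lit 5) (nat_lit 495) (nat_lit 407) (nat_lit 238))) (XT.nd (nat_lit 78) (nat_lit 304) (nat_lit 0) (XT.lf (nat_lit 0) (nat_lit 931454805) (nat_lit 380) (nat_lit 4573861076) (nat_lit 456) (nat_lit 14084745423) (nat_lit 121) (nat_lit 5) (nat_lit 126) (nat_lit 5) (nat_lit 127) (nat_lit 5) (nat_lit 496) (nat_lit 407) (nat_lit 237)) (XT.nd (nat_lit 78) (nat_lit 304) (nat_lit 0) (XT.lf (nat_lit 0) (nat_lit 9818098504) (nat_lit 456) (nat_lit 7803508507) (nat_lit 76) (nat_lit 2218404855) (nat_lit 121) (nat_lit 5) (nat_lit 127) (nat_lit 5) (nat_lit 122) (nat_lit 5) (nat_lit 497) (nat_lit 407) (nat_lit 236)) (XT.lf (nat_lit 0) (nat_lit 3267380648) (nat_lit 304) (nat_lit 10992237444) (nat_lit 380) (nat_lit 5834495440) (nat_lit 117) (nat_lit 5) (nat_lit 121) (nat_lit 5) (nat_lit 122) (nat_lit 5) (nat_lit 498)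 (nat_lit 407) (nat_lit 235))))) (XT.nd (nat_lit 234) (nat_lit 684) (nat_lit 0) (XT.nd (nat_lit 78) (nat_lit 456) (nat_lit 0) (XT.lf (nat_lit 0) (nat_lit 14651684853) (nat_lit 304) (nat_lit 4181713157) (nat_lit 380) (nat_lit 1519032310) (nat_lit 117) (nat_lit 5) (nat_lit 121) (nat_lit 5) (nat_lit 122) (nat_lit 5) (nat_lit 499) (nat_lit 407) (nat_lit 234)) (XT.nd (nat_lit 78) (nat_lit 0) (nat_lit 0) (XT.lf (nat_lit 0) (nat_lit 2891345534) (nat_lit 456) (nat_lit 14943227013) (nat_lit 76) (nat_lit 2780039923) (nat_lit 111) (nat_lit 5) (nat_lit 117) (nat_lit 5) (nat_lit 112) (nat_lit 5) (nat_lit 500) (nat_lit 407) (nat_lit 233)) (XT.lf (nat_lit 0) (nat_lit 7427045601) (nat_lit 456) (nat_lit 3584731061) (nat_lit 76) (nat_lit 9868913283) (nat_lit 111) (nat_lit 5) (nat_lit 117) (nat_lit 5) (nat_lit 112) (nat_lit 5) (nat_lit 501) (nat_lit 407) (nat_lit 232)))) (XT.nd (nat_lit 78) (nat_lit 380) (nat_lit 0) (XT.lf (nat_lit 0) (nat_lit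 8093667675) (nat_lit 304) (nat_lit 4003747024) (nat_lit 380) (nat_lit 9053796729) (nat_lit 107) (nat_lit 5) (nat_lit 111) (nat_lit 5) (nat_lit 112) (nat_lit 5) (nat_lit 502) (nat_lit 407) (nat_lit 231)) (XT.nd (nat_lit 78) (nat_lit 380) (nat_lit 0) (XT.lf (nat_lit 0) (nat_lit 16897278012) (nat_lit 380) (nat_lit 1406480267) (nat_lit 76) (nat_lit 3122664853) (nat_lit 107) (nat_lit 5) (nat_lit 112) (nat_lit 5) (nat_lit 108) (nat_lit 5) (nat_lit 503) (nat_lit 407) (nat_lit 230)) (XT.lf (nat_lit 0) (nat_lit 172254013) (nat_lit 380) (nat_lit 11129939212) (nat_lit 76) (nat_lit 10403188497) (nat_lit 102) (nat_lit 5) (nat_lit 107) (nat_lit 5) (nat_lit 103) (nat_lit 5) (nat_lit 504) (nat_lit 407) (nat_lit 229))))))) (XT.nd (nat_lit 858) (nat_lit 2736) (nat_lit 0) (XT.nd (nat_lit 390) (nat_lit 1216) (nat_lit 0) (XT.nd (nat_lit 156) (nat_lit 0) (nat_lit 76) (XT.nd (nat_lit 78) (nat_lit 1444) (nat_lit 0) (XT.lf (nat_lit 0) (nat_lit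 1871347418) (nat_lit 0) (nat_lit 1871347418) (nat_lit 1292) (nat_lit 231321148) (nat_lit 538) (nat_lit 5) (nat_lit 538) (nat_lit 3) (nat_lit 555) (nat_lit 3) (nat_lit 408) (nat_lit 408) (nat_lit 324)) (XT.lf (nat_lit 0) (nat_lit 753754980) (nat_lit 1444) (nat_lit 383923826) (nat_lit 1444) (nat_lit 6865101897) (nat_lit 519) (nat_lit 3) (nat_lit 538) (nat_lit 3) (nat_lit 538) (nat_lit 5) (nat_lit 409) (nat_lit 408) (nat_lit 323))) (XT.nd (nat_lit 78) (nat_lit 0) (nat_lit 0) (XT.lf (nat_lit 0) (nat_lit 1989553912) (nat_lit 1368) (nat_lit 4527856220) (nat_lit 1444) (nat_lit 1541140716) (nat_lit 520) (nat_lit 5) (nat_lit 538) (nat_lit 5) (nat_lit 539) (nat_lit 5) (nat_lit 410) (nat_lit 408) (nat_lit 322)) (XT.nd (nat_lit 78) (nat_lit 0) (nat_lit 0) (XT.lf (nat_lit 0) (nat_lit 3228948005) (nat_lit 1368) (nat_lit 611016663) (nat_lit 1444) (nat_lit 4275906857) (nat_lit 520) (nat_lit 5) (nat_lit 538) (nat_lit 5) (nat_lit 539)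 (nat_lit 5) (nat_lit 411) (nat_lit 408) (nat_lit 321)) (XT.lf (nat_lit 76) (nat_lit 3412354429) (nat_lit 0) (nat_lit 1072295029) (nat_lit 1444) (nat_lit 3689871232) (nat_lit 521) (nat_lit 5) (nat_lit 520) (nat_lit 5) (nat_lit 539) (nat_lit 5) (nat_lit 412) (nat_lit 408) (nat_lit 320))))) (XT.nd (nat_lit 234) (nat_lit 1368) (nat_lit 0) (XT.nd (nat_lit 78) (nat_lit 0) (nat_lit 0) (XT.lf (nat_lit 0) (nat_lit 5750906230) (nat_lit 1368) (nat_lit 738333351) (nat_lit 1444) (nat_lit 1745406650) (nat_lit 521) (nat_lit 5) (nat_lit 539) (nat_lit 5) (nat_lit 540) (nat_lit 5) (nat_lit 413) (nat_lit 408) (nat_lit 319)) (XT.nd (nat_lit 78) (nat_lit 0) (nat_lit 0) (XT.lf (nat_lit 76) (nat_lit 3386471547) (nat_lit 0) (nat_lit 3655641379) (nat_lit 1444) (nat_lit 1253880841) (nat_lit 522) (nat_lit 5) (nat_lit 521) (nat_lit 5) (nat_lit 540) (nat_lit 5) (nat_lit 414) (nat_lit 408) (nat_lit 318)) (XT.lf (nat_lit 76) (nat_lit 7587073928) (nat_lit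 0) (nat_lit 748029961) (nat_lit 1444) (nat_lit 23956907) (nat_lit 522) (nat_lit 5) (nat_lit 521) (nat_lit 5) (nat_lit 540) (nat_lit 5) (nat_lit 415) (nat_lit 408) (nat_lit 317)))) (XT.nd (nat_lit 78) (nat_lit 0) (nat_lit 0) (XT.lf (nat_lit 0) (nat_lit 1223002164) (nat_lit 1444) (nat_lit 4969005218) (nat_lit 1520) (nat_lit 2231061764) (nat_lit 503) (nat_lit 5) (nat_lit 522) (nat_lit 5) (nat_lit 523) (nat_lit 5) (nat_lit 416) (nat_lit 408) (nat_lit 316)) (XT.nd (nat_lit 78) (nat_lit 0) (nat_lit 0) (XT.lf (nat_lit 0) (nat_lit 2476650808) (nat_lit 1444) (nat_lit 735610592) (nat_lit 1520) (nat_lit 5276462740) (nat_lit 503) (nat_lit 5) (nat_lit 522) (nat_lit 5) (nat_lit 523) (nat_lit 5) (nat_lit 417) (nat_lit 408) (nat_lit 315)) (XT.lf (nat_lit 76) (nat_lit 3612864745) (nat_lit 0) (nat_lit 138418014) (nat_lit 1520) (nat_lit 4804502117) (nat_lit 504) (nat_lit 5) (nat_lit 503) (nat_lit 5) (nat_lit 523) (nat_lit 5) (nat_lit 418)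 (nat_lit 408) (nat_lit 314)))))) (XT.nd (nat_lit 390) (nat_lit 1368) (nat_lit 0) (XT.nd (nat_lit 156) (nat_lit 1444) (nat_lit 0) (XT.nd (nat_lit 78) (nat_lit 0) (nat_lit 0) (XT.lf (nat_lit 0) (nat_lit 5048784745) (nat_lit 1444) (nat_lit 602776145) (nat_lit 1520) (nat_lit 2972689028) (nat_lit 504) (nat_lit 5) (nat_lit 523) (nat_lit 5) (nat_lit 524) (nat_lit 5) (nat_lit 419) (nat_lit 408) (nat_lit 313)) (XT.lf (nat_lit 76) (nat_lit 3856699611) (nat_lit 0) (nat_lit 2514974961) (nat_lit 1520) (nat_lit 2322431362) (nat_lit 505) (nat_lit 5) (nat_lit 504) (nat_lit 5) (nat_lit 524) (nat_lit 5) (nat_lit 420) (nat_lit 408) (nat_lit 312))) (XT.nd (nat_lit 78) (nat_lit 1520) (nat_lit 0) (XT.lf (nat_lit 0) (nat_lit 7703486465) (nat_lit 1444) (nat_lit 373826916) (nat_lit 1520) (nat_lit 688406627) (nat_lit 505) (nat_lit 5) (nat_lit 524) (nat_lit 5) (nat_lit 525) (nat_lit 5) (nat_lit 421) (nat_lit 408) (nat_lit 311)) (XT.nd (nat_lit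 78) (nat_lit 0) (nat_lit 0) (XT.lf (nat_lit 0) (nat_lit 238739188) (nat_lit 1520) (nat_lit 4639793558) (nat_lit 1596) (nat_lit 3959844509) (nat_lit 485) (nat_lit 5) (nat_lit 505) (nat_lit 5) (nat_lit 506) (nat_lit 5) (nat_lit 422) (nat_lit 408) (nat_lit 310)) (XT.lf (nat_lit 0) (nat_lit 1528719819) (nat_lit 1520) (nat_lit 69480546) (nat_lit 1596) (nat_lit 7314612255) (nat_lit 485) (nat_lit 5) (nat_lit 505) (nat_lit 5) (nat_lit 506) (nat_lit 5) (nat_lit 423) (nat_lit 408) (nat_lit 309))))) (XT.nd (nat_lit 234) (nat_lit 1444) (nat_lit 0) (XT.nd (nat_lit 78) (nat_lit 0) (nat_lit 0) (XT.lf (nat_lit 0) (nat_lit 2861365764) (nat_lit 1520) (nat_lit 4364356719) (nat_lit 1596) (nat_lit 1762686342) (nat_lit 486) (nat_lit 5) (nat_lit 506) (nat_lit 5) (nat_lit 507) (nat_lit 5) (nat_lit 424) (nat_lit 408) (nat_lit 308)) (XT.nd (nat_lit 78) (nat_lit 0) (nat_lit 0) (XT.lf (nat_lit 76) (nat_lit 322945879) (nat_lit 0) (nat_lit 3886463137)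 (nat_lit 1596) (nat_lit 4856342309) (nat_lit 487) (nat_lit 5) (nat_lit 486) (nat_lit 5) (nat_lit 507) (nat_lit 5) (nat_lit 425) (nat_lit 408) (nat_lit 307)) (XT.lf (nat_lit 76) (nat_lit 5145678241) (nat_lit 0) (nat_lit 443981264) (nat_lit 1596) (nat_lit 3554885323) (nat_lit 487) (nat_lit 5) (nat_lit 486) (nat_lit 5) (nat_lit 507) (nat_lit 5) (nat_lit 426) (nat_lit 408) (nat_lit 306)))) (XT.nd (nat_lit 78) (nat_lit 1520) (nat_lit 0) (XT.lf (nat_lit 76) (nat_lit 813043292) (nat_lit 0) (nat_lit 6186138214) (nat_lit 1596) (nat_lit 2225708265) (nat_lit 488) (nat_lit 5) (nat_lit 487) (nat_lit 5) (nat_lit 508) (nat_lit 5) (nat_lit 427) (nat_lit 408) (nat_lit 305)) (XT.nd (nat_lit 78) (nat_lit 1520) (nat_lit 0) (XT.lf (nat_lit 76) (nat_lit 5754878174) (nat_lit 0) (nat_lit 2688591062) (nat_lit 1596) (nat_lit 863249598) (nat_lit 488) (nat_lit 5) (nat_lit 487) (nat_lit 5) (nat_lit 508) (nat_lit 5) (nat_lit 428) (nat_lit 408) (nat_lit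 304)) (XT.lf (nat_lit 0) (nat_lit 511601537) (nat_lit 1596) (nat_lit 7993386857) (nat_lit 1672) (nat_lit 885295152) (nat_lit 467) (nat_lit 5) (nat_lit 488) (nat_lit 5) (nat_lit 489) (nat_lit 5) (nat_lit 429) (nat_lit 408) (nat_lit 303))))))))
noncomputable def xc164 : XT := (XT.nd (nat_lit 1638) (nat_lit 8588) (nat_lit 0) (XT.nd (nat_lit 780) (nat_lit 5168) (nat_lit 0) (XT.nd (nat_lit 390) (nat_lit 4636) (nat_lit 0) (XT.nd (nat_lit 156) (nat_lit 1520) (nat_lit 0) (XT.nd (nat_lit 78) (nat_lit 0) (nat_lit 0) (XT.lf (nat_lit 0) (nat_lit 1921684088) (nat_lit 1596) (nat_lit 3023853529) (nat_lit 1672) (nat_lit 4529490170) (nat_lit 467) (nat_lit 5) (nat_lit 488) (nat_lit 5) (nat_lit 489) (nat_lit 5) (nat_lit 430) (nat_lit 408) (nat_lit 302)) (XT.lf (nat_lit 76) (nat_lit 2054480417) (nat_lit 0) (nat_lit 1296753093) (nat_lit 1672) (nat_lit 6210416161) (nat_lit 468) (nat_lit 5) (nat_lit 467) (nat_lit 5) (nat_lit 489) (nat_lit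 5) (nat_lit 431) (nat_lit 408) (nat_lit 301))) (XT.nd (nat_lit 78) (nat_lit 1596) (nat_lit 0) (XT.lf (nat_lit 0) (nat_lit 4823818741) (nat_lit 1596) (nat_lit 2407997817) (nat_lit 76) (nat_lit 2417906442) (nat_lit 468) (nat_lit 5) (nat_lit 489) (nat_lit 5) (nat_lit 469) (nat_lit 5) (nat_lit 432) (nat_lit 408) (nat_lit 300)) (XT.nd (nat_lit 78) (nat_lit 0) (nat_lit 0) (XT.lf (nat_lit 0) (nat_lit 2803801748) (nat_lit 1596) (nat_lit 3527545872) (nat_lit 1672) (nat_lit 3408108086) (nat_lit 447) (nat_lit 5) (nat_lit 468) (nat_lit 5) (nat_lit 469) (nat_lit 5) (nat_lit 433) (nat_lit 408) (nat_lit 299)) (XT.lf (nat_lit 0) (nat_lit 7865949182) (nat_lit 1672) (nat_lit 1697792171) (nat_lit 76) (nat_lit 267310868) (nat_lit 447) (nat_lit 5) (nat_lit 469) (nat_lit 5) (nat_lit 448) (nat_lit 5) (nat_lit 434) (nat_lit 408) (nat_lit 298))))) (XT.nd (nat_lit 156) (nat_lit 2888) (nat_lit 0) (XT.nd (nat_lit 78) (nat_lit 76) (nat_lit 0) (XT.lf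 (nat_lit 0) (nat_lit 3651835400) (nat_lit 1672) (nat_lit 5805917697) (nat_lit 1748) (nat_lit 466204809) (nat_lit 425) (nat_lit 5) (nat_lit 447) (nat_lit 5) (nat_lit 448) (nat_lit 5) (nat_lit 435) (nat_lit 408) (nat_lit 297)) (XT.lf (nat_lit 0) (nat_lit 1039790417) (nat_lit 1748) (nat_lit 911687154) (nat_lit 76) (nat_lit 8067292180) (nat_lit 424) (nat_lit 5) (nat_lit 447) (nat_lit 5) (nat_lit 425) (nat_lit 5) (nat_lit 436) (nat_lit 408) (nat_lit 296))) (XT.nd (nat_lit 78) (nat_lit 1140) (nat_lit 0) (XT.lf (nat_lit 0) (nat_lit 2592586980) (nat_lit 1824) (nat_lit 5532514540) (nat_lit 76) (nat_lit 1989863219) (nat_lit 401) (nat_lit 5) (nat_lit 425) (nat_lit 5) (nat_lit 402) (nat_lit 5) (nat_lit 437) (nat_lit 408) (nat_lit 295)) (XT.nd (nat_lit 78) (nat_lit 1140) (nat_lit 0) (XT.lf (nat_lit 0) (nat_lit 4175806263) (nat_lit 1824) (nat_lit 44741721) (nat_lit 76) (nat_lit 5992555189) (nat_lit 401) (nat_lit 5) (nat_lit 425) (nat_lit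 5) (nat_lit 402) (nat_lit 5) (nat_lit 438) (nat_lit 408) (nat_lit 294)) (XT.lf (nat_lit 0) (nat_lit 5609051547) (nat_lit 1140) (nat_lit 198727321) (nat_lit 1216) (nat_lit 4505090475) (nat_lit 386) (nat_lit 5) (nat_lit 401) (nat_lit 5) (nat_lit 402) (nat_lit 5) (nat_lit 439) (nat_lit 408) (nat_lit 293)))))) (XT.nd (nat_lit 390) (nat_lit 2508) (nat_lit 0) (XT.nd (nat_lit 156) (nat_lit 1748) (nat_lit 0) (XT.nd (nat_lit 78) (nat_lit 0) (nat_lit 0) (XT.lf (nat_lit 0) (nat_lit 931183742) (nat_lit 912) (nat_lit 6553850434) (nat_lit 988) (nat_lit 2929350408) (nat_lit 374) (nat_lit 5) (nat_lit 386) (nat_lit 5) (nat_lit 387) (nat_lit 5) (nat_lit 440) (nat_lit 408) (nat_lit 292)) (XT.lf (nat_lit 0) (nat_lit 6723843981) (nat_lit 912) (nat_lit 2486074066) (nat_lit 988) (nat_lit 1307736898) (nat_lit 374) (nat_lit 5) (nat_lit 386) (nat_lit 5) (nat_lit 387) (nat_lit 5) (nat_lit 441) (nat_lit 408) (nat_lit 291))) (XT.nd (nat_lit 78)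 (nat_lit 836) (nat_lit 0) (XT.lf (nat_lit 0) (nat_lit 347215309) (nat_lit 912) (nat_lit 8617786625) (nat_lit 76) (nat_lit 1657841075) (nat_lit 362) (nat_lit 5) (nat_lit 374) (nat_lit 5) (nat_lit 363) (nat_lit 5) (nat_lit 442) (nat_lit 408) (nat_lit 290)) (XT.nd (nat_lit 78) (nat_lit 836) (nat_lit 0) (XT.lf (nat_lit 0) (nat_lit 2041572870) (nat_lit 912) (nat_lit 2801235528) (nat_lit 76) (nat_lit 5886683325) (nat_lit 362) (nat_lit 5) (nat_lit 374) (nat_lit 5) (nat_lit 363) (nat_lit 5) (nat_lit 443) (nat_lit 408) (nat_lit 289)) (XT.lf (nat_lit 0) (nat_lit 3155736728) (nat_lit 836) (nat_lit 616638033) (nat_lit 912) (nat_lit 7065853497) (nat_lit 351) (nat_lit 5) (nat_lit 362) (nat_lit 5) (nat_lit 363) (nat_lit 5) (nat_lit 444) (nat_lit 408) (nat_lit 288))))) (XT.nd (nat_lit 234) (nat_lit 1672) (nat_lit 0) (XT.nd (nat_lit 78) (nat_lit 836) (nat_lit 0) (XT.lf (nat_lit 0) (nat_lit 5563010581) (nat_lit 912) (nat_lit 1720599525)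 (nat_lit 76) (nat_lit 3665030934) (nat_lit 351) (nat_lit 5) (nat_lit 363) (nat_lit 5) (nat_lit 352) (nat_lit 5) (nat_lit 445) (nat_lit 408) (nat_lit 287)) (XT.nd (nat_lit 78) (nat_lit 0) (nat_lit 0) (XT.lf (nat_lit 0) (nat_lit 4396909826) (nat_lit 836) (nat_lit 3007838853) (nat_lit 912) (nat_lit 3656213364) (nat_lit 340) (nat_lit 5) (nat_lit 351) (nat_lit 5) (nat_lit 352) (nat_lit 5) (nat_lit 446) (nat_lit 408) (nat_lit 286)) (XT.lf (nat_lit 0) (nat_lit 9286619050) (nat_lit 912) (nat_lit 541507874) (nat_lit 76) (nat_lit 1347342237) (nat_lit 340) (nat_lit 5) (nat_lit 352) (nat_lit 5) (nat_lit 341) (nat_lit 5) (nat_lit 447) (nat_lit 408) (nat_lit 285)))) (XT.nd (nat_lit 78) (nat_lit 836) (nat_lit 0) (XT.lf (nat_lit 0) (nat_lit 5741776312) (nat_lit 836) (nat_lit 5504772375) (nat_lit 912) (nat_lit 44914829) (nat_lit 329) (nat_lit 5) (nat_lit 340) (nat_lit 5) (nat_lit 341) (nat_lit 5) (nat_lit 448) (nat_lit 408) (nat_lit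 284)) (XT.nd (nat_lit 78) (nat_lit 0) (nat_lit 0) (XT.lf (nat_lit 0) (nat_lit 728764886) (nat_lit 760) (nat_lit 1074772273) (nat_lit 836) (nat_lit 9606173199) (nat_lit 318) (nat_lit 5) (nat_lit 328) (nat_lit 5) (nat_lit 329) (nat_lit 5) (nat_lit 449) (nat_lit 408) (nat_lit 283)) (XT.lf (nat_lit 0) (nat_lit 3731743336) (nat_lit 836) (nat_lit 4361894933) (nat_lit 76) (nat_lit 3435815415) (nat_lit 318) (nat_lit 5) (nat_lit 329) (nat_lit 5) (nat_lit 319) (nat_lit 5) (nat_lit 450) (nat_lit 408) (nat_lit 282))))))) (XT.nd (nat_lit 858) (nat_lit 4256) (nat_lit 0) (XT.nd (nat_lit 390) (nat_lit 2052) (nat_lit 0) (XT.nd (nat_lit 156) (nat_lit 1520) (nat_lit 0) (XT.nd (nat_lit 78) (nat_lit 0) (nat_lit 0) (XT.lf (nat_lit 0) (nat_lit 2086700670) (nat_lit 760) (nat_lit 3616340109) (nat_lit 836) (nat_lit 5948465666) (nat_lit 308) (nat_lit 5) (nat_lit 318) (nat_lit 5) (nat_lit 319) (nat_lit 5) (nat_lit 451) (nat_lit 408) (nat_lit 281))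 (XT.lf (nat_lit 0) (nat_lit 7733460619) (nat_lit 836) (nat_lit 3075675380) (nat_lit 76) (nat_lit 966475344) (nat_lit 308) (nat_lit 5) (nat_lit 319) (nat_lit 5) (nat_lit 309) (nat_lit 5) (nat_lit 452) (nat_lit 408) (nat_lit 280))) (XT.nd (nat_lit 78) (nat_lit 836) (nat_lit 0) (XT.lf (nat_lit 0) (nat_lit 3548881387) (nat_lit 684) (nat_lit 6286971659) (nat_lit 760) (nat_lit 2065722927) (nat_lit 299) (nat_lit 5) (nat_lit 308) (nat_lit 5) (nat_lit 309) (nat_lit 5) (nat_lit 453) (nat_lit 408) (nat_lit 279)) (XT.nd (nat_lit 78) (nat_lit 836) (nat_lit 0) (XT.lf (nat_lit 0) (nat_lit 10330781220) (nat_lit 684) (nat_lit 1654721799) (nat_lit 760) (nat_lit 44457497) (nat_lit 299) (nat_lit 5) (nat_lit 308) (nat_lit 5) (nat_lit 309) (nat_lit 5) (nat_lit 454) (nat_lit 408) (nat_lit 278)) (XT.lf (nat_lit 0) (nat_lit 2029049552) (nat_lit 836) (nat_lit 7055720359) (nat_lit 76) (nat_lit 3075120072) (nat_lit 288) (nat_lit 5) (nat_lit 299)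 (nat_lit 5) (nat_lit 289) (nat_lit 5) (nat_lit 455) (nat_lit 408) (nat_lit 277))))) (XT.nd (nat_lit 234) (nat_lit 684) (nat_lit 0) (XT.nd (nat_lit 78) (nat_lit 1368) (nat_lit 0) (XT.lf (nat_lit 0) (nat_lit 4150817019) (nat_lit 836) (nat_lit 253801748) (nat_lit 76) (nat_lit 7887650224) (nat_lit 288) (nat_lit 5) (nat_lit 299) (nat_lit 5) (nat_lit 289) (nat_lit 5) (nat_lit 456) (nat_lit 408) (nat_lit 276)) (XT.nd (nat_lit 78) (nat_lit 684) (nat_lit 0) (XT.lf (nat_lit 0) (nat_lit 6346804726) (nat_lit 760) (nat_lit 5673199648) (nat_lit 76) (nat_lit 406659959) (nat_lit 279) (nat_lit 5) (nat_lit 289) (nat_lit 5) (nat_lit 280) (nat_lit 5) (nat_lit 457) (nat_lit 408) (nat_lit 275)) (XT.lf (nat_lit 0) (nat_lit 1311883012) (nat_lit 684) (nat_lit 7299644883) (nat_lit 760) (nat_lit 3951727735) (nat_lit 270) (nat_lit 5) (nat_lit 279) (nat_lit 5) (nat_lit 280) (nat_lit 5) (nat_lit 458) (nat_lit 408) (nat_lit 274)))) (XT.nd (nat_lit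 78) (nat_lit 684) (nat_lit 0) (XT.lf (nat_lit 0) (nat_lit 8496934296) (nat_lit 684) (nat_lit 2448273393) (nat_lit 760) (nat_lit 1756902098) (nat_lit 270) (nat_lit 5) (nat_lit 279) (nat_lit 5) (nat_lit 280) (nat_lit 5) (nat_lit 459) (nat_lit 408) (nat_lit 273)) (XT.nd (nat_lit 78) (nat_lit 0) (nat_lit 0) (XT.lf (nat_lit 0) (nat_lit 497134106) (nat_lit 684) (nat_lit 9858261529) (nat_lit 76) (nat_lit 2487854275) (nat_lit 261) (nat_lit 5) (nat_lit 270) (nat_lit 5) (nat_lit 262) (nat_lit 5) (nat_lit 460) (nat_lit 408) (nat_lit 272)) (XT.lf (nat_lit 0) (nat_lit 2803301730) (nat_lit 684) (nat_lit 2655389365) (nat_lit 76) (nat_lit 7527681996) (nat_lit 261) (nat_lit 5) (nat_lit 270) (nat_lit 5) (nat_lit 262) (nat_lit 5) (nat_lit 461) (nat_lit 408) (nat_lit 271)))))) (XT.nd (nat_lit 390) (nat_lit 2280) (nat_lit 0) (XT.nd (nat_lit 156) (nat_lit 1292) (nat_lit 0) (XT.nd (nat_lit 78) (nat_lit 0) (nat_lit 0) (XT.lf (nat_lit 0) (nat_lit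 4737334991) (nat_lit 684) (nat_lit 435225512) (nat_lit 760) (nat_lit 7959462829) (nat_lit 252) (nat_lit 5) (nat_lit 261) (nat_lit 5) (nat_lit 262) (nat_lit 5) (nat_lit 462) (nat_lit 408) (nat_lit 270)) (XT.lf (nat_lit 0) (nat_lit 7623941728) (nat_lit 760) (nat_lit 1013370327) (nat_lit 76) (nat_lit 4642583652) (nat_lit 252) (nat_lit 5) (nat_lit 262) (nat_lit 5) (nat_lit 253) (nat_lit 5) (nat_lit 463) (nat_lit 408) (nat_lit 269))) (XT.nd (nat_lit 78) (nat_lit 684) (nat_lit 0) (XT.lf (nat_lit 0) (nat_lit 6582862232) (nat_lit 608) (nat_lit 3573736428) (nat_lit 684) (nat_lit 3273485707) (nat_lit 244) (nat_lit 5) (nat_lit 252) (nat_lit 5) (nat_lit 253) (nat_lit 5) (nat_lit 464) (nat_lit 408) (nat_lit 268)) (XT.nd (nat_lit 78) (nat_lit 76) (nat_lit 0) (XT.lf (nat_lit 0) (nat_lit 744698216) (nat_lit 608) (nat_lit 12003986436) (nat_lit 684) (nat_lit 834420354) (nat_lit 236) (nat_lit 5) (nat_lit 244) (nat_lit 5) (nat_lit 245)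 (nat_lit 5) (nat_lit 465) (nat_lit 408) (nat_lit 267)) (XT.lf (nat_lit 0) (nat_lit 1688490319) (nat_lit 684) (nat_lit 5208080304) (nat_lit 76) (nat_lit 6841269331) (nat_lit 235) (nat_lit 5) (nat_lit 244) (nat_lit 5) (nat_lit 236) (nat_lit 5) (nat_lit 466) (nat_lit 408) (nat_lit 266))))) (XT.nd (nat_lit 234) (nat_lit 1140) (nat_lit 0) (XT.nd (nat_lit 78) (nat_lit 608) (nat_lit 0) (XT.lf (nat_lit 0) (nat_lit 2587199983) (nat_lit 532) (nat_lit 1667381958) (nat_lit 608) (nat_lit 9640902947) (nat_lit 228) (nat_lit 5) (nat_lit 235) (nat_lit 5) (nat_lit 236) (nat_lit 5) (nat_lit 467) (nat_lit 408) (nat_lit 265)) (XT.nd (nat_lit 78) (nat_lit 608) (nat_lit 0) (XT.lf (nat_lit 0) (nat_lit 6918196711) (nat_lit 608) (nat_lit 3486827758) (nat_lit 76) (nat_lit 3650337666) (nat_lit 228) (nat_lit 5) (nat_lit 236) (nat_lit 5) (nat_lit 229) (nat_lit 5) (nat_lit 468) (nat_lit 408) (nat_lit 264)) (XT.lf (nat_lit 0) (nat_lit 4523469141) (nat_lit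 608) (nat_lit 5139493189) (nat_lit 684) (nat_lit 4554920399) (nat_lit 220) (nat_lit 5) (nat_lit 228) (nat_lit 5) (nat_lit 229) (nat_lit 5) (nat_lit 469) (nat_lit 408) (nat_lit 263)))) (XT.nd (nat_lit 78) (nat_lit 1140) (nat_lit 0) (XT.lf (nat_lit 0) (nat_lit 12475267090) (nat_lit 684) (nat_lit 1659603916) (nat_lit 76) (nat_lit 248533158) (nat_lit 220) (nat_lit 5) (nat_lit 229) (nat_lit 5) (nat_lit 221) (nat_lit 5) (nat_lit 470) (nat_lit 408) (nat_lit 262)) (XT.nd (nat_lit 78) (nat_lit 532) (nat_lit 0) (XT.lf (nat_lit 0) (nat_lit 846164738) (nat_lit 608) (nat_lit 7984136118) (nat_lit 76) (nat_lit 5720536272) (nat_lit 212) (nat_lit 5) (nat_lit 220) (nat_lit 5) (nat_lit 213) (nat_lit 5) (nat_lit 471) (nat_lit 408) (nat_lit 261)) (XT.lf (nat_lit 0) (nat_lit 233235695) (nat_lit 532) (nat_lit 3397402048) (nat_lit 608) (nat_lit 11090719164) (nat_lit 205) (nat_lit 5) (nat_lit 212) (nat_lit 5) (nat_lit 213) (nat_lit 5) (nat_lit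 472) (nat_lit 408) (nat_lit 260))))))))
noncomputable def xc165 : XT := (XT.nd (nat_lit 1716) (nat_lit 1900) (nat_lit 0) (XT.nd (nat_lit 858) (nat_lit 2508) (nat_lit 0) (XT.nd (nat_lit 390) (nat_lit 1900) (nat_lit 0) (XT.nd (nat_lit 156) (nat_lit 608) (nat_lit 0) (XT.nd (nat_lit 78) (nat_lit 532) (nat_lit 0) (XT.lf (nat_lit 0) (nat_lit 6526652576) (nat_lit 608) (nat_lit 6201170045) (nat_lit 76) (nat_lit 2166350470) (nat_lit 205) (nat_lit 5) (nat_lit 213) (nat_lit 5) (nat_lit 206) (nat_lit 5) (nat_lit 473) (nat_lit 408) (nat_lit 259)) (XT.lf (nat_lit 0) (nat_lit 2242887220) (nat_lit 532) (nat_lit 7262995987) (nat_lit 608) (nat_lit 5564059476) (nat_lit 198) (nat_lit 5) (nat_lit 205) (nat_lit 5) (nat_lit 206) (nat_lit 5) (nat_lit 474) (nat_lit 408) (nat_lit 258))) (XT.nd (nat_lit 78) (nat_lit 608) (nat_lit 0) (XT.lf (nat_lit 0) (nat_lit 10924436978) (nat_lit 532) (nat_lit 1650238844) (nat_lit 608) (nat_lit 2673955235) (nat_lit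 198) (nat_lit 5) (nat_lit 205) (nat_lit 5) (nat_lit 206) (nat_lit 5) (nat_lit 475) (nat_lit 408) (nat_lit 257)) (XT.nd (nat_lit 78) (nat_lit 0) (nat_lit 0) (XT.lf (nat_lit 0) (nat_lit 314001740) (nat_lit 608) (nat_lit 11067940657) (nat_lit 76) (nat_lit 4048045178) (nat_lit 190) (nat_lit 5) (nat_lit 198) (nat_lit 5) (nat_lit 191) (nat_lit 5) (nat_lit 476) (nat_lit 408) (nat_lit 256)) (XT.lf (nat_lit 0) (nat_lit 3354701208) (nat_lit 608) (nat_lit 2377995858) (nat_lit 76) (nat_lit 9881347675) (nat_lit 190) (nat_lit 5) (nat_lit 198) (nat_lit 5) (nat_lit 191) (nat_lit 5) (nat_lit 477) (nat_lit 408) (nat_lit 255))))) (XT.nd (nat_lit 234) (nat_lit 988) (nat_lit 0) (XT.nd (nat_lit 78) (nat_lit 456) (nat_lit 0) (XT.lf (nat_lit 0) (nat_lit 6488071632) (nat_lit 532) (nat_lit 9244968411) (nat_lit 76) (nat_lit 68108581) (nat_lit 184) (nat_lit 5) (nat_lit 191) (nat_lit 5) (nat_lit 185) (nat_lit 5) (nat_lit 478) (nat_lit 408) (nat_lit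 254)) (XT.nd (nat_lit 78) (nat_lit 456) (nat_lit 0) (XT.lf (nat_lit 0) (nat_lit 9727072184) (nat_lit 532) (nat_lit 343672250) (nat_lit 76) (nat_lit 5920393558) (nat_lit 184) (nat_lit 5) (nat_lit 191) (nat_lit 5) (nat_lit 185) (nat_lit 5) (nat_lit 479) (nat_lit 408) (nat_lit 253)) (XT.lf (nat_lit 0) (nat_lit 8836641603) (nat_lit 456) (nat_lit 4240736006) (nat_lit 532) (nat_lit 3106621647) (nat_lit 178) (nat_lit 5) (nat_lit 184) (nat_lit 5) (nat_lit 185) (nat_lit 5) (nat_lit 480) (nat_lit 408) (nat_lit 252)))) (XT.nd (nat_lit 78) (nat_lit 456) (nat_lit 0) (XT.lf (nat_lit 0) (nat_lit 127040771) (nat_lit 532) (nat_lit 14558903394) (nat_lit 76) (nat_lit 1694470004) (nat_lit 171) (nat_lit 5) (nat_lit 178) (nat_lit 5) (nat_lit 172) (nat_lit 5) (nat_lit 481) (nat_lit 408) (nat_lit 251)) (XT.nd (nat_lit 78) (nat_lit 456) (nat_lit 0) (XT.lf (nat_lit 0) (nat_lit 3450816106) (nat_lit 532) (nat_lit 5370445182) (nat_lit 76) (nat_lit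 7757747108) (nat_lit 171) (nat_lit 5) (nat_lit 178) (nat_lit 5) (nat_lit 172) (nat_lit 5) (nat_lit 482) (nat_lit 408) (nat_lit 250)) (XT.lf (nat_lit 0) (nat_lit 4040021413) (nat_lit 456) (nat_lit 2816769115) (nat_lit 532) (nat_lit 9924471917) (nat_lit 165) (nat_lit 5) (nat_lit 171) (nat_lit 5) (nat_lit 172) (nat_lit 5) (nat_lit 483) (nat_lit 408) (nat_lit 249)))))) (XT.nd (nat_lit 390) (nat_lit 1216) (nat_lit 0) (XT.nd (nat_lit 156) (nat_lit 912) (nat_lit 0) (XT.nd (nat_lit 78) (nat_lit 380) (nat_lit 0) (XT.lf (nat_lit 0) (nat_lit 10378214506) (nat_lit 532) (nat_lit 3311892885) (nat_lit 76) (nat_lit 3296509944) (nat_lit 165) (nat_lit 5) (nat_lit 172) (nat_lit 5) (nat_lit 166) (nat_lit 5) (nat_lit 484) (nat_lit 408) (nat_lit 248)) (XT.lf (nat_lit 0) (nat_lit 6356209744) (nat_lit 380) (nat_lit 7663560805) (nat_lit 456) (nat_lit 3175317018) (nat_lit 160) (nat_lit 5) (nat_lit 165) (nat_lit 5) (nat_lit 166) (nat_lit 5) (nat_lit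 485) (nat_lit 408) (nat_lit 247))) (XT.nd (nat_lit 78) (nat_lit 836) (nat_lit 0) (XT.lf (nat_lit 0) (nat_lit 334339173) (nat_lit 456) (nat_lit 1161564378) (nat_lit 76) (nat_lit 15911539693) (nat_lit 159) (nat_lit 5) (nat_lit 165) (nat_lit 5) (nat_lit 160) (nat_lit 5) (nat_lit 486) (nat_lit 408) (nat_lit 246)) (XT.nd (nat_lit 78) (nat_lit 380) (nat_lit 0) (XT.lf (nat_lit 0) (nat_lit 3950416283) (nat_lit 532) (nat_lit 8865066060) (nat_lit 76) (nat_lit 4806571189) (nat_lit 153) (nat_lit 5) (nat_lit 160) (nat_lit 5) (nat_lit 154) (nat_lit 5) (nat_lit 487) (nat_lit 408) (nat_lit 245)) (XT.lf (nat_lit 0) (nat_lit 1038137917) (nat_lit 380) (nat_lit 6615263487) (nat_lit 456) (nat_lit 10187265034) (nat_lit 148) (nat_lit 5) (nat_lit 153) (nat_lit 5) (nat_lit 154) (nat_lit 5) (nat_lit 488) (nat_lit 408) (nat_lit 244))))) (XT.nd (nat_lit 234) (nat_lit 760) (nat_lit 0) (XT.nd (nat_lit 78) (nat_lit 456) (nat_lit 0) (XT.lf (nat_lit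 0) (nat_lit 11245294130) (nat_lit 380) (nat_lit 234836105) (nat_lit 456) (nat_lit 6582529782) (nat_lit 148) (nat_lit 5) (nat_lit 153) (nat_lit 5) (nat_lit 154) (nat_lit 5) (nat_lit 489) (nat_lit 408) (nat_lit 243)) (XT.nd (nat_lit 78) (nat_lit 76) (nat_lit 0) (XT.lf (nat_lit 0) (nat_lit 3356627013) (nat_lit 380) (nat_lit 12079648377) (nat_lit 456) (nat_lit 2851762500) (nat_lit 143) (nat_lit 5) (nat_lit 148) (nat_lit 5) (nat_lit 149) (nat_lit 5) (nat_lit 490) (nat_lit 408) (nat_lit 242)) (XT.lf (nat_lit 0) (nat_lit 979110524) (nat_lit 456) (nat_lit 4712749558) (nat_lit 76) (nat_lit 12825181437) (nat_lit 142) (nat_lit 5) (nat_lit 148) (nat_lit 5) (nat_lit 143) (nat_lit 5) (nat_lit 491) (nat_lit 408) (nat_lit 241)))) (XT.nd (nat_lit 78) (nat_lit 380) (nat_lit 0) (XT.lf (nat_lit 0) (nat_lit 4882073934) (nat_lit 456) (nat_lit 13002456093) (nat_lit 76) (nat_lit 865046968) (nat_lit 137) (nat_lit 5) (nat_lit 143) (nat_lit 5)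 (nat_lit 138) (nat_lit 5) (nat_lit 492) (nat_lit 408) (nat_lit 240)) (XT.nd (nat_lit 78) (nat_lit 380) (nat_lit 0) (XT.lf (nat_lit 0) (nat_lit 8923270586) (nat_lit 456) (nat_lit 2557954743) (nat_lit 76) (nat_lit 7504336272) (nat_lit 137) (nat_lit 5) (nat_lit 143) (nat_lit 5) (nat_lit 138) (nat_lit 5) (nat_lit 493) (nat_lit 408) (nat_lit 239)) (XT.lf (nat_lit 0) (nat_lit 8189121253) (nat_lit 380) (nat_lit 4900167624) (nat_lit 456) (nat_lit 6136098930) (nat_lit 132) (nat_lit 5) (nat_lit 137) (nat_lit 5) (nat_lit 138) (nat_lit 5) (nat_lit 494) (nat_lit 408) (nat_lit 238))))))) (XT.nd (nat_lit 52728) (nat_lit 0) (nat_lit 30020) (XT.nd (nat_lit 390) (nat_lit 760) (nat_lit 0) (XT.nd (nat_lit 156) (nat_lit 684) (nat_lit 0) (XT.nd (nat_lit 78) (nat_lit 456) (nat_lit 0) (XT.lf (nat_lit 0) (nat_lit 17358564795) (nat_lit 456) (nat_lit 309517257) (nat_lit 76) (nat_lit 1801531565) (nat_lit 132) (nat_lit 5) (nat_lit 138) (nat_lit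 5) (nat_lit 133) (nat_lit 5) (nat_lit 495) (nat_lit 408) (nat_lit 237)) (XT.lf (nat_lit 0) (nat_lit 2062123096) (nat_lit 456) (nat_lit 9003944324) (nat_lit 76) (nat_lit 8650523704) (nat_lit 126) (nat_lit 5) (nat_lit 132) (nat_lit 5) (nat_lit 127) (nat_lit 5) (nat_lit 496) (nat_lit 408) (nat_lit 236))) (XT.nd (nat_lit 78) (nat_lit 304) (nat_lit 0) (XT.lf (nat_lit 0) (nat_lit 1989540268) (nat_lit 380) (nat_lit 4307082495) (nat_lit 456) (nat_lit 13671485433) (nat_lit 121) (nat_lit 5) (nat_lit 126) (nat_lit 5) (nat_lit 127) (nat_lit 5) (nat_lit 497) (nat_lit 408) (nat_lit 235)) (XT.nd (nat_lit 78) (nat_lit 304) (nat_lit 0) (XT.lf (nat_lit 0) (nat_lit 10684584590) (nat_lit 456) (nat_lit 6929299592) (nat_lit 76) (nat_lit 2609397671) (nat_lit 121) (nat_lit 5) (nat_lit 127) (nat_lit 5) (nat_lit 122) (nat_lit 5) (nat_lit 498) (nat_lit 408) (nat_lit 234)) (XT.lf (nat_lit 0) (nat_lit 4356229194) (nat_lit 304) (nat_lit 10852210935)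 (nat_lit 380) (nat_lit 5274157819) (nat_lit 117) (nat_lit 5) (nat_lit 121) (nat_lit 5) (nat_lit 122) (nat_lit 5) (nat_lit 499) (nat_lit 408) (nat_lit 233))))) (XT.nd (nat_lit 234) (nat_lit 304) (nat_lit 0) (XT.nd (nat_lit 78) (nat_lit 456) (nat_lit 0) (XT.lf (nat_lit 0) (nat_lit 15948150837) (nat_lit 304) (nat_lit 3912532461) (nat_lit 380) (nat_lit 885660475) (nat_lit 117) (nat_lit 5) (nat_lit 121) (nat_lit 5) (nat_lit 122) (nat_lit 5) (nat_lit 500) (nat_lit 408) (nat_lit 232)) (XT.nd (nat_lit 78) (nat_lit 0) (nat_lit 0) (XT.lf (nat_lit 0) (nat_lit 3600221652) (nat_lit 456) (nat_lit 14225717556) (nat_lit 76) (nat_lit 3187826490) (nat_lit 111) (nat_lit 5) (nat_lit 117) (nat_lit 5) (nat_lit 112) (nat_lit 5) (nat_lit 501) (nat_lit 408) (nat_lit 231)) (XT.lf (nat_lit 0) (nat_lit 8213870049) (nat_lit 456) (nat_lit 2659980587) (nat_lit 76) (nat_lit 10411571714) (nat_lit 111) (nat_lit 5) (nat_lit 117) (nat_lit 5) (nat_lit 112)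 (nat_lit 5) (nat_lit 502) (nat_lit 408) (nat_lit 230)))) (XT.nd (nat_lit 78) (nat_lit 0) (nat_lit 0) (XT.lf (nat_lit 0) (nat_lit 9245430564) (nat_lit 304) (nat_lit 3726127622) (nat_lit 380) (nat_lit 8589920113) (nat_lit 107) (nat_lit 5) (nat_lit 111) (nat_lit 5) (nat_lit 112) (nat_lit 5) (nat_lit 503) (nat_lit 408) (nat_lit 229)) (XT.nd (nat_lit 51948) (nat_lit 0) (nat_lit 31312) (XT.lf (nat_lit 0) (nat_lit 17857299632) (nat_lit 380) (nat_lit 453899573) (nat_lit 76) (nat_lit 3531199638) (nat_lit 107) (nat_lit 5) (nat_lit 112) (nat_lit 5) (nat_lit 108) (nat_lit 5) (nat_lit 504) (nat_lit 408) (nat_lit 228)) (XT.lf (nat_lit 0) (nat_lit 974154403) (nat_lit 1444) (nat_lit 1527370622) (nat_lit 1444) (nat_lit 1527370622) (nat_lit 519) (nat_lit 3) (nat_lit 538) (nat_lit 3) (nat_lit 538) (nat_lit 5) (nat_lit 409) (nat_lit 409) (nat_lit 322)))))) (XT.nd (nat_lit 390) (nat_lit 1292) (nat_lit 0) (XT.nd (nat_lit 156) (nat_lit 0)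 (nat_lit 76) (XT.nd (nat_lit 78) (nat_lit 0) (nat_lit 76) (XT.lf (nat_lit 76) (nat_lit 826729396) (nat_lit 0) (nat_lit 2314149694) (nat_lit 1444) (nat_lit 4973553220) (nat_lit 520) (nat_lit 5) (nat_lit 519) (nat_lit 3) (nat_lit 538) (nat_lit 5) (nat_lit 410) (nat_lit 409) (nat_lit 321)) (XT.lf (nat_lit 0) (nat_lit 4350081956) (nat_lit 1368) (nat_lit 3364035836) (nat_lit 1444) (nat_lit 458245189) (nat_lit 520) (nat_lit 5) (nat_lit 538) (nat_lit 5) (nat_lit 539) (nat_lit 5) (nat_lit 411) (nat_lit 409) (nat_lit 320))) (XT.nd (nat_lit 78) (nat_lit 0) (nat_lit 0) (XT.lf (nat_lit 76) (nat_lit 614605537) (nat_lit 0) (nat_lit 4958144174) (nat_lit 1444) (nat_lit 2658929157) (nat_lit 521) (nat_lit 5) (nat_lit 520) (nat_lit 5) (nat_lit 539) (nat_lit 5) (nat_lit 412) (nat_lit 409) (nat_lit 319)) (XT.nd (nat_lit 78) (nat_lit 0) (nat_lit 76) (XT.lf (nat_lit 76) (nat_lit 4702292719) (nat_lit 0) (nat_lit 2110601679) (nat_lit 1444) (nat_lit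 1479438184) (nat_lit 521) (nat_lit 5) (nat_lit 520) (nat_lit 5) (nat_lit 539) (nat_lit 5) (nat_lit 413) (nat_lit 409) (nat_lit 318)) (XT.lf (nat_lit 76) (nat_lit 502482141) (nat_lit 0) (nat_lit 7554890754) (nat_lit 1444) (nat_lit 297247600) (nat_lit 522) (nat_lit 5) (nat_lit 521) (nat_lit 5) (nat_lit 540) (nat_lit 5) (nat_lit 414) (nat_lit 409) (nat_lit 317))))) (XT.nd (nat_lit 234) (nat_lit 0) (nat_lit 76) (XT.nd (nat_lit 78) (nat_lit 0) (nat_lit 0) (XT.lf (nat_lit 0) (nat_lit 906273040) (nat_lit 1444) (nat_lit 3728961051) (nat_lit 1520) (nat_lit 3782621332) (nat_lit 502) (nat_lit 5) (nat_lit 521) (nat_lit 5) (nat_lit 522) (nat_lit 5) (nat_lit 415) (nat_lit 409) (nat_lit 316)) (XT.nd (nat_lit 78) (nat_lit 0) (nat_lit 76) (XT.lf (nat_lit 76) (nat_lit 464359230) (nat_lit 0) (nat_lit 1640479084) (nat_lit 1520) (nat_lit 6377989419) (nat_lit 503) (nat_lit 5) (nat_lit 502) (nat_lit 5) (nat_lit 522) (nat_lit 5) (nat_lit 416)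 (nat_lit 409) (nat_lit 315)) (XT.lf (nat_lit 0) (nat_lit 3334198861) (nat_lit 1444) (nat_lit 3782824063) (nat_lit 1520) (nat_lit 1431950937) (nat_lit 503) (nat_lit 5) (nat_lit 522) (nat_lit 5) (nat_lit 523) (nat_lit 5) (nat_lit 417) (nat_lit 409) (nat_lit 314)))) (XT.nd (nat_lit 78) (nat_lit 0) (nat_lit 0) (XT.lf (nat_lit 76) (nat_lit 516809419) (nat_lit 0) (nat_lit 4058550122) (nat_lit 1520) (nat_lit 4041349748) (nat_lit 504) (nat_lit 5) (nat_lit 503) (nat_lit 5) (nat_lit 523) (nat_lit 5) (nat_lit 418) (nat_lit 409) (nat_lit 313)) (XT.nd (nat_lit 78) (nat_lit 0) (nat_lit 76) (XT.lf (nat_lit 76) (nat_lit 4937184412) (nat_lit 0) (nat_lit 902959348) (nat_lit 1520) (nat_lit 2845690089) (nat_lit 504) (nat_lit 5) (nat_lit 503) (nat_lit 5) (nat_lit 523) (nat_lit 5) (nat_lit 419) (nat_lit 409) (nat_lit 312)) (XT.lf (nat_lit 76) (nat_lit 666532607) (nat_lit 0) (nat_lit 6457054826) (nat_lit 1520) (nat_lit 1632896416) (nat_lit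 505) (nat_lit 5) (nat_lit 504) (nat_lit 5) (nat_lit 524) (nat_lit 5) (nat_lit 420) (nat_lit 409) (nat_lit 311))))))))
noncomputable def xc166 : XT := (XT.nd (nat_lit 1716) (nat_lit 9804) (nat_lit 0) (XT.nd (nat_lit 858) (nat_lit 7068) (nat_lit 0) (XT.nd (nat_lit 390) (nat_lit 1444) (nat_lit 0) (XT.nd (nat_lit 156) (nat_lit 0) (nat_lit 0) (XT.nd (nat_lit 78) (nat_lit 1444) (nat_lit 0) (XT.lf (nat_lit 76) (nat_lit 5198083667) (nat_lit 0) (nat_lit 3240114532) (nat_lit 1520) (nat_lit 390248709) (nat_lit 505) (nat_lit 5) (nat_lit 504) (nat_lit 5) (nat_lit 524) (nat_lit 5) (nat_lit 421) (nat_lit 409) (nat_lit 310)) (XT.lf (nat_lit 0) (nat_lit 846769395) (nat_lit 1520) (nat_lit 7994611224) (nat_lit 1596) (nat_lit 60743875) (nat_lit 485) (nat_lit 5) (nat_lit 505) (nat_lit 5) (nat_lit 506) (nat_lit 5) (nat_lit 422) (nat_lit 409) (nat_lit 309))) (XT.nd (nat_lit 78) (nat_lit 0) (nat_lit 0) (XT.lf (nat_lit 0) (nat_lit 2124457882)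 (nat_lit 1520) (nat_lit 3432792506) (nat_lit 1596) (nat_lit 3419559991) (nat_lit 485) (nat_lit 5) (nat_lit 505) (nat_lit 5) (nat_lit 506) (nat_lit 5) (nat_lit 423) (nat_lit 409) (nat_lit 308)) (XT.nd (nat_lit 78) (nat_lit 0) (nat_lit 76) (XT.lf (nat_lit 76) (nat_lit 1219433643) (nat_lit 0) (nat_lit 2191840601) (nat_lit 1596) (nat_lit 5642053515) (nat_lit 486) (nat_lit 5) (nat_lit 485) (nat_lit 5) (nat_lit 506) (nat_lit 5) (nat_lit 424) (nat_lit 409) (nat_lit 307)) (XT.lf (nat_lit 0) (nat_lit 4731144641) (nat_lit 1520) (nat_lit 3145134290) (nat_lit 1596) (nat_lit 1254959280) (nat_lit 486) (nat_lit 5) (nat_lit 506) (nat_lit 5) (nat_lit 507) (nat_lit 5) (nat_lit 425) (nat_lit 409) (nat_lit 306))))) (XT.nd (nat_lit 234) (nat_lit 1520) (nat_lit 0) (XT.nd (nat_lit 78) (nat_lit 0) (nat_lit 0) (XT.lf (nat_lit 76) (nat_lit 1627318902) (nat_lit 0) (nat_lit 4451716549) (nat_lit 1596) (nat_lit 3131647863) (nat_lit 487) (nat_lit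 5) (nat_lit 486) (nat_lit 5) (nat_lit 507) (nat_lit 5) (nat_lit 426) (nat_lit 409) (nat_lit 305)) (XT.nd (nat_lit 78) (nat_lit 0) (nat_lit 76) (XT.lf (nat_lit 76) (nat_lit 6521056615) (nat_lit 0) (nat_lit 930825741) (nat_lit 1596) (nat_lit 1839883723) (nat_lit 487) (nat_lit 5) (nat_lit 486) (nat_lit 5) (nat_lit 507) (nat_lit 5) (nat_lit 427) (nat_lit 409) (nat_lit 304)) (XT.lf (nat_lit 76) (nat_lit 2131915314) (nat_lit 0) (nat_lit 6728772332) (nat_lit 1596) (nat_lit 513621380) (nat_lit 488) (nat_lit 5) (nat_lit 487) (nat_lit 5) (nat_lit 508) (nat_lit 5) (nat_lit 428) (nat_lit 409) (nat_lit 303)))) (XT.nd (nat_lit 78) (nat_lit 0) (nat_lit 76) (XT.lf (nat_lit 0) (nat_lit 830604998) (nat_lit 1596) (nat_lit 2316881494) (nat_lit 1672) (nat_lit 6310866702) (nat_lit 466) (nat_lit 5) (nat_lit 487) (nat_lit 5) (nat_lit 488) (nat_lit 5) (nat_lit 429) (nat_lit 409) (nat_lit 302)) (XT.nd (nat_lit 78) (nat_lit 0) (nat_lit 0) (XT.lf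 (nat_lit 0) (nat_lit 2193980755) (nat_lit 1596) (nat_lit 6824940494) (nat_lit 1672) (nat_lit 525114314) (nat_lit 467) (nat_lit 5) (nat_lit 488) (nat_lit 5) (nat_lit 489) (nat_lit 5) (nat_lit 430) (nat_lit 409) (nat_lit 301)) (XT.lf (nat_lit 0) (nat_lit 3599477757) (nat_lit 1596) (nat_lit 1782061875) (nat_lit 1672) (nat_lit 4249602777) (nat_lit 467) (nat_lit 5) (nat_lit 488) (nat_lit 5) (nat_lit 489) (nat_lit 5) (nat_lit 431) (nat_lit 409) (nat_lit 300)))))) (XT.nd (nat_lit 390) (nat_lit 3876) (nat_lit 0) (XT.nd (nat_lit 156) (nat_lit 3268) (nat_lit 0) (XT.nd (nat_lit 78) (nat_lit 0) (nat_lit 76) (XT.lf (nat_lit 76) (nat_lit 3389271193) (nat_lit 0) (nat_lit 1644602227) (nat_lit 1672) (nat_lit 4686109944) (nat_lit 468) (nat_lit 5) (nat_lit 467) (nat_lit 5) (nat_lit 489) (nat_lit 5) (nat_lit 432) (nat_lit 409) (nat_lit 299)) (XT.lf (nat_lit 0) (nat_lit 6502182528) (nat_lit 1596) (nat_lit 1153519981) (nat_lit 76) (nat_lit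 2154801717) (nat_lit 468) (nat_lit 5) (nat_lit 489) (nat_lit 5) (nat_lit 469) (nat_lit 5) (nat_lit 433) (nat_lit 409) (nat_lit 298))) (XT.nd (nat_lit 78) (nat_lit 1748) (nat_lit 0) (XT.lf (nat_lit 0) (nat_lit 4153945589) (nat_lit 1596) (nat_lit 3863300941) (nat_lit 1672) (nat_lit 1885248649) (nat_lit 447) (nat_lit 5) (nat_lit 468) (nat_lit 5) (nat_lit 469) (nat_lit 5) (nat_lit 434) (nat_lit 409) (nat_lit 297)) (XT.nd (nat_lit 78) (nat_lit 1748) (nat_lit 0) (XT.lf (nat_lit 0) (nat_lit 9550278045) (nat_lit 1672) (nat_lit 430238868) (nat_lit 76) (nat_lit 16063015) (nat_lit 447) (nat_lit 5) (nat_lit 469) (nat_lit 5) (nat_lit 448) (nat_lit 5) (nat_lit 435) (nat_lit 409) (nat_lit 296)) (XT.lf (nat_lit 0) (nat_lit 1046676053) (nat_lit 1748) (nat_lit 5080852841) (nat_lit 76) (nat_lit 3964118893) (nat_lit 424) (nat_lit 5) (nat_lit 447) (nat_lit 5) (nat_lit 425) (nat_lit 5) (nat_lit 436) (nat_lit 409) (nat_lit 295))))) (XT.nd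 (nat_lit 234) (nat_lit 988) (nat_lit 0) (XT.nd (nat_lit 78) (nat_lit 1140) (nat_lit 0) (XT.lf (nat_lit 0) (nat_lit 362703341) (nat_lit 1748) (nat_lit 2186481237) (nat_lit 1824) (nat_lit 7639667365) (nat_lit 401) (nat_lit 5) (nat_lit 424) (nat_lit 5) (nat_lit 425) (nat_lit 5) (nat_lit 437) (nat_lit 409) (nat_lit 294)) (XT.nd (nat_lit 78) (nat_lit 1140) (nat_lit 0) (XT.lf (nat_lit 0) (nat_lit 4108639089) (nat_lit 1824) (nat_lit 4332743423) (nat_lit 76) (nat_lit 1846086501) (nat_lit 401) (nat_lit 5) (nat_lit 425) (nat_lit 5) (nat_lit 402) (nat_lit 5) (nat_lit 438) (nat_lit 409) (nat_lit 293)) (XT.lf (nat_lit 0) (nat_lit 1255557173) (nat_lit 1140) (nat_lit 4447407682) (nat_lit 1216) (nat_lit 4685026537) (nat_lit 386) (nat_lit 5) (nat_lit 401) (nat_lit 5) (nat_lit 402) (nat_lit 5) (nat_lit 439) (nat_lit 409) (nat_lit 292)))) (XT.nd (nat_lit 78) (nat_lit 988) (nat_lit 0) (XT.lf (nat_lit 0) (nat_lit 6997507298) (nat_lit 1140)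 (nat_lit 342057252) (nat_lit 1216) (nat_lit 3150758405) (nat_lit 386) (nat_lit 5) (nat_lit 401) (nat_lit 5) (nat_lit 402) (nat_lit 5) (nat_lit 440) (nat_lit 409) (nat_lit 291)) (XT.nd (nat_lit 78) (nat_lit 76) (nat_lit 0) (XT.lf (nat_lit 0) (nat_lit 2247198703) (nat_lit 912) (nat_lit 6782945288) (nat_lit 988) (nat_lit 1564138561) (nat_lit 374) (nat_lit 5) (nat_lit 386) (nat_lit 5) (nat_lit 387) (nat_lit 5) (nat_lit 441) (nat_lit 409) (nat_lit 290)) (XT.lf (nat_lit 0) (nat_lit 61176588) (nat_lit 988) (nat_lit 2570304357) (nat_lit 76) (nat_lit 8068685987) (nat_lit 373) (nat_lit 5) (nat_lit 386) (nat_lit 5) (nat_lit 374) (nat_lit 5) (nat_lit 442) (nat_lit 409) (nat_lit 289))))))) (XT.nd (nat_lit 858) (nat_lit 4864) (nat_lit 0) (XT.nd (nat_lit 390) (nat_lit 2432) (nat_lit 0) (XT.nd (nat_lit 156) (nat_lit 1672) (nat_lit 0) (XT.nd (nat_lit 78) (nat_lit 0) (nat_lit 0) (XT.lf (nat_lit 0) (nat_lit 1712549740) (nat_lit 912) (nat_lit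 7479782402) (nat_lit 76) (nat_lit 1615346157) (nat_lit 362) (nat_lit 5) (nat_lit 374) (nat_lit 5) (nat_lit 363) (nat_lit 5) (nat_lit 443) (nat_lit 409) (nat_lit 288)) (XT.lf (nat_lit 0) (nat_lit 3414159352) (nat_lit 912) (nat_lit 1572593616) (nat_lit 76) (nat_lit 5930248620) (nat_lit 362) (nat_lit 5) (nat_lit 374) (nat_lit 5) (nat_lit 363) (nat_lit 5) (nat_lit 444) (nat_lit 409) (nat_lit 287))) (XT.nd (nat_lit 78) (nat_lit 836) (nat_lit 0) (XT.lf (nat_lit 0) (nat_lit 4495066331) (nat_lit 836) (nat_lit 666684140) (nat_lit 912) (nat_lit 5866527643) (nat_lit 351) (nat_lit 5) (nat_lit 362) (nat_lit 5) (nat_lit 363) (nat_lit 5) (nat_lit 445) (nat_lit 409) (nat_lit 286)) (XT.nd (nat_lit 78) (nat_lit 836) (nat_lit 0) (XT.lf (nat_lit 0) (nat_lit 6962195650) (nat_lit 912) (nat_lit 477389517) (nat_lit 76) (nat_lit 3701842602) (nat_lit 351) (nat_lit 5) (nat_lit 363) (nat_lit 5) (nat_lit 352) (nat_lit 5) (nat_lit 446) (nat_lit 409)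 (nat_lit 285)) (XT.lf (nat_lit 0) (nat_lit 5754064614) (nat_lit 836) (nat_lit 3069691063) (nat_lit 912) (nat_lit 2432588156) (nat_lit 340) (nat_lit 5) (nat_lit 351) (nat_lit 5) (nat_lit 352) (nat_lit 5) (nat_lit 447) (nat_lit 409) (nat_lit 284))))) (XT.nd (nat_lit 234) (nat_lit 760) (nat_lit 0) (XT.nd (nat_lit 78) (nat_lit 836) (nat_lit 0) (XT.lf (nat_lit 0) (nat_lit 726866570) (nat_lit 836) (nat_lit 9996185549) (nat_lit 912) (nat_lit 650501420) (nat_lit 329) (nat_lit 5) (nat_lit 340) (nat_lit 5) (nat_lit 341) (nat_lit 5) (nat_lit 448) (nat_lit 409) (nat_lit 283)) (XT.nd (nat_lit 78) (nat_lit 760) (nat_lit 0) (XT.lf (nat_lit 0) (nat_lit 1193069037) (nat_lit 912) (nat_lit 4382213848) (nat_lit 76) (nat_lit 5916855194) (nat_lit 328) (nat_lit 5) (nat_lit 340) (nat_lit 5) (nat_lit 329) (nat_lit 5) (nat_lit 449) (nat_lit 409) (nat_lit 282)) (XT.lf (nat_lit 0) (nat_lit 2013100825) (nat_lit 760) (nat_lit 1048752496) (nat_lit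 836) (nat_lit 8551219051) (nat_lit 318) (nat_lit 5) (nat_lit 328) (nat_lit 5) (nat_lit 329) (nat_lit 5) (nat_lit 450) (nat_lit 409) (nat_lit 281)))) (XT.nd (nat_lit 78) (nat_lit 760) (nat_lit 0) (XT.lf (nat_lit 0) (nat_lit 5004960476) (nat_lit 836) (nat_lit 3180226621) (nat_lit 76) (nat_lit 3550504323) (nat_lit 318) (nat_lit 5) (nat_lit 329) (nat_lit 5) (nat_lit 319) (nat_lit 5) (nat_lit 451) (nat_lit 409) (nat_lit 280)) (XT.nd (nat_lit 78) (nat_lit 0) (nat_lit 0) (XT.lf (nat_lit 0) (nat_lit 3388992827) (nat_lit 760) (nat_lit 3611373808) (nat_lit 836) (nat_lit 4860132392) (nat_lit 308) (nat_lit 5) (nat_lit 318) (nat_lit 5) (nat_lit 319) (nat_lit 5) (nat_lit 452) (nat_lit 409) (nat_lit 279)) (XT.lf (nat_lit 0) (nat_lit 9048685595) (nat_lit 836) (nat_lit 1878273346) (nat_lit 76) (nat_lit 1060588567) (nat_lit 308) (nat_lit 5) (nat_lit 319) (nat_lit 5) (nat_lit 309) (nat_lit 5) (nat_lit 453) (nat_lit 409) (nat_lit 278))))))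 (XT.nd (nat_lit 390) (nat_lit 2660) (nat_lit 0) (XT.nd (nat_lit 156) (nat_lit 1444) (nat_lit 0) (XT.nd (nat_lit 78) (nat_lit 76) (nat_lit 0) (XT.lf (nat_lit 0) (nat_lit 4870492217) (nat_lit 684) (nat_lit 6307997597) (nat_lit 760) (nat_lit 937841492) (nat_lit 299) (nat_lit 5) (nat_lit 308) (nat_lit 5) (nat_lit 309) (nat_lit 5) (nat_lit 454) (nat_lit 409) (nat_lit 277)) (XT.lf (nat_lit 0) (nat_lit 1086485022) (nat_lit 760) (nat_lit 491380037) (nat_lit 76) (nat_lit 10669731919) (nat_lit 298) (nat_lit 5) (nat_lit 308) (nat_lit 5) (nat_lit 299) (nat_lit 5) (nat_lit 455) (nat_lit 409) (nat_lit 276))) (XT.nd (nat_lit 78) (nat_lit 684) (nat_lit 0) (XT.lf (nat_lit 0) (nat_lit 3187448723) (nat_lit 836) (nat_lit 5941590426) (nat_lit 76) (nat_lit 3251355115) (nat_lit 288) (nat_lit 5) (nat_lit 299) (nat_lit 5) (nat_lit 289) (nat_lit 5) (nat_lit 456) (nat_lit 409) (nat_lit 275)) (XT.nd (nat_lit 78) (nat_lit 0) (nat_lit 0) (XT.lf (nat_lit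 0) (nat_lit 984668020) (nat_lit 684) (nat_lit 4351458633) (nat_lit 760) (nat_lit 7179611308) (nat_lit 279) (nat_lit 5) (nat_lit 288) (nat_lit 5) (nat_lit 289) (nat_lit 5) (nat_lit 457) (nat_lit 409) (nat_lit 274)) (XT.lf (nat_lit 0) (nat_lit 7557000450) (nat_lit 760) (nat_lit 4543067325) (nat_lit 76) (nat_lit 553140589) (nat_lit 279) (nat_lit 5) (nat_lit 289) (nat_lit 5) (nat_lit 280) (nat_lit 5) (nat_lit 458) (nat_lit 409) (nat_lit 273))))) (XT.nd (nat_lit 234) (nat_lit 1292) (nat_lit 0) (XT.nd (nat_lit 78) (nat_lit 684) (nat_lit 0) (XT.lf (nat_lit 0) (nat_lit 2573535434) (nat_lit 684) (nat_lit 7280263395) (nat_lit 760) (nat_lit 2939003396) (nat_lit 270) (nat_lit 5) (nat_lit 279) (nat_lit 5) (nat_lit 280) (nat_lit 5) (nat_lit 459) (nat_lit 409) (nat_lit 272)) (XT.nd (nat_lit 78) (nat_lit 684) (nat_lit 0) (XT.lf (nat_lit 0) (nat_lit 9878063925) (nat_lit 684) (nat_lit 2335107111) (nat_lit 760) (nat_lit 721688284) (nat_lit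 270) (nat_lit 5) (nat_lit 279) (nat_lit 5) (nat_lit 280) (nat_lit 5) (nat_lit 460) (nat_lit 409) (nat_lit 271)) (XT.lf (nat_lit 0) (nat_lit 1551712875) (nat_lit 684) (nat_lit 8817915292) (nat_lit 76) (nat_lit 2709294635) (nat_lit 261) (nat_lit 5) (nat_lit 270) (nat_lit 5) (nat_lit 262) (nat_lit 5) (nat_lit 461) (nat_lit 409) (nat_lit 270)))) (XT.nd (nat_lit 78) (nat_lit 1292) (nat_lit 0) (XT.lf (nat_lit 0) (nat_lit 3883520792) (nat_lit 684) (nat_lit 1495250615) (nat_lit 76) (nat_lit 7846552572) (nat_lit 261) (nat_lit 5) (nat_lit 270) (nat_lit 5) (nat_lit 262) (nat_lit 5) (nat_lit 462) (nat_lit 409) (nat_lit 269)) (XT.nd (nat_lit 78) (nat_lit 608) (nat_lit 0) (XT.lf (nat_lit 0) (nat_lit 6037346343) (nat_lit 684) (nat_lit 250562343) (nat_lit 760) (nat_lit 7086229415) (nat_lit 252) (nat_lit 5) (nat_lit 261) (nat_lit 5) (nat_lit 262) (nat_lit 5) (nat_lit 463) (nat_lit 409) (nat_lit 268)) (XT.lf (nat_lit 0) (nat_lit 169104492)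 (nat_lit 608) (nat_lit 8601700718) (nat_lit 684) (nat_lit 4754518602) (nat_lit 244) (nat_lit 5) (nat_lit 252) (nat_lit 5) (nat_lit 253) (nat_lit 5) (nat_lit 464) (nat_lit 409) (nat_lit 267))))))))
noncomputable def xc167 : XT := (XT.nd (nat_lit 1716) (nat_lit 4028) (nat_lit 0) (XT.nd (nat_lit 858) (nat_lit 2888) (nat_lit 0) (XT.nd (nat_lit 390) (nat_lit 2280) (nat_lit 0) (XT.nd (nat_lit 156) (nat_lit 532) (nat_lit 0) (XT.nd (nat_lit 78) (nat_lit 684) (nat_lit 0) (XT.lf (nat_lit 0) (nat_lit 7907145681) (nat_lit 608) (nat_lit 3434138772) (nat_lit 684) (nat_lit 2337493941) (nat_lit 244) (nat_lit 5) (nat_lit 252) (nat_lit 5) (nat_lit 253) (nat_lit 5) (nat_lit 465) (nat_lit 409) (nat_lit 266)) (XT.lf (nat_lit 0) (nat_lit 138217977) (nat_lit 684) (nat_lit 11873188568) (nat_lit 76) (nat_lit 1823641950) (nat_lit 235) (nat_lit 5) (nat_lit 244) (nat_lit 5) (nat_lit 236) (nat_lit 5) (nat_lit 466) (nat_lit 409) (nat_lit 265))) (XT.nd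 (nat_lit 78) (nat_lit 532) (nat_lit 0) (XT.lf (nat_lit 0) (nat_lit 2681244728) (nat_lit 684) (nat_lit 4119633679) (nat_lit 76) (nat_lit 7192278023) (nat_lit 235) (nat_lit 5) (nat_lit 244) (nat_lit 5) (nat_lit 236) (nat_lit 5) (nat_lit 467) (nat_lit 409) (nat_lit 264)) (XT.nd (nat_lit 78) (nat_lit 0) (nat_lit 0) (XT.lf (nat_lit 0) (nat_lit 3823706107) (nat_lit 532) (nat_lit 1463840717) (nat_lit 608) (nat_lit 8866634775) (nat_lit 228) (nat_lit 5) (nat_lit 235) (nat_lit 5) (nat_lit 236) (nat_lit 5) (nat_lit 468) (nat_lit 409) (nat_lit 263)) (XT.lf (nat_lit 0) (nat_lit 7987356022) (nat_lit 608) (nat_lit 2377704439) (nat_lit 76) (nat_lit 3952542497) (nat_lit 228) (nat_lit 5) (nat_lit 236) (nat_lit 5) (nat_lit 229) (nat_lit 5) (nat_lit 469) (nat_lit 409) (nat_lit 262))))) (XT.nd (nat_lit 234) (nat_lit 1064) (nat_lit 0) (XT.nd (nat_lit 78) (nat_lit 608) (nat_lit 0) (XT.lf (nat_lit 0) (nat_lit 5785042740) (nat_lit 608) (nat_lit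 4991326909) (nat_lit 684) (nat_lit 3707222173) (nat_lit 220) (nat_lit 5) (nat_lit 228) (nat_lit 5) (nat_lit 229) (nat_lit 5) (nat_lit 470) (nat_lit 409) (nat_lit 261)) (XT.nd (nat_lit 78) (nat_lit 608) (nat_lit 0) (XT.lf (nat_lit 0) (nat_lit 13628475811) (nat_lit 684) (nat_lit 527969128) (nat_lit 76) (nat_lit 496312458) (nat_lit 220) (nat_lit 5) (nat_lit 229) (nat_lit 5) (nat_lit 221) (nat_lit 5) (nat_lit 471) (nat_lit 409) (nat_lit 260)) (XT.lf (nat_lit 0) (nat_lit 1762734974) (nat_lit 608) (nat_lit 6974468040) (nat_lit 76) (nat_lit 6086426483) (nat_lit 212) (nat_lit 5) (nat_lit 220) (nat_lit 5) (nat_lit 213) (nat_lit 5) (nat_lit 472) (nat_lit 409) (nat_lit 259)))) (XT.nd (nat_lit 78) (nat_lit 532) (nat_lit 0) (XT.lf (nat_lit 0) (nat_lit 1399558111) (nat_lit 532) (nat_lit 3193241445) (nat_lit 608) (nat_lit 10404966613) (nat_lit 205) (nat_lit 5) (nat_lit 212) (nat_lit 5) (nat_lit 213) (nat_lit 5) (nat_lit 473) (nat_lit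 409) (nat_lit 258)) (XT.nd (nat_lit 78) (nat_lit 532) (nat_lit 0) (XT.lf (nat_lit 0) (nat_lit 7531024615) (nat_lit 608) (nat_lit 5170380829) (nat_lit 76) (nat_lit 2472951882) (nat_lit 205) (nat_lit 5) (nat_lit 213) (nat_lit 5) (nat_lit 206) (nat_lit 5) (nat_lit 474) (nat_lit 409) (nat_lit 257)) (XT.lf (nat_lit 0) (nat_lit 3434960130) (nat_lit 532) (nat_lit 7125194113) (nat_lit 608) (nat_lit 4793686141) (nat_lit 198) (nat_lit 5) (nat_lit 205) (nat_lit 5) (nat_lit 206) (nat_lit 5) (nat_lit 475) (nat_lit 409) (nat_lit 256)))))) (XT.nd (nat_lit 390) (nat_lit 1368) (nat_lit 0) (XT.nd (nat_lit 156) (nat_lit 912) (nat_lit 0) (XT.nd (nat_lit 78) (nat_lit 608) (nat_lit 0) (XT.lf (nat_lit 0) (nat_lit 12267646468) (nat_lit 532) (nat_lit 1405732058) (nat_lit 608) (nat_lit 1863067159) (nat_lit 198) (nat_lit 5) (nat_lit 205) (nat_lit 5) (nat_lit 206) (nat_lit 5) (nat_lit 476) (nat_lit 409) (nat_lit 255)) (XT.lf (nat_lit 0) (nat_lit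 1165766824) (nat_lit 608) (nat_lit 10145281464) (nat_lit 76) (nat_lit 4410423831) (nat_lit 190) (nat_lit 5) (nat_lit 198) (nat_lit 5) (nat_lit 191) (nat_lit 5) (nat_lit 477) (nat_lit 409) (nat_lit 254))) (XT.nd (nat_lit 78) (nat_lit 912) (nat_lit 0) (XT.lf (nat_lit 0) (nat_lit 4250702143) (nat_lit 608) (nat_lit 1303969495) (nat_lit 76) (nat_lit 10354874383) (nat_lit 190) (nat_lit 5) (nat_lit 198) (nat_lit 5) (nat_lit 191) (nat_lit 5) (nat_lit 478) (nat_lit 409) (nat_lit 253)) (XT.nd (nat_lit 78) (nat_lit 456) (nat_lit 0) (XT.lf (nat_lit 0) (nat_lit 7439631989) (nat_lit 532) (nat_lit 8300975987) (nat_lit 76) (nat_lit 359930116) (nat_lit 184) (nat_lit 5) (nat_lit 191) (nat_lit 5) (nat_lit 185) (nat_lit 5) (nat_lit 479) (nat_lit 409) (nat_lit 252)) (XT.lf (nat_lit 0) (nat_lit 766260609) (nat_lit 456) (nat_lit 9966013310) (nat_lit 532) (nat_lit 5562279973) (nat_lit 178) (nat_lit 5) (nat_lit 184) (nat_lit 5) (nat_lit 185)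 (nat_lit 5) (nat_lit 480) (nat_lit 409) (nat_lit 251))))) (XT.nd (nat_lit 234) (nat_lit 836) (nat_lit 0) (XT.nd (nat_lit 78) (nat_lit 532) (nat_lit 0) (XT.lf (nat_lit 0) (nat_lit 10112849800) (nat_lit 456) (nat_lit 4023101354) (nat_lit 532) (nat_lit 2355597710) (nat_lit 178) (nat_lit 5) (nat_lit 184) (nat_lit 5) (nat_lit 185) (nat_lit 5) (nat_lit 481) (nat_lit 409) (nat_lit 250)) (XT.nd (nat_lit 78) (nat_lit 0) (nat_lit 0) (XT.lf (nat_lit 0) (nat_lit 925506584) (nat_lit 532) (nat_lit 13733006107) (nat_lit 76) (nat_lit 2033408778) (nat_lit 171) (nat_lit 5) (nat_lit 178) (nat_lit 5) (nat_lit 172) (nat_lit 5) (nat_lit 482) (nat_lit 409) (nat_lit 249)) (XT.lf (nat_lit 0) (nat_lit 4300151053) (nat_lit 532) (nat_lit 4382682168) (nat_lit 76) (nat_lit 8211970065) (nat_lit 171) (nat_lit 5) (nat_lit 178) (nat_lit 5) (nat_lit 172) (nat_lit 5) (nat_lit 483) (nat_lit 409) (nat_lit 248)))) (XT.nd (nat_lit 78) (nat_lit 380) (nat_lit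 0) (XT.lf (nat_lit 0) (nat_lit 5208788680) (nat_lit 456) (nat_lit 2557219720) (nat_lit 532) (nat_lit 9335262254) (nat_lit 165) (nat_lit 5) (nat_lit 171) (nat_lit 5) (nat_lit 172) (nat_lit 5) (nat_lit 484) (nat_lit 409) (nat_lit 247)) (XT.nd (nat_lit 78) (nat_lit 380) (nat_lit 0) (XT.lf (nat_lit 0) (nat_lit 11344732713) (nat_lit 532) (nat_lit 2298196484) (nat_lit 76) (nat_lit 3668069448) (nat_lit 165) (nat_lit 5) (nat_lit 172) (nat_lit 5) (nat_lit 166) (nat_lit 5) (nat_lit 485) (nat_lit 409) (nat_lit 246)) (XT.lf (nat_lit 0) (nat_lit 7556163367) (nat_lit 380) (nat_lit 7495040581) (nat_lit 456) (nat_lit 2472596024) (nat_lit 160) (nat_lit 5) (nat_lit 165) (nat_lit 5) (nat_lit 166) (nat_lit 5) (nat_lit 486) (nat_lit 409) (nat_lit 245))))))) (XT.nd (nat_lit 858) (nat_lit 1444) (nat_lit 0) (XT.nd (nat_lit 390) (nat_lit 1292) (nat_lit 0) (XT.nd (nat_lit 156) (nat_lit 760) (nat_lit 0) (XT.nd (nat_lit 78) (nat_lit 456) (nat_lit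 0) (XT.lf (nat_lit 0) (nat_lit 1082377060) (nat_lit 456) (nat_lit 122987901) (nat_lit 76) (nat_lit 16535238085) (nat_lit 159) (nat_lit 5) (nat_lit 165) (nat_lit 5) (nat_lit 160) (nat_lit 5) (nat_lit 487) (nat_lit 409) (nat_lit 244)) (XT.lf (nat_lit 0) (nat_lit 4765173197) (nat_lit 532) (nat_lit 7974798239) (nat_lit 76) (nat_lit 5219649332) (nat_lit 153) (nat_lit 5) (nat_lit 160) (nat_lit 5) (nat_lit 154) (nat_lit 5) (nat_lit 488) (nat_lit 409) (nat_lit 243))) (XT.nd (nat_lit 78) (nat_lit 380) (nat_lit 0) (XT.lf (nat_lit 0) (nat_lit 2119446336) (nat_lit 380) (nat_lit 6415231007) (nat_lit 456) (nat_lit 9648082517) (nat_lit 148) (nat_lit 5) (nat_lit 153) (nat_lit 5) (nat_lit 154) (nat_lit 5) (nat_lit 489) (nat_lit 409) (nat_lit 242)) (XT.nd (nat_lit 78) (nat_lit 380) (nat_lit 0) (XT.lf (nat_lit 0) (nat_lit 12424222407) (nat_lit 456) (nat_lit 5900091519) (nat_lit 76) (nat_lit 85156806) (nat_lit 148) (nat_lit 5) (nat_lit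 154) (nat_lit 5) (nat_lit 149) (nat_lit 5) (nat_lit 490) (nat_lit 409) (nat_lit 241)) (XT.lf (nat_lit 0) (nat_lit 4468904544) (nat_lit 380) (nat_lit 11984886807) (nat_lit 456) (nat_lit 2185681786) (nat_lit 143) (nat_lit 5) (nat_lit 148) (nat_lit 5) (nat_lit 149) (nat_lit 5) (nat_lit 491) (nat_lit 409) (nat_lit 240))))) (XT.nd (nat_lit 234) (nat_lit 836) (nat_lit 0) (XT.nd (nat_lit 78) (nat_lit 380) (nat_lit 0) (XT.lf (nat_lit 0) (nat_lit 1698332115) (nat_lit 456) (nat_lit 3772910871) (nat_lit 76) (nat_lit 13402002689) (nat_lit 142) (nat_lit 5) (nat_lit 148) (nat_lit 5) (nat_lit 143) (nat_lit 5) (nat_lit 492) (nat_lit 409) (nat_lit 239)) (XT.nd (nat_lit 78) (nat_lit 0) (nat_lit 0) (XT.lf (nat_lit 0) (nat_lit 5674479316) (nat_lit 456) (nat_lit 12223394994) (nat_lit 76) (nat_lit 1212657881) (nat_lit 137) (nat_lit 5) (nat_lit 143) (nat_lit 5) (nat_lit 138) (nat_lit 5) (nat_lit 493) (nat_lit 409) (nat_lit 238)) (XT.lf (nat_lit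 0) (nat_lit 9782877080) (nat_lit 456) (nat_lit 1590378327) (nat_lit 76) (nat_lit 7978256304) (nat_lit 137) (nat_lit 5) (nat_lit 143) (nat_lit 5) (nat_lit 138) (nat_lit 5) (nat_lit 494) (nat_lit 409) (nat_lit 237)))) (XT.nd (nat_lit 78) (nat_lit 456) (nat_lit 0) (XT.lf (nat_lit 0) (nat_lit 9364936981) (nat_lit 380) (nat_lit 4660493839) (nat_lit 456) (nat_lit 5570842031) (nat_lit 132) (nat_lit 5) (nat_lit 137) (nat_lit 5) (nat_lit 138) (nat_lit 5) (nat_lit 495) (nat_lit 409) (nat_lit 236)) (XT.nd (nat_lit 78) (nat_lit 76) (nat_lit 0) (XT.lf (nat_lit 0) (nat_lit 696827087) (nat_lit 380) (nat_lit 17676716198) (nat_lit 456) (nat_lit 1471973530) (nat_lit 127) (nat_lit 5) (nat_lit 132) (nat_lit 5) (nat_lit 133) (nat_lit 5) (nat_lit 496) (nat_lit 409) (nat_lit 235)) (XT.lf (nat_lit 0) (nat_lit 2764592738) (nat_lit 456) (nat_lit 8178313692) (nat_lit 76) (nat_lit 9154664206) (nat_lit 126) (nat_lit 5) (nat_lit 132) (nat_lit 5)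 (nat_lit 127) (nat_lit 5) (nat_lit 497) (nat_lit 409) (nat_lit 234)))))) (XT.nd (nat_lit 390) (nat_lit 304) (nat_lit 0) (XT.nd (nat_lit 156) (nat_lit 760) (nat_lit 0) (XT.nd (nat_lit 78) (nat_lit 0) (nat_lit 0) (XT.lf (nat_lit 0) (nat_lit 3028424082) (nat_lit 380) (nat_lit 4048879852) (nat_lit 456) (nat_lit 13276946189) (nat_lit 121) (nat_lit 5) (nat_lit 126) (nat_lit 5) (nat_lit 127) (nat_lit 5) (nat_lit 498) (nat_lit 409) (nat_lit 233)) (XT.lf (nat_lit 0) (nat_lit 11542378662) (nat_lit 456) (nat_lit 6077613492) (nat_lit 76) (nat_lit 2994750483) (nat_lit 121) (nat_lit 5) (nat_lit 127) (nat_lit 5) (nat_lit 122) (nat_lit 5) (nat_lit 499) (nat_lit 409) (nat_lit 232))) (XT.nd (nat_lit 78) (nat_lit 456) (nat_lit 0) (XT.lf (nat_lit 0) (nat_lit 5427110922) (nat_lit 304) (nat_lit 10723358135) (nat_lit 380) (nat_lit 4728903249) (nat_lit 117) (nat_lit 5) (nat_lit 121) (nat_lit 5) (nat_lit 122) (nat_lit 5) (nat_lit 500) (nat_lit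 409) (nat_lit 231)) (XT.nd (nat_lit 78) (nat_lit 456) (nat_lit 0) (XT.lf (nat_lit 0) (nat_lit 17231581643) (nat_lit 304) (nat_lit 3651668386) (nat_lit 380) (nat_lit 265395522) (nat_lit 117) (nat_lit 5) (nat_lit 121) (nat_lit 5) (nat_lit 122) (nat_lit 5) (nat_lit 501) (nat_lit 409) (nat_lit 230)) (XT.lf (nat_lit 0) (nat_lit 4297994257) (nat_lit 456) (nat_lit 13533324951) (nat_lit 76) (nat_lit 3590092986) (nat_lit 111) (nat_lit 5) (nat_lit 117) (nat_lit 5) (nat_lit 112) (nat_lit 5) (nat_lit 502) (nat_lit 409) (nat_lit 229))))) (XT.nd (nat_lit 52182) (nat_lit 0) (nat_lit 31312) (XT.nd (nat_lit 78) (nat_lit 304) (nat_lit 0) (XT.lf (nat_lit 0) (nat_lit 8991645659) (nat_lit 456) (nat_lit 1755428281) (nat_lit 76) (nat_lit 10951675664) (nat_lit 111) (nat_lit 5) (nat_lit 117) (nat_lit 5) (nat_lit 112) (nat_lit 5) (nat_lit 503) (nat_lit 409) (nat_lit 228)) (XT.nd (nat_lit 52026) (nat_lit 0) (nat_lit 31312) (XT.lf (nat_lit 0) (nat_lit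 10381790094) (nat_lit 304) (nat_lit 3456845538) (nat_lit 380) (nat_lit 8141810259) (nat_lit 107) (nat_lit 5) (nat_lit 111) (nat_lit 5) (nat_lit 112) (nat_lit 5) (nat_lit 504) (nat_lit 409) (nat_lit 227)) (XT.lf (nat_lit 0) (nat_lit 2153775401) (nat_lit 1444) (nat_lit 966011665) (nat_lit 1444) (nat_lit 966011665) (nat_lit 519) (nat_lit 3) (nat_lit 538) (nat_lit 3) (nat_lit 538) (nat_lit 5) (nat_lit 410) (nat_lit 410) (nat_lit 320)))) (XT.nd (nat_lit 78) (nat_lit 0) (nat_lit 0) (XT.lf (nat_lit 76) (nat_lit 2019288482) (nat_lit 0) (nat_lit 3466823934) (nat_lit 1444) (nat_lit 2744034592) (nat_lit 520) (nat_lit 5) (nat_lit 519) (nat_lit 3) (nat_lit 538) (nat_lit 5) (nat_lit 411) (nat_lit 410) (nat_lit 319)) (XT.nd (nat_lit 78) (nat_lit 0) (nat_lit 76) (XT.lf (nat_lit 76) (nat_lit 6060595451) (nat_lit 0) (nat_lit 611075573) (nat_lit 1444) (nat_lit 1618539986) (nat_lit 520) (nat_lit 5) (nat_lit 519) (nat_lit 3) (nat_lit 538)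 (nat_lit 5) (nat_lit 412) (nat_lit 410) (nat_lit 318)) (XT.lf (nat_lit 76) (nat_lit 1824634119) (nat_lit 0) (nat_lit 6054229361) (nat_lit 1444) (nat_lit 472666101) (nat_lit 521) (nat_lit 5) (nat_lit 520) (nat_lit 5) (nat_lit 539) (nat_lit 5) (nat_lit 413) (nat_lit 410) (nat_lit 317))))))))
noncomputable def xc168 : XT := (XT.nd (nat_lit 1638) (nat_lit 12084) (nat_lit 0) (XT.nd (nat_lit 780) (nat_lit 2812) (nat_lit 0) (XT.nd (nat_lit 390) (nat_lit 1292) (nat_lit 0) (XT.nd (nat_lit 156) (nat_lit 0) (nat_lit 76) (XT.nd (nat_lit 78) (nat_lit 0) (nat_lit 0) (XT.lf (nat_lit 0) (nat_lit 677500446) (nat_lit 1444) (nat_lit 2448141688) (nat_lit 1520) (nat_lit 5288543185) (nat_lit 501) (nat_lit 5) (nat_lit 520) (nat_lit 5) (nat_lit 521) (nat_lit 5) (nat_lit 414) (nat_lit 410) (nat_lit 316)) (XT.lf (nat_lit 76) (nat_lit 1715981376) (nat_lit 0) (nat_lit 111465150) (nat_lit 1520) (nat_lit 6650934123) (nat_lit 502) (nat_lit 5) (nat_lit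 501) (nat_lit 5) (nat_lit 521) (nat_lit 5) (nat_lit 415) (nat_lit 410) (nat_lit 315))) (XT.nd (nat_lit 78) (nat_lit 0) (nat_lit 0) (XT.lf (nat_lit 0) (nat_lit 3008652374) (nat_lit 1444) (nat_lit 2582425540) (nat_lit 1520) (nat_lit 2952627606) (nat_lit 502) (nat_lit 5) (nat_lit 521) (nat_lit 5) (nat_lit 522) (nat_lit 5) (nat_lit 416) (nat_lit 410) (nat_lit 314)) (XT.nd (nat_lit 78) (nat_lit 0) (nat_lit 76) (XT.lf (nat_lit 76) (nat_lit 1686727498) (nat_lit 0) (nat_lit 2511469860) (nat_lit 1520) (nat_lit 4412455867) (nat_lit 503) (nat_lit 5) (nat_lit 502) (nat_lit 5) (nat_lit 522) (nat_lit 5) (nat_lit 417) (nat_lit 410) (nat_lit 313)) (XT.lf (nat_lit 0) (nat_lit 5406588964) (nat_lit 1444) (nat_lit 2622839196) (nat_lit 1520) (nat_lit 649621037) (nat_lit 503) (nat_lit 5) (nat_lit 522) (nat_lit 5) (nat_lit 523) (nat_lit 5) (nat_lit 418) (nat_lit 410) (nat_lit 312))))) (XT.nd (nat_lit 156) (nat_lit 1444) (nat_lit 0) (XT.nd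 (nat_lit 78) (nat_lit 0) (nat_lit 0) (XT.lf (nat_lit 76) (nat_lit 1754657737) (nat_lit 0) (nat_lit 4886557373) (nat_lit 1520) (nat_lit 2107566870) (nat_lit 504) (nat_lit 5) (nat_lit 503) (nat_lit 5) (nat_lit 523) (nat_lit 5) (nat_lit 419) (nat_lit 410) (nat_lit 311)) (XT.lf (nat_lit 76) (nat_lit 6239371364) (nat_lit 0) (nat_lit 1653210936) (nat_lit 1520) (nat_lit 927496172) (nat_lit 504) (nat_lit 5) (nat_lit 503) (nat_lit 5) (nat_lit 523) (nat_lit 5) (nat_lit 420) (nat_lit 410) (nat_lit 310))) (XT.nd (nat_lit 78) (nat_lit 0) (nat_lit 0) (XT.lf (nat_lit 0) (nat_lit 270683008) (nat_lit 1520) (nat_lit 6975304402) (nat_lit 1596) (nat_lit 1646824673) (nat_lit 484) (nat_lit 5) (nat_lit 504) (nat_lit 5) (nat_lit 505) (nat_lit 5) (nat_lit 421) (nat_lit 410) (nat_lit 309)) (XT.nd (nat_lit 78) (nat_lit 0) (nat_lit 0) (XT.lf (nat_lit 0) (nat_lit 1484023045) (nat_lit 1520) (nat_lit 2459570410) (nat_lit 1596) (nat_lit 5023221412)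 (nat_lit 484) (nat_lit 5) (nat_lit 504) (nat_lit 5) (nat_lit 505) (nat_lit 5) (nat_lit 422) (nat_lit 410) (nat_lit 308)) (XT.lf (nat_lit 76) (nat_lit 2158731720) (nat_lit 0) (nat_lit 552623720) (nat_lit 1596) (nat_lit 6331157018) (nat_lit 485) (nat_lit 5) (nat_lit 484) (nat_lit 5) (nat_lit 505) (nat_lit 5) (nat_lit 423) (nat_lit 410) (nat_lit 307)))))) (XT.nd (nat_lit 390) (nat_lit 2888) (nat_lit 0) (XT.nd (nat_lit 156) (nat_lit 0) (nat_lit 76) (XT.nd (nat_lit 78) (nat_lit 0) (nat_lit 0) (XT.lf (nat_lit 0) (nat_lit 3974851605) (nat_lit 1520) (nat_lit 2252124131) (nat_lit 1596) (nat_lit 2892525000) (nat_lit 485) (nat_lit 5) (nat_lit 505) (nat_lit 5) (nat_lit 506) (nat_lit 5) (nat_lit 424) (nat_lit 410) (nat_lit 306)) (XT.lf (nat_lit 76) (nat_lit 2484927303) (nat_lit 0) (nat_lit 2775085959) (nat_lit 1596) (nat_lit 3938096508) (nat_lit 486) (nat_lit 5) (nat_lit 485) (nat_lit 5) (nat_lit 506) (nat_lit 5) (nat_lit 425) (nat_lit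 410) (nat_lit 305))) (XT.nd (nat_lit 78) (nat_lit 0) (nat_lit 0) (XT.lf (nat_lit 0) (nat_lit 6567935510) (nat_lit 1520) (nat_lit 1952260771) (nat_lit 1596) (nat_lit 758162283) (nat_lit 486) (nat_lit 5) (nat_lit 506) (nat_lit 5) (nat_lit 507) (nat_lit 5) (nat_lit 426) (nat_lit 410) (nat_lit 304)) (XT.nd (nat_lit 78) (nat_lit 0) (nat_lit 0) (XT.lf (nat_lit 76) (nat_lit 2907379799) (nat_lit 0) (nat_lit 5009343872) (nat_lit 1596) (nat_lit 1443203069) (nat_lit 487) (nat_lit 5) (nat_lit 486) (nat_lit 5) (nat_lit 507) (nat_lit 5) (nat_lit 427) (nat_lit 410) (nat_lit 303)) (XT.lf (nat_lit 76) (nat_lit 7874531197) (nat_lit 0) (nat_lit 1408847150) (nat_lit 1596) (nat_lit 159938504) (nat_lit 487) (nat_lit 5) (nat_lit 486) (nat_lit 5) (nat_lit 507) (nat_lit 5) (nat_lit 428) (nat_lit 410) (nat_lit 302))))) (XT.nd (nat_lit 234) (nat_lit 1444) (nat_lit 0) (XT.nd (nat_lit 78) (nat_lit 0) (nat_lit 0) (XT.lf (nat_lit 0) (nat_lit 1149223704)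 (nat_lit 1596) (nat_lit 6109056695) (nat_lit 1672) (nat_lit 2269647196) (nat_lit 466) (nat_lit 5) (nat_lit 487) (nat_lit 5) (nat_lit 488) (nat_lit 5) (nat_lit 429) (nat_lit 410) (nat_lit 301)) (XT.nd (nat_lit 78) (nat_lit 0) (nat_lit 76) (XT.lf (nat_lit 0) (nat_lit 2480792148) (nat_lit 1596) (nat_lit 1113431451) (nat_lit 1672) (nat_lit 6020026423) (nat_lit 466) (nat_lit 5) (nat_lit 487) (nat_lit 5) (nat_lit 488) (nat_lit 5) (nat_lit 430) (nat_lit 410) (nat_lit 300)) (XT.lf (nat_lit 0) (nat_lit 3845076044) (nat_lit 1596) (nat_lit 5684705259) (nat_lit 1672) (nat_lit 172403662) (nat_lit 467) (nat_lit 5) (nat_lit 488) (nat_lit 5) (nat_lit 489) (nat_lit 5) (nat_lit 431) (nat_lit 410) (nat_lit 299)))) (XT.nd (nat_lit 78) (nat_lit 1520) (nat_lit 0) (XT.lf (nat_lit 0) (nat_lit 5247168953) (nat_lit 1596) (nat_lit 566003069) (nat_lit 1672) (nat_lit 3978503716) (nat_lit 467) (nat_lit 5) (nat_lit 488) (nat_lit 5) (nat_lit 489) (nat_lit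 5) (nat_lit 432) (nat_lit 410) (nat_lit 298)) (XT.nd (nat_lit 78) (nat_lit 1520) (nat_lit 0) (XT.lf (nat_lit 76) (nat_lit 4700521792) (nat_lit 0) (nat_lit 1986908028) (nat_lit 1672) (nat_lit 3195331432) (nat_lit 468) (nat_lit 5) (nat_lit 467) (nat_lit 5) (nat_lit 489) (nat_lit 5) (nat_lit 433) (nat_lit 410) (nat_lit 297)) (XT.lf (nat_lit 0) (nat_lit 76467279) (nat_lit 1596) (nat_lit 8076716171) (nat_lit 1672) (nat_lit 1822558576) (nat_lit 447) (nat_lit 5) (nat_lit 468) (nat_lit 5) (nat_lit 469) (nat_lit 5) (nat_lit 434) (nat_lit 410) (nat_lit 296))))))) (XT.nd (nat_lit 858) (nat_lit 5624) (nat_lit 0) (XT.nd (nat_lit 390) (nat_lit 2964) (nat_lit 0) (XT.nd (nat_lit 156) (nat_lit 1748) (nat_lit 0) (XT.nd (nat_lit 78) (nat_lit 1748) (nat_lit 0) (XT.lf (nat_lit 0) (nat_lit 5480842077) (nat_lit 1596) (nat_lit 4195472911) (nat_lit 1672) (nat_lit 393713331) (nat_lit 447) (nat_lit 5) (nat_lit 468) (nat_lit 5) (nat_lit 469) (nat_lit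 5) (nat_lit 435) (nat_lit 410) (nat_lit 295)) (XT.lf (nat_lit 0) (nat_lit 814516260) (nat_lit 1672) (nat_lit 220998274) (nat_lit 1748) (nat_lit 9130839429) (nat_lit 424) (nat_lit 5) (nat_lit 446) (nat_lit 5) (nat_lit 447) (nat_lit 5) (nat_lit 436) (nat_lit 410) (nat_lit 294))) (XT.nd (nat_lit 78) (nat_lit 1748) (nat_lit 0) (XT.lf (nat_lit 0) (nat_lit 2524710988) (nat_lit 1748) (nat_lit 3919854879) (nat_lit 76) (nat_lit 3819261833) (nat_lit 424) (nat_lit 5) (nat_lit 447) (nat_lit 5) (nat_lit 425) (nat_lit 5) (nat_lit 437) (nat_lit 410) (nat_lit 293)) (XT.nd (nat_lit 78) (nat_lit 0) (nat_lit 0) (XT.lf (nat_lit 0) (nat_lit 1624265750) (nat_lit 1748) (nat_lit 2412577120) (nat_lit 1824) (nat_lit 6326551625) (nat_lit 401) (nat_lit 5) (nat_lit 424) (nat_lit 5) (nat_lit 425) (nat_lit 5) (nat_lit 438) (nat_lit 410) (nat_lit 292)) (XT.lf (nat_lit 0) (nat_lit 5598155554) (nat_lit 1824) (nat_lit 3159862143) (nat_lit 76) (nat_lit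 1706562650) (nat_lit 401) (nat_lit 5) (nat_lit 425) (nat_lit 5) (nat_lit 402) (nat_lit 5) (nat_lit 439) (nat_lit 410) (nat_lit 291))))) (XT.nd (nat_lit 234) (nat_lit 912) (nat_lit 0) (XT.nd (nat_lit 78) (nat_lit 912) (nat_lit 0) (XT.lf (nat_lit 0) (nat_lit 2531918043) (nat_lit 1140) (nat_lit 4672978762) (nat_lit 1216) (nat_lit 3362615421) (nat_lit 386) (nat_lit 5) (nat_lit 401) (nat_lit 5) (nat_lit 402) (nat_lit 5) (nat_lit 440) (nat_lit 410) (nat_lit 290)) (XT.nd (nat_lit 78) (nat_lit 912) (nat_lit 0) (XT.lf (nat_lit 0) (nat_lit 8364172862) (nat_lit 1140) (nat_lit 482842443) (nat_lit 1216) (nat_lit 1825428821) (nat_lit 386) (nat_lit 5) (nat_lit 401) (nat_lit 5) (nat_lit 402) (nat_lit 5) (nat_lit 441) (nat_lit 410) (nat_lit 289)) (XT.lf (nat_lit 0) (nat_lit 3539154679) (nat_lit 912) (nat_lit 7012815886) (nat_lit 988) (nat_lit 226910323) (nat_lit 374) (nat_lit 5) (nat_lit 386) (nat_lit 5) (nat_lit 387) (nat_lit 5) (nat_lit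 442) (nat_lit 410) (nat_lit 288)))) (XT.nd (nat_lit 78) (nat_lit 836) (nat_lit 0) (XT.lf (nat_lit 0) (nat_lit 1386481239) (nat_lit 988) (nat_lit 1381108448) (nat_lit 76) (nat_lit 8119654092) (nat_lit 373) (nat_lit 5) (nat_lit 386) (nat_lit 5) (nat_lit 374) (nat_lit 5) (nat_lit 443) (nat_lit 410) (nat_lit 287)) (XT.nd (nat_lit 78) (nat_lit 0) (nat_lit 0) (XT.lf (nat_lit 0) (nat_lit 3052442916) (nat_lit 912) (nat_lit 6369900970) (nat_lit 76) (nat_lit 1574938990) (nat_lit 362) (nat_lit 5) (nat_lit 374) (nat_lit 5) (nat_lit 363) (nat_lit 5) (nat_lit 444) (nat_lit 410) (nat_lit 286)) (XT.lf (nat_lit 0) (nat_lit 4762483893) (nat_lit 912) (nat_lit 369264037) (nat_lit 76) (nat_lit 5977565268) (nat_lit 362) (nat_lit 5) (nat_lit 374) (nat_lit 5) (nat_lit 363) (nat_lit 5) (nat_lit 445) (nat_lit 410) (nat_lit 285)))))) (XT.nd (nat_lit 390) (nat_lit 3040) (nat_lit 0) (XT.nd (nat_lit 156) (nat_lit 912) (nat_lit 0) (XT.nd (nat_lit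 78) (nat_lit 836) (nat_lit 0) (XT.lf (nat_lit 0) (nat_lit 5811625547) (nat_lit 836) (nat_lit 716266714) (nat_lit 912) (nat_lit 4695274069) (nat_lit 351) (nat_lit 5) (nat_lit 362) (nat_lit 5) (nat_lit 363) (nat_lit 5) (nat_lit 446) (nat_lit 410) (nat_lit 284)) (XT.lf (nat_lit 0) (nat_lit 750921542) (nat_lit 836) (nat_lit 7593306666) (nat_lit 912) (nat_lit 2994761353) (nat_lit 340) (nat_lit 5) (nat_lit 351) (nat_lit 5) (nat_lit 352) (nat_lit 5) (nat_lit 447) (nat_lit 410) (nat_lit 283))) (XT.nd (nat_lit 78) (nat_lit 912) (nat_lit 0) (XT.lf (nat_lit 0) (nat_lit 7089077270) (nat_lit 836) (nat_lit 3132714483) (nat_lit 912) (nat_lit 1234844807) (nat_lit 340) (nat_lit 5) (nat_lit 351) (nat_lit 5) (nat_lit 352) (nat_lit 5) (nat_lit 448) (nat_lit 410) (nat_lit 282)) (XT.nd (nat_lit 78) (nat_lit 0) (nat_lit 0) (XT.lf (nat_lit 0) (nat_lit 559191913) (nat_lit 912) (nat_lit 9602205250) (nat_lit 76) (nat_lit 1415046295) (nat_lit 328)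 (nat_lit 5) (nat_lit 340) (nat_lit 5) (nat_lit 329) (nat_lit 5) (nat_lit 449) (nat_lit 410) (nat_lit 281)) (XT.lf (nat_lit 0) (nat_lit 2407127761) (nat_lit 912) (nat_lit 3241321358) (nat_lit 76) (nat_lit 6049348083) (nat_lit 328) (nat_lit 5) (nat_lit 340) (nat_lit 5) (nat_lit 329) (nat_lit 5) (nat_lit 450) (nat_lit 410) (nat_lit 280))))) (XT.nd (nat_lit 234) (nat_lit 1520) (nat_lit 0) (XT.nd (nat_lit 78) (nat_lit 760) (nat_lit 0) (XT.lf (nat_lit 0) (nat_lit 3273817130) (nat_lit 760) (nat_lit 1024057397) (nat_lit 836) (nat_lit 7523591363) (nat_lit 318) (nat_lit 5) (nat_lit 328) (nat_lit 5) (nat_lit 329) (nat_lit 5) (nat_lit 451) (nat_lit 410) (nat_lit 279)) (XT.nd (nat_lit 78) (nat_lit 760) (nat_lit 0) (XT.lf (nat_lit 0) (nat_lit 6257099549) (nat_lit 836) (nat_lit 2024198118) (nat_lit 76) (nat_lit 3665701837) (nat_lit 318) (nat_lit 5) (nat_lit 329) (nat_lit 5) (nat_lit 319) (nat_lit 5) (nat_lit 452) (nat_lit 410) (nat_lit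 278)) (XT.lf (nat_lit 0) (nat_lit 4668381818) (nat_lit 760) (nat_lit 3609309566) (nat_lit 836) (nat_lit 3796913483) (nat_lit 308) (nat_lit 5) (nat_lit 318) (nat_lit 5) (nat_lit 319) (nat_lit 5) (nat_lit 453) (nat_lit 410) (nat_lit 277)))) (XT.nd (nat_lit 78) (nat_lit 1520) (nat_lit 0) (XT.lf (nat_lit 0) (nat_lit 10345149275) (nat_lit 836) (nat_lit 705808496) (nat_lit 76) (nat_lit 1153680112) (nat_lit 308) (nat_lit 5) (nat_lit 319) (nat_lit 5) (nat_lit 309) (nat_lit 5) (nat_lit 454) (nat_lit 410) (nat_lit 276)) (XT.nd (nat_lit 78) (nat_lit 760) (nat_lit 0) (XT.lf (nat_lit 0) (nat_lit 165003460) (nat_lit 760) (nat_lit 6167399486) (nat_lit 76) (nat_lit 6003860931) (nat_lit 298) (nat_lit 5) (nat_lit 308) (nat_lit 5) (nat_lit 299) (nat_lit 5) (nat_lit 455) (nat_lit 410) (nat_lit 275)) (XT.lf (nat_lit 0) (nat_lit 701269553) (nat_lit 760) (nat_lit 1498807907) (nat_lit 836) (nat_lit 10270303658) (nat_lit 288) (nat_lit 5) (nat_lit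 298) (nat_lit 5) (nat_lit 299) (nat_lit 5) (nat_lit 456) (nat_lit 410) (nat_lit 274))))))))
noncomputable def xc169 : XT := (XT.nd (nat_lit 1716) (nat_lit 5244) (nat_lit 0) (XT.nd (nat_lit 858) (nat_lit 3420) (nat_lit 0) (XT.nd (nat_lit 390) (nat_lit 2584) (nat_lit 0) (XT.nd (nat_lit 156) (nat_lit 760) (nat_lit 0) (XT.nd (nat_lit 78) (nat_lit 684) (nat_lit 0) (XT.lf (nat_lit 0) (nat_lit 4325609636) (nat_lit 836) (nat_lit 4853920562) (nat_lit 76) (nat_lit 3426659650) (nat_lit 288) (nat_lit 5) (nat_lit 299) (nat_lit 5) (nat_lit 289) (nat_lit 5) (nat_lit 457) (nat_lit 410) (nat_lit 273)) (XT.lf (nat_lit 0) (nat_lit 2202925542) (nat_lit 684) (nat_lit 4301050555) (nat_lit 760) (nat_lit 6240536376) (nat_lit 279) (nat_lit 5) (nat_lit 288) (nat_lit 5) (nat_lit 289) (nat_lit 5) (nat_lit 458) (nat_lit 410) (nat_lit 272))) (XT.nd (nat_lit 78) (nat_lit 760) (nat_lit 0) (XT.lf (nat_lit 0) (nat_lit 8749335796) (nat_lit 760) (nat_lit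 3438622715) (nat_lit 76) (nat_lit 697178633) (nat_lit 279) (nat_lit 5) (nat_lit 289) (nat_lit 5) (nat_lit 280) (nat_lit 5) (nat_lit 459) (nat_lit 410) (nat_lit 271)) (XT.nd (nat_lit 78) (nat_lit 76) (nat_lit 0) (XT.lf (nat_lit 0) (nat_lit 3812448243) (nat_lit 684) (nat_lit 7266915967) (nat_lit 760) (nat_lit 1948418900) (nat_lit 270) (nat_lit 5) (nat_lit 279) (nat_lit 5) (nat_lit 280) (nat_lit 5) (nat_lit 460) (nat_lit 410) (nat_lit 270)) (XT.lf (nat_lit 0) (nat_lit 288828361) (nat_lit 760) (nat_lit 1935206725) (nat_lit 76) (nat_lit 10949017573) (nat_lit 269) (nat_lit 5) (nat_lit 279) (nat_lit 5) (nat_lit 270) (nat_lit 5) (nat_lit 461) (nat_lit 410) (nat_lit 269))))) (XT.nd (nat_lit 234) (nat_lit 1292) (nat_lit 0) (XT.nd (nat_lit 78) (nat_lit 684) (nat_lit 0) (XT.lf (nat_lit 0) (nat_lit 2586818727) (nat_lit 684) (nat_lit 7804816209) (nat_lit 76) (nat_lit 2928497132) (nat_lit 261) (nat_lit 5) (nat_lit 270) (nat_lit 5)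 (nat_lit 262) (nat_lit 5) (nat_lit 462) (nat_lit 410) (nat_lit 268)) (XT.nd (nat_lit 78) (nat_lit 684) (nat_lit 0) (XT.lf (nat_lit 0) (nat_lit 4945575124) (nat_lit 684) (nat_lit 359020932) (nat_lit 76) (nat_lit 8165264608) (nat_lit 261) (nat_lit 5) (nat_lit 270) (nat_lit 5) (nat_lit 262) (nat_lit 5) (nat_lit 463) (nat_lit 410) (nat_lit 267)) (XT.lf (nat_lit 0) (nat_lit 7316556026) (nat_lit 684) (nat_lit 69714613) (nat_lit 760) (nat_lit 6235621564) (nat_lit 252) (nat_lit 5) (nat_lit 261) (nat_lit 5) (nat_lit 262) (nat_lit 5) (nat_lit 464) (nat_lit 410) (nat_lit 266)))) (XT.nd (nat_lit 78) (nat_lit 684) (nat_lit 0) (XT.lf (nat_lit 0) (nat_lit 1341727959) (nat_lit 608) (nat_lit 8566801022) (nat_lit 684) (nat_lit 3867783993) (nat_lit 244) (nat_lit 5) (nat_lit 252) (nat_lit 5) (nat_lit 253) (nat_lit 5) (nat_lit 465) (nat_lit 410) (nat_lit 265)) (XT.nd (nat_lit 78) (nat_lit 684) (nat_lit 0) (XT.lf (nat_lit 0) (nat_lit 9211603670)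 (nat_lit 608) (nat_lit 3299945361) (nat_lit 684) (nat_lit 1421670309) (nat_lit 244) (nat_lit 5) (nat_lit 252) (nat_lit 5) (nat_lit 253) (nat_lit 5) (nat_lit 466) (nat_lit 410) (nat_lit 264)) (XT.lf (nat_lit 0) (nat_lit 1081163320) (nat_lit 684) (nat_lit 10941428583) (nat_lit 76) (nat_lit 2070098421) (nat_lit 235) (nat_lit 5) (nat_lit 244) (nat_lit 5) (nat_lit 236) (nat_lit 5) (nat_lit 467) (nat_lit 410) (nat_lit 263)))))) (XT.nd (nat_lit 390) (nat_lit 1748) (nat_lit 0) (XT.nd (nat_lit 156) (nat_lit 1140) (nat_lit 0) (XT.nd (nat_lit 78) (nat_lit 532) (nat_lit 0) (XT.lf (nat_lit 0) (nat_lit 3656615684) (nat_lit 684) (nat_lit 3055728553) (nat_lit 76) (nat_lit 7541989889) (nat_lit 235) (nat_lit 5) (nat_lit 244) (nat_lit 5) (nat_lit 236) (nat_lit 5) (nat_lit 468) (nat_lit 410) (nat_lit 262)) (XT.lf (nat_lit 0) (nat_lit 5038936596) (nat_lit 532) (nat_lit 1265427336) (nat_lit 608) (nat_lit 8114434377) (nat_lit 228) (nat_lit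 5) (nat_lit 235) (nat_lit 5) (nat_lit 236) (nat_lit 5) (nat_lit 469) (nat_lit 410) (nat_lit 261))) (XT.nd (nat_lit 78) (nat_lit 1140) (nat_lit 0) (XT.lf (nat_lit 0) (nat_lit 9041754601) (nat_lit 608) (nat_lit 1292175220) (nat_lit 76) (nat_lit 4251891384) (nat_lit 228) (nat_lit 5) (nat_lit 236) (nat_lit 5) (nat_lit 229) (nat_lit 5) (nat_lit 470) (nat_lit 410) (nat_lit 260)) (XT.nd (nat_lit 78) (nat_lit 532) (nat_lit 0) (XT.lf (nat_lit 0) (nat_lit 7026372408) (nat_lit 608) (nat_lit 4849942236) (nat_lit 684) (nat_lit 2879024601) (nat_lit 220) (nat_lit 5) (nat_lit 228) (nat_lit 5) (nat_lit 229) (nat_lit 5) (nat_lit 471) (nat_lit 410) (nat_lit 259)) (XT.lf (nat_lit 0) (nat_lit 588788779) (nat_lit 532) (nat_lit 14184690830) (nat_lit 608) (nat_lit 154652817) (nat_lit 213) (nat_lit 5) (nat_lit 220) (nat_lit 5) (nat_lit 221) (nat_lit 5) (nat_lit 472) (nat_lit 410) (nat_lit 258))))) (XT.nd (nat_lit 234) (nat_lit 1140) (nat_lit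 0) (XT.nd (nat_lit 78) (nat_lit 532) (nat_lit 0) (XT.lf (nat_lit 0) (nat_lit 2662702227) (nat_lit 608) (nat_lit 5990013918) (nat_lit 76) (nat_lit 6449869244) (nat_lit 212) (nat_lit 5) (nat_lit 220) (nat_lit 5) (nat_lit 213) (nat_lit 5) (nat_lit 473) (nat_lit 410) (nat_lit 257)) (XT.nd (nat_lit 78) (nat_lit 0) (nat_lit 0) (XT.lf (nat_lit 0) (nat_lit 2544098391) (nat_lit 532) (nat_lit 2995563939) (nat_lit 608) (nat_lit 9740740941) (nat_lit 205) (nat_lit 5) (nat_lit 212) (nat_lit 5) (nat_lit 213) (nat_lit 5) (nat_lit 474) (nat_lit 410) (nat_lit 256)) (XT.lf (nat_lit 0) (nat_lit 8521551862) (nat_lit 608) (nat_lit 4163818609) (nat_lit 76) (nat_lit 2775462057) (nat_lit 205) (nat_lit 5) (nat_lit 213) (nat_lit 5) (nat_lit 206) (nat_lit 5) (nat_lit 475) (nat_lit 410) (nat_lit 255)))) (XT.nd (nat_lit 78) (nat_lit 608) (nat_lit 0) (XT.lf (nat_lit 0) (nat_lit 4606326735) (nat_lit 532) (nat_lit 6995627836) (nat_lit 608) (nat_lit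 4042141060) (nat_lit 198) (nat_lit 5) (nat_lit 205) (nat_lit 5) (nat_lit 206) (nat_lit 5) (nat_lit 476) (nat_lit 410) (nat_lit 254)) (XT.nd (nat_lit 78) (nat_lit 608) (nat_lit 0) (XT.lf (nat_lit 0) (nat_lit 13594045870) (nat_lit 532) (nat_lit 1167111249) (nat_lit 608) (nat_lit 1069525753) (nat_lit 198) (nat_lit 5) (nat_lit 205) (nat_lit 5) (nat_lit 206) (nat_lit 5) (nat_lit 477) (nat_lit 410) (nat_lit 253)) (XT.lf (nat_lit 0) (nat_lit 2001735994) (nat_lit 608) (nat_lit 9248592701) (nat_lit 76) (nat_lit 4769122263) (nat_lit 190) (nat_lit 5) (nat_lit 198) (nat_lit 5) (nat_lit 191) (nat_lit 5) (nat_lit 478) (nat_lit 410) (nat_lit 252))))))) (XT.nd (nat_lit 858) (nat_lit 2432) (nat_lit 0) (XT.nd (nat_lit 390) (nat_lit 1368) (nat_lit 0) (XT.nd (nat_lit 156) (nat_lit 988) (nat_lit 0) (XT.nd (nat_lit 78) (nat_lit 456) (nat_lit 0) (XT.lf (nat_lit 0) (nat_lit 5132435630) (nat_lit 608) (nat_lit 252015167) (nat_lit 76) (nat_lit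 10827158102) (nat_lit 190) (nat_lit 5) (nat_lit 198) (nat_lit 5) (nat_lit 191) (nat_lit 5) (nat_lit 479) (nat_lit 410) (nat_lit 251)) (XT.lf (nat_lit 0) (nat_lit 8378312099) (nat_lit 532) (nat_lit 7381939958) (nat_lit 76) (nat_lit 646309191) (nat_lit 184) (nat_lit 5) (nat_lit 191) (nat_lit 5) (nat_lit 185) (nat_lit 5) (nat_lit 480) (nat_lit 410) (nat_lit 250))) (XT.nd (nat_lit 78) (nat_lit 532) (nat_lit 0) (XT.lf (nat_lit 0) (nat_lit 1859502847) (nat_lit 456) (nat_lit 9868814584) (nat_lit 532) (nat_lit 4876313445) (nat_lit 178) (nat_lit 5) (nat_lit 184) (nat_lit 5) (nat_lit 185) (nat_lit 5) (nat_lit 481) (nat_lit 410) (nat_lit 249)) (XT.nd (nat_lit 78) (nat_lit 532) (nat_lit 0) (XT.lf (nat_lit 0) (nat_lit 11371888194) (nat_lit 456) (nat_lit 3812858487) (nat_lit 532) (nat_lit 1621129148) (nat_lit 178) (nat_lit 5) (nat_lit 184) (nat_lit 5) (nat_lit 185) (nat_lit 5) (nat_lit 482) (nat_lit 410) (nat_lit 248)) (XT.lf (nat_lit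 0) (nat_lit 1709034975) (nat_lit 532) (nat_lit 12933968270) (nat_lit 76) (nat_lit 2367280890) (nat_lit 171) (nat_lit 5) (nat_lit 178) (nat_lit 5) (nat_lit 172) (nat_lit 5) (nat_lit 483) (nat_lit 410) (nat_lit 247))))) (XT.nd (nat_lit 234) (nat_lit 912) (nat_lit 0) (XT.nd (nat_lit 78) (nat_lit 456) (nat_lit 0) (XT.lf (nat_lit 0) (nat_lit 5136171975) (nat_lit 532) (nat_lit 3417690755) (nat_lit 76) (nat_lit 8663664305) (nat_lit 171) (nat_lit 5) (nat_lit 178) (nat_lit 5) (nat_lit 172) (nat_lit 5) (nat_lit 484) (nat_lit 410) (nat_lit 246)) (XT.nd (nat_lit 78) (nat_lit 0) (nat_lit 0) (XT.lf (nat_lit 0) (nat_lit 6358684215) (nat_lit 456) (nat_lit 2304745529) (nat_lit 532) (nat_lit 8764855714) (nat_lit 165) (nat_lit 5) (nat_lit 171) (nat_lit 5) (nat_lit 172) (nat_lit 5) (nat_lit 485) (nat_lit 410) (nat_lit 245)) (XT.lf (nat_lit 0) (nat_lit 12301110179) (nat_lit 532) (nat_lit 1306161317) (nat_lit 76) (nat_lit 4035192184) (nat_lit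 165) (nat_lit 5) (nat_lit 172) (nat_lit 5) (nat_lit 166) (nat_lit 5) (nat_lit 486) (nat_lit 410) (nat_lit 244)))) (XT.nd (nat_lit 78) (nat_lit 532) (nat_lit 0) (XT.lf (nat_lit 0) (nat_lit 8738456789) (nat_lit 380) (nat_lit 7335645505) (nat_lit 456) (nat_lit 1785574151) (nat_lit 160) (nat_lit 5) (nat_lit 165) (nat_lit 5) (nat_lit 166) (nat_lit 5) (nat_lit 487) (nat_lit 410) (nat_lit 243)) (XT.nd (nat_lit 78) (nat_lit 0) (nat_lit 0) (XT.lf (nat_lit 0) (nat_lit 907024605) (nat_lit 456) (nat_lit 915452537) (nat_lit 532) (nat_lit 16258413165) (nat_lit 153) (nat_lit 5) (nat_lit 159) (nat_lit 5) (nat_lit 160) (nat_lit 5) (nat_lit 488) (nat_lit 410) (nat_lit 242)) (XT.lf (nat_lit 0) (nat_lit 5567655235) (nat_lit 532) (nat_lit 7108180073) (nat_lit 76) (nat_lit 5628681610) (nat_lit 153) (nat_lit 5) (nat_lit 160) (nat_lit 5) (nat_lit 154) (nat_lit 5) (nat_lit 489) (nat_lit 410) (nat_lit 241)))))) (XT.nd (nat_lit 390) (nat_lit 1216)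 (nat_lit 0) (XT.nd (nat_lit 156) (nat_lit 836) (nat_lit 0) (XT.nd (nat_lit 78) (nat_lit 0) (nat_lit 0) (XT.lf (nat_lit 0) (nat_lit 3181198644) (nat_lit 380) (nat_lit 6224102957) (nat_lit 456) (nat_lit 9126965142) (nat_lit 148) (nat_lit 5) (nat_lit 153) (nat_lit 5) (nat_lit 154) (nat_lit 5) (nat_lit 490) (nat_lit 410) (nat_lit 240)) (XT.lf (nat_lit 0) (nat_lit 13360946737) (nat_lit 456) (nat_lit 5006879892) (nat_lit 76) (nat_lit 395921955) (nat_lit 148) (nat_lit 5) (nat_lit 154) (nat_lit 5) (nat_lit 149) (nat_lit 5) (nat_lit 491) (nat_lit 410) (nat_lit 239))) (XT.nd (nat_lit 78) (nat_lit 456) (nat_lit 0) (XT.lf (nat_lit 0) (nat_lit 5562843372) (nat_lit 380) (nat_lit 11901291063) (nat_lit 456) (nat_lit 1534358933) (nat_lit 143) (nat_lit 5) (nat_lit 148) (nat_lit 5) (nat_lit 149) (nat_lit 5) (nat_lit 492) (nat_lit 410) (nat_lit 238)) (XT.nd (nat_lit 78) (nat_lit 380) (nat_lit 0) (XT.lf (nat_lit 0) (nat_lit 2404770287) (nat_lit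 456) (nat_lit 2854430528) (nat_lit 76) (nat_lit 13977922043) (nat_lit 142) (nat_lit 5) (nat_lit 148) (nat_lit 5) (nat_lit 143) (nat_lit 5) (nat_lit 493) (nat_lit 410) (nat_lit 237)) (XT.lf (nat_lit 0) (nat_lit 6455754277) (nat_lit 456) (nat_lit 11469102590) (nat_lit 76) (nat_lit 1554394673) (nat_lit 137) (nat_lit 5) (nat_lit 143) (nat_lit 5) (nat_lit 138) (nat_lit 5) (nat_lit 494) (nat_lit 410) (nat_lit 236))))) (XT.nd (nat_lit 234) (nat_lit 456) (nat_lit 0) (XT.nd (nat_lit 78) (nat_lit 760) (nat_lit 0) (XT.lf (nat_lit 0) (nat_lit 10633226165) (nat_lit 456) (nat_lit 643009125) (nat_lit 76) (nat_lit 8449079896) (nat_lit 137) (nat_lit 5) (nat_lit 143) (nat_lit 5) (nat_lit 138) (nat_lit 5) (nat_lit 495) (nat_lit 410) (nat_lit 235)) (XT.nd (nat_lit 78) (nat_lit 380) (nat_lit 0) (XT.lf (nat_lit 0) (nat_lit 10524970537) (nat_lit 380) (nat_lit 4429138993) (nat_lit 456) (nat_lit 5020995053) (nat_lit 132) (nat_lit 5) (nat_lit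 137) (nat_lit 5) (nat_lit 138) (nat_lit 5) (nat_lit 496) (nat_lit 410) (nat_lit 234)) (XT.lf (nat_lit 0) (nat_lit 1688013030) (nat_lit 380) (nat_lit 17696872918) (nat_lit 456) (nat_lit 844535999) (nat_lit 127) (nat_lit 5) (nat_lit 132) (nat_lit 5) (nat_lit 133) (nat_lit 5) (nat_lit 497) (nat_lit 410) (nat_lit 233)))) (XT.nd (nat_lit 78) (nat_lit 380) (nat_lit 0) (XT.lf (nat_lit 0) (nat_lit 3455435516) (nat_lit 456) (nat_lit 7375223373) (nat_lit 76) (nat_lit 9656029334) (nat_lit 126) (nat_lit 5) (nat_lit 132) (nat_lit 5) (nat_lit 127) (nat_lit 5) (nat_lit 498) (nat_lit 410) (nat_lit 232)) (XT.nd (nat_lit 78) (nat_lit 0) (nat_lit 0) (XT.lf (nat_lit 0) (nat_lit 4049289573) (nat_lit 380) (nat_lit 3798884465) (nat_lit 456) (nat_lit 12900454209) (nat_lit 121) (nat_lit 5) (nat_lit 126) (nat_lit 5) (nat_lit 127) (nat_lit 5) (nat_lit 499) (nat_lit 410) (nat_lit 231)) (XT.lf (nat_lit 0) (nat_lit 12392317334) (nat_lit 456) (nat_lit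 5247347142) (nat_lit 76) (nat_lit 3374873153) (nat_lit 121) (nat_lit 5) (nat_lit 127) (nat_lit 5) (nat_lit 122) (nat_lit 5) (nat_lit 500) (nat_lit 410) (nat_lit 230))))))))
noncomputable def xc170 : XT := (XT.nd (nat_lit 53742) (nat_lit 0) (nat_lit 16492) (XT.nd (nat_lit 52884) (nat_lit 0) (nat_lit 26904) (XT.nd (nat_lit 52416) (nat_lit 0) (nat_lit 29564) (XT.nd (nat_lit 156) (nat_lit 380) (nat_lit 0) (XT.nd (nat_lit 78) (nat_lit 76) (nat_lit 0) (XT.lf (nat_lit 0) (nat_lit 6481209795) (nat_lit 304) (nat_lit 10605359881) (nat_lit 380) (nat_lit 4198012527) (nat_lit 117) (nat_lit 5) (nat_lit 121) (nat_lit 5) (nat_lit 122) (nat_lit 5) (nat_lit 501) (nat_lit 410) (nat_lit 229)) (XT.lf (nat_lit 0) (nat_lit 338009294) (nat_lit 380) (nat_lit 3058477752) (nat_lit 76) (nat_lit 18162952089) (nat_lit 116) (nat_lit 5) (nat_lit 121) (nat_lit 5) (nat_lit 117) (nat_lit 5) (nat_lit 502) (nat_lit 410) (nat_lit 228))) (XT.nd (nat_lit 78)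 (nat_lit 0) (nat_lit 0) (XT.lf (nat_lit 0) (nat_lit 4985422975) (nat_lit 456) (nat_lit 12865018981) (nat_lit 76) (nat_lit 3987260057) (nat_lit 111) (nat_lit 5) (nat_lit 117) (nat_lit 5) (nat_lit 112) (nat_lit 5) (nat_lit 503) (nat_lit 410) (nat_lit 227)) (XT.nd (nat_lit 52104) (nat_lit 0) (nat_lit 31008) (XT.lf (nat_lit 0) (nat_lit 9761153898) (nat_lit 456) (nat_lit 869975603) (nat_lit 76) (nat_lit 11489694678) (nat_lit 111) (nat_lit 5) (nat_lit 117) (nat_lit 5) (nat_lit 112) (nat_lit 5) (nat_lit 504) (nat_lit 410) (nat_lit 226)) (XT.lf (nat_lit 0) (nat_lit 3311939249) (nat_lit 1444) (nat_lit 416409974) (nat_lit 1444) (nat_lit 416409974) (nat_lit 519) (nat_lit 3) (nat_lit 538) (nat_lit 3) (nat_lit 538) (nat_lit 5) (nat_lit 411) (nat_lit 411) (nat_lit 318))))) (XT.nd (nat_lit 234) (nat_lit 0) (nat_lit 76) (XT.nd (nat_lit 78) (nat_lit 1444) (nat_lit 0) (XT.lf (nat_lit 76) (nat_lit 3190032285) (nat_lit 0) (nat_lit 4599589139)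 (nat_lit 1444) (nat_lit 560363099) (nat_lit 520) (nat_lit 5) (nat_lit 519) (nat_lit 3) (nat_lit 538) (nat_lit 5) (nat_lit 412) (nat_lit 411) (nat_lit 317)) (XT.nd (nat_lit 78) (nat_lit 0) (nat_lit 76) (XT.lf (nat_lit 0) (nat_lit 536616862) (nat_lit 1444) (nat_lit 1125656423) (nat_lit 1520) (nat_lit 6749783666) (nat_lit 500) (nat_lit 5) (nat_lit 519) (nat_lit 3) (nat_lit 520) (nat_lit 5) (nat_lit 413) (nat_lit 411) (nat_lit 316)) (XT.lf (nat_lit 0) (nat_lit 1648454869) (nat_lit 1444) (nat_lit 5474007674) (nat_lit 1520) (nat_lit 1352836837) (nat_lit 501) (nat_lit 5) (nat_lit 520) (nat_lit 5) (nat_lit 521) (nat_lit 5) (nat_lit 414) (nat_lit 411) (nat_lit 315)))) (XT.nd (nat_lit 78) (nat_lit 0) (nat_lit 0) (XT.lf (nat_lit 0) (nat_lit 2773649681) (nat_lit 1444) (nat_lit 1339952111) (nat_lit 1520) (nat_lit 4426393314) (nat_lit 501) (nat_lit 5) (nat_lit 520) (nat_lit 5) (nat_lit 521) (nat_lit 5) (nat_lit 415) (nat_lit 411)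 (nat_lit 314)) (XT.nd (nat_lit 78) (nat_lit 0) (nat_lit 76) (XT.lf (nat_lit 76) (nat_lit 2899840570) (nat_lit 0) (nat_lit 1013382408) (nat_lit 1520) (nat_lit 4692934916) (nat_lit 502) (nat_lit 5) (nat_lit 501) (nat_lit 5) (nat_lit 521) (nat_lit 5) (nat_lit 416) (nat_lit 411) (nat_lit 313)) (XT.lf (nat_lit 0) (nat_lit 5072145176) (nat_lit 1444) (nat_lit 1460376691) (nat_lit 1520) (nat_lit 2141201349) (nat_lit 502) (nat_lit 5) (nat_lit 521) (nat_lit 5) (nat_lit 522) (nat_lit 5) (nat_lit 417) (nat_lit 411) (nat_lit 312)))))) (XT.nd (nat_lit 390) (nat_lit 1368) (nat_lit 0) (XT.nd (nat_lit 156) (nat_lit 1444) (nat_lit 0) (XT.nd (nat_lit 78) (nat_lit 0) (nat_lit 0) (XT.lf (nat_lit 76) (nat_lit 2886437714) (nat_lit 0) (nat_lit 3367332853) (nat_lit 1520) (nat_lit 2488889009) (nat_lit 503) (nat_lit 5) (nat_lit 502) (nat_lit 5) (nat_lit 522) (nat_lit 5) (nat_lit 418) (nat_lit 411) (nat_lit 311)) (XT.lf (nat_lit 76) (nat_lit 7324894085)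 (nat_lit 0) (nat_lit 118417616) (nat_lit 1520) (nat_lit 1369987320) (nat_lit 503) (nat_lit 5) (nat_lit 502) (nat_lit 5) (nat_lit 522) (nat_lit 5) (nat_lit 419) (nat_lit 411) (nat_lit 310))) (XT.nd (nat_lit 78) (nat_lit 1520) (nat_lit 0) (XT.lf (nat_lit 76) (nat_lit 2969597229) (nat_lit 0) (nat_lit 5702124207) (nat_lit 1520) (nat_lit 213338091) (nat_lit 504) (nat_lit 5) (nat_lit 503) (nat_lit 5) (nat_lit 523) (nat_lit 5) (nat_lit 420) (nat_lit 411) (nat_lit 309)) (XT.nd (nat_lit 78) (nat_lit 0) (nat_lit 76) (XT.lf (nat_lit 0) (nat_lit 939875334) (nat_lit 1520) (nat_lit 1443853239) (nat_lit 1596) (nat_lit 6574688494) (nat_lit 483) (nat_lit 5) (nat_lit 503) (nat_lit 5) (nat_lit 504) (nat_lit 5) (nat_lit 421) (nat_lit 411) (nat_lit 308)) (XT.lf (nat_lit 0) (nat_lit 2116151751) (nat_lit 1520) (nat_lit 5898324541) (nat_lit 1596) (nat_lit 1018689417) (nat_lit 484) (nat_lit 5) (nat_lit 504) (nat_lit 5) (nat_lit 505) (nat_lit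 5) (nat_lit 422) (nat_lit 411) (nat_lit 307))))) (XT.nd (nat_lit 234) (nat_lit 1444) (nat_lit 0) (XT.nd (nat_lit 78) (nat_lit 0) (nat_lit 0) (XT.lf (nat_lit 0) (nat_lit 3317679078) (nat_lit 1520) (nat_lit 1316128535) (nat_lit 1596) (nat_lit 4475576282) (nat_lit 484) (nat_lit 5) (nat_lit 504) (nat_lit 5) (nat_lit 505) (nat_lit 5) (nat_lit 423) (nat_lit 411) (nat_lit 306)) (XT.nd (nat_lit 78) (nat_lit 0) (nat_lit 76) (XT.lf (nat_lit 76) (nat_lit 3386693366) (nat_lit 0) (nat_lit 1155185107) (nat_lit 1596) (nat_lit 4645284043) (nat_lit 485) (nat_lit 5) (nat_lit 484) (nat_lit 5) (nat_lit 505) (nat_lit 5) (nat_lit 424) (nat_lit 411) (nat_lit 305)) (XT.lf (nat_lit 0) (nat_lit 5792050065) (nat_lit 1520) (nat_lit 1096355171) (nat_lit 1596) (nat_lit 2378070435) (nat_lit 485) (nat_lit 5) (nat_lit 505) (nat_lit 5) (nat_lit 506) (nat_lit 5) (nat_lit 425) (nat_lit 411) (nat_lit 304)))) (XT.nd (nat_lit 78) (nat_lit 1520) (nat_lit 0)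 (XT.lf (nat_lit 76) (nat_lit 3727537216) (nat_lit 0) (nat_lit 3349050334) (nat_lit 1596) (nat_lit 2270608845) (nat_lit 486) (nat_lit 5) (nat_lit 485) (nat_lit 5) (nat_lit 506) (nat_lit 5) (nat_lit 426) (nat_lit 411) (nat_lit 303)) (XT.nd (nat_lit 78) (nat_lit 1596) (nat_lit 0) (XT.lf (nat_lit 0) (nat_lit 8373811689) (nat_lit 1520) (nat_lit 784293103) (nat_lit 1596) (nat_lit 271695211) (nat_lit 486) (nat_lit 5) (nat_lit 506) (nat_lit 5) (nat_lit 507) (nat_lit 5) (nat_lit 427) (nat_lit 411) (nat_lit 302)) (XT.lf (nat_lit 0) (nat_lit 208246649) (nat_lit 1596) (nat_lit 5350283610) (nat_lit 1672) (nat_lit 3954955311) (nat_lit 465) (nat_lit 5) (nat_lit 486) (nat_lit 5) (nat_lit 487) (nat_lit 5) (nat_lit 428) (nat_lit 411) (nat_lit 301))))))) (XT.nd (nat_lit 858) (nat_lit 5548) (nat_lit 0) (XT.nd (nat_lit 390) (nat_lit 4864) (nat_lit 0) (XT.nd (nat_lit 156) (nat_lit 0) (nat_lit 76) (XT.nd (nat_lit 78) (nat_lit 0) (nat_lit 76)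 (XT.lf (nat_lit 0) (nat_lit 1467440883) (nat_lit 1596) (nat_lit 401301551) (nat_lit 1672) (nat_lit 7730294431) (nat_lit 465) (nat_lit 5) (nat_lit 486) (nat_lit 5) (nat_lit 487) (nat_lit 5) (nat_lit 429) (nat_lit 411) (nat_lit 300)) (XT.lf (nat_lit 0) (nat_lit 2773752345) (nat_lit 1596) (nat_lit 5005955796) (nat_lit 1672) (nat_lit 1906160127) (nat_lit 466) (nat_lit 5) (nat_lit 487) (nat_lit 5) (nat_lit 488) (nat_lit 5) (nat_lit 430) (nat_lit 411) (nat_lit 299))) (XT.nd (nat_lit 78) (nat_lit 0) (nat_lit 0) (XT.lf (nat_lit 76) (nat_lit 66428028) (nat_lit 0) (nat_lit 4034552597) (nat_lit 1672) (nat_lit 5673567459) (nat_lit 467) (nat_lit 5) (nat_lit 466) (nat_lit 5) (nat_lit 488) (nat_lit 5) (nat_lit 431) (nat_lit 411) (nat_lit 298)) (XT.nd (nat_lit 78) (nat_lit 0) (nat_lit 76) (XT.lf (nat_lit 76) (nat_lit 5292363247) (nat_lit 0) (nat_lit 175559698) (nat_lit 1672) (nat_lit 4396822611) (nat_lit 467) (nat_lit 5) (nat_lit 466)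 (nat_lit 5) (nat_lit 488) (nat_lit 5) (nat_lit 432) (nat_lit 411) (nat_lit 297)) (XT.lf (nat_lit 76) (nat_lit 634088053) (nat_lit 0) (nat_lit 6236656425) (nat_lit 1672) (nat_lit 3085838993) (nat_lit 468) (nat_lit 5) (nat_lit 467) (nat_lit 5) (nat_lit 489) (nat_lit 5) (nat_lit 433) (nat_lit 411) (nat_lit 296))))) (XT.nd (nat_lit 234) (nat_lit 3420) (nat_lit 0) (XT.nd (nat_lit 78) (nat_lit 1596) (nat_lit 0) (XT.lf (nat_lit 76) (nat_lit 5989712134) (nat_lit 0) (nat_lit 2324045031) (nat_lit 1672) (nat_lit 1736265443) (nat_lit 468) (nat_lit 5) (nat_lit 467) (nat_lit 5) (nat_lit 489) (nat_lit 5) (nat_lit 434) (nat_lit 411) (nat_lit 295)) (XT.nd (nat_lit 78) (nat_lit 76) (nat_lit 0) (XT.lf (nat_lit 0) (nat_lit 1297425621) (nat_lit 1596) (nat_lit 8488158291) (nat_lit 1672) (nat_lit 359754560) (nat_lit 447) (nat_lit 5) (nat_lit 468) (nat_lit 5) (nat_lit 469) (nat_lit 5) (nat_lit 435) (nat_lit 411) (nat_lit 294)) (XT.lf (nat_lit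 0) (nat_lit 1054259870) (nat_lit 1672) (nat_lit 3463055503) (nat_lit 76) (nat_lit 5724643033) (nat_lit 446) (nat_lit 5) (nat_lit 468) (nat_lit 5) (nat_lit 447) (nat_lit 5) (nat_lit 436) (nat_lit 411) (nat_lit 293)))) (XT.nd (nat_lit 78) (nat_lit 1748) (nat_lit 0) (XT.lf (nat_lit 0) (nat_lit 2038118235) (nat_lit 1672) (nat_lit 448083076) (nat_lit 1748) (nat_lit 7854379207) (nat_lit 424) (nat_lit 5) (nat_lit 446) (nat_lit 5) (nat_lit 447) (nat_lit 5) (nat_lit 437) (nat_lit 411) (nat_lit 292)) (XT.nd (nat_lit 78) (nat_lit 1748) (nat_lit 0) (XT.lf (nat_lit 0) (nat_lit 3975725599) (nat_lit 1748) (nat_lit 2784665837) (nat_lit 76) (nat_lit 3680211238) (nat_lit 424) (nat_lit 5) (nat_lit 447) (nat_lit 5) (nat_lit 425) (nat_lit 5) (nat_lit 438) (nat_lit 411) (nat_lit 291)) (XT.lf (nat_lit 0) (nat_lit 2862353085) (nat_lit 1748) (nat_lit 2636113417) (nat_lit 1824) (nat_lit 5044096607) (nat_lit 401) (nat_lit 5) (nat_lit 424) (nat_lit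 5) (nat_lit 425) (nat_lit 5) (nat_lit 439) (nat_lit 411) (nat_lit 290)))))) (XT.nd (nat_lit 390) (nat_lit 3420) (nat_lit 0) (XT.nd (nat_lit 156) (nat_lit 988) (nat_lit 0) (XT.nd (nat_lit 78) (nat_lit 1140) (nat_lit 0) (XT.lf (nat_lit 0) (nat_lit 7062813479) (nat_lit 1824) (nat_lit 2012432561) (nat_lit 76) (nat_lit 1571099919) (nat_lit 401) (nat_lit 5) (nat_lit 425) (nat_lit 5) (nat_lit 402) (nat_lit 5) (nat_lit 440) (nat_lit 411) (nat_lit 289)) (XT.lf (nat_lit 0) (nat_lit 3785218578) (nat_lit 1140) (nat_lit 4897756030) (nat_lit 1216) (nat_lit 2068745424) (nat_lit 386) (nat_lit 5) (nat_lit 401) (nat_lit 5) (nat_lit 402) (nat_lit 5) (nat_lit 441) (nat_lit 411) (nat_lit 288))) (XT.nd (nat_lit 78) (nat_lit 988) (nat_lit 0) (XT.lf (nat_lit 0) (nat_lit 9710536882) (nat_lit 1140) (nat_lit 621242127) (nat_lit 1216) (nat_lit 527503765) (nat_lit 386) (nat_lit 5) (nat_lit 401) (nat_lit 5) (nat_lit 402) (nat_lit 5) (nat_lit 442)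 (nat_lit 411) (nat_lit 287)) (XT.nd (nat_lit 78) (nat_lit 0) (nat_lit 0) (XT.lf (nat_lit 0) (nat_lit 1069705703) (nat_lit 988) (nat_lit 6166741549) (nat_lit 76) (nat_lit 3731642787) (nat_lit 373) (nat_lit 5) (nat_lit 386) (nat_lit 5) (nat_lit 374) (nat_lit 5) (nat_lit 443) (nat_lit 411) (nat_lit 286)) (XT.lf (nat_lit 0) (nat_lit 2686876300) (nat_lit 988) (nat_lit 216302708) (nat_lit 76) (nat_lit 8175928744) (nat_lit 373) (nat_lit 5) (nat_lit 386) (nat_lit 5) (nat_lit 374) (nat_lit 5) (nat_lit 444) (nat_lit 411) (nat_lit 285))))) (XT.nd (nat_lit 234) (nat_lit 1748) (nat_lit 0) (XT.nd (nat_lit 78) (nat_lit 836) (nat_lit 0) (XT.lf (nat_lit 0) (nat_lit 4368434278) (nat_lit 912) (nat_lit 5286728939) (nat_lit 76) (nat_lit 1536547257) (nat_lit 362) (nat_lit 5) (nat_lit 374) (nat_lit 5) (nat_lit 363) (nat_lit 5) (nat_lit 445) (nat_lit 411) (nat_lit 284)) (XT.nd (nat_lit 78) (nat_lit 0) (nat_lit 0) (XT.lf (nat_lit 0) (nat_lit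 820950984) (nat_lit 836) (nat_lit 5272448533) (nat_lit 912) (nat_lit 5212975637) (nat_lit 351) (nat_lit 5) (nat_lit 362) (nat_lit 5) (nat_lit 363) (nat_lit 5) (nat_lit 446) (nat_lit 411) (nat_lit 283)) (XT.lf (nat_lit 0) (nat_lit 7106883327) (nat_lit 836) (nat_lit 765433350) (nat_lit 912) (nat_lit 3550632717) (nat_lit 351) (nat_lit 5) (nat_lit 362) (nat_lit 5) (nat_lit 363) (nat_lit 5) (nat_lit 447) (nat_lit 411) (nat_lit 282)))) (XT.nd (nat_lit 78) (nat_lit 912) (nat_lit 0) (XT.lf (nat_lit 0) (nat_lit 1961951114) (nat_lit 836) (nat_lit 7746770445) (nat_lit 912) (nat_lit 1832700588) (nat_lit 340) (nat_lit 5) (nat_lit 351) (nat_lit 5) (nat_lit 352) (nat_lit 5) (nat_lit 448) (nat_lit 411) (nat_lit 281)) (XT.nd (nat_lit 78) (nat_lit 912) (nat_lit 0) (XT.lf (nat_lit 0) (nat_lit 8403418757) (nat_lit 836) (nat_lit 3196935091) (nat_lit 912) (nat_lit 61545632) (nat_lit 340) (nat_lit 5) (nat_lit 351) (nat_lit 5) (nat_lit 352)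 (nat_lit 5) (nat_lit 449) (nat_lit 411) (nat_lit 280)) (XT.lf (nat_lit 0) (nat_lit 1737235892) (nat_lit 912) (nat_lit 8589801545) (nat_lit 76) (nat_lit 1457225441) (nat_lit 328) (nat_lit 5) (nat_lit 340) (nat_lit 5) (nat_lit 329) (nat_lit 5) (nat_lit 450) (nat_lit 411) (nat_lit 279))))))))
noncomputable def xc171 : XT := (XT.nd (nat_lit 1716) (nat_lit 5928) (nat_lit 0) (XT.nd (nat_lit 858) (nat_lit 3800) (nat_lit 0) (XT.nd (nat_lit 390) (nat_lit 2204) (nat_lit 0) (XT.nd (nat_lit 156) (nat_lit 1444) (nat_lit 0) (XT.nd (nat_lit 78) (nat_lit 760) (nat_lit 0) (XT.lf (nat_lit 0) (nat_lit 3599250847) (nat_lit 912) (nat_lit 2125316598) (nat_lit 76) (nat_lit 6183941143) (nat_lit 328) (nat_lit 5) (nat_lit 340) (nat_lit 5) (nat_lit 329) (nat_lit 5) (nat_lit 451) (nat_lit 411) (nat_lit 278)) (XT.lf (nat_lit 0) (nat_lit 4512356033) (nat_lit 760) (nat_lit 1000641824) (nat_lit 836) (nat_lit 6521956242) (nat_lit 318) (nat_lit 5) (nat_lit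 328) (nat_lit 5) (nat_lit 329) (nat_lit 5) (nat_lit 452) (nat_lit 411) (nat_lit 277))) (XT.nd (nat_lit 78) (nat_lit 1444) (nat_lit 0) (XT.lf (nat_lit 0) (nat_lit 7489546291) (nat_lit 836) (nat_lit 892408882) (nat_lit 76) (nat_lit 3781487450) (nat_lit 318) (nat_lit 5) (nat_lit 329) (nat_lit 5) (nat_lit 319) (nat_lit 5) (nat_lit 453) (nat_lit 411) (nat_lit 276)) (XT.nd (nat_lit 78) (nat_lit 684) (nat_lit 0) (XT.lf (nat_lit 0) (nat_lit 5926310329) (nat_lit 760) (nat_lit 3610088877) (nat_lit 836) (nat_lit 2757490780) (nat_lit 308) (nat_lit 5) (nat_lit 318) (nat_lit 5) (nat_lit 319) (nat_lit 5) (nat_lit 454) (nat_lit 411) (nat_lit 275)) (XT.lf (nat_lit 0) (nat_lit 449007512) (nat_lit 684) (nat_lit 11178134136) (nat_lit 760) (nat_lit 799750050) (nat_lit 299) (nat_lit 5) (nat_lit 308) (nat_lit 5) (nat_lit 309) (nat_lit 5) (nat_lit 455) (nat_lit 411) (nat_lit 274))))) (XT.nd (nat_lit 234) (nat_lit 1368) (nat_lit 0) (XT.nd (nat_lit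 78) (nat_lit 760) (nat_lit 0) (XT.lf (nat_lit 0) (nat_lit 1234293364) (nat_lit 760) (nat_lit 5120865205) (nat_lit 76) (nat_lit 6206186726) (nat_lit 298) (nat_lit 5) (nat_lit 308) (nat_lit 5) (nat_lit 299) (nat_lit 5) (nat_lit 456) (nat_lit 411) (nat_lit 273)) (XT.nd (nat_lit 78) (nat_lit 0) (nat_lit 0) (XT.lf (nat_lit 0) (nat_lit 1877480621) (nat_lit 760) (nat_lit 1419232142) (nat_lit 836) (nat_lit 9401705594) (nat_lit 288) (nat_lit 5) (nat_lit 298) (nat_lit 5) (nat_lit 299) (nat_lit 5) (nat_lit 457) (nat_lit 411) (nat_lit 272)) (XT.lf (nat_lit 0) (nat_lit 5444813041) (nat_lit 836) (nat_lit 3791347231) (nat_lit 76) (nat_lit 3601188068) (nat_lit 288) (nat_lit 5) (nat_lit 299) (nat_lit 5) (nat_lit 289) (nat_lit 5) (nat_lit 458) (nat_lit 411) (nat_lit 271)))) (XT.nd (nat_lit 78) (nat_lit 684) (nat_lit 0) (XT.lf (nat_lit 0) (nat_lit 3399006507) (nat_lit 684) (nat_lit 4254971171) (nat_lit 760) (nat_lit 5324721231) (nat_lit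 279) (nat_lit 5) (nat_lit 288) (nat_lit 5) (nat_lit 289) (nat_lit 5) (nat_lit 459) (nat_lit 411) (nat_lit 270)) (XT.nd (nat_lit 78) (nat_lit 684) (nat_lit 0) (XT.lf (nat_lit 0) (nat_lit 9925086966) (nat_lit 760) (nat_lit 2358504401) (nat_lit 76) (nat_lit 838933847) (nat_lit 279) (nat_lit 5) (nat_lit 289) (nat_lit 5) (nat_lit 280) (nat_lit 5) (nat_lit 460) (nat_lit 411) (nat_lit 269)) (XT.lf (nat_lit 0) (nat_lit 5030029485) (nat_lit 684) (nat_lit 7259473917) (nat_lit 760) (nat_lit 978770818) (nat_lit 270) (nat_lit 5) (nat_lit 279) (nat_lit 5) (nat_lit 280) (nat_lit 5) (nat_lit 461) (nat_lit 411) (nat_lit 268)))))) (XT.nd (nat_lit 390) (nat_lit 1824) (nat_lit 0) (XT.nd (nat_lit 156) (nat_lit 1292) (nat_lit 0) (XT.nd (nat_lit 78) (nat_lit 608) (nat_lit 0) (XT.lf (nat_lit 0) (nat_lit 1270475785) (nat_lit 760) (nat_lit 841706720) (nat_lit 76) (nat_lit 11304531674) (nat_lit 269) (nat_lit 5) (nat_lit 279) (nat_lit 5) (nat_lit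 270) (nat_lit 5) (nat_lit 462) (nat_lit 411) (nat_lit 267)) (XT.lf (nat_lit 0) (nat_lit 3603637372) (nat_lit 684) (nat_lit 6817643224) (nat_lit 76) (nat_lit 3145675882) (nat_lit 261) (nat_lit 5) (nat_lit 270) (nat_lit 5) (nat_lit 262) (nat_lit 5) (nat_lit 463) (nat_lit 411) (nat_lit 266))) (XT.nd (nat_lit 78) (nat_lit 608) (nat_lit 0) (XT.lf (nat_lit 0) (nat_lit 764679825) (nat_lit 684) (nat_lit 5230930698) (nat_lit 760) (nat_lit 7724353714) (nat_lit 252) (nat_lit 5) (nat_lit 261) (nat_lit 5) (nat_lit 262) (nat_lit 5) (nat_lit 464) (nat_lit 411) (nat_lit 265)) (XT.nd (nat_lit 78) (nat_lit 608) (nat_lit 0) (XT.lf (nat_lit 0) (nat_lit 8469530617) (nat_lit 760) (nat_lit 5299700268) (nat_lit 76) (nat_lit 106122626) (nat_lit 252) (nat_lit 5) (nat_lit 262) (nat_lit 5) (nat_lit 253) (nat_lit 5) (nat_lit 465) (nat_lit 411) (nat_lit 264)) (XT.lf (nat_lit 0) (nat_lit 2492400827) (nat_lit 608) (nat_lit 8539238820) (nat_lit 684)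 (nat_lit 3001440153) (nat_lit 244) (nat_lit 5) (nat_lit 252) (nat_lit 5) (nat_lit 253) (nat_lit 5) (nat_lit 466) (nat_lit 411) (nat_lit 263))))) (XT.nd (nat_lit 234) (nat_lit 1140) (nat_lit 0) (XT.nd (nat_lit 78) (nat_lit 684) (nat_lit 0) (XT.lf (nat_lit 0) (nat_lit 10497638007) (nat_lit 608) (nat_lit 3170946011) (nat_lit 684) (nat_lit 524908106) (nat_lit 244) (nat_lit 5) (nat_lit 252) (nat_lit 5) (nat_lit 253) (nat_lit 5) (nat_lit 467) (nat_lit 411) (nat_lit 262)) (XT.nd (nat_lit 78) (nat_lit 0) (nat_lit 0) (XT.lf (nat_lit 0) (nat_lit 2006459196) (nat_lit 684) (nat_lit 10036435782) (nat_lit 76) (nat_lit 2313330100) (nat_lit 235) (nat_lit 5) (nat_lit 244) (nat_lit 5) (nat_lit 236) (nat_lit 5) (nat_lit 468) (nat_lit 411) (nat_lit 261)) (XT.lf (nat_lit 0) (nat_lit 4615701537) (nat_lit 684) (nat_lit 2015057464) (nat_lit 76) (nat_lit 7890701953) (nat_lit 235) (nat_lit 5) (nat_lit 244) (nat_lit 5) (nat_lit 236) (nat_lit 5)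 (nat_lit 469) (nat_lit 411) (nat_lit 260)))) (XT.nd (nat_lit 78) (nat_lit 608) (nat_lit 0) (XT.lf (nat_lit 0) (nat_lit 6234252398) (nat_lit 532) (nat_lit 1071887174) (nat_lit 608) (nat_lit 7383284873) (nat_lit 228) (nat_lit 5) (nat_lit 235) (nat_lit 5) (nat_lit 236) (nat_lit 5) (nat_lit 470) (nat_lit 411) (nat_lit 259)) (XT.nd (nat_lit 78) (nat_lit 608) (nat_lit 0) (XT.lf (nat_lit 0) (nat_lit 10082500744) (nat_lit 608) (nat_lit 228934422) (nat_lit 76) (nat_lit 4548672808) (nat_lit 228) (nat_lit 5) (nat_lit 236) (nat_lit 5) (nat_lit 229) (nat_lit 5) (nat_lit 471) (nat_lit 411) (nat_lit 258)) (XT.lf (nat_lit 0) (nat_lit 8248819130) (nat_lit 608) (nat_lit 4715096395) (nat_lit 684) (nat_lit 2069302117) (nat_lit 220) (nat_lit 5) (nat_lit 228) (nat_lit 5) (nat_lit 229) (nat_lit 5) (nat_lit 472) (nat_lit 411) (nat_lit 257))))))) (XT.nd (nat_lit 858) (nat_lit 2736) (nat_lit 0) (XT.nd (nat_lit 390) (nat_lit 1520) (nat_lit 0)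 (XT.nd (nat_lit 156) (nat_lit 1064) (nat_lit 0) (XT.nd (nat_lit 78) (nat_lit 0) (nat_lit 0) (XT.lf (nat_lit 0) (nat_lit 692080398) (nat_lit 608) (nat_lit 13523200954) (nat_lit 76) (nat_lit 994260973) (nat_lit 212) (nat_lit 5) (nat_lit 220) (nat_lit 5) (nat_lit 213) (nat_lit 5) (nat_lit 473) (nat_lit 411) (nat_lit 256)) (XT.lf (nat_lit 0) (nat_lit 3547090984) (nat_lit 608) (nat_lit 5029514809) (nat_lit 76) (nat_lit 6811194801) (nat_lit 212) (nat_lit 5) (nat_lit 220) (nat_lit 5) (nat_lit 213) (nat_lit 5) (nat_lit 474) (nat_lit 411) (nat_lit 255))) (XT.nd (nat_lit 78) (nat_lit 532) (nat_lit 0) (XT.lf (nat_lit 0) (nat_lit 3668172514) (nat_lit 532) (nat_lit 2804088891) (nat_lit 608) (nat_lit 9097104198) (nat_lit 205) (nat_lit 5) (nat_lit 212) (nat_lit 5) (nat_lit 213) (nat_lit 5) (nat_lit 475) (nat_lit 411) (nat_lit 254)) (XT.nd (nat_lit 78) (nat_lit 532) (nat_lit 0) (XT.lf (nat_lit 0) (nat_lit 9499275051) (nat_lit 608) (nat_lit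 3180226627) (nat_lit 76) (nat_lit 3074196151) (nat_lit 205) (nat_lit 5) (nat_lit 213) (nat_lit 5) (nat_lit 206) (nat_lit 5) (nat_lit 476) (nat_lit 411) (nat_lit 253)) (XT.lf (nat_lit 0) (nat_lit 5758302753) (nat_lit 532) (nat_lit 6874035049) (nat_lit 608) (nat_lit 3308471381) (nat_lit 198) (nat_lit 5) (nat_lit 205) (nat_lit 5) (nat_lit 206) (nat_lit 5) (nat_lit 477) (nat_lit 411) (nat_lit 252))))) (XT.nd (nat_lit 234) (nat_lit 456) (nat_lit 0) (XT.nd (nat_lit 78) (nat_lit 1064) (nat_lit 0) (XT.lf (nat_lit 0) (nat_lit 14904994909) (nat_lit 532) (nat_lit 934075686) (nat_lit 608) (nat_lit 292374601) (nat_lit 198) (nat_lit 5) (nat_lit 205) (nat_lit 5) (nat_lit 206) (nat_lit 5) (nat_lit 478) (nat_lit 411) (nat_lit 251)) (XT.nd (nat_lit 78) (nat_lit 456) (nat_lit 0) (XT.lf (nat_lit 0) (nat_lit 2822868208) (nat_lit 608) (nat_lit 8376668753) (nat_lit 76) (nat_lit 5124491209) (nat_lit 190) (nat_lit 5) (nat_lit 198) (nat_lit 5)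 (nat_lit 191) (nat_lit 5) (nat_lit 479) (nat_lit 411) (nat_lit 250)) (XT.lf (nat_lit 0) (nat_lit 789470937) (nat_lit 456) (nat_lit 5216521032) (nat_lit 532) (nat_lit 10514244822) (nat_lit 184) (nat_lit 5) (nat_lit 190) (nat_lit 5) (nat_lit 191) (nat_lit 5) (nat_lit 480) (nat_lit 411) (nat_lit 249)))) (XT.nd (nat_lit 78) (nat_lit 456) (nat_lit 0) (XT.lf (nat_lit 0) (nat_lit 9305093519) (nat_lit 532) (nat_lit 6486657238) (nat_lit 76) (nat_lit 927574930) (nat_lit 184) (nat_lit 5) (nat_lit 191) (nat_lit 5) (nat_lit 185) (nat_lit 5) (nat_lit 481) (nat_lit 411) (nat_lit 248)) (XT.nd (nat_lit 78) (nat_lit 0) (nat_lit 0) (XT.lf (nat_lit 0) (nat_lit 2932753097) (nat_lit 456) (nat_lit 9781186077) (nat_lit 532) (nat_lit 4207584305) (nat_lit 178) (nat_lit 5) (nat_lit 184) (nat_lit 5) (nat_lit 185) (nat_lit 5) (nat_lit 482) (nat_lit 411) (nat_lit 247)) (XT.lf (nat_lit 0) (nat_lit 12615071245) (nat_lit 456) (nat_lit 3609699187) (nat_lit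 532) (nat_lit 902320938) (nat_lit 178) (nat_lit 5) (nat_lit 184) (nat_lit 5) (nat_lit 185) (nat_lit 5) (nat_lit 483) (nat_lit 411) (nat_lit 246)))))) (XT.nd (nat_lit 390) (nat_lit 1368) (nat_lit 0) (XT.nd (nat_lit 156) (nat_lit 836) (nat_lit 0) (XT.nd (nat_lit 78) (nat_lit 0) (nat_lit 0) (XT.lf (nat_lit 0) (nat_lit 2478527343) (nat_lit 532) (nat_lit 12160642678) (nat_lit 76) (nat_lit 2696444977) (nat_lit 171) (nat_lit 5) (nat_lit 178) (nat_lit 5) (nat_lit 172) (nat_lit 5) (nat_lit 484) (nat_lit 411) (nat_lit 245)) (XT.lf (nat_lit 0) (nat_lit 5959789207) (nat_lit 532) (nat_lit 2474275003) (nat_lit 76) (nat_lit 9113230208) (nat_lit 171) (nat_lit 5) (nat_lit 178) (nat_lit 5) (nat_lit 172) (nat_lit 5) (nat_lit 485) (nat_lit 411) (nat_lit 244))) (XT.nd (nat_lit 78) (nat_lit 380) (nat_lit 0) (XT.lf (nat_lit 0) (nat_lit 7490971087) (nat_lit 456) (nat_lit 2059011733) (nat_lit 532) (nat_lit 8212440617) (nat_lit 165) (nat_lit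 5) (nat_lit 171) (nat_lit 5) (nat_lit 172) (nat_lit 5) (nat_lit 486) (nat_lit 411) (nat_lit 243)) (XT.nd (nat_lit 78) (nat_lit 380) (nat_lit 0) (XT.lf (nat_lit 0) (nat_lit 13248288488) (nat_lit 532) (nat_lit 334592218) (nat_lit 76) (nat_lit 4398250263) (nat_lit 165) (nat_lit 5) (nat_lit 172) (nat_lit 5) (nat_lit 166) (nat_lit 5) (nat_lit 487) (nat_lit 411) (nat_lit 242)) (XT.lf (nat_lit 0) (nat_lit 9904354486) (nat_lit 380) (nat_lit 7185072865) (nat_lit 456) (nat_lit 1113410015) (nat_lit 160) (nat_lit 5) (nat_lit 165) (nat_lit 5) (nat_lit 166) (nat_lit 5) (nat_lit 488) (nat_lit 411) (nat_lit 241))))) (XT.nd (nat_lit 234) (nat_lit 456) (nat_lit 0) (XT.nd (nat_lit 78) (nat_lit 380) (nat_lit 0) (XT.lf (nat_lit 0) (nat_lit 1919147603) (nat_lit 456) (nat_lit 631126502) (nat_lit 532) (nat_lit 15878257360) (nat_lit 153) (nat_lit 5) (nat_lit 159) (nat_lit 5) (nat_lit 160) (nat_lit 5) (nat_lit 489) (nat_lit 411) (nat_lit 240))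 (XT.nd (nat_lit 78) (nat_lit 380) (nat_lit 0) (XT.lf (nat_lit 0) (nat_lit 6358726307) (nat_lit 532) (nat_lit 6264074805) (nat_lit 76) (nat_lit 6034065019) (nat_lit 153) (nat_lit 5) (nat_lit 160) (nat_lit 5) (nat_lit 154) (nat_lit 5) (nat_lit 490) (nat_lit 411) (nat_lit 239)) (XT.lf (nat_lit 0) (nat_lit 4224602875) (nat_lit 380) (nat_lit 6041556306) (nat_lit 456) (nat_lit 8623153979) (nat_lit 148) (nat_lit 5) (nat_lit 153) (nat_lit 5) (nat_lit 154) (nat_lit 5) (nat_lit 491) (nat_lit 411) (nat_lit 238)))) (XT.nd (nat_lit 78) (nat_lit 456) (nat_lit 0) (XT.lf (nat_lit 0) (nat_lit 14289680360) (nat_lit 456) (nat_lit 4135070684) (nat_lit 76) (nat_lit 700901153) (nat_lit 148) (nat_lit 5) (nat_lit 154) (nat_lit 5) (nat_lit 149) (nat_lit 5) (nat_lit 492) (nat_lit 411) (nat_lit 237)) (XT.nd (nat_lit 78) (nat_lit 76) (nat_lit 0) (XT.lf (nat_lit 0) (nat_lit 6639652659) (nat_lit 380) (nat_lit 11828577284) (nat_lit 456) (nat_lit 896998737)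 (nat_lit 143) (nat_lit 5) (nat_lit 148) (nat_lit 5) (nat_lit 149) (nat_lit 5) (nat_lit 493) (nat_lit 411) (nat_lit 236)) (XT.lf (nat_lit 0) (nat_lit 3099224333) (nat_lit 456) (nat_lit 1956176424) (nat_lit 76) (nat_lit 14553404455) (nat_lit 142) (nat_lit 5) (nat_lit 148) (nat_lit 5) (nat_lit 143) (nat_lit 5) (nat_lit 494) (nat_lit 411) (nat_lit 235))))))))
noncomputable def xc172 : XT := (XT.nd (nat_lit 53742) (nat_lit 0) (nat_lit 19912) (XT.nd (nat_lit 52884) (nat_lit 0) (nat_lit 28196) (XT.nd (nat_lit 390) (nat_lit 1140) (nat_lit 0) (XT.nd (nat_lit 156) (nat_lit 456) (nat_lit 0) (XT.nd (nat_lit 78) (nat_lit 380) (nat_lit 0) (XT.lf (nat_lit 0) (nat_lit 7226723817) (nat_lit 456) (nat_lit 10738507417) (nat_lit 76) (nat_lit 1890637924) (nat_lit 137) (nat_lit 5) (nat_lit 143) (nat_lit 5) (nat_lit 138) (nat_lit 5) (nat_lit 495) (nat_lit 411) (nat_lit 234)) (XT.lf (nat_lit 0) (nat_lit 289076119) (nat_lit 380) (nat_lit 11187960516)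 (nat_lit 456) (nat_lit 8630034168) (nat_lit 132) (nat_lit 5) (nat_lit 137) (nat_lit 5) (nat_lit 138) (nat_lit 5) (nat_lit 496) (nat_lit 411) (nat_lit 233))) (XT.nd (nat_lit 78) (nat_lit 456) (nat_lit 0) (XT.lf (nat_lit 0) (nat_lit 11670432286) (nat_lit 380) (nat_lit 4205760294) (nat_lit 456) (nat_lit 4485828815) (nat_lit 132) (nat_lit 5) (nat_lit 137) (nat_lit 5) (nat_lit 138) (nat_lit 5) (nat_lit 497) (nat_lit 411) (nat_lit 232)) (XT.nd (nat_lit 78) (nat_lit 76) (nat_lit 0) (XT.lf (nat_lit 0) (nat_lit 2661074907) (nat_lit 380) (nat_lit 17730378231) (nat_lit 456) (nat_lit 230057053) (nat_lit 127) (nat_lit 5) (nat_lit 132) (nat_lit 5) (nat_lit 133) (nat_lit 5) (nat_lit 498) (nat_lit 411) (nat_lit 231)) (XT.lf (nat_lit 0) (nat_lit 4135415932) (nat_lit 456) (nat_lit 6593607702) (nat_lit 76) (nat_lit 10155062882) (nat_lit 126) (nat_lit 5) (nat_lit 132) (nat_lit 5) (nat_lit 127) (nat_lit 5) (nat_lit 499) (nat_lit 411) (nat_lit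 230))))) (XT.nd (nat_lit 156) (nat_lit 760) (nat_lit 0) (XT.nd (nat_lit 78) (nat_lit 0) (nat_lit 0) (XT.lf (nat_lit 0) (nat_lit 5053282871) (nat_lit 380) (nat_lit 3556741255) (nat_lit 456) (nat_lit 12541363231) (nat_lit 121) (nat_lit 5) (nat_lit 126) (nat_lit 5) (nat_lit 127) (nat_lit 5) (nat_lit 500) (nat_lit 411) (nat_lit 229)) (XT.lf (nat_lit 0) (nat_lit 13235214719) (nat_lit 456) (nat_lit 4437435742) (nat_lit 76) (nat_lit 3750163447) (nat_lit 121) (nat_lit 5) (nat_lit 127) (nat_lit 5) (nat_lit 122) (nat_lit 5) (nat_lit 501) (nat_lit 411) (nat_lit 228))) (XT.nd (nat_lit 78) (nat_lit 456) (nat_lit 0) (XT.lf (nat_lit 0) (nat_lit 7519673529) (nat_lit 304) (nat_lit 10497911700) (nat_lit 380) (nat_lit 3680791705) (nat_lit 117) (nat_lit 5) (nat_lit 121) (nat_lit 5) (nat_lit 122) (nat_lit 5) (nat_lit 502) (nat_lit 411) (nat_lit 227)) (XT.nd (nat_lit 78) (nat_lit 380) (nat_lit 0) (XT.lf (nat_lit 0) (nat_lit 926432690) (nat_lit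 380) (nat_lit 2220791244) (nat_lit 76) (nat_lit 18831663810) (nat_lit 116) (nat_lit 5) (nat_lit 121) (nat_lit 5) (nat_lit 117) (nat_lit 5) (nat_lit 503) (nat_lit 411) (nat_lit 226)) (XT.lf (nat_lit 0) (nat_lit 5663244498) (nat_lit 456) (nat_lit 12219808338) (nat_lit 76) (nat_lit 4379736141) (nat_lit 111) (nat_lit 5) (nat_lit 117) (nat_lit 5) (nat_lit 112) (nat_lit 5) (nat_lit 504) (nat_lit 411) (nat_lit 225)))))) (XT.nd (nat_lit 390) (nat_lit 1368) (nat_lit 0) (XT.nd (nat_lit 156) (nat_lit 0) (nat_lit 0) (XT.nd (nat_lit 78) (nat_lit 0) (nat_lit 0) (XT.lf (nat_lit 0) (nat_lit 121288582) (nat_lit 0) (nat_lit 121288582) (nat_lit 1444) (nat_lit 3963141703) (nat_lit 500) (nat_lit 5) (nat_lit 500) (nat_lit 3) (nat_lit 519) (nat_lit 3) (nat_lit 412) (nat_lit 412) (nat_lit 316)) (XT.lf (nat_lit 0) (nat_lit 1559333392) (nat_lit 1444) (nat_lit 4143918075) (nat_lit 1520) (nat_lit 2770500444) (nat_lit 500) (nat_lit 5) (nat_lit 519)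 (nat_lit 3) (nat_lit 520) (nat_lit 5) (nat_lit 413) (nat_lit 412) (nat_lit 315))) (XT.nd (nat_lit 78) (nat_lit 0) (nat_lit 76) (XT.lf (nat_lit 0) (nat_lit 2629121264) (nat_lit 1444) (nat_lit 54520340) (nat_lit 1520) (nat_lit 5854199109) (nat_lit 500) (nat_lit 5) (nat_lit 519) (nat_lit 3) (nat_lit 520) (nat_lit 5) (nat_lit 414) (nat_lit 412) (nat_lit 314)) (XT.nd (nat_lit 78) (nat_lit 0) (nat_lit 0) (XT.lf (nat_lit 0) (nat_lit 3723187914) (nat_lit 1444) (nat_lit 4449024679) (nat_lit 1520) (nat_lit 430951677) (nat_lit 501) (nat_lit 5) (nat_lit 520) (nat_lit 5) (nat_lit 521) (nat_lit 5) (nat_lit 415) (nat_lit 412) (nat_lit 313)) (XT.lf (nat_lit 0) (nat_lit 4830852035) (nat_lit 1444) (nat_lit 254532381) (nat_lit 1520) (nat_lit 3584585988) (nat_lit 501) (nat_lit 5) (nat_lit 520) (nat_lit 5) (nat_lit 521) (nat_lit 5) (nat_lit 416) (nat_lit 412) (nat_lit 312))))) (XT.nd (nat_lit 234) (nat_lit 1444) (nat_lit 0) (XT.nd (nat_lit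 78) (nat_lit 0) (nat_lit 76) (XT.lf (nat_lit 76) (nat_lit 4062738925) (nat_lit 0) (nat_lit 1898402030) (nat_lit 1520) (nat_lit 2776972497) (nat_lit 502) (nat_lit 5) (nat_lit 501) (nat_lit 5) (nat_lit 521) (nat_lit 5) (nat_lit 417) (nat_lit 412) (nat_lit 311)) (XT.nd (nat_lit 78) (nat_lit 0) (nat_lit 0) (XT.lf (nat_lit 0) (nat_lit 7099116486) (nat_lit 1444) (nat_lit 361462965) (nat_lit 1520) (nat_lit 1347348321) (nat_lit 502) (nat_lit 5) (nat_lit 521) (nat_lit 5) (nat_lit 522) (nat_lit 5) (nat_lit 418) (nat_lit 412) (nat_lit 310)) (XT.lf (nat_lit 76) (nat_lit 4064865878) (nat_lit 0) (nat_lit 4209029372) (nat_lit 1520) (nat_lit 604972079) (nat_lit 503) (nat_lit 5) (nat_lit 502) (nat_lit 5) (nat_lit 522) (nat_lit 5) (nat_lit 419) (nat_lit 412) (nat_lit 309)))) (XT.nd (nat_lit 78) (nat_lit 0) (nat_lit 76) (XT.lf (nat_lit 0) (nat_lit 491855558) (nat_lit 1520) (nat_lit 384796331) (nat_lit 1596) (nat_lit 8074960710) (nat_lit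 482) (nat_lit 5) (nat_lit 502) (nat_lit 5) (nat_lit 503) (nat_lit 5) (nat_lit 420) (nat_lit 412) (nat_lit 308)) (XT.nd (nat_lit 78) (nat_lit 0) (nat_lit 0) (XT.lf (nat_lit 0) (nat_lit 1622027373) (nat_lit 1520) (nat_lit 4873215913) (nat_lit 1596) (nat_lit 2530108609) (nat_lit 483) (nat_lit 5) (nat_lit 503) (nat_lit 5) (nat_lit 504) (nat_lit 5) (nat_lit 421) (nat_lit 412) (nat_lit 307)) (XT.lf (nat_lit 0) (nat_lit 2759435879) (nat_lit 1520) (nat_lit 336315798) (nat_lit 1596) (nat_lit 6005130712) (nat_lit 483) (nat_lit 5) (nat_lit 503) (nat_lit 5) (nat_lit 504) (nat_lit 5) (nat_lit 422) (nat_lit 412) (nat_lit 306))))))) (XT.nd (nat_lit 858) (nat_lit 6916) (nat_lit 0) (XT.nd (nat_lit 390) (nat_lit 1520) (nat_lit 0) (XT.nd (nat_lit 156) (nat_lit 0) (nat_lit 0) (XT.nd (nat_lit 78) (nat_lit 0) (nat_lit 0) (XT.lf (nat_lit 0) (nat_lit 3927078287) (nat_lit 1520) (nat_lit 4847042715) (nat_lit 1596) (nat_lit 403661678) (nat_lit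 484) (nat_lit 5) (nat_lit 504) (nat_lit 5) (nat_lit 505) (nat_lit 5) (nat_lit 423) (nat_lit 412) (nat_lit 305)) (XT.lf (nat_lit 0) (nat_lit 5117957661) (nat_lit 1520) (nat_lit 196129226) (nat_lit 1596) (nat_lit 3942145134) (nat_lit 484) (nat_lit 5) (nat_lit 504) (nat_lit 5) (nat_lit 505) (nat_lit 5) (nat_lit 424) (nat_lit 412) (nat_lit 304))) (XT.nd (nat_lit 78) (nat_lit 0) (nat_lit 76) (XT.lf (nat_lit 76) (nat_lit 4593207521) (nat_lit 0) (nat_lit 1746828710) (nat_lit 1596) (nat_lit 2996075041) (nat_lit 485) (nat_lit 5) (nat_lit 484) (nat_lit 5) (nat_lit 505) (nat_lit 5) (nat_lit 425) (nat_lit 412) (nat_lit 303)) (XT.nd (nat_lit 78) (nat_lit 0) (nat_lit 0) (XT.lf (nat_lit 76) (nat_lit 36377290) (nat_lit 0) (nat_lit 7541974324) (nat_lit 1596) (nat_lit 1839408975) (nat_lit 486) (nat_lit 5) (nat_lit 485) (nat_lit 5) (nat_lit 506) (nat_lit 5) (nat_lit 426) (nat_lit 412) (nat_lit 302)) (XT.lf (nat_lit 76) (nat_lit 4948677126)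 (nat_lit 0) (nat_lit 3914361459) (nat_lit 1596) (nat_lit 637580429) (nat_lit 486) (nat_lit 5) (nat_lit 485) (nat_lit 5) (nat_lit 506) (nat_lit 5) (nat_lit 427) (nat_lit 412) (nat_lit 301))))) (XT.nd (nat_lit 234) (nat_lit 0) (nat_lit 152) (XT.nd (nat_lit 78) (nat_lit 0) (nat_lit 76) (XT.lf (nat_lit 76) (nat_lit 359856389) (nat_lit 0) (nat_lit 201611701) (nat_lit 1672) (nat_lit 9023980050) (nat_lit 465) (nat_lit 5) (nat_lit 464) (nat_lit 5) (nat_lit 486) (nat_lit 5) (nat_lit 428) (nat_lit 412) (nat_lit 300)) (XT.nd (nat_lit 78) (nat_lit 0) (nat_lit 0) (XT.lf (nat_lit 0) (nat_lit 1808919996) (nat_lit 1596) (nat_lit 4282974949) (nat_lit 1672) (nat_lit 3579343173) (nat_lit 465) (nat_lit 5) (nat_lit 486) (nat_lit 5) (nat_lit 487) (nat_lit 5) (nat_lit 429) (nat_lit 412) (nat_lit 299)) (XT.lf (nat_lit 76) (nat_lit 751821251) (nat_lit 0) (nat_lit 2315054100) (nat_lit 1672) (nat_lit 6692165053) (nat_lit 466) (nat_lit 5) (nat_lit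 465) (nat_lit 5) (nat_lit 487) (nat_lit 5) (nat_lit 430) (nat_lit 412) (nat_lit 298)))) (XT.nd (nat_lit 78) (nat_lit 0) (nat_lit 0) (XT.lf (nat_lit 0) (nat_lit 4368581646) (nat_lit 1596) (nat_lit 3928372075) (nat_lit 1672) (nat_lit 1551280626) (nat_lit 466) (nat_lit 5) (nat_lit 487) (nat_lit 5) (nat_lit 488) (nat_lit 5) (nat_lit 431) (nat_lit 412) (nat_lit 297)) (XT.nd (nat_lit 78) (nat_lit 0) (nat_lit 0) (XT.lf (nat_lit 76) (nat_lit 1237711382) (nat_lit 0) (nat_lit 4462055817) (nat_lit 1672) (nat_lit 4239383370) (nat_lit 467) (nat_lit 5) (nat_lit 466) (nat_lit 5) (nat_lit 488) (nat_lit 5) (nat_lit 432) (nat_lit 412) (nat_lit 296)) (XT.lf (nat_lit 76) (nat_lit 6545225015) (nat_lit 0) (nat_lit 519082821) (nat_lit 1672) (nat_lit 2967449810) (nat_lit 467) (nat_lit 5) (nat_lit 466) (nat_lit 5) (nat_lit 488) (nat_lit 5) (nat_lit 433) (nat_lit 412) (nat_lit 295)))))) (XT.nd (nat_lit 390) (nat_lit 3876) (nat_lit 0) (XT.nd (nat_lit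 156) (nat_lit 3268) (nat_lit 0) (XT.nd (nat_lit 78) (nat_lit 0) (nat_lit 0) (XT.lf (nat_lit 76) (nat_lit 1818514821) (nat_lit 0) (nat_lit 6652957047) (nat_lit 1672) (nat_lit 1654445363) (nat_lit 468) (nat_lit 5) (nat_lit 467) (nat_lit 5) (nat_lit 489) (nat_lit 5) (nat_lit 434) (nat_lit 412) (nat_lit 294)) (XT.lf (nat_lit 76) (nat_lit 7258275991) (nat_lit 0) (nat_lit 2656376416) (nat_lit 1672) (nat_lit 307157017) (nat_lit 468) (nat_lit 5) (nat_lit 467) (nat_lit 5) (nat_lit 489) (nat_lit 5) (nat_lit 435) (nat_lit 412) (nat_lit 293))) (XT.nd (nat_lit 78) (nat_lit 1672) (nat_lit 0) (XT.lf (nat_lit 0) (nat_lit 1060000777) (nat_lit 1672) (nat_lit 7831011088) (nat_lit 76) (nat_lit 1428337275) (nat_lit 446) (nat_lit 5) (nat_lit 468) (nat_lit 5) (nat_lit 447) (nat_lit 5) (nat_lit 436) (nat_lit 412) (nat_lit 292)) (XT.nd (nat_lit 78) (nat_lit 1672) (nat_lit 0) (XT.lf (nat_lit 0) (nat_lit 2469597831) (nat_lit 1672) (nat_lit 2364201378)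 (nat_lit 76) (nat_lit 5584622140) (nat_lit 446) (nat_lit 5) (nat_lit 468) (nat_lit 5) (nat_lit 447) (nat_lit 5) (nat_lit 437) (nat_lit 412) (nat_lit 291)) (XT.lf (nat_lit 0) (nat_lit 3239310866) (nat_lit 1672) (nat_lit 671063228) (nat_lit 1748) (nat_lit 6609047519) (nat_lit 424) (nat_lit 5) (nat_lit 446) (nat_lit 5) (nat_lit 447) (nat_lit 5) (nat_lit 438) (nat_lit 412) (nat_lit 290))))) (XT.nd (nat_lit 234) (nat_lit 2128) (nat_lit 0) (XT.nd (nat_lit 78) (nat_lit 1748) (nat_lit 0) (XT.lf (nat_lit 0) (nat_lit 5401376588) (nat_lit 1748) (nat_lit 1673898044) (nat_lit 76) (nat_lit 3546745268) (nat_lit 424) (nat_lit 5) (nat_lit 447) (nat_lit 5) (nat_lit 425) (nat_lit 5) (nat_lit 439) (nat_lit 412) (nat_lit 289)) (XT.nd (nat_lit 78) (nat_lit 0) (nat_lit 0) (XT.lf (nat_lit 0) (nat_lit 4078387171) (nat_lit 1748) (nat_lit 2857313920) (nat_lit 1824) (nat_lit 3790705134) (nat_lit 401) (nat_lit 5) (nat_lit 424) (nat_lit 5) (nat_lit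 425) (nat_lit 5) (nat_lit 440) (nat_lit 412) (nat_lit 288)) (XT.lf (nat_lit 0) (nat_lit 8504237774) (nat_lit 1824) (nat_lit 889064503) (nat_lit 76) (nat_lit 1439513474) (nat_lit 401) (nat_lit 5) (nat_lit 425) (nat_lit 5) (nat_lit 402) (nat_lit 5) (nat_lit 441) (nat_lit 412) (nat_lit 287)))) (XT.nd (nat_lit 78) (nat_lit 988) (nat_lit 0) (XT.lf (nat_lit 0) (nat_lit 5016884286) (nat_lit 1140) (nat_lit 5121929616) (nat_lit 1216) (nat_lit 801852065) (nat_lit 386) (nat_lit 5) (nat_lit 401) (nat_lit 5) (nat_lit 402) (nat_lit 5) (nat_lit 442) (nat_lit 412) (nat_lit 286)) (XT.nd (nat_lit 78) (nat_lit 912) (nat_lit 0) (XT.lf (nat_lit 0) (nat_lit 734797041) (nat_lit 1216) (nat_lit 17682648) (nat_lit 76) (nat_lit 10298315131) (nat_lit 385) (nat_lit 5) (nat_lit 401) (nat_lit 5) (nat_lit 386) (nat_lit 5) (nat_lit 443) (nat_lit 412) (nat_lit 285)) (XT.lf (nat_lit 0) (nat_lit 2338811028) (nat_lit 988) (nat_lit 5121029411) (nat_lit 76)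 (nat_lit 3702237966) (nat_lit 373) (nat_lit 5) (nat_lit 386) (nat_lit 5) (nat_lit 374) (nat_lit 5) (nat_lit 444) (nat_lit 412) (nat_lit 284))))))))
noncomputable def xc173 : XT := (XT.nd (nat_lit 1716) (nat_lit 6992) (nat_lit 0) (XT.nd (nat_lit 858) (nat_lit 4256) (nat_lit 0) (XT.nd (nat_lit 390) (nat_lit 2432) (nat_lit 0) (XT.nd (nat_lit 156) (nat_lit 1672) (nat_lit 0) (XT.nd (nat_lit 78) (nat_lit 0) (nat_lit 0) (XT.lf (nat_lit 0) (nat_lit 937795068) (nat_lit 836) (nat_lit 3032153831) (nat_lit 912) (nat_lit 7305743317) (nat_lit 362) (nat_lit 5) (nat_lit 373) (nat_lit 5) (nat_lit 374) (nat_lit 5) (nat_lit 445) (nat_lit 412) (nat_lit 283)) (XT.lf (nat_lit 0) (nat_lit 5662014521) (nat_lit 912) (nat_lit 4228901378) (nat_lit 76) (nat_lit 1500101622) (nat_lit 362) (nat_lit 5) (nat_lit 374) (nat_lit 5) (nat_lit 363) (nat_lit 5) (nat_lit 446) (nat_lit 412) (nat_lit 282))) (XT.nd (nat_lit 78) (nat_lit 836) (nat_lit 0) (XT.lf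 (nat_lit 0) (nat_lit 1993277130) (nat_lit 836) (nat_lit 5412055643) (nat_lit 912) (nat_lit 4102973548) (nat_lit 351) (nat_lit 5) (nat_lit 362) (nat_lit 5) (nat_lit 363) (nat_lit 5) (nat_lit 447) (nat_lit 412) (nat_lit 281)) (XT.nd (nat_lit 78) (nat_lit 836) (nat_lit 0) (XT.lf (nat_lit 0) (nat_lit 8382263273) (nat_lit 836) (nat_lit 814230390) (nat_lit 912) (nat_lit 2431192820) (nat_lit 351) (nat_lit 5) (nat_lit 362) (nat_lit 5) (nat_lit 363) (nat_lit 5) (nat_lit 448) (nat_lit 412) (nat_lit 280)) (XT.lf (nat_lit 0) (nat_lit 3150758706) (nat_lit 836) (nat_lit 7903241460) (nat_lit 912) (nat_lit 694848647) (nat_lit 340) (nat_lit 5) (nat_lit 351) (nat_lit 5) (nat_lit 352) (nat_lit 5) (nat_lit 449) (nat_lit 412) (nat_lit 279))))) (XT.nd (nat_lit 234) (nat_lit 1520) (nat_lit 0) (XT.nd (nat_lit 78) (nat_lit 836) (nat_lit 0) (XT.lf (nat_lit 0) (nat_lit 1074421384) (nat_lit 912) (nat_lit 2180747972) (nat_lit 76) (nat_lit 8616883825)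 (nat_lit 339) (nat_lit 5) (nat_lit 351) (nat_lit 5) (nat_lit 340) (nat_lit 5) (nat_lit 450) (nat_lit 412) (nat_lit 278)) (XT.nd (nat_lit 78) (nat_lit 0) (nat_lit 0) (XT.lf (nat_lit 0) (nat_lit 2893530149) (nat_lit 912) (nat_lit 7603919942) (nat_lit 76) (nat_lit 1499709262) (nat_lit 328) (nat_lit 5) (nat_lit 340) (nat_lit 5) (nat_lit 329) (nat_lit 5) (nat_lit 451) (nat_lit 412) (nat_lit 277)) (XT.lf (nat_lit 0) (nat_lit 4770794235) (nat_lit 912) (nat_lit 1032844858) (nat_lit 76) (nat_lit 6320697723) (nat_lit 328) (nat_lit 5) (nat_lit 340) (nat_lit 5) (nat_lit 329) (nat_lit 5) (nat_lit 452) (nat_lit 412) (nat_lit 276)))) (XT.nd (nat_lit 78) (nat_lit 760) (nat_lit 0) (XT.lf (nat_lit 0) (nat_lit 5730114266) (nat_lit 760) (nat_lit 978462503) (nat_lit 836) (nat_lit 5545026136) (nat_lit 318) (nat_lit 5) (nat_lit 328) (nat_lit 5) (nat_lit 329) (nat_lit 5) (nat_lit 453) (nat_lit 412) (nat_lit 275)) (XT.nd (nat_lit 78) (nat_lit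 0) (nat_lit 0) (XT.lf (nat_lit 0) (nat_lit 219372450) (nat_lit 760) (nat_lit 8485695836) (nat_lit 836) (nat_lit 3679991413) (nat_lit 308) (nat_lit 5) (nat_lit 318) (nat_lit 5) (nat_lit 319) (nat_lit 5) (nat_lit 454) (nat_lit 412) (nat_lit 274)) (XT.lf (nat_lit 0) (nat_lit 7164176092) (nat_lit 760) (nat_lit 3613656591) (nat_lit 836) (nat_lit 1740590448) (nat_lit 308) (nat_lit 5) (nat_lit 318) (nat_lit 5) (nat_lit 319) (nat_lit 5) (nat_lit 455) (nat_lit 412) (nat_lit 273)))))) (XT.nd (nat_lit 390) (nat_lit 2052) (nat_lit 0) (XT.nd (nat_lit 156) (nat_lit 1444) (nat_lit 0) (XT.nd (nat_lit 78) (nat_lit 0) (nat_lit 0) (XT.lf (nat_lit 0) (nat_lit 240041664) (nat_lit 760) (nat_lit 11065202109) (nat_lit 76) (nat_lit 1349072215) (nat_lit 298) (nat_lit 5) (nat_lit 308) (nat_lit 5) (nat_lit 299) (nat_lit 5) (nat_lit 456) (nat_lit 412) (nat_lit 272)) (XT.lf (nat_lit 0) (nat_lit 2283575382) (nat_lit 760) (nat_lit 4098828193) (nat_lit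 76) (nat_lit 6409365225) (nat_lit 298) (nat_lit 5) (nat_lit 308) (nat_lit 5) (nat_lit 299) (nat_lit 5) (nat_lit 457) (nat_lit 412) (nat_lit 271))) (XT.nd (nat_lit 78) (nat_lit 684) (nat_lit 0) (XT.lf (nat_lit 0) (nat_lit 3032086824) (nat_lit 760) (nat_lit 1342318896) (nat_lit 836) (nat_lit 8557440458) (nat_lit 288) (nat_lit 5) (nat_lit 298) (nat_lit 5) (nat_lit 299) (nat_lit 5) (nat_lit 458) (nat_lit 412) (nat_lit 270)) (XT.nd (nat_lit 78) (nat_lit 684) (nat_lit 0) (XT.lf (nat_lit 0) (nat_lit 6546299857) (nat_lit 836) (nat_lit 2752553124) (nat_lit 76) (nat_lit 3775091132) (nat_lit 288) (nat_lit 5) (nat_lit 299) (nat_lit 5) (nat_lit 289) (nat_lit 5) (nat_lit 459) (nat_lit 412) (nat_lit 269)) (XT.lf (nat_lit 0) (nat_lit 4574274656) (nat_lit 684) (nat_lit 4213099819) (nat_lit 760) (nat_lit 4430998554) (nat_lit 279) (nat_lit 5) (nat_lit 288) (nat_lit 5) (nat_lit 289) (nat_lit 5) (nat_lit 460) (nat_lit 412) (nat_lit 268)))))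 (XT.nd (nat_lit 234) (nat_lit 684) (nat_lit 0) (XT.nd (nat_lit 78) (nat_lit 1368) (nat_lit 0) (XT.lf (nat_lit 0) (nat_lit 11085492256) (nat_lit 760) (nat_lit 1301396549) (nat_lit 76) (nat_lit 978561084) (nat_lit 279) (nat_lit 5) (nat_lit 289) (nat_lit 5) (nat_lit 280) (nat_lit 5) (nat_lit 461) (nat_lit 412) (nat_lit 267)) (XT.nd (nat_lit 78) (nat_lit 684) (nat_lit 0) (XT.lf (nat_lit 0) (nat_lit 6227643028) (nat_lit 684) (nat_lit 7257815675) (nat_lit 760) (nat_lit 28895581) (nat_lit 270) (nat_lit 5) (nat_lit 279) (nat_lit 5) (nat_lit 280) (nat_lit 5) (nat_lit 462) (nat_lit 412) (nat_lit 266)) (XT.lf (nat_lit 0) (nat_lit 232750988) (nat_lit 608) (nat_lit 2002622088) (nat_lit 684) (nat_lit 11430614470) (nat_lit 261) (nat_lit 5) (nat_lit 269) (nat_lit 5) (nat_lit 270) (nat_lit 5) (nat_lit 463) (nat_lit 412) (nat_lit 265)))) (XT.nd (nat_lit 78) (nat_lit 684) (nat_lit 0) (XT.lf (nat_lit 0) (nat_lit 4603317070) (nat_lit 684)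 (nat_lit 5855121320) (nat_lit 76) (nat_lit 3361039235) (nat_lit 261) (nat_lit 5) (nat_lit 270) (nat_lit 5) (nat_lit 262) (nat_lit 5) (nat_lit 464) (nat_lit 412) (nat_lit 264)) (XT.nd (nat_lit 78) (nat_lit 0) (nat_lit 0) (XT.lf (nat_lit 0) (nat_lit 1871618751) (nat_lit 684) (nat_lit 5160410247) (nat_lit 760) (nat_lit 6943743767) (nat_lit 252) (nat_lit 5) (nat_lit 261) (nat_lit 5) (nat_lit 262) (nat_lit 5) (nat_lit 465) (nat_lit 412) (nat_lit 263)) (XT.lf (nat_lit 0) (nat_lit 9538571604) (nat_lit 760) (nat_lit 4318342344) (nat_lit 76) (nat_lit 277698103) (nat_lit 252) (nat_lit 5) (nat_lit 262) (nat_lit 5) (nat_lit 253) (nat_lit 5) (nat_lit 466) (nat_lit 412) (nat_lit 262))))))) (XT.nd (nat_lit 858) (nat_lit 3420) (nat_lit 0) (XT.nd (nat_lit 390) (nat_lit 1748) (nat_lit 0) (XT.nd (nat_lit 156) (nat_lit 1140) (nat_lit 0) (XT.nd (nat_lit 78) (nat_lit 76) (nat_lit 0) (XT.lf (nat_lit 0) (nat_lit 3622447141) (nat_lit 608) (nat_lit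 8518848835) (nat_lit 684) (nat_lit 2154414438) (nat_lit 244) (nat_lit 5) (nat_lit 252) (nat_lit 5) (nat_lit 253) (nat_lit 5) (nat_lit 467) (nat_lit 412) (nat_lit 261)) (XT.lf (nat_lit 0) (nat_lit 349221890) (nat_lit 684) (nat_lit 2695373341) (nat_lit 76) (nat_lit 11415043352) (nat_lit 243) (nat_lit 5) (nat_lit 252) (nat_lit 5) (nat_lit 244) (nat_lit 5) (nat_lit 468) (nat_lit 412) (nat_lit 260))) (XT.nd (nat_lit 78) (nat_lit 532) (nat_lit 0) (XT.lf (nat_lit 0) (nat_lit 2915170281) (nat_lit 684) (nat_lit 9156982479) (nat_lit 76) (nat_lit 2553589120) (nat_lit 235) (nat_lit 5) (nat_lit 244) (nat_lit 5) (nat_lit 236) (nat_lit 5) (nat_lit 469) (nat_lit 412) (nat_lit 259)) (XT.nd (nat_lit 78) (nat_lit 532) (nat_lit 0) (XT.lf (nat_lit 0) (nat_lit 5559566451) (nat_lit 684) (nat_lit 996356634) (nat_lit 76) (nat_lit 8238704637) (nat_lit 235) (nat_lit 5) (nat_lit 244) (nat_lit 5) (nat_lit 236) (nat_lit 5) (nat_lit 470) (nat_lit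 412) (nat_lit 258)) (XT.lf (nat_lit 0) (nat_lit 7410972307) (nat_lit 532) (nat_lit 882974372) (nat_lit 608) (nat_lit 6672205673) (nat_lit 228) (nat_lit 5) (nat_lit 235) (nat_lit 5) (nat_lit 236) (nat_lit 5) (nat_lit 471) (nat_lit 412) (nat_lit 257))))) (XT.nd (nat_lit 234) (nat_lit 532) (nat_lit 0) (XT.nd (nat_lit 78) (nat_lit 608) (nat_lit 0) (XT.lf (nat_lit 0) (nat_lit 824088792) (nat_lit 608) (nat_lit 10291932155) (nat_lit 684) (nat_lit 4024429336) (nat_lit 220) (nat_lit 5) (nat_lit 228) (nat_lit 5) (nat_lit 229) (nat_lit 5) (nat_lit 472) (nat_lit 412) (nat_lit 256)) (XT.nd (nat_lit 78) (nat_lit 608) (nat_lit 0) (XT.lf (nat_lit 0) (nat_lit 9453702542) (nat_lit 608) (nat_lit 4586556448) (nat_lit 684) (nat_lit 1277063616) (nat_lit 220) (nat_lit 5) (nat_lit 228) (nat_lit 5) (nat_lit 229) (nat_lit 5) (nat_lit 473) (nat_lit 412) (nat_lit 255)) (XT.lf (nat_lit 0) (nat_lit 1520759958) (nat_lit 608) (nat_lit 12734547926)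 (nat_lit 76) (nat_lit 1241918911) (nat_lit 212) (nat_lit 5) (nat_lit 220) (nat_lit 5) (nat_lit 213) (nat_lit 5) (nat_lit 474) (nat_lit 412) (nat_lit 254)))) (XT.nd (nat_lit 78) (nat_lit 532) (nat_lit 0) (XT.lf (nat_lit 0) (nat_lit 4416893541) (nat_lit 608) (nat_lit 4091755059) (nat_lit 76) (nat_lit 7170725284) (nat_lit 212) (nat_lit 5) (nat_lit 220) (nat_lit 5) (nat_lit 213) (nat_lit 5) (nat_lit 475) (nat_lit 412) (nat_lit 253)) (XT.nd (nat_lit 78) (nat_lit 0) (nat_lit 0) (XT.lf (nat_lit 0) (nat_lit 4773054760) (nat_lit 532) (nat_lit 2618545979) (nat_lit 608) (nat_lit 8473152817) (nat_lit 205) (nat_lit 5) (nat_lit 212) (nat_lit 5) (nat_lit 213) (nat_lit 5) (nat_lit 476) (nat_lit 412) (nat_lit 252)) (XT.lf (nat_lit 0) (nat_lit 10465204566) (nat_lit 608) (nat_lit 2218390604) (nat_lit 76) (nat_lit 3369460209) (nat_lit 205) (nat_lit 5) (nat_lit 213) (nat_lit 5) (nat_lit 206) (nat_lit 5) (nat_lit 477) (nat_lit 412) (nat_lit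 251)))))) (XT.nd (nat_lit 390) (nat_lit 1824) (nat_lit 0) (XT.nd (nat_lit 156) (nat_lit 988) (nat_lit 0) (XT.nd (nat_lit 78) (nat_lit 76) (nat_lit 0) (XT.lf (nat_lit 0) (nat_lit 6892163045) (nat_lit 532) (nat_lit 6760164977) (nat_lit 608) (nat_lit 2591756823) (nat_lit 198) (nat_lit 5) (nat_lit 205) (nat_lit 5) (nat_lit 206) (nat_lit 5) (nat_lit 478) (nat_lit 412) (nat_lit 250)) (XT.lf (nat_lit 0) (nat_lit 463156124) (nat_lit 608) (nat_lit 240070727) (nat_lit 76) (nat_lit 15735550500) (nat_lit 197) (nat_lit 5) (nat_lit 205) (nat_lit 5) (nat_lit 198) (nat_lit 5) (nat_lit 479) (nat_lit 412) (nat_lit 249))) (XT.nd (nat_lit 78) (nat_lit 456) (nat_lit 0) (XT.lf (nat_lit 0) (nat_lit 3630092100) (nat_lit 608) (nat_lit 7528346878) (nat_lit 76) (nat_lit 5476871942) (nat_lit 190) (nat_lit 5) (nat_lit 198) (nat_lit 5) (nat_lit 191) (nat_lit 5) (nat_lit 480) (nat_lit 412) (nat_lit 248)) (XT.nd (nat_lit 78) (nat_lit 0) (nat_lit 0)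 (XT.lf (nat_lit 0) (nat_lit 1814432347) (nat_lit 456) (nat_lit 5054277290) (nat_lit 532) (nat_lit 9966901027) (nat_lit 184) (nat_lit 5) (nat_lit 190) (nat_lit 5) (nat_lit 191) (nat_lit 5) (nat_lit 481) (nat_lit 412) (nat_lit 247)) (XT.lf (nat_lit 0) (nat_lit 10220929316) (nat_lit 532) (nat_lit 5613966777) (nat_lit 76) (nat_lit 1204046031) (nat_lit 184) (nat_lit 5) (nat_lit 191) (nat_lit 5) (nat_lit 185) (nat_lit 5) (nat_lit 482) (nat_lit 412) (nat_lit 246))))) (XT.nd (nat_lit 234) (nat_lit 836) (nat_lit 0) (XT.nd (nat_lit 78) (nat_lit 532) (nat_lit 0) (XT.lf (nat_lit 0) (nat_lit 3987236872) (nat_lit 456) (nat_lit 9702872084) (nat_lit 532) (nat_lit 3555235214) (nat_lit 178) (nat_lit 5) (nat_lit 184) (nat_lit 5) (nat_lit 185) (nat_lit 5) (nat_lit 483) (nat_lit 412) (nat_lit 245)) (XT.nd (nat_lit 78) (nat_lit 532) (nat_lit 0) (XT.lf (nat_lit 0) (nat_lit 13843675330) (nat_lit 456) (nat_lit 3413326784) (nat_lit 532) (nat_lit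 198307771) (nat_lit 178) (nat_lit 5) (nat_lit 184) (nat_lit 5) (nat_lit 185) (nat_lit 5) (nat_lit 484) (nat_lit 412) (nat_lit 244)) (XT.lf (nat_lit 0) (nat_lit 3234856510) (nat_lit 532) (nat_lit 11411924584) (nat_lit 76) (nat_lit 3021248991) (nat_lit 171) (nat_lit 5) (nat_lit 178) (nat_lit 5) (nat_lit 172) (nat_lit 5) (nat_lit 485) (nat_lit 412) (nat_lit 243)))) (XT.nd (nat_lit 78) (nat_lit 836) (nat_lit 0) (XT.lf (nat_lit 0) (nat_lit 6771885599) (nat_lit 532) (nat_lit 1551279182) (nat_lit 76) (nat_lit 9561058650) (nat_lit 171) (nat_lit 5) (nat_lit 178) (nat_lit 5) (nat_lit 172) (nat_lit 5) (nat_lit 486) (nat_lit 412) (nat_lit 242)) (XT.nd (nat_lit 78) (nat_lit 380) (nat_lit 0) (XT.lf (nat_lit 0) (nat_lit 8606873926) (nat_lit 456) (nat_lit 1819695326) (nat_lit 532) (nat_lit 7677235170) (nat_lit 165) (nat_lit 5) (nat_lit 171) (nat_lit 5) (nat_lit 172) (nat_lit 5) (nat_lit 487) (nat_lit 412) (nat_lit 241)) (XT.lf (nat_lit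 0) (nat_lit 625875118) (nat_lit 380) (nat_lit 13565372094) (nat_lit 456) (nat_lit 4135793822) (nat_lit 160) (nat_lit 5) (nat_lit 165) (nat_lit 5) (nat_lit 166) (nat_lit 5) (nat_lit 488) (nat_lit 412) (nat_lit 240))))))))
noncomputable def xc174 : XT := (XT.nd (nat_lit 53898) (nat_lit 0) (nat_lit 23408) (XT.nd (nat_lit 858) (nat_lit 760) (nat_lit 0) (XT.nd (nat_lit 390) (nat_lit 1672) (nat_lit 0) (XT.nd (nat_lit 156) (nat_lit 380) (nat_lit 0) (XT.nd (nat_lit 78) (nat_lit 532) (nat_lit 0) (XT.lf (nat_lit 0) (nat_lit 11055083406) (nat_lit 380) (nat_lit 7043032732) (nat_lit 456) (nat_lit 455290270) (nat_lit 160) (nat_lit 5) (nat_lit 165) (nat_lit 5) (nat_lit 166) (nat_lit 5) (nat_lit 489) (nat_lit 412) (nat_lit 239)) (XT.lf (nat_lit 0) (nat_lit 2912915508) (nat_lit 456) (nat_lit 352865636) (nat_lit 532) (nat_lit 15517887032) (nat_lit 153) (nat_lit 5) (nat_lit 159) (nat_lit 5) (nat_lit 160) (nat_lit 5) (nat_lit 490) (nat_lit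 412) (nat_lit 238))) (XT.nd (nat_lit 78) (nat_lit 380) (nat_lit 0) (XT.lf (nat_lit 0) (nat_lit 7139224524) (nat_lit 532) (nat_lit 5441385455) (nat_lit 76) (nat_lit 6436185936) (nat_lit 153) (nat_lit 5) (nat_lit 160) (nat_lit 5) (nat_lit 154) (nat_lit 5) (nat_lit 491) (nat_lit 412) (nat_lit 237)) (XT.nd (nat_lit 78) (nat_lit 0) (nat_lit 0) (XT.lf (nat_lit 0) (nat_lit 5250829129) (nat_lit 380) (nat_lit 5867281021) (nat_lit 456) (nat_lit 8135918417) (nat_lit 148) (nat_lit 5) (nat_lit 153) (nat_lit 5) (nat_lit 154) (nat_lit 5) (nat_lit 492) (nat_lit 412) (nat_lit 236)) (XT.lf (nat_lit 0) (nat_lit 15211301234) (nat_lit 456) (nat_lit 3283567170) (nat_lit 76) (nat_lit 1000444703) (nat_lit 148) (nat_lit 5) (nat_lit 154) (nat_lit 5) (nat_lit 149) (nat_lit 5) (nat_lit 493) (nat_lit 412) (nat_lit 235))))) (XT.nd (nat_lit 234) (nat_lit 836) (nat_lit 0) (XT.nd (nat_lit 78) (nat_lit 456) (nat_lit 0) (XT.lf (nat_lit 0) (nat_lit 7700504554)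 (nat_lit 380) (nat_lit 11766475626) (nat_lit 456) (nat_lit 272832430) (nat_lit 143) (nat_lit 5) (nat_lit 148) (nat_lit 5) (nat_lit 149) (nat_lit 5) (nat_lit 494) (nat_lit 412) (nat_lit 234)) (XT.nd (nat_lit 78) (nat_lit 380) (nat_lit 0) (XT.lf (nat_lit 0) (nat_lit 3782468567) (nat_lit 456) (nat_lit 1077054360) (nat_lit 76) (nat_lit 15128905427) (nat_lit 142) (nat_lit 5) (nat_lit 148) (nat_lit 5) (nat_lit 143) (nat_lit 5) (nat_lit 495) (nat_lit 412) (nat_lit 233)) (XT.lf (nat_lit 0) (nat_lit 7988188756) (nat_lit 456) (nat_lit 10030577427) (nat_lit 76) (nat_lit 2221756486) (nat_lit 137) (nat_lit 5) (nat_lit 143) (nat_lit 5) (nat_lit 138) (nat_lit 5) (nat_lit 496) (nat_lit 412) (nat_lit 232)))) (XT.nd (nat_lit 78) (nat_lit 456) (nat_lit 0) (XT.lf (nat_lit 0) (nat_lit 1211487384) (nat_lit 380) (nat_lit 11105875139) (nat_lit 456) (nat_lit 8179511186) (nat_lit 132) (nat_lit 5) (nat_lit 137) (nat_lit 5) (nat_lit 138) (nat_lit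 5) (nat_lit 497) (nat_lit 412) (nat_lit 231)) (XT.nd (nat_lit 78) (nat_lit 456) (nat_lit 0) (XT.lf (nat_lit 0) (nat_lit 12802497543) (nat_lit 380) (nat_lit 3990027865) (nat_lit 456) (nat_lit 3964639837) (nat_lit 132) (nat_lit 5) (nat_lit 137) (nat_lit 5) (nat_lit 138) (nat_lit 5) (nat_lit 498) (nat_lit 412) (nat_lit 230)) (XT.lf (nat_lit 0) (nat_lit 367313219) (nat_lit 456) (nat_lit 17407218337) (nat_lit 76) (nat_lit 3247345711) (nat_lit 126) (nat_lit 5) (nat_lit 132) (nat_lit 5) (nat_lit 127) (nat_lit 5) (nat_lit 499) (nat_lit 412) (nat_lit 229)))))) (XT.nd (nat_lit 52572) (nat_lit 0) (nat_lit 29184) (XT.nd (nat_lit 156) (nat_lit 380) (nat_lit 0) (XT.nd (nat_lit 78) (nat_lit 380) (nat_lit 0) (XT.lf (nat_lit 0) (nat_lit 4805275064) (nat_lit 456) (nat_lit 5832438585) (nat_lit 76) (nat_lit 10652198127) (nat_lit 126) (nat_lit 5) (nat_lit 132) (nat_lit 5) (nat_lit 127) (nat_lit 5) (nat_lit 500) (nat_lit 412) (nat_lit 228))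 (XT.lf (nat_lit 0) (nat_lit 6041514528) (nat_lit 380) (nat_lit 3322108202) (nat_lit 456) (nat_lit 12199053181) (nat_lit 121) (nat_lit 5) (nat_lit 126) (nat_lit 5) (nat_lit 127) (nat_lit 5) (nat_lit 501) (nat_lit 412) (nat_lit 227))) (XT.nd (nat_lit 78) (nat_lit 380) (nat_lit 0) (XT.lf (nat_lit 0) (nat_lit 14071863494) (nat_lit 456) (nat_lit 3646851178) (nat_lit 76) (nat_lit 4121007576) (nat_lit 121) (nat_lit 5) (nat_lit 127) (nat_lit 5) (nat_lit 122) (nat_lit 5) (nat_lit 502) (nat_lit 412) (nat_lit 226)) (XT.nd (nat_lit 78) (nat_lit 76) (nat_lit 0) (XT.lf (nat_lit 0) (nat_lit 8543615191) (nat_lit 304) (nat_lit 10400723280) (nat_lit 380) (nat_lit 3176571061) (nat_lit 117) (nat_lit 5) (nat_lit 121) (nat_lit 5) (nat_lit 122) (nat_lit 5) (nat_lit 503) (nat_lit 412) (nat_lit 225)) (XT.lf (nat_lit 0) (nat_lit 1504037863) (nat_lit 380) (nat_lit 1401254682) (nat_lit 76) (nat_lit 19501888665) (nat_lit 116) (nat_lit 5) (nat_lit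 121) (nat_lit 5) (nat_lit 117) (nat_lit 5) (nat_lit 504) (nat_lit 412) (nat_lit 224))))) (XT.nd (nat_lit 234) (nat_lit 0) (nat_lit 0) (XT.nd (nat_lit 78) (nat_lit 0) (nat_lit 0) (XT.lf (nat_lit 0) (nat_lit 645852404) (nat_lit 0) (nat_lit 645852404) (nat_lit 1444) (nat_lit 2976831948) (nat_lit 500) (nat_lit 5) (nat_lit 500) (nat_lit 3) (nat_lit 519) (nat_lit 3) (nat_lit 413) (nat_lit 413) (nat_lit 314)) (XT.nd (nat_lit 78) (nat_lit 0) (nat_lit 0) (XT.lf (nat_lit 0) (nat_lit 3631473065) (nat_lit 1444) (nat_lit 3154591327) (nat_lit 1520) (nat_lit 1815537678) (nat_lit 500) (nat_lit 5) (nat_lit 519) (nat_lit 3) (nat_lit 520) (nat_lit 5) (nat_lit 414) (nat_lit 413) (nat_lit 313)) (XT.lf (nat_lit 76) (nat_lit 1008801343) (nat_lit 0) (nat_lit 3680386472) (nat_lit 1520) (nat_lit 3978470012) (nat_lit 501) (nat_lit 5) (nat_lit 500) (nat_lit 5) (nat_lit 520) (nat_lit 5) (nat_lit 415) (nat_lit 413) (nat_lit 312)))) (XT.nd (nat_lit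 78) (nat_lit 0) (nat_lit 76) (XT.lf (nat_lit 76) (nat_lit 5284437946) (nat_lit 0) (nat_lit 478802192) (nat_lit 1520) (nat_lit 2971901120) (nat_lit 501) (nat_lit 5) (nat_lit 500) (nat_lit 5) (nat_lit 520) (nat_lit 5) (nat_lit 416) (nat_lit 413) (nat_lit 311)) (XT.nd (nat_lit 78) (nat_lit 0) (nat_lit 0) (XT.lf (nat_lit 76) (nat_lit 820163525) (nat_lit 0) (nat_lit 6036630365) (nat_lit 1520) (nat_lit 1947230084) (nat_lit 502) (nat_lit 5) (nat_lit 501) (nat_lit 5) (nat_lit 521) (nat_lit 5) (nat_lit 417) (nat_lit 413) (nat_lit 310)) (XT.lf (nat_lit 76) (nat_lit 5205990574) (nat_lit 0) (nat_lit 2767542672) (nat_lit 1520) (nat_lit 900734634) (nat_lit 502) (nat_lit 5) (nat_lit 501) (nat_lit 5) (nat_lit 521) (nat_lit 5) (nat_lit 418) (nat_lit 413) (nat_lit 309))))))) (XT.nd (nat_lit 858) (nat_lit 3040) (nat_lit 0) (XT.nd (nat_lit 390) (nat_lit 1368) (nat_lit 0) (XT.nd (nat_lit 156) (nat_lit 0) (nat_lit 0) (XT.nd (nat_lit 78) (nat_lit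 0) (nat_lit 0) (XT.lf (nat_lit 0) (nat_lit 148346054) (nat_lit 1520) (nat_lit 8222090156) (nat_lit 1596) (nat_lit 575791426) (nat_lit 482) (nat_lit 5) (nat_lit 502) (nat_lit 5) (nat_lit 503) (nat_lit 5) (nat_lit 419) (nat_lit 413) (nat_lit 308)) (XT.lf (nat_lit 0) (nat_lit 1225252504) (nat_lit 1520) (nat_lit 3804016279) (nat_lit 1596) (nat_lit 3989869887) (nat_lit 482) (nat_lit 5) (nat_lit 502) (nat_lit 5) (nat_lit 503) (nat_lit 5) (nat_lit 420) (nat_lit 413) (nat_lit 307))) (XT.nd (nat_lit 78) (nat_lit 0) (nat_lit 76) (XT.lf (nat_lit 76) (nat_lit 697298788) (nat_lit 0) (nat_lit 1607186915) (nat_lit 1596) (nat_lit 6789415529) (nat_lit 483) (nat_lit 5) (nat_lit 482) (nat_lit 5) (nat_lit 503) (nat_lit 5) (nat_lit 421) (nat_lit 413) (nat_lit 306)) (XT.nd (nat_lit 78) (nat_lit 0) (nat_lit 0) (XT.lf (nat_lit 0) (nat_lit 3419921880) (nat_lit 1520) (nat_lit 3856548362) (nat_lit 1596) (nat_lit 1893405338) (nat_lit 483) (nat_lit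 5) (nat_lit 503) (nat_lit 5) (nat_lit 504) (nat_lit 5) (nat_lit 422) (nat_lit 413) (nat_lit 305)) (XT.lf (nat_lit 76) (nat_lit 759201090) (nat_lit 0) (nat_lit 3791189958) (nat_lit 1596) (nat_lit 4697132607) (nat_lit 484) (nat_lit 5) (nat_lit 483) (nat_lit 5) (nat_lit 504) (nat_lit 5) (nat_lit 423) (nat_lit 413) (nat_lit 304))))) (XT.nd (nat_lit 234) (nat_lit 1444) (nat_lit 0) (XT.nd (nat_lit 78) (nat_lit 0) (nat_lit 76) (XT.lf (nat_lit 76) (nat_lit 5505217776) (nat_lit 0) (nat_lit 201637714) (nat_lit 1596) (nat_lit 3619810041) (nat_lit 484) (nat_lit 5) (nat_lit 483) (nat_lit 5) (nat_lit 504) (nat_lit 5) (nat_lit 424) (nat_lit 413) (nat_lit 303)) (XT.nd (nat_lit 78) (nat_lit 0) (nat_lit 0) (XT.lf (nat_lit 76) (nat_lit 913740868) (nat_lit 0) (nat_lit 5979103138) (nat_lit 1596) (nat_lit 2514426729) (nat_lit 485) (nat_lit 5) (nat_lit 484) (nat_lit 5) (nat_lit 505) (nat_lit 5) (nat_lit 425) (nat_lit 413) (nat_lit 302)) (XT.lf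 (nat_lit 76) (nat_lit 5779631733) (nat_lit 0) (nat_lit 2328228087) (nat_lit 1596) (nat_lit 1381530295) (nat_lit 485) (nat_lit 5) (nat_lit 484) (nat_lit 5) (nat_lit 505) (nat_lit 5) (nat_lit 426) (nat_lit 413) (nat_lit 301)))) (XT.nd (nat_lit 78) (nat_lit 1596) (nat_lit 0) (XT.lf (nat_lit 76) (nat_lit 1161211861) (nat_lit 0) (nat_lit 8181372751) (nat_lit 1596) (nat_lit 230667162) (nat_lit 486) (nat_lit 5) (nat_lit 485) (nat_lit 5) (nat_lit 506) (nat_lit 5) (nat_lit 427) (nat_lit 413) (nat_lit 300)) (XT.nd (nat_lit 78) (nat_lit 0) (nat_lit 0) (XT.lf (nat_lit 0) (nat_lit 950303626) (nat_lit 1596) (nat_lit 3514947376) (nat_lit 1672) (nat_lit 5193035714) (nat_lit 464) (nat_lit 5) (nat_lit 485) (nat_lit 5) (nat_lit 486) (nat_lit 5) (nat_lit 428) (nat_lit 413) (nat_lit 299)) (XT.lf (nat_lit 76) (nat_lit 1483470987) (nat_lit 0) (nat_lit 657363658) (nat_lit 1672) (nat_lit 7604384229) (nat_lit 465) (nat_lit 5) (nat_lit 464) (nat_lit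 5) (nat_lit 486) (nat_lit 5) (nat_lit 429) (nat_lit 413) (nat_lit 298)))))) (XT.nd (nat_lit 390) (nat_lit 3116) (nat_lit 0) (XT.nd (nat_lit 156) (nat_lit 0) (nat_lit 76) (XT.nd (nat_lit 78) (nat_lit 0) (nat_lit 0) (XT.lf (nat_lit 0) (nat_lit 3379612443) (nat_lit 1596) (nat_lit 3239920170) (nat_lit 1672) (nat_lit 3213875784) (nat_lit 465) (nat_lit 5) (nat_lit 486) (nat_lit 5) (nat_lit 487) (nat_lit 5) (nat_lit 430) (nat_lit 413) (nat_lit 297)) (XT.lf (nat_lit 76) (nat_lit 1888146201) (nat_lit 0) (nat_lit 2751772341) (nat_lit 1672) (nat_lit 5283515417) (nat_lit 466) (nat_lit 5) (nat_lit 465) (nat_lit 5) (nat_lit 487) (nat_lit 5) (nat_lit 431) (nat_lit 413) (nat_lit 296))) (XT.nd (nat_lit 78) (nat_lit 0) (nat_lit 0) (XT.lf (nat_lit 0) (nat_lit 5935532532) (nat_lit 1596) (nat_lit 2874968315) (nat_lit 1672) (nat_lit 1204564308) (nat_lit 466) (nat_lit 5) (nat_lit 487) (nat_lit 5) (nat_lit 488) (nat_lit 5) (nat_lit 432) (nat_lit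 413) (nat_lit 295)) (XT.nd (nat_lit 78) (nat_lit 0) (nat_lit 0) (XT.lf (nat_lit 76) (nat_lit 2386989631) (nat_lit 0) (nat_lit 4884641962) (nat_lit 1672) (nat_lit 2836612946) (nat_lit 467) (nat_lit 5) (nat_lit 466) (nat_lit 5) (nat_lit 488) (nat_lit 5) (nat_lit 433) (nat_lit 413) (nat_lit 294)) (XT.lf (nat_lit 76) (nat_lit 7778604046) (nat_lit 0) (nat_lit 856273329) (nat_lit 1672) (nat_lit 1568408520) (nat_lit 467) (nat_lit 5) (nat_lit 466) (nat_lit 5) (nat_lit 488) (nat_lit 5) (nat_lit 434) (nat_lit 413) (nat_lit 293))))) (XT.nd (nat_lit 234) (nat_lit 1596) (nat_lit 0) (XT.nd (nat_lit 78) (nat_lit 1672) (nat_lit 0) (XT.lf (nat_lit 76) (nat_lit 2981129837) (nat_lit 0) (nat_lit 7066261760) (nat_lit 1672) (nat_lit 252403158) (nat_lit 468) (nat_lit 5) (nat_lit 467) (nat_lit 5) (nat_lit 489) (nat_lit 5) (nat_lit 435) (nat_lit 413) (nat_lit 292)) (XT.nd (nat_lit 78) (nat_lit 0) (nat_lit 76) (XT.lf (nat_lit 0) (nat_lit 1079347173)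 (nat_lit 1672) (nat_lit 1897664344) (nat_lit 1748) (nat_lit 7421012840) (nat_lit 445) (nat_lit 5) (nat_lit 467) (nat_lit 5) (nat_lit 468) (nat_lit 5) (nat_lit 436) (nat_lit 413) (nat_lit 291)) (XT.lf (nat_lit 0) (nat_lit 2448115266) (nat_lit 1672) (nat_lit 6842420294) (nat_lit 76) (nat_lit 1207380732) (nat_lit 446) (nat_lit 5) (nat_lit 468) (nat_lit 5) (nat_lit 447) (nat_lit 5) (nat_lit 437) (nat_lit 413) (nat_lit 290)))) (XT.nd (nat_lit 78) (nat_lit 1672) (nat_lit 0) (XT.lf (nat_lit 0) (nat_lit 3859102016) (nat_lit 1672) (nat_lit 1288729508) (nat_lit 76) (nat_lit 5451683908) (nat_lit 446) (nat_lit 5) (nat_lit 468) (nat_lit 5) (nat_lit 447) (nat_lit 5) (nat_lit 438) (nat_lit 413) (nat_lit 289)) (XT.nd (nat_lit 78) (nat_lit 0) (nat_lit 0) (XT.lf (nat_lit 0) (nat_lit 4419466429) (nat_lit 1672) (nat_lit 890192383) (nat_lit 1748) (nat_lit 5393266846) (nat_lit 424) (nat_lit 5) (nat_lit 446) (nat_lit 5) (nat_lit 447) (nat_lit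 5) (nat_lit 439) (nat_lit 413) (nat_lit 288)) (XT.lf (nat_lit 0) (nat_lit 6803268477) (nat_lit 1748) (nat_lit 586210001) (nat_lit 76) (nat_lit 3418650767) (nat_lit 424) (nat_lit 5) (nat_lit 447) (nat_lit 5) (nat_lit 425) (nat_lit 5) (nat_lit 440) (nat_lit 413) (nat_lit 287))))))))
noncomputable def xc175 : XT := (XT.nd (nat_lit 1716) (nat_lit 7676) (nat_lit 0) (XT.nd (nat_lit 858) (nat_lit 4560) (nat_lit 0) (XT.nd (nat_lit 390) (nat_lit 2584) (nat_lit 0) (XT.nd (nat_lit 156) (nat_lit 988) (nat_lit 0) (XT.nd (nat_lit 78) (nat_lit 1140) (nat_lit 0) (XT.lf (nat_lit 0) (nat_lit 5273744826) (nat_lit 1748) (nat_lit 3076396217) (nat_lit 1824) (nat_lit 2564833918) (nat_lit 401) (nat_lit 5) (nat_lit 424) (nat_lit 5) (nat_lit 425) (nat_lit 5) (nat_lit 441) (nat_lit 413) (nat_lit 286)) (XT.lf (nat_lit 0) (nat_lit 214398130) (nat_lit 1140) (nat_lit 9710997330) (nat_lit 1216) (nat_lit 1098619002) (nat_lit 386) (nat_lit 5) (nat_lit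 401) (nat_lit 5) (nat_lit 402) (nat_lit 5) (nat_lit 442) (nat_lit 413) (nat_lit 285))) (XT.nd (nat_lit 78) (nat_lit 912) (nat_lit 0) (XT.lf (nat_lit 0) (nat_lit 433812370) (nat_lit 1216) (nat_lit 4908961977) (nat_lit 76) (nat_lit 5791572440) (nat_lit 385) (nat_lit 5) (nat_lit 401) (nat_lit 5) (nat_lit 386) (nat_lit 5) (nat_lit 443) (nat_lit 413) (nat_lit 284)) (XT.nd (nat_lit 78) (nat_lit 0) (nat_lit 0) (XT.lf (nat_lit 0) (nat_lit 1102288111) (nat_lit 912) (nat_lit 871003534) (nat_lit 988) (nat_lit 9273632108) (nat_lit 373) (nat_lit 5) (nat_lit 385) (nat_lit 5) (nat_lit 386) (nat_lit 5) (nat_lit 444) (nat_lit 413) (nat_lit 283)) (XT.lf (nat_lit 0) (nat_lit 3584848313) (nat_lit 988) (nat_lit 4099798548) (nat_lit 76) (nat_lit 3676284959) (nat_lit 373) (nat_lit 5) (nat_lit 386) (nat_lit 5) (nat_lit 374) (nat_lit 5) (nat_lit 445) (nat_lit 413) (nat_lit 282))))) (XT.nd (nat_lit 234) (nat_lit 912) (nat_lit 0) (XT.nd (nat_lit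 78) (nat_lit 836) (nat_lit 0) (XT.lf (nat_lit 0) (nat_lit 2072809976) (nat_lit 836) (nat_lit 3159531536) (nat_lit 912) (nat_lit 6244809644) (nat_lit 362) (nat_lit 5) (nat_lit 373) (nat_lit 5) (nat_lit 374) (nat_lit 5) (nat_lit 446) (nat_lit 413) (nat_lit 281)) (XT.nd (nat_lit 78) (nat_lit 836) (nat_lit 0) (XT.lf (nat_lit 0) (nat_lit 6934627703) (nat_lit 912) (nat_lit 3195099801) (nat_lit 76) (nat_lit 1465535624) (nat_lit 362) (nat_lit 5) (nat_lit 374) (nat_lit 5) (nat_lit 363) (nat_lit 5) (nat_lit 447) (nat_lit 413) (nat_lit 280)) (XT.lf (nat_lit 0) (nat_lit 3144164516) (nat_lit 836) (nat_lit 5553128494) (nat_lit 912) (nat_lit 3017922675) (nat_lit 351) (nat_lit 5) (nat_lit 362) (nat_lit 5) (nat_lit 363) (nat_lit 5) (nat_lit 448) (nat_lit 413) (nat_lit 279)))) (XT.nd (nat_lit 78) (nat_lit 912) (nat_lit 0) (XT.lf (nat_lit 0) (nat_lit 9639145640) (nat_lit 836) (nat_lit 862702975) (nat_lit 912) (nat_lit 1335590849) (nat_lit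 351) (nat_lit 5) (nat_lit 362) (nat_lit 5) (nat_lit 363) (nat_lit 5) (nat_lit 449) (nat_lit 413) (nat_lit 278)) (XT.nd (nat_lit 78) (nat_lit 0) (nat_lit 0) (XT.lf (nat_lit 0) (nat_lit 414642453) (nat_lit 912) (nat_lit 7645357344) (nat_lit 76) (nat_lit 3901278380) (nat_lit 339) (nat_lit 5) (nat_lit 351) (nat_lit 5) (nat_lit 340) (nat_lit 5) (nat_lit 450) (nat_lit 413) (nat_lit 277)) (XT.lf (nat_lit 0) (nat_lit 2188157604) (nat_lit 912) (nat_lit 1126232618) (nat_lit 76) (nat_lit 8772908291) (nat_lit 339) (nat_lit 5) (nat_lit 351) (nat_lit 5) (nat_lit 340) (nat_lit 5) (nat_lit 451) (nat_lit 413) (nat_lit 276)))))) (XT.nd (nat_lit 390) (nat_lit 2204) (nat_lit 0) (XT.nd (nat_lit 156) (nat_lit 760) (nat_lit 0) (XT.nd (nat_lit 78) (nat_lit 760) (nat_lit 0) (XT.lf (nat_lit 0) (nat_lit 4029399156) (nat_lit 912) (nat_lit 6643274740) (nat_lit 76) (nat_lit 1542524778) (nat_lit 328) (nat_lit 5) (nat_lit 340) (nat_lit 5) (nat_lit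 329) (nat_lit 5) (nat_lit 452) (nat_lit 413) (nat_lit 275)) (XT.lf (nat_lit 0) (nat_lit 37900811) (nat_lit 760) (nat_lit 5885416566) (nat_lit 836) (nat_lit 6422026875) (nat_lit 318) (nat_lit 5) (nat_lit 328) (nat_lit 5) (nat_lit 329) (nat_lit 5) (nat_lit 453) (nat_lit 413) (nat_lit 274))) (XT.nd (nat_lit 78) (nat_lit 760) (nat_lit 0) (XT.lf (nat_lit 0) (nat_lit 6928445032) (nat_lit 760) (nat_lit 957477968) (nat_lit 836) (nat_lit 4591557924) (nat_lit 318) (nat_lit 5) (nat_lit 328) (nat_lit 5) (nat_lit 329) (nat_lit 5) (nat_lit 454) (nat_lit 413) (nat_lit 273)) (XT.nd (nat_lit 78) (nat_lit 0) (nat_lit 0) (XT.lf (nat_lit 0) (nat_lit 1321151621) (nat_lit 760) (nat_lit 8588121455) (nat_lit 836) (nat_lit 2702561685) (nat_lit 308) (nat_lit 5) (nat_lit 318) (nat_lit 5) (nat_lit 319) (nat_lit 5) (nat_lit 455) (nat_lit 413) (nat_lit 272)) (XT.lf (nat_lit 0) (nat_lit 8383333852) (nat_lit 760) (nat_lit 3619960804) (nat_lit 836)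 (nat_lit 744981124) (nat_lit 308) (nat_lit 5) (nat_lit 318) (nat_lit 5) (nat_lit 319) (nat_lit 5) (nat_lit 456) (nat_lit 413) (nat_lit 271))))) (XT.nd (nat_lit 234) (nat_lit 684) (nat_lit 0) (XT.nd (nat_lit 78) (nat_lit 760) (nat_lit 0) (XT.lf (nat_lit 0) (nat_lit 1249348527) (nat_lit 760) (nat_lit 10184099959) (nat_lit 76) (nat_lit 1453558330) (nat_lit 298) (nat_lit 5) (nat_lit 308) (nat_lit 5) (nat_lit 299) (nat_lit 5) (nat_lit 457) (nat_lit 413) (nat_lit 270)) (XT.nd (nat_lit 78) (nat_lit 760) (nat_lit 0) (XT.lf (nat_lit 0) (nat_lit 3314056722) (nat_lit 760) (nat_lit 3100014372) (nat_lit 76) (nat_lit 6613537500) (nat_lit 298) (nat_lit 5) (nat_lit 308) (nat_lit 5) (nat_lit 299) (nat_lit 5) (nat_lit 458) (nat_lit 413) (nat_lit 269)) (XT.lf (nat_lit 0) (nat_lit 4166408482) (nat_lit 760) (nat_lit 1267956230) (nat_lit 836) (nat_lit 7736375457) (nat_lit 288) (nat_lit 5) (nat_lit 298) (nat_lit 5) (nat_lit 299) (nat_lit 5)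 (nat_lit 459) (nat_lit 413) (nat_lit 268)))) (XT.nd (nat_lit 78) (nat_lit 684) (nat_lit 0) (XT.lf (nat_lit 0) (nat_lit 7631272907) (nat_lit 836) (nat_lit 1736265229) (nat_lit 76) (nat_lit 3948516159) (nat_lit 288) (nat_lit 5) (nat_lit 299) (nat_lit 5) (nat_lit 289) (nat_lit 5) (nat_lit 460) (nat_lit 413) (nat_lit 267)) (XT.nd (nat_lit 78) (nat_lit 0) (nat_lit 0) (XT.lf (nat_lit 0) (nat_lit 5730050824) (nat_lit 684) (nat_lit 4175321470) (nat_lit 760) (nat_lit 3558241073) (nat_lit 279) (nat_lit 5) (nat_lit 288) (nat_lit 5) (nat_lit 289) (nat_lit 5) (nat_lit 461) (nat_lit 413) (nat_lit 266)) (XT.lf (nat_lit 0) (nat_lit 12231753764) (nat_lit 760) (nat_lit 266026999) (nat_lit 76) (nat_lit 1116210506) (nat_lit 279) (nat_lit 5) (nat_lit 289) (nat_lit 5) (nat_lit 280) (nat_lit 5) (nat_lit 462) (nat_lit 413) (nat_lit 265))))))) (XT.nd (nat_lit 858) (nat_lit 3192) (nat_lit 0) (XT.nd (nat_lit 390) (nat_lit 2432) (nat_lit 0) (XT.nd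 (nat_lit 156) (nat_lit 684) (nat_lit 0) (XT.nd (nat_lit 78) (nat_lit 608) (nat_lit 0) (XT.lf (nat_lit 0) (nat_lit 890497960) (nat_lit 760) (nat_lit 6365352872) (nat_lit 76) (nat_lit 6510136822) (nat_lit 269) (nat_lit 5) (nat_lit 279) (nat_lit 5) (nat_lit 270) (nat_lit 5) (nat_lit 463) (nat_lit 413) (nat_lit 264)) (XT.lf (nat_lit 0) (nat_lit 1297288168) (nat_lit 608) (nat_lit 1891227654) (nat_lit 684) (nat_lit 10732362137) (nat_lit 261) (nat_lit 5) (nat_lit 269) (nat_lit 5) (nat_lit 270) (nat_lit 5) (nat_lit 464) (nat_lit 413) (nat_lit 263))) (XT.nd (nat_lit 78) (nat_lit 684) (nat_lit 0) (XT.lf (nat_lit 0) (nat_lit 5586970253) (nat_lit 684) (nat_lit 4916019625) (nat_lit 76) (nat_lit 3574790041) (nat_lit 261) (nat_lit 5) (nat_lit 270) (nat_lit 5) (nat_lit 262) (nat_lit 5) (nat_lit 465) (nat_lit 413) (nat_lit 262)) (XT.nd (nat_lit 78) (nat_lit 0) (nat_lit 0) (XT.lf (nat_lit 0) (nat_lit 2958306537) (nat_lit 684) (nat_lit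 5095280250) (nat_lit 760) (nat_lit 6183832578) (nat_lit 252) (nat_lit 5) (nat_lit 261) (nat_lit 5) (nat_lit 262) (nat_lit 5) (nat_lit 466) (nat_lit 413) (nat_lit 261)) (XT.lf (nat_lit 0) (nat_lit 10594058892) (nat_lit 760) (nat_lit 3359580463) (nat_lit 76) (nat_lit 446125022) (nat_lit 252) (nat_lit 5) (nat_lit 262) (nat_lit 5) (nat_lit 253) (nat_lit 5) (nat_lit 467) (nat_lit 413) (nat_lit 260))))) (XT.nd (nat_lit 234) (nat_lit 1140) (nat_lit 0) (XT.nd (nat_lit 78) (nat_lit 684) (nat_lit 0) (XT.lf (nat_lit 0) (nat_lit 4733148965) (nat_lit 608) (nat_lit 8505474599) (nat_lit 684) (nat_lit 1325670241) (nat_lit 244) (nat_lit 5) (nat_lit 252) (nat_lit 5) (nat_lit 253) (nat_lit 5) (nat_lit 468) (nat_lit 413) (nat_lit 259)) (XT.nd (nat_lit 78) (nat_lit 608) (nat_lit 0) (XT.lf (nat_lit 0) (nat_lit 1199734020) (nat_lit 684) (nat_lit 1719944353) (nat_lit 76) (nat_lit 11812050994) (nat_lit 243) (nat_lit 5) (nat_lit 252) (nat_lit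 5) (nat_lit 244) (nat_lit 5) (nat_lit 469) (nat_lit 413) (nat_lit 258)) (XT.lf (nat_lit 0) (nat_lit 3808327494) (nat_lit 684) (nat_lit 8301884893) (nat_lit 76) (nat_lit 2791120359) (nat_lit 235) (nat_lit 5) (nat_lit 244) (nat_lit 5) (nat_lit 236) (nat_lit 5) (nat_lit 470) (nat_lit 413) (nat_lit 257)))) (XT.nd (nat_lit 78) (nat_lit 608) (nat_lit 0) (XT.lf (nat_lit 0) (nat_lit 1617083) (nat_lit 532) (nat_lit 6487635320) (nat_lit 608) (nat_lit 8584675533) (nat_lit 228) (nat_lit 5) (nat_lit 235) (nat_lit 5) (nat_lit 236) (nat_lit 5) (nat_lit 471) (nat_lit 413) (nat_lit 256)) (XT.nd (nat_lit 78) (nat_lit 608) (nat_lit 0) (XT.lf (nat_lit 0) (nat_lit 8570374819) (nat_lit 532) (nat_lit 698451481) (nat_lit 608) (nat_lit 5980251000) (nat_lit 228) (nat_lit 5) (nat_lit 235) (nat_lit 5) (nat_lit 236) (nat_lit 5) (nat_lit 472) (nat_lit 413) (nat_lit 255)) (XT.lf (nat_lit 0) (nat_lit 1860087264) (nat_lit 608) (nat_lit 10279298372)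 (nat_lit 684) (nat_lit 3287638958) (nat_lit 220) (nat_lit 5) (nat_lit 228) (nat_lit 5) (nat_lit 229) (nat_lit 5) (nat_lit 473) (nat_lit 413) (nat_lit 254)))))) (XT.nd (nat_lit 390) (nat_lit 2052) (nat_lit 0) (XT.nd (nat_lit 156) (nat_lit 532) (nat_lit 0) (XT.nd (nat_lit 78) (nat_lit 608) (nat_lit 0) (XT.lf (nat_lit 0) (nat_lit 10642302766) (nat_lit 608) (nat_lit 4464098925) (nat_lit 684) (nat_lit 501351001) (nat_lit 220) (nat_lit 5) (nat_lit 228) (nat_lit 5) (nat_lit 229) (nat_lit 5) (nat_lit 474) (nat_lit 413) (nat_lit 253)) (XT.lf (nat_lit 0) (nat_lit 2334371959) (nat_lit 608) (nat_lit 11971248644) (nat_lit 76) (nat_lit 1485685315) (nat_lit 212) (nat_lit 5) (nat_lit 220) (nat_lit 5) (nat_lit 213) (nat_lit 5) (nat_lit 475) (nat_lit 413) (nat_lit 252))) (XT.nd (nat_lit 78) (nat_lit 532) (nat_lit 0) (XT.lf (nat_lit 0) (nat_lit 5273071414) (nat_lit 608) (nat_lit 3175560512) (nat_lit 76) (nat_lit 7528775109) (nat_lit 212)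 (nat_lit 5) (nat_lit 220) (nat_lit 5) (nat_lit 213) (nat_lit 5) (nat_lit 476) (nat_lit 413) (nat_lit 251)) (XT.nd (nat_lit 78) (nat_lit 0) (nat_lit 0) (XT.lf (nat_lit 0) (nat_lit 5859979518) (nat_lit 532) (nat_lit 2438674791) (nat_lit 608) (nat_lit 7868016234) (nat_lit 205) (nat_lit 5) (nat_lit 212) (nat_lit 5) (nat_lit 213) (nat_lit 5) (nat_lit 477) (nat_lit 413) (nat_lit 250)) (XT.lf (nat_lit 0) (nat_lit 11420321819) (nat_lit 608) (nat_lit 1277136967) (nat_lit 76) (nat_lit 3661551581) (nat_lit 205) (nat_lit 5) (nat_lit 213) (nat_lit 5) (nat_lit 206) (nat_lit 5) (nat_lit 478) (nat_lit 413) (nat_lit 249))))) (XT.nd (nat_lit 234) (nat_lit 912) (nat_lit 0) (XT.nd (nat_lit 78) (nat_lit 608) (nat_lit 0) (XT.lf (nat_lit 0) (nat_lit 8009143403) (nat_lit 532) (nat_lit 6653777761) (nat_lit 608) (nat_lit 1891108312) (nat_lit 198) (nat_lit 5) (nat_lit 205) (nat_lit 5) (nat_lit 206) (nat_lit 5) (nat_lit 479) (nat_lit 413) (nat_lit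 248)) (XT.nd (nat_lit 78) (nat_lit 0) (nat_lit 0) (XT.lf (nat_lit 0) (nat_lit 734554356) (nat_lit 532) (nat_lit 470687721) (nat_lit 608) (nat_lit 15547475459) (nat_lit 190) (nat_lit 5) (nat_lit 197) (nat_lit 5) (nat_lit 198) (nat_lit 5) (nat_lit 480) (nat_lit 413) (nat_lit 247)) (XT.lf (nat_lit 0) (nat_lit 4424307290) (nat_lit 608) (nat_lit 6702505464) (nat_lit 76) (nat_lit 5826596720) (nat_lit 190) (nat_lit 5) (nat_lit 198) (nat_lit 5) (nat_lit 191) (nat_lit 5) (nat_lit 481) (nat_lit 413) (nat_lit 246)))) (XT.nd (nat_lit 78) (nat_lit 456) (nat_lit 0) (XT.lf (nat_lit 0) (nat_lit 2820705607) (nat_lit 456) (nat_lit 4899140073) (nat_lit 532) (nat_lit 9438030002) (nat_lit 184) (nat_lit 5) (nat_lit 190) (nat_lit 5) (nat_lit 191) (nat_lit 5) (nat_lit 482) (nat_lit 413) (nat_lit 245)) (XT.nd (nat_lit 78) (nat_lit 456) (nat_lit 0) (XT.lf (nat_lit 0) (nat_lit 11126745371) (nat_lit 532) (nat_lit 4762747838) (nat_lit 76) (nat_lit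 1476031221) (nat_lit 184) (nat_lit 5) (nat_lit 191) (nat_lit 5) (nat_lit 185) (nat_lit 5) (nat_lit 483) (nat_lit 413) (nat_lit 244)) (XT.lf (nat_lit 0) (nat_lit 5024141081) (nat_lit 456) (nat_lit 9633629147) (nat_lit 532) (nat_lit 2918438364) (nat_lit 178) (nat_lit 5) (nat_lit 184) (nat_lit 5) (nat_lit 185) (nat_lit 5) (nat_lit 484) (nat_lit 413) (nat_lit 243))))))))
noncomputable def xc176 : XT := (XT.nd (nat_lit 53898) (nat_lit 0) (nat_lit 24928) (XT.nd (nat_lit 780) (nat_lit 2356) (nat_lit 0) (XT.nd (nat_lit 390) (nat_lit 912) (nat_lit 0) (XT.nd (nat_lit 156) (nat_lit 836) (nat_lit 0) (XT.nd (nat_lit 78) (nat_lit 456) (nat_lit 0) (XT.lf (nat_lit 0) (nat_lit 485297852) (nat_lit 532) (nat_lit 2734901237) (nat_lit 76) (nat_lit 14570386019) (nat_lit 177) (nat_lit 5) (nat_lit 184) (nat_lit 5) (nat_lit 178) (nat_lit 5) (nat_lit 485) (nat_lit 413) (nat_lit 242)) (XT.lf (nat_lit 0) (nat_lit 3978867961) (nat_lit 532) (nat_lit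 10686750016) (nat_lit 76) (nat_lit 3342030675) (nat_lit 171) (nat_lit 5) (nat_lit 178) (nat_lit 5) (nat_lit 172) (nat_lit 5) (nat_lit 486) (nat_lit 413) (nat_lit 241))) (XT.nd (nat_lit 78) (nat_lit 836) (nat_lit 0) (XT.lf (nat_lit 0) (nat_lit 7573317744) (nat_lit 532) (nat_lit 647586080) (nat_lit 76) (nat_lit 10007531494) (nat_lit 171) (nat_lit 5) (nat_lit 178) (nat_lit 5) (nat_lit 172) (nat_lit 5) (nat_lit 487) (nat_lit 413) (nat_lit 240)) (XT.nd (nat_lit 78) (nat_lit 380) (nat_lit 0) (XT.lf (nat_lit 0) (nat_lit 9707580626) (nat_lit 456) (nat_lit 1586484616) (nat_lit 532) (nat_lit 7158486275) (nat_lit 165) (nat_lit 5) (nat_lit 171) (nat_lit 5) (nat_lit 172) (nat_lit 5) (nat_lit 488) (nat_lit 413) (nat_lit 239)) (XT.lf (nat_lit 0) (nat_lit 1572355200) (nat_lit 380) (nat_lit 13556540722) (nat_lit 456) (nat_lit 3551462694) (nat_lit 160) (nat_lit 5) (nat_lit 165) (nat_lit 5) (nat_lit 166) (nat_lit 5) (nat_lit 489) (nat_lit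 413) (nat_lit 238))))) (XT.nd (nat_lit 156) (nat_lit 380) (nat_lit 0) (XT.nd (nat_lit 78) (nat_lit 456) (nat_lit 0) (XT.lf (nat_lit 0) (nat_lit 187085310) (nat_lit 456) (nat_lit 6720906739) (nat_lit 76) (nat_lit 12003493910) (nat_lit 159) (nat_lit 5) (nat_lit 165) (nat_lit 5) (nat_lit 160) (nat_lit 5) (nat_lit 490) (nat_lit 413) (nat_lit 237)) (XT.lf (nat_lit 0) (nat_lit 3889460009) (nat_lit 456) (nat_lit 80334909) (nat_lit 532) (nat_lit 15176634359) (nat_lit 153) (nat_lit 5) (nat_lit 159) (nat_lit 5) (nat_lit 160) (nat_lit 5) (nat_lit 491) (nat_lit 413) (nat_lit 236))) (XT.nd (nat_lit 78) (nat_lit 380) (nat_lit 0) (XT.lf (nat_lit 0) (nat_lit 7909963351) (nat_lit 532) (nat_lit 4639053180) (nat_lit 76) (nat_lit 6835420627) (nat_lit 153) (nat_lit 5) (nat_lit 160) (nat_lit 5) (nat_lit 154) (nat_lit 5) (nat_lit 492) (nat_lit 413) (nat_lit 235)) (XT.nd (nat_lit 78) (nat_lit 0) (nat_lit 0) (XT.lf (nat_lit 0) (nat_lit 6261011221)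 (nat_lit 380) (nat_lit 5700979572) (nat_lit 456) (nat_lit 7664555047) (nat_lit 148) (nat_lit 5) (nat_lit 153) (nat_lit 5) (nat_lit 154) (nat_lit 5) (nat_lit 493) (nat_lit 413) (nat_lit 234)) (XT.lf (nat_lit 0) (nat_lit 16126664577) (nat_lit 456) (nat_lit 2451309902) (nat_lit 76) (nat_lit 1294891819) (nat_lit 148) (nat_lit 5) (nat_lit 154) (nat_lit 5) (nat_lit 149) (nat_lit 5) (nat_lit 494) (nat_lit 413) (nat_lit 233)))))) (XT.nd (nat_lit 390) (nat_lit 1140) (nat_lit 0) (XT.nd (nat_lit 156) (nat_lit 760) (nat_lit 0) (XT.nd (nat_lit 78) (nat_lit 0) (nat_lit 0) (XT.lf (nat_lit 0) (nat_lit 334438915) (nat_lit 456) (nat_lit 11378046604) (nat_lit 76) (nat_lit 8409852655) (nat_lit 142) (nat_lit 5) (nat_lit 148) (nat_lit 5) (nat_lit 143) (nat_lit 5) (nat_lit 495) (nat_lit 413) (nat_lit 232)) (XT.lf (nat_lit 0) (nat_lit 4455253412) (nat_lit 456) (nat_lit 216006450) (nat_lit 76) (nat_lit 15704871543) (nat_lit 142) (nat_lit 5)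 (nat_lit 148) (nat_lit 5) (nat_lit 143) (nat_lit 5) (nat_lit 496) (nat_lit 413) (nat_lit 231))) (XT.nd (nat_lit 78) (nat_lit 380) (nat_lit 0) (XT.lf (nat_lit 0) (nat_lit 8740926833) (nat_lit 456) (nat_lit 9344318407) (nat_lit 76) (nat_lit 2548107998) (nat_lit 137) (nat_lit 5) (nat_lit 143) (nat_lit 5) (nat_lit 138) (nat_lit 5) (nat_lit 497) (nat_lit 413) (nat_lit 230)) (XT.nd (nat_lit 78) (nat_lit 0) (nat_lit 0) (XT.lf (nat_lit 0) (nat_lit 2116753025) (nat_lit 380) (nat_lit 11034024372) (nat_lit 456) (nat_lit 7744174395) (nat_lit 132) (nat_lit 5) (nat_lit 137) (nat_lit 5) (nat_lit 138) (nat_lit 5) (nat_lit 498) (nat_lit 413) (nat_lit 229)) (XT.lf (nat_lit 0) (nat_lit 13922308173) (nat_lit 380) (nat_lit 3781624237) (nat_lit 456) (nat_lit 3456749286) (nat_lit 132) (nat_lit 5) (nat_lit 137) (nat_lit 5) (nat_lit 138) (nat_lit 5) (nat_lit 499) (nat_lit 413) (nat_lit 228))))) (XT.nd (nat_lit 234) (nat_lit 304) (nat_lit 0)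 (XT.nd (nat_lit 78) (nat_lit 380) (nat_lit 0) (XT.lf (nat_lit 0) (nat_lit 950297536) (nat_lit 456) (nat_lit 16879832045) (nat_lit 76) (nat_lit 3600561240) (nat_lit 126) (nat_lit 5) (nat_lit 132) (nat_lit 5) (nat_lit 127) (nat_lit 5) (nat_lit 500) (nat_lit 413) (nat_lit 227)) (XT.nd (nat_lit 78) (nat_lit 380) (nat_lit 0) (XT.lf (nat_lit 0) (nat_lit 5465731597) (nat_lit 456) (nat_lit 5090723966) (nat_lit 76) (nat_lit 11147858380) (nat_lit 126) (nat_lit 5) (nat_lit 132) (nat_lit 5) (nat_lit 127) (nat_lit 5) (nat_lit 501) (nat_lit 413) (nat_lit 226)) (XT.lf (nat_lit 0) (nat_lit 7015061082) (nat_lit 380) (nat_lit 3094655828) (nat_lit 456) (nat_lit 11872929175) (nat_lit 121) (nat_lit 5) (nat_lit 126) (nat_lit 5) (nat_lit 127) (nat_lit 5) (nat_lit 502) (nat_lit 413) (nat_lit 225)))) (XT.nd (nat_lit 78) (nat_lit 304) (nat_lit 0) (XT.lf (nat_lit 0) (nat_lit 14903035943) (nat_lit 456) (nat_lit 2874600506) (nat_lit 76) (nat_lit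 4487780726) (nat_lit 121) (nat_lit 5) (nat_lit 127) (nat_lit 5) (nat_lit 122) (nat_lit 5) (nat_lit 503) (nat_lit 413) (nat_lit 224)) (XT.nd (nat_lit 52338) (nat_lit 0) (nat_lit 29108) (XT.lf (nat_lit 0) (nat_lit 9554114745) (nat_lit 304) (nat_lit 10313517971) (nat_lit 380) (nat_lit 2684704099) (nat_lit 117) (nat_lit 5) (nat_lit 121) (nat_lit 5) (nat_lit 122) (nat_lit 5) (nat_lit 504) (nat_lit 413) (nat_lit 223)) (XT.lf (nat_lit 0) (nat_lit 1160632244) (nat_lit 0) (nat_lit 1160632244) (nat_lit 1444) (nat_lit 2012173481) (nat_lit 500) (nat_lit 5) (nat_lit 500) (nat_lit 3) (nat_lit 519) (nat_lit 3) (nat_lit 414) (nat_lit 414) (nat_lit 312))))))) (XT.nd (nat_lit 858) (nat_lit 2736) (nat_lit 0) (XT.nd (nat_lit 390) (nat_lit 0) (nat_lit 0) (XT.nd (nat_lit 156) (nat_lit 1444) (nat_lit 0) (XT.nd (nat_lit 78) (nat_lit 0) (nat_lit 0) (XT.lf (nat_lit 0) (nat_lit 5665802839) (nat_lit 1444) (nat_lit 2187113075) (nat_lit 1520) (nat_lit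 880709663) (nat_lit 500) (nat_lit 5) (nat_lit 519) (nat_lit 3) (nat_lit 520) (nat_lit 5) (nat_lit 415) (nat_lit 414) (nat_lit 311)) (XT.lf (nat_lit 76) (nat_lit 2052767381) (nat_lit 0) (nat_lit 4660086914) (nat_lit 1520) (nat_lit 2088799692) (nat_lit 501) (nat_lit 5) (nat_lit 500) (nat_lit 5) (nat_lit 520) (nat_lit 5) (nat_lit 416) (nat_lit 414) (nat_lit 310))) (XT.nd (nat_lit 78) (nat_lit 1444) (nat_lit 0) (XT.lf (nat_lit 76) (nat_lit 6393842402) (nat_lit 0) (nat_lit 1376704425) (nat_lit 1520) (nat_lit 1100711966) (nat_lit 501) (nat_lit 5) (nat_lit 500) (nat_lit 5) (nat_lit 520) (nat_lit 5) (nat_lit 417) (nat_lit 414) (nat_lit 309)) (XT.nd (nat_lit 78) (nat_lit 1520) (nat_lit 0) (XT.lf (nat_lit 76) (nat_lit 1877740198) (nat_lit 0) (nat_lit 6972238072) (nat_lit 1520) (nat_lit 92275359) (nat_lit 502) (nat_lit 5) (nat_lit 501) (nat_lit 5) (nat_lit 521) (nat_lit 5) (nat_lit 418) (nat_lit 414) (nat_lit 308)) (XT.lf (nat_lit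 0) (nat_lit 925712486) (nat_lit 1520) (nat_lit 2689866178) (nat_lit 1596) (nat_lit 5398944119) (nat_lit 481) (nat_lit 5) (nat_lit 501) (nat_lit 5) (nat_lit 502) (nat_lit 5) (nat_lit 419) (nat_lit 414) (nat_lit 307))))) (XT.nd (nat_lit 234) (nat_lit 0) (nat_lit 152) (XT.nd (nat_lit 78) (nat_lit 0) (nat_lit 76) (XT.lf (nat_lit 76) (nat_lit 1781492578) (nat_lit 0) (nat_lit 169184563) (nat_lit 1596) (nat_lit 7137800006) (nat_lit 482) (nat_lit 5) (nat_lit 481) (nat_lit 5) (nat_lit 502) (nat_lit 5) (nat_lit 420) (nat_lit 414) (nat_lit 306)) (XT.nd (nat_lit 78) (nat_lit 0) (nat_lit 0) (XT.lf (nat_lit 0) (nat_lit 3012763150) (nat_lit 1520) (nat_lit 2820639891) (nat_lit 1596) (nat_lit 3330184018) (nat_lit 482) (nat_lit 5) (nat_lit 502) (nat_lit 5) (nat_lit 503) (nat_lit 5) (nat_lit 421) (nat_lit 414) (nat_lit 305)) (XT.lf (nat_lit 76) (nat_lit 1763731367) (nat_lit 0) (nat_lit 2322114350) (nat_lit 1596) (nat_lit 5154567082) (nat_lit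 483) (nat_lit 5) (nat_lit 482) (nat_lit 5) (nat_lit 503) (nat_lit 5) (nat_lit 422) (nat_lit 414) (nat_lit 304)))) (XT.nd (nat_lit 78) (nat_lit 0) (nat_lit 0) (XT.lf (nat_lit 0) (nat_lit 5185219548) (nat_lit 1520) (nat_lit 2862810559) (nat_lit 1596) (nat_lit 1270656910) (nat_lit 483) (nat_lit 5) (nat_lit 503) (nat_lit 5) (nat_lit 504) (nat_lit 5) (nat_lit 423) (nat_lit 414) (nat_lit 303)) (XT.nd (nat_lit 78) (nat_lit 0) (nat_lit 0) (XT.lf (nat_lit 76) (nat_lit 1838208694) (nat_lit 0) (nat_lit 4473723921) (nat_lit 1596) (nat_lit 3086495457) (nat_lit 484) (nat_lit 5) (nat_lit 483) (nat_lit 5) (nat_lit 504) (nat_lit 5) (nat_lit 424) (nat_lit 414) (nat_lit 302)) (XT.lf (nat_lit 76) (nat_lit 6658286427) (nat_lit 0) (nat_lit 800484354) (nat_lit 1596) (nat_lit 2021049572) (nat_lit 484) (nat_lit 5) (nat_lit 483) (nat_lit 5) (nat_lit 504) (nat_lit 5) (nat_lit 425) (nat_lit 414) (nat_lit 301)))))) (XT.nd (nat_lit 390) (nat_lit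 1368) (nat_lit 0) (XT.nd (nat_lit 156) (nat_lit 0) (nat_lit 76) (XT.nd (nat_lit 78) (nat_lit 1596) (nat_lit 0) (XT.lf (nat_lit 76) (nat_lit 2005113785) (nat_lit 0) (nat_lit 6634433047) (nat_lit 1596) (nat_lit 923081689) (nat_lit 485) (nat_lit 5) (nat_lit 484) (nat_lit 5) (nat_lit 505) (nat_lit 5) (nat_lit 426) (nat_lit 414) (nat_lit 300)) (XT.lf (nat_lit 0) (nat_lit 197657022) (nat_lit 1596) (nat_lit 2701052231) (nat_lit 1672) (nat_lit 6748297924) (nat_lit 463) (nat_lit 5) (nat_lit 484) (nat_lit 5) (nat_lit 485) (nat_lit 5) (nat_lit 427) (nat_lit 414) (nat_lit 299))) (XT.nd (nat_lit 78) (nat_lit 0) (nat_lit 0) (XT.lf (nat_lit 0) (nat_lit 1328693910) (nat_lit 1596) (nat_lit 7476977660) (nat_lit 1672) (nat_lit 927282531) (nat_lit 464) (nat_lit 5) (nat_lit 485) (nat_lit 5) (nat_lit 486) (nat_lit 5) (nat_lit 428) (nat_lit 414) (nat_lit 298)) (XT.nd (nat_lit 78) (nat_lit 0) (nat_lit 0) (XT.lf (nat_lit 0) (nat_lit 2499592708)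 (nat_lit 1596) (nat_lit 2505074311) (nat_lit 1672) (nat_lit 4815615571) (nat_lit 464) (nat_lit 5) (nat_lit 485) (nat_lit 5) (nat_lit 486) (nat_lit 5) (nat_lit 429) (nat_lit 414) (nat_lit 297)) (XT.lf (nat_lit 76) (nat_lit 2586206025) (nat_lit 0) (nat_lit 1104689826) (nat_lit 1672) (nat_lit 6218529371) (nat_lit 465) (nat_lit 5) (nat_lit 464) (nat_lit 5) (nat_lit 486) (nat_lit 5) (nat_lit 430) (nat_lit 414) (nat_lit 296))))) (XT.nd (nat_lit 234) (nat_lit 1520) (nat_lit 0) (XT.nd (nat_lit 78) (nat_lit 0) (nat_lit 0) (XT.lf (nat_lit 0) (nat_lit 4922131689) (nat_lit 1596) (nat_lit 2219833647) (nat_lit 1672) (nat_lit 2858070397) (nat_lit 465) (nat_lit 5) (nat_lit 486) (nat_lit 5) (nat_lit 487) (nat_lit 5) (nat_lit 431) (nat_lit 414) (nat_lit 295)) (XT.nd (nat_lit 78) (nat_lit 0) (nat_lit 76) (XT.lf (nat_lit 76) (nat_lit 3003656651) (nat_lit 0) (nat_lit 3182064574) (nat_lit 1672) (nat_lit 3906589668) (nat_lit 466) (nat_lit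 5) (nat_lit 465) (nat_lit 5) (nat_lit 487) (nat_lit 5) (nat_lit 432) (nat_lit 414) (nat_lit 294)) (XT.lf (nat_lit 0) (nat_lit 7476368570) (nat_lit 1596) (nat_lit 1844452302) (nat_lit 1672) (nat_lit 865581844) (nat_lit 466) (nat_lit 5) (nat_lit 487) (nat_lit 5) (nat_lit 488) (nat_lit 5) (nat_lit 433) (nat_lit 414) (nat_lit 293)))) (XT.nd (nat_lit 78) (nat_lit 1596) (nat_lit 0) (XT.lf (nat_lit 76) (nat_lit 3515586808) (nat_lit 0) (nat_lit 5302735636) (nat_lit 1672) (nat_lit 1463550806) (nat_lit 467) (nat_lit 5) (nat_lit 466) (nat_lit 5) (nat_lit 488) (nat_lit 5) (nat_lit 434) (nat_lit 414) (nat_lit 292)) (XT.nd (nat_lit 78) (nat_lit 1596) (nat_lit 0) (XT.lf (nat_lit 76) (nat_lit 8993840229) (nat_lit 0) (nat_lit 1187517262) (nat_lit 1672) (nat_lit 198017477) (nat_lit 467) (nat_lit 5) (nat_lit 466) (nat_lit 5) (nat_lit 488) (nat_lit 5) (nat_lit 435) (nat_lit 414) (nat_lit 291)) (XT.lf (nat_lit 0) (nat_lit 1107237398) (nat_lit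 1672) (nat_lit 6362282746) (nat_lit 1748) (nat_lit 3008596154) (nat_lit 445) (nat_lit 5) (nat_lit 467) (nat_lit 5) (nat_lit 468) (nat_lit 5) (nat_lit 436) (nat_lit 414) (nat_lit 290))))))))
noncomputable def xc177 : XT := (XT.nd (nat_lit 1716) (nat_lit 7600) (nat_lit 0) (XT.nd (nat_lit 858) (nat_lit 4864) (nat_lit 0) (XT.nd (nat_lit 390) (nat_lit 2964) (nat_lit 0) (XT.nd (nat_lit 156) (nat_lit 3344) (nat_lit 0) (XT.nd (nat_lit 78) (nat_lit 0) (nat_lit 76) (XT.lf (nat_lit 0) (nat_lit 2435553823) (nat_lit 1672) (nat_lit 856123585) (nat_lit 1748) (nat_lit 7287142943) (nat_lit 445) (nat_lit 5) (nat_lit 467) (nat_lit 5) (nat_lit 468) (nat_lit 5) (nat_lit 437) (nat_lit 414) (nat_lit 289)) (XT.lf (nat_lit 0) (nat_lit 3810913090) (nat_lit 1672) (nat_lit 5878527624) (nat_lit 76) (nat_lit 991694352) (nat_lit 446) (nat_lit 5) (nat_lit 468) (nat_lit 5) (nat_lit 447) (nat_lit 5) (nat_lit 438) (nat_lit 414) (nat_lit 288))) (XT.nd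 (nat_lit 78) (nat_lit 3420) (nat_lit 0) (XT.lf (nat_lit 0) (nat_lit 5224358094) (nat_lit 1672) (nat_lit 235346181) (nat_lit 76) (nat_lit 5325586218) (nat_lit 446) (nat_lit 5) (nat_lit 468) (nat_lit 5) (nat_lit 447) (nat_lit 5) (nat_lit 439) (nat_lit 414) (nat_lit 287)) (XT.nd (nat_lit 78) (nat_lit 1748) (nat_lit 0) (XT.lf (nat_lit 0) (nat_lit 5579913952) (nat_lit 1672) (nat_lit 1105716234) (nat_lit 1748) (nat_lit 4205513553) (nat_lit 424) (nat_lit 5) (nat_lit 446) (nat_lit 5) (nat_lit 447) (nat_lit 5) (nat_lit 440) (nat_lit 414) (nat_lit 286)) (XT.lf (nat_lit 0) (nat_lit 486070461) (nat_lit 1748) (nat_lit 7700041304) (nat_lit 1824) (nat_lit 2812808360) (nat_lit 401) (nat_lit 5) (nat_lit 424) (nat_lit 5) (nat_lit 425) (nat_lit 5) (nat_lit 441) (nat_lit 414) (nat_lit 285))))) (XT.nd (nat_lit 234) (nat_lit 1748) (nat_lit 0) (XT.nd (nat_lit 78) (nat_lit 1216) (nat_lit 0) (XT.lf (nat_lit 0) (nat_lit 6449759814) (nat_lit 1748)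 (nat_lit 3293571987) (nat_lit 1824) (nat_lit 1364991306) (nat_lit 401) (nat_lit 5) (nat_lit 424) (nat_lit 5) (nat_lit 425) (nat_lit 5) (nat_lit 442) (nat_lit 414) (nat_lit 284)) (XT.nd (nat_lit 78) (nat_lit 0) (nat_lit 0) (XT.lf (nat_lit 0) (nat_lit 110747252) (nat_lit 1216) (nat_lit 9912665330) (nat_lit 76) (nat_lit 1196483853) (nat_lit 385) (nat_lit 5) (nat_lit 401) (nat_lit 5) (nat_lit 386) (nat_lit 5) (nat_lit 443) (nat_lit 414) (nat_lit 283)) (XT.lf (nat_lit 0) (nat_lit 1635274772) (nat_lit 1216) (nat_lit 3922957192) (nat_lit 76) (nat_lit 5774543104) (nat_lit 385) (nat_lit 5) (nat_lit 401) (nat_lit 5) (nat_lit 386) (nat_lit 5) (nat_lit 444) (nat_lit 414) (nat_lit 282)))) (XT.nd (nat_lit 78) (nat_lit 836) (nat_lit 0) (XT.lf (nat_lit 0) (nat_lit 2201385108) (nat_lit 912) (nat_lit 987763491) (nat_lit 988) (nat_lit 8258790775) (nat_lit 373) (nat_lit 5) (nat_lit 385) (nat_lit 5) (nat_lit 386) (nat_lit 5) (nat_lit 445)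 (nat_lit 414) (nat_lit 281)) (XT.nd (nat_lit 78) (nat_lit 836) (nat_lit 0) (XT.lf (nat_lit 0) (nat_lit 4809237574) (nat_lit 988) (nat_lit 3101775824) (nat_lit 76) (nat_lit 3653695927) (nat_lit 373) (nat_lit 5) (nat_lit 386) (nat_lit 5) (nat_lit 374) (nat_lit 5) (nat_lit 446) (nat_lit 414) (nat_lit 280)) (XT.lf (nat_lit 0) (nat_lit 3187179485) (nat_lit 836) (nat_lit 3286865408) (nat_lit 912) (nat_lit 5209528464) (nat_lit 362) (nat_lit 5) (nat_lit 373) (nat_lit 5) (nat_lit 374) (nat_lit 5) (nat_lit 447) (nat_lit 414) (nat_lit 279)))))) (XT.nd (nat_lit 390) (nat_lit 3116) (nat_lit 0) (XT.nd (nat_lit 156) (nat_lit 912) (nat_lit 0) (XT.nd (nat_lit 78) (nat_lit 836) (nat_lit 0) (XT.lf (nat_lit 0) (nat_lit 8187673287) (nat_lit 912) (nat_lit 2184050236) (nat_lit 76) (nat_lit 1432785561) (nat_lit 362) (nat_lit 5) (nat_lit 374) (nat_lit 5) (nat_lit 363) (nat_lit 5) (nat_lit 448) (nat_lit 414) (nat_lit 278)) (XT.lf (nat_lit 0)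 (nat_lit 4274927317) (nat_lit 836) (nat_lit 5695747904) (nat_lit 912) (nat_lit 1956491101) (nat_lit 351) (nat_lit 5) (nat_lit 362) (nat_lit 5) (nat_lit 363) (nat_lit 5) (nat_lit 449) (nat_lit 414) (nat_lit 277))) (XT.nd (nat_lit 78) (nat_lit 912) (nat_lit 0) (XT.lf (nat_lit 0) (nat_lit 10878869251) (nat_lit 836) (nat_lit 910895114) (nat_lit 912) (nat_lit 262508522) (nat_lit 351) (nat_lit 5) (nat_lit 362) (nat_lit 5) (nat_lit 363) (nat_lit 5) (nat_lit 450) (nat_lit 414) (nat_lit 276)) (XT.nd (nat_lit 78) (nat_lit 0) (nat_lit 0) (XT.lf (nat_lit 0) (nat_lit 1493766472) (nat_lit 912) (nat_lit 6721666144) (nat_lit 76) (nat_lit 3963310603) (nat_lit 339) (nat_lit 5) (nat_lit 351) (nat_lit 5) (nat_lit 340) (nat_lit 5) (nat_lit 451) (nat_lit 414) (nat_lit 275)) (XT.lf (nat_lit 0) (nat_lit 3281755235) (nat_lit 912) (nat_lit 93268695) (nat_lit 76) (nat_lit 8932686708) (nat_lit 339) (nat_lit 5) (nat_lit 351) (nat_lit 5) (nat_lit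 340) (nat_lit 5) (nat_lit 452) (nat_lit 414) (nat_lit 274))))) (XT.nd (nat_lit 234) (nat_lit 1520) (nat_lit 0) (XT.nd (nat_lit 78) (nat_lit 760) (nat_lit 0) (XT.lf (nat_lit 0) (nat_lit 5146125551) (nat_lit 912) (nat_lit 5706625047) (nat_lit 76) (nat_lit 1585698736) (nat_lit 328) (nat_lit 5) (nat_lit 340) (nat_lit 5) (nat_lit 329) (nat_lit 5) (nat_lit 453) (nat_lit 414) (nat_lit 273)) (XT.nd (nat_lit 78) (nat_lit 0) (nat_lit 0) (XT.lf (nat_lit 0) (nat_lit 1101137730) (nat_lit 760) (nat_lit 5963366285) (nat_lit 836) (nat_lit 5506968653) (nat_lit 318) (nat_lit 5) (nat_lit 328) (nat_lit 5) (nat_lit 329) (nat_lit 5) (nat_lit 454) (nat_lit 414) (nat_lit 272)) (XT.lf (nat_lit 0) (nat_lit 8108659916) (nat_lit 760) (nat_lit 937648495) (nat_lit 836) (nat_lit 3660351084) (nat_lit 318) (nat_lit 5) (nat_lit 328) (nat_lit 5) (nat_lit 329) (nat_lit 5) (nat_lit 455) (nat_lit 414) (nat_lit 271)))) (XT.nd (nat_lit 78) (nat_lit 760) (nat_lit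 0) (XT.lf (nat_lit 0) (nat_lit 2402353318) (nat_lit 760) (nat_lit 8695208473) (nat_lit 836) (nat_lit 1746396121) (nat_lit 308) (nat_lit 5) (nat_lit 318) (nat_lit 5) (nat_lit 319) (nat_lit 5) (nat_lit 456) (nat_lit 414) (nat_lit 270)) (XT.nd (nat_lit 78) (nat_lit 684) (nat_lit 0) (XT.lf (nat_lit 0) (nat_lit 227504463) (nat_lit 836) (nat_lit 3399921616) (nat_lit 76) (nat_lit 9356066120) (nat_lit 307) (nat_lit 5) (nat_lit 318) (nat_lit 5) (nat_lit 308) (nat_lit 5) (nat_lit 457) (nat_lit 414) (nat_lit 269)) (XT.lf (nat_lit 0) (nat_lit 2239835334) (nat_lit 760) (nat_lit 9328183542) (nat_lit 76) (nat_lit 1557124566) (nat_lit 298) (nat_lit 5) (nat_lit 308) (nat_lit 5) (nat_lit 299) (nat_lit 5) (nat_lit 458) (nat_lit 414) (nat_lit 268))))))) (XT.nd (nat_lit 858) (nat_lit 3496) (nat_lit 0) (XT.nd (nat_lit 390) (nat_lit 1976) (nat_lit 0) (XT.nd (nat_lit 156) (nat_lit 1368) (nat_lit 0) (XT.nd (nat_lit 78) (nat_lit 760) (nat_lit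 0) (XT.lf (nat_lit 0) (nat_lit 4326906324) (nat_lit 760) (nat_lit 2123192682) (nat_lit 76) (nat_lit 6818842632) (nat_lit 298) (nat_lit 5) (nat_lit 308) (nat_lit 5) (nat_lit 299) (nat_lit 5) (nat_lit 459) (nat_lit 414) (nat_lit 267)) (XT.lf (nat_lit 0) (nat_lit 5281724274) (nat_lit 760) (nat_lit 1196036382) (nat_lit 836) (nat_lit 6937418028) (nat_lit 288) (nat_lit 5) (nat_lit 298) (nat_lit 5) (nat_lit 299) (nat_lit 5) (nat_lit 460) (nat_lit 414) (nat_lit 266))) (XT.nd (nat_lit 78) (nat_lit 1368) (nat_lit 0) (XT.lf (nat_lit 0) (nat_lit 8700898609) (nat_lit 836) (nat_lit 741252973) (nat_lit 76) (nat_lit 4121607209) (nat_lit 288) (nat_lit 5) (nat_lit 299) (nat_lit 5) (nat_lit 289) (nat_lit 5) (nat_lit 461) (nat_lit 414) (nat_lit 265)) (XT.nd (nat_lit 78) (nat_lit 684) (nat_lit 0) (XT.lf (nat_lit 0) (nat_lit 6867614812) (nat_lit 684) (nat_lit 4141526529) (nat_lit 760) (nat_lit 2705359900) (nat_lit 279) (nat_lit 5) (nat_lit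 288) (nat_lit 5) (nat_lit 289) (nat_lit 5) (nat_lit 462) (nat_lit 414) (nat_lit 264)) (XT.lf (nat_lit 0) (nat_lit 758786202) (nat_lit 684) (nat_lit 12611179376) (nat_lit 760) (nat_lit 498168137) (nat_lit 270) (nat_lit 5) (nat_lit 279) (nat_lit 5) (nat_lit 280) (nat_lit 5) (nat_lit 463) (nat_lit 414) (nat_lit 263))))) (XT.nd (nat_lit 234) (nat_lit 1292) (nat_lit 0) (XT.nd (nat_lit 78) (nat_lit 608) (nat_lit 0) (XT.lf (nat_lit 0) (nat_lit 1792184220) (nat_lit 760) (nat_lit 5467187758) (nat_lit 76) (nat_lit 6764002381) (nat_lit 269) (nat_lit 5) (nat_lit 279) (nat_lit 5) (nat_lit 270) (nat_lit 5) (nat_lit 464) (nat_lit 414) (nat_lit 262)) (XT.nd (nat_lit 78) (nat_lit 0) (nat_lit 0) (XT.lf (nat_lit 0) (nat_lit 2341959575) (nat_lit 608) (nat_lit 1783486199) (nat_lit 684) (nat_lit 10056136040) (nat_lit 261) (nat_lit 5) (nat_lit 269) (nat_lit 5) (nat_lit 270) (nat_lit 5) (nat_lit 465) (nat_lit 414) (nat_lit 261)) (XT.lf (nat_lit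 0) (nat_lit 6555675096) (nat_lit 684) (nat_lit 3999149589) (nat_lit 76) (nat_lit 3787125925) (nat_lit 261) (nat_lit 5) (nat_lit 270) (nat_lit 5) (nat_lit 262) (nat_lit 5) (nat_lit 466) (nat_lit 414) (nat_lit 260)))) (XT.nd (nat_lit 78) (nat_lit 608) (nat_lit 0) (XT.lf (nat_lit 0) (nat_lit 4025984211) (nat_lit 684) (nat_lit 5035384431) (nat_lit 760) (nat_lit 5443624124) (nat_lit 252) (nat_lit 5) (nat_lit 261) (nat_lit 5) (nat_lit 262) (nat_lit 5) (nat_lit 467) (nat_lit 414) (nat_lit 259)) (XT.nd (nat_lit 78) (nat_lit 608) (nat_lit 0) (XT.lf (nat_lit 0) (nat_lit 11637077954) (nat_lit 760) (nat_lit 2422226967) (nat_lit 76) (nat_lit 611595924) (nat_lit 252) (nat_lit 5) (nat_lit 262) (nat_lit 5) (nat_lit 253) (nat_lit 5) (nat_lit 468) (nat_lit 414) (nat_lit 258)) (XT.lf (nat_lit 0) (nat_lit 5825748201) (nat_lit 608) (nat_lit 8498968162) (nat_lit 684) (nat_lit 514205478) (nat_lit 244) (nat_lit 5) (nat_lit 252) (nat_lit 5)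 (nat_lit 253) (nat_lit 5) (nat_lit 469) (nat_lit 414) (nat_lit 257)))))) (XT.nd (nat_lit 390) (nat_lit 1672) (nat_lit 0) (XT.nd (nat_lit 156) (nat_lit 1140) (nat_lit 0) (XT.nd (nat_lit 78) (nat_lit 608) (nat_lit 0) (XT.lf (nat_lit 0) (nat_lit 2034501184) (nat_lit 684) (nat_lit 764977175) (nat_lit 76) (nat_lit 12210447699) (nat_lit 243) (nat_lit 5) (nat_lit 252) (nat_lit 5) (nat_lit 244) (nat_lit 5) (nat_lit 470) (nat_lit 414) (nat_lit 256)) (XT.lf (nat_lit 0) (nat_lit 4686929460) (nat_lit 684) (nat_lit 7470001374) (nat_lit 76) (nat_lit 3026161774) (nat_lit 235) (nat_lit 5) (nat_lit 244) (nat_lit 5) (nat_lit 236) (nat_lit 5) (nat_lit 471) (nat_lit 414) (nat_lit 255))) (XT.nd (nat_lit 78) (nat_lit 608) (nat_lit 0) (XT.lf (nat_lit 0) (nat_lit 993005371) (nat_lit 532) (nat_lit 6419170009) (nat_lit 608) (nat_lit 7947154548) (nat_lit 228) (nat_lit 5) (nat_lit 235) (nat_lit 5) (nat_lit 236) (nat_lit 5) (nat_lit 472) (nat_lit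 414) (nat_lit 254)) (XT.nd (nat_lit 78) (nat_lit 608) (nat_lit 0) (XT.lf (nat_lit 0) (nat_lit 9713699910) (nat_lit 532) (nat_lit 518089121) (nat_lit 608) (nat_lit 5306508475) (nat_lit 228) (nat_lit 5) (nat_lit 235) (nat_lit 5) (nat_lit 236) (nat_lit 5) (nat_lit 473) (nat_lit 414) (nat_lit 253)) (XT.lf (nat_lit 0) (nat_lit 2877216630) (nat_lit 608) (nat_lit 10274895464) (nat_lit 684) (nat_lit 2567848711) (nat_lit 220) (nat_lit 5) (nat_lit 228) (nat_lit 5) (nat_lit 229) (nat_lit 5) (nat_lit 474) (nat_lit 414) (nat_lit 252))))) (XT.nd (nat_lit 234) (nat_lit 1064) (nat_lit 0) (XT.nd (nat_lit 78) (nat_lit 532) (nat_lit 0) (XT.lf (nat_lit 0) (nat_lit 255368487) (nat_lit 684) (nat_lit 4090427313) (nat_lit 76) (nat_lit 11558780030) (nat_lit 219) (nat_lit 5) (nat_lit 228) (nat_lit 5) (nat_lit 220) (nat_lit 5) (nat_lit 475) (nat_lit 414) (nat_lit 251)) (XT.nd (nat_lit 78) (nat_lit 0) (nat_lit 0) (XT.lf (nat_lit 0) (nat_lit 3133843714)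 (nat_lit 608) (nat_lit 11232213177) (nat_lit 76) (nat_lit 1725825805) (nat_lit 212) (nat_lit 5) (nat_lit 220) (nat_lit 5) (nat_lit 213) (nat_lit 5) (nat_lit 476) (nat_lit 414) (nat_lit 250)) (XT.lf (nat_lit 0) (nat_lit 6116556681) (nat_lit 608) (nat_lit 2279796782) (nat_lit 76) (nat_lit 7885651380) (nat_lit 212) (nat_lit 5) (nat_lit 220) (nat_lit 5) (nat_lit 213) (nat_lit 5) (nat_lit 477) (nat_lit 414) (nat_lit 249)))) (XT.nd (nat_lit 78) (nat_lit 532) (nat_lit 0) (XT.lf (nat_lit 0) (nat_lit 6930143030) (nat_lit 532) (nat_lit 2264224422) (nat_lit 608) (nat_lit 7280855567) (nat_lit 205) (nat_lit 5) (nat_lit 212) (nat_lit 5) (nat_lit 213) (nat_lit 5) (nat_lit 478) (nat_lit 414) (nat_lit 248)) (XT.nd (nat_lit 78) (nat_lit 532) (nat_lit 0) (XT.lf (nat_lit 0) (nat_lit 12365580583) (nat_lit 608) (nat_lit 355331139) (nat_lit 76) (nat_lit 3950759322) (nat_lit 205) (nat_lit 5) (nat_lit 213) (nat_lit 5) (nat_lit 206) (nat_lit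 5) (nat_lit 479) (nat_lit 414) (nat_lit 247)) (XT.lf (nat_lit 0) (nat_lit 9110442282) (nat_lit 532) (nat_lit 6554644055) (nat_lit 608) (nat_lit 1205666688) (nat_lit 198) (nat_lit 5) (nat_lit 205) (nat_lit 5) (nat_lit 206) (nat_lit 5) (nat_lit 480) (nat_lit 414) (nat_lit 246))))))))
noncomputable def xc178 : XT := (XT.nd (nat_lit 1716) (nat_lit 380) (nat_lit 0) (XT.nd (nat_lit 858) (nat_lit 2508) (nat_lit 0) (XT.nd (nat_lit 390) (nat_lit 1444) (nat_lit 0) (XT.nd (nat_lit 156) (nat_lit 912) (nat_lit 0) (XT.nd (nat_lit 78) (nat_lit 0) (nat_lit 0) (XT.lf (nat_lit 0) (nat_lit 1693767473) (nat_lit 532) (nat_lit 241494316) (nat_lit 608) (nat_lit 15138219842) (nat_lit 190) (nat_lit 5) (nat_lit 197) (nat_lit 5) (nat_lit 198) (nat_lit 5) (nat_lit 481) (nat_lit 414) (nat_lit 245)) (XT.lf (nat_lit 0) (nat_lit 5206385658) (nat_lit 608) (nat_lit 5898062347) (nat_lit 76) (nat_lit 6173989227) (nat_lit 190) (nat_lit 5) (nat_lit 198)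 (nat_lit 5) (nat_lit 191) (nat_lit 5) (nat_lit 482) (nat_lit 414) (nat_lit 244))) (XT.nd (nat_lit 78) (nat_lit 456) (nat_lit 0) (XT.lf (nat_lit 0) (nat_lit 3809438648) (nat_lit 456) (nat_lit 4750849553) (nat_lit 532) (nat_lit 8926858801) (nat_lit 184) (nat_lit 5) (nat_lit 190) (nat_lit 5) (nat_lit 191) (nat_lit 5) (nat_lit 483) (nat_lit 414) (nat_lit 243)) (XT.nd (nat_lit 78) (nat_lit 456) (nat_lit 0) (XT.lf (nat_lit 0) (nat_lit 12023441629) (nat_lit 532) (nat_lit 3931918332) (nat_lit 76) (nat_lit 1743829691) (nat_lit 184) (nat_lit 5) (nat_lit 191) (nat_lit 5) (nat_lit 185) (nat_lit 5) (nat_lit 484) (nat_lit 414) (nat_lit 242)) (XT.lf (nat_lit 0) (nat_lit 6044615704) (nat_lit 456) (nat_lit 9573225625) (nat_lit 532) (nat_lit 2296394257) (nat_lit 178) (nat_lit 5) (nat_lit 184) (nat_lit 5) (nat_lit 185) (nat_lit 5) (nat_lit 485) (nat_lit 414) (nat_lit 241))))) (XT.nd (nat_lit 234) (nat_lit 456) (nat_lit 0) (XT.nd (nat_lit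 78) (nat_lit 912) (nat_lit 0) (XT.lf (nat_lit 0) (nat_lit 1153326492) (nat_lit 532) (nat_lit 1878745059) (nat_lit 76) (nat_lit 15101006111) (nat_lit 177) (nat_lit 5) (nat_lit 184) (nat_lit 5) (nat_lit 178) (nat_lit 5) (nat_lit 486) (nat_lit 414) (nat_lit 240)) (XT.nd (nat_lit 78) (nat_lit 456) (nat_lit 0) (XT.lf (nat_lit 0) (nat_lit 4711381039) (nat_lit 532) (nat_lit 9984094147) (nat_lit 76) (nat_lit 3659118024) (nat_lit 171) (nat_lit 5) (nat_lit 178) (nat_lit 5) (nat_lit 172) (nat_lit 5) (nat_lit 487) (nat_lit 414) (nat_lit 239)) (XT.lf (nat_lit 0) (nat_lit 241045980) (nat_lit 456) (nat_lit 8125436206) (nat_lit 532) (nat_lit 10213541111) (nat_lit 165) (nat_lit 5) (nat_lit 171) (nat_lit 5) (nat_lit 172) (nat_lit 5) (nat_lit 488) (nat_lit 414) (nat_lit 238)))) (XT.nd (nat_lit 78) (nat_lit 456) (nat_lit 0) (XT.lf (nat_lit 0) (nat_lit 10794243985) (nat_lit 456) (nat_lit 1359078769) (nat_lit 532) (nat_lit 6655468383) (nat_lit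 165) (nat_lit 5) (nat_lit 171) (nat_lit 5) (nat_lit 172) (nat_lit 5) (nat_lit 489) (nat_lit 414) (nat_lit 237)) (XT.nd (nat_lit 78) (nat_lit 76) (nat_lit 0) (XT.lf (nat_lit 0) (nat_lit 2501497978) (nat_lit 380) (nat_lit 13558410854) (nat_lit 456) (nat_lit 2981347190) (nat_lit 160) (nat_lit 5) (nat_lit 165) (nat_lit 5) (nat_lit 166) (nat_lit 5) (nat_lit 490) (nat_lit 414) (nat_lit 236)) (XT.lf (nat_lit 0) (nat_lit 811156456) (nat_lit 456) (nat_lit 5966851635) (nat_lit 76) (nat_lit 12499165409) (nat_lit 159) (nat_lit 5) (nat_lit 165) (nat_lit 5) (nat_lit 160) (nat_lit 5) (nat_lit 491) (nat_lit 414) (nat_lit 235)))))) (XT.nd (nat_lit 390) (nat_lit 1216) (nat_lit 0) (XT.nd (nat_lit 156) (nat_lit 836) (nat_lit 0) (XT.nd (nat_lit 78) (nat_lit 0) (nat_lit 0) (XT.lf (nat_lit 0) (nat_lit 4664300303) (nat_lit 532) (nat_lit 14668282533) (nat_lit 76) (nat_lit 184339907) (nat_lit 153) (nat_lit 5) (nat_lit 160) (nat_lit 5) (nat_lit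 154) (nat_lit 5) (nat_lit 492) (nat_lit 414) (nat_lit 234)) (XT.lf (nat_lit 0) (nat_lit 8671732721) (nat_lit 532) (nat_lit 3856055713) (nat_lit 76) (nat_lit 7232135742) (nat_lit 153) (nat_lit 5) (nat_lit 160) (nat_lit 5) (nat_lit 154) (nat_lit 5) (nat_lit 493) (nat_lit 414) (nat_lit 233))) (XT.nd (nat_lit 78) (nat_lit 456) (nat_lit 0) (XT.lf (nat_lit 0) (nat_lit 7256248275) (nat_lit 380) (nat_lit 5542366455) (nat_lit 456) (nat_lit 7208386575) (nat_lit 148) (nat_lit 5) (nat_lit 153) (nat_lit 5) (nat_lit 154) (nat_lit 5) (nat_lit 494) (nat_lit 414) (nat_lit 232)) (XT.nd (nat_lit 78) (nat_lit 456) (nat_lit 0) (XT.lf (nat_lit 0) (nat_lit 17036603981) (nat_lit 456) (nat_lit 1637275152) (nat_lit 76) (nat_lit 1584571108) (nat_lit 148) (nat_lit 5) (nat_lit 154) (nat_lit 5) (nat_lit 149) (nat_lit 5) (nat_lit 495) (nat_lit 414) (nat_lit 231)) (XT.lf (nat_lit 0) (nat_lit 926554628) (nat_lit 456) (nat_lit 10740324205) (nat_lit 76)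 (nat_lit 8846077166) (nat_lit 142) (nat_lit 5) (nat_lit 148) (nat_lit 5) (nat_lit 143) (nat_lit 5) (nat_lit 496) (nat_lit 414) (nat_lit 230))))) (XT.nd (nat_lit 234) (nat_lit 456) (nat_lit 0) (XT.nd (nat_lit 78) (nat_lit 380) (nat_lit 0) (XT.lf (nat_lit 0) (nat_lit 636336073) (nat_lit 380) (nat_lit 4486101899) (nat_lit 456) (nat_lit 15649536434) (nat_lit 137) (nat_lit 5) (nat_lit 142) (nat_lit 5) (nat_lit 143) (nat_lit 5) (nat_lit 497) (nat_lit 414) (nat_lit 229)) (XT.nd (nat_lit 78) (nat_lit 380) (nat_lit 0) (XT.lf (nat_lit 0) (nat_lit 9485693757) (nat_lit 456) (nat_lit 8678772473) (nat_lit 76) (nat_lit 2870039383) (nat_lit 137) (nat_lit 5) (nat_lit 143) (nat_lit 5) (nat_lit 138) (nat_lit 5) (nat_lit 498) (nat_lit 414) (nat_lit 228)) (XT.lf (nat_lit 0) (nat_lit 3005912281) (nat_lit 380) (nat_lit 10972151737) (nat_lit 456) (nat_lit 7323387935) (nat_lit 132) (nat_lit 5) (nat_lit 137) (nat_lit 5) (nat_lit 138) (nat_lit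 5) (nat_lit 499) (nat_lit 414) (nat_lit 227)))) (XT.nd (nat_lit 78) (nat_lit 456) (nat_lit 0) (XT.lf (nat_lit 0) (nat_lit 15030974136) (nat_lit 380) (nat_lit 3580243857) (nat_lit 456) (nat_lit 2961501970) (nat_lit 132) (nat_lit 5) (nat_lit 137) (nat_lit 5) (nat_lit 138) (nat_lit 5) (nat_lit 500) (nat_lit 414) (nat_lit 226)) (XT.nd (nat_lit 78) (nat_lit 0) (nat_lit 0) (XT.lf (nat_lit 0) (nat_lit 1522588812) (nat_lit 456) (nat_lit 16375895950) (nat_lit 76) (nat_lit 3949647259) (nat_lit 126) (nat_lit 5) (nat_lit 132) (nat_lit 5) (nat_lit 127) (nat_lit 5) (nat_lit 501) (nat_lit 414) (nat_lit 225)) (XT.lf (nat_lit 0) (nat_lit 6117482822) (nat_lit 456) (nat_lit 4367506351) (nat_lit 76) (nat_lit 11642457502) (nat_lit 126) (nat_lit 5) (nat_lit 132) (nat_lit 5) (nat_lit 127) (nat_lit 5) (nat_lit 502) (nat_lit 414) (nat_lit 224))))))) (XT.nd (nat_lit 53196) (nat_lit 0) (nat_lit 25992) (XT.nd (nat_lit 52728) (nat_lit 0) (nat_lit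 27284) (XT.nd (nat_lit 52494) (nat_lit 0) (nat_lit 28804) (XT.nd (nat_lit 78) (nat_lit 0) (nat_lit 0) (XT.lf (nat_lit 0) (nat_lit 7974966554) (nat_lit 380) (nat_lit 2874066689) (nat_lit 456) (nat_lit 11562420564) (nat_lit 121) (nat_lit 5) (nat_lit 126) (nat_lit 5) (nat_lit 127) (nat_lit 5) (nat_lit 503) (nat_lit 414) (nat_lit 223)) (XT.lf (nat_lit 0) (nat_lit 15729484954) (nat_lit 456) (nat_lit 2119724489) (nat_lit 76) (nat_lit 4850847565) (nat_lit 121) (nat_lit 5) (nat_lit 127) (nat_lit 5) (nat_lit 122) (nat_lit 5) (nat_lit 504) (nat_lit 414) (nat_lit 222))) (XT.nd (nat_lit 78) (nat_lit 0) (nat_lit 0) (XT.lf (nat_lit 0) (nat_lit 1666219738) (nat_lit 0) (nat_lit 1666219738) (nat_lit 1444) (nat_lit 1067992588) (nat_lit 500) (nat_lit 5) (nat_lit 500) (nat_lit 3) (nat_lit 519) (nat_lit 3) (nat_lit 415) (nat_lit 415) (nat_lit 310)) (XT.nd (nat_lit 78) (nat_lit 0) (nat_lit 0) (XT.lf (nat_lit 0) (nat_lit 7629304015) (nat_lit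 0) (nat_lit 35570928) (nat_lit 1444) (nat_lit 1204963572) (nat_lit 500) (nat_lit 5) (nat_lit 500) (nat_lit 3) (nat_lit 519) (nat_lit 3) (nat_lit 416) (nat_lit 415) (nat_lit 309)) (XT.lf (nat_lit 76) (nat_lit 3077857727) (nat_lit 0) (nat_lit 5624196681) (nat_lit 1520) (nat_lit 237803945) (nat_lit 501) (nat_lit 5) (nat_lit 500) (nat_lit 5) (nat_lit 520) (nat_lit 5) (nat_lit 417) (nat_lit 415) (nat_lit 308))))) (XT.nd (nat_lit 234) (nat_lit 0) (nat_lit 76) (XT.nd (nat_lit 78) (nat_lit 0) (nat_lit 76) (XT.lf (nat_lit 0) (nat_lit 723319824) (nat_lit 1520) (nat_lit 1529896232) (nat_lit 1596) (nat_lit 6758285763) (nat_lit 480) (nat_lit 5) (nat_lit 500) (nat_lit 5) (nat_lit 501) (nat_lit 5) (nat_lit 418) (nat_lit 415) (nat_lit 307)) (XT.nd (nat_lit 78) (nat_lit 0) (nat_lit 0) (XT.lf (nat_lit 0) (nat_lit 1703596144) (nat_lit 1520) (nat_lit 6179887168) (nat_lit 1596) (nat_lit 1201010200) (nat_lit 481) (nat_lit 5) (nat_lit 501)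 (nat_lit 5) (nat_lit 502) (nat_lit 5) (nat_lit 419) (nat_lit 415) (nat_lit 306)) (XT.lf (nat_lit 0) (nat_lit 2705484186) (nat_lit 1520) (nat_lit 1738462092) (nat_lit 1596) (nat_lit 4714967537) (nat_lit 481) (nat_lit 5) (nat_lit 501) (nat_lit 5) (nat_lit 502) (nat_lit 5) (nat_lit 420) (nat_lit 415) (nat_lit 305)))) (XT.nd (nat_lit 78) (nat_lit 0) (nat_lit 76) (XT.lf (nat_lit 76) (nat_lit 2815710671) (nat_lit 0) (nat_lit 907186501) (nat_lit 1596) (nat_lit 5512024336) (nat_lit 482) (nat_lit 5) (nat_lit 481) (nat_lit 5) (nat_lit 502) (nat_lit 5) (nat_lit 421) (nat_lit 415) (nat_lit 304)) (XT.nd (nat_lit 78) (nat_lit 0) (nat_lit 0) (XT.lf (nat_lit 0) (nat_lit 4767564353) (nat_lit 1520) (nat_lit 1858735971) (nat_lit 1596) (nat_lit 2686019467) (nat_lit 482) (nat_lit 5) (nat_lit 502) (nat_lit 5) (nat_lit 503) (nat_lit 5) (nat_lit 422) (nat_lit 415) (nat_lit 303)) (XT.lf (nat_lit 76) (nat_lit 2810623260) (nat_lit 0) (nat_lit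 3024827011) (nat_lit 1596) (nat_lit 3555777649) (nat_lit 483) (nat_lit 5) (nat_lit 482) (nat_lit 5) (nat_lit 503) (nat_lit 5) (nat_lit 423) (nat_lit 415) (nat_lit 302)))))) (XT.nd (nat_lit 390) (nat_lit 0) (nat_lit 76) (XT.nd (nat_lit 156) (nat_lit 1520) (nat_lit 0) (XT.nd (nat_lit 78) (nat_lit 0) (nat_lit 0) (XT.lf (nat_lit 0) (nat_lit 6919930505) (nat_lit 1520) (nat_lit 1890781139) (nat_lit 1596) (nat_lit 661106058) (nat_lit 483) (nat_lit 5) (nat_lit 503) (nat_lit 5) (nat_lit 504) (nat_lit 5) (nat_lit 424) (nat_lit 415) (nat_lit 301)) (XT.lf (nat_lit 76) (nat_lit 2897486883) (nat_lit 0) (nat_lit 5146349268) (nat_lit 1596) (nat_lit 1509836474) (nat_lit 484) (nat_lit 5) (nat_lit 483) (nat_lit 5) (nat_lit 504) (nat_lit 5) (nat_lit 425) (nat_lit 415) (nat_lit 300))) (XT.nd (nat_lit 78) (nat_lit 1520) (nat_lit 0) (XT.lf (nat_lit 76) (nat_lit 7793916876) (nat_lit 0) (nat_lit 1388210579) (nat_lit 1596) (nat_lit 455206945)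 (nat_lit 484) (nat_lit 5) (nat_lit 483) (nat_lit 5) (nat_lit 504) (nat_lit 5) (nat_lit 426) (nat_lit 415) (nat_lit 299)) (XT.nd (nat_lit 78) (nat_lit 0) (nat_lit 0) (XT.lf (nat_lit 0) (nat_lit 627997858) (nat_lit 1596) (nat_lit 6649853758) (nat_lit 1672) (nat_lit 2444432398) (nat_lit 463) (nat_lit 5) (nat_lit 484) (nat_lit 5) (nat_lit 485) (nat_lit 5) (nat_lit 427) (nat_lit 415) (nat_lit 298)) (XT.lf (nat_lit 0) (nat_lit 1728269644) (nat_lit 1596) (nat_lit 1723016266) (nat_lit 1672) (nat_lit 6357564018) (nat_lit 463) (nat_lit 5) (nat_lit 484) (nat_lit 5) (nat_lit 485) (nat_lit 5) (nat_lit 428) (nat_lit 415) (nat_lit 297))))) (XT.nd (nat_lit 234) (nat_lit 0) (nat_lit 76) (XT.nd (nat_lit 78) (nat_lit 0) (nat_lit 0) (XT.lf (nat_lit 0) (nat_lit 2855545248) (nat_lit 1596) (nat_lit 6567525044) (nat_lit 1672) (nat_lit 473984204) (nat_lit 464) (nat_lit 5) (nat_lit 485) (nat_lit 5) (nat_lit 486) (nat_lit 5) (nat_lit 429) (nat_lit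 415) (nat_lit 296)) (XT.nd (nat_lit 78) (nat_lit 0) (nat_lit 0) (XT.lf (nat_lit 0) (nat_lit 4020444817) (nat_lit 1596) (nat_lit 1516948179) (nat_lit 1672) (nat_lit 4449335747) (nat_lit 464) (nat_lit 5) (nat_lit 485) (nat_lit 5) (nat_lit 486) (nat_lit 5) (nat_lit 430) (nat_lit 415) (nat_lit 295)) (XT.lf (nat_lit 76) (nat_lit 3669327318) (nat_lit 0) (nat_lit 1544102823) (nat_lit 1672) (nat_lit 4864677599) (nat_lit 465) (nat_lit 5) (nat_lit 464) (nat_lit 5) (nat_lit 486) (nat_lit 5) (nat_lit 431) (nat_lit 415) (nat_lit 294)))) (XT.nd (nat_lit 78) (nat_lit 0) (nat_lit 0) (XT.lf (nat_lit 0) (nat_lit 6438228106) (nat_lit 1596) (nat_lit 1221472798) (nat_lit 1672) (nat_lit 2511461232) (nat_lit 465) (nat_lit 5) (nat_lit 486) (nat_lit 5) (nat_lit 487) (nat_lit 5) (nat_lit 432) (nat_lit 415) (nat_lit 293)) (XT.nd (nat_lit 78) (nat_lit 0) (nat_lit 76) (XT.lf (nat_lit 76) (nat_lit 4099627059) (nat_lit 0) (nat_lit 3606390973) (nat_lit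 1672) (nat_lit 2559696416) (nat_lit 466) (nat_lit 5) (nat_lit 465) (nat_lit 5) (nat_lit 487) (nat_lit 5) (nat_lit 433) (nat_lit 415) (nat_lit 292)) (XT.lf (nat_lit 0) (nat_lit 8992798467) (nat_lit 1596) (nat_lit 835574931) (nat_lit 1672) (nat_lit 533918327) (nat_lit 466) (nat_lit 5) (nat_lit 487) (nat_lit 5) (nat_lit 488) (nat_lit 5) (nat_lit 434) (nat_lit 415) (nat_lit 291))))))))
noncomputable def xc179 : XT := (XT.nd (nat_lit 1716) (nat_lit 8056) (nat_lit 0) (XT.nd (nat_lit 858) (nat_lit 5092) (nat_lit 0) (XT.nd (nat_lit 390) (nat_lit 4484) (nat_lit 0) (XT.nd (nat_lit 156) (nat_lit 0) (nat_lit 76) (XT.nd (nat_lit 78) (nat_lit 1672) (nat_lit 0) (XT.lf (nat_lit 76) (nat_lit 4624784918) (nat_lit 0) (nat_lit 5716749629) (nat_lit 1672) (nat_lit 118548084) (nat_lit 467) (nat_lit 5) (nat_lit 466) (nat_lit 5) (nat_lit 488) (nat_lit 5) (nat_lit 435) (nat_lit 415) (nat_lit 290)) (XT.lf (nat_lit 0) (nat_lit 1130327905) (nat_lit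 1672) (nat_lit 375275469) (nat_lit 1748) (nat_lit 9054320086) (nat_lit 444) (nat_lit 5) (nat_lit 466) (nat_lit 5) (nat_lit 467) (nat_lit 5) (nat_lit 436) (nat_lit 415) (nat_lit 289))) (XT.nd (nat_lit 78) (nat_lit 0) (nat_lit 0) (XT.lf (nat_lit 0) (nat_lit 2437832839) (nat_lit 1672) (nat_lit 5431200905) (nat_lit 1748) (nat_lit 2792013025) (nat_lit 445) (nat_lit 5) (nat_lit 467) (nat_lit 5) (nat_lit 468) (nat_lit 5) (nat_lit 437) (nat_lit 415) (nat_lit 288)) (XT.nd (nat_lit 78) (nat_lit 0) (nat_lit 76) (XT.lf (nat_lit 76) (nat_lit 166513776) (nat_lit 0) (nat_lit 3601627037) (nat_lit 1748) (nat_lit 6996124660) (nat_lit 446) (nat_lit 5) (nat_lit 445) (nat_lit 5) (nat_lit 468) (nat_lit 5) (nat_lit 438) (nat_lit 415) (nat_lit 287)) (XT.lf (nat_lit 0) (nat_lit 5149949036) (nat_lit 1672) (nat_lit 4938100219) (nat_lit 76) (nat_lit 781007290) (nat_lit 446) (nat_lit 5) (nat_lit 468) (nat_lit 5) (nat_lit 447) (nat_lit 5) (nat_lit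 439) (nat_lit 415) (nat_lit 286))))) (XT.nd (nat_lit 234) (nat_lit 1216) (nat_lit 0) (XT.nd (nat_lit 78) (nat_lit 1748) (nat_lit 0) (XT.lf (nat_lit 0) (nat_lit 807794160) (nat_lit 1672) (nat_lit 5764352384) (nat_lit 1748) (nat_lit 4403547587) (nat_lit 424) (nat_lit 5) (nat_lit 446) (nat_lit 5) (nat_lit 447) (nat_lit 5) (nat_lit 440) (nat_lit 415) (nat_lit 285)) (XT.nd (nat_lit 78) (nat_lit 1748) (nat_lit 0) (XT.lf (nat_lit 0) (nat_lit 6721941099) (nat_lit 1672) (nat_lit 1317872852) (nat_lit 1748) (nat_lit 3044315644) (nat_lit 424) (nat_lit 5) (nat_lit 446) (nat_lit 5) (nat_lit 447) (nat_lit 5) (nat_lit 441) (nat_lit 415) (nat_lit 284)) (XT.lf (nat_lit 0) (nat_lit 1545340980) (nat_lit 1748) (nat_lit 8006638057) (nat_lit 1824) (nat_lit 1642457379) (nat_lit 401) (nat_lit 5) (nat_lit 424) (nat_lit 5) (nat_lit 425) (nat_lit 5) (nat_lit 442) (nat_lit 415) (nat_lit 283)))) (XT.nd (nat_lit 78) (nat_lit 1216) (nat_lit 0) (XT.lf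 (nat_lit 0) (nat_lit 7607724726) (nat_lit 1748) (nat_lit 3509047277) (nat_lit 1824) (nat_lit 189735104) (nat_lit 401) (nat_lit 5) (nat_lit 424) (nat_lit 5) (nat_lit 425) (nat_lit 5) (nat_lit 443) (nat_lit 415) (nat_lit 282)) (XT.nd (nat_lit 78) (nat_lit 0) (nat_lit 0) (XT.lf (nat_lit 0) (nat_lit 1282360388) (nat_lit 1216) (nat_lit 9047993122) (nat_lit 76) (nat_lit 1090157859) (nat_lit 385) (nat_lit 5) (nat_lit 401) (nat_lit 5) (nat_lit 386) (nat_lit 5) (nat_lit 444) (nat_lit 415) (nat_lit 281)) (XT.lf (nat_lit 0) (nat_lit 2814449082) (nat_lit 1216) (nat_lit 2959332498) (nat_lit 76) (nat_lit 5762332328) (nat_lit 385) (nat_lit 5) (nat_lit 401) (nat_lit 5) (nat_lit 386) (nat_lit 5) (nat_lit 445) (nat_lit 415) (nat_lit 280)))))) (XT.nd (nat_lit 390) (nat_lit 2508) (nat_lit 0) (XT.nd (nat_lit 156) (nat_lit 1672) (nat_lit 0) (XT.nd (nat_lit 78) (nat_lit 0) (nat_lit 0) (XT.lf (nat_lit 0) (nat_lit 3280640834) (nat_lit 912) (nat_lit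 1103001158) (nat_lit 988) (nat_lit 7270262270) (nat_lit 373) (nat_lit 5) (nat_lit 385) (nat_lit 5) (nat_lit 386) (nat_lit 5) (nat_lit 446) (nat_lit 415) (nat_lit 279)) (XT.lf (nat_lit 0) (nat_lit 6013354175) (nat_lit 988) (nat_lit 2125731087) (nat_lit 76) (nat_lit 3634387366) (nat_lit 373) (nat_lit 5) (nat_lit 386) (nat_lit 5) (nat_lit 374) (nat_lit 5) (nat_lit 447) (nat_lit 415) (nat_lit 278))) (XT.nd (nat_lit 78) (nat_lit 836) (nat_lit 0) (XT.lf (nat_lit 0) (nat_lit 4282173852) (nat_lit 836) (nat_lit 3414255197) (nat_lit 912) (nat_lit 4198592761) (nat_lit 362) (nat_lit 5) (nat_lit 373) (nat_lit 5) (nat_lit 374) (nat_lit 5) (nat_lit 448) (nat_lit 415) (nat_lit 277)) (XT.nd (nat_lit 78) (nat_lit 836) (nat_lit 0) (XT.lf (nat_lit 0) (nat_lit 9422508096) (nat_lit 912) (nat_lit 1194521359) (nat_lit 76) (nat_lit 1401790392) (nat_lit 362) (nat_lit 5) (nat_lit 374) (nat_lit 5) (nat_lit 363) (nat_lit 5) (nat_lit 449) (nat_lit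 415) (nat_lit 276)) (XT.lf (nat_lit 0) (nat_lit 5386838312) (nat_lit 836) (nat_lit 5839994313) (nat_lit 912) (nat_lit 917391370) (nat_lit 351) (nat_lit 5) (nat_lit 362) (nat_lit 5) (nat_lit 363) (nat_lit 5) (nat_lit 450) (nat_lit 415) (nat_lit 275))))) (XT.nd (nat_lit 234) (nat_lit 760) (nat_lit 0) (XT.nd (nat_lit 78) (nat_lit 1672) (nat_lit 0) (XT.lf (nat_lit 0) (nat_lit 778976910) (nat_lit 912) (nat_lit 174645477) (nat_lit 76) (nat_lit 11318529094) (nat_lit 350) (nat_lit 5) (nat_lit 362) (nat_lit 5) (nat_lit 351) (nat_lit 5) (nat_lit 451) (nat_lit 415) (nat_lit 274)) (XT.nd (nat_lit 78) (nat_lit 836) (nat_lit 0) (XT.lf (nat_lit 0) (nat_lit 2552891291) (nat_lit 912) (nat_lit 5821306746) (nat_lit 76) (nat_lit 4027204512) (nat_lit 339) (nat_lit 5) (nat_lit 351) (nat_lit 5) (nat_lit 340) (nat_lit 5) (nat_lit 452) (nat_lit 415) (nat_lit 273)) (XT.lf (nat_lit 0) (nat_lit 931586522) (nat_lit 836) (nat_lit 3430920422) (nat_lit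 912) (nat_lit 8170731512) (nat_lit 328) (nat_lit 5) (nat_lit 339) (nat_lit 5) (nat_lit 340) (nat_lit 5) (nat_lit 453) (nat_lit 415) (nat_lit 272)))) (XT.nd (nat_lit 78) (nat_lit 760) (nat_lit 0) (XT.lf (nat_lit 0) (nat_lit 6244951957) (nat_lit 912) (nat_lit 4792772939) (nat_lit 76) (nat_lit 1629257638) (nat_lit 328) (nat_lit 5) (nat_lit 340) (nat_lit 5) (nat_lit 329) (nat_lit 5) (nat_lit 454) (nat_lit 415) (nat_lit 271)) (XT.nd (nat_lit 78) (nat_lit 0) (nat_lit 0) (XT.lf (nat_lit 0) (nat_lit 2144382037) (nat_lit 760) (nat_lit 6044418873) (nat_lit 836) (nat_lit 4614129596) (nat_lit 318) (nat_lit 5) (nat_lit 328) (nat_lit 5) (nat_lit 329) (nat_lit 5) (nat_lit 455) (nat_lit 415) (nat_lit 270)) (XT.lf (nat_lit 0) (nat_lit 9272030714) (nat_lit 760) (nat_lit 918936037) (nat_lit 836) (nat_lit 2750245918) (nat_lit 318) (nat_lit 5) (nat_lit 328) (nat_lit 5) (nat_lit 329) (nat_lit 5) (nat_lit 456) (nat_lit 415) (nat_lit 269)))))))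 (XT.nd (nat_lit 858) (nat_lit 3724) (nat_lit 0) (XT.nd (nat_lit 390) (nat_lit 2052) (nat_lit 0) (XT.nd (nat_lit 156) (nat_lit 1444) (nat_lit 0) (XT.nd (nat_lit 78) (nat_lit 76) (nat_lit 0) (XT.lf (nat_lit 0) (nat_lit 3464220708) (nat_lit 760) (nat_lit 8806948656) (nat_lit 836) (nat_lit 810335196) (nat_lit 308) (nat_lit 5) (nat_lit 318) (nat_lit 5) (nat_lit 319) (nat_lit 5) (nat_lit 457) (nat_lit 415) (nat_lit 268)) (XT.lf (nat_lit 0) (nat_lit 1171519410) (nat_lit 836) (nat_lit 2461205802) (nat_lit 76) (nat_lit 9591359775) (nat_lit 307) (nat_lit 5) (nat_lit 318) (nat_lit 5) (nat_lit 308) (nat_lit 5) (nat_lit 458) (nat_lit 415) (nat_lit 267))) (XT.nd (nat_lit 78) (nat_lit 760) (nat_lit 0) (XT.lf (nat_lit 0) (nat_lit 3212640341) (nat_lit 760) (nat_lit 8496294294) (nat_lit 76) (nat_lit 1659869393) (nat_lit 298) (nat_lit 5) (nat_lit 308) (nat_lit 5) (nat_lit 299) (nat_lit 5) (nat_lit 459) (nat_lit 415) (nat_lit 266)) (XT.nd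 (nat_lit 78) (nat_lit 760) (nat_lit 0) (XT.lf (nat_lit 0) (nat_lit 5323256510) (nat_lit 760) (nat_lit 1167173282) (nat_lit 76) (nat_lit 7025417853) (nat_lit 298) (nat_lit 5) (nat_lit 308) (nat_lit 5) (nat_lit 299) (nat_lit 5) (nat_lit 460) (nat_lit 415) (nat_lit 265)) (XT.lf (nat_lit 0) (nat_lit 6379273044) (nat_lit 760) (nat_lit 1126455598) (nat_lit 836) (nat_lit 6159514199) (nat_lit 288) (nat_lit 5) (nat_lit 298) (nat_lit 5) (nat_lit 299) (nat_lit 5) (nat_lit 461) (nat_lit 415) (nat_lit 264))))) (XT.nd (nat_lit 234) (nat_lit 608) (nat_lit 0) (XT.nd (nat_lit 78) (nat_lit 760) (nat_lit 0) (XT.lf (nat_lit 0) (nat_lit 236778961) (nat_lit 684) (nat_lit 9521066953) (nat_lit 760) (nat_lit 4059263623) (nat_lit 279) (nat_lit 5) (nat_lit 288) (nat_lit 5) (nat_lit 289) (nat_lit 5) (nat_lit 462) (nat_lit 415) (nat_lit 263)) (XT.nd (nat_lit 78) (nat_lit 760) (nat_lit 0) (XT.lf (nat_lit 0) (nat_lit 7988207180) (nat_lit 684) (nat_lit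 4111610645) (nat_lit 760) (nat_lit 1871302935) (nat_lit 279) (nat_lit 5) (nat_lit 288) (nat_lit 5) (nat_lit 289) (nat_lit 5) (nat_lit 463) (nat_lit 415) (nat_lit 262)) (XT.lf (nat_lit 0) (nat_lit 365078128) (nat_lit 760) (nat_lit 12362870463) (nat_lit 76) (nat_lit 1400032361) (nat_lit 269) (nat_lit 5) (nat_lit 279) (nat_lit 5) (nat_lit 270) (nat_lit 5) (nat_lit 464) (nat_lit 415) (nat_lit 261)))) (XT.nd (nat_lit 78) (nat_lit 608) (nat_lit 0) (XT.lf (nat_lit 0) (nat_lit 2677582211) (nat_lit 760) (nat_lit 4590879676) (nat_lit 76) (nat_lit 7018143274) (nat_lit 269) (nat_lit 5) (nat_lit 279) (nat_lit 5) (nat_lit 270) (nat_lit 5) (nat_lit 465) (nat_lit 415) (nat_lit 260)) (XT.nd (nat_lit 78) (nat_lit 0) (nat_lit 0) (XT.lf (nat_lit 0) (nat_lit 3367966053) (nat_lit 608) (nat_lit 1679242420) (nat_lit 684) (nat_lit 9400979119) (nat_lit 261) (nat_lit 5) (nat_lit 269) (nat_lit 5) (nat_lit 270) (nat_lit 5) (nat_lit 466) (nat_lit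 415) (nat_lit 259)) (XT.lf (nat_lit 0) (nat_lit 7510477023) (nat_lit 684) (nat_lit 3103363233) (nat_lit 76) (nat_lit 3998239534) (nat_lit 261) (nat_lit 5) (nat_lit 270) (nat_lit 5) (nat_lit 262) (nat_lit 5) (nat_lit 467) (nat_lit 415) (nat_lit 258)))))) (XT.nd (nat_lit 390) (nat_lit 1748) (nat_lit 0) (XT.nd (nat_lit 156) (nat_lit 1292) (nat_lit 0) (XT.nd (nat_lit 78) (nat_lit 0) (nat_lit 0) (XT.lf (nat_lit 0) (nat_lit 5075853707) (nat_lit 684) (nat_lit 4980573642) (nat_lit 760) (nat_lit 4722157212) (nat_lit 252) (nat_lit 5) (nat_lit 261) (nat_lit 5) (nat_lit 262) (nat_lit 5) (nat_lit 468) (nat_lit 415) (nat_lit 257)) (XT.lf (nat_lit 0) (nat_lit 12668683300) (nat_lit 760) (nat_lit 1505134111) (nat_lit 76) (nat_lit 774297279) (nat_lit 252) (nat_lit 5) (nat_lit 262) (nat_lit 5) (nat_lit 253) (nat_lit 5) (nat_lit 469) (nat_lit 415) (nat_lit 256))) (XT.nd (nat_lit 78) (nat_lit 608) (nat_lit 0) (XT.lf (nat_lit 0) (nat_lit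 277264170) (nat_lit 684) (nat_lit 8220065049) (nat_lit 76) (nat_lit 6622323581) (nat_lit 243) (nat_lit 5) (nat_lit 252) (nat_lit 5) (nat_lit 244) (nat_lit 5) (nat_lit 470) (nat_lit 415) (nat_lit 255)) (XT.nd (nat_lit 78) (nat_lit 0) (nat_lit 0) (XT.lf (nat_lit 0) (nat_lit 172939184) (nat_lit 608) (nat_lit 2682664059) (nat_lit 684) (nat_lit 12438699287) (nat_lit 235) (nat_lit 5) (nat_lit 243) (nat_lit 5) (nat_lit 244) (nat_lit 5) (nat_lit 471) (nat_lit 415) (nat_lit 254)) (XT.lf (nat_lit 0) (nat_lit 5551943920) (nat_lit 684) (nat_lit 6660230681) (nat_lit 76) (nat_lit 3258944725) (nat_lit 235) (nat_lit 5) (nat_lit 244) (nat_lit 5) (nat_lit 236) (nat_lit 5) (nat_lit 472) (nat_lit 415) (nat_lit 253))))) (XT.nd (nat_lit 234) (nat_lit 608) (nat_lit 0) (XT.nd (nat_lit 78) (nat_lit 608) (nat_lit 0) (XT.lf (nat_lit 0) (nat_lit 1965725865) (nat_lit 532) (nat_lit 6357032439) (nat_lit 608) (nat_lit 7328305927) (nat_lit 228) (nat_lit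 5) (nat_lit 235) (nat_lit 5) (nat_lit 236) (nat_lit 5) (nat_lit 473) (nat_lit 415) (nat_lit 252)) (XT.nd (nat_lit 78) (nat_lit 608) (nat_lit 0) (XT.lf (nat_lit 0) (nat_lit 10842150758) (nat_lit 532) (nat_lit 341665639) (nat_lit 608) (nat_lit 4650097751) (nat_lit 228) (nat_lit 5) (nat_lit 235) (nat_lit 5) (nat_lit 236) (nat_lit 5) (nat_lit 474) (nat_lit 415) (nat_lit 251)) (XT.lf (nat_lit 0) (nat_lit 3876636799) (nat_lit 608) (nat_lit 10278558623) (nat_lit 684) (nat_lit 1864166252) (nat_lit 220) (nat_lit 5) (nat_lit 228) (nat_lit 5) (nat_lit 229) (nat_lit 5) (nat_lit 475) (nat_lit 415) (nat_lit 250)))) (XT.nd (nat_lit 78) (nat_lit 532) (nat_lit 0) (XT.lf (nat_lit 0) (nat_lit 991002284) (nat_lit 684) (nat_lit 3238930008) (nat_lit 76) (nat_lit 11977934669) (nat_lit 219) (nat_lit 5) (nat_lit 228) (nat_lit 5) (nat_lit 220) (nat_lit 5) (nat_lit 476) (nat_lit 415) (nat_lit 249)) (XT.nd (nat_lit 78) (nat_lit 0) (nat_lit 0) (XT.lf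 (nat_lit 0) (nat_lit 3920073372) (nat_lit 608) (nat_lit 10516391813) (nat_lit 76) (nat_lit 1962597977) (nat_lit 212) (nat_lit 5) (nat_lit 220) (nat_lit 5) (nat_lit 213) (nat_lit 5) (nat_lit 477) (nat_lit 415) (nat_lit 248)) (XT.lf (nat_lit 0) (nat_lit 6948253288) (nat_lit 608) (nat_lit 1403367593) (nat_lit 76) (nat_lit 8241654266) (nat_lit 212) (nat_lit 5) (nat_lit 220) (nat_lit 5) (nat_lit 213) (nat_lit 5) (nat_lit 478) (nat_lit 415) (nat_lit 247))))))))
noncomputable def xc180 : XT := (XT.nd (nat_lit 1638) (nat_lit 1216) (nat_lit 0) (XT.nd (nat_lit 780) (nat_lit 2584) (nat_lit 0) (XT.nd (nat_lit 390) (nat_lit 1444) (nat_lit 0) (XT.nd (nat_lit 156) (nat_lit 608) (nat_lit 0) (XT.nd (nat_lit 78) (nat_lit 532) (nat_lit 0) (XT.lf (nat_lit 0) (nat_lit 7984705061) (nat_lit 532) (nat_lit 2094953102) (nat_lit 608) (nat_lit 6710862344) (nat_lit 205) (nat_lit 5) (nat_lit 212) (nat_lit 5) (nat_lit 213) (nat_lit 5) (nat_lit 479)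 (nat_lit 415) (nat_lit 246)) (XT.lf (nat_lit 0) (nat_lit 555408385) (nat_lit 532) (nat_lit 12750105967) (nat_lit 608) (nat_lit 3685562272) (nat_lit 198) (nat_lit 5) (nat_lit 205) (nat_lit 5) (nat_lit 206) (nat_lit 5) (nat_lit 480) (nat_lit 415) (nat_lit 245))) (XT.nd (nat_lit 78) (nat_lit 608) (nat_lit 0) (XT.lf (nat_lit 0) (nat_lit 10197222457) (nat_lit 532) (nat_lit 6462544643) (nat_lit 608) (nat_lit 534601447) (nat_lit 198) (nat_lit 5) (nat_lit 205) (nat_lit 5) (nat_lit 206) (nat_lit 5) (nat_lit 481) (nat_lit 415) (nat_lit 244)) (XT.nd (nat_lit 78) (nat_lit 0) (nat_lit 0) (XT.lf (nat_lit 0) (nat_lit 2635487912) (nat_lit 532) (nat_lit 16982449) (nat_lit 608) (nat_lit 14748745555) (nat_lit 190) (nat_lit 5) (nat_lit 197) (nat_lit 5) (nat_lit 198) (nat_lit 5) (nat_lit 482) (nat_lit 415) (nat_lit 243)) (XT.lf (nat_lit 0) (nat_lit 5977172562) (nat_lit 608) (nat_lit 5113973204) (nat_lit 76) (nat_lit 6519364987) (nat_lit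 190) (nat_lit 5) (nat_lit 198) (nat_lit 5) (nat_lit 191) (nat_lit 5) (nat_lit 483) (nat_lit 415) (nat_lit 242))))) (XT.nd (nat_lit 156) (nat_lit 988) (nat_lit 0) (XT.nd (nat_lit 78) (nat_lit 0) (nat_lit 0) (XT.lf (nat_lit 0) (nat_lit 4781743269) (nat_lit 456) (nat_lit 4609156317) (nat_lit 532) (nat_lit 8432643381) (nat_lit 184) (nat_lit 5) (nat_lit 190) (nat_lit 5) (nat_lit 191) (nat_lit 5) (nat_lit 484) (nat_lit 415) (nat_lit 241)) (XT.lf (nat_lit 0) (nat_lit 12911893305) (nat_lit 532) (nat_lit 3120433224) (nat_lit 76) (nat_lit 2007731511) (nat_lit 184) (nat_lit 5) (nat_lit 191) (nat_lit 5) (nat_lit 185) (nat_lit 5) (nat_lit 485) (nat_lit 415) (nat_lit 240))) (XT.nd (nat_lit 78) (nat_lit 532) (nat_lit 0) (XT.lf (nat_lit 0) (nat_lit 7049775417) (nat_lit 456) (nat_lit 9521441286) (nat_lit 532) (nat_lit 1688330529) (nat_lit 178) (nat_lit 5) (nat_lit 184) (nat_lit 5) (nat_lit 185) (nat_lit 5) (nat_lit 486) (nat_lit 415)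 (nat_lit 239)) (XT.nd (nat_lit 78) (nat_lit 456) (nat_lit 0) (XT.lf (nat_lit 0) (nat_lit 1809152233) (nat_lit 532) (nat_lit 1040835335) (nat_lit 76) (nat_lit 15632949697) (nat_lit 177) (nat_lit 5) (nat_lit 184) (nat_lit 5) (nat_lit 178) (nat_lit 5) (nat_lit 487) (nat_lit 415) (nat_lit 238)) (XT.lf (nat_lit 0) (nat_lit 5433190088) (nat_lit 532) (nat_lit 9302969735) (nat_lit 76) (nat_lit 3972829735) (nat_lit 171) (nat_lit 5) (nat_lit 178) (nat_lit 5) (nat_lit 172) (nat_lit 5) (nat_lit 488) (nat_lit 415) (nat_lit 237)))))) (XT.nd (nat_lit 390) (nat_lit 1216) (nat_lit 0) (XT.nd (nat_lit 156) (nat_lit 912) (nat_lit 0) (XT.nd (nat_lit 78) (nat_lit 0) (nat_lit 0) (XT.lf (nat_lit 0) (nat_lit 1120878416) (nat_lit 456) (nat_lit 8033890480) (nat_lit 532) (nat_lit 9784294660) (nat_lit 165) (nat_lit 5) (nat_lit 171) (nat_lit 5) (nat_lit 172) (nat_lit 5) (nat_lit 489) (nat_lit 415) (nat_lit 236)) (XT.lf (nat_lit 0) (nat_lit 11867983293)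 (nat_lit 456) (nat_lit 1137187353) (nat_lit 532) (nat_lit 6167482385) (nat_lit 165) (nat_lit 5) (nat_lit 171) (nat_lit 5) (nat_lit 172) (nat_lit 5) (nat_lit 490) (nat_lit 415) (nat_lit 235))) (XT.nd (nat_lit 78) (nat_lit 532) (nat_lit 0) (XT.lf (nat_lit 0) (nat_lit 3414364994) (nat_lit 380) (nat_lit 13570774109) (nat_lit 456) (nat_lit 2424725809) (nat_lit 160) (nat_lit 5) (nat_lit 165) (nat_lit 5) (nat_lit 166) (nat_lit 5) (nat_lit 491) (nat_lit 415) (nat_lit 234)) (XT.nd (nat_lit 78) (nat_lit 456) (nat_lit 0) (XT.lf (nat_lit 0) (nat_lit 1423620877) (nat_lit 456) (nat_lit 5232215929) (nat_lit 76) (nat_lit 12994825016) (nat_lit 159) (nat_lit 5) (nat_lit 165) (nat_lit 5) (nat_lit 160) (nat_lit 5) (nat_lit 492) (nat_lit 415) (nat_lit 233)) (XT.lf (nat_lit 0) (nat_lit 5349321705) (nat_lit 532) (nat_lit 14103041780) (nat_lit 76) (nat_lit 442935237) (nat_lit 153) (nat_lit 5) (nat_lit 160) (nat_lit 5) (nat_lit 154) (nat_lit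 5) (nat_lit 493) (nat_lit 415) (nat_lit 232))))) (XT.nd (nat_lit 234) (nat_lit 836) (nat_lit 0) (XT.nd (nat_lit 78) (nat_lit 380) (nat_lit 0) (XT.lf (nat_lit 0) (nat_lit 9425300116) (nat_lit 532) (nat_lit 3091405844) (nat_lit 76) (nat_lit 7626688782) (nat_lit 153) (nat_lit 5) (nat_lit 160) (nat_lit 5) (nat_lit 154) (nat_lit 5) (nat_lit 494) (nat_lit 415) (nat_lit 231)) (XT.nd (nat_lit 78) (nat_lit 0) (nat_lit 0) (XT.lf (nat_lit 0) (nat_lit 8237606257) (nat_lit 380) (nat_lit 5391167737) (nat_lit 456) (nat_lit 6766760793) (nat_lit 148) (nat_lit 5) (nat_lit 153) (nat_lit 5) (nat_lit 154) (nat_lit 5) (nat_lit 495) (nat_lit 415) (nat_lit 230)) (XT.lf (nat_lit 0) (nat_lit 17941932477) (nat_lit 456) (nat_lit 840473414) (nat_lit 76) (nat_lit 1869801027) (nat_lit 148) (nat_lit 5) (nat_lit 154) (nat_lit 5) (nat_lit 149) (nat_lit 5) (nat_lit 496) (nat_lit 415) (nat_lit 229)))) (XT.nd (nat_lit 78) (nat_lit 380) (nat_lit 0) (XT.lf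 (nat_lit 0) (nat_lit 1507779815) (nat_lit 456) (nat_lit 10123447365) (nat_lit 76) (nat_lit 9280618335) (nat_lit 142) (nat_lit 5) (nat_lit 148) (nat_lit 5) (nat_lit 143) (nat_lit 5) (nat_lit 497) (nat_lit 415) (nat_lit 228)) (XT.nd (nat_lit 78) (nat_lit 0) (nat_lit 0) (XT.lf (nat_lit 0) (nat_lit 1475274518) (nat_lit 380) (nat_lit 4306637404) (nat_lit 456) (nat_lit 15394248014) (nat_lit 137) (nat_lit 5) (nat_lit 142) (nat_lit 5) (nat_lit 143) (nat_lit 5) (nat_lit 498) (nat_lit 415) (nat_lit 227)) (XT.lf (nat_lit 0) (nat_lit 10223224228) (nat_lit 456) (nat_lit 8033016605) (nat_lit 76) (nat_lit 3187887330) (nat_lit 137) (nat_lit 5) (nat_lit 143) (nat_lit 5) (nat_lit 138) (nat_lit 5) (nat_lit 499) (nat_lit 415) (nat_lit 226))))))) (XT.nd (nat_lit 53274) (nat_lit 0) (nat_lit 25916) (XT.nd (nat_lit 52806) (nat_lit 0) (nat_lit 27208) (XT.nd (nat_lit 156) (nat_lit 836) (nat_lit 0) (XT.nd (nat_lit 78) (nat_lit 0) (nat_lit 0) (XT.lf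 (nat_lit 0) (nat_lit 3879971507) (nat_lit 380) (nat_lit 10920013531) (nat_lit 456) (nat_lit 6916539711) (nat_lit 132) (nat_lit 5) (nat_lit 137) (nat_lit 5) (nat_lit 138) (nat_lit 5) (nat_lit 500) (nat_lit 415) (nat_lit 225)) (XT.lf (nat_lit 0) (nat_lit 16129574972) (nat_lit 380) (nat_lit 3385592615) (nat_lit 456) (nat_lit 2478265360) (nat_lit 132) (nat_lit 5) (nat_lit 137) (nat_lit 5) (nat_lit 138) (nat_lit 5) (nat_lit 501) (nat_lit 415) (nat_lit 224))) (XT.nd (nat_lit 78) (nat_lit 380) (nat_lit 0) (XT.lf (nat_lit 0) (nat_lit 2084841169) (nat_lit 456) (nat_lit 15894558875) (nat_lit 76) (nat_lit 4294955846) (nat_lit 126) (nat_lit 5) (nat_lit 132) (nat_lit 5) (nat_lit 127) (nat_lit 5) (nat_lit 502) (nat_lit 415) (nat_lit 223)) (XT.nd (nat_lit 78) (nat_lit 380) (nat_lit 0) (XT.lf (nat_lit 0) (nat_lit 6761205597) (nat_lit 456) (nat_lit 3661861386) (nat_lit 76) (nat_lit 12136400418) (nat_lit 126) (nat_lit 5) (nat_lit 132)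 (nat_lit 5) (nat_lit 127) (nat_lit 5) (nat_lit 503) (nat_lit 415) (nat_lit 222)) (XT.lf (nat_lit 0) (nat_lit 8922243905) (nat_lit 380) (nat_lit 2660034898) (nat_lit 456) (nat_lit 11266980015) (nat_lit 121) (nat_lit 5) (nat_lit 126) (nat_lit 5) (nat_lit 127) (nat_lit 5) (nat_lit 504) (nat_lit 415) (nat_lit 221))))) (XT.nd (nat_lit 234) (nat_lit 0) (nat_lit 76) (XT.nd (nat_lit 78) (nat_lit 1596) (nat_lit 0) (XT.lf (nat_lit 0) (nat_lit 2163187778) (nat_lit 0) (nat_lit 2163187778) (nat_lit 1444) (nat_lit 143154476) (nat_lit 500) (nat_lit 5) (nat_lit 500) (nat_lit 3) (nat_lit 519) (nat_lit 3) (nat_lit 416) (nat_lit 416) (nat_lit 308)) (XT.nd (nat_lit 78) (nat_lit 0) (nat_lit 76) (XT.lf (nat_lit 0) (nat_lit 618014198) (nat_lit 1596) (nat_lit 323226135) (nat_lit 1596) (nat_lit 8068833884) (nat_lit 479) (nat_lit 3) (nat_lit 500) (nat_lit 3) (nat_lit 500) (nat_lit 5) (nat_lit 417) (nat_lit 416) (nat_lit 307)) (XT.lf (nat_lit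 0) (nat_lit 1556034207) (nat_lit 1520) (nat_lit 5007294206) (nat_lit 1596) (nat_lit 2518762584) (nat_lit 480) (nat_lit 5) (nat_lit 500) (nat_lit 5) (nat_lit 501) (nat_lit 5) (nat_lit 418) (nat_lit 416) (nat_lit 306)))) (XT.nd (nat_lit 78) (nat_lit 0) (nat_lit 76) (XT.lf (nat_lit 0) (nat_lit 2497995057) (nat_lit 1520) (nat_lit 609149479) (nat_lit 1596) (nat_lit 6048708870) (nat_lit 480) (nat_lit 5) (nat_lit 500) (nat_lit 5) (nat_lit 501) (nat_lit 5) (nat_lit 419) (nat_lit 416) (nat_lit 305)) (XT.nd (nat_lit 78) (nat_lit 0) (nat_lit 0) (XT.lf (nat_lit 0) (nat_lit 3464391058) (nat_lit 1520) (nat_lit 5317993334) (nat_lit 1596) (nat_lit 448603479) (nat_lit 481) (nat_lit 5) (nat_lit 501) (nat_lit 5) (nat_lit 502) (nat_lit 5) (nat_lit 420) (nat_lit 416) (nat_lit 304)) (XT.lf (nat_lit 0) (nat_lit 4452459547) (nat_lit 1520) (nat_lit 807063121) (nat_lit 1596) (nat_lit 4048064020) (nat_lit 481) (nat_lit 5) (nat_lit 501) (nat_lit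 5) (nat_lit 502) (nat_lit 5) (nat_lit 421) (nat_lit 416) (nat_lit 303)))))) (XT.nd (nat_lit 390) (nat_lit 0) (nat_lit 0) (XT.nd (nat_lit 156) (nat_lit 1444) (nat_lit 0) (XT.nd (nat_lit 78) (nat_lit 0) (nat_lit 76) (XT.lf (nat_lit 76) (nat_lit 3831836727) (nat_lit 0) (nat_lit 1631422355) (nat_lit 1596) (nat_lit 3922407394) (nat_lit 482) (nat_lit 5) (nat_lit 481) (nat_lit 5) (nat_lit 502) (nat_lit 5) (nat_lit 422) (nat_lit 416) (nat_lit 302)) (XT.lf (nat_lit 0) (nat_lit 6491660296) (nat_lit 1520) (nat_lit 917136452) (nat_lit 1596) (nat_lit 2056571622) (nat_lit 482) (nat_lit 5) (nat_lit 502) (nat_lit 5) (nat_lit 503) (nat_lit 5) (nat_lit 423) (nat_lit 416) (nat_lit 301))) (XT.nd (nat_lit 78) (nat_lit 1520) (nat_lit 0) (XT.lf (nat_lit 76) (nat_lit 3839170660) (nat_lit 0) (nat_lit 3716110146) (nat_lit 1596) (nat_lit 1991098532) (nat_lit 483) (nat_lit 5) (nat_lit 482) (nat_lit 5) (nat_lit 503) (nat_lit 5) (nat_lit 424) (nat_lit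 416) (nat_lit 300)) (XT.nd (nat_lit 78) (nat_lit 1596) (nat_lit 0) (XT.lf (nat_lit 0) (nat_lit 8626001707) (nat_lit 1520) (nat_lit 939279546) (nat_lit 1596) (nat_lit 64020615) (nat_lit 483) (nat_lit 5) (nat_lit 503) (nat_lit 5) (nat_lit 504) (nat_lit 5) (nat_lit 425) (nat_lit 416) (nat_lit 299)) (XT.lf (nat_lit 0) (nat_lit 34279493) (nat_lit 1596) (nat_lit 5775273136) (nat_lit 1672) (nat_lit 3903735644) (nat_lit 462) (nat_lit 5) (nat_lit 483) (nat_lit 5) (nat_lit 484) (nat_lit 5) (nat_lit 426) (nat_lit 416) (nat_lit 298))))) (XT.nd (nat_lit 234) (nat_lit 0) (nat_lit 152) (XT.nd (nat_lit 78) (nat_lit 0) (nat_lit 76) (XT.lf (nat_lit 0) (nat_lit 1065420483) (nat_lit 1596) (nat_lit 892920863) (nat_lit 1672) (nat_lit 7840762992) (nat_lit 462) (nat_lit 5) (nat_lit 483) (nat_lit 5) (nat_lit 484) (nat_lit 5) (nat_lit 427) (nat_lit 416) (nat_lit 297)) (XT.nd (nat_lit 78) (nat_lit 0) (nat_lit 0) (XT.lf (nat_lit 0) (nat_lit 2137282797)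 (nat_lit 1596) (nat_lit 5771030236) (nat_lit 1672) (nat_lit 1977929023) (nat_lit 463) (nat_lit 5) (nat_lit 484) (nat_lit 5) (nat_lit 485) (nat_lit 5) (nat_lit 428) (nat_lit 416) (nat_lit 296)) (XT.lf (nat_lit 0) (nat_lit 3230212471) (nat_lit 1596) (nat_lit 765495614) (nat_lit 1672) (nat_lit 5979429001) (nat_lit 463) (nat_lit 5) (nat_lit 484) (nat_lit 5) (nat_lit 485) (nat_lit 5) (nat_lit 429) (nat_lit 416) (nat_lit 295)))) (XT.nd (nat_lit 78) (nat_lit 0) (nat_lit 0) (XT.lf (nat_lit 0) (nat_lit 4354676011) (nat_lit 1596) (nat_lit 5681005332) (nat_lit 1672) (nat_lit 29942186) (nat_lit 464) (nat_lit 5) (nat_lit 485) (nat_lit 5) (nat_lit 486) (nat_lit 5) (nat_lit 430) (nat_lit 416) (nat_lit 294)) (XT.nd (nat_lit 78) (nat_lit 0) (nat_lit 0) (XT.lf (nat_lit 0) (nat_lit 5514598672) (nat_lit 1596) (nat_lit 549375169) (nat_lit 1672) (nat_lit 4093693342) (nat_lit 464) (nat_lit 5) (nat_lit 485) (nat_lit 5) (nat_lit 486) (nat_lit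 5) (nat_lit 431) (nat_lit 416) (nat_lit 293)) (XT.lf (nat_lit 76) (nat_lit 4734060627) (nat_lit 0) (nat_lit 1976099066) (nat_lit 1672) (nat_lit 3541149967) (nat_lit 465) (nat_lit 5) (nat_lit 464) (nat_lit 5) (nat_lit 486) (nat_lit 5) (nat_lit 432) (nat_lit 416) (nat_lit 292))))))))
noncomputable def xc181 : XT := (XT.nd (nat_lit 1716) (nat_lit 8208) (nat_lit 0) (XT.nd (nat_lit 858) (nat_lit 5548) (nat_lit 0) (XT.nd (nat_lit 390) (nat_lit 3268) (nat_lit 0) (XT.nd (nat_lit 156) (nat_lit 1596) (nat_lit 0) (XT.nd (nat_lit 78) (nat_lit 0) (nat_lit 0) (XT.lf (nat_lit 0) (nat_lit 7929597228) (nat_lit 1596) (nat_lit 243636277) (nat_lit 1672) (nat_lit 2173598789) (nat_lit 465) (nat_lit 5) (nat_lit 486) (nat_lit 5) (nat_lit 487) (nat_lit 5) (nat_lit 433) (nat_lit 416) (nat_lit 291)) (XT.lf (nat_lit 76) (nat_lit 5177291722) (nat_lit 0) (nat_lit 4025198057) (nat_lit 1672) (nat_lit 1241200759) (nat_lit 466) (nat_lit 5) (nat_lit 465)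 (nat_lit 5) (nat_lit 487) (nat_lit 5) (nat_lit 434) (nat_lit 416) (nat_lit 290))) (XT.nd (nat_lit 78) (nat_lit 1672) (nat_lit 0) (XT.lf (nat_lit 76) (nat_lit 154903184) (nat_lit 0) (nat_lit 10332581020) (nat_lit 1672) (nat_lit 55275219) (nat_lit 467) (nat_lit 5) (nat_lit 466) (nat_lit 5) (nat_lit 488) (nat_lit 5) (nat_lit 435) (nat_lit 416) (nat_lit 289)) (XT.nd (nat_lit 78) (nat_lit 0) (nat_lit 0) (XT.lf (nat_lit 0) (nat_lit 1184251884) (nat_lit 1672) (nat_lit 4934886629) (nat_lit 1748) (nat_lit 4523626929) (nat_lit 444) (nat_lit 5) (nat_lit 466) (nat_lit 5) (nat_lit 467) (nat_lit 5) (nat_lit 436) (nat_lit 416) (nat_lit 288)) (XT.lf (nat_lit 76) (nat_lit 621777620) (nat_lit 0) (nat_lit 1813218400) (nat_lit 1748) (nat_lit 8310030912) (nat_lit 445) (nat_lit 5) (nat_lit 444) (nat_lit 5) (nat_lit 467) (nat_lit 5) (nat_lit 437) (nat_lit 416) (nat_lit 287))))) (XT.nd (nat_lit 234) (nat_lit 3344) (nat_lit 0) (XT.nd (nat_lit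 78) (nat_lit 0) (nat_lit 0) (XT.lf (nat_lit 0) (nat_lit 3744231453) (nat_lit 1672) (nat_lit 4522593574) (nat_lit 1748) (nat_lit 2581844968) (nat_lit 445) (nat_lit 5) (nat_lit 467) (nat_lit 5) (nat_lit 468) (nat_lit 5) (nat_lit 438) (nat_lit 416) (nat_lit 286)) (XT.nd (nat_lit 78) (nat_lit 0) (nat_lit 76) (XT.lf (nat_lit 76) (nat_lit 1180383090) (nat_lit 0) (nat_lit 3902663942) (nat_lit 1748) (nat_lit 5871276738) (nat_lit 446) (nat_lit 5) (nat_lit 445) (nat_lit 5) (nat_lit 468) (nat_lit 5) (nat_lit 439) (nat_lit 416) (nat_lit 285)) (XT.lf (nat_lit 0) (nat_lit 6466728951) (nat_lit 1672) (nat_lit 4019947615) (nat_lit 76) (nat_lit 575057896) (nat_lit 446) (nat_lit 5) (nat_lit 468) (nat_lit 5) (nat_lit 447) (nat_lit 5) (nat_lit 440) (nat_lit 416) (nat_lit 284)))) (XT.nd (nat_lit 78) (nat_lit 1748) (nat_lit 0) (XT.lf (nat_lit 0) (nat_lit 1834174424) (nat_lit 1672) (nat_lit 6065955407) (nat_lit 1748) (nat_lit 3270728166) (nat_lit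 424) (nat_lit 5) (nat_lit 446) (nat_lit 5) (nat_lit 447) (nat_lit 5) (nat_lit 441) (nat_lit 416) (nat_lit 283)) (XT.nd (nat_lit 78) (nat_lit 1748) (nat_lit 0) (XT.lf (nat_lit 0) (nat_lit 7846795980) (nat_lit 1672) (nat_lit 1526893030) (nat_lit 1748) (nat_lit 1908250612) (nat_lit 424) (nat_lit 5) (nat_lit 446) (nat_lit 5) (nat_lit 447) (nat_lit 5) (nat_lit 442) (nat_lit 416) (nat_lit 282)) (XT.lf (nat_lit 0) (nat_lit 2585041638) (nat_lit 1748) (nat_lit 8313441260) (nat_lit 1824) (nat_lit 496330029) (nat_lit 401) (nat_lit 5) (nat_lit 424) (nat_lit 5) (nat_lit 425) (nat_lit 5) (nat_lit 443) (nat_lit 416) (nat_lit 281)))))) (XT.nd (nat_lit 390) (nat_lit 3420) (nat_lit 0) (XT.nd (nat_lit 156) (nat_lit 912) (nat_lit 0) (XT.nd (nat_lit 78) (nat_lit 1140) (nat_lit 0) (XT.lf (nat_lit 0) (nat_lit 949708379) (nat_lit 1824) (nat_lit 2766941351) (nat_lit 76) (nat_lit 7792811365) (nat_lit 400) (nat_lit 5) (nat_lit 424) (nat_lit 5)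 (nat_lit 401) (nat_lit 5) (nat_lit 444) (nat_lit 416) (nat_lit 280)) (XT.lf (nat_lit 0) (nat_lit 2431996630) (nat_lit 1216) (nat_lit 8207302163) (nat_lit 76) (nat_lit 986763331) (nat_lit 385) (nat_lit 5) (nat_lit 401) (nat_lit 5) (nat_lit 386) (nat_lit 5) (nat_lit 445) (nat_lit 416) (nat_lit 279))) (XT.nd (nat_lit 78) (nat_lit 912) (nat_lit 0) (XT.lf (nat_lit 0) (nat_lit 3972688097) (nat_lit 1216) (nat_lit 2016900695) (nat_lit 76) (nat_lit 5754836147) (nat_lit 385) (nat_lit 5) (nat_lit 401) (nat_lit 5) (nat_lit 386) (nat_lit 5) (nat_lit 446) (nat_lit 416) (nat_lit 278)) (XT.nd (nat_lit 78) (nat_lit 0) (nat_lit 0) (XT.lf (nat_lit 0) (nat_lit 4341282508) (nat_lit 912) (nat_lit 1216835881) (nat_lit 988) (nat_lit 6306762939) (nat_lit 373) (nat_lit 5) (nat_lit 385) (nat_lit 5) (nat_lit 386) (nat_lit 5) (nat_lit 447) (nat_lit 416) (nat_lit 277)) (XT.lf (nat_lit 0) (nat_lit 7198530763) (nat_lit 988) (nat_lit 1170475377) (nat_lit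 76) (nat_lit 3618279959) (nat_lit 373) (nat_lit 5) (nat_lit 386) (nat_lit 5) (nat_lit 374) (nat_lit 5) (nat_lit 448) (nat_lit 416) (nat_lit 276))))) (XT.nd (nat_lit 234) (nat_lit 1672) (nat_lit 0) (XT.nd (nat_lit 78) (nat_lit 912) (nat_lit 0) (XT.lf (nat_lit 0) (nat_lit 5359023383) (nat_lit 836) (nat_lit 3541798741) (nat_lit 912) (nat_lit 3210740057) (nat_lit 362) (nat_lit 5) (nat_lit 373) (nat_lit 5) (nat_lit 374) (nat_lit 5) (nat_lit 449) (nat_lit 416) (nat_lit 275)) (XT.nd (nat_lit 78) (nat_lit 912) (nat_lit 0) (XT.lf (nat_lit 0) (nat_lit 10640448207) (nat_lit 912) (nat_lit 225322703) (nat_lit 76) (nat_lit 1372491636) (nat_lit 362) (nat_lit 5) (nat_lit 374) (nat_lit 5) (nat_lit 363) (nat_lit 5) (nat_lit 450) (nat_lit 416) (nat_lit 274)) (XT.lf (nat_lit 0) (nat_lit 99301719) (nat_lit 912) (nat_lit 5885979756) (nat_lit 76) (nat_lit 6381162594) (nat_lit 350) (nat_lit 5) (nat_lit 362) (nat_lit 5) (nat_lit 351) (nat_lit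 5) (nat_lit 451) (nat_lit 416) (nat_lit 273)))) (XT.nd (nat_lit 78) (nat_lit 836) (nat_lit 0) (XT.lf (nat_lit 0) (nat_lit 813390356) (nat_lit 836) (nat_lit 989161407) (nat_lit 912) (nat_lit 10694558778) (nat_lit 339) (nat_lit 5) (nat_lit 350) (nat_lit 5) (nat_lit 351) (nat_lit 5) (nat_lit 452) (nat_lit 416) (nat_lit 272)) (XT.nd (nat_lit 78) (nat_lit 836) (nat_lit 0) (XT.lf (nat_lit 0) (nat_lit 3593231594) (nat_lit 912) (nat_lit 4943122422) (nat_lit 76) (nat_lit 4092973225) (nat_lit 339) (nat_lit 5) (nat_lit 351) (nat_lit 5) (nat_lit 340) (nat_lit 5) (nat_lit 453) (nat_lit 416) (nat_lit 271)) (XT.lf (nat_lit 0) (nat_lit 1938285221) (nat_lit 836) (nat_lit 3487771830) (nat_lit 912) (nat_lit 7338008695) (nat_lit 328) (nat_lit 5) (nat_lit 339) (nat_lit 5) (nat_lit 340) (nat_lit 5) (nat_lit 454) (nat_lit 416) (nat_lit 270))))))) (XT.nd (nat_lit 858) (nat_lit 3724) (nat_lit 0) (XT.nd (nat_lit 390) (nat_lit 2888) (nat_lit 0)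 (XT.nd (nat_lit 156) (nat_lit 836) (nat_lit 0) (XT.nd (nat_lit 78) (nat_lit 760) (nat_lit 0) (XT.lf (nat_lit 0) (nat_lit 7327082729) (nat_lit 912) (nat_lit 3900561685) (nat_lit 76) (nat_lit 1673227766) (nat_lit 328) (nat_lit 5) (nat_lit 340) (nat_lit 5) (nat_lit 329) (nat_lit 5) (nat_lit 455) (nat_lit 416) (nat_lit 269)) (XT.lf (nat_lit 0) (nat_lit 3168835953) (nat_lit 760) (nat_lit 6128576438) (nat_lit 836) (nat_lit 3742380632) (nat_lit 318) (nat_lit 5) (nat_lit 328) (nat_lit 5) (nat_lit 329) (nat_lit 5) (nat_lit 456) (nat_lit 416) (nat_lit 268))) (XT.nd (nat_lit 78) (nat_lit 836) (nat_lit 0) (XT.lf (nat_lit 0) (nat_lit 10419791206) (nat_lit 760) (nat_lit 901304157) (nat_lit 836) (nat_lit 1860121861) (nat_lit 318) (nat_lit 5) (nat_lit 328) (nat_lit 5) (nat_lit 329) (nat_lit 5) (nat_lit 457) (nat_lit 416) (nat_lit 267)) (XT.nd (nat_lit 78) (nat_lit 0) (nat_lit 0) (XT.lf (nat_lit 0) (nat_lit 105342323) (nat_lit 836) (nat_lit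 8817288321) (nat_lit 76) (nat_lit 4401908340) (nat_lit 307) (nat_lit 5) (nat_lit 318) (nat_lit 5) (nat_lit 308) (nat_lit 5) (nat_lit 458) (nat_lit 416) (nat_lit 266)) (XT.lf (nat_lit 0) (nat_lit 2097934090) (nat_lit 836) (nat_lit 1542807614) (nat_lit 76) (nat_lit 9829488712) (nat_lit 307) (nat_lit 5) (nat_lit 318) (nat_lit 5) (nat_lit 308) (nat_lit 5) (nat_lit 459) (nat_lit 416) (nat_lit 265))))) (XT.nd (nat_lit 234) (nat_lit 1444) (nat_lit 0) (XT.nd (nat_lit 78) (nat_lit 760) (nat_lit 0) (XT.lf (nat_lit 0) (nat_lit 4168865756) (nat_lit 760) (nat_lit 7687315030) (nat_lit 76) (nat_lit 1761888710) (nat_lit 298) (nat_lit 5) (nat_lit 308) (nat_lit 5) (nat_lit 299) (nat_lit 5) (nat_lit 460) (nat_lit 416) (nat_lit 264)) (XT.nd (nat_lit 78) (nat_lit 760) (nat_lit 0) (XT.lf (nat_lit 0) (nat_lit 6304204589) (nat_lit 760) (nat_lit 230805816) (nat_lit 76) (nat_lit 7233398690) (nat_lit 298) (nat_lit 5) (nat_lit 308) (nat_lit 5)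 (nat_lit 299) (nat_lit 5) (nat_lit 461) (nat_lit 416) (nat_lit 263)) (XT.lf (nat_lit 0) (nat_lit 7460255549) (nat_lit 760) (nat_lit 1059113976) (nat_lit 836) (nat_lit 5401647015) (nat_lit 288) (nat_lit 5) (nat_lit 298) (nat_lit 5) (nat_lit 299) (nat_lit 5) (nat_lit 462) (nat_lit 416) (nat_lit 262)))) (XT.nd (nat_lit 78) (nat_lit 760) (nat_lit 0) (XT.lf (nat_lit 0) (nat_lit 1205475395) (nat_lit 684) (nat_lit 9600952591) (nat_lit 760) (nat_lit 3269699716) (nat_lit 279) (nat_lit 5) (nat_lit 288) (nat_lit 5) (nat_lit 289) (nat_lit 5) (nat_lit 463) (nat_lit 416) (nat_lit 261)) (XT.nd (nat_lit 78) (nat_lit 760) (nat_lit 0) (XT.lf (nat_lit 0) (nat_lit 9093030986) (nat_lit 684) (nat_lit 4085474523) (nat_lit 760) (nat_lit 1055053329) (nat_lit 279) (nat_lit 5) (nat_lit 288) (nat_lit 5) (nat_lit 289) (nat_lit 5) (nat_lit 464) (nat_lit 416) (nat_lit 260)) (XT.lf (nat_lit 0) (nat_lit 1205276070) (nat_lit 760) (nat_lit 11643802541)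 (nat_lit 76) (nat_lit 1544563249) (nat_lit 269) (nat_lit 5) (nat_lit 279) (nat_lit 5) (nat_lit 270) (nat_lit 5) (nat_lit 465) (nat_lit 416) (nat_lit 259)))))) (XT.nd (nat_lit 390) (nat_lit 2432) (nat_lit 0) (XT.nd (nat_lit 156) (nat_lit 684) (nat_lit 0) (XT.nd (nat_lit 78) (nat_lit 608) (nat_lit 0) (XT.lf (nat_lit 0) (nat_lit 3547698933) (nat_lit 760) (nat_lit 3735319494) (nat_lit 76) (nat_lit 7272751473) (nat_lit 269) (nat_lit 5) (nat_lit 279) (nat_lit 5) (nat_lit 270) (nat_lit 5) (nat_lit 466) (nat_lit 416) (nat_lit 258)) (XT.lf (nat_lit 0) (nat_lit 4376470401) (nat_lit 608) (nat_lit 1578346777) (nat_lit 684) (nat_lit 8765969441) (nat_lit 261) (nat_lit 5) (nat_lit 269) (nat_lit 5) (nat_lit 270) (nat_lit 5) (nat_lit 467) (nat_lit 416) (nat_lit 257))) (XT.nd (nat_lit 78) (nat_lit 684) (nat_lit 0) (XT.lf (nat_lit 0) (nat_lit 8452390164) (nat_lit 684) (nat_lit 2227551464) (nat_lit 76) (nat_lit 4208318791) (nat_lit 261)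 (nat_lit 5) (nat_lit 270) (nat_lit 5) (nat_lit 262) (nat_lit 5) (nat_lit 468) (nat_lit 416) (nat_lit 256)) (XT.nd (nat_lit 78) (nat_lit 0) (nat_lit 0) (XT.lf (nat_lit 0) (nat_lit 6109079559) (nat_lit 684) (nat_lit 4930705609) (nat_lit 760) (nat_lit 4018504052) (nat_lit 252) (nat_lit 5) (nat_lit 261) (nat_lit 5) (nat_lit 262) (nat_lit 5) (nat_lit 469) (nat_lit 416) (nat_lit 255)) (XT.lf (nat_lit 0) (nat_lit 13689899899) (nat_lit 760) (nat_lit 607192392) (nat_lit 76) (nat_lit 934409749) (nat_lit 252) (nat_lit 5) (nat_lit 262) (nat_lit 5) (nat_lit 253) (nat_lit 5) (nat_lit 470) (nat_lit 416) (nat_lit 254))))) (XT.nd (nat_lit 234) (nat_lit 1140) (nat_lit 0) (XT.nd (nat_lit 78) (nat_lit 608) (nat_lit 0) (XT.lf (nat_lit 0) (nat_lit 1046818473) (nat_lit 684) (nat_lit 7452164609) (nat_lit 76) (nat_lit 6907572977) (nat_lit 243) (nat_lit 5) (nat_lit 252) (nat_lit 5) (nat_lit 244) (nat_lit 5) (nat_lit 471) (nat_lit 416) (nat_lit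 253)) (XT.nd (nat_lit 78) (nat_lit 0) (nat_lit 0) (XT.lf (nat_lit 0) (nat_lit 1102566144) (nat_lit 608) (nat_lit 2565190912) (nat_lit 684) (nat_lit 11917125183) (nat_lit 235) (nat_lit 5) (nat_lit 243) (nat_lit 5) (nat_lit 244) (nat_lit 5) (nat_lit 472) (nat_lit 416) (nat_lit 252)) (XT.lf (nat_lit 0) (nat_lit 6404309088) (nat_lit 684) (nat_lit 5871510342) (nat_lit 76) (nat_lit 3489694280) (nat_lit 235) (nat_lit 5) (nat_lit 244) (nat_lit 5) (nat_lit 236) (nat_lit 5) (nat_lit 473) (nat_lit 416) (nat_lit 251)))) (XT.nd (nat_lit 78) (nat_lit 608) (nat_lit 0) (XT.lf (nat_lit 0) (nat_lit 2920900039) (nat_lit 532) (nat_lit 6301050279) (nat_lit 608) (nat_lit 6727282935) (nat_lit 228) (nat_lit 5) (nat_lit 235) (nat_lit 5) (nat_lit 236) (nat_lit 5) (nat_lit 474) (nat_lit 416) (nat_lit 250)) (XT.nd (nat_lit 78) (nat_lit 608) (nat_lit 0) (XT.lf (nat_lit 0) (nat_lit 11956895397) (nat_lit 532) (nat_lit 168966786) (nat_lit 608) (nat_lit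 4010169205) (nat_lit 228) (nat_lit 5) (nat_lit 235) (nat_lit 5) (nat_lit 236) (nat_lit 5) (nat_lit 475) (nat_lit 416) (nat_lit 249)) (XT.lf (nat_lit 0) (nat_lit 4859471184) (nat_lit 608) (nat_lit 10290132533) (nat_lit 684) (nat_lit 1175729245) (nat_lit 220) (nat_lit 5) (nat_lit 228) (nat_lit 5) (nat_lit 229) (nat_lit 5) (nat_lit 476) (nat_lit 416) (nat_lit 248))))))))
noncomputable def xc182 : XT := (XT.nd (nat_lit 1716) (nat_lit 1216) (nat_lit 0) (XT.nd (nat_lit 858) (nat_lit 2736) (nat_lit 0) (XT.nd (nat_lit 390) (nat_lit 1520) (nat_lit 0) (XT.nd (nat_lit 156) (nat_lit 1064) (nat_lit 0) (XT.nd (nat_lit 78) (nat_lit 532) (nat_lit 0) (XT.lf (nat_lit 0) (nat_lit 1712981525) (nat_lit 684) (nat_lit 2406644162) (nat_lit 76) (nat_lit 12398172946) (nat_lit 219) (nat_lit 5) (nat_lit 228) (nat_lit 5) (nat_lit 220) (nat_lit 5) (nat_lit 477) (nat_lit 416) (nat_lit 247)) (XT.lf (nat_lit 0) (nat_lit 4693931186) (nat_lit 608) (nat_lit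 9822773448) (nat_lit 76) (nat_lit 2196251758) (nat_lit 212) (nat_lit 5) (nat_lit 220) (nat_lit 5) (nat_lit 213) (nat_lit 5) (nat_lit 478) (nat_lit 416) (nat_lit 246))) (XT.nd (nat_lit 78) (nat_lit 1064) (nat_lit 0) (XT.lf (nat_lit 0) (nat_lit 7769038302) (nat_lit 608) (nat_lit 545213178) (nat_lit 76) (nat_lit 8597077373) (nat_lit 212) (nat_lit 5) (nat_lit 220) (nat_lit 5) (nat_lit 213) (nat_lit 5) (nat_lit 479) (nat_lit 416) (nat_lit 245)) (XT.nd (nat_lit 78) (nat_lit 532) (nat_lit 0) (XT.lf (nat_lit 0) (nat_lit 9024790522) (nat_lit 532) (nat_lit 1930627818) (nat_lit 608) (nat_lit 6157257278) (nat_lit 205) (nat_lit 5) (nat_lit 212) (nat_lit 5) (nat_lit 213) (nat_lit 5) (nat_lit 480) (nat_lit 416) (nat_lit 244)) (XT.lf (nat_lit 0) (nat_lit 1453351189) (nat_lit 532) (nat_lit 12786292113) (nat_lit 608) (nat_lit 3077725894) (nat_lit 198) (nat_lit 5) (nat_lit 205) (nat_lit 5) (nat_lit 206) (nat_lit 5) (nat_lit 481) (nat_lit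 416) (nat_lit 243))))) (XT.nd (nat_lit 234) (nat_lit 912) (nat_lit 0) (XT.nd (nat_lit 78) (nat_lit 532) (nat_lit 0) (XT.lf (nat_lit 0) (nat_lit 121278737) (nat_lit 608) (nat_lit 6255177490) (nat_lit 76) (nat_lit 11148520046) (nat_lit 197) (nat_lit 5) (nat_lit 205) (nat_lit 5) (nat_lit 198) (nat_lit 5) (nat_lit 482) (nat_lit 416) (nat_lit 242)) (XT.nd (nat_lit 78) (nat_lit 0) (nat_lit 0) (XT.lf (nat_lit 0) (nat_lit 3358994744) (nat_lit 608) (nat_lit 14176566970) (nat_lit 76) (nat_lit 200450157) (nat_lit 190) (nat_lit 5) (nat_lit 198) (nat_lit 5) (nat_lit 191) (nat_lit 5) (nat_lit 483) (nat_lit 416) (nat_lit 241)) (XT.lf (nat_lit 0) (nat_lit 6737488015) (nat_lit 608) (nat_lit 4349229994) (nat_lit 76) (nat_lit 6863031770) (nat_lit 190) (nat_lit 5) (nat_lit 198) (nat_lit 5) (nat_lit 191) (nat_lit 5) (nat_lit 484) (nat_lit 416) (nat_lit 240)))) (XT.nd (nat_lit 78) (nat_lit 456) (nat_lit 0) (XT.lf (nat_lit 0) (nat_lit 5738696712)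 (nat_lit 456) (nat_lit 4473820962) (nat_lit 532) (nat_lit 7954667456) (nat_lit 184) (nat_lit 5) (nat_lit 190) (nat_lit 5) (nat_lit 191) (nat_lit 5) (nat_lit 485) (nat_lit 416) (nat_lit 239)) (XT.nd (nat_lit 78) (nat_lit 456) (nat_lit 0) (XT.lf (nat_lit 0) (nat_lit 13792952051) (nat_lit 532) (nat_lit 2327282993) (nat_lit 76) (nat_lit 2268018038) (nat_lit 184) (nat_lit 5) (nat_lit 191) (nat_lit 5) (nat_lit 185) (nat_lit 5) (nat_lit 486) (nat_lit 416) (nat_lit 238)) (XT.lf (nat_lit 0) (nat_lit 8040701144) (nat_lit 456) (nat_lit 9478066910) (nat_lit 532) (nat_lit 1093500817) (nat_lit 178) (nat_lit 5) (nat_lit 184) (nat_lit 5) (nat_lit 185) (nat_lit 5) (nat_lit 487) (nat_lit 416) (nat_lit 237)))))) (XT.nd (nat_lit 390) (nat_lit 1368) (nat_lit 0) (XT.nd (nat_lit 156) (nat_lit 836) (nat_lit 0) (XT.nd (nat_lit 78) (nat_lit 456) (nat_lit 0) (XT.lf (nat_lit 0) (nat_lit 2453523678) (nat_lit 532) (nat_lit 220163552) (nat_lit 76)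 (nat_lit 16166603947) (nat_lit 177) (nat_lit 5) (nat_lit 184) (nat_lit 5) (nat_lit 178) (nat_lit 5) (nat_lit 488) (nat_lit 416) (nat_lit 236)) (XT.lf (nat_lit 0) (nat_lit 6145065567) (nat_lit 532) (nat_lit 8642425618) (nat_lit 76) (nat_lit 4283475632) (nat_lit 171) (nat_lit 5) (nat_lit 178) (nat_lit 5) (nat_lit 172) (nat_lit 5) (nat_lit 489) (nat_lit 416) (nat_lit 235))) (XT.nd (nat_lit 78) (nat_lit 380) (nat_lit 0) (XT.lf (nat_lit 0) (nat_lit 1984329737) (nat_lit 456) (nat_lit 7950379083) (nat_lit 532) (nat_lit 9371063528) (nat_lit 165) (nat_lit 5) (nat_lit 171) (nat_lit 5) (nat_lit 172) (nat_lit 5) (nat_lit 490) (nat_lit 416) (nat_lit 234)) (XT.nd (nat_lit 78) (nat_lit 380) (nat_lit 0) (XT.lf (nat_lit 0) (nat_lit 12929885853) (nat_lit 456) (nat_lit 920529917) (nat_lit 532) (nat_lit 5693854557) (nat_lit 165) (nat_lit 5) (nat_lit 171) (nat_lit 5) (nat_lit 172) (nat_lit 5) (nat_lit 491) (nat_lit 416) (nat_lit 233)) (XT.lf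 (nat_lit 0) (nat_lit 4311984336) (nat_lit 380) (nat_lit 13593434341) (nat_lit 456) (nat_lit 1880901674) (nat_lit 160) (nat_lit 5) (nat_lit 165) (nat_lit 5) (nat_lit 166) (nat_lit 5) (nat_lit 492) (nat_lit 416) (nat_lit 232))))) (XT.nd (nat_lit 234) (nat_lit 836) (nat_lit 0) (XT.nd (nat_lit 78) (nat_lit 456) (nat_lit 0) (XT.lf (nat_lit 0) (nat_lit 2025181810) (nat_lit 456) (nat_lit 4516048311) (nat_lit 76) (nat_lit 13490857905) (nat_lit 159) (nat_lit 5) (nat_lit 165) (nat_lit 5) (nat_lit 160) (nat_lit 5) (nat_lit 493) (nat_lit 416) (nat_lit 231)) (XT.nd (nat_lit 78) (nat_lit 0) (nat_lit 0) (XT.lf (nat_lit 0) (nat_lit 6025065728) (nat_lit 532) (nat_lit 13559836946) (nat_lit 76) (nat_lit 696804064) (nat_lit 153) (nat_lit 5) (nat_lit 160) (nat_lit 5) (nat_lit 154) (nat_lit 5) (nat_lit 494) (nat_lit 416) (nat_lit 230)) (XT.lf (nat_lit 0) (nat_lit 10171411598) (nat_lit 532) (nat_lit 2344149971) (nat_lit 76) (nat_lit 8019428560)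 (nat_lit 153) (nat_lit 5) (nat_lit 160) (nat_lit 5) (nat_lit 154) (nat_lit 5) (nat_lit 495) (nat_lit 416) (nat_lit 229)))) (XT.nd (nat_lit 78) (nat_lit 456) (nat_lit 0) (XT.lf (nat_lit 0) (nat_lit 9206119451) (nat_lit 380) (nat_lit 5247120611) (nat_lit 456) (nat_lit 6339049570) (nat_lit 148) (nat_lit 5) (nat_lit 153) (nat_lit 5) (nat_lit 154) (nat_lit 5) (nat_lit 496) (nat_lit 416) (nat_lit 228)) (XT.nd (nat_lit 78) (nat_lit 456) (nat_lit 0) (XT.lf (nat_lit 0) (nat_lit 18843443577) (nat_lit 456) (nat_lit 59947973) (nat_lit 76) (nat_lit 2150890335) (nat_lit 148) (nat_lit 5) (nat_lit 154) (nat_lit 5) (nat_lit 149) (nat_lit 5) (nat_lit 497) (nat_lit 416) (nat_lit 227)) (XT.lf (nat_lit 0) (nat_lit 2078779407) (nat_lit 456) (nat_lit 9526528265) (nat_lit 76) (nat_lit 9713846643) (nat_lit 142) (nat_lit 5) (nat_lit 148) (nat_lit 5) (nat_lit 143) (nat_lit 5) (nat_lit 498) (nat_lit 416) (nat_lit 226))))))) (XT.nd (nat_lit 53352)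 (nat_lit 0) (nat_lit 25460) (XT.nd (nat_lit 390) (nat_lit 0) (nat_lit 0) (XT.nd (nat_lit 156) (nat_lit 836) (nat_lit 0) (XT.nd (nat_lit 78) (nat_lit 0) (nat_lit 0) (XT.lf (nat_lit 0) (nat_lit 2298908923) (nat_lit 380) (nat_lit 4134036461) (nat_lit 456) (nat_lit 15155920798) (nat_lit 137) (nat_lit 5) (nat_lit 142) (nat_lit 5) (nat_lit 143) (nat_lit 5) (nat_lit 499) (nat_lit 416) (nat_lit 225)) (XT.lf (nat_lit 0) (nat_lit 10954232923) (nat_lit 456) (nat_lit 7406161253) (nat_lit 76) (nat_lit 3501978756) (nat_lit 137) (nat_lit 5) (nat_lit 143) (nat_lit 5) (nat_lit 138) (nat_lit 5) (nat_lit 500) (nat_lit 416) (nat_lit 224))) (XT.nd (nat_lit 78) (nat_lit 456) (nat_lit 0) (XT.lf (nat_lit 0) (nat_lit 4739905596) (nat_lit 380) (nat_lit 10877378392) (nat_lit 456) (nat_lit 6523040457) (nat_lit 132) (nat_lit 5) (nat_lit 137) (nat_lit 5) (nat_lit 138) (nat_lit 5) (nat_lit 501) (nat_lit 416) (nat_lit 223)) (XT.nd (nat_lit 78) (nat_lit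 456) (nat_lit 0) (XT.lf (nat_lit 0) (nat_lit 17219161236) (nat_lit 380) (nat_lit 3197387399) (nat_lit 456) (nat_lit 2006428659) (nat_lit 132) (nat_lit 5) (nat_lit 137) (nat_lit 5) (nat_lit 138) (nat_lit 5) (nat_lit 502) (nat_lit 416) (nat_lit 222)) (XT.lf (nat_lit 0) (nat_lit 2637688110) (nat_lit 456) (nat_lit 15435003884) (nat_lit 76) (nat_lit 4636829244) (nat_lit 126) (nat_lit 5) (nat_lit 132) (nat_lit 5) (nat_lit 127) (nat_lit 5) (nat_lit 503) (nat_lit 416) (nat_lit 221))))) (XT.nd (nat_lit 52728) (nat_lit 0) (nat_lit 26904) (XT.nd (nat_lit 52572) (nat_lit 0) (nat_lit 26828) (XT.lf (nat_lit 0) (nat_lit 7397557275) (nat_lit 456) (nat_lit 2972896488) (nat_lit 76) (nat_lit 12630083604) (nat_lit 126) (nat_lit 5) (nat_lit 132) (nat_lit 5) (nat_lit 127) (nat_lit 5) (nat_lit 504) (nat_lit 416) (nat_lit 220)) (XT.nd (nat_lit 78) (nat_lit 0) (nat_lit 0) (XT.lf (nat_lit 0) (nat_lit 753425746) (nat_lit 1596) (nat_lit 1893609702)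 (nat_lit 1596) (nat_lit 1893609702) (nat_lit 479) (nat_lit 3) (nat_lit 500) (nat_lit 3) (nat_lit 500) (nat_lit 5) (nat_lit 417) (nat_lit 417) (nat_lit 306)) (XT.lf (nat_lit 76) (nat_lit 575725487) (nat_lit 0) (nat_lit 1818246331) (nat_lit 1596) (nat_lit 6760357663) (nat_lit 480) (nat_lit 5) (nat_lit 479) (nat_lit 3) (nat_lit 500) (nat_lit 5) (nat_lit 418) (nat_lit 417) (nat_lit 305)))) (XT.nd (nat_lit 78) (nat_lit 0) (nat_lit 0) (XT.lf (nat_lit 0) (nat_lit 3312849830) (nat_lit 1520) (nat_lit 4174749229) (nat_lit 1596) (nat_lit 1740958808) (nat_lit 480) (nat_lit 5) (nat_lit 500) (nat_lit 5) (nat_lit 501) (nat_lit 5) (nat_lit 419) (nat_lit 417) (nat_lit 304)) (XT.nd (nat_lit 78) (nat_lit 0) (nat_lit 0) (XT.lf (nat_lit 76) (nat_lit 296965087) (nat_lit 0) (nat_lit 3944775749) (nat_lit 1596) (nat_lit 5062705831) (nat_lit 481) (nat_lit 5) (nat_lit 480) (nat_lit 5) (nat_lit 501) (nat_lit 5) (nat_lit 420) (nat_lit 417) (nat_lit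 303)) (XT.lf (nat_lit 76) (nat_lit 4902711998) (nat_lit 0) (nat_lit 292538467) (nat_lit 1596) (nat_lit 4186490349) (nat_lit 481) (nat_lit 5) (nat_lit 480) (nat_lit 5) (nat_lit 501) (nat_lit 5) (nat_lit 421) (nat_lit 417) (nat_lit 302)))))) (XT.nd (nat_lit 390) (nat_lit 0) (nat_lit 76) (XT.nd (nat_lit 156) (nat_lit 1520) (nat_lit 0) (XT.nd (nat_lit 78) (nat_lit 0) (nat_lit 0) (XT.lf (nat_lit 76) (nat_lit 106847665) (nat_lit 0) (nat_lit 6062484438) (nat_lit 1596) (nat_lit 3291226928) (nat_lit 482) (nat_lit 5) (nat_lit 481) (nat_lit 5) (nat_lit 502) (nat_lit 5) (nat_lit 422) (nat_lit 417) (nat_lit 301)) (XT.lf (nat_lit 76) (nat_lit 4831014641) (nat_lit 0) (nat_lit 2342724509) (nat_lit 1596) (nat_lit 2367005648) (nat_lit 482) (nat_lit 5) (nat_lit 481) (nat_lit 5) (nat_lit 502) (nat_lit 5) (nat_lit 423) (nat_lit 417) (nat_lit 300))) (XT.nd (nat_lit 78) (nat_lit 1596) (nat_lit 0) (XT.lf (nat_lit 76) (nat_lit 5358336) (nat_lit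 0) (nat_lit 8181668472) (nat_lit 1596) (nat_lit 1435739528) (nat_lit 483) (nat_lit 5) (nat_lit 482) (nat_lit 5) (nat_lit 503) (nat_lit 5) (nat_lit 424) (nat_lit 417) (nat_lit 299)) (XT.nd (nat_lit 78) (nat_lit 1596) (nat_lit 0) (XT.lf (nat_lit 76) (nat_lit 4850532057) (nat_lit 0) (nat_lit 4396724732) (nat_lit 1596) (nat_lit 458645733) (nat_lit 483) (nat_lit 5) (nat_lit 482) (nat_lit 5) (nat_lit 503) (nat_lit 5) (nat_lit 425) (nat_lit 417) (nat_lit 298)) (XT.lf (nat_lit 0) (nat_lit 510852521) (nat_lit 1596) (nat_lit 13954841) (nat_lit 1672) (nat_lit 9266233289) (nat_lit 461) (nat_lit 5) (nat_lit 482) (nat_lit 5) (nat_lit 483) (nat_lit 5) (nat_lit 426) (nat_lit 417) (nat_lit 297))))) (XT.nd (nat_lit 234) (nat_lit 0) (nat_lit 76) (XT.nd (nat_lit 78) (nat_lit 0) (nat_lit 0) (XT.lf (nat_lit 0) (nat_lit 1528731793) (nat_lit 1596) (nat_lit 4925729191) (nat_lit 1672) (nat_lit 3422664582) (nat_lit 462) (nat_lit 5) (nat_lit 483)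 (nat_lit 5) (nat_lit 484) (nat_lit 5) (nat_lit 427) (nat_lit 417) (nat_lit 296)) (XT.nd (nat_lit 78) (nat_lit 0) (nat_lit 76) (XT.lf (nat_lit 76) (nat_lit 35817341) (nat_lit 0) (nat_lit 2515621268) (nat_lit 1672) (nat_lit 7413811329) (nat_lit 463) (nat_lit 5) (nat_lit 462) (nat_lit 5) (nat_lit 484) (nat_lit 5) (nat_lit 428) (nat_lit 417) (nat_lit 295)) (XT.lf (nat_lit 0) (nat_lit 3618633780) (nat_lit 1596) (nat_lit 4913920471) (nat_lit 1672) (nat_lit 1522108880) (nat_lit 463) (nat_lit 5) (nat_lit 484) (nat_lit 5) (nat_lit 485) (nat_lit 5) (nat_lit 429) (nat_lit 417) (nat_lit 294)))) (XT.nd (nat_lit 78) (nat_lit 0) (nat_lit 0) (XT.lf (nat_lit 76) (nat_lit 174950122) (nat_lit 0) (nat_lit 4531399869) (nat_lit 1672) (nat_lit 5439537935) (nat_lit 464) (nat_lit 5) (nat_lit 463) (nat_lit 5) (nat_lit 485) (nat_lit 5) (nat_lit 430) (nat_lit 417) (nat_lit 293)) (XT.nd (nat_lit 78) (nat_lit 0) (nat_lit 76) (XT.lf (nat_lit 76) (nat_lit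 5419703884) (nat_lit 0) (nat_lit 410757023) (nat_lit 1672) (nat_lit 4408190250) (nat_lit 464) (nat_lit 5) (nat_lit 463) (nat_lit 5) (nat_lit 485) (nat_lit 5) (nat_lit 431) (nat_lit 417) (nat_lit 292)) (XT.lf (nat_lit 76) (nat_lit 404098993) (nat_lit 0) (nat_lit 6582262850) (nat_lit 1672) (nat_lit 3346728266) (nat_lit 465) (nat_lit 5) (nat_lit 464) (nat_lit 5) (nat_lit 486) (nat_lit 5) (nat_lit 432) (nat_lit 417) (nat_lit 291))))))))
noncomputable def xc183 : XT := (XT.nd (nat_lit 1716) (nat_lit 8436) (nat_lit 0) (XT.nd (nat_lit 858) (nat_lit 6460) (nat_lit 0) (XT.nd (nat_lit 390) (nat_lit 1444) (nat_lit 0) (XT.nd (nat_lit 156) (nat_lit 1596) (nat_lit 0) (XT.nd (nat_lit 78) (nat_lit 0) (nat_lit 76) (XT.lf (nat_lit 76) (nat_lit 5781593400) (nat_lit 0) (nat_lit 2401159481) (nat_lit 1672) (nat_lit 2246324001) (nat_lit 465) (nat_lit 5) (nat_lit 464) (nat_lit 5) (nat_lit 486) (nat_lit 5) (nat_lit 433) (nat_lit 417) (nat_lit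 290)) (XT.lf (nat_lit 76) (nat_lit 724337582) (nat_lit 0) (nat_lit 8678247434) (nat_lit 1672) (nat_lit 1124414466) (nat_lit 466) (nat_lit 5) (nat_lit 465) (nat_lit 5) (nat_lit 487) (nat_lit 5) (nat_lit 434) (nat_lit 417) (nat_lit 289))) (XT.nd (nat_lit 78) (nat_lit 0) (nat_lit 0) (XT.lf (nat_lit 0) (nat_lit 49816066) (nat_lit 1672) (nat_lit 4388768947) (nat_lit 1748) (nat_lit 6187696158) (nat_lit 443) (nat_lit 5) (nat_lit 465) (nat_lit 5) (nat_lit 466) (nat_lit 5) (nat_lit 435) (nat_lit 417) (nat_lit 288)) (XT.nd (nat_lit 78) (nat_lit 0) (nat_lit 76) (XT.lf (nat_lit 76) (nat_lit 1128136014) (nat_lit 0) (nat_lit 94863184) (nat_lit 1748) (nat_lit 9504596160) (nat_lit 444) (nat_lit 5) (nat_lit 443) (nat_lit 5) (nat_lit 466) (nat_lit 5) (nat_lit 436) (nat_lit 417) (nat_lit 287)) (XT.lf (nat_lit 0) (nat_lit 2460902181) (nat_lit 1672) (nat_lit 4056717819) (nat_lit 1748) (nat_lit 4312496577) (nat_lit 444) (nat_lit 5) (nat_lit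 466) (nat_lit 5) (nat_lit 467) (nat_lit 5) (nat_lit 437) (nat_lit 417) (nat_lit 286))))) (XT.nd (nat_lit 234) (nat_lit 1520) (nat_lit 0) (XT.nd (nat_lit 78) (nat_lit 0) (nat_lit 76) (XT.lf (nat_lit 76) (nat_lit 1604652962) (nat_lit 0) (nat_lit 2113741030) (nat_lit 1748) (nat_lit 7216403372) (nat_lit 445) (nat_lit 5) (nat_lit 444) (nat_lit 5) (nat_lit 467) (nat_lit 5) (nat_lit 438) (nat_lit 417) (nat_lit 285)) (XT.nd (nat_lit 78) (nat_lit 0) (nat_lit 0) (XT.lf (nat_lit 0) (nat_lit 5027922270) (nat_lit 1672) (nat_lit 3635314429) (nat_lit 1748) (nat_lit 2377802978) (nat_lit 445) (nat_lit 5) (nat_lit 467) (nat_lit 5) (nat_lit 468) (nat_lit 5) (nat_lit 439) (nat_lit 417) (nat_lit 284)) (XT.lf (nat_lit 76) (nat_lit 2175289327) (nat_lit 0) (nat_lit 4200829066) (nat_lit 1748) (nat_lit 4773044433) (nat_lit 446) (nat_lit 5) (nat_lit 445) (nat_lit 5) (nat_lit 468) (nat_lit 5) (nat_lit 440) (nat_lit 417) (nat_lit 283)))) (XT.nd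 (nat_lit 78) (nat_lit 1672) (nat_lit 0) (XT.lf (nat_lit 0) (nat_lit 7762711871) (nat_lit 1672) (nat_lit 3122919993) (nat_lit 76) (nat_lit 373593330) (nat_lit 446) (nat_lit 5) (nat_lit 468) (nat_lit 5) (nat_lit 447) (nat_lit 5) (nat_lit 441) (nat_lit 417) (nat_lit 282)) (XT.nd (nat_lit 78) (nat_lit 0) (nat_lit 0) (XT.lf (nat_lit 0) (nat_lit 2841854049) (nat_lit 1672) (nat_lit 6366355613) (nat_lit 1748) (nat_lit 2162661018) (nat_lit 424) (nat_lit 5) (nat_lit 446) (nat_lit 5) (nat_lit 447) (nat_lit 5) (nat_lit 442) (nat_lit 417) (nat_lit 281)) (XT.lf (nat_lit 0) (nat_lit 8955688896) (nat_lit 1672) (nat_lit 1733000595) (nat_lit 1748) (nat_lit 795943358) (nat_lit 424) (nat_lit 5) (nat_lit 446) (nat_lit 5) (nat_lit 447) (nat_lit 5) (nat_lit 443) (nat_lit 417) (nat_lit 280)))))) (XT.nd (nat_lit 390) (nat_lit 2584) (nat_lit 0) (XT.nd (nat_lit 156) (nat_lit 2052) (nat_lit 0) (XT.nd (nat_lit 78) (nat_lit 0) (nat_lit 0) (XT.lf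 (nat_lit 0) (nat_lit 618716357) (nat_lit 1824) (nat_lit 7997816864) (nat_lit 76) (nat_lit 2983495345) (nat_lit 400) (nat_lit 5) (nat_lit 424) (nat_lit 5) (nat_lit 401) (nat_lit 5) (nat_lit 444) (nat_lit 417) (nat_lit 279)) (XT.lf (nat_lit 0) (nat_lit 2065107784) (nat_lit 1824) (nat_lit 1856728318) (nat_lit 76) (nat_lit 7795513864) (nat_lit 400) (nat_lit 5) (nat_lit 424) (nat_lit 5) (nat_lit 401) (nat_lit 5) (nat_lit 445) (nat_lit 417) (nat_lit 278))) (XT.nd (nat_lit 78) (nat_lit 912) (nat_lit 0) (XT.lf (nat_lit 0) (nat_lit 3560979732) (nat_lit 1216) (nat_lit 7389469331) (nat_lit 76) (nat_lit 886162492) (nat_lit 385) (nat_lit 5) (nat_lit 401) (nat_lit 5) (nat_lit 386) (nat_lit 5) (nat_lit 446) (nat_lit 417) (nat_lit 277)) (XT.nd (nat_lit 78) (nat_lit 912) (nat_lit 0) (XT.lf (nat_lit 0) (nat_lit 5111301830) (nat_lit 1216) (nat_lit 1094514322) (nat_lit 76) (nat_lit 5751956296) (nat_lit 385) (nat_lit 5) (nat_lit 401) (nat_lit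 5) (nat_lit 386) (nat_lit 5) (nat_lit 447) (nat_lit 417) (nat_lit 276)) (XT.lf (nat_lit 0) (nat_lit 5384498832) (nat_lit 912) (nat_lit 1329383575) (nat_lit 988) (nat_lit 5367053738) (nat_lit 373) (nat_lit 5) (nat_lit 385) (nat_lit 5) (nat_lit 386) (nat_lit 5) (nat_lit 448) (nat_lit 417) (nat_lit 275))))) (XT.nd (nat_lit 234) (nat_lit 912) (nat_lit 0) (XT.nd (nat_lit 78) (nat_lit 1672) (nat_lit 0) (XT.lf (nat_lit 0) (nat_lit 8366059149) (nat_lit 988) (nat_lit 234859191) (nat_lit 76) (nat_lit 3605298427) (nat_lit 373) (nat_lit 5) (nat_lit 386) (nat_lit 5) (nat_lit 374) (nat_lit 5) (nat_lit 449) (nat_lit 417) (nat_lit 274)) (XT.nd (nat_lit 78) (nat_lit 836) (nat_lit 0) (XT.lf (nat_lit 0) (nat_lit 6418920164) (nat_lit 836) (nat_lit 3669592079) (nat_lit 912) (nat_lit 2244750553) (nat_lit 362) (nat_lit 5) (nat_lit 373) (nat_lit 5) (nat_lit 374) (nat_lit 5) (nat_lit 450) (nat_lit 417) (nat_lit 273)) (XT.lf (nat_lit 0) (nat_lit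 734327908) (nat_lit 836) (nat_lit 11113210607) (nat_lit 912) (nat_lit 615273111) (nat_lit 351) (nat_lit 5) (nat_lit 362) (nat_lit 5) (nat_lit 363) (nat_lit 5) (nat_lit 451) (nat_lit 417) (nat_lit 272)))) (XT.nd (nat_lit 78) (nat_lit 836) (nat_lit 0) (XT.lf (nat_lit 0) (nat_lit 1084340935) (nat_lit 912) (nat_lit 5042070937) (nat_lit 76) (nat_lit 6467382306) (nat_lit 350) (nat_lit 5) (nat_lit 362) (nat_lit 5) (nat_lit 351) (nat_lit 5) (nat_lit 452) (nat_lit 417) (nat_lit 271)) (XT.nd (nat_lit 78) (nat_lit 0) (nat_lit 0) (XT.lf (nat_lit 0) (nat_lit 1784960074) (nat_lit 836) (nat_lit 1023622806) (nat_lit 912) (nat_lit 9918758791) (nat_lit 339) (nat_lit 5) (nat_lit 350) (nat_lit 5) (nat_lit 351) (nat_lit 5) (nat_lit 453) (nat_lit 417) (nat_lit 270)) (XT.lf (nat_lit 0) (nat_lit 4615963660) (nat_lit 912) (nat_lit 4085996349) (nat_lit 76) (nat_lit 4160631057) (nat_lit 339) (nat_lit 5) (nat_lit 351) (nat_lit 5) (nat_lit 340)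 (nat_lit 5) (nat_lit 454) (nat_lit 417) (nat_lit 269))))))) (XT.nd (nat_lit 858) (nat_lit 3876) (nat_lit 0) (XT.nd (nat_lit 390) (nat_lit 2128) (nat_lit 0) (XT.nd (nat_lit 156) (nat_lit 1596) (nat_lit 0) (XT.nd (nat_lit 78) (nat_lit 0) (nat_lit 0) (XT.lf (nat_lit 0) (nat_lit 2926750049) (nat_lit 836) (nat_lit 3546217194) (nat_lit 912) (nat_lit 6527312653) (nat_lit 328) (nat_lit 5) (nat_lit 339) (nat_lit 5) (nat_lit 340) (nat_lit 5) (nat_lit 455) (nat_lit 417) (nat_lit 268)) (XT.lf (nat_lit 0) (nat_lit 8393685641) (nat_lit 912) (nat_lit 3028874039) (nat_lit 76) (nat_lit 1717635203) (nat_lit 328) (nat_lit 5) (nat_lit 340) (nat_lit 5) (nat_lit 329) (nat_lit 5) (nat_lit 456) (nat_lit 417) (nat_lit 267))) (XT.nd (nat_lit 78) (nat_lit 836) (nat_lit 0) (XT.lf (nat_lit 0) (nat_lit 4175663532) (nat_lit 760) (nat_lit 6215843457) (nat_lit 836) (nat_lit 2890631209) (nat_lit 318) (nat_lit 5) (nat_lit 328) (nat_lit 5) (nat_lit 329)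 (nat_lit 5) (nat_lit 457) (nat_lit 417) (nat_lit 266)) (XT.nd (nat_lit 78) (nat_lit 836) (nat_lit 0) (XT.lf (nat_lit 0) (nat_lit 11553138854) (nat_lit 760) (nat_lit 884717975) (nat_lit 836) (nat_lit 988895832) (nat_lit 318) (nat_lit 5) (nat_lit 328) (nat_lit 5) (nat_lit 329) (nat_lit 5) (nat_lit 458) (nat_lit 417) (nat_lit 265)) (XT.lf (nat_lit 0) (nat_lit 992727887) (nat_lit 836) (nat_lit 8044984769) (nat_lit 76) (nat_lit 4535340372) (nat_lit 307) (nat_lit 5) (nat_lit 318) (nat_lit 5) (nat_lit 308) (nat_lit 5) (nat_lit 459) (nat_lit 417) (nat_lit 264))))) (XT.nd (nat_lit 234) (nat_lit 684) (nat_lit 0) (XT.nd (nat_lit 78) (nat_lit 1444) (nat_lit 0) (XT.lf (nat_lit 0) (nat_lit 3007813083) (nat_lit 836) (nat_lit 643615415) (nat_lit 76) (nat_lit 10070582275) (nat_lit 307) (nat_lit 5) (nat_lit 318) (nat_lit 5) (nat_lit 308) (nat_lit 5) (nat_lit 460) (nat_lit 417) (nat_lit 263)) (XT.nd (nat_lit 78) (nat_lit 760) (nat_lit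 0) (XT.lf (nat_lit 0) (nat_lit 5109579295) (nat_lit 760) (nat_lit 6900168260) (nat_lit 76) (nat_lit 1863275974) (nat_lit 298) (nat_lit 5) (nat_lit 308) (nat_lit 5) (nat_lit 299) (nat_lit 5) (nat_lit 461) (nat_lit 417) (nat_lit 262)) (XT.lf (nat_lit 0) (nat_lit 696152418) (nat_lit 760) (nat_lit 6579181856) (nat_lit 836) (nat_lit 6751286570) (nat_lit 288) (nat_lit 5) (nat_lit 298) (nat_lit 5) (nat_lit 299) (nat_lit 5) (nat_lit 462) (nat_lit 417) (nat_lit 261)))) (XT.nd (nat_lit 78) (nat_lit 684) (nat_lit 0) (XT.lf (nat_lit 0) (nat_lit 8525836135) (nat_lit 760) (nat_lit 993915311) (nat_lit 836) (nat_lit 4662835022) (nat_lit 288) (nat_lit 5) (nat_lit 298) (nat_lit 5) (nat_lit 299) (nat_lit 5) (nat_lit 463) (nat_lit 417) (nat_lit 260)) (XT.nd (nat_lit 78) (nat_lit 0) (nat_lit 0) (XT.lf (nat_lit 0) (nat_lit 2156113983) (nat_lit 684) (nat_lit 9686728178) (nat_lit 760) (nat_lit 2498156784) (nat_lit 279) (nat_lit 5) (nat_lit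 288) (nat_lit 5) (nat_lit 289) (nat_lit 5) (nat_lit 464) (nat_lit 417) (nat_lit 259)) (XT.lf (nat_lit 0) (nat_lit 10183253449) (nat_lit 684) (nat_lit 4063023754) (nat_lit 760) (nat_lit 255627996) (nat_lit 279) (nat_lit 5) (nat_lit 288) (nat_lit 5) (nat_lit 289) (nat_lit 5) (nat_lit 465) (nat_lit 417) (nat_lit 258)))))) (XT.nd (nat_lit 390) (nat_lit 1824) (nat_lit 0) (XT.nd (nat_lit 156) (nat_lit 1292) (nat_lit 0) (XT.nd (nat_lit 78) (nat_lit 0) (nat_lit 0) (XT.lf (nat_lit 0) (nat_lit 2029935590) (nat_lit 760) (nat_lit 10947876851) (nat_lit 76) (nat_lit 1687459743) (nat_lit 269) (nat_lit 5) (nat_lit 279) (nat_lit 5) (nat_lit 270) (nat_lit 5) (nat_lit 466) (nat_lit 417) (nat_lit 257)) (XT.lf (nat_lit 0) (nat_lit 4403509773) (nat_lit 760) (nat_lit 2899435942) (nat_lit 76) (nat_lit 7528015551) (nat_lit 269) (nat_lit 5) (nat_lit 279) (nat_lit 5) (nat_lit 270) (nat_lit 5) (nat_lit 467) (nat_lit 417) (nat_lit 256))) (XT.nd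 (nat_lit 78) (nat_lit 684) (nat_lit 0) (XT.lf (nat_lit 0) (nat_lit 5368599027) (nat_lit 608) (nat_lit 1480655263) (nat_lit 684) (nat_lit 8150218799) (nat_lit 261) (nat_lit 5) (nat_lit 269) (nat_lit 5) (nat_lit 270) (nat_lit 5) (nat_lit 468) (nat_lit 417) (nat_lit 255)) (XT.nd (nat_lit 78) (nat_lit 684) (nat_lit 0) (XT.lf (nat_lit 0) (nat_lit 9382398752) (nat_lit 684) (nat_lit 1370642445) (nat_lit 76) (nat_lit 4417547129) (nat_lit 261) (nat_lit 5) (nat_lit 270) (nat_lit 5) (nat_lit 262) (nat_lit 5) (nat_lit 469) (nat_lit 417) (nat_lit 254)) (XT.lf (nat_lit 0) (nat_lit 7126790540) (nat_lit 684) (nat_lit 4885644687) (nat_lit 760) (nat_lit 3331768882) (nat_lit 252) (nat_lit 5) (nat_lit 261) (nat_lit 5) (nat_lit 262) (nat_lit 5) (nat_lit 470) (nat_lit 417) (nat_lit 253))))) (XT.nd (nat_lit 234) (nat_lit 532) (nat_lit 0) (XT.nd (nat_lit 78) (nat_lit 684) (nat_lit 0) (XT.lf (nat_lit 0) (nat_lit 276294721) (nat_lit 608) (nat_lit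 14427223721) (nat_lit 684) (nat_lit 817607612) (nat_lit 244) (nat_lit 5) (nat_lit 252) (nat_lit 5) (nat_lit 253) (nat_lit 5) (nat_lit 471) (nat_lit 417) (nat_lit 252)) (XT.nd (nat_lit 78) (nat_lit 608) (nat_lit 0) (XT.lf (nat_lit 0) (nat_lit 1802096460) (nat_lit 684) (nat_lit 6705108574) (nat_lit 76) (nat_lit 7192593836) (nat_lit 243) (nat_lit 5) (nat_lit 252) (nat_lit 5) (nat_lit 244) (nat_lit 5) (nat_lit 472) (nat_lit 417) (nat_lit 251)) (XT.lf (nat_lit 0) (nat_lit 2014821404) (nat_lit 608) (nat_lit 2452013350) (nat_lit 684) (nat_lit 11415033152) (nat_lit 235) (nat_lit 5) (nat_lit 243) (nat_lit 5) (nat_lit 244) (nat_lit 5) (nat_lit 473) (nat_lit 417) (nat_lit 250)))) (XT.nd (nat_lit 78) (nat_lit 532) (nat_lit 0) (XT.lf (nat_lit 0) (nat_lit 7244934955) (nat_lit 684) (nat_lit 5102815066) (nat_lit 76) (nat_lit 3718629516) (nat_lit 235) (nat_lit 5) (nat_lit 244) (nat_lit 5) (nat_lit 236) (nat_lit 5) (nat_lit 474) (nat_lit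 417) (nat_lit 249)) (XT.nd (nat_lit 78) (nat_lit 0) (nat_lit 0) (XT.lf (nat_lit 0) (nat_lit 3859613750) (nat_lit 532) (nat_lit 6251059357) (nat_lit 608) (nat_lit 6143269279) (nat_lit 228) (nat_lit 5) (nat_lit 235) (nat_lit 5) (nat_lit 236) (nat_lit 5) (nat_lit 475) (nat_lit 417) (nat_lit 248)) (XT.lf (nat_lit 0) (nat_lit 13058855117) (nat_lit 608) (nat_lit 3385689475) (nat_lit 76) (nat_lit 211776) (nat_lit 228) (nat_lit 5) (nat_lit 236) (nat_lit 5) (nat_lit 229) (nat_lit 5) (nat_lit 476) (nat_lit 417) (nat_lit 247))))))))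
noncomputable def xc184 : XT := (XT.nd (nat_lit 1638) (nat_lit 1672) (nat_lit 0) (XT.nd (nat_lit 780) (nat_lit 2736) (nat_lit 0) (XT.nd (nat_lit 390) (nat_lit 1596) (nat_lit 0) (XT.nd (nat_lit 156) (nat_lit 1064) (nat_lit 0) (XT.nd (nat_lit 78) (nat_lit 76) (nat_lit 0) (XT.lf (nat_lit 0) (nat_lit 5826808291) (nat_lit 608) (nat_lit 10309471072) (nat_lit 684) (nat_lit 501704103) (nat_lit 220) (nat_lit 5) (nat_lit 228) (nat_lit 5) (nat_lit 229) (nat_lit 5) (nat_lit 477) (nat_lit 417) (nat_lit 246)) (XT.lf (nat_lit 0) (nat_lit 2422134653) (nat_lit 684) (nat_lit 1592546704) (nat_lit 76) (nat_lit 12819799981) (nat_lit 219) (nat_lit 5) (nat_lit 228) (nat_lit 5) (nat_lit 220) (nat_lit 5) (nat_lit 478) (nat_lit 417) (nat_lit 245))) (XT.nd (nat_lit 78) (nat_lit 532) (nat_lit 0) (XT.lf (nat_lit 0) (nat_lit 5456260739) (nat_lit 608) (nat_lit 9150384048) (nat_lit 76) (nat_lit 2427029756) (nat_lit 212) (nat_lit 5) (nat_lit 220) (nat_lit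 5) (nat_lit 213) (nat_lit 5) (nat_lit 479) (nat_lit 417) (nat_lit 244)) (XT.nd (nat_lit 78) (nat_lit 0) (nat_lit 0) (XT.lf (nat_lit 0) (nat_lit 299620833) (nat_lit 532) (nat_lit 8282087620) (nat_lit 608) (nat_lit 8654532603) (nat_lit 205) (nat_lit 5) (nat_lit 212) (nat_lit 5) (nat_lit 213) (nat_lit 5) (nat_lit 480) (nat_lit 417) (nat_lit 243)) (XT.lf (nat_lit 0) (nat_lit 10051491023) (nat_lit 532) (nat_lit 1771023971) (nat_lit 608) (nat_lit 5619289090) (nat_lit 205) (nat_lit 5) (nat_lit 212) (nat_lit 5) (nat_lit 213) (nat_lit 5) (nat_lit 481) (nat_lit 417) (nat_lit 242))))) (XT.nd (nat_lit 156) (nat_lit 988) (nat_lit 0) (XT.nd (nat_lit 78) (nat_lit 76) (nat_lit 0) (XT.lf (nat_lit 0) (nat_lit 2334815980) (nat_lit 532) (nat_lit 12831698873) (nat_lit 608) (nat_lit 2484198114) (nat_lit 198) (nat_lit 5) (nat_lit 205) (nat_lit 5) (nat_lit 206) (nat_lit 5) (nat_lit 482) (nat_lit 417) (nat_lit 241)) (XT.lf (nat_lit 0) (nat_lit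 757518798) (nat_lit 608) (nat_lit 5536018146) (nat_lit 76) (nat_lit 11569106816) (nat_lit 197) (nat_lit 5) (nat_lit 205) (nat_lit 5) (nat_lit 198) (nat_lit 5) (nat_lit 483) (nat_lit 417) (nat_lit 240))) (XT.nd (nat_lit 78) (nat_lit 456) (nat_lit 0) (XT.lf (nat_lit 0) (nat_lit 4054382484) (nat_lit 608) (nat_lit 13610076080) (nat_lit 76) (nat_lit 413556693) (nat_lit 190) (nat_lit 5) (nat_lit 198) (nat_lit 5) (nat_lit 191) (nat_lit 5) (nat_lit 484) (nat_lit 417) (nat_lit 239)) (XT.nd (nat_lit 78) (nat_lit 456) (nat_lit 0) (XT.lf (nat_lit 0) (nat_lit 7488127820) (nat_lit 608) (nat_lit 3602859466) (nat_lit 76) (nat_lit 7205289988) (nat_lit 190) (nat_lit 5) (nat_lit 198) (nat_lit 5) (nat_lit 191) (nat_lit 5) (nat_lit 485) (nat_lit 417) (nat_lit 238)) (XT.lf (nat_lit 0) (nat_lit 6681343174) (nat_lit 456) (nat_lit 4344613720) (nat_lit 532) (nat_lit 7492241396) (nat_lit 184) (nat_lit 5) (nat_lit 190) (nat_lit 5) (nat_lit 191)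 (nat_lit 5) (nat_lit 486) (nat_lit 417) (nat_lit 237)))))) (XT.nd (nat_lit 390) (nat_lit 1292) (nat_lit 0) (XT.nd (nat_lit 156) (nat_lit 988) (nat_lit 0) (XT.nd (nat_lit 78) (nat_lit 456) (nat_lit 0) (XT.lf (nat_lit 0) (nat_lit 14667447078) (nat_lit 532) (nat_lit 1551492152) (nat_lit 76) (nat_lit 2524962307) (nat_lit 184) (nat_lit 5) (nat_lit 191) (nat_lit 5) (nat_lit 185) (nat_lit 5) (nat_lit 487) (nat_lit 417) (nat_lit 236)) (XT.lf (nat_lit 0) (nat_lit 9018441559) (nat_lit 456) (nat_lit 9442903910) (nat_lit 532) (nat_lit 511183673) (nat_lit 178) (nat_lit 5) (nat_lit 184) (nat_lit 5) (nat_lit 185) (nat_lit 5) (nat_lit 488) (nat_lit 417) (nat_lit 235))) (XT.nd (nat_lit 78) (nat_lit 456) (nat_lit 0) (XT.lf (nat_lit 0) (nat_lit 592009959) (nat_lit 456) (nat_lit 2498999617) (nat_lit 532) (nat_lit 16114183528) (nat_lit 171) (nat_lit 5) (nat_lit 177) (nat_lit 5) (nat_lit 178) (nat_lit 5) (nat_lit 489) (nat_lit 417) (nat_lit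 234)) (XT.nd (nat_lit 78) (nat_lit 456) (nat_lit 0) (XT.lf (nat_lit 0) (nat_lit 6847755111) (nat_lit 532) (nat_lit 8001545263) (nat_lit 76) (nat_lit 4591357084) (nat_lit 171) (nat_lit 5) (nat_lit 178) (nat_lit 5) (nat_lit 172) (nat_lit 5) (nat_lit 490) (nat_lit 417) (nat_lit 233)) (XT.lf (nat_lit 0) (nat_lit 2832391718) (nat_lit 456) (nat_lit 7874679622) (nat_lit 532) (nat_lit 8973212764) (nat_lit 165) (nat_lit 5) (nat_lit 171) (nat_lit 5) (nat_lit 172) (nat_lit 5) (nat_lit 491) (nat_lit 417) (nat_lit 232))))) (XT.nd (nat_lit 234) (nat_lit 836) (nat_lit 0) (XT.nd (nat_lit 78) (nat_lit 456) (nat_lit 0) (XT.lf (nat_lit 0) (nat_lit 13981008460) (nat_lit 456) (nat_lit 708835572) (nat_lit 532) (nat_lit 5233935535) (nat_lit 165) (nat_lit 5) (nat_lit 171) (nat_lit 5) (nat_lit 172) (nat_lit 5) (nat_lit 492) (nat_lit 417) (nat_lit 231)) (XT.nd (nat_lit 78) (nat_lit 76) (nat_lit 0) (XT.lf (nat_lit 0) (nat_lit 5195352091) (nat_lit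 380) (nat_lit 13626207247) (nat_lit 456) (nat_lit 1349201512) (nat_lit 160) (nat_lit 5) (nat_lit 165) (nat_lit 5) (nat_lit 166) (nat_lit 5) (nat_lit 493) (nat_lit 417) (nat_lit 230)) (XT.lf (nat_lit 0) (nat_lit 2616520236) (nat_lit 456) (nat_lit 3817430468) (nat_lit 76) (nat_lit 13987641988) (nat_lit 159) (nat_lit 5) (nat_lit 165) (nat_lit 5) (nat_lit 160) (nat_lit 5) (nat_lit 494) (nat_lit 417) (nat_lit 229)))) (XT.nd (nat_lit 78) (nat_lit 380) (nat_lit 0) (XT.lf (nat_lit 0) (nat_lit 6692239081) (nat_lit 532) (nat_lit 13037814087) (nat_lit 76) (nat_lit 946236226) (nat_lit 153) (nat_lit 5) (nat_lit 160) (nat_lit 5) (nat_lit 154) (nat_lit 5) (nat_lit 495) (nat_lit 417) (nat_lit 228)) (XT.nd (nat_lit 78) (nat_lit 380) (nat_lit 0) (XT.lf (nat_lit 0) (nat_lit 10910792809) (nat_lit 532) (nat_lit 1613366698) (nat_lit 76) (nat_lit 8410695642) (nat_lit 153) (nat_lit 5) (nat_lit 160) (nat_lit 5) (nat_lit 154) (nat_lit 5) (nat_lit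 496) (nat_lit 417) (nat_lit 227)) (XT.lf (nat_lit 0) (nat_lit 10162791887) (nat_lit 380) (nat_lit 5109972981) (nat_lit 456) (nat_lit 5924647903) (nat_lit 148) (nat_lit 5) (nat_lit 153) (nat_lit 5) (nat_lit 154) (nat_lit 5) (nat_lit 497) (nat_lit 417) (nat_lit 226))))))) (XT.nd (nat_lit 53430) (nat_lit 0) (nat_lit 25460) (XT.nd (nat_lit 390) (nat_lit 456) (nat_lit 0) (XT.nd (nat_lit 156) (nat_lit 760) (nat_lit 0) (XT.nd (nat_lit 78) (nat_lit 76) (nat_lit 0) (XT.lf (nat_lit 0) (nat_lit 714598580) (nat_lit 380) (nat_lit 19031953333) (nat_lit 456) (nat_lit 1718179590) (nat_lit 143) (nat_lit 5) (nat_lit 148) (nat_lit 5) (nat_lit 149) (nat_lit 5) (nat_lit 498) (nat_lit 417) (nat_lit 225)) (XT.lf (nat_lit 0) (nat_lit 2640197360) (nat_lit 456) (nat_lit 8948711995) (nat_lit 76) (nat_lit 10146124289) (nat_lit 142) (nat_lit 5) (nat_lit 148) (nat_lit 5) (nat_lit 143) (nat_lit 5) (nat_lit 499) (nat_lit 417) (nat_lit 224))) (XT.nd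 (nat_lit 78) (nat_lit 380) (nat_lit 0) (XT.lf (nat_lit 0) (nat_lit 3108179024) (nat_lit 380) (nat_lit 3968030443) (nat_lit 456) (nat_lit 14934037121) (nat_lit 137) (nat_lit 5) (nat_lit 142) (nat_lit 5) (nat_lit 143) (nat_lit 5) (nat_lit 500) (nat_lit 417) (nat_lit 223)) (XT.nd (nat_lit 78) (nat_lit 380) (nat_lit 0) (XT.lf (nat_lit 0) (nat_lit 11679415439) (nat_lit 456) (nat_lit 6797348988) (nat_lit 76) (nat_lit 3812631248) (nat_lit 137) (nat_lit 5) (nat_lit 143) (nat_lit 5) (nat_lit 138) (nat_lit 5) (nat_lit 501) (nat_lit 417) (nat_lit 222)) (XT.lf (nat_lit 0) (nat_lit 5586659360) (nat_lit 380) (nat_lit 10844026872) (nat_lit 456) (nat_lit 6142322826) (nat_lit 132) (nat_lit 5) (nat_lit 137) (nat_lit 5) (nat_lit 138) (nat_lit 5) (nat_lit 502) (nat_lit 417) (nat_lit 221))))) (XT.nd (nat_lit 52806) (nat_lit 0) (nat_lit 26828) (XT.nd (nat_lit 78) (nat_lit 456) (nat_lit 0) (XT.lf (nat_lit 0) (nat_lit 18300755883) (nat_lit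 380) (nat_lit 3015355650) (nat_lit 456) (nat_lit 1545401899) (nat_lit 132) (nat_lit 5) (nat_lit 137) (nat_lit 5) (nat_lit 138) (nat_lit 5) (nat_lit 503) (nat_lit 417) (nat_lit 220)) (XT.nd (nat_lit 52650) (nat_lit 0) (nat_lit 26828) (XT.lf (nat_lit 0) (nat_lit 3181743407) (nat_lit 456) (nat_lit 14996446975) (nat_lit 76) (nat_lit 4975600316) (nat_lit 126) (nat_lit 5) (nat_lit 132) (nat_lit 5) (nat_lit 127) (nat_lit 5) (nat_lit 504) (nat_lit 417) (nat_lit 219)) (XT.lf (nat_lit 0) (nat_lit 1631170411) (nat_lit 1596) (nat_lit 1491351796) (nat_lit 1596) (nat_lit 1491351796) (nat_lit 479) (nat_lit 3) (nat_lit 500) (nat_lit 3) (nat_lit 500) (nat_lit 5) (nat_lit 418) (nat_lit 418) (nat_lit 304)))) (XT.nd (nat_lit 78) (nat_lit 0) (nat_lit 76) (XT.lf (nat_lit 76) (nat_lit 1461709010) (nat_lit 0) (nat_lit 2677341740) (nat_lit 1596) (nat_lit 5163773242) (nat_lit 480) (nat_lit 5) (nat_lit 479) (nat_lit 3) (nat_lit 500) (nat_lit 5)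 (nat_lit 419) (nat_lit 418) (nat_lit 303)) (XT.nd (nat_lit 78) (nat_lit 0) (nat_lit 0) (XT.lf (nat_lit 0) (nat_lit 5037790927) (nat_lit 1520) (nat_lit 3361770875) (nat_lit 1596) (nat_lit 979758158) (nat_lit 480) (nat_lit 5) (nat_lit 500) (nat_lit 5) (nat_lit 501) (nat_lit 5) (nat_lit 420) (nat_lit 418) (nat_lit 302)) (XT.lf (nat_lit 76) (nat_lit 1193479876) (nat_lit 0) (nat_lit 4765038866) (nat_lit 1596) (nat_lit 3498755072) (nat_lit 481) (nat_lit 5) (nat_lit 480) (nat_lit 5) (nat_lit 501) (nat_lit 5) (nat_lit 421) (nat_lit 418) (nat_lit 301)))))) (XT.nd (nat_lit 390) (nat_lit 0) (nat_lit 0) (XT.nd (nat_lit 156) (nat_lit 1444) (nat_lit 0) (XT.nd (nat_lit 78) (nat_lit 0) (nat_lit 76) (XT.lf (nat_lit 76) (nat_lit 5873879461) (nat_lit 0) (nat_lit 1025220219) (nat_lit 1596) (nat_lit 2637666356) (nat_lit 481) (nat_lit 5) (nat_lit 480) (nat_lit 5) (nat_lit 501) (nat_lit 5) (nat_lit 422) (nat_lit 418) (nat_lit 300)) (XT.lf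 (nat_lit 76) (nat_lit 1013436755) (nat_lit 0) (nat_lit 6849100505) (nat_lit 1596) (nat_lit 1755237845) (nat_lit 482) (nat_lit 5) (nat_lit 481) (nat_lit 5) (nat_lit 502) (nat_lit 5) (nat_lit 423) (nat_lit 418) (nat_lit 299))) (XT.nd (nat_lit 78) (nat_lit 1520) (nat_lit 0) (XT.lf (nat_lit 76) (nat_lit 5814352715) (nat_lit 0) (nat_lit 3041898979) (nat_lit 1596) (nat_lit 843940250) (nat_lit 482) (nat_lit 5) (nat_lit 481) (nat_lit 5) (nat_lit 502) (nat_lit 5) (nat_lit 424) (nat_lit 418) (nat_lit 298)) (XT.nd (nat_lit 78) (nat_lit 0) (nat_lit 0) (XT.lf (nat_lit 0) (nat_lit 75981775) (nat_lit 1596) (nat_lit 8863214485) (nat_lit 1672) (nat_lit 845226775) (nat_lit 461) (nat_lit 5) (nat_lit 482) (nat_lit 5) (nat_lit 483) (nat_lit 5) (nat_lit 425) (nat_lit 418) (nat_lit 297)) (XT.lf (nat_lit 0) (nat_lit 1029718360) (nat_lit 1596) (nat_lit 4030780224) (nat_lit 1672) (nat_lit 4809201567) (nat_lit 461) (nat_lit 5) (nat_lit 482) (nat_lit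 5) (nat_lit 483) (nat_lit 5) (nat_lit 426) (nat_lit 418) (nat_lit 296))))) (XT.nd (nat_lit 234) (nat_lit 0) (nat_lit 152) (XT.nd (nat_lit 78) (nat_lit 0) (nat_lit 76) (XT.lf (nat_lit 76) (nat_lit 898193343) (nat_lit 0) (nat_lit 1090866211) (nat_lit 1672) (nat_lit 7967899816) (nat_lit 462) (nat_lit 5) (nat_lit 461) (nat_lit 5) (nat_lit 483) (nat_lit 5) (nat_lit 427) (nat_lit 418) (nat_lit 295)) (XT.nd (nat_lit 78) (nat_lit 0) (nat_lit 0) (XT.lf (nat_lit 0) (nat_lit 2995068357) (nat_lit 1596) (nat_lit 4096668411) (nat_lit 1672) (nat_lit 2953684410) (nat_lit 462) (nat_lit 5) (nat_lit 483) (nat_lit 5) (nat_lit 484) (nat_lit 5) (nat_lit 428) (nat_lit 418) (nat_lit 294)) (XT.lf (nat_lit 76) (nat_lit 958006581) (nat_lit 0) (nat_lit 3058053346) (nat_lit 1672) (nat_lit 6119701922) (nat_lit 463) (nat_lit 5) (nat_lit 462) (nat_lit 5) (nat_lit 484) (nat_lit 5) (nat_lit 429) (nat_lit 418) (nat_lit 293)))) (XT.nd (nat_lit 78) (nat_lit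 0) (nat_lit 0) (XT.lf (nat_lit 0) (nat_lit 5073748985) (nat_lit 1596) (nat_lit 4077433049) (nat_lit 1672) (nat_lit 1076408494) (nat_lit 463) (nat_lit 5) (nat_lit 484) (nat_lit 5) (nat_lit 485) (nat_lit 5) (nat_lit 430) (nat_lit 418) (nat_lit 292)) (XT.nd (nat_lit 78) (nat_lit 0) (nat_lit 0) (XT.lf (nat_lit 76) (nat_lit 1107065180) (nat_lit 0) (nat_lit 5055070933) (nat_lit 1672) (nat_lit 4158935395) (nat_lit 464) (nat_lit 5) (nat_lit 463) (nat_lit 5) (nat_lit 485) (nat_lit 5) (nat_lit 431) (nat_lit 418) (nat_lit 291)) (XT.lf (nat_lit 76) (nat_lit 6438505859) (nat_lit 0) (nat_lit 843524189) (nat_lit 1672) (nat_lit 3134203762) (nat_lit 464) (nat_lit 5) (nat_lit 463) (nat_lit 5) (nat_lit 485) (nat_lit 5) (nat_lit 432) (nat_lit 418) (nat_lit 290))))))))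
noncomputable def xc185 : XT := (XT.nd (nat_lit 1716) (nat_lit 8436) (nat_lit 0) (XT.nd (nat_lit 858) (nat_lit 6460) (nat_lit 0) (XT.nd (nat_lit 390) (nat_lit 1444) (nat_lit 0) (XT.nd (nat_lit 156) (nat_lit 1596) (nat_lit 0) (XT.nd (nat_lit 78) (nat_lit 0) (nat_lit 0) (XT.lf (nat_lit 76) (nat_lit 1346349169) (nat_lit 0) (nat_lit 7091886964) (nat_lit 1672) (nat_lit 2074791296) (nat_lit 465) (nat_lit 5) (nat_lit 464) (nat_lit 5) (nat_lit 486) (nat_lit 5) (nat_lit 433) (nat_lit 418) (nat_lit 289)) (XT.lf (nat_lit 76) (nat_lit 6813076441) (nat_lit 0) (nat_lit 2819750177) (nat_lit 1672) (nat_lit 978631329) (nat_lit 465) (nat_lit 5) (nat_lit 464) (nat_lit 5) (nat_lit 486) (nat_lit 5) (nat_lit 434) (nat_lit 418) (nat_lit 288))) (XT.nd (nat_lit 78) (nat_lit 0) (nat_lit 0) (XT.lf (nat_lit 0) (nat_lit 141900548) (nat_lit 1672) (nat_lit 9035643221) (nat_lit 1748) (nat_lit 1534215636) (nat_lit 443) (nat_lit 5) (nat_lit 465) (nat_lit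 5) (nat_lit 466) (nat_lit 5) (nat_lit 435) (nat_lit 418) (nat_lit 287)) (XT.nd (nat_lit 78) (nat_lit 0) (nat_lit 0) (XT.lf (nat_lit 0) (nat_lit 1299598141) (nat_lit 1672) (nat_lit 3539656615) (nat_lit 1748) (nat_lit 5974131453) (nat_lit 443) (nat_lit 5) (nat_lit 465) (nat_lit 5) (nat_lit 466) (nat_lit 5) (nat_lit 436) (nat_lit 418) (nat_lit 286)) (XT.lf (nat_lit 76) (nat_lit 2081422709) (nat_lit 0) (nat_lit 396379108) (nat_lit 1748) (nat_lit 8439302449) (nat_lit 444) (nat_lit 5) (nat_lit 443) (nat_lit 5) (nat_lit 466) (nat_lit 5) (nat_lit 437) (nat_lit 418) (nat_lit 285))))) (XT.nd (nat_lit 234) (nat_lit 1520) (nat_lit 0) (XT.nd (nat_lit 78) (nat_lit 0) (nat_lit 0) (XT.lf (nat_lit 0) (nat_lit 3714431316) (nat_lit 1672) (nat_lit 3198918551) (nat_lit 1748) (nat_lit 4108855226) (nat_lit 444) (nat_lit 5) (nat_lit 466) (nat_lit 5) (nat_lit 467) (nat_lit 5) (nat_lit 438) (nat_lit 418) (nat_lit 284)) (XT.nd (nat_lit 78) (nat_lit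 0) (nat_lit 76) (XT.lf (nat_lit 76) (nat_lit 2569502451) (nat_lit 0) (nat_lit 2410012642) (nat_lit 1748) (nat_lit 6149823943) (nat_lit 445) (nat_lit 5) (nat_lit 444) (nat_lit 5) (nat_lit 467) (nat_lit 5) (nat_lit 439) (nat_lit 418) (nat_lit 283)) (XT.lf (nat_lit 0) (nat_lit 6290347486) (nat_lit 1672) (nat_lit 2768256188) (nat_lit 1748) (nat_lit 2179608471) (nat_lit 445) (nat_lit 5) (nat_lit 467) (nat_lit 5) (nat_lit 468) (nat_lit 5) (nat_lit 440) (nat_lit 418) (nat_lit 282)))) (XT.nd (nat_lit 78) (nat_lit 1596) (nat_lit 0) (XT.lf (nat_lit 76) (nat_lit 3152376981) (nat_lit 0) (nat_lit 4496410281) (nat_lit 1748) (nat_lit 3700052959) (nat_lit 446) (nat_lit 5) (nat_lit 445) (nat_lit 5) (nat_lit 468) (nat_lit 5) (nat_lit 441) (nat_lit 418) (nat_lit 281)) (XT.nd (nat_lit 78) (nat_lit 1672) (nat_lit 0) (XT.lf (nat_lit 0) (nat_lit 9039312073) (nat_lit 1672) (nat_lit 2245906483) (nat_lit 76) (nat_lit 176369191) (nat_lit 446)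 (nat_lit 5) (nat_lit 468) (nat_lit 5) (nat_lit 447) (nat_lit 5) (nat_lit 442) (nat_lit 418) (nat_lit 280)) (XT.lf (nat_lit 0) (nat_lit 3831982303) (nat_lit 1672) (nat_lit 6665809886) (nat_lit 1748) (nat_lit 1078000253) (nat_lit 424) (nat_lit 5) (nat_lit 446) (nat_lit 5) (nat_lit 447) (nat_lit 5) (nat_lit 443) (nat_lit 418) (nat_lit 279)))))) (XT.nd (nat_lit 390) (nat_lit 3496) (nat_lit 0) (XT.nd (nat_lit 156) (nat_lit 1140) (nat_lit 0) (XT.nd (nat_lit 78) (nat_lit 1748) (nat_lit 0) (XT.lf (nat_lit 0) (nat_lit 290080778) (nat_lit 1748) (nat_lit 1644385352) (nat_lit 76) (nat_lit 9757766647) (nat_lit 423) (nat_lit 5) (nat_lit 446) (nat_lit 5) (nat_lit 424) (nat_lit 5) (nat_lit 444) (nat_lit 418) (nat_lit 278)) (XT.lf (nat_lit 0) (nat_lit 1705997780) (nat_lit 1824) (nat_lit 7211153731) (nat_lit 76) (nat_lit 2893014539) (nat_lit 400) (nat_lit 5) (nat_lit 424) (nat_lit 5) (nat_lit 401) (nat_lit 5) (nat_lit 445) (nat_lit 418)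 (nat_lit 277))) (XT.nd (nat_lit 78) (nat_lit 1140) (nat_lit 0) (XT.lf (nat_lit 0) (nat_lit 3160240425) (nat_lit 1824) (nat_lit 965804579) (nat_lit 76) (nat_lit 7804217560) (nat_lit 400) (nat_lit 5) (nat_lit 424) (nat_lit 5) (nat_lit 401) (nat_lit 5) (nat_lit 446) (nat_lit 418) (nat_lit 276)) (XT.nd (nat_lit 78) (nat_lit 0) (nat_lit 0) (XT.lf (nat_lit 0) (nat_lit 4670591455) (nat_lit 1216) (nat_lit 6593411280) (nat_lit 76) (nat_lit 788222434) (nat_lit 385) (nat_lit 5) (nat_lit 401) (nat_lit 5) (nat_lit 386) (nat_lit 5) (nat_lit 447) (nat_lit 418) (nat_lit 275)) (XT.lf (nat_lit 0) (nat_lit 6231559364) (nat_lit 1216) (nat_lit 191063982) (nat_lit 76) (nat_lit 5753600021) (nat_lit 385) (nat_lit 5) (nat_lit 401) (nat_lit 5) (nat_lit 386) (nat_lit 5) (nat_lit 448) (nat_lit 418) (nat_lit 274))))) (XT.nd (nat_lit 234) (nat_lit 1748) (nat_lit 0) (XT.nd (nat_lit 78) (nat_lit 836) (nat_lit 0) (XT.lf (nat_lit 0) (nat_lit 6411441668)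 (nat_lit 912) (nat_lit 1440756883) (nat_lit 988) (nat_lit 4449938393) (nat_lit 373) (nat_lit 5) (nat_lit 385) (nat_lit 5) (nat_lit 386) (nat_lit 5) (nat_lit 449) (nat_lit 418) (nat_lit 273)) (XT.nd (nat_lit 78) (nat_lit 0) (nat_lit 0) (XT.lf (nat_lit 0) (nat_lit 691295648) (nat_lit 836) (nat_lit 8830384809) (nat_lit 912) (nat_lit 2908564099) (nat_lit 362) (nat_lit 5) (nat_lit 373) (nat_lit 5) (nat_lit 374) (nat_lit 5) (nat_lit 450) (nat_lit 418) (nat_lit 272)) (XT.lf (nat_lit 0) (nat_lit 7463019746) (nat_lit 836) (nat_lit 3797729559) (nat_lit 912) (nat_lit 1299445347) (nat_lit 362) (nat_lit 5) (nat_lit 373) (nat_lit 5) (nat_lit 374) (nat_lit 5) (nat_lit 451) (nat_lit 418) (nat_lit 271)))) (XT.nd (nat_lit 78) (nat_lit 836) (nat_lit 0) (XT.lf (nat_lit 0) (nat_lit 344429860) (nat_lit 912) (nat_lit 11016205782) (nat_lit 76) (nat_lit 1331926678) (nat_lit 350) (nat_lit 5) (nat_lit 362) (nat_lit 5) (nat_lit 351) (nat_lit 5)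 (nat_lit 452) (nat_lit 418) (nat_lit 270)) (XT.nd (nat_lit 78) (nat_lit 836) (nat_lit 0) (XT.lf (nat_lit 0) (nat_lit 2050907782) (nat_lit 912) (nat_lit 4218625145) (nat_lit 76) (nat_lit 6556934162) (nat_lit 350) (nat_lit 5) (nat_lit 362) (nat_lit 5) (nat_lit 351) (nat_lit 5) (nat_lit 453) (nat_lit 418) (nat_lit 269)) (XT.lf (nat_lit 0) (nat_lit 2738865649) (nat_lit 836) (nat_lit 1058203463) (nat_lit 912) (nat_lit 9165873717) (nat_lit 339) (nat_lit 5) (nat_lit 350) (nat_lit 5) (nat_lit 351) (nat_lit 5) (nat_lit 454) (nat_lit 418) (nat_lit 268))))))) (XT.nd (nat_lit 858) (nat_lit 3876) (nat_lit 0) (XT.nd (nat_lit 390) (nat_lit 2964) (nat_lit 0) (XT.nd (nat_lit 156) (nat_lit 760) (nat_lit 0) (XT.nd (nat_lit 78) (nat_lit 836) (nat_lit 0) (XT.lf (nat_lit 0) (nat_lit 5622227025) (nat_lit 912) (nat_lit 3248849953) (nat_lit 76) (nat_lit 4230193513) (nat_lit 339) (nat_lit 5) (nat_lit 351) (nat_lit 5) (nat_lit 340) (nat_lit 5)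 (nat_lit 455) (nat_lit 418) (nat_lit 267)) (XT.lf (nat_lit 0) (nat_lit 3898106200) (nat_lit 836) (nat_lit 3606270648) (nat_lit 912) (nat_lit 5737581882) (nat_lit 328) (nat_lit 5) (nat_lit 339) (nat_lit 5) (nat_lit 340) (nat_lit 5) (nat_lit 456) (nat_lit 418) (nat_lit 266))) (XT.nd (nat_lit 78) (nat_lit 760) (nat_lit 0) (XT.lf (nat_lit 0) (nat_lit 9445893512) (nat_lit 912) (nat_lit 2176630606) (nat_lit 76) (nat_lit 1762505864) (nat_lit 328) (nat_lit 5) (nat_lit 340) (nat_lit 5) (nat_lit 329) (nat_lit 5) (nat_lit 457) (nat_lit 418) (nat_lit 265)) (XT.nd (nat_lit 78) (nat_lit 0) (nat_lit 0) (XT.lf (nat_lit 0) (nat_lit 5165992316) (nat_lit 760) (nat_lit 6306226733) (nat_lit 836) (nat_lit 2057827690) (nat_lit 318) (nat_lit 5) (nat_lit 328) (nat_lit 5) (nat_lit 329) (nat_lit 5) (nat_lit 458) (nat_lit 418) (nat_lit 264)) (XT.lf (nat_lit 0) (nat_lit 12673236448) (nat_lit 760) (nat_lit 869144106) (nat_lit 836) (nat_lit 135520667)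 (nat_lit 318) (nat_lit 5) (nat_lit 328) (nat_lit 5) (nat_lit 329) (nat_lit 5) (nat_lit 459) (nat_lit 418) (nat_lit 263))))) (XT.nd (nat_lit 234) (nat_lit 1444) (nat_lit 0) (XT.nd (nat_lit 78) (nat_lit 684) (nat_lit 0) (XT.lf (nat_lit 0) (nat_lit 1863484711) (nat_lit 836) (nat_lit 7294072355) (nat_lit 76) (nat_lit 4669678345) (nat_lit 307) (nat_lit 5) (nat_lit 318) (nat_lit 5) (nat_lit 308) (nat_lit 5) (nat_lit 460) (nat_lit 418) (nat_lit 262)) (XT.nd (nat_lit 78) (nat_lit 0) (nat_lit 0) (XT.lf (nat_lit 0) (nat_lit 240601244) (nat_lit 684) (nat_lit 3663148151) (nat_lit 760) (nat_lit 10075730471) (nat_lit 298) (nat_lit 5) (nat_lit 307) (nat_lit 5) (nat_lit 308) (nat_lit 5) (nat_lit 461) (nat_lit 418) (nat_lit 261)) (XT.lf (nat_lit 0) (nat_lit 6035815694) (nat_lit 760) (nat_lit 6133814579) (nat_lit 76) (nat_lit 1964122318) (nat_lit 298) (nat_lit 5) (nat_lit 308) (nat_lit 5) (nat_lit 299) (nat_lit 5) (nat_lit 462) (nat_lit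 418) (nat_lit 260)))) (XT.nd (nat_lit 78) (nat_lit 684) (nat_lit 0) (XT.lf (nat_lit 0) (nat_lit 1608482794) (nat_lit 760) (nat_lit 6626078293) (nat_lit 836) (nat_lit 6056072171) (nat_lit 288) (nat_lit 5) (nat_lit 298) (nat_lit 5) (nat_lit 299) (nat_lit 5) (nat_lit 463) (nat_lit 418) (nat_lit 259)) (XT.nd (nat_lit 78) (nat_lit 684) (nat_lit 0) (XT.lf (nat_lit 0) (nat_lit 9577144356) (nat_lit 760) (nat_lit 930766951) (nat_lit 836) (nat_lit 3942130810) (nat_lit 288) (nat_lit 5) (nat_lit 298) (nat_lit 5) (nat_lit 299) (nat_lit 5) (nat_lit 464) (nat_lit 418) (nat_lit 258)) (XT.lf (nat_lit 0) (nat_lit 3089787090) (nat_lit 684) (nat_lit 9778344840) (nat_lit 760) (nat_lit 1743682274) (nat_lit 279) (nat_lit 5) (nat_lit 288) (nat_lit 5) (nat_lit 289) (nat_lit 5) (nat_lit 465) (nat_lit 418) (nat_lit 257)))))) (XT.nd (nat_lit 390) (nat_lit 2508) (nat_lit 0) (XT.nd (nat_lit 156) (nat_lit 608) (nat_lit 0) (XT.nd (nat_lit 78) (nat_lit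 684) (nat_lit 0) (XT.lf (nat_lit 0) (nat_lit 520999986) (nat_lit 760) (nat_lit 3519672469) (nat_lit 76) (nat_lit 10735511393) (nat_lit 278) (nat_lit 5) (nat_lit 288) (nat_lit 5) (nat_lit 279) (nat_lit 5) (nat_lit 466) (nat_lit 418) (nat_lit 256)) (XT.lf (nat_lit 0) (nat_lit 2840001812) (nat_lit 760) (nat_lit 10274099152) (nat_lit 76) (nat_lit 1828864867) (nat_lit 269) (nat_lit 5) (nat_lit 279) (nat_lit 5) (nat_lit 270) (nat_lit 5) (nat_lit 467) (nat_lit 418) (nat_lit 255))) (XT.nd (nat_lit 78) (nat_lit 608) (nat_lit 0) (XT.lf (nat_lit 0) (nat_lit 5245959880) (nat_lit 760) (nat_lit 2082194037) (nat_lit 76) (nat_lit 7784120891) (nat_lit 269) (nat_lit 5) (nat_lit 279) (nat_lit 5) (nat_lit 270) (nat_lit 5) (nat_lit 468) (nat_lit 418) (nat_lit 254)) (XT.nd (nat_lit 78) (nat_lit 0) (nat_lit 0) (XT.lf (nat_lit 0) (nat_lit 6345443536) (nat_lit 608) (nat_lit 1386029181) (nat_lit 684) (nat_lit 7552871358) (nat_lit 261) (nat_lit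 5) (nat_lit 269) (nat_lit 5) (nat_lit 270) (nat_lit 5) (nat_lit 469) (nat_lit 418) (nat_lit 253)) (XT.lf (nat_lit 0) (nat_lit 10301458477) (nat_lit 684) (nat_lit 531600039) (nat_lit 76) (nat_lit 4626103726) (nat_lit 261) (nat_lit 5) (nat_lit 270) (nat_lit 5) (nat_lit 262) (nat_lit 5) (nat_lit 470) (nat_lit 418) (nat_lit 252))))) (XT.nd (nat_lit 234) (nat_lit 1140) (nat_lit 0) (XT.nd (nat_lit 78) (nat_lit 684) (nat_lit 0) (XT.lf (nat_lit 0) (nat_lit 8130081243) (nat_lit 684) (nat_lit 4845261623) (nat_lit 760) (nat_lit 2661086640) (nat_lit 252) (nat_lit 5) (nat_lit 261) (nat_lit 5) (nat_lit 262) (nat_lit 5) (nat_lit 471) (nat_lit 418) (nat_lit 251)) (XT.nd (nat_lit 78) (nat_lit 76) (nat_lit 0) (XT.lf (nat_lit 0) (nat_lit 1150584181) (nat_lit 608) (nat_lit 14562013400) (nat_lit 684) (nat_lit 104449341) (nat_lit 244) (nat_lit 5) (nat_lit 252) (nat_lit 5) (nat_lit 253) (nat_lit 5) (nat_lit 472) (nat_lit 418) (nat_lit 250))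 (XT.lf (nat_lit 0) (nat_lit 2543964628) (nat_lit 684) (nat_lit 5977908047) (nat_lit 76) (nat_lit 7477611996) (nat_lit 243) (nat_lit 5) (nat_lit 252) (nat_lit 5) (nat_lit 244) (nat_lit 5) (nat_lit 473) (nat_lit 418) (nat_lit 249)))) (XT.nd (nat_lit 78) (nat_lit 532) (nat_lit 0) (XT.lf (nat_lit 0) (nat_lit 2910754066) (nat_lit 608) (nat_lit 2342959250) (nat_lit 684) (nat_lit 10931651255) (nat_lit 235) (nat_lit 5) (nat_lit 243) (nat_lit 5) (nat_lit 244) (nat_lit 5) (nat_lit 474) (nat_lit 418) (nat_lit 248)) (XT.nd (nat_lit 78) (nat_lit 532) (nat_lit 0) (XT.lf (nat_lit 0) (nat_lit 8074704555) (nat_lit 684) (nat_lit 4353155216) (nat_lit 76) (nat_lit 3945963803) (nat_lit 235) (nat_lit 5) (nat_lit 244) (nat_lit 5) (nat_lit 236) (nat_lit 5) (nat_lit 475) (nat_lit 418) (nat_lit 247)) (XT.lf (nat_lit 0) (nat_lit 4782918780) (nat_lit 532) (nat_lit 6206903375) (nat_lit 608) (nat_lit 5575477883) (nat_lit 228) (nat_lit 5) (nat_lit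 235) (nat_lit 5) (nat_lit 236) (nat_lit 5) (nat_lit 476) (nat_lit 418) (nat_lit 246))))))))
noncomputable def xc186 : XT := (XT.nd (nat_lit 1716) (nat_lit 1216) (nat_lit 0) (XT.nd (nat_lit 858) (nat_lit 2736) (nat_lit 0) (XT.nd (nat_lit 390) (nat_lit 1596) (nat_lit 0) (XT.nd (nat_lit 156) (nat_lit 1064) (nat_lit 0) (XT.nd (nat_lit 78) (nat_lit 684) (nat_lit 0) (XT.lf (nat_lit 0) (nat_lit 13984771431) (nat_lit 608) (nat_lit 2611505676) (nat_lit 76) (nat_lit 163900698) (nat_lit 228) (nat_lit 5) (nat_lit 236) (nat_lit 5) (nat_lit 229) (nat_lit 5) (nat_lit 477) (nat_lit 418) (nat_lit 245)) (XT.lf (nat_lit 0) (nat_lit 156633644) (nat_lit 684) (nat_lit 10178752272) (nat_lit 76) (nat_lit 6622018506) (nat_lit 219) (nat_lit 5) (nat_lit 228) (nat_lit 5) (nat_lit 220) (nat_lit 5) (nat_lit 478) (nat_lit 418) (nat_lit 244))) (XT.nd (nat_lit 78) (nat_lit 1064) (nat_lit 0) (XT.lf (nat_lit 0) (nat_lit 3119263907) (nat_lit 684) (nat_lit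 795648751) (nat_lit 76) (nat_lit 13243115988) (nat_lit 219) (nat_lit 5) (nat_lit 228) (nat_lit 5) (nat_lit 220) (nat_lit 5) (nat_lit 479) (nat_lit 418) (nat_lit 243)) (XT.nd (nat_lit 78) (nat_lit 532) (nat_lit 0) (XT.lf (nat_lit 0) (nat_lit 6207880119) (nat_lit 608) (nat_lit 8498285166) (nat_lit 76) (nat_lit 2655167585) (nat_lit 212) (nat_lit 5) (nat_lit 220) (nat_lit 5) (nat_lit 213) (nat_lit 5) (nat_lit 480) (nat_lit 418) (nat_lit 242)) (XT.lf (nat_lit 0) (nat_lit 1135225691) (nat_lit 532) (nat_lit 8253399565) (nat_lit 608) (nat_lit 8179472927) (nat_lit 205) (nat_lit 5) (nat_lit 212) (nat_lit 5) (nat_lit 213) (nat_lit 5) (nat_lit 481) (nat_lit 418) (nat_lit 241))))) (XT.nd (nat_lit 234) (nat_lit 988) (nat_lit 0) (XT.nd (nat_lit 78) (nat_lit 608) (nat_lit 0) (XT.lf (nat_lit 0) (nat_lit 11065866374) (nat_lit 532) (nat_lit 1615925032) (nat_lit 608) (nat_lit 5096233374) (nat_lit 205) (nat_lit 5) (nat_lit 212) (nat_lit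 5) (nat_lit 213) (nat_lit 5) (nat_lit 482) (nat_lit 418) (nat_lit 240)) (XT.nd (nat_lit 78) (nat_lit 76) (nat_lit 0) (XT.lf (nat_lit 0) (nat_lit 3200810422) (nat_lit 532) (nat_lit 12886180714) (nat_lit 608) (nat_lit 1904237422) (nat_lit 198) (nat_lit 5) (nat_lit 205) (nat_lit 5) (nat_lit 206) (nat_lit 5) (nat_lit 483) (nat_lit 418) (nat_lit 239)) (XT.lf (nat_lit 0) (nat_lit 1381871872) (nat_lit 608) (nat_lit 4835259372) (nat_lit 76) (nat_lit 11990431638) (nat_lit 197) (nat_lit 5) (nat_lit 205) (nat_lit 5) (nat_lit 198) (nat_lit 5) (nat_lit 484) (nat_lit 418) (nat_lit 238)))) (XT.nd (nat_lit 78) (nat_lit 456) (nat_lit 0) (XT.lf (nat_lit 0) (nat_lit 4739283903) (nat_lit 608) (nat_lit 13065262771) (nat_lit 76) (nat_lit 622805849) (nat_lit 190) (nat_lit 5) (nat_lit 198) (nat_lit 5) (nat_lit 191) (nat_lit 5) (nat_lit 485) (nat_lit 418) (nat_lit 237)) (XT.nd (nat_lit 78) (nat_lit 456) (nat_lit 0) (XT.lf (nat_lit 0) (nat_lit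 8229864659) (nat_lit 608) (nat_lit 2873921724) (nat_lit 76) (nat_lit 7546433063) (nat_lit 190) (nat_lit 5) (nat_lit 198) (nat_lit 5) (nat_lit 191) (nat_lit 5) (nat_lit 486) (nat_lit 418) (nat_lit 236)) (XT.lf (nat_lit 0) (nat_lit 7610695266) (nat_lit 456) (nat_lit 4221314087) (nat_lit 532) (nat_lit 7044701171) (nat_lit 184) (nat_lit 5) (nat_lit 190) (nat_lit 5) (nat_lit 191) (nat_lit 5) (nat_lit 487) (nat_lit 418) (nat_lit 235)))))) (XT.nd (nat_lit 390) (nat_lit 1292) (nat_lit 0) (XT.nd (nat_lit 156) (nat_lit 912) (nat_lit 0) (XT.nd (nat_lit 78) (nat_lit 532) (nat_lit 0) (XT.lf (nat_lit 0) (nat_lit 15536186240) (nat_lit 532) (nat_lit 792117823) (nat_lit 76) (nat_lit 2778829399) (nat_lit 184) (nat_lit 5) (nat_lit 191) (nat_lit 5) (nat_lit 185) (nat_lit 5) (nat_lit 488) (nat_lit 418) (nat_lit 234)) (XT.lf (nat_lit 0) (nat_lit 58540517) (nat_lit 532) (nat_lit 9356830615) (nat_lit 76) (nat_lit 9925081180) (nat_lit 177) (nat_lit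 5) (nat_lit 184) (nat_lit 5) (nat_lit 178) (nat_lit 5) (nat_lit 489) (nat_lit 418) (nat_lit 233))) (XT.nd (nat_lit 78) (nat_lit 456) (nat_lit 0) (XT.lf (nat_lit 0) (nat_lit 1391586757) (nat_lit 456) (nat_lit 2328229590) (nat_lit 532) (nat_lit 15858010564) (nat_lit 171) (nat_lit 5) (nat_lit 177) (nat_lit 5) (nat_lit 178) (nat_lit 5) (nat_lit 490) (nat_lit 418) (nat_lit 232)) (XT.nd (nat_lit 78) (nat_lit 456) (nat_lit 0) (XT.lf (nat_lit 0) (nat_lit 7541984562) (nat_lit 532) (nat_lit 7379445386) (nat_lit 76) (nat_lit 4896767405) (nat_lit 171) (nat_lit 5) (nat_lit 178) (nat_lit 5) (nat_lit 172) (nat_lit 5) (nat_lit 491) (nat_lit 418) (nat_lit 231)) (XT.lf (nat_lit 0) (nat_lit 3666024738) (nat_lit 456) (nat_lit 7806580133) (nat_lit 532) (nat_lit 8590131811) (nat_lit 165) (nat_lit 5) (nat_lit 171) (nat_lit 5) (nat_lit 172) (nat_lit 5) (nat_lit 492) (nat_lit 418) (nat_lit 230))))) (XT.nd (nat_lit 234) (nat_lit 836) (nat_lit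 0) (XT.nd (nat_lit 78) (nat_lit 456) (nat_lit 0) (XT.lf (nat_lit 0) (nat_lit 15022378811) (nat_lit 456) (nat_lit 501842596) (nat_lit 532) (nat_lit 4787099336) (nat_lit 165) (nat_lit 5) (nat_lit 171) (nat_lit 5) (nat_lit 172) (nat_lit 5) (nat_lit 493) (nat_lit 418) (nat_lit 229)) (XT.nd (nat_lit 78) (nat_lit 76) (nat_lit 0) (XT.lf (nat_lit 0) (nat_lit 6065433747) (nat_lit 380) (nat_lit 13668919992) (nat_lit 456) (nat_lit 828974665) (nat_lit 160) (nat_lit 5) (nat_lit 165) (nat_lit 5) (nat_lit 166) (nat_lit 5) (nat_lit 494) (nat_lit 418) (nat_lit 228)) (XT.lf (nat_lit 0) (nat_lit 3198295844) (nat_lit 456) (nat_lit 3135475724) (nat_lit 76) (nat_lit 14485548351) (nat_lit 159) (nat_lit 5) (nat_lit 165) (nat_lit 5) (nat_lit 160) (nat_lit 5) (nat_lit 495) (nat_lit 418) (nat_lit 227)))) (XT.nd (nat_lit 78) (nat_lit 380) (nat_lit 0) (XT.lf (nat_lit 0) (nat_lit 7351527960) (nat_lit 532) (nat_lit 12536152455) (nat_lit 76) (nat_lit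 1191512432) (nat_lit 153) (nat_lit 5) (nat_lit 160) (nat_lit 5) (nat_lit 154) (nat_lit 5) (nat_lit 496) (nat_lit 418) (nat_lit 226)) (XT.nd (nat_lit 78) (nat_lit 380) (nat_lit 0) (XT.lf (nat_lit 0) (nat_lit 11644149937) (nat_lit 532) (nat_lit 898165489) (nat_lit 76) (nat_lit 8800822771) (nat_lit 153) (nat_lit 5) (nat_lit 160) (nat_lit 5) (nat_lit 154) (nat_lit 5) (nat_lit 497) (nat_lit 418) (nat_lit 225)) (XT.lf (nat_lit 0) (nat_lit 11108598712) (nat_lit 380) (nat_lit 4979483049) (nat_lit 456) (nat_lit 5522972985) (nat_lit 148) (nat_lit 5) (nat_lit 153) (nat_lit 5) (nat_lit 154) (nat_lit 5) (nat_lit 498) (nat_lit 418) (nat_lit 224))))))) (XT.nd (nat_lit 53508) (nat_lit 0) (nat_lit 24928) (XT.nd (nat_lit 390) (nat_lit 0) (nat_lit 0) (XT.nd (nat_lit 156) (nat_lit 760) (nat_lit 0) (XT.nd (nat_lit 78) (nat_lit 76) (nat_lit 0) (XT.lf (nat_lit 0) (nat_lit 1475293976) (nat_lit 380) (nat_lit 19172380582) (nat_lit 456) (nat_lit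 1236120833) (nat_lit 143) (nat_lit 5) (nat_lit 148) (nat_lit 5) (nat_lit 149) (nat_lit 5) (nat_lit 499) (nat_lit 418) (nat_lit 223)) (XT.lf (nat_lit 0) (nat_lit 3192657560) (nat_lit 456) (nat_lit 8389175244) (nat_lit 76) (nat_lit 10577805629) (nat_lit 142) (nat_lit 5) (nat_lit 148) (nat_lit 5) (nat_lit 143) (nat_lit 5) (nat_lit 500) (nat_lit 418) (nat_lit 222))) (XT.nd (nat_lit 78) (nat_lit 380) (nat_lit 0) (XT.lf (nat_lit 0) (nat_lit 3903994970) (nat_lit 380) (nat_lit 3808361114) (nat_lit 456) (nat_lit 14728102243) (nat_lit 137) (nat_lit 5) (nat_lit 142) (nat_lit 5) (nat_lit 143) (nat_lit 5) (nat_lit 501) (nat_lit 418) (nat_lit 221)) (XT.nd (nat_lit 78) (nat_lit 380) (nat_lit 0) (XT.lf (nat_lit 0) (nat_lit 12399449208) (nat_lit 456) (nat_lit 6205753205) (nat_lit 76) (nat_lit 4120153497) (nat_lit 137) (nat_lit 5) (nat_lit 143) (nat_lit 5) (nat_lit 138) (nat_lit 5) (nat_lit 502) (nat_lit 418) (nat_lit 220)) (XT.lf (nat_lit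 0) (nat_lit 6421148844) (nat_lit 380) (nat_lit 10819751040) (nat_lit 456) (nat_lit 5773840525) (nat_lit 132) (nat_lit 5) (nat_lit 137) (nat_lit 5) (nat_lit 138) (nat_lit 5) (nat_lit 503) (nat_lit 418) (nat_lit 219))))) (XT.nd (nat_lit 52884) (nat_lit 0) (nat_lit 26448) (XT.nd (nat_lit 52728) (nat_lit 0) (nat_lit 26372) (XT.lf (nat_lit 0) (nat_lit 19375355606) (nat_lit 380) (nat_lit 2839234949) (nat_lit 456) (nat_lit 1094615076) (nat_lit 132) (nat_lit 5) (nat_lit 137) (nat_lit 5) (nat_lit 138) (nat_lit 5) (nat_lit 504) (nat_lit 418) (nat_lit 218)) (XT.nd (nat_lit 78) (nat_lit 0) (nat_lit 0) (XT.lf (nat_lit 0) (nat_lit 2492971202) (nat_lit 1596) (nat_lit 1098139521) (nat_lit 1596) (nat_lit 1098139521) (nat_lit 479) (nat_lit 3) (nat_lit 500) (nat_lit 3) (nat_lit 500) (nat_lit 5) (nat_lit 419) (nat_lit 419) (nat_lit 302)) (XT.lf (nat_lit 76) (nat_lit 2331455505) (nat_lit 0) (nat_lit 3521671429) (nat_lit 1596) (nat_lit 3602504709)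 (nat_lit 480) (nat_lit 5) (nat_lit 479) (nat_lit 3) (nat_lit 500) (nat_lit 5) (nat_lit 420) (nat_lit 419) (nat_lit 301)))) (XT.nd (nat_lit 78) (nat_lit 0) (nat_lit 0) (XT.lf (nat_lit 0) (nat_lit 6732822121) (nat_lit 1520) (nat_lit 2567344106) (nat_lit 1596) (nat_lit 234243914) (nat_lit 480) (nat_lit 5) (nat_lit 500) (nat_lit 5) (nat_lit 501) (nat_lit 5) (nat_lit 421) (nat_lit 419) (nat_lit 300)) (XT.nd (nat_lit 78) (nat_lit 0) (nat_lit 0) (XT.lf (nat_lit 76) (nat_lit 2073342829) (nat_lit 0) (nat_lit 5572919038) (nat_lit 1596) (nat_lit 1968187233) (nat_lit 481) (nat_lit 5) (nat_lit 480) (nat_lit 5) (nat_lit 501) (nat_lit 5) (nat_lit 422) (nat_lit 419) (nat_lit 299)) (XT.lf (nat_lit 76) (nat_lit 6830566223) (nat_lit 0) (nat_lit 1744331873) (nat_lit 1596) (nat_lit 1121259938) (nat_lit 481) (nat_lit 5) (nat_lit 480) (nat_lit 5) (nat_lit 501) (nat_lit 5) (nat_lit 423) (nat_lit 419) (nat_lit 298)))))) (XT.nd (nat_lit 390)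 (nat_lit 0) (nat_lit 152) (XT.nd (nat_lit 156) (nat_lit 0) (nat_lit 76) (XT.nd (nat_lit 78) (nat_lit 1596) (nat_lit 0) (XT.lf (nat_lit 76) (nat_lit 1903036648) (nat_lit 0) (nat_lit 7625611907) (nat_lit 1596) (nat_lit 250729356) (nat_lit 482) (nat_lit 5) (nat_lit 481) (nat_lit 5) (nat_lit 502) (nat_lit 5) (nat_lit 424) (nat_lit 419) (nat_lit 297)) (XT.lf (nat_lit 0) (nat_lit 640099115) (nat_lit 1596) (nat_lit 3085332040) (nat_lit 1672) (nat_lit 6138530701) (nat_lit 460) (nat_lit 5) (nat_lit 481) (nat_lit 5) (nat_lit 482) (nat_lit 5) (nat_lit 425) (nat_lit 419) (nat_lit 296))) (XT.nd (nat_lit 78) (nat_lit 0) (nat_lit 0) (XT.lf (nat_lit 0) (nat_lit 1539659727) (nat_lit 1596) (nat_lit 8139831460) (nat_lit 1672) (nat_lit 270834850) (nat_lit 461) (nat_lit 5) (nat_lit 482) (nat_lit 5) (nat_lit 483) (nat_lit 5) (nat_lit 426) (nat_lit 419) (nat_lit 295)) (XT.nd (nat_lit 78) (nat_lit 0) (nat_lit 0) (XT.lf (nat_lit 0) (nat_lit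 2483801273) (nat_lit 1596) (nat_lit 3228408265) (nat_lit 1672) (nat_lit 4325683186) (nat_lit 461) (nat_lit 5) (nat_lit 482) (nat_lit 5) (nat_lit 483) (nat_lit 5) (nat_lit 427) (nat_lit 419) (nat_lit 294)) (XT.lf (nat_lit 76) (nat_lit 1793335645) (nat_lit 0) (nat_lit 1646581252) (nat_lit 1672) (nat_lit 6687438903) (nat_lit 462) (nat_lit 5) (nat_lit 461) (nat_lit 5) (nat_lit 483) (nat_lit 5) (nat_lit 428) (nat_lit 419) (nat_lit 293))))) (XT.nd (nat_lit 234) (nat_lit 0) (nat_lit 76) (XT.nd (nat_lit 78) (nat_lit 0) (nat_lit 0) (XT.lf (nat_lit 0) (nat_lit 4434979266) (nat_lit 1596) (nat_lit 3287045298) (nat_lit 1672) (nat_lit 2496193832) (nat_lit 462) (nat_lit 5) (nat_lit 483) (nat_lit 5) (nat_lit 484) (nat_lit 5) (nat_lit 429) (nat_lit 419) (nat_lit 292)) (XT.nd (nat_lit 78) (nat_lit 0) (nat_lit 76) (XT.lf (nat_lit 76) (nat_lit 1862857692) (nat_lit 0) (nat_lit 3592224460) (nat_lit 1672) (nat_lit 4855719920) (nat_lit 463)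 (nat_lit 5) (nat_lit 462) (nat_lit 5) (nat_lit 484) (nat_lit 5) (nat_lit 430) (nat_lit 419) (nat_lit 291)) (XT.lf (nat_lit 0) (nat_lit 6504272916) (nat_lit 1596) (nat_lit 3260513976) (nat_lit 1672) (nat_lit 640283296) (nat_lit 463) (nat_lit 5) (nat_lit 484) (nat_lit 5) (nat_lit 485) (nat_lit 5) (nat_lit 431) (nat_lit 419) (nat_lit 290)))) (XT.nd (nat_lit 78) (nat_lit 0) (nat_lit 0) (XT.lf (nat_lit 76) (nat_lit 2021763246) (nat_lit 0) (nat_lit 5572399828) (nat_lit 1672) (nat_lit 2906672639) (nat_lit 464) (nat_lit 5) (nat_lit 463) (nat_lit 5) (nat_lit 485) (nat_lit 5) (nat_lit 432) (nat_lit 419) (nat_lit 289)) (XT.nd (nat_lit 78) (nat_lit 0) (nat_lit 76) (XT.lf (nat_lit 76) (nat_lit 7442331626) (nat_lit 0) (nat_lit 1268460826) (nat_lit 1672) (nat_lit 1887631500) (nat_lit 464) (nat_lit 5) (nat_lit 463) (nat_lit 5) (nat_lit 485) (nat_lit 5) (nat_lit 433) (nat_lit 419) (nat_lit 288)) (XT.lf (nat_lit 76) (nat_lit 2271169459)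 (nat_lit 0) (nat_lit 7597026180) (nat_lit 1672) (nat_lit 829405601) (nat_lit 465) (nat_lit 5) (nat_lit 464) (nat_lit 5) (nat_lit 486) (nat_lit 5) (nat_lit 434) (nat_lit 419) (nat_lit 287))))))))
noncomputable def xc187 : XT := (XT.nd (nat_lit 1716) (nat_lit 8436) (nat_lit 0) (XT.nd (nat_lit 858) (nat_lit 6384) (nat_lit 0) (XT.nd (nat_lit 390) (nat_lit 1444) (nat_lit 0) (XT.nd (nat_lit 156) (nat_lit 0) (nat_lit 76) (XT.nd (nat_lit 78) (nat_lit 0) (nat_lit 76) (XT.lf (nat_lit 0) (nat_lit 259989471) (nat_lit 1672) (nat_lit 2970588962) (nat_lit 1748) (nat_lit 7567891388) (nat_lit 442) (nat_lit 5) (nat_lit 464) (nat_lit 5) (nat_lit 465) (nat_lit 5) (nat_lit 435) (nat_lit 419) (nat_lit 286)) (XT.lf (nat_lit 0) (nat_lit 1369038317) (nat_lit 1672) (nat_lit 8297838723) (nat_lit 1748) (nat_lit 1234195411) (nat_lit 443) (nat_lit 5) (nat_lit 465) (nat_lit 5) (nat_lit 466) (nat_lit 5) (nat_lit 436) (nat_lit 419) (nat_lit 285))) (XT.nd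 (nat_lit 78) (nat_lit 0) (nat_lit 0) (XT.lf (nat_lit 0) (nat_lit 2525883985) (nat_lit 1672) (nat_lit 2709942529) (nat_lit 1748) (nat_lit 5769393948) (nat_lit 443) (nat_lit 5) (nat_lit 465) (nat_lit 5) (nat_lit 466) (nat_lit 5) (nat_lit 437) (nat_lit 419) (nat_lit 284)) (XT.nd (nat_lit 78) (nat_lit 0) (nat_lit 76) (XT.lf (nat_lit 76) (nat_lit 3017633992) (nat_lit 0) (nat_lit 692290793) (nat_lit 1748) (nat_lit 7401451017) (nat_lit 444) (nat_lit 5) (nat_lit 443) (nat_lit 5) (nat_lit 466) (nat_lit 5) (nat_lit 438) (nat_lit 419) (nat_lit 283)) (XT.lf (nat_lit 0) (nat_lit 4946266165) (nat_lit 1672) (nat_lit 2360423234) (nat_lit 1748) (nat_lit 3912397880) (nat_lit 444) (nat_lit 5) (nat_lit 466) (nat_lit 5) (nat_lit 467) (nat_lit 5) (nat_lit 439) (nat_lit 419) (nat_lit 282))))) (XT.nd (nat_lit 234) (nat_lit 1596) (nat_lit 0) (XT.nd (nat_lit 78) (nat_lit 0) (nat_lit 76) (XT.lf (nat_lit 76) (nat_lit 3517428860) (nat_lit 0) (nat_lit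 2702346682) (nat_lit 1748) (nat_lit 5108933940) (nat_lit 445) (nat_lit 5) (nat_lit 444) (nat_lit 5) (nat_lit 467) (nat_lit 5) (nat_lit 440) (nat_lit 419) (nat_lit 281)) (XT.nd (nat_lit 78) (nat_lit 0) (nat_lit 0) (XT.lf (nat_lit 0) (nat_lit 7532904504) (nat_lit 1672) (nat_lit 1920348985) (nat_lit 1748) (nat_lit 1986992867) (nat_lit 445) (nat_lit 5) (nat_lit 467) (nat_lit 5) (nat_lit 468) (nat_lit 5) (nat_lit 441) (nat_lit 419) (nat_lit 280)) (XT.lf (nat_lit 76) (nat_lit 4112754267) (nat_lit 0) (nat_lit 4789687808) (nat_lit 1748) (nat_lit 2650974084) (nat_lit 446) (nat_lit 5) (nat_lit 445) (nat_lit 5) (nat_lit 468) (nat_lit 5) (nat_lit 442) (nat_lit 419) (nat_lit 279)))) (XT.nd (nat_lit 78) (nat_lit 1672) (nat_lit 0) (XT.lf (nat_lit 76) (nat_lit 10280937137) (nat_lit 0) (nat_lit 17074773) (nat_lit 1748) (nat_lit 1370869630) (nat_lit 446) (nat_lit 5) (nat_lit 445) (nat_lit 5) (nat_lit 468) (nat_lit 5) (nat_lit 443) (nat_lit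 419) (nat_lit 278)) (XT.nd (nat_lit 78) (nat_lit 76) (nat_lit 0) (XT.lf (nat_lit 0) (nat_lit 4805672288) (nat_lit 1672) (nat_lit 6964569338) (nat_lit 1748) (nat_lit 15444547) (nat_lit 424) (nat_lit 5) (nat_lit 446) (nat_lit 5) (nat_lit 447) (nat_lit 5) (nat_lit 444) (nat_lit 419) (nat_lit 277)) (XT.lf (nat_lit 0) (nat_lit 1344801353) (nat_lit 1748) (nat_lit 783514569) (nat_lit 76) (nat_lit 9776425339) (nat_lit 423) (nat_lit 5) (nat_lit 446) (nat_lit 5) (nat_lit 424) (nat_lit 5) (nat_lit 445) (nat_lit 419) (nat_lit 276)))))) (XT.nd (nat_lit 390) (nat_lit 2584) (nat_lit 0) (XT.nd (nat_lit 156) (nat_lit 2052) (nat_lit 0) (XT.nd (nat_lit 78) (nat_lit 0) (nat_lit 0) (XT.lf (nat_lit 0) (nat_lit 2773284878) (nat_lit 1824) (nat_lit 6445515722) (nat_lit 76) (nat_lit 2806554651) (nat_lit 400) (nat_lit 5) (nat_lit 424) (nat_lit 5) (nat_lit 401) (nat_lit 5) (nat_lit 446) (nat_lit 419) (nat_lit 275)) (XT.lf (nat_lit 0) (nat_lit 4236354196)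 (nat_lit 1824) (nat_lit 93100001) (nat_lit 76) (nat_lit 7818811540) (nat_lit 400) (nat_lit 5) (nat_lit 424) (nat_lit 5) (nat_lit 401) (nat_lit 5) (nat_lit 447) (nat_lit 419) (nat_lit 274))) (XT.nd (nat_lit 78) (nat_lit 912) (nat_lit 0) (XT.lf (nat_lit 0) (nat_lit 5762073380) (nat_lit 1216) (nat_lit 5818082813) (nat_lit 76) (nat_lit 692814922) (nat_lit 385) (nat_lit 5) (nat_lit 401) (nat_lit 5) (nat_lit 386) (nat_lit 5) (nat_lit 448) (nat_lit 419) (nat_lit 273)) (XT.nd (nat_lit 78) (nat_lit 0) (nat_lit 0) (XT.lf (nat_lit 0) (nat_lit 703753107) (nat_lit 912) (nat_lit 6635506770) (nat_lit 988) (nat_lit 5060496027) (nat_lit 373) (nat_lit 5) (nat_lit 385) (nat_lit 5) (nat_lit 386) (nat_lit 5) (nat_lit 449) (nat_lit 419) (nat_lit 272)) (XT.lf (nat_lit 0) (nat_lit 7423227651) (nat_lit 912) (nat_lit 1551065328) (nat_lit 988) (nat_lit 3554261632) (nat_lit 373) (nat_lit 5) (nat_lit 385) (nat_lit 5) (nat_lit 386) (nat_lit 5) (nat_lit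 450) (nat_lit 419) (nat_lit 271))))) (XT.nd (nat_lit 234) (nat_lit 836) (nat_lit 0) (XT.nd (nat_lit 78) (nat_lit 912) (nat_lit 0) (XT.lf (nat_lit 0) (nat_lit 1602887422) (nat_lit 836) (nat_lit 9060664700) (nat_lit 912) (nat_lit 1995950855) (nat_lit 362) (nat_lit 5) (nat_lit 373) (nat_lit 5) (nat_lit 374) (nat_lit 5) (nat_lit 451) (nat_lit 419) (nat_lit 270)) (XT.nd (nat_lit 78) (nat_lit 912) (nat_lit 0) (XT.lf (nat_lit 0) (nat_lit 8492442750) (nat_lit 836) (nat_lit 3926303949) (nat_lit 912) (nat_lit 373684718) (nat_lit 362) (nat_lit 5) (nat_lit 373) (nat_lit 5) (nat_lit 374) (nat_lit 5) (nat_lit 452) (nat_lit 419) (nat_lit 269)) (XT.lf (nat_lit 0) (nat_lit 1277671426) (nat_lit 912) (nat_lit 10330365966) (nat_lit 76) (nat_lit 1319549731) (nat_lit 350) (nat_lit 5) (nat_lit 362) (nat_lit 5) (nat_lit 351) (nat_lit 5) (nat_lit 453) (nat_lit 419) (nat_lit 268)))) (XT.nd (nat_lit 78) (nat_lit 836) (nat_lit 0) (XT.lf (nat_lit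 0) (nat_lit 3000115123) (nat_lit 912) (nat_lit 3414601637) (nat_lit 76) (nat_lit 6649822374) (nat_lit 350) (nat_lit 5) (nat_lit 362) (nat_lit 5) (nat_lit 351) (nat_lit 5) (nat_lit 454) (nat_lit 419) (nat_lit 267)) (XT.nd (nat_lit 78) (nat_lit 0) (nat_lit 0) (XT.lf (nat_lit 0) (nat_lit 3676194263) (nat_lit 836) (nat_lit 1092927893) (nat_lit 912) (nat_lit 8434869537) (nat_lit 339) (nat_lit 5) (nat_lit 350) (nat_lit 5) (nat_lit 351) (nat_lit 5) (nat_lit 455) (nat_lit 419) (nat_lit 266)) (XT.lf (nat_lit 0) (nat_lit 6613126094) (nat_lit 912) (nat_lit 2430641329) (nat_lit 76) (nat_lit 4301677271) (nat_lit 339) (nat_lit 5) (nat_lit 351) (nat_lit 5) (nat_lit 340) (nat_lit 5) (nat_lit 456) (nat_lit 419) (nat_lit 265))))))) (XT.nd (nat_lit 858) (nat_lit 3800) (nat_lit 0) (XT.nd (nat_lit 390) (nat_lit 2204) (nat_lit 0) (XT.nd (nat_lit 156) (nat_lit 1596) (nat_lit 0) (XT.nd (nat_lit 78) (nat_lit 0) (nat_lit 0) (XT.lf (nat_lit 0)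 (nat_lit 4853443516) (nat_lit 836) (nat_lit 3667947301) (nat_lit 912) (nat_lit 4967791975) (nat_lit 328) (nat_lit 5) (nat_lit 339) (nat_lit 5) (nat_lit 340) (nat_lit 5) (nat_lit 457) (nat_lit 419) (nat_lit 264)) (XT.lf (nat_lit 0) (nat_lit 10484805767) (nat_lit 912) (nat_lit 1342788253) (nat_lit 76) (nat_lit 1807865513) (nat_lit 328) (nat_lit 5) (nat_lit 340) (nat_lit 5) (nat_lit 329) (nat_lit 5) (nat_lit 458) (nat_lit 419) (nat_lit 263))) (XT.nd (nat_lit 78) (nat_lit 836) (nat_lit 0) (XT.lf (nat_lit 0) (nat_lit 6140914924) (nat_lit 760) (nat_lit 6399735357) (nat_lit 836) (nat_lit 1242951811) (nat_lit 318) (nat_lit 5) (nat_lit 328) (nat_lit 5) (nat_lit 329) (nat_lit 5) (nat_lit 459) (nat_lit 419) (nat_lit 262)) (XT.nd (nat_lit 78) (nat_lit 760) (nat_lit 0) (XT.lf (nat_lit 0) (nat_lit 691822446) (nat_lit 836) (nat_lit 158085666) (nat_lit 76) (nat_lit 13084748749) (nat_lit 317) (nat_lit 5) (nat_lit 328) (nat_lit 5) (nat_lit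 318) (nat_lit 5) (nat_lit 460) (nat_lit 419) (nat_lit 261)) (XT.lf (nat_lit 0) (nat_lit 2718615100) (nat_lit 836) (nat_lit 6563548469) (nat_lit 76) (nat_lit 4805008826) (nat_lit 307) (nat_lit 5) (nat_lit 318) (nat_lit 5) (nat_lit 308) (nat_lit 5) (nat_lit 461) (nat_lit 419) (nat_lit 260))))) (XT.nd (nat_lit 234) (nat_lit 760) (nat_lit 0) (XT.nd (nat_lit 78) (nat_lit 760) (nat_lit 0) (XT.lf (nat_lit 0) (nat_lit 1116052778) (nat_lit 684) (nat_lit 3673248584) (nat_lit 760) (nat_lit 9453372963) (nat_lit 298) (nat_lit 5) (nat_lit 307) (nat_lit 5) (nat_lit 308) (nat_lit 5) (nat_lit 462) (nat_lit 419) (nat_lit 259)) (XT.nd (nat_lit 78) (nat_lit 760) (nat_lit 0) (XT.lf (nat_lit 0) (nat_lit 6948578157) (nat_lit 760) (nat_lit 5387251111) (nat_lit 76) (nat_lit 2064516669) (nat_lit 298) (nat_lit 5) (nat_lit 308) (nat_lit 5) (nat_lit 299) (nat_lit 5) (nat_lit 463) (nat_lit 419) (nat_lit 258)) (XT.lf (nat_lit 0) (nat_lit 2504173527)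 (nat_lit 760) (nat_lit 6677201166) (nat_lit 836) (nat_lit 5379192720) (nat_lit 288) (nat_lit 5) (nat_lit 298) (nat_lit 5) (nat_lit 299) (nat_lit 5) (nat_lit 464) (nat_lit 419) (nat_lit 257)))) (XT.nd (nat_lit 78) (nat_lit 760) (nat_lit 0) (XT.lf (nat_lit 0) (nat_lit 10615276534) (nat_lit 760) (nat_lit 869579650) (nat_lit 836) (nat_lit 3238619609) (nat_lit 288) (nat_lit 5) (nat_lit 298) (nat_lit 5) (nat_lit 299) (nat_lit 5) (nat_lit 465) (nat_lit 419) (nat_lit 256)) (XT.nd (nat_lit 78) (nat_lit 76) (nat_lit 0) (XT.lf (nat_lit 0) (nat_lit 4007552485) (nat_lit 684) (nat_lit 9875759197) (nat_lit 760) (nat_lit 1005355567) (nat_lit 279) (nat_lit 5) (nat_lit 288) (nat_lit 5) (nat_lit 289) (nat_lit 5) (nat_lit 466) (nat_lit 419) (nat_lit 255)) (XT.lf (nat_lit 0) (nat_lit 1279517721) (nat_lit 760) (nat_lit 2740720074) (nat_lit 76) (nat_lit 11036289690) (nat_lit 278) (nat_lit 5) (nat_lit 288) (nat_lit 5) (nat_lit 279) (nat_lit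 5) (nat_lit 467) (nat_lit 419) (nat_lit 254)))))) (XT.nd (nat_lit 390) (nat_lit 1824) (nat_lit 0) (XT.nd (nat_lit 156) (nat_lit 1292) (nat_lit 0) (XT.nd (nat_lit 78) (nat_lit 0) (nat_lit 0) (XT.lf (nat_lit 0) (nat_lit 3636389997) (nat_lit 760) (nat_lit 9621511895) (nat_lit 76) (nat_lit 1968917683) (nat_lit 269) (nat_lit 5) (nat_lit 279) (nat_lit 5) (nat_lit 270) (nat_lit 5) (nat_lit 468) (nat_lit 419) (nat_lit 253)) (XT.lf (nat_lit 0) (nat_lit 6075965499) (nat_lit 760) (nat_lit 1282593565) (nat_lit 76) (nat_lit 8041249895) (nat_lit 269) (nat_lit 5) (nat_lit 279) (nat_lit 5) (nat_lit 270) (nat_lit 5) (nat_lit 469) (nat_lit 419) (nat_lit 252))) (XT.nd (nat_lit 78) (nat_lit 684) (nat_lit 0) (XT.lf (nat_lit 0) (nat_lit 7308062257) (nat_lit 608) (nat_lit 1294334937) (nat_lit 684) (nat_lit 6973102356) (nat_lit 261) (nat_lit 5) (nat_lit 269) (nat_lit 5) (nat_lit 270) (nat_lit 5) (nat_lit 470) (nat_lit 419) (nat_lit 251)) (XT.nd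 (nat_lit 78) (nat_lit 0) (nat_lit 0) (XT.lf (nat_lit 0) (nat_lit 294439326) (nat_lit 684) (nat_lit 10917970155) (nat_lit 760) (nat_lit 4541636091) (nat_lit 252) (nat_lit 5) (nat_lit 261) (nat_lit 5) (nat_lit 262) (nat_lit 5) (nat_lit 471) (nat_lit 419) (nat_lit 250)) (XT.lf (nat_lit 0) (nat_lit 9120013598) (nat_lit 684) (nat_lit 4809433332) (nat_lit 760) (nat_lit 2005621694) (nat_lit 252) (nat_lit 5) (nat_lit 261) (nat_lit 5) (nat_lit 262) (nat_lit 5) (nat_lit 472) (nat_lit 419) (nat_lit 249))))) (XT.nd (nat_lit 234) (nat_lit 532) (nat_lit 0) (XT.nd (nat_lit 78) (nat_lit 608) (nat_lit 0) (XT.lf (nat_lit 0) (nat_lit 586845449) (nat_lit 684) (nat_lit 14114685869) (nat_lit 76) (nat_lit 1417840791) (nat_lit 243) (nat_lit 5) (nat_lit 252) (nat_lit 5) (nat_lit 244) (nat_lit 5) (nat_lit 473) (nat_lit 419) (nat_lit 248)) (XT.nd (nat_lit 78) (nat_lit 608) (nat_lit 0) (XT.lf (nat_lit 0) (nat_lit 3273262065) (nat_lit 684) (nat_lit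 5269608943) (nat_lit 76) (nat_lit 7762848859) (nat_lit 243) (nat_lit 5) (nat_lit 252) (nat_lit 5) (nat_lit 244) (nat_lit 5) (nat_lit 474) (nat_lit 419) (nat_lit 247)) (XT.lf (nat_lit 0) (nat_lit 3791379983) (nat_lit 608) (nat_lit 2237863064) (nat_lit 684) (nat_lit 10466237222) (nat_lit 235) (nat_lit 5) (nat_lit 243) (nat_lit 5) (nat_lit 244) (nat_lit 5) (nat_lit 475) (nat_lit 419) (nat_lit 246)))) (XT.nd (nat_lit 78) (nat_lit 532) (nat_lit 0) (XT.lf (nat_lit 0) (nat_lit 8894475176) (nat_lit 684) (nat_lit 3621575346) (nat_lit 76) (nat_lit 4171905088) (nat_lit 235) (nat_lit 5) (nat_lit 244) (nat_lit 5) (nat_lit 236) (nat_lit 5) (nat_lit 476) (nat_lit 419) (nat_lit 245)) (XT.nd (nat_lit 78) (nat_lit 0) (nat_lit 0) (XT.lf (nat_lit 0) (nat_lit 5691834321) (nat_lit 532) (nat_lit 6168433629) (nat_lit 608) (nat_lit 5023149705) (nat_lit 228) (nat_lit 5) (nat_lit 235) (nat_lit 5) (nat_lit 236) (nat_lit 5) (nat_lit 477) (nat_lit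 419) (nat_lit 244)) (XT.lf (nat_lit 0) (nat_lit 14903393438) (nat_lit 608) (nat_lit 1854530111) (nat_lit 76) (nat_lit 324507323) (nat_lit 228) (nat_lit 5) (nat_lit 236) (nat_lit 5) (nat_lit 229) (nat_lit 5) (nat_lit 478) (nat_lit 419) (nat_lit 243))))))))
noncomputable def xc188 : XT := (XT.nd (nat_lit 1716) (nat_lit 456) (nat_lit 0) (XT.nd (nat_lit 858) (nat_lit 3116) (nat_lit 0) (XT.nd (nat_lit 390) (nat_lit 1596) (nat_lit 0) (XT.nd (nat_lit 156) (nat_lit 1064) (nat_lit 0) (XT.nd (nat_lit 78) (nat_lit 0) (nat_lit 0) (XT.lf (nat_lit 0) (nat_lit 795733534) (nat_lit 684) (nat_lit 9569828409) (nat_lit 76) (nat_lit 6918105942) (nat_lit 219) (nat_lit 5) (nat_lit 228) (nat_lit 5) (nat_lit 220) (nat_lit 5) (nat_lit 479) (nat_lit 419) (nat_lit 242)) (XT.lf (nat_lit 0) (nat_lit 3805146457) (nat_lit 684) (nat_lit 14994170) (nat_lit 76) (nat_lit 13668416607) (nat_lit 219) (nat_lit 5) (nat_lit 228) (nat_lit 5) (nat_lit 220) (nat_lit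 5) (nat_lit 480) (nat_lit 419) (nat_lit 241))) (XT.nd (nat_lit 78) (nat_lit 532) (nat_lit 0) (XT.lf (nat_lit 0) (nat_lit 6949583054) (nat_lit 608) (nat_lit 7865572511) (nat_lit 76) (nat_lit 2880894191) (nat_lit 212) (nat_lit 5) (nat_lit 220) (nat_lit 5) (nat_lit 213) (nat_lit 5) (nat_lit 481) (nat_lit 419) (nat_lit 240)) (XT.nd (nat_lit 78) (nat_lit 0) (nat_lit 0) (XT.lf (nat_lit 0) (nat_lit 1955327784) (nat_lit 532) (nat_lit 8231683813) (nat_lit 608) (nat_lit 7720080525) (nat_lit 205) (nat_lit 5) (nat_lit 212) (nat_lit 5) (nat_lit 213) (nat_lit 5) (nat_lit 482) (nat_lit 419) (nat_lit 239)) (XT.lf (nat_lit 0) (nat_lit 12068946034) (nat_lit 532) (nat_lit 1465122215) (nat_lit 608) (nat_lit 4587391511) (nat_lit 205) (nat_lit 5) (nat_lit 212) (nat_lit 5) (nat_lit 213) (nat_lit 5) (nat_lit 483) (nat_lit 419) (nat_lit 238))))) (XT.nd (nat_lit 234) (nat_lit 456) (nat_lit 0) (XT.nd (nat_lit 78) (nat_lit 608) (nat_lit 0) (XT.lf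 (nat_lit 0) (nat_lit 4052310408) (nat_lit 532) (nat_lit 12949602006) (nat_lit 608) (nat_lit 1337127386) (nat_lit 198) (nat_lit 5) (nat_lit 205) (nat_lit 5) (nat_lit 206) (nat_lit 5) (nat_lit 484) (nat_lit 419) (nat_lit 237)) (XT.nd (nat_lit 78) (nat_lit 532) (nat_lit 0) (XT.lf (nat_lit 0) (nat_lit 1995055923) (nat_lit 608) (nat_lit 4151996146) (nat_lit 76) (nat_lit 12412807250) (nat_lit 197) (nat_lit 5) (nat_lit 205) (nat_lit 5) (nat_lit 198) (nat_lit 5) (nat_lit 485) (nat_lit 419) (nat_lit 236)) (XT.lf (nat_lit 0) (nat_lit 5414436525) (nat_lit 608) (nat_lit 12541278878) (nat_lit 76) (nat_lit 828435765) (nat_lit 190) (nat_lit 5) (nat_lit 198) (nat_lit 5) (nat_lit 191) (nat_lit 5) (nat_lit 486) (nat_lit 419) (nat_lit 235)))) (XT.nd (nat_lit 78) (nat_lit 456) (nat_lit 0) (XT.lf (nat_lit 0) (nat_lit 8963449153) (nat_lit 608) (nat_lit 2161508836) (nat_lit 76) (nat_lit 7886747802) (nat_lit 190) (nat_lit 5) (nat_lit 198) (nat_lit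 5) (nat_lit 191) (nat_lit 5) (nat_lit 487) (nat_lit 419) (nat_lit 234)) (XT.nd (nat_lit 78) (nat_lit 0) (nat_lit 0) (XT.lf (nat_lit 0) (nat_lit 8527735419) (nat_lit 456) (nat_lit 4103710468) (nat_lit 532) (nat_lit 6611407332) (nat_lit 184) (nat_lit 5) (nat_lit 190) (nat_lit 5) (nat_lit 191) (nat_lit 5) (nat_lit 488) (nat_lit 419) (nat_lit 233)) (XT.lf (nat_lit 0) (nat_lit 16399957083) (nat_lit 532) (nat_lit 48248365) (nat_lit 76) (nat_lit 3029876812) (nat_lit 184) (nat_lit 5) (nat_lit 191) (nat_lit 5) (nat_lit 185) (nat_lit 5) (nat_lit 489) (nat_lit 419) (nat_lit 232)))))) (XT.nd (nat_lit 390) (nat_lit 1672) (nat_lit 0) (XT.nd (nat_lit 156) (nat_lit 456) (nat_lit 0) (XT.nd (nat_lit 78) (nat_lit 456) (nat_lit 0) (XT.lf (nat_lit 0) (nat_lit 610566299) (nat_lit 532) (nat_lit 8781805176) (nat_lit 76) (nat_lit 10323745015) (nat_lit 177) (nat_lit 5) (nat_lit 184) (nat_lit 5) (nat_lit 178) (nat_lit 5) (nat_lit 490) (nat_lit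 419) (nat_lit 231)) (XT.lf (nat_lit 0) (nat_lit 2176566319) (nat_lit 456) (nat_lit 2162616155) (nat_lit 532) (nat_lit 15619176317) (nat_lit 171) (nat_lit 5) (nat_lit 177) (nat_lit 5) (nat_lit 178) (nat_lit 5) (nat_lit 491) (nat_lit 419) (nat_lit 230))) (XT.nd (nat_lit 78) (nat_lit 456) (nat_lit 0) (XT.lf (nat_lit 0) (nat_lit 8228458959) (nat_lit 532) (nat_lit 6775274602) (nat_lit 76) (nat_lit 5199992238) (nat_lit 171) (nat_lit 5) (nat_lit 178) (nat_lit 5) (nat_lit 172) (nat_lit 5) (nat_lit 492) (nat_lit 419) (nat_lit 229)) (XT.nd (nat_lit 78) (nat_lit 0) (nat_lit 0) (XT.lf (nat_lit 0) (nat_lit 4486159137) (nat_lit 456) (nat_lit 7745878708) (nat_lit 532) (nat_lit 8221233555) (nat_lit 165) (nat_lit 5) (nat_lit 171) (nat_lit 5) (nat_lit 172) (nat_lit 5) (nat_lit 493) (nat_lit 419) (nat_lit 228)) (XT.lf (nat_lit 0) (nat_lit 16054996881) (nat_lit 456) (nat_lit 299298048) (nat_lit 532) (nat_lit 4352742408) (nat_lit 165) (nat_lit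 5) (nat_lit 171) (nat_lit 5) (nat_lit 172) (nat_lit 5) (nat_lit 494) (nat_lit 419) (nat_lit 227))))) (XT.nd (nat_lit 234) (nat_lit 760) (nat_lit 0) (XT.nd (nat_lit 78) (nat_lit 532) (nat_lit 0) (XT.lf (nat_lit 0) (nat_lit 6923165541) (nat_lit 380) (nat_lit 13721410849) (nat_lit 456) (nat_lit 319592147) (nat_lit 160) (nat_lit 5) (nat_lit 165) (nat_lit 5) (nat_lit 166) (nat_lit 5) (nat_lit 495) (nat_lit 419) (nat_lit 226)) (XT.nd (nat_lit 78) (nat_lit 456) (nat_lit 0) (XT.lf (nat_lit 0) (nat_lit 3771147962) (nat_lit 456) (nat_lit 2469327728) (nat_lit 76) (nat_lit 14984941673) (nat_lit 159) (nat_lit 5) (nat_lit 165) (nat_lit 5) (nat_lit 160) (nat_lit 5) (nat_lit 496) (nat_lit 419) (nat_lit 225)) (XT.lf (nat_lit 0) (nat_lit 8003598981) (nat_lit 532) (nat_lit 12054063207) (nat_lit 76) (nat_lit 1432904658) (nat_lit 153) (nat_lit 5) (nat_lit 160) (nat_lit 5) (nat_lit 154) (nat_lit 5) (nat_lit 497) (nat_lit 419) (nat_lit 224))))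 (XT.nd (nat_lit 78) (nat_lit 760) (nat_lit 0) (XT.lf (nat_lit 0) (nat_lit 12372170644) (nat_lit 532) (nat_lit 197685370) (nat_lit 76) (nat_lit 9190135283) (nat_lit 153) (nat_lit 5) (nat_lit 160) (nat_lit 5) (nat_lit 154) (nat_lit 5) (nat_lit 498) (nat_lit 419) (nat_lit 223)) (XT.nd (nat_lit 78) (nat_lit 380) (nat_lit 0) (XT.lf (nat_lit 0) (nat_lit 12044487514) (nat_lit 380) (nat_lit 4855418932) (nat_lit 456) (nat_lit 5133463321) (nat_lit 148) (nat_lit 5) (nat_lit 153) (nat_lit 5) (nat_lit 154) (nat_lit 5) (nat_lit 499) (nat_lit 419) (nat_lit 222)) (XT.lf (nat_lit 0) (nat_lit 2222219526) (nat_lit 380) (nat_lit 19324944093) (nat_lit 456) (nat_lit 764474209) (nat_lit 143) (nat_lit 5) (nat_lit 148) (nat_lit 5) (nat_lit 149) (nat_lit 5) (nat_lit 500) (nat_lit 419) (nat_lit 221))))))) (XT.nd (nat_lit 53664) (nat_lit 0) (nat_lit 23180) (XT.nd (nat_lit 53196) (nat_lit 0) (nat_lit 24472) (XT.nd (nat_lit 156) (nat_lit 0) (nat_lit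 0) (XT.nd (nat_lit 78) (nat_lit 380) (nat_lit 0) (XT.lf (nat_lit 0) (nat_lit 3736764702) (nat_lit 456) (nat_lit 7847125040) (nat_lit 76) (nat_lit 11009237612) (nat_lit 142) (nat_lit 5) (nat_lit 148) (nat_lit 5) (nat_lit 143) (nat_lit 5) (nat_lit 501) (nat_lit 419) (nat_lit 220)) (XT.lf (nat_lit 0) (nat_lit 4687238620) (nat_lit 380) (nat_lit 3654780223) (nat_lit 456) (nat_lit 14537643506) (nat_lit 137) (nat_lit 5) (nat_lit 142) (nat_lit 5) (nat_lit 143) (nat_lit 5) (nat_lit 502) (nat_lit 419) (nat_lit 219))) (XT.nd (nat_lit 52884) (nat_lit 0) (nat_lit 25992) (XT.lf (nat_lit 0) (nat_lit 13114994382) (nat_lit 456) (nat_lit 5630576879) (nat_lit 76) (nat_lit 4424845710) (nat_lit 137) (nat_lit 5) (nat_lit 143) (nat_lit 5) (nat_lit 138) (nat_lit 5) (nat_lit 503) (nat_lit 419) (nat_lit 218)) (XT.nd (nat_lit 78) (nat_lit 0) (nat_lit 0) (XT.lf (nat_lit 0) (nat_lit 3339810041) (nat_lit 1596) (nat_lit 713490133) (nat_lit 1596) (nat_lit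 713490133) (nat_lit 479) (nat_lit 3) (nat_lit 500) (nat_lit 3) (nat_lit 500) (nat_lit 5) (nat_lit 420) (nat_lit 420) (nat_lit 300)) (XT.lf (nat_lit 76) (nat_lit 3185958813) (nat_lit 0) (nat_lit 4352180650) (nat_lit 1596) (nat_lit 2074647078) (nat_lit 480) (nat_lit 5) (nat_lit 479) (nat_lit 3) (nat_lit 500) (nat_lit 5) (nat_lit 421) (nat_lit 420) (nat_lit 299))))) (XT.nd (nat_lit 234) (nat_lit 0) (nat_lit 76) (XT.nd (nat_lit 78) (nat_lit 1520) (nat_lit 0) (XT.lf (nat_lit 76) (nat_lit 7900044222) (nat_lit 0) (nat_lit 503068314) (nat_lit 1596) (nat_lit 1290686133) (nat_lit 480) (nat_lit 5) (nat_lit 479) (nat_lit 3) (nat_lit 500) (nat_lit 5) (nat_lit 422) (nat_lit 420) (nat_lit 298)) (XT.nd (nat_lit 78) (nat_lit 1596) (nat_lit 0) (XT.lf (nat_lit 76) (nat_lit 2937563777) (nat_lit 0) (nat_lit 6369286487) (nat_lit 1596) (nat_lit 469159070) (nat_lit 481) (nat_lit 5) (nat_lit 480) (nat_lit 5) (nat_lit 501) (nat_lit 5) (nat_lit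 423) (nat_lit 420) (nat_lit 297)) (XT.lf (nat_lit 0) (nat_lit 359761186) (nat_lit 1596) (nat_lit 2088522615) (nat_lit 1672) (nat_lit 7411623831) (nat_lit 459) (nat_lit 5) (nat_lit 480) (nat_lit 5) (nat_lit 481) (nat_lit 5) (nat_lit 424) (nat_lit 420) (nat_lit 296)))) (XT.nd (nat_lit 78) (nat_lit 0) (nat_lit 0) (XT.lf (nat_lit 0) (nat_lit 1208030159) (nat_lit 1596) (nat_lit 7176683154) (nat_lit 1672) (nat_lit 1560534674) (nat_lit 460) (nat_lit 5) (nat_lit 481) (nat_lit 5) (nat_lit 482) (nat_lit 5) (nat_lit 425) (nat_lit 420) (nat_lit 295)) (XT.nd (nat_lit 78) (nat_lit 0) (nat_lit 0) (XT.lf (nat_lit 0) (nat_lit 2084685386) (nat_lit 1596) (nat_lit 2308289196) (nat_lit 1672) (nat_lit 5639099166) (nat_lit 460) (nat_lit 5) (nat_lit 481) (nat_lit 5) (nat_lit 482) (nat_lit 5) (nat_lit 426) (nat_lit 420) (nat_lit 294)) (XT.lf (nat_lit 76) (nat_lit 2681789659) (nat_lit 0) (nat_lit 295965796) (nat_lit 1672) (nat_lit 7142909817)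 (nat_lit 461) (nat_lit 5) (nat_lit 460) (nat_lit 5) (nat_lit 482) (nat_lit 5) (nat_lit 427) (nat_lit 420) (nat_lit 293)))))) (XT.nd (nat_lit 390) (nat_lit 1444) (nat_lit 0) (XT.nd (nat_lit 156) (nat_lit 0) (nat_lit 76) (XT.nd (nat_lit 78) (nat_lit 0) (nat_lit 0) (XT.lf (nat_lit 0) (nat_lit 3911301737) (nat_lit 1596) (nat_lit 2444276350) (nat_lit 1672) (nat_lit 3855004988) (nat_lit 461) (nat_lit 5) (nat_lit 482) (nat_lit 5) (nat_lit 483) (nat_lit 5) (nat_lit 428) (nat_lit 420) (nat_lit 292)) (XT.lf (nat_lit 76) (nat_lit 2672318886) (nat_lit 0) (nat_lit 2192678694) (nat_lit 1672) (nat_lit 5437278695) (nat_lit 462) (nat_lit 5) (nat_lit 461) (nat_lit 5) (nat_lit 483) (nat_lit 5) (nat_lit 429) (nat_lit 420) (nat_lit 291))) (XT.nd (nat_lit 78) (nat_lit 0) (nat_lit 0) (XT.lf (nat_lit 0) (nat_lit 5850100942) (nat_lit 1596) (nat_lit 2495849947) (nat_lit 1672) (nat_lit 2049612262) (nat_lit 462) (nat_lit 5) (nat_lit 483) (nat_lit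 5) (nat_lit 484) (nat_lit 5) (nat_lit 430) (nat_lit 420) (nat_lit 290)) (XT.nd (nat_lit 78) (nat_lit 0) (nat_lit 76) (XT.lf (nat_lit 76) (nat_lit 2751413364) (nat_lit 0) (nat_lit 4118711439) (nat_lit 1672) (nat_lit 3620292949) (nat_lit 463) (nat_lit 5) (nat_lit 462) (nat_lit 5) (nat_lit 484) (nat_lit 5) (nat_lit 431) (nat_lit 420) (nat_lit 289)) (XT.lf (nat_lit 0) (nat_lit 7911798735) (nat_lit 1596) (nat_lit 2462145119) (nat_lit 1672) (nat_lit 213206833) (nat_lit 463) (nat_lit 5) (nat_lit 484) (nat_lit 5) (nat_lit 485) (nat_lit 5) (nat_lit 432) (nat_lit 420) (nat_lit 288))))) (XT.nd (nat_lit 234) (nat_lit 0) (nat_lit 0) (XT.nd (nat_lit 78) (nat_lit 1596) (nat_lit 0) (XT.lf (nat_lit 76) (nat_lit 2920096206) (nat_lit 0) (nat_lit 6083912681) (nat_lit 1672) (nat_lit 1681221448) (nat_lit 464) (nat_lit 5) (nat_lit 463) (nat_lit 5) (nat_lit 485) (nat_lit 5) (nat_lit 433) (nat_lit 420) (nat_lit 287)) (XT.nd (nat_lit 78) (nat_lit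 1596) (nat_lit 0) (XT.lf (nat_lit 76) (nat_lit 8432254430) (nat_lit 0) (nat_lit 1686050489) (nat_lit 1672) (nat_lit 666967812) (nat_lit 464) (nat_lit 5) (nat_lit 463) (nat_lit 5) (nat_lit 485) (nat_lit 5) (nat_lit 434) (nat_lit 420) (nat_lit 286)) (XT.lf (nat_lit 0) (nat_lit 385789687) (nat_lit 1672) (nat_lit 7709782202) (nat_lit 1748) (nat_lit 2791241324) (nat_lit 442) (nat_lit 5) (nat_lit 464) (nat_lit 5) (nat_lit 465) (nat_lit 5) (nat_lit 435) (nat_lit 420) (nat_lit 285)))) (XT.nd (nat_lit 78) (nat_lit 0) (nat_lit 76) (XT.lf (nat_lit 0) (nat_lit 1461942242) (nat_lit 1672) (nat_lit 2167564013) (nat_lit 1748) (nat_lit 7360570308) (nat_lit 442) (nat_lit 5) (nat_lit 464) (nat_lit 5) (nat_lit 465) (nat_lit 5) (nat_lit 436) (nat_lit 420) (nat_lit 284)) (XT.nd (nat_lit 78) (nat_lit 0) (nat_lit 0) (XT.lf (nat_lit 0) (nat_lit 2573177791) (nat_lit 1672) (nat_lit 7580945283) (nat_lit 1748) (nat_lit 941016443) (nat_lit 443) (nat_lit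 5) (nat_lit 465) (nat_lit 5) (nat_lit 466) (nat_lit 5) (nat_lit 437) (nat_lit 420) (nat_lit 283)) (XT.lf (nat_lit 0) (nat_lit 3730086671) (nat_lit 1672) (nat_lit 1898601954) (nat_lit 1748) (nat_lit 5573151556) (nat_lit 443) (nat_lit 5) (nat_lit 465) (nat_lit 5) (nat_lit 466) (nat_lit 5) (nat_lit 438) (nat_lit 420) (nat_lit 282))))))))
noncomputable def xc189 : XT := (XT.nd (nat_lit 1716) (nat_lit 8056) (nat_lit 0) (XT.nd (nat_lit 858) (nat_lit 5092) (nat_lit 0) (XT.nd (nat_lit 390) (nat_lit 4408) (nat_lit 0) (XT.nd (nat_lit 156) (nat_lit 0) (nat_lit 76) (XT.nd (nat_lit 78) (nat_lit 0) (nat_lit 76) (XT.lf (nat_lit 76) (nat_lit 3937831759) (nat_lit 0) (nat_lit 982937938) (nat_lit 1748) (nat_lit 6389697761) (nat_lit 444) (nat_lit 5) (nat_lit 443) (nat_lit 5) (nat_lit 466) (nat_lit 5) (nat_lit 439) (nat_lit 420) (nat_lit 281)) (XT.lf (nat_lit 0) (nat_lit 6157788782) (nat_lit 1672) (nat_lit 1540202165) (nat_lit 1748) (nat_lit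 3722831102) (nat_lit 444) (nat_lit 5) (nat_lit 466) (nat_lit 5) (nat_lit 467) (nat_lit 5) (nat_lit 440) (nat_lit 420) (nat_lit 280))) (XT.nd (nat_lit 78) (nat_lit 0) (nat_lit 76) (XT.lf (nat_lit 76) (nat_lit 4449500199) (nat_lit 0) (nat_lit 2991047390) (nat_lit 1748) (nat_lit 4092421267) (nat_lit 445) (nat_lit 5) (nat_lit 444) (nat_lit 5) (nat_lit 467) (nat_lit 5) (nat_lit 441) (nat_lit 420) (nat_lit 279)) (XT.nd (nat_lit 78) (nat_lit 0) (nat_lit 0) (XT.lf (nat_lit 0) (nat_lit 8756947895) (nat_lit 1672) (nat_lit 1090558803) (nat_lit 1748) (nat_lit 1799697188) (nat_lit 445) (nat_lit 5) (nat_lit 467) (nat_lit 5) (nat_lit 468) (nat_lit 5) (nat_lit 442) (nat_lit 420) (nat_lit 278)) (XT.lf (nat_lit 76) (nat_lit 5057494691) (nat_lit 0) (nat_lit 5080934583) (nat_lit 1748) (nat_lit 1624524194) (nat_lit 446) (nat_lit 5) (nat_lit 445) (nat_lit 5) (nat_lit 468) (nat_lit 5) (nat_lit 443) (nat_lit 420) (nat_lit 277))))) (XT.nd (nat_lit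 234) (nat_lit 1140) (nat_lit 0) (XT.nd (nat_lit 78) (nat_lit 3420) (nat_lit 0) (XT.lf (nat_lit 76) (nat_lit 11332129741) (nat_lit 0) (nat_lit 209036875) (nat_lit 1748) (nat_lit 339983718) (nat_lit 446) (nat_lit 5) (nat_lit 445) (nat_lit 5) (nat_lit 468) (nat_lit 5) (nat_lit 444) (nat_lit 420) (nat_lit 276)) (XT.nd (nat_lit 78) (nat_lit 1748) (nat_lit 0) (XT.lf (nat_lit 0) (nat_lit 1012805092) (nat_lit 1748) (nat_lit 6243278067) (nat_lit 76) (nat_lit 4744400968) (nat_lit 423) (nat_lit 5) (nat_lit 446) (nat_lit 5) (nat_lit 424) (nat_lit 5) (nat_lit 445) (nat_lit 420) (nat_lit 275)) (XT.lf (nat_lit 0) (nat_lit 60663510) (nat_lit 1748) (nat_lit 2319615896) (nat_lit 1824) (nat_lit 9742041142) (nat_lit 400) (nat_lit 5) (nat_lit 423) (nat_lit 5) (nat_lit 424) (nat_lit 5) (nat_lit 446) (nat_lit 420) (nat_lit 274)))) (XT.nd (nat_lit 78) (nat_lit 1140) (nat_lit 0) (XT.lf (nat_lit 0) (nat_lit 3821798578) (nat_lit 1824) (nat_lit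 5699895968) (nat_lit 76) (nat_lit 2723969694) (nat_lit 400) (nat_lit 5) (nat_lit 424) (nat_lit 5) (nat_lit 401) (nat_lit 5) (nat_lit 447) (nat_lit 420) (nat_lit 273)) (XT.nd (nat_lit 78) (nat_lit 0) (nat_lit 0) (XT.lf (nat_lit 0) (nat_lit 772552584) (nat_lit 1140) (nat_lit 4527121093) (nat_lit 1216) (nat_lit 7071654983) (nat_lit 385) (nat_lit 5) (nat_lit 400) (nat_lit 5) (nat_lit 401) (nat_lit 5) (nat_lit 448) (nat_lit 420) (nat_lit 272)) (XT.lf (nat_lit 0) (nat_lit 6836628665) (nat_lit 1216) (nat_lit 5062475330) (nat_lit 76) (nat_lit 599816202) (nat_lit 385) (nat_lit 5) (nat_lit 401) (nat_lit 5) (nat_lit 386) (nat_lit 5) (nat_lit 449) (nat_lit 420) (nat_lit 271)))))) (XT.nd (nat_lit 390) (nat_lit 2432) (nat_lit 0) (XT.nd (nat_lit 156) (nat_lit 1748) (nat_lit 0) (XT.nd (nat_lit 78) (nat_lit 0) (nat_lit 0) (XT.lf (nat_lit 0) (nat_lit 1584060669) (nat_lit 912) (nat_lit 6848112304) (nat_lit 988) (nat_lit 4196337782) (nat_lit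 373) (nat_lit 5) (nat_lit 385) (nat_lit 5) (nat_lit 386) (nat_lit 5) (nat_lit 450) (nat_lit 420) (nat_lit 270)) (XT.lf (nat_lit 0) (nat_lit 8420939753) (nat_lit 912) (nat_lit 1660415457) (nat_lit 988) (nat_lit 2678907486) (nat_lit 373) (nat_lit 5) (nat_lit 385) (nat_lit 5) (nat_lit 386) (nat_lit 5) (nat_lit 451) (nat_lit 420) (nat_lit 269))) (XT.nd (nat_lit 78) (nat_lit 912) (nat_lit 0) (XT.lf (nat_lit 0) (nat_lit 2497849690) (nat_lit 836) (nat_lit 9293466032) (nat_lit 912) (nat_lit 1102782092) (nat_lit 362) (nat_lit 5) (nat_lit 373) (nat_lit 5) (nat_lit 374) (nat_lit 5) (nat_lit 452) (nat_lit 420) (nat_lit 268)) (XT.nd (nat_lit 78) (nat_lit 836) (nat_lit 0) (XT.lf (nat_lit 0) (nat_lit 526634828) (nat_lit 912) (nat_lit 3525237711) (nat_lit 76) (nat_lit 8978107602) (nat_lit 361) (nat_lit 5) (nat_lit 373) (nat_lit 5) (nat_lit 362) (nat_lit 5) (nat_lit 453) (nat_lit 420) (nat_lit 267)) (XT.lf (nat_lit 0) (nat_lit 2193606409)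 (nat_lit 912) (nat_lit 9665996803) (nat_lit 76) (nat_lit 1308440264) (nat_lit 350) (nat_lit 5) (nat_lit 362) (nat_lit 5) (nat_lit 351) (nat_lit 5) (nat_lit 454) (nat_lit 420) (nat_lit 266))))) (XT.nd (nat_lit 234) (nat_lit 1596) (nat_lit 0) (XT.nd (nat_lit 78) (nat_lit 836) (nat_lit 0) (XT.lf (nat_lit 0) (nat_lit 3933040517) (nat_lit 912) (nat_lit 2628995158) (nat_lit 76) (nat_lit 6746053663) (nat_lit 350) (nat_lit 5) (nat_lit 362) (nat_lit 5) (nat_lit 351) (nat_lit 5) (nat_lit 455) (nat_lit 420) (nat_lit 265)) (XT.nd (nat_lit 78) (nat_lit 0) (nat_lit 0) (XT.lf (nat_lit 0) (nat_lit 4597998907) (nat_lit 836) (nat_lit 1127820247) (nat_lit 912) (nat_lit 7724749498) (nat_lit 339) (nat_lit 5) (nat_lit 350) (nat_lit 5) (nat_lit 351) (nat_lit 5) (nat_lit 456) (nat_lit 420) (nat_lit 264)) (XT.lf (nat_lit 0) (nat_lit 7589731685) (nat_lit 912) (nat_lit 1630363706) (nat_lit 76) (nat_lit 4375100174) (nat_lit 339) (nat_lit 5) (nat_lit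 351) (nat_lit 5) (nat_lit 340) (nat_lit 5) (nat_lit 457) (nat_lit 420) (nat_lit 263)))) (XT.nd (nat_lit 78) (nat_lit 760) (nat_lit 0) (XT.lf (nat_lit 0) (nat_lit 5793818030) (nat_lit 836) (nat_lit 3731263226) (nat_lit 912) (nat_lit 4216954095) (nat_lit 328) (nat_lit 5) (nat_lit 339) (nat_lit 5) (nat_lit 340) (nat_lit 5) (nat_lit 458) (nat_lit 420) (nat_lit 262)) (XT.nd (nat_lit 78) (nat_lit 760) (nat_lit 0) (XT.lf (nat_lit 0) (nat_lit 11511489949) (nat_lit 912) (nat_lit 526338592) (nat_lit 76) (nat_lit 1853739789) (nat_lit 328) (nat_lit 5) (nat_lit 340) (nat_lit 5) (nat_lit 329) (nat_lit 5) (nat_lit 459) (nat_lit 420) (nat_lit 261)) (XT.lf (nat_lit 0) (nat_lit 7101490586) (nat_lit 760) (nat_lit 6496380670) (nat_lit 836) (nat_lit 445019197) (nat_lit 318) (nat_lit 5) (nat_lit 328) (nat_lit 5) (nat_lit 329) (nat_lit 5) (nat_lit 460) (nat_lit 420) (nat_lit 260))))))) (XT.nd (nat_lit 858) (nat_lit 3724) (nat_lit 0) (XT.nd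 (nat_lit 390) (nat_lit 2052) (nat_lit 0) (XT.nd (nat_lit 156) (nat_lit 1444) (nat_lit 0) (XT.nd (nat_lit 78) (nat_lit 0) (nat_lit 0) (XT.lf (nat_lit 0) (nat_lit 679824459) (nat_lit 760) (nat_lit 826327317) (nat_lit 836) (nat_lit 12690942766) (nat_lit 307) (nat_lit 5) (nat_lit 317) (nat_lit 5) (nat_lit 318) (nat_lit 5) (nat_lit 461) (nat_lit 420) (nat_lit 259)) (XT.lf (nat_lit 0) (nat_lit 3559089568) (nat_lit 836) (nat_lit 5852445992) (nat_lit 76) (nat_lit 4941417455) (nat_lit 307) (nat_lit 5) (nat_lit 318) (nat_lit 5) (nat_lit 308) (nat_lit 5) (nat_lit 462) (nat_lit 420) (nat_lit 258))) (XT.nd (nat_lit 78) (nat_lit 760) (nat_lit 0) (XT.lf (nat_lit 0) (nat_lit 1975205349) (nat_lit 684) (nat_lit 3686003704) (nat_lit 760) (nat_lit 8850560262) (nat_lit 298) (nat_lit 5) (nat_lit 307) (nat_lit 5) (nat_lit 308) (nat_lit 5) (nat_lit 463) (nat_lit 420) (nat_lit 257)) (XT.nd (nat_lit 78) (nat_lit 760) (nat_lit 0) (XT.lf (nat_lit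 0) (nat_lit 7848839752) (nat_lit 760) (nat_lit 4659510013) (nat_lit 76) (nat_lit 2164545856) (nat_lit 298) (nat_lit 5) (nat_lit 308) (nat_lit 5) (nat_lit 299) (nat_lit 5) (nat_lit 464) (nat_lit 420) (nat_lit 256)) (XT.lf (nat_lit 0) (nat_lit 3384246499) (nat_lit 760) (nat_lit 6732507307) (nat_lit 836) (nat_lit 4719763028) (nat_lit 288) (nat_lit 5) (nat_lit 298) (nat_lit 5) (nat_lit 299) (nat_lit 5) (nat_lit 465) (nat_lit 420) (nat_lit 255))))) (XT.nd (nat_lit 234) (nat_lit 1292) (nat_lit 0) (XT.nd (nat_lit 78) (nat_lit 760) (nat_lit 0) (XT.lf (nat_lit 0) (nat_lit 11641297262) (nat_lit 760) (nat_lit 810267437) (nat_lit 836) (nat_lit 2551417935) (nat_lit 288) (nat_lit 5) (nat_lit 298) (nat_lit 5) (nat_lit 299) (nat_lit 5) (nat_lit 466) (nat_lit 420) (nat_lit 254)) (XT.nd (nat_lit 78) (nat_lit 76) (nat_lit 0) (XT.lf (nat_lit 0) (nat_lit 4910434842) (nat_lit 684) (nat_lit 9978933225) (nat_lit 760) (nat_lit 282286639) (nat_lit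 279) (nat_lit 5) (nat_lit 288) (nat_lit 5) (nat_lit 289) (nat_lit 5) (nat_lit 467) (nat_lit 420) (nat_lit 253)) (XT.lf (nat_lit 0) (nat_lit 2024156264) (nat_lit 760) (nat_lit 1979169765) (nat_lit 76) (nat_lit 11339741426) (nat_lit 278) (nat_lit 5) (nat_lit 288) (nat_lit 5) (nat_lit 279) (nat_lit 5) (nat_lit 468) (nat_lit 420) (nat_lit 252)))) (XT.nd (nat_lit 78) (nat_lit 608) (nat_lit 0) (XT.lf (nat_lit 0) (nat_lit 4419986837) (nat_lit 760) (nat_lit 8989192768) (nat_lit 76) (nat_lit 2107753475) (nat_lit 269) (nat_lit 5) (nat_lit 279) (nat_lit 5) (nat_lit 270) (nat_lit 5) (nat_lit 469) (nat_lit 420) (nat_lit 251)) (XT.nd (nat_lit 78) (nat_lit 608) (nat_lit 0) (XT.lf (nat_lit 0) (nat_lit 6894415240) (nat_lit 760) (nat_lit 499667627) (nat_lit 76) (nat_lit 8299582186) (nat_lit 269) (nat_lit 5) (nat_lit 279) (nat_lit 5) (nat_lit 270) (nat_lit 5) (nat_lit 470) (nat_lit 420) (nat_lit 250)) (XT.lf (nat_lit 0) (nat_lit 8257481720)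 (nat_lit 608) (nat_lit 1205443831) (nat_lit 684) (nat_lit 6410116854) (nat_lit 261) (nat_lit 5) (nat_lit 269) (nat_lit 5) (nat_lit 270) (nat_lit 5) (nat_lit 471) (nat_lit 420) (nat_lit 249)))))) (XT.nd (nat_lit 390) (nat_lit 1748) (nat_lit 0) (XT.nd (nat_lit 156) (nat_lit 1292) (nat_lit 0) (XT.nd (nat_lit 78) (nat_lit 0) (nat_lit 0) (XT.lf (nat_lit 0) (nat_lit 1111436672) (nat_lit 684) (nat_lit 11006198653) (nat_lit 760) (nat_lit 3937677952) (nat_lit 252) (nat_lit 5) (nat_lit 261) (nat_lit 5) (nat_lit 262) (nat_lit 5) (nat_lit 472) (nat_lit 420) (nat_lit 248)) (XT.lf (nat_lit 0) (nat_lit 10097618340) (nat_lit 684) (nat_lit 4778042680) (nat_lit 760) (nat_lit 1364566618) (nat_lit 252) (nat_lit 5) (nat_lit 261) (nat_lit 5) (nat_lit 262) (nat_lit 5) (nat_lit 473) (nat_lit 420) (nat_lit 247))) (XT.nd (nat_lit 78) (nat_lit 608) (nat_lit 0) (XT.lf (nat_lit 0) (nat_lit 1263698186) (nat_lit 684) (nat_lit 13585354816) (nat_lit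 76) (nat_lit 1579221748) (nat_lit 243) (nat_lit 5) (nat_lit 252) (nat_lit 5) (nat_lit 244) (nat_lit 5) (nat_lit 474) (nat_lit 420) (nat_lit 246)) (XT.nd (nat_lit 78) (nat_lit 608) (nat_lit 0) (XT.lf (nat_lit 0) (nat_lit 3990801648) (nat_lit 684) (nat_lit 4579290563) (nat_lit 76) (nat_lit 8048521661) (nat_lit 243) (nat_lit 5) (nat_lit 252) (nat_lit 5) (nat_lit 244) (nat_lit 5) (nat_lit 475) (nat_lit 420) (nat_lit 245)) (XT.lf (nat_lit 0) (nat_lit 4657683203) (nat_lit 608) (nat_lit 2136565567) (nat_lit 684) (nat_lit 10018077289) (nat_lit 235) (nat_lit 5) (nat_lit 243) (nat_lit 5) (nat_lit 244) (nat_lit 5) (nat_lit 476) (nat_lit 420) (nat_lit 244))))) (XT.nd (nat_lit 234) (nat_lit 1216) (nat_lit 0) (XT.nd (nat_lit 78) (nat_lit 532) (nat_lit 0) (XT.lf (nat_lit 0) (nat_lit 9705079529) (nat_lit 684) (nat_lit 2907152784) (nat_lit 76) (nat_lit 4396656154) (nat_lit 235) (nat_lit 5) (nat_lit 244) (nat_lit 5) (nat_lit 236) (nat_lit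 5) (nat_lit 477) (nat_lit 420) (nat_lit 243)) (XT.nd (nat_lit 78) (nat_lit 0) (nat_lit 0) (XT.lf (nat_lit 0) (nat_lit 6587348406) (nat_lit 532) (nat_lit 6135508747) (nat_lit 608) (nat_lit 4485552591) (nat_lit 228) (nat_lit 5) (nat_lit 235) (nat_lit 5) (nat_lit 236) (nat_lit 5) (nat_lit 478) (nat_lit 420) (nat_lit 242)) (XT.lf (nat_lit 0) (nat_lit 15815577587) (nat_lit 608) (nat_lit 1113837477) (nat_lit 76) (nat_lit 482216818) (nat_lit 228) (nat_lit 5) (nat_lit 236) (nat_lit 5) (nat_lit 229) (nat_lit 5) (nat_lit 479) (nat_lit 420) (nat_lit 241)))) (XT.nd (nat_lit 78) (nat_lit 532) (nat_lit 0) (XT.lf (nat_lit 0) (nat_lit 1422920039) (nat_lit 684) (nat_lit 8980276392) (nat_lit 76) (nat_lit 7213760512) (nat_lit 219) (nat_lit 5) (nat_lit 228) (nat_lit 5) (nat_lit 220) (nat_lit 5) (nat_lit 480) (nat_lit 420) (nat_lit 240)) (XT.nd (nat_lit 78) (nat_lit 0) (nat_lit 0) (XT.lf (nat_lit 0) (nat_lit 760313462) (nat_lit 532) (nat_lit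 3725158495) (nat_lit 608) (nat_lit 13340616222) (nat_lit 212) (nat_lit 5) (nat_lit 219) (nat_lit 5) (nat_lit 220) (nat_lit 5) (nat_lit 481) (nat_lit 420) (nat_lit 239)) (XT.lf (nat_lit 0) (nat_lit 7682140011) (nat_lit 608) (nat_lit 7251374582) (nat_lit 76) (nat_lit 3104432158) (nat_lit 212) (nat_lit 5) (nat_lit 220) (nat_lit 5) (nat_lit 213) (nat_lit 5) (nat_lit 482) (nat_lit 420) (nat_lit 238))))))))
noncomputable def xc190 : XT := (XT.nd (nat_lit 54600) (nat_lit 0) (nat_lit 23104) (XT.nd (nat_lit 858) (nat_lit 2584) (nat_lit 0) (XT.nd (nat_lit 390) (nat_lit 1444) (nat_lit 0) (XT.nd (nat_lit 156) (nat_lit 1140) (nat_lit 0) (XT.nd (nat_lit 78) (nat_lit 0) (nat_lit 0) (XT.lf (nat_lit 0) (nat_lit 2760867999) (nat_lit 532) (nat_lit 8216786786) (nat_lit 608) (nat_lit 7275691420) (nat_lit 205) (nat_lit 5) (nat_lit 212) (nat_lit 5) (nat_lit 213) (nat_lit 5) (nat_lit 483) (nat_lit 420) (nat_lit 237)) (XT.lf (nat_lit 0) (nat_lit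 13061730503) (nat_lit 532) (nat_lit 1318414166) (nat_lit 608) (nat_lit 4092089621) (nat_lit 205) (nat_lit 5) (nat_lit 212) (nat_lit 5) (nat_lit 213) (nat_lit 5) (nat_lit 484) (nat_lit 420) (nat_lit 236))) (XT.nd (nat_lit 78) (nat_lit 608) (nat_lit 0) (XT.lf (nat_lit 0) (nat_lit 4890261439) (nat_lit 532) (nat_lit 13021836720) (nat_lit 608) (nat_lit 782175600) (nat_lit 198) (nat_lit 5) (nat_lit 205) (nat_lit 5) (nat_lit 206) (nat_lit 5) (nat_lit 485) (nat_lit 420) (nat_lit 235)) (XT.nd (nat_lit 78) (nat_lit 532) (nat_lit 0) (XT.lf (nat_lit 0) (nat_lit 2597766167) (nat_lit 608) (nat_lit 3485354780) (nat_lit 76) (nat_lit 12836541076) (nat_lit 197) (nat_lit 5) (nat_lit 205) (nat_lit 5) (nat_lit 198) (nat_lit 5) (nat_lit 486) (nat_lit 420) (nat_lit 234)) (XT.lf (nat_lit 0) (nat_lit 6080555844) (nat_lit 608) (nat_lit 12037309041) (nat_lit 76) (nat_lit 1030677106) (nat_lit 190) (nat_lit 5) (nat_lit 198) (nat_lit 5) (nat_lit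 191) (nat_lit 5) (nat_lit 487) (nat_lit 420) (nat_lit 233))))) (XT.nd (nat_lit 234) (nat_lit 532) (nat_lit 0) (XT.nd (nat_lit 78) (nat_lit 912) (nat_lit 0) (XT.lf (nat_lit 0) (nat_lit 9689610869) (nat_lit 608) (nat_lit 1464743509) (nat_lit 76) (nat_lit 8226514744) (nat_lit 190) (nat_lit 5) (nat_lit 198) (nat_lit 5) (nat_lit 191) (nat_lit 5) (nat_lit 488) (nat_lit 420) (nat_lit 232)) (XT.nd (nat_lit 78) (nat_lit 456) (nat_lit 0) (XT.lf (nat_lit 0) (nat_lit 9433417240) (nat_lit 456) (nat_lit 3991599845) (nat_lit 532) (nat_lit 6191744030) (nat_lit 184) (nat_lit 5) (nat_lit 190) (nat_lit 5) (nat_lit 191) (nat_lit 5) (nat_lit 489) (nat_lit 420) (nat_lit 231)) (XT.lf (nat_lit 0) (nat_lit 690048050) (nat_lit 456) (nat_lit 16573960048) (nat_lit 532) (nat_lit 2592787003) (nat_lit 178) (nat_lit 5) (nat_lit 184) (nat_lit 5) (nat_lit 185) (nat_lit 5) (nat_lit 490) (nat_lit 420) (nat_lit 230)))) (XT.nd (nat_lit 78) (nat_lit 456)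 (nat_lit 0) (XT.lf (nat_lit 0) (nat_lit 1152242227) (nat_lit 532) (nat_lit 8224874910) (nat_lit 76) (nat_lit 10722609585) (nat_lit 177) (nat_lit 5) (nat_lit 184) (nat_lit 5) (nat_lit 178) (nat_lit 5) (nat_lit 491) (nat_lit 420) (nat_lit 229)) (XT.nd (nat_lit 78) (nat_lit 0) (nat_lit 0) (XT.lf (nat_lit 0) (nat_lit 2947844500) (nat_lit 456) (nat_lit 2001929583) (nat_lit 532) (nat_lit 15397155327) (nat_lit 171) (nat_lit 5) (nat_lit 177) (nat_lit 5) (nat_lit 178) (nat_lit 5) (nat_lit 492) (nat_lit 420) (nat_lit 228)) (XT.lf (nat_lit 0) (nat_lit 8907863496) (nat_lit 532) (nat_lit 6188212148) (nat_lit 76) (nat_lit 5501309926) (nat_lit 171) (nat_lit 5) (nat_lit 178) (nat_lit 5) (nat_lit 172) (nat_lit 5) (nat_lit 493) (nat_lit 420) (nat_lit 227)))))) (XT.nd (nat_lit 390) (nat_lit 1216) (nat_lit 0) (XT.nd (nat_lit 156) (nat_lit 912) (nat_lit 0) (XT.nd (nat_lit 78) (nat_lit 0) (nat_lit 0) (XT.lf (nat_lit 0) (nat_lit 5293696530)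 (nat_lit 456) (nat_lit 7692383145) (nat_lit 532) (nat_lit 7865953408) (nat_lit 165) (nat_lit 5) (nat_lit 171) (nat_lit 5) (nat_lit 172) (nat_lit 5) (nat_lit 494) (nat_lit 420) (nat_lit 226)) (XT.lf (nat_lit 0) (nat_lit 17079836240) (nat_lit 456) (nat_lit 100957405) (nat_lit 532) (nat_lit 3930282729) (nat_lit 165) (nat_lit 5) (nat_lit 171) (nat_lit 5) (nat_lit 172) (nat_lit 5) (nat_lit 495) (nat_lit 420) (nat_lit 225))) (XT.nd (nat_lit 78) (nat_lit 456) (nat_lit 0) (XT.lf (nat_lit 0) (nat_lit 177199388) (nat_lit 456) (nat_lit 13605140366) (nat_lit 76) (nat_lit 7591067275) (nat_lit 159) (nat_lit 5) (nat_lit 165) (nat_lit 5) (nat_lit 160) (nat_lit 5) (nat_lit 496) (nat_lit 420) (nat_lit 224)) (XT.nd (nat_lit 78) (nat_lit 456) (nat_lit 0) (XT.lf (nat_lit 0) (nat_lit 4335696451) (nat_lit 456) (nat_lit 1818159198) (nat_lit 76) (nat_lit 15486180641) (nat_lit 159) (nat_lit 5) (nat_lit 165) (nat_lit 5) (nat_lit 160) (nat_lit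 5) (nat_lit 497) (nat_lit 420) (nat_lit 223)) (XT.lf (nat_lit 0) (nat_lit 8649100087) (nat_lit 532) (nat_lit 11590788168) (nat_lit 76) (nat_lit 1670676531) (nat_lit 153) (nat_lit 5) (nat_lit 160) (nat_lit 5) (nat_lit 154) (nat_lit 5) (nat_lit 498) (nat_lit 420) (nat_lit 222))))) (XT.nd (nat_lit 234) (nat_lit 456) (nat_lit 0) (XT.nd (nat_lit 78) (nat_lit 380) (nat_lit 0) (XT.lf (nat_lit 0) (nat_lit 495403624) (nat_lit 380) (nat_lit 12603337828) (nat_lit 456) (nat_lit 9086764363) (nat_lit 148) (nat_lit 5) (nat_lit 153) (nat_lit 5) (nat_lit 154) (nat_lit 5) (nat_lit 499) (nat_lit 420) (nat_lit 221)) (XT.nd (nat_lit 78) (nat_lit 380) (nat_lit 0) (XT.lf (nat_lit 0) (nat_lit 12971379597) (nat_lit 380) (nat_lit 4737558281) (nat_lit 456) (nat_lit 4755577874) (nat_lit 148) (nat_lit 5) (nat_lit 153) (nat_lit 5) (nat_lit 154) (nat_lit 5) (nat_lit 500) (nat_lit 420) (nat_lit 220)) (XT.lf (nat_lit 0) (nat_lit 2956225306) (nat_lit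 380) (nat_lit 19489524386) (nat_lit 456) (nat_lit 302669268) (nat_lit 143) (nat_lit 5) (nat_lit 148) (nat_lit 5) (nat_lit 149) (nat_lit 5) (nat_lit 501) (nat_lit 420) (nat_lit 219)))) (XT.nd (nat_lit 78) (nat_lit 380) (nat_lit 0) (XT.lf (nat_lit 0) (nat_lit 4273105139) (nat_lit 456) (nat_lit 7321797540) (nat_lit 76) (nat_lit 11440760185) (nat_lit 142) (nat_lit 5) (nat_lit 148) (nat_lit 5) (nat_lit 143) (nat_lit 5) (nat_lit 502) (nat_lit 420) (nat_lit 218)) (XT.nd (nat_lit 52962) (nat_lit 0) (nat_lit 25992) (XT.lf (nat_lit 0) (nat_lit 5458764775) (nat_lit 380) (nat_lit 3507049113) (nat_lit 456) (nat_lit 14362209542) (nat_lit 137) (nat_lit 5) (nat_lit 142) (nat_lit 5) (nat_lit 143) (nat_lit 5) (nat_lit 503) (nat_lit 420) (nat_lit 217)) (XT.lf (nat_lit 0) (nat_lit 4172637975) (nat_lit 1596) (nat_lit 336937003) (nat_lit 1596) (nat_lit 336937003) (nat_lit 479) (nat_lit 3) (nat_lit 500) (nat_lit 3) (nat_lit 500) (nat_lit 5)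 (nat_lit 421) (nat_lit 421) (nat_lit 298))))))) (XT.nd (nat_lit 858) (nat_lit 1292) (nat_lit 0) (XT.nd (nat_lit 390) (nat_lit 0) (nat_lit 152) (XT.nd (nat_lit 156) (nat_lit 0) (nat_lit 76) (XT.nd (nat_lit 78) (nat_lit 1596) (nat_lit 0) (XT.lf (nat_lit 76) (nat_lit 4026181448) (nat_lit 0) (nat_lit 5169785385) (nat_lit 1596) (nat_lit 578358662) (nat_lit 480) (nat_lit 5) (nat_lit 479) (nat_lit 3) (nat_lit 500) (nat_lit 5) (nat_lit 422) (nat_lit 421) (nat_lit 297)) (XT.lf (nat_lit 0) (nat_lit 188622235) (nat_lit 1596) (nat_lit 1039478085) (nat_lit 1672) (nat_lit 8629435016) (nat_lit 458) (nat_lit 5) (nat_lit 479) (nat_lit 3) (nat_lit 480) (nat_lit 5) (nat_lit 423) (nat_lit 421) (nat_lit 296))) (XT.nd (nat_lit 78) (nat_lit 0) (nat_lit 0) (XT.lf (nat_lit 0) (nat_lit 986995374) (nat_lit 1596) (nat_lit 6161366798) (nat_lit 1672) (nat_lit 2793501966) (nat_lit 459) (nat_lit 5) (nat_lit 480) (nat_lit 5) (nat_lit 481) (nat_lit 5)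 (nat_lit 424) (nat_lit 421) (nat_lit 295)) (XT.nd (nat_lit 78) (nat_lit 0) (nat_lit 76) (XT.lf (nat_lit 0) (nat_lit 1797604899) (nat_lit 1596) (nat_lit 1335449287) (nat_lit 1672) (nat_lit 6894906970) (nat_lit 459) (nat_lit 5) (nat_lit 480) (nat_lit 5) (nat_lit 481) (nat_lit 5) (nat_lit 425) (nat_lit 421) (nat_lit 294)) (XT.lf (nat_lit 0) (nat_lit 2635900849) (nat_lit 1596) (nat_lit 6497913400) (nat_lit 1672) (nat_lit 981743261) (nat_lit 460) (nat_lit 5) (nat_lit 481) (nat_lit 5) (nat_lit 482) (nat_lit 5) (nat_lit 426) (nat_lit 421) (nat_lit 293))))) (XT.nd (nat_lit 234) (nat_lit 0) (nat_lit 76) (XT.nd (nat_lit 78) (nat_lit 0) (nat_lit 0) (XT.lf (nat_lit 0) (nat_lit 3502565454) (nat_lit 1596) (nat_lit 1548275159) (nat_lit 1672) (nat_lit 5153839869) (nat_lit 460) (nat_lit 5) (nat_lit 481) (nat_lit 5) (nat_lit 482) (nat_lit 5) (nat_lit 427) (nat_lit 421) (nat_lit 292)) (XT.nd (nat_lit 78) (nat_lit 0) (nat_lit 76) (XT.lf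 (nat_lit 76) (nat_lit 3536301458) (nat_lit 0) (nat_lit 855411237) (nat_lit 1672) (nat_lit 5903776844) (nat_lit 461) (nat_lit 5) (nat_lit 460) (nat_lit 5) (nat_lit 482) (nat_lit 5) (nat_lit 428) (nat_lit 421) (nat_lit 291)) (XT.lf (nat_lit 0) (nat_lit 5313849608) (nat_lit 1596) (nat_lit 1677417854) (nat_lit 1672) (nat_lit 3396549665) (nat_lit 461) (nat_lit 5) (nat_lit 482) (nat_lit 5) (nat_lit 483) (nat_lit 5) (nat_lit 429) (nat_lit 421) (nat_lit 290)))) (XT.nd (nat_lit 78) (nat_lit 0) (nat_lit 76) (XT.lf (nat_lit 76) (nat_lit 3536142549) (nat_lit 0) (nat_lit 2729771232) (nat_lit 1672) (nat_lit 4215854155) (nat_lit 462) (nat_lit 5) (nat_lit 461) (nat_lit 5) (nat_lit 483) (nat_lit 5) (nat_lit 430) (nat_lit 421) (nat_lit 289)) (XT.nd (nat_lit 78) (nat_lit 0) (nat_lit 0) (XT.lf (nat_lit 0) (nat_lit 7242018464) (nat_lit 1596) (nat_lit 1722106568) (nat_lit 1672) (nat_lit 1613378972) (nat_lit 462) (nat_lit 5) (nat_lit 483)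 (nat_lit 5) (nat_lit 484) (nat_lit 5) (nat_lit 431) (nat_lit 421) (nat_lit 288)) (XT.lf (nat_lit 76) (nat_lit 3624683190) (nat_lit 0) (nat_lit 4638073836) (nat_lit 1672) (nat_lit 2411901645) (nat_lit 463) (nat_lit 5) (nat_lit 462) (nat_lit 5) (nat_lit 484) (nat_lit 5) (nat_lit 432) (nat_lit 421) (nat_lit 287)))))) (XT.nd (nat_lit 390) (nat_lit 0) (nat_lit 152) (XT.nd (nat_lit 156) (nat_lit 1596) (nat_lit 0) (XT.nd (nat_lit 78) (nat_lit 0) (nat_lit 76) (XT.lf (nat_lit 76) (nat_lit 9091162632) (nat_lit 0) (nat_lit 208058728) (nat_lit 1672) (nat_lit 1474634842) (nat_lit 463) (nat_lit 5) (nat_lit 462) (nat_lit 5) (nat_lit 484) (nat_lit 5) (nat_lit 433) (nat_lit 421) (nat_lit 286)) (XT.lf (nat_lit 76) (nat_lit 3803082612) (nat_lit 0) (nat_lit 6590120784) (nat_lit 1672) (nat_lit 481104389) (nat_lit 464) (nat_lit 5) (nat_lit 463) (nat_lit 5) (nat_lit 485) (nat_lit 5) (nat_lit 434) (nat_lit 421) (nat_lit 285))) (XT.nd (nat_lit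 78) (nat_lit 0) (nat_lit 76) (XT.lf (nat_lit 0) (nat_lit 522302188) (nat_lit 1672) (nat_lit 1570954437) (nat_lit 1748) (nat_lit 8883508567) (nat_lit 441) (nat_lit 5) (nat_lit 463) (nat_lit 5) (nat_lit 464) (nat_lit 5) (nat_lit 435) (nat_lit 421) (nat_lit 284)) (XT.nd (nat_lit 78) (nat_lit 0) (nat_lit 0) (XT.lf (nat_lit 0) (nat_lit 1566792719) (nat_lit 1672) (nat_lit 7018451641) (nat_lit 1748) (nat_lit 2495420163) (nat_lit 442) (nat_lit 5) (nat_lit 464) (nat_lit 5) (nat_lit 465) (nat_lit 5) (nat_lit 436) (nat_lit 421) (nat_lit 283)) (XT.lf (nat_lit 0) (nat_lit 2641462692) (nat_lit 1672) (nat_lit 1381968034) (nat_lit 1748) (nat_lit 7163030746) (nat_lit 442) (nat_lit 5) (nat_lit 464) (nat_lit 5) (nat_lit 465) (nat_lit 5) (nat_lit 437) (nat_lit 421) (nat_lit 282))))) (XT.nd (nat_lit 234) (nat_lit 0) (nat_lit 76) (XT.nd (nat_lit 78) (nat_lit 0) (nat_lit 0) (XT.lf (nat_lit 0) (nat_lit 3755705078) (nat_lit 1672) (nat_lit 6883996124)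 (nat_lit 1748) (nat_lit 654316898) (nat_lit 443) (nat_lit 5) (nat_lit 465) (nat_lit 5) (nat_lit 466) (nat_lit 5) (nat_lit 438) (nat_lit 421) (nat_lit 281)) (XT.nd (nat_lit 78) (nat_lit 0) (nat_lit 0) (XT.lf (nat_lit 0) (nat_lit 4913574416) (nat_lit 1672) (nat_lit 1104644519) (nat_lit 1748) (nat_lit 5385085299) (nat_lit 443) (nat_lit 5) (nat_lit 465) (nat_lit 5) (nat_lit 466) (nat_lit 5) (nat_lit 439) (nat_lit 421) (nat_lit 280)) (XT.lf (nat_lit 76) (nat_lit 4843044649) (nat_lit 0) (nat_lit 1268649494) (nat_lit 1748) (nat_lit 5402745199) (nat_lit 444) (nat_lit 5) (nat_lit 443) (nat_lit 5) (nat_lit 466) (nat_lit 5) (nat_lit 440) (nat_lit 421) (nat_lit 279)))) (XT.nd (nat_lit 78) (nat_lit 0) (nat_lit 0) (XT.lf (nat_lit 0) (nat_lit 7350338341) (nat_lit 1672) (nat_lit 737260019) (nat_lit 1748) (nat_lit 3539872562) (nat_lit 444) (nat_lit 5) (nat_lit 466) (nat_lit 5) (nat_lit 467) (nat_lit 5) (nat_lit 441) (nat_lit 421) (nat_lit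 278)) (XT.nd (nat_lit 78) (nat_lit 0) (nat_lit 76) (XT.lf (nat_lit 76) (nat_lit 5366751219) (nat_lit 0) (nat_lit 3276410220) (nat_lit 1748) (nat_lit 3099018490) (nat_lit 445) (nat_lit 5) (nat_lit 444) (nat_lit 5) (nat_lit 467) (nat_lit 5) (nat_lit 442) (nat_lit 421) (nat_lit 277)) (XT.lf (nat_lit 0) (nat_lit 9963791295) (nat_lit 1672) (nat_lit 277885971) (nat_lit 1748) (nat_lit 1617471661) (nat_lit 445) (nat_lit 5) (nat_lit 467) (nat_lit 5) (nat_lit 468) (nat_lit 5) (nat_lit 443) (nat_lit 421) (nat_lit 276))))))))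
noncomputable def xc191 : XT := (XT.nd (nat_lit 1716) (nat_lit 7676) (nat_lit 0) (XT.nd (nat_lit 858) (nat_lit 4788) (nat_lit 0) (XT.nd (nat_lit 390) (nat_lit 2964) (nat_lit 0) (XT.nd (nat_lit 156) (nat_lit 1672) (nat_lit 0) (XT.nd (nat_lit 78) (nat_lit 1748) (nat_lit 0) (XT.lf (nat_lit 76) (nat_lit 5987638566) (nat_lit 0) (nat_lit 5370416615) (nat_lit 1748) (nat_lit 619462418) (nat_lit 446) (nat_lit 5) (nat_lit 445) (nat_lit 5) (nat_lit 468) (nat_lit 5) (nat_lit 444) (nat_lit 421) (nat_lit 275)) (XT.lf (nat_lit 76) (nat_lit 272245047) (nat_lit 0) (nat_lit 391154512) (nat_lit 1824) (nat_lit 11434962217) (nat_lit 423) (nat_lit 5) (nat_lit 422) (nat_lit 5) (nat_lit 446) (nat_lit 5) (nat_lit 445) (nat_lit 421) (nat_lit 274))) (XT.nd (nat_lit 78) (nat_lit 1748) (nat_lit 0) (XT.lf (nat_lit 0) (nat_lit 2021480957) (nat_lit 1748) (nat_lit 5525935042) (nat_lit 76) (nat_lit 4672972261) (nat_lit 423) (nat_lit 5) (nat_lit 446)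 (nat_lit 5) (nat_lit 424) (nat_lit 5) (nat_lit 446) (nat_lit 421) (nat_lit 273)) (XT.nd (nat_lit 78) (nat_lit 0) (nat_lit 0) (XT.lf (nat_lit 0) (nat_lit 898544520) (nat_lit 1748) (nat_lit 2503811658) (nat_lit 1824) (nat_lit 8942590812) (nat_lit 400) (nat_lit 5) (nat_lit 423) (nat_lit 5) (nat_lit 424) (nat_lit 5) (nat_lit 447) (nat_lit 421) (nat_lit 272)) (XT.lf (nat_lit 0) (nat_lit 4852721289) (nat_lit 1824) (nat_lit 4973322888) (nat_lit 76) (nat_lit 2645119551) (nat_lit 400) (nat_lit 5) (nat_lit 424) (nat_lit 5) (nat_lit 401) (nat_lit 5) (nat_lit 448) (nat_lit 421) (nat_lit 271))))) (XT.nd (nat_lit 234) (nat_lit 912) (nat_lit 0) (XT.nd (nat_lit 78) (nat_lit 912) (nat_lit 0) (XT.lf (nat_lit 0) (nat_lit 1623044563) (nat_lit 1140) (nat_lit 4723815540) (nat_lit 1216) (nat_lit 6252753562) (nat_lit 385) (nat_lit 5) (nat_lit 400) (nat_lit 5) (nat_lit 401) (nat_lit 5) (nat_lit 449) (nat_lit 421) (nat_lit 270)) (XT.nd (nat_lit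 78) (nat_lit 912) (nat_lit 0) (XT.lf (nat_lit 0) (nat_lit 7895423731) (nat_lit 1216) (nat_lit 4325615323) (nat_lit 76) (nat_lit 509106818) (nat_lit 385) (nat_lit 5) (nat_lit 401) (nat_lit 5) (nat_lit 386) (nat_lit 5) (nat_lit 450) (nat_lit 421) (nat_lit 269)) (XT.lf (nat_lit 0) (nat_lit 2448337519) (nat_lit 912) (nat_lit 7061867513) (nat_lit 988) (nat_lit 3352382795) (nat_lit 373) (nat_lit 5) (nat_lit 385) (nat_lit 5) (nat_lit 386) (nat_lit 5) (nat_lit 451) (nat_lit 421) (nat_lit 268)))) (XT.nd (nat_lit 78) (nat_lit 912) (nat_lit 0) (XT.lf (nat_lit 0) (nat_lit 9405628780) (nat_lit 912) (nat_lit 1768910985) (nat_lit 988) (nat_lit 1822797653) (nat_lit 373) (nat_lit 5) (nat_lit 385) (nat_lit 5) (nat_lit 386) (nat_lit 5) (nat_lit 452) (nat_lit 421) (nat_lit 267)) (XT.nd (nat_lit 78) (nat_lit 76) (nat_lit 0) (XT.lf (nat_lit 0) (nat_lit 3377203568) (nat_lit 836) (nat_lit 9528920165) (nat_lit 912) (nat_lit 227982890) (nat_lit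 362) (nat_lit 5) (nat_lit 373) (nat_lit 5) (nat_lit 374) (nat_lit 5) (nat_lit 453) (nat_lit 421) (nat_lit 266)) (XT.lf (nat_lit 0) (nat_lit 1404905203) (nat_lit 912) (nat_lit 2770794371) (nat_lit 76) (nat_lit 9097243300) (nat_lit 361) (nat_lit 5) (nat_lit 373) (nat_lit 5) (nat_lit 362) (nat_lit 5) (nat_lit 454) (nat_lit 421) (nat_lit 265)))))) (XT.nd (nat_lit 390) (nat_lit 2280) (nat_lit 0) (XT.nd (nat_lit 156) (nat_lit 1672) (nat_lit 0) (XT.nd (nat_lit 78) (nat_lit 0) (nat_lit 0) (XT.lf (nat_lit 0) (nat_lit 3093285490) (nat_lit 912) (nat_lit 9022161335) (nat_lit 76) (nat_lit 1298564796) (nat_lit 350) (nat_lit 5) (nat_lit 362) (nat_lit 5) (nat_lit 351) (nat_lit 5) (nat_lit 455) (nat_lit 421) (nat_lit 264)) (XT.lf (nat_lit 0) (nat_lit 4850727752) (nat_lit 912) (nat_lit 1860834469) (nat_lit 76) (nat_lit 6845637213) (nat_lit 350) (nat_lit 5) (nat_lit 362) (nat_lit 5) (nat_lit 351) (nat_lit 5) (nat_lit 456) (nat_lit 421)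 (nat_lit 263))) (XT.nd (nat_lit 78) (nat_lit 836) (nat_lit 0) (XT.lf (nat_lit 0) (nat_lit 5505299868) (nat_lit 836) (nat_lit 1162904330) (nat_lit 912) (nat_lit 7034552609) (nat_lit 339) (nat_lit 5) (nat_lit 350) (nat_lit 5) (nat_lit 351) (nat_lit 5) (nat_lit 457) (nat_lit 421) (nat_lit 262)) (XT.nd (nat_lit 78) (nat_lit 836) (nat_lit 0) (XT.lf (nat_lit 0) (nat_lit 8553082518) (nat_lit 912) (nat_lit 847043982) (nat_lit 76) (nat_lit 4450481221) (nat_lit 339) (nat_lit 5) (nat_lit 351) (nat_lit 5) (nat_lit 340) (nat_lit 5) (nat_lit 458) (nat_lit 421) (nat_lit 261)) (XT.lf (nat_lit 0) (nat_lit 6720253448) (nat_lit 836) (nat_lit 3796235452) (nat_lit 912) (nat_lit 3484113516) (nat_lit 328) (nat_lit 5) (nat_lit 339) (nat_lit 5) (nat_lit 340) (nat_lit 5) (nat_lit 459) (nat_lit 421) (nat_lit 260))))) (XT.nd (nat_lit 234) (nat_lit 684) (nat_lit 0) (XT.nd (nat_lit 78) (nat_lit 836) (nat_lit 0) (XT.lf (nat_lit 0) (nat_lit 277330727)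 (nat_lit 760) (nat_lit 12251453060) (nat_lit 836) (nat_lit 1624624117) (nat_lit 318) (nat_lit 5) (nat_lit 328) (nat_lit 5) (nat_lit 329) (nat_lit 5) (nat_lit 460) (nat_lit 421) (nat_lit 259)) (XT.nd (nat_lit 78) (nat_lit 760) (nat_lit 0) (XT.lf (nat_lit 0) (nat_lit 332503273) (nat_lit 836) (nat_lit 6261441678) (nat_lit 76) (nat_lit 7714012078) (nat_lit 317) (nat_lit 5) (nat_lit 328) (nat_lit 5) (nat_lit 318) (nat_lit 5) (nat_lit 461) (nat_lit 421) (nat_lit 258)) (XT.lf (nat_lit 0) (nat_lit 1503892625) (nat_lit 760) (nat_lit 802810597) (nat_lit 836) (nat_lit 12158688580) (nat_lit 307) (nat_lit 5) (nat_lit 317) (nat_lit 5) (nat_lit 318) (nat_lit 5) (nat_lit 462) (nat_lit 421) (nat_lit 257)))) (XT.nd (nat_lit 78) (nat_lit 684) (nat_lit 0) (XT.lf (nat_lit 0) (nat_lit 4385848221) (nat_lit 836) (nat_lit 5159831853) (nat_lit 76) (nat_lit 5078989030) (nat_lit 307) (nat_lit 5) (nat_lit 318) (nat_lit 5) (nat_lit 308) (nat_lit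 5) (nat_lit 463) (nat_lit 421) (nat_lit 256)) (XT.nd (nat_lit 78) (nat_lit 0) (nat_lit 0) (XT.lf (nat_lit 0) (nat_lit 2819045784) (nat_lit 684) (nat_lit 3701371364) (nat_lit 760) (nat_lit 8266440980) (nat_lit 298) (nat_lit 5) (nat_lit 307) (nat_lit 5) (nat_lit 308) (nat_lit 5) (nat_lit 464) (nat_lit 421) (nat_lit 255)) (XT.lf (nat_lit 0) (nat_lit 8737544759) (nat_lit 760) (nat_lit 3949657038) (nat_lit 76) (nat_lit 2264294726) (nat_lit 298) (nat_lit 5) (nat_lit 308) (nat_lit 5) (nat_lit 299) (nat_lit 5) (nat_lit 465) (nat_lit 421) (nat_lit 254))))))) (XT.nd (nat_lit 858) (nat_lit 3496) (nat_lit 0) (XT.nd (nat_lit 390) (nat_lit 1976) (nat_lit 0) (XT.nd (nat_lit 156) (nat_lit 1444) (nat_lit 0) (XT.nd (nat_lit 78) (nat_lit 0) (nat_lit 0) (XT.lf (nat_lit 0) (nat_lit 4249691426) (nat_lit 760) (nat_lit 6791957643) (nat_lit 836) (nat_lit 4076928812) (nat_lit 288) (nat_lit 5) (nat_lit 298) (nat_lit 5) (nat_lit 299) (nat_lit 5)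 (nat_lit 466) (nat_lit 421) (nat_lit 253)) (XT.lf (nat_lit 0) (nat_lit 12656240852) (nat_lit 760) (nat_lit 752747482) (nat_lit 836) (nat_lit 1879672298) (nat_lit 288) (nat_lit 5) (nat_lit 298) (nat_lit 5) (nat_lit 299) (nat_lit 5) (nat_lit 467) (nat_lit 421) (nat_lit 252))) (XT.nd (nat_lit 78) (nat_lit 684) (nat_lit 0) (XT.lf (nat_lit 0) (nat_lit 420793117) (nat_lit 760) (nat_lit 9664217255) (nat_lit 76) (nat_lit 5375810327) (nat_lit 278) (nat_lit 5) (nat_lit 288) (nat_lit 5) (nat_lit 279) (nat_lit 5) (nat_lit 468) (nat_lit 421) (nat_lit 251)) (XT.nd (nat_lit 78) (nat_lit 684) (nat_lit 0) (XT.lf (nat_lit 0) (nat_lit 2755766060) (nat_lit 760) (nat_lit 1234088887) (nat_lit 76) (nat_lit 11646049846) (nat_lit 278) (nat_lit 5) (nat_lit 288) (nat_lit 5) (nat_lit 279) (nat_lit 5) (nat_lit 469) (nat_lit 421) (nat_lit 250)) (XT.lf (nat_lit 0) (nat_lit 5191651703) (nat_lit 760) (nat_lit 8376253281) (nat_lit 76) (nat_lit 2245503929)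 (nat_lit 269) (nat_lit 5) (nat_lit 279) (nat_lit 5) (nat_lit 270) (nat_lit 5) (nat_lit 470) (nat_lit 421) (nat_lit 249))))) (XT.nd (nat_lit 234) (nat_lit 684) (nat_lit 0) (XT.nd (nat_lit 78) (nat_lit 684) (nat_lit 0) (XT.lf (nat_lit 0) (nat_lit 271073950) (nat_lit 608) (nat_lit 7432857359) (nat_lit 684) (nat_lit 8289980836) (nat_lit 261) (nat_lit 5) (nat_lit 269) (nat_lit 5) (nat_lit 270) (nat_lit 5) (nat_lit 471) (nat_lit 421) (nat_lit 248)) (XT.nd (nat_lit 78) (nat_lit 684) (nat_lit 0) (XT.lf (nat_lit 0) (nat_lit 9194698077) (nat_lit 608) (nat_lit 1119231866) (nat_lit 684) (nat_lit 5863148537) (nat_lit 261) (nat_lit 5) (nat_lit 269) (nat_lit 5) (nat_lit 270) (nat_lit 5) (nat_lit 472) (nat_lit 421) (nat_lit 247)) (XT.lf (nat_lit 0) (nat_lit 1913277631) (nat_lit 684) (nat_lit 11101244862) (nat_lit 760) (nat_lit 3348620227) (nat_lit 252) (nat_lit 5) (nat_lit 261) (nat_lit 5) (nat_lit 262) (nat_lit 5) (nat_lit 473) (nat_lit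 421) (nat_lit 246)))) (XT.nd (nat_lit 78) (nat_lit 684) (nat_lit 0) (XT.lf (nat_lit 0) (nat_lit 11063896418) (nat_lit 684) (nat_lit 4750978276) (nat_lit 760) (nat_lit 737141004) (nat_lit 252) (nat_lit 5) (nat_lit 261) (nat_lit 5) (nat_lit 262) (nat_lit 5) (nat_lit 474) (nat_lit 421) (nat_lit 245)) (XT.nd (nat_lit 78) (nat_lit 0) (nat_lit 0) (XT.lf (nat_lit 0) (nat_lit 1928260720) (nat_lit 684) (nat_lit 13076953522) (nat_lit 76) (nat_lit 1738664834) (nat_lit 243) (nat_lit 5) (nat_lit 252) (nat_lit 5) (nat_lit 244) (nat_lit 5) (nat_lit 475) (nat_lit 421) (nat_lit 244)) (XT.lf (nat_lit 0) (nat_lit 4697371181) (nat_lit 684) (nat_lit 3906064227) (nat_lit 76) (nat_lit 8334843713) (nat_lit 243) (nat_lit 5) (nat_lit 252) (nat_lit 5) (nat_lit 244) (nat_lit 5) (nat_lit 476) (nat_lit 421) (nat_lit 243)))))) (XT.nd (nat_lit 390) (nat_lit 1672) (nat_lit 0) (XT.nd (nat_lit 156) (nat_lit 1216) (nat_lit 0) (XT.nd (nat_lit 78) (nat_lit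 0) (nat_lit 0) (XT.lf (nat_lit 0) (nat_lit 5510617356) (nat_lit 608) (nat_lit 2038913604) (nat_lit 684) (nat_lit 9586485089) (nat_lit 235) (nat_lit 5) (nat_lit 243) (nat_lit 5) (nat_lit 244) (nat_lit 5) (nat_lit 477) (nat_lit 421) (nat_lit 242)) (XT.lf (nat_lit 0) (nat_lit 10507326881) (nat_lit 684) (nat_lit 2208996272) (nat_lit 76) (nat_lit 4620414888) (nat_lit 235) (nat_lit 5) (nat_lit 244) (nat_lit 5) (nat_lit 236) (nat_lit 5) (nat_lit 478) (nat_lit 421) (nat_lit 241))) (XT.nd (nat_lit 78) (nat_lit 684) (nat_lit 0) (XT.lf (nat_lit 0) (nat_lit 7470419286) (nat_lit 532) (nat_lit 6107994437) (nat_lit 608) (nat_lit 3961980186) (nat_lit 228) (nat_lit 5) (nat_lit 235) (nat_lit 5) (nat_lit 236) (nat_lit 5) (nat_lit 479) (nat_lit 421) (nat_lit 240)) (XT.nd (nat_lit 78) (nat_lit 684) (nat_lit 0) (XT.lf (nat_lit 0) (nat_lit 16722158535) (nat_lit 608) (nat_lit 388533262) (nat_lit 76) (nat_lit 637208472) (nat_lit 228) (nat_lit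 5) (nat_lit 236) (nat_lit 5) (nat_lit 229) (nat_lit 5) (nat_lit 480) (nat_lit 421) (nat_lit 239)) (XT.lf (nat_lit 0) (nat_lit 2038913844) (nat_lit 684) (nat_lit 8409258520) (nat_lit 76) (nat_lit 7509220316) (nat_lit 219) (nat_lit 5) (nat_lit 228) (nat_lit 5) (nat_lit 220) (nat_lit 5) (nat_lit 481) (nat_lit 421) (nat_lit 238))))) (XT.nd (nat_lit 234) (nat_lit 608) (nat_lit 0) (XT.nd (nat_lit 78) (nat_lit 532) (nat_lit 0) (XT.lf (nat_lit 0) (nat_lit 1521204819) (nat_lit 532) (nat_lit 3634833161) (nat_lit 608) (nat_lit 13014805130) (nat_lit 212) (nat_lit 5) (nat_lit 219) (nat_lit 5) (nat_lit 220) (nat_lit 5) (nat_lit 482) (nat_lit 421) (nat_lit 237)) (XT.nd (nat_lit 78) (nat_lit 532) (nat_lit 0) (XT.lf (nat_lit 0) (nat_lit 8406299243) (nat_lit 608) (nat_lit 6654851345) (nat_lit 76) (nat_lit 3325998005) (nat_lit 212) (nat_lit 5) (nat_lit 220) (nat_lit 5) (nat_lit 213) (nat_lit 5) (nat_lit 483) (nat_lit 421) (nat_lit 236))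 (XT.lf (nat_lit 0) (nat_lit 3552757465) (nat_lit 532) (nat_lit 8208563214) (nat_lit 608) (nat_lit 6845666307) (nat_lit 205) (nat_lit 5) (nat_lit 212) (nat_lit 5) (nat_lit 213) (nat_lit 5) (nat_lit 484) (nat_lit 421) (nat_lit 235)))) (XT.nd (nat_lit 78) (nat_lit 608) (nat_lit 0) (XT.lf (nat_lit 0) (nat_lit 14045192668) (nat_lit 532) (nat_lit 1175606658) (nat_lit 608) (nat_lit 3609677548) (nat_lit 205) (nat_lit 5) (nat_lit 212) (nat_lit 5) (nat_lit 213) (nat_lit 5) (nat_lit 485) (nat_lit 421) (nat_lit 234)) (XT.nd (nat_lit 78) (nat_lit 76) (nat_lit 0) (XT.lf (nat_lit 0) (nat_lit 5715579954) (nat_lit 532) (nat_lit 13102768142) (nat_lit 608) (nat_lit 238712678) (nat_lit 198) (nat_lit 5) (nat_lit 205) (nat_lit 5) (nat_lit 206) (nat_lit 5) (nat_lit 486) (nat_lit 421) (nat_lit 233)) (XT.lf (nat_lit 0) (nat_lit 3190676052) (nat_lit 608) (nat_lit 2834491625) (nat_lit 76) (nat_lit 13261935566) (nat_lit 197) (nat_lit 5) (nat_lit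 205) (nat_lit 5) (nat_lit 198) (nat_lit 5) (nat_lit 487) (nat_lit 421) (nat_lit 232))))))))
noncomputable def xc192 : XT := (XT.nd (nat_lit 54600) (nat_lit 0) (nat_lit 19608) (XT.nd (nat_lit 780) (nat_lit 1292) (nat_lit 0) (XT.nd (nat_lit 390) (nat_lit 1368) (nat_lit 0) (XT.nd (nat_lit 156) (nat_lit 988) (nat_lit 0) (XT.nd (nat_lit 78) (nat_lit 0) (nat_lit 0) (XT.lf (nat_lit 0) (nat_lit 6738336308) (nat_lit 608) (nat_lit 11552569434) (nat_lit 76) (nat_lit 1229753380) (nat_lit 190) (nat_lit 5) (nat_lit 198) (nat_lit 5) (nat_lit 191) (nat_lit 5) (nat_lit 488) (nat_lit 421) (nat_lit 231)) (XT.lf (nat_lit 0) (nat_lit 10409059309) (nat_lit 608) (nat_lit 782777802) (nat_lit 76) (nat_lit 8566008501) (nat_lit 190) (nat_lit 5) (nat_lit 198) (nat_lit 5) (nat_lit 191) (nat_lit 5) (nat_lit 489) (nat_lit 421) (nat_lit 230))) (XT.nd (nat_lit 78) (nat_lit 532) (nat_lit 0) (XT.lf (nat_lit 0) (nat_lit 10328666816) (nat_lit 456) (nat_lit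 3884787442) (nat_lit 532) (nat_lit 5785118080) (nat_lit 184) (nat_lit 5) (nat_lit 190) (nat_lit 5) (nat_lit 191) (nat_lit 5) (nat_lit 490) (nat_lit 421) (nat_lit 229)) (XT.nd (nat_lit 78) (nat_lit 76) (nat_lit 0) (XT.lf (nat_lit 0) (nat_lit 1415032597) (nat_lit 456) (nat_lit 16709803188) (nat_lit 532) (nat_lit 2118661460) (nat_lit 178) (nat_lit 5) (nat_lit 184) (nat_lit 5) (nat_lit 185) (nat_lit 5) (nat_lit 491) (nat_lit 421) (nat_lit 228)) (XT.lf (nat_lit 0) (nat_lit 1684191918) (nat_lit 532) (nat_lit 7685252483) (nat_lit 76) (nat_lit 11121980720) (nat_lit 177) (nat_lit 5) (nat_lit 184) (nat_lit 5) (nat_lit 178) (nat_lit 5) (nat_lit 492) (nat_lit 421) (nat_lit 227))))) (XT.nd (nat_lit 156) (nat_lit 912) (nat_lit 0) (XT.nd (nat_lit 78) (nat_lit 0) (nat_lit 0) (XT.lf (nat_lit 0) (nat_lit 3706288947) (nat_lit 456) (nat_lit 1845948475) (nat_lit 532) (nat_lit 15191445496) (nat_lit 171) (nat_lit 5) (nat_lit 177) (nat_lit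 5) (nat_lit 178) (nat_lit 5) (nat_lit 493) (nat_lit 421) (nat_lit 226)) (XT.lf (nat_lit 0) (nat_lit 9580864440) (nat_lit 532) (nat_lit 5617466639) (nat_lit 76) (nat_lit 5800991876) (nat_lit 171) (nat_lit 5) (nat_lit 178) (nat_lit 5) (nat_lit 172) (nat_lit 5) (nat_lit 494) (nat_lit 421) (nat_lit 225))) (XT.nd (nat_lit 78) (nat_lit 456) (nat_lit 0) (XT.lf (nat_lit 0) (nat_lit 6089511069) (nat_lit 456) (nat_lit 7645910608) (nat_lit 532) (nat_lit 7523748430) (nat_lit 165) (nat_lit 5) (nat_lit 171) (nat_lit 5) (nat_lit 172) (nat_lit 5) (nat_lit 495) (nat_lit 421) (nat_lit 224)) (XT.nd (nat_lit 78) (nat_lit 456) (nat_lit 0) (XT.lf (nat_lit 0) (nat_lit 18005036044) (nat_lit 532) (nat_lit 3426349644) (nat_lit 76) (nat_lit 92190635) (nat_lit 165) (nat_lit 5) (nat_lit 172) (nat_lit 5) (nat_lit 166) (nat_lit 5) (nat_lit 496) (nat_lit 421) (nat_lit 223)) (XT.lf (nat_lit 0) (nat_lit 660278209) (nat_lit 456) (nat_lit 13190424463)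 (nat_lit 76) (nat_lit 7940476987) (nat_lit 159) (nat_lit 5) (nat_lit 165) (nat_lit 5) (nat_lit 160) (nat_lit 5) (nat_lit 497) (nat_lit 421) (nat_lit 222)))))) (XT.nd (nat_lit 390) (nat_lit 0) (nat_lit 0) (XT.nd (nat_lit 156) (nat_lit 836) (nat_lit 0) (XT.nd (nat_lit 78) (nat_lit 456) (nat_lit 0) (XT.lf (nat_lit 0) (nat_lit 4892542569) (nat_lit 456) (nat_lit 1181170705) (nat_lit 76) (nat_lit 15989618338) (nat_lit 159) (nat_lit 5) (nat_lit 165) (nat_lit 5) (nat_lit 160) (nat_lit 5) (nat_lit 498) (nat_lit 421) (nat_lit 221)) (XT.lf (nat_lit 0) (nat_lit 9288661410) (nat_lit 532) (nat_lit 11145598642) (nat_lit 76) (nat_lit 1905083699) (nat_lit 153) (nat_lit 5) (nat_lit 160) (nat_lit 5) (nat_lit 154) (nat_lit 5) (nat_lit 499) (nat_lit 421) (nat_lit 220))) (XT.nd (nat_lit 78) (nat_lit 456) (nat_lit 0) (XT.lf (nat_lit 0) (nat_lit 1177863004) (nat_lit 380) (nat_lit 12644650634) (nat_lit 456) (nat_lit 8797367578) (nat_lit 148)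 (nat_lit 5) (nat_lit 153) (nat_lit 5) (nat_lit 154) (nat_lit 5) (nat_lit 500) (nat_lit 421) (nat_lit 219)) (XT.nd (nat_lit 78) (nat_lit 456) (nat_lit 0) (XT.lf (nat_lit 0) (nat_lit 13890171215) (nat_lit 380) (nat_lit 4625687926) (nat_lit 456) (nat_lit 4388795243) (nat_lit 148) (nat_lit 5) (nat_lit 153) (nat_lit 5) (nat_lit 154) (nat_lit 5) (nat_lit 501) (nat_lit 421) (nat_lit 218)) (XT.lf (nat_lit 0) (nat_lit 147880360) (nat_lit 456) (nat_lit 19517140938) (nat_lit 76) (nat_lit 3529261977) (nat_lit 142) (nat_lit 5) (nat_lit 148) (nat_lit 5) (nat_lit 143) (nat_lit 5) (nat_lit 502) (nat_lit 421) (nat_lit 217))))) (XT.nd (nat_lit 53196) (nat_lit 0) (nat_lit 24016) (XT.nd (nat_lit 53040) (nat_lit 0) (nat_lit 24016) (XT.lf (nat_lit 0) (nat_lit 4802247695) (nat_lit 456) (nat_lit 6812456865) (nat_lit 76) (nat_lit 11872706706) (nat_lit 142) (nat_lit 5) (nat_lit 148) (nat_lit 5) (nat_lit 143) (nat_lit 5) (nat_lit 503) (nat_lit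 421) (nat_lit 216)) (XT.nd (nat_lit 78) (nat_lit 0) (nat_lit 0) (XT.lf (nat_lit 0) (nat_lit 31760722) (nat_lit 0) (nat_lit 31760722) (nat_lit 1596) (nat_lit 4864896297) (nat_lit 458) (nat_lit 5) (nat_lit 458) (nat_lit 3) (nat_lit 479) (nat_lit 3) (nat_lit 422) (nat_lit 422) (nat_lit 296)) (XT.lf (nat_lit 0) (nat_lit 876493461) (nat_lit 1596) (nat_lit 5092998443) (nat_lit 1672) (nat_lit 3970680765) (nat_lit 458) (nat_lit 5) (nat_lit 479) (nat_lit 3) (nat_lit 480) (nat_lit 5) (nat_lit 423) (nat_lit 422) (nat_lit 295)))) (XT.nd (nat_lit 78) (nat_lit 0) (nat_lit 76) (XT.lf (nat_lit 0) (nat_lit 1622475380) (nat_lit 1596) (nat_lit 309014416) (nat_lit 1672) (nat_lit 8094062974) (nat_lit 458) (nat_lit 5) (nat_lit 479) (nat_lit 3) (nat_lit 480) (nat_lit 5) (nat_lit 424) (nat_lit 422) (nat_lit 294)) (XT.nd (nat_lit 78) (nat_lit 0) (nat_lit 0) (XT.lf (nat_lit 0) (nat_lit 2409331839) (nat_lit 1596) (nat_lit 5505335526) (nat_lit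 1672) (nat_lit 2197460890) (nat_lit 459) (nat_lit 5) (nat_lit 480) (nat_lit 5) (nat_lit 481) (nat_lit 5) (nat_lit 425) (nat_lit 422) (nat_lit 293)) (XT.lf (nat_lit 0) (nat_lit 3208651661) (nat_lit 1596) (nat_lit 598179245) (nat_lit 1672) (nat_lit 6393676565) (nat_lit 459) (nat_lit 5) (nat_lit 480) (nat_lit 5) (nat_lit 481) (nat_lit 5) (nat_lit 426) (nat_lit 422) (nat_lit 292))))))) (XT.nd (nat_lit 858) (nat_lit 3116) (nat_lit 0) (XT.nd (nat_lit 390) (nat_lit 1444) (nat_lit 0) (XT.nd (nat_lit 156) (nat_lit 0) (nat_lit 0) (XT.nd (nat_lit 78) (nat_lit 0) (nat_lit 0) (XT.lf (nat_lit 0) (nat_lit 4037821179) (nat_lit 1596) (nat_lit 5837499294) (nat_lit 1672) (nat_lit 415063144) (nat_lit 460) (nat_lit 5) (nat_lit 481) (nat_lit 5) (nat_lit 482) (nat_lit 5) (nat_lit 427) (nat_lit 422) (nat_lit 291)) (XT.lf (nat_lit 0) (nat_lit 4895364129) (nat_lit 1596) (nat_lit 804365786) (nat_lit 1672) (nat_lit 4682098057) (nat_lit 460) (nat_lit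 5) (nat_lit 481) (nat_lit 5) (nat_lit 482) (nat_lit 5) (nat_lit 428) (nat_lit 422) (nat_lit 290))) (XT.nd (nat_lit 78) (nat_lit 0) (nat_lit 76) (XT.lf (nat_lit 76) (nat_lit 4376804502) (nat_lit 0) (nat_lit 1404551494) (nat_lit 1672) (nat_lit 4693525613) (nat_lit 461) (nat_lit 5) (nat_lit 460) (nat_lit 5) (nat_lit 482) (nat_lit 5) (nat_lit 429) (nat_lit 422) (nat_lit 289)) (XT.nd (nat_lit 78) (nat_lit 0) (nat_lit 0) (XT.lf (nat_lit 0) (nat_lit 6693023406) (nat_lit 1596) (nat_lit 926898524) (nat_lit 1672) (nat_lit 2949721506) (nat_lit 461) (nat_lit 5) (nat_lit 482) (nat_lit 5) (nat_lit 483) (nat_lit 5) (nat_lit 430) (nat_lit 422) (nat_lit 288)) (XT.lf (nat_lit 76) (nat_lit 4385774747) (nat_lit 0) (nat_lit 3258452549) (nat_lit 1672) (nat_lit 3021653250) (nat_lit 462) (nat_lit 5) (nat_lit 461) (nat_lit 5) (nat_lit 483) (nat_lit 5) (nat_lit 431) (nat_lit 422) (nat_lit 287))))) (XT.nd (nat_lit 234) (nat_lit 1596) (nat_lit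 0) (XT.nd (nat_lit 78) (nat_lit 0) (nat_lit 0) (XT.lf (nat_lit 0) (nat_lit 8612267815) (nat_lit 1596) (nat_lit 964872058) (nat_lit 1672) (nat_lit 1186952266) (nat_lit 462) (nat_lit 5) (nat_lit 483) (nat_lit 5) (nat_lit 484) (nat_lit 5) (nat_lit 432) (nat_lit 422) (nat_lit 286)) (XT.nd (nat_lit 78) (nat_lit 0) (nat_lit 0) (XT.lf (nat_lit 76) (nat_lit 4483645097) (nat_lit 0) (nat_lit 5150854698) (nat_lit 1672) (nat_lit 1229077428) (nat_lit 463) (nat_lit 5) (nat_lit 462) (nat_lit 5) (nat_lit 484) (nat_lit 5) (nat_lit 433) (nat_lit 422) (nat_lit 285)) (XT.lf (nat_lit 76) (nat_lit 10044033181) (nat_lit 0) (nat_lit 624003613) (nat_lit 1672) (nat_lit 297203765) (nat_lit 463) (nat_lit 5) (nat_lit 462) (nat_lit 5) (nat_lit 484) (nat_lit 5) (nat_lit 434) (nat_lit 422) (nat_lit 284)))) (XT.nd (nat_lit 78) (nat_lit 0) (nat_lit 0) (XT.lf (nat_lit 0) (nat_lit 685990867) (nat_lit 1672) (nat_lit 6400927060) (nat_lit 1748) (nat_lit 3981114899)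 (nat_lit 441) (nat_lit 5) (nat_lit 463) (nat_lit 5) (nat_lit 464) (nat_lit 5) (nat_lit 435) (nat_lit 422) (nat_lit 283)) (XT.nd (nat_lit 78) (nat_lit 0) (nat_lit 76) (XT.lf (nat_lit 0) (nat_lit 1680082917) (nat_lit 1672) (nat_lit 809690687) (nat_lit 1748) (nat_lit 8683169208) (nat_lit 441) (nat_lit 5) (nat_lit 463) (nat_lit 5) (nat_lit 464) (nat_lit 5) (nat_lit 436) (nat_lit 422) (nat_lit 282)) (XT.lf (nat_lit 0) (nat_lit 2725855637) (nat_lit 1672) (nat_lit 6346127283) (nat_lit 1748) (nat_lit 2207337420) (nat_lit 442) (nat_lit 5) (nat_lit 464) (nat_lit 5) (nat_lit 465) (nat_lit 5) (nat_lit 437) (nat_lit 422) (nat_lit 281)))))) (XT.nd (nat_lit 390) (nat_lit 3192) (nat_lit 0) (XT.nd (nat_lit 156) (nat_lit 0) (nat_lit 76) (XT.nd (nat_lit 78) (nat_lit 0) (nat_lit 76) (XT.lf (nat_lit 0) (nat_lit 3799906715) (nat_lit 1672) (nat_lit 612849168) (nat_lit 1748) (nat_lit 6974927493) (nat_lit 442) (nat_lit 5) (nat_lit 464) (nat_lit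 5) (nat_lit 465) (nat_lit 5) (nat_lit 438) (nat_lit 422) (nat_lit 280)) (XT.lf (nat_lit 0) (nat_lit 4917962329) (nat_lit 1672) (nat_lit 6206058915) (nat_lit 1748) (nat_lit 373747071) (nat_lit 443) (nat_lit 5) (nat_lit 465) (nat_lit 5) (nat_lit 466) (nat_lit 5) (nat_lit 439) (nat_lit 422) (nat_lit 279))) (XT.nd (nat_lit 78) (nat_lit 0) (nat_lit 0) (XT.lf (nat_lit 0) (nat_lit 6077672521) (nat_lit 1672) (nat_lit 327112770) (nat_lit 1748) (nat_lit 5204888804) (nat_lit 443) (nat_lit 5) (nat_lit 465) (nat_lit 5) (nat_lit 466) (nat_lit 5) (nat_lit 440) (nat_lit 422) (nat_lit 278)) (XT.nd (nat_lit 78) (nat_lit 0) (nat_lit 76) (XT.lf (nat_lit 76) (nat_lit 5734269493) (nat_lit 0) (nat_lit 1549744125) (nat_lit 1748) (nat_lit 4439340551) (nat_lit 444) (nat_lit 5) (nat_lit 443) (nat_lit 5) (nat_lit 466) (nat_lit 5) (nat_lit 441) (nat_lit 422) (nat_lit 277)) (XT.lf (nat_lit 76) (nat_lit 50021630) (nat_lit 0) (nat_lit 8475516172) (nat_lit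 1748) (nat_lit 3313553738) (nat_lit 445) (nat_lit 5) (nat_lit 444) (nat_lit 5) (nat_lit 467) (nat_lit 5) (nat_lit 442) (nat_lit 422) (nat_lit 276))))) (XT.nd (nat_lit 234) (nat_lit 1672) (nat_lit 0) (XT.nd (nat_lit 78) (nat_lit 1672) (nat_lit 0) (XT.lf (nat_lit 76) (nat_lit 6270184875) (nat_lit 0) (nat_lit 3558722240) (nat_lit 1748) (nat_lit 2127500972) (nat_lit 445) (nat_lit 5) (nat_lit 444) (nat_lit 5) (nat_lit 467) (nat_lit 5) (nat_lit 443) (nat_lit 422) (nat_lit 275)) (XT.nd (nat_lit 78) (nat_lit 1748) (nat_lit 0) (XT.lf (nat_lit 76) (nat_lit 525528689) (nat_lit 0) (nat_lit 10632592614) (nat_lit 1748) (nat_lit 917958743) (nat_lit 446) (nat_lit 5) (nat_lit 445) (nat_lit 5) (nat_lit 468) (nat_lit 5) (nat_lit 444) (nat_lit 422) (nat_lit 274)) (XT.lf (nat_lit 0) (nat_lit 360618741) (nat_lit 1748) (nat_lit 5295354642) (nat_lit 1824) (nat_lit 6541155790) (nat_lit 422) (nat_lit 5) (nat_lit 445) (nat_lit 5) (nat_lit 446)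 (nat_lit 5) (nat_lit 445) (nat_lit 422) (nat_lit 273)))) (XT.nd (nat_lit 78) (nat_lit 1672) (nat_lit 0) (XT.lf (nat_lit 76) (nat_lit 1082579128) (nat_lit 0) (nat_lit 564200140) (nat_lit 1824) (nat_lit 10673816965) (nat_lit 423) (nat_lit 5) (nat_lit 422) (nat_lit 5) (nat_lit 446) (nat_lit 5) (nat_lit 446) (nat_lit 422) (nat_lit 272)) (XT.nd (nat_lit 78) (nat_lit 1748) (nat_lit 0) (XT.lf (nat_lit 0) (nat_lit 3011948794) (nat_lit 1748) (nat_lit 4826949142) (nat_lit 76) (nat_lit 4606573260) (nat_lit 423) (nat_lit 5) (nat_lit 446) (nat_lit 5) (nat_lit 424) (nat_lit 5) (nat_lit 447) (nat_lit 422) (nat_lit 271)) (XT.lf (nat_lit 0) (nat_lit 1720694323) (nat_lit 1748) (nat_lit 2686340260) (nat_lit 1824) (nat_lit 8165761012) (nat_lit 400) (nat_lit 5) (nat_lit 423) (nat_lit 5) (nat_lit 424) (nat_lit 5) (nat_lit 448) (nat_lit 422) (nat_lit 270))))))))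
noncomputable def xc193 : XT := (XT.nd (nat_lit 1716) (nat_lit 7600) (nat_lit 0) (XT.nd (nat_lit 858) (nat_lit 4636) (nat_lit 0) (XT.nd (nat_lit 390) (nat_lit 2584) (nat_lit 0) (XT.nd (nat_lit 156) (nat_lit 912) (nat_lit 0) (XT.nd (nat_lit 78) (nat_lit 1140) (nat_lit 0) (XT.lf (nat_lit 0) (nat_lit 5867198570) (nat_lit 1824) (nat_lit 4264858742) (nat_lit 76) (nat_lit 2569869754) (nat_lit 400) (nat_lit 5) (nat_lit 424) (nat_lit 5) (nat_lit 401) (nat_lit 5) (nat_lit 449) (nat_lit 422) (nat_lit 269)) (XT.lf (nat_lit 0) (nat_lit 2458120725) (nat_lit 1140) (nat_lit 4920321863) (nat_lit 1216) (nat_lit 5454765073) (nat_lit 385) (nat_lit 5) (nat_lit 400) (nat_lit 5) (nat_lit 401) (nat_lit 5) (nat_lit 450) (nat_lit 422) (nat_lit 268))) (XT.nd (nat_lit 78) (nat_lit 912) (nat_lit 0) (XT.lf (nat_lit 0) (nat_lit 8939589889) (nat_lit 1216) (nat_lit 3606562928) (nat_lit 76) (nat_lit 420571435) (nat_lit 385) (nat_lit 5) (nat_lit 401)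 (nat_lit 5) (nat_lit 386) (nat_lit 5) (nat_lit 451) (nat_lit 422) (nat_lit 267)) (XT.nd (nat_lit 78) (nat_lit 0) (nat_lit 0) (XT.lf (nat_lit 0) (nat_lit 3297569202) (nat_lit 912) (nat_lit 7276915863) (nat_lit 988) (nat_lit 2527579486) (nat_lit 373) (nat_lit 5) (nat_lit 385) (nat_lit 5) (nat_lit 386) (nat_lit 5) (nat_lit 452) (nat_lit 422) (nat_lit 266)) (XT.lf (nat_lit 0) (nat_lit 10378314819) (nat_lit 912) (nat_lit 1876652929) (nat_lit 988) (nat_lit 984889915) (nat_lit 373) (nat_lit 5) (nat_lit 385) (nat_lit 5) (nat_lit 386) (nat_lit 5) (nat_lit 453) (nat_lit 422) (nat_lit 265))))) (XT.nd (nat_lit 234) (nat_lit 836) (nat_lit 0) (XT.nd (nat_lit 78) (nat_lit 836) (nat_lit 0) (XT.lf (nat_lit 0) (nat_lit 621230503) (nat_lit 912) (nat_lit 9141758654) (nat_lit 76) (nat_lit 3616538745) (nat_lit 361) (nat_lit 5) (nat_lit 373) (nat_lit 5) (nat_lit 362) (nat_lit 5) (nat_lit 454) (nat_lit 422) (nat_lit 264)) (XT.nd (nat_lit 78)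 (nat_lit 836) (nat_lit 0) (XT.lf (nat_lit 0) (nat_lit 2267045673) (nat_lit 912) (nat_lit 2033295905) (nat_lit 76) (nat_lit 9221108145) (nat_lit 361) (nat_lit 5) (nat_lit 373) (nat_lit 5) (nat_lit 362) (nat_lit 5) (nat_lit 455) (nat_lit 422) (nat_lit 263)) (XT.lf (nat_lit 0) (nat_lit 3977726126) (nat_lit 912) (nat_lit 8397956923) (nat_lit 76) (nat_lit 1289891461) (nat_lit 350) (nat_lit 5) (nat_lit 362) (nat_lit 5) (nat_lit 351) (nat_lit 5) (nat_lit 456) (nat_lit 422) (nat_lit 262)))) (XT.nd (nat_lit 78) (nat_lit 836) (nat_lit 0) (XT.lf (nat_lit 0) (nat_lit 5754188313) (nat_lit 912) (nat_lit 1109180924) (nat_lit 76) (nat_lit 6948584634) (nat_lit 350) (nat_lit 5) (nat_lit 362) (nat_lit 5) (nat_lit 351) (nat_lit 5) (nat_lit 457) (nat_lit 422) (nat_lit 261)) (XT.nd (nat_lit 78) (nat_lit 0) (nat_lit 0) (XT.lf (nat_lit 0) (nat_lit 6399086164) (nat_lit 836) (nat_lit 1198203630) (nat_lit 912) (nat_lit 6363352198) (nat_lit 339)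 (nat_lit 5) (nat_lit 350) (nat_lit 5) (nat_lit 351) (nat_lit 5) (nat_lit 458) (nat_lit 422) (nat_lit 260)) (XT.lf (nat_lit 0) (nat_lit 9504186650) (nat_lit 912) (nat_lit 79741302) (nat_lit 76) (nat_lit 4527840561) (nat_lit 339) (nat_lit 5) (nat_lit 351) (nat_lit 5) (nat_lit 340) (nat_lit 5) (nat_lit 459) (nat_lit 422) (nat_lit 259)))))) (XT.nd (nat_lit 390) (nat_lit 2204) (nat_lit 0) (XT.nd (nat_lit 156) (nat_lit 836) (nat_lit 0) (XT.nd (nat_lit 78) (nat_lit 760) (nat_lit 0) (XT.lf (nat_lit 0) (nat_lit 7633742579) (nat_lit 836) (nat_lit 3862881961) (nat_lit 912) (nat_lit 2768348208) (nat_lit 328) (nat_lit 5) (nat_lit 339) (nat_lit 5) (nat_lit 340) (nat_lit 5) (nat_lit 460) (nat_lit 422) (nat_lit 258)) (XT.lf (nat_lit 0) (nat_lit 1072314816) (nat_lit 760) (nat_lit 12466940887) (nat_lit 836) (nat_lit 881781651) (nat_lit 318) (nat_lit 5) (nat_lit 328) (nat_lit 5) (nat_lit 329) (nat_lit 5) (nat_lit 461) (nat_lit 422) (nat_lit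 257))) (XT.nd (nat_lit 78) (nat_lit 760) (nat_lit 0) (XT.lf (nat_lit 0) (nat_lit 1089316369) (nat_lit 836) (nat_lit 5602511497) (nat_lit 76) (nat_lit 7887053609) (nat_lit 317) (nat_lit 5) (nat_lit 328) (nat_lit 5) (nat_lit 318) (nat_lit 5) (nat_lit 462) (nat_lit 422) (nat_lit 256)) (XT.nd (nat_lit 78) (nat_lit 0) (nat_lit 0) (XT.lf (nat_lit 0) (nat_lit 2312970551) (nat_lit 760) (nat_lit 780378473) (nat_lit 836) (nat_lit 11646313484) (nat_lit 307) (nat_lit 5) (nat_lit 317) (nat_lit 5) (nat_lit 318) (nat_lit 5) (nat_lit 463) (nat_lit 422) (nat_lit 255)) (XT.lf (nat_lit 0) (nat_lit 5199802077) (nat_lit 836) (nat_lit 4484805635) (nat_lit 76) (nat_lit 5217807591) (nat_lit 307) (nat_lit 5) (nat_lit 318) (nat_lit 5) (nat_lit 308) (nat_lit 5) (nat_lit 464) (nat_lit 422) (nat_lit 254))))) (XT.nd (nat_lit 234) (nat_lit 760) (nat_lit 0) (XT.nd (nat_lit 78) (nat_lit 760) (nat_lit 0) (XT.lf (nat_lit 0) (nat_lit 3648529668) (nat_lit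 684) (nat_lit 3719312273) (nat_lit 760) (nat_lit 7700194936) (nat_lit 298) (nat_lit 5) (nat_lit 307) (nat_lit 5) (nat_lit 308) (nat_lit 5) (nat_lit 465) (nat_lit 422) (nat_lit 253)) (XT.nd (nat_lit 78) (nat_lit 760) (nat_lit 0) (XT.lf (nat_lit 0) (nat_lit 9615609968) (nat_lit 760) (nat_lit 3256790148) (nat_lit 76) (nat_lit 2363846242) (nat_lit 298) (nat_lit 5) (nat_lit 308) (nat_lit 5) (nat_lit 299) (nat_lit 5) (nat_lit 466) (nat_lit 422) (nat_lit 252)) (XT.lf (nat_lit 0) (nat_lit 5101467258) (nat_lit 760) (nat_lit 6855517086) (nat_lit 836) (nat_lit 3449865432) (nat_lit 288) (nat_lit 5) (nat_lit 298) (nat_lit 5) (nat_lit 299) (nat_lit 5) (nat_lit 467) (nat_lit 422) (nat_lit 251)))) (XT.nd (nat_lit 78) (nat_lit 760) (nat_lit 0) (XT.lf (nat_lit 0) (nat_lit 13661112732) (nat_lit 760) (nat_lit 696939971) (nat_lit 836) (nat_lit 1222557943) (nat_lit 288) (nat_lit 5) (nat_lit 298) (nat_lit 5) (nat_lit 299) (nat_lit 5) (nat_lit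 468) (nat_lit 422) (nat_lit 250)) (XT.nd (nat_lit 78) (nat_lit 0) (nat_lit 0) (XT.lf (nat_lit 0) (nat_lit 1106784147) (nat_lit 760) (nat_lit 9088222900) (nat_lit 76) (nat_lit 5561281036) (nat_lit 278) (nat_lit 5) (nat_lit 288) (nat_lit 5) (nat_lit 279) (nat_lit 5) (nat_lit 469) (nat_lit 422) (nat_lit 249)) (XT.lf (nat_lit 0) (nat_lit 3475170761) (nat_lit 760) (nat_lit 504575861) (nat_lit 76) (nat_lit 11955396826) (nat_lit 278) (nat_lit 5) (nat_lit 288) (nat_lit 5) (nat_lit 279) (nat_lit 5) (nat_lit 470) (nat_lit 422) (nat_lit 248))))))) (XT.nd (nat_lit 858) (nat_lit 3192) (nat_lit 0) (XT.nd (nat_lit 390) (nat_lit 2432) (nat_lit 0) (XT.nd (nat_lit 156) (nat_lit 684) (nat_lit 0) (XT.nd (nat_lit 78) (nat_lit 608) (nat_lit 0) (XT.lf (nat_lit 0) (nat_lit 5952217848) (nat_lit 760) (nat_lit 7781837418) (nat_lit 76) (nat_lit 2382297307) (nat_lit 269) (nat_lit 5) (nat_lit 279) (nat_lit 5) (nat_lit 270) (nat_lit 5) (nat_lit 471)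 (nat_lit 422) (nat_lit 247)) (XT.lf (nat_lit 0) (nat_lit 1033423589) (nat_lit 608) (nat_lit 7473356818) (nat_lit 684) (nat_lit 7793848439) (nat_lit 261) (nat_lit 5) (nat_lit 269) (nat_lit 5) (nat_lit 270) (nat_lit 5) (nat_lit 472) (nat_lit 422) (nat_lit 246))) (XT.nd (nat_lit 78) (nat_lit 684) (nat_lit 0) (XT.lf (nat_lit 0) (nat_lit 10120678470) (nat_lit 608) (nat_lit 1035579554) (nat_lit 684) (nat_lit 5331458553) (nat_lit 261) (nat_lit 5) (nat_lit 269) (nat_lit 5) (nat_lit 270) (nat_lit 5) (nat_lit 473) (nat_lit 422) (nat_lit 245)) (XT.nd (nat_lit 78) (nat_lit 0) (nat_lit 0) (XT.lf (nat_lit 0) (nat_lit 2700882117) (nat_lit 684) (nat_lit 11203048918) (nat_lit 760) (nat_lit 2773713272) (nat_lit 252) (nat_lit 5) (nat_lit 261) (nat_lit 5) (nat_lit 262) (nat_lit 5) (nat_lit 474) (nat_lit 422) (nat_lit 244)) (XT.lf (nat_lit 0) (nat_lit 12019820359) (nat_lit 684) (nat_lit 4728134271) (nat_lit 760) (nat_lit 122590335) (nat_lit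 252) (nat_lit 5) (nat_lit 261) (nat_lit 5) (nat_lit 262) (nat_lit 5) (nat_lit 475) (nat_lit 422) (nat_lit 243))))) (XT.nd (nat_lit 234) (nat_lit 1140) (nat_lit 0) (XT.nd (nat_lit 78) (nat_lit 608) (nat_lit 0) (XT.lf (nat_lit 0) (nat_lit 2581290150) (nat_lit 684) (nat_lit 12588676761) (nat_lit 76) (nat_lit 1896331874) (nat_lit 243) (nat_lit 5) (nat_lit 252) (nat_lit 5) (nat_lit 244) (nat_lit 5) (nat_lit 476) (nat_lit 422) (nat_lit 242)) (XT.nd (nat_lit 78) (nat_lit 608) (nat_lit 0) (XT.lf (nat_lit 0) (nat_lit 5393734503) (nat_lit 684) (nat_lit 3249071951) (nat_lit 76) (nat_lit 8622024650) (nat_lit 243) (nat_lit 5) (nat_lit 252) (nat_lit 5) (nat_lit 244) (nat_lit 5) (nat_lit 477) (nat_lit 422) (nat_lit 241)) (XT.lf (nat_lit 0) (nat_lit 6351106990) (nat_lit 608) (nat_lit 1944759856) (nat_lit 684) (nat_lit 9170800579) (nat_lit 235) (nat_lit 5) (nat_lit 243) (nat_lit 5) (nat_lit 244) (nat_lit 5) (nat_lit 478) (nat_lit 422)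 (nat_lit 240)))) (XT.nd (nat_lit 78) (nat_lit 1140) (nat_lit 0) (XT.lf (nat_lit 0) (nat_lit 11302004138) (nat_lit 684) (nat_lit 1526244664) (nat_lit 76) (nat_lit 4843374521) (nat_lit 235) (nat_lit 5) (nat_lit 244) (nat_lit 5) (nat_lit 236) (nat_lit 5) (nat_lit 479) (nat_lit 422) (nat_lit 239)) (XT.nd (nat_lit 78) (nat_lit 608) (nat_lit 0) (XT.lf (nat_lit 0) (nat_lit 8341976761) (nat_lit 532) (nat_lit 6085763241) (nat_lit 608) (nat_lit 3451750878) (nat_lit 228) (nat_lit 5) (nat_lit 235) (nat_lit 5) (nat_lit 236) (nat_lit 5) (nat_lit 480) (nat_lit 422) (nat_lit 238)) (XT.lf (nat_lit 0) (nat_lit 326530058) (nat_lit 608) (nat_lit 17299540213) (nat_lit 684) (nat_lit 465245937) (nat_lit 220) (nat_lit 5) (nat_lit 228) (nat_lit 5) (nat_lit 229) (nat_lit 5) (nat_lit 481) (nat_lit 422) (nat_lit 237)))))) (XT.nd (nat_lit 390) (nat_lit 2052) (nat_lit 0) (XT.nd (nat_lit 156) (nat_lit 532) (nat_lit 0) (XT.nd (nat_lit 78) (nat_lit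 532) (nat_lit 0) (XT.lf (nat_lit 0) (nat_lit 2644412809) (nat_lit 684) (nat_lit 7855967912) (nat_lit 76) (nat_lit 7804718633) (nat_lit 219) (nat_lit 5) (nat_lit 228) (nat_lit 5) (nat_lit 220) (nat_lit 5) (nat_lit 482) (nat_lit 422) (nat_lit 236)) (XT.lf (nat_lit 0) (nat_lit 2268358143) (nat_lit 532) (nat_lit 3549101813) (nat_lit 608) (nat_lit 12705490105) (nat_lit 212) (nat_lit 5) (nat_lit 219) (nat_lit 5) (nat_lit 220) (nat_lit 5) (nat_lit 483) (nat_lit 422) (nat_lit 235))) (XT.nd (nat_lit 78) (nat_lit 532) (nat_lit 0) (XT.lf (nat_lit 0) (nat_lit 9122787811) (nat_lit 608) (nat_lit 6075192961) (nat_lit 76) (nat_lit 3545802475) (nat_lit 212) (nat_lit 5) (nat_lit 220) (nat_lit 5) (nat_lit 213) (nat_lit 5) (nat_lit 484) (nat_lit 422) (nat_lit 234)) (XT.nd (nat_lit 78) (nat_lit 0) (nat_lit 0) (XT.lf (nat_lit 0) (nat_lit 4331878845) (nat_lit 532) (nat_lit 8206875859) (nat_lit 608) (nat_lit 6429389569) (nat_lit 205) (nat_lit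 5) (nat_lit 212) (nat_lit 5) (nat_lit 213) (nat_lit 5) (nat_lit 485) (nat_lit 422) (nat_lit 233)) (XT.lf (nat_lit 0) (nat_lit 15020279101) (nat_lit 532) (nat_lit 1036512301) (nat_lit 608) (nat_lit 3139527900) (nat_lit 205) (nat_lit 5) (nat_lit 212) (nat_lit 5) (nat_lit 213) (nat_lit 5) (nat_lit 486) (nat_lit 422) (nat_lit 232))))) (XT.nd (nat_lit 234) (nat_lit 912) (nat_lit 0) (XT.nd (nat_lit 78) (nat_lit 532) (nat_lit 0) (XT.lf (nat_lit 0) (nat_lit 290054051) (nat_lit 608) (nat_lit 12900288136) (nat_lit 76) (nat_lit 6237154144) (nat_lit 197) (nat_lit 5) (nat_lit 205) (nat_lit 5) (nat_lit 198) (nat_lit 5) (nat_lit 487) (nat_lit 422) (nat_lit 231)) (XT.nd (nat_lit 78) (nat_lit 532) (nat_lit 0) (XT.lf (nat_lit 0) (nat_lit 3774438209) (nat_lit 608) (nat_lit 2198591828) (nat_lit 76) (nat_lit 13689288531) (nat_lit 197) (nat_lit 5) (nat_lit 205) (nat_lit 5) (nat_lit 198) (nat_lit 5) (nat_lit 488) (nat_lit 422) (nat_lit 230))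 (XT.lf (nat_lit 0) (nat_lit 7388452271) (nat_lit 608) (nat_lit 11086306532) (nat_lit 76) (nat_lit 1425881253) (nat_lit 190) (nat_lit 5) (nat_lit 198) (nat_lit 5) (nat_lit 191) (nat_lit 5) (nat_lit 489) (nat_lit 422) (nat_lit 229)))) (XT.nd (nat_lit 78) (nat_lit 912) (nat_lit 0) (XT.lf (nat_lit 0) (nat_lit 11122484846) (nat_lit 608) (nat_lit 114791896) (nat_lit 76) (nat_lit 8905498089) (nat_lit 190) (nat_lit 5) (nat_lit 198) (nat_lit 5) (nat_lit 191) (nat_lit 5) (nat_lit 490) (nat_lit 422) (nat_lit 228)) (XT.nd (nat_lit 78) (nat_lit 456) (nat_lit 0) (XT.lf (nat_lit 0) (nat_lit 11214383973) (nat_lit 456) (nat_lit 3783086422) (nat_lit 532) (nat_lit 5390958051) (nat_lit 184) (nat_lit 5) (nat_lit 190) (nat_lit 5) (nat_lit 191) (nat_lit 5) (nat_lit 491) (nat_lit 422) (nat_lit 227)) (XT.lf (nat_lit 0) (nat_lit 2126900709) (nat_lit 456) (nat_lit 16855959979) (nat_lit 532) (nat_lit 1655477902) (nat_lit 178) (nat_lit 5) (nat_lit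 184) (nat_lit 5) (nat_lit 185) (nat_lit 5) (nat_lit 492) (nat_lit 422) (nat_lit 226))))))))
noncomputable def xc194 : XT := (XT.nd (nat_lit 54756) (nat_lit 0) (nat_lit 16644) (XT.nd (nat_lit 53898) (nat_lit 0) (nat_lit 24016) (XT.nd (nat_lit 390) (nat_lit 1748) (nat_lit 0) (XT.nd (nat_lit 156) (nat_lit 456) (nat_lit 0) (XT.nd (nat_lit 78) (nat_lit 456) (nat_lit 0) (XT.lf (nat_lit 0) (nat_lit 2207019207) (nat_lit 532) (nat_lit 7162179443) (nat_lit 76) (nat_lit 11522158650) (nat_lit 177) (nat_lit 5) (nat_lit 184) (nat_lit 5) (nat_lit 178) (nat_lit 5) (nat_lit 493) (nat_lit 422) (nat_lit 225)) (XT.lf (nat_lit 0) (nat_lit 4452740328) (nat_lit 456) (nat_lit 1694459428) (nat_lit 532) (nat_lit 15001567238) (nat_lit 171) (nat_lit 5) (nat_lit 177) (nat_lit 5) (nat_lit 178) (nat_lit 5) (nat_lit 494) (nat_lit 422) (nat_lit 224))) (XT.nd (nat_lit 78) (nat_lit 456) (nat_lit 0) (XT.lf (nat_lit 0) (nat_lit 10248110020) (nat_lit 532)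 (nat_lit 5062274879) (nat_lit 76) (nat_lit 6099302900) (nat_lit 171) (nat_lit 5) (nat_lit 178) (nat_lit 5) (nat_lit 172) (nat_lit 5) (nat_lit 495) (nat_lit 422) (nat_lit 223)) (XT.nd (nat_lit 78) (nat_lit 0) (nat_lit 0) (XT.lf (nat_lit 0) (nat_lit 6874450665) (nat_lit 456) (nat_lit 7606287297) (nat_lit 532) (nat_lit 7194096480) (nat_lit 165) (nat_lit 5) (nat_lit 171) (nat_lit 5) (nat_lit 172) (nat_lit 5) (nat_lit 496) (nat_lit 422) (nat_lit 222)) (XT.lf (nat_lit 0) (nat_lit 18827742606) (nat_lit 532) (nat_lit 2836623368) (nat_lit 76) (nat_lit 280324944) (nat_lit 165) (nat_lit 5) (nat_lit 172) (nat_lit 5) (nat_lit 166) (nat_lit 5) (nat_lit 497) (nat_lit 422) (nat_lit 221))))) (XT.nd (nat_lit 234) (nat_lit 836) (nat_lit 0) (XT.nd (nat_lit 78) (nat_lit 456) (nat_lit 0) (XT.lf (nat_lit 0) (nat_lit 1134397684) (nat_lit 456) (nat_lit 12794084249) (nat_lit 76) (nat_lit 8289202297) (nat_lit 159) (nat_lit 5) (nat_lit 165) (nat_lit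 5) (nat_lit 160) (nat_lit 5) (nat_lit 498) (nat_lit 422) (nat_lit 220)) (XT.nd (nat_lit 78) (nat_lit 456) (nat_lit 0) (XT.lf (nat_lit 0) (nat_lit 5442269804) (nat_lit 456) (nat_lit 557589508) (nat_lit 76) (nat_lit 16495602636) (nat_lit 159) (nat_lit 5) (nat_lit 165) (nat_lit 5) (nat_lit 160) (nat_lit 5) (nat_lit 499) (nat_lit 422) (nat_lit 219)) (XT.lf (nat_lit 0) (nat_lit 9922896115) (nat_lit 532) (nat_lit 10717794266) (nat_lit 76) (nat_lit 2136374183) (nat_lit 153) (nat_lit 5) (nat_lit 160) (nat_lit 5) (nat_lit 154) (nat_lit 5) (nat_lit 500) (nat_lit 422) (nat_lit 218)))) (XT.nd (nat_lit 78) (nat_lit 456) (nat_lit 0) (XT.lf (nat_lit 0) (nat_lit 1847855584) (nat_lit 380) (nat_lit 12694973529) (nat_lit 456) (nat_lit 8520477490) (nat_lit 148) (nat_lit 5) (nat_lit 153) (nat_lit 5) (nat_lit 154) (nat_lit 5) (nat_lit 501) (nat_lit 422) (nat_lit 217)) (XT.nd (nat_lit 78) (nat_lit 456) (nat_lit 0) (XT.lf (nat_lit 0) (nat_lit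 14801734757) (nat_lit 380) (nat_lit 4519603529) (nat_lit 456) (nat_lit 4032612874) (nat_lit 148) (nat_lit 5) (nat_lit 153) (nat_lit 5) (nat_lit 154) (nat_lit 5) (nat_lit 502) (nat_lit 422) (nat_lit 216)) (XT.lf (nat_lit 0) (nat_lit 585818804) (nat_lit 456) (nat_lit 19264565496) (nat_lit 76) (nat_lit 3798995566) (nat_lit 142) (nat_lit 5) (nat_lit 148) (nat_lit 5) (nat_lit 143) (nat_lit 5) (nat_lit 503) (nat_lit 422) (nat_lit 215)))))) (XT.nd (nat_lit 390) (nat_lit 0) (nat_lit 76) (XT.nd (nat_lit 156) (nat_lit 0) (nat_lit 0) (XT.nd (nat_lit 78) (nat_lit 0) (nat_lit 0) (XT.lf (nat_lit 0) (nat_lit 391080521) (nat_lit 0) (nat_lit 391080521) (nat_lit 1596) (nat_lit 4230211842) (nat_lit 458) (nat_lit 5) (nat_lit 458) (nat_lit 3) (nat_lit 479) (nat_lit 3) (nat_lit 423) (nat_lit 423) (nat_lit 294)) (XT.lf (nat_lit 0) (nat_lit 2296063233) (nat_lit 1596) (nat_lit 4458335636) (nat_lit 1672) (nat_lit 3356015221) (nat_lit 458) (nat_lit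 5) (nat_lit 479) (nat_lit 3) (nat_lit 480) (nat_lit 5) (nat_lit 424) (nat_lit 423) (nat_lit 293))) (XT.nd (nat_lit 78) (nat_lit 0) (nat_lit 76) (XT.lf (nat_lit 76) (nat_lit 412293754) (nat_lit 0) (nat_lit 2619856941) (nat_lit 1672) (nat_lit 7165857599) (nat_lit 459) (nat_lit 5) (nat_lit 458) (nat_lit 5) (nat_lit 480) (nat_lit 5) (nat_lit 425) (nat_lit 423) (nat_lit 292)) (XT.nd (nat_lit 78) (nat_lit 0) (nat_lit 0) (XT.lf (nat_lit 0) (nat_lit 3805650499) (nat_lit 1596) (nat_lit 4866443189) (nat_lit 1672) (nat_lit 1614813496) (nat_lit 459) (nat_lit 5) (nat_lit 480) (nat_lit 5) (nat_lit 481) (nat_lit 5) (nat_lit 426) (nat_lit 423) (nat_lit 291)) (XT.lf (nat_lit 76) (nat_lit 125820114) (nat_lit 0) (nat_lit 4469519549) (nat_lit 1672) (nat_lit 5782236485) (nat_lit 460) (nat_lit 5) (nat_lit 459) (nat_lit 5) (nat_lit 481) (nat_lit 5) (nat_lit 427) (nat_lit 423) (nat_lit 290))))) (XT.nd (nat_lit 234) (nat_lit 0) (nat_lit 152)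 (XT.nd (nat_lit 78) (nat_lit 0) (nat_lit 76) (XT.lf (nat_lit 76) (nat_lit 5274264795) (nat_lit 0) (nat_lit 142046209) (nat_lit 1672) (nat_lit 5053444078) (nat_lit 460) (nat_lit 5) (nat_lit 459) (nat_lit 5) (nat_lit 481) (nat_lit 5) (nat_lit 428) (nat_lit 423) (nat_lit 289)) (XT.nd (nat_lit 78) (nat_lit 0) (nat_lit 0) (XT.lf (nat_lit 0) (nat_lit 6264654886) (nat_lit 1596) (nat_lit 75667562) (nat_lit 1672) (nat_lit 4223242316) (nat_lit 460) (nat_lit 5) (nat_lit 481) (nat_lit 5) (nat_lit 482) (nat_lit 5) (nat_lit 429) (nat_lit 423) (nat_lit 288)) (XT.lf (nat_lit 76) (nat_lit 5204226227) (nat_lit 0) (nat_lit 1944015103) (nat_lit 1672) (nat_lit 3510649904) (nat_lit 461) (nat_lit 5) (nat_lit 460) (nat_lit 5) (nat_lit 482) (nat_lit 5) (nat_lit 430) (nat_lit 423) (nat_lit 287)))) (XT.nd (nat_lit 78) (nat_lit 0) (nat_lit 0) (XT.lf (nat_lit 0) (nat_lit 8050352545) (nat_lit 1596) (nat_lit 191815111) (nat_lit 1672) (nat_lit 2513945508)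 (nat_lit 461) (nat_lit 5) (nat_lit 482) (nat_lit 5) (nat_lit 483) (nat_lit 5) (nat_lit 431) (nat_lit 423) (nat_lit 286)) (XT.nd (nat_lit 78) (nat_lit 0) (nat_lit 76) (XT.lf (nat_lit 76) (nat_lit 5222153590) (nat_lit 0) (nat_lit 3779298161) (nat_lit 1672) (nat_lit 1853214740) (nat_lit 462) (nat_lit 5) (nat_lit 461) (nat_lit 5) (nat_lit 483) (nat_lit 5) (nat_lit 432) (nat_lit 423) (nat_lit 285)) (XT.lf (nat_lit 0) (nat_lit 9962338028) (nat_lit 1596) (nat_lit 223234627) (nat_lit 1672) (nat_lit 769808684) (nat_lit 462) (nat_lit 5) (nat_lit 483) (nat_lit 5) (nat_lit 484) (nat_lit 5) (nat_lit 433) (nat_lit 423) (nat_lit 284))))))) (XT.nd (nat_lit 858) (nat_lit 6004) (nat_lit 0) (XT.nd (nat_lit 390) (nat_lit 0) (nat_lit 152) (XT.nd (nat_lit 156) (nat_lit 0) (nat_lit 76) (XT.nd (nat_lit 78) (nat_lit 1672) (nat_lit 0) (XT.lf (nat_lit 76) (nat_lit 5329246720) (nat_lit 0) (nat_lit 5657581312) (nat_lit 1672) (nat_lit 70400375) (nat_lit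 463) (nat_lit 5) (nat_lit 462) (nat_lit 5) (nat_lit 484) (nat_lit 5) (nat_lit 434) (nat_lit 423) (nat_lit 283)) (XT.lf (nat_lit 0) (nat_lit 845671087) (nat_lit 1672) (nat_lit 180931347) (nat_lit 1748) (nat_lit 10134674448) (nat_lit 440) (nat_lit 5) (nat_lit 462) (nat_lit 5) (nat_lit 463) (nat_lit 5) (nat_lit 435) (nat_lit 423) (nat_lit 282))) (XT.nd (nat_lit 78) (nat_lit 0) (nat_lit 0) (XT.lf (nat_lit 0) (nat_lit 1824548611) (nat_lit 1672) (nat_lit 5751805563) (nat_lit 1748) (nat_lit 3690139618) (nat_lit 441) (nat_lit 5) (nat_lit 463) (nat_lit 5) (nat_lit 464) (nat_lit 5) (nat_lit 436) (nat_lit 423) (nat_lit 281)) (XT.nd (nat_lit 78) (nat_lit 0) (nat_lit 76) (XT.lf (nat_lit 0) (nat_lit 2816466856) (nat_lit 1672) (nat_lit 63982503) (nat_lit 1748) (nat_lit 8493501632) (nat_lit 441) (nat_lit 5) (nat_lit 463) (nat_lit 5) (nat_lit 464) (nat_lit 5) (nat_lit 437) (nat_lit 423) (nat_lit 280)) (XT.lf (nat_lit 0) (nat_lit 3864308798)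 (nat_lit 1672) (nat_lit 5691914312) (nat_lit 1748) (nat_lit 1926617631) (nat_lit 442) (nat_lit 5) (nat_lit 464) (nat_lit 5) (nat_lit 465) (nat_lit 5) (nat_lit 438) (nat_lit 423) (nat_lit 279))))) (XT.nd (nat_lit 234) (nat_lit 0) (nat_lit 76) (XT.nd (nat_lit 78) (nat_lit 0) (nat_lit 76) (XT.lf (nat_lit 76) (nat_lit 142582983) (nat_lit 0) (nat_lit 4796930009) (nat_lit 1748) (nat_lit 6654272197) (nat_lit 443) (nat_lit 5) (nat_lit 442) (nat_lit 5) (nat_lit 465) (nat_lit 5) (nat_lit 439) (nat_lit 423) (nat_lit 278)) (XT.nd (nat_lit 78) (nat_lit 0) (nat_lit 0) (XT.lf (nat_lit 0) (nat_lit 6061249631) (nat_lit 1672) (nat_lit 5546234368) (nat_lit 1748) (nat_lit 98968874) (nat_lit 443) (nat_lit 5) (nat_lit 465) (nat_lit 5) (nat_lit 466) (nat_lit 5) (nat_lit 440) (nat_lit 423) (nat_lit 277)) (XT.lf (nat_lit 76) (nat_lit 440699062) (nat_lit 0) (nat_lit 6785827490) (nat_lit 1748) (nat_lit 4594430065) (nat_lit 444) (nat_lit 5) (nat_lit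 443) (nat_lit 5) (nat_lit 466) (nat_lit 5) (nat_lit 441) (nat_lit 423) (nat_lit 276)))) (XT.nd (nat_lit 78) (nat_lit 0) (nat_lit 76) (XT.lf (nat_lit 76) (nat_lit 6612472713) (nat_lit 0) (nat_lit 1826530667) (nat_lit 1748) (nat_lit 3498273891) (nat_lit 444) (nat_lit 5) (nat_lit 443) (nat_lit 5) (nat_lit 466) (nat_lit 5) (nat_lit 442) (nat_lit 423) (nat_lit 275)) (XT.nd (nat_lit 78) (nat_lit 0) (nat_lit 0) (XT.lf (nat_lit 76) (nat_lit 831510917) (nat_lit 0) (nat_lit 8857559648) (nat_lit 1748) (nat_lit 2366591589) (nat_lit 445) (nat_lit 5) (nat_lit 444) (nat_lit 5) (nat_lit 467) (nat_lit 5) (nat_lit 443) (nat_lit 423) (nat_lit 274)) (XT.lf (nat_lit 76) (nat_lit 7160773723) (nat_lit 0) (nat_lit 3838262521) (nat_lit 1748) (nat_lit 1176685085) (nat_lit 445) (nat_lit 5) (nat_lit 444) (nat_lit 5) (nat_lit 467) (nat_lit 5) (nat_lit 444) (nat_lit 423) (nat_lit 273)))))) (XT.nd (nat_lit 390) (nat_lit 2964) (nat_lit 0) (XT.nd (nat_lit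 156) (nat_lit 1672) (nat_lit 0) (XT.nd (nat_lit 78) (nat_lit 0) (nat_lit 0) (XT.lf (nat_lit 0) (nat_lit 40847902) (nat_lit 1748) (nat_lit 10981150274) (nat_lit 1824) (nat_lit 1276096793) (nat_lit 422) (nat_lit 5) (nat_lit 445) (nat_lit 5) (nat_lit 446) (nat_lit 5) (nat_lit 445) (nat_lit 423) (nat_lit 272)) (XT.lf (nat_lit 0) (nat_lit 1313797628) (nat_lit 1748) (nat_lit 4622503977) (nat_lit 1824) (nat_lit 6485526758) (nat_lit 422) (nat_lit 5) (nat_lit 445) (nat_lit 5) (nat_lit 446) (nat_lit 5) (nat_lit 446) (nat_lit 423) (nat_lit 271))) (XT.nd (nat_lit 78) (nat_lit 1672) (nat_lit 0) (XT.lf (nat_lit 76) (nat_lit 1877865063) (nat_lit 0) (nat_lit 734290888) (nat_lit 1824) (nat_lit 9935885676) (nat_lit 423) (nat_lit 5) (nat_lit 422) (nat_lit 5) (nat_lit 446) (nat_lit 5) (nat_lit 447) (nat_lit 423) (nat_lit 270)) (XT.nd (nat_lit 78) (nat_lit 1748) (nat_lit 0) (XT.lf (nat_lit 0) (nat_lit 3985334847) (nat_lit 1748) (nat_lit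 4145417574) (nat_lit 76) (nat_lit 4545053778) (nat_lit 423) (nat_lit 5) (nat_lit 446) (nat_lit 5) (nat_lit 424) (nat_lit 5) (nat_lit 448) (nat_lit 423) (nat_lit 269)) (XT.lf (nat_lit 0) (nat_lit 2528059875) (nat_lit 1748) (nat_lit 2867376147) (nat_lit 1824) (nat_lit 7410504899) (nat_lit 400) (nat_lit 5) (nat_lit 423) (nat_lit 5) (nat_lit 424) (nat_lit 5) (nat_lit 449) (nat_lit 423) (nat_lit 268))))) (XT.nd (nat_lit 234) (nat_lit 1824) (nat_lit 0) (XT.nd (nat_lit 78) (nat_lit 1140) (nat_lit 0) (XT.lf (nat_lit 0) (nat_lit 6866340750) (nat_lit 1824) (nat_lit 3573598243) (nat_lit 76) (nat_lit 2498091266) (nat_lit 400) (nat_lit 5) (nat_lit 424) (nat_lit 5) (nat_lit 401) (nat_lit 5) (nat_lit 450) (nat_lit 423) (nat_lit 267)) (XT.nd (nat_lit 78) (nat_lit 0) (nat_lit 0) (XT.lf (nat_lit 0) (nat_lit 3278731881) (nat_lit 1140) (nat_lit 5116796363) (nat_lit 1216) (nat_lit 4676659721) (nat_lit 385) (nat_lit 5) (nat_lit 400) (nat_lit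 5) (nat_lit 401) (nat_lit 5) (nat_lit 451) (nat_lit 423) (nat_lit 266)) (XT.lf (nat_lit 0) (nat_lit 9970224903) (nat_lit 1216) (nat_lit 2904410545) (nat_lit 76) (nat_lit 334098666) (nat_lit 385) (nat_lit 5) (nat_lit 401) (nat_lit 5) (nat_lit 386) (nat_lit 5) (nat_lit 452) (nat_lit 423) (nat_lit 265)))) (XT.nd (nat_lit 78) (nat_lit 912) (nat_lit 0) (XT.lf (nat_lit 0) (nat_lit 4132710256) (nat_lit 912) (nat_lit 7493399008) (nat_lit 988) (nat_lit 1720911772) (nat_lit 373) (nat_lit 5) (nat_lit 385) (nat_lit 5) (nat_lit 386) (nat_lit 5) (nat_lit 453) (nat_lit 423) (nat_lit 264)) (XT.nd (nat_lit 78) (nat_lit 912) (nat_lit 0) (XT.lf (nat_lit 0) (nat_lit 11339988635) (nat_lit 912) (nat_lit 1983739740) (nat_lit 988) (nat_lit 164176631) (nat_lit 373) (nat_lit 5) (nat_lit 385) (nat_lit 5) (nat_lit 386) (nat_lit 5) (nat_lit 454) (nat_lit 423) (nat_lit 263)) (XT.lf (nat_lit 0) (nat_lit 1451343708) (nat_lit 912) (nat_lit 8547226813)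 (nat_lit 76) (nat_lit 3631928323) (nat_lit 361) (nat_lit 5) (nat_lit 373) (nat_lit 5) (nat_lit 362) (nat_lit 5) (nat_lit 455) (nat_lit 423) (nat_lit 262))))))))
noncomputable def xc195 : XT := (XT.nd (nat_lit 1716) (nat_lit 6384) (nat_lit 0) (XT.nd (nat_lit 858) (nat_lit 4180) (nat_lit 0) (XT.nd (nat_lit 390) (nat_lit 2280) (nat_lit 0) (XT.nd (nat_lit 156) (nat_lit 1672) (nat_lit 0) (XT.nd (nat_lit 78) (nat_lit 836) (nat_lit 0) (XT.lf (nat_lit 0) (nat_lit 3114042072) (nat_lit 912) (nat_lit 1311837299) (nat_lit 76) (nat_lit 9349705605) (nat_lit 361) (nat_lit 5) (nat_lit 373) (nat_lit 5) (nat_lit 362) (nat_lit 5) (nat_lit 456) (nat_lit 423) (nat_lit 261)) (XT.lf (nat_lit 0) (nat_lit 4847913988) (nat_lit 912) (nat_lit 7792513871) (nat_lit 76) (nat_lit 1282389954) (nat_lit 350) (nat_lit 5) (nat_lit 362) (nat_lit 5) (nat_lit 351) (nat_lit 5) (nat_lit 457) (nat_lit 423) (nat_lit 260))) (XT.nd (nat_lit 78) (nat_lit 1672) (nat_lit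 0) (XT.lf (nat_lit 0) (nat_lit 6644402804) (nat_lit 912) (nat_lit 373127101) (nat_lit 76) (nat_lit 7054909918) (nat_lit 350) (nat_lit 5) (nat_lit 362) (nat_lit 5) (nat_lit 351) (nat_lit 5) (nat_lit 458) (nat_lit 423) (nat_lit 259)) (XT.nd (nat_lit 78) (nat_lit 836) (nat_lit 0) (XT.lf (nat_lit 0) (nat_lit 7280316925) (nat_lit 836) (nat_lit 1233741340) (nat_lit 912) (nat_lit 5710254514) (nat_lit 339) (nat_lit 5) (nat_lit 350) (nat_lit 5) (nat_lit 351) (nat_lit 5) (nat_lit 459) (nat_lit 423) (nat_lit 258)) (XT.lf (nat_lit 0) (nat_lit 681390860) (nat_lit 836) (nat_lit 9767056047) (nat_lit 912) (nat_lit 3930232664) (nat_lit 328) (nat_lit 5) (nat_lit 339) (nat_lit 5) (nat_lit 340) (nat_lit 5) (nat_lit 460) (nat_lit 423) (nat_lit 257))))) (XT.nd (nat_lit 234) (nat_lit 1444) (nat_lit 0) (XT.nd (nat_lit 78) (nat_lit 836) (nat_lit 0) (XT.lf (nat_lit 0) (nat_lit 8535248708) (nat_lit 836) (nat_lit 3931221685) (nat_lit 912) (nat_lit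 2068767480) (nat_lit 328) (nat_lit 5) (nat_lit 339) (nat_lit 5) (nat_lit 340) (nat_lit 5) (nat_lit 461) (nat_lit 423) (nat_lit 256)) (XT.nd (nat_lit 78) (nat_lit 76) (nat_lit 0) (XT.lf (nat_lit 0) (nat_lit 1852543769) (nat_lit 760) (nat_lit 12687885592) (nat_lit 836) (nat_lit 154189536) (nat_lit 318) (nat_lit 5) (nat_lit 328) (nat_lit 5) (nat_lit 329) (nat_lit 5) (nat_lit 462) (nat_lit 423) (nat_lit 255)) (XT.lf (nat_lit 0) (nat_lit 1832135983) (nat_lit 836) (nat_lit 4960852563) (nat_lit 76) (nat_lit 8062827446) (nat_lit 317) (nat_lit 5) (nat_lit 328) (nat_lit 5) (nat_lit 318) (nat_lit 5) (nat_lit 463) (nat_lit 423) (nat_lit 254)))) (XT.nd (nat_lit 78) (nat_lit 684) (nat_lit 0) (XT.lf (nat_lit 0) (nat_lit 3107980513) (nat_lit 760) (nat_lit 758992255) (nat_lit 836) (nat_lit 11153029769) (nat_lit 307) (nat_lit 5) (nat_lit 317) (nat_lit 5) (nat_lit 318) (nat_lit 5) (nat_lit 464) (nat_lit 423) (nat_lit 253)) (XT.nd (nat_lit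 78) (nat_lit 684) (nat_lit 0) (XT.lf (nat_lit 0) (nat_lit 6001834345) (nat_lit 836) (nat_lit 3826498235) (nat_lit 76) (nat_lit 5357956495) (nat_lit 307) (nat_lit 5) (nat_lit 318) (nat_lit 5) (nat_lit 308) (nat_lit 5) (nat_lit 465) (nat_lit 423) (nat_lit 252)) (XT.lf (nat_lit 0) (nat_lit 4464582699) (nat_lit 684) (nat_lit 3739789907) (nat_lit 760) (nat_lit 7151031915) (nat_lit 298) (nat_lit 5) (nat_lit 307) (nat_lit 5) (nat_lit 308) (nat_lit 5) (nat_lit 466) (nat_lit 423) (nat_lit 251)))))) (XT.nd (nat_lit 390) (nat_lit 1976) (nat_lit 0) (XT.nd (nat_lit 156) (nat_lit 1444) (nat_lit 0) (XT.nd (nat_lit 78) (nat_lit 760) (nat_lit 0) (XT.lf (nat_lit 0) (nat_lit 10483925930) (nat_lit 760) (nat_lit 2580038186) (nat_lit 76) (nat_lit 2463281588) (nat_lit 298) (nat_lit 5) (nat_lit 308) (nat_lit 5) (nat_lit 299) (nat_lit 5) (nat_lit 467) (nat_lit 423) (nat_lit 250)) (XT.lf (nat_lit 0) (nat_lit 5940503528) (nat_lit 760) (nat_lit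 6923154427) (nat_lit 836) (nat_lit 2837776661) (nat_lit 288) (nat_lit 5) (nat_lit 298) (nat_lit 5) (nat_lit 299) (nat_lit 5) (nat_lit 468) (nat_lit 423) (nat_lit 249))) (XT.nd (nat_lit 78) (nat_lit 1444) (nat_lit 0) (XT.lf (nat_lit 0) (nat_lit 14656890795) (nat_lit 760) (nat_lit 642767986) (nat_lit 836) (nat_lit 579277652) (nat_lit 288) (nat_lit 5) (nat_lit 298) (nat_lit 5) (nat_lit 299) (nat_lit 5) (nat_lit 469) (nat_lit 423) (nat_lit 248)) (XT.nd (nat_lit 78) (nat_lit 684) (nat_lit 0) (XT.lf (nat_lit 0) (nat_lit 1780183928) (nat_lit 760) (nat_lit 8530580688) (nat_lit 76) (nat_lit 5747434091) (nat_lit 278) (nat_lit 5) (nat_lit 288) (nat_lit 5) (nat_lit 279) (nat_lit 5) (nat_lit 470) (nat_lit 423) (nat_lit 247)) (XT.lf (nat_lit 0) (nat_lit 213035115) (nat_lit 684) (nat_lit 3971516440) (nat_lit 760) (nat_lit 12056311080) (nat_lit 269) (nat_lit 5) (nat_lit 278) (nat_lit 5) (nat_lit 279) (nat_lit 5) (nat_lit 471) (nat_lit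 423) (nat_lit 246))))) (XT.nd (nat_lit 234) (nat_lit 1368) (nat_lit 0) (XT.nd (nat_lit 78) (nat_lit 608) (nat_lit 0) (XT.lf (nat_lit 0) (nat_lit 6702493569) (nat_lit 760) (nat_lit 7205120332) (nat_lit 76) (nat_lit 2518258611) (nat_lit 269) (nat_lit 5) (nat_lit 279) (nat_lit 5) (nat_lit 270) (nat_lit 5) (nat_lit 472) (nat_lit 423) (nat_lit 245)) (XT.nd (nat_lit 78) (nat_lit 0) (nat_lit 0) (XT.lf (nat_lit 0) (nat_lit 1781627777) (nat_lit 608) (nat_lit 7518866161) (nat_lit 684) (nat_lit 7313497020) (nat_lit 261) (nat_lit 5) (nat_lit 269) (nat_lit 5) (nat_lit 270) (nat_lit 5) (nat_lit 473) (nat_lit 423) (nat_lit 244)) (XT.lf (nat_lit 0) (nat_lit 11036362349) (nat_lit 608) (nat_lit 954371739) (nat_lit 684) (nat_lit 4814334403) (nat_lit 261) (nat_lit 5) (nat_lit 269) (nat_lit 5) (nat_lit 270) (nat_lit 5) (nat_lit 474) (nat_lit 423) (nat_lit 243)))) (XT.nd (nat_lit 78) (nat_lit 684) (nat_lit 0) (XT.lf (nat_lit 0) (nat_lit 3475140948)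 (nat_lit 684) (nat_lit 11311557377) (nat_lit 760) (nat_lit 2212233137) (nat_lit 252) (nat_lit 5) (nat_lit 261) (nat_lit 5) (nat_lit 262) (nat_lit 5) (nat_lit 475) (nat_lit 423) (nat_lit 242)) (XT.nd (nat_lit 78) (nat_lit 608) (nat_lit 0) (XT.lf (nat_lit 0) (nat_lit 473522251) (nat_lit 760) (nat_lit 4232710337) (nat_lit 76) (nat_lit 12489635743) (nat_lit 251) (nat_lit 5) (nat_lit 261) (nat_lit 5) (nat_lit 252) (nat_lit 5) (nat_lit 476) (nat_lit 423) (nat_lit 241)) (XT.lf (nat_lit 0) (nat_lit 3223519775) (nat_lit 684) (nat_lit 12119750728) (nat_lit 76) (nat_lit 2052380142) (nat_lit 243) (nat_lit 5) (nat_lit 252) (nat_lit 5) (nat_lit 244) (nat_lit 5) (nat_lit 477) (nat_lit 423) (nat_lit 240))))))) (XT.nd (nat_lit 858) (nat_lit 2888) (nat_lit 0) (XT.nd (nat_lit 390) (nat_lit 1672) (nat_lit 0) (XT.nd (nat_lit 156) (nat_lit 1216) (nat_lit 0) (XT.nd (nat_lit 78) (nat_lit 608) (nat_lit 0) (XT.lf (nat_lit 0) (nat_lit 6080632547)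 (nat_lit 684) (nat_lit 2607485186) (nat_lit 76) (nat_lit 8910270663) (nat_lit 243) (nat_lit 5) (nat_lit 252) (nat_lit 5) (nat_lit 244) (nat_lit 5) (nat_lit 478) (nat_lit 423) (nat_lit 239)) (XT.lf (nat_lit 0) (nat_lit 7180048859) (nat_lit 608) (nat_lit 1853962607) (nat_lit 684) (nat_lit 8770389013) (nat_lit 235) (nat_lit 5) (nat_lit 243) (nat_lit 5) (nat_lit 244) (nat_lit 5) (nat_lit 479) (nat_lit 423) (nat_lit 238))) (XT.nd (nat_lit 78) (nat_lit 1216) (nat_lit 0) (XT.lf (nat_lit 0) (nat_lit 12089876900) (nat_lit 684) (nat_lit 858065661) (nat_lit 76) (nat_lit 5065723880) (nat_lit 235) (nat_lit 5) (nat_lit 244) (nat_lit 5) (nat_lit 236) (nat_lit 5) (nat_lit 480) (nat_lit 423) (nat_lit 237)) (XT.nd (nat_lit 78) (nat_lit 684) (nat_lit 0) (XT.lf (nat_lit 0) (nat_lit 9202923456) (nat_lit 532) (nat_lit 6068694302) (nat_lit 608) (nat_lit 2954206779) (nat_lit 228) (nat_lit 5) (nat_lit 235) (nat_lit 5) (nat_lit 236) (nat_lit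 5) (nat_lit 481) (nat_lit 423) (nat_lit 236)) (XT.lf (nat_lit 0) (nat_lit 85320696) (nat_lit 684) (nat_lit 17409671581) (nat_lit 76) (nat_lit 946995035) (nat_lit 219) (nat_lit 5) (nat_lit 228) (nat_lit 5) (nat_lit 220) (nat_lit 5) (nat_lit 482) (nat_lit 423) (nat_lit 235))))) (XT.nd (nat_lit 234) (nat_lit 1140) (nat_lit 0) (XT.nd (nat_lit 78) (nat_lit 532) (nat_lit 0) (XT.lf (nat_lit 0) (nat_lit 3240092961) (nat_lit 684) (nat_lit 7319627276) (nat_lit 76) (nat_lit 8100484201) (nat_lit 219) (nat_lit 5) (nat_lit 228) (nat_lit 5) (nat_lit 220) (nat_lit 5) (nat_lit 483) (nat_lit 423) (nat_lit 234)) (XT.nd (nat_lit 78) (nat_lit 0) (nat_lit 0) (XT.lf (nat_lit 0) (nat_lit 3002623063) (nat_lit 532) (nat_lit 3467807790) (nat_lit 608) (nat_lit 12412107475) (nat_lit 212) (nat_lit 5) (nat_lit 219) (nat_lit 5) (nat_lit 220) (nat_lit 5) (nat_lit 484) (nat_lit 423) (nat_lit 233)) (XT.lf (nat_lit 0) (nat_lit 9832312563) (nat_lit 608)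 (nat_lit 5511618570) (nat_lit 76) (nat_lit 3764050811) (nat_lit 212) (nat_lit 5) (nat_lit 220) (nat_lit 5) (nat_lit 213) (nat_lit 5) (nat_lit 485) (nat_lit 423) (nat_lit 232)))) (XT.nd (nat_lit 78) (nat_lit 608) (nat_lit 0) (XT.lf (nat_lit 0) (nat_lit 5099087578) (nat_lit 532) (nat_lit 8211595250) (nat_lit 608) (nat_lit 6026268341) (nat_lit 205) (nat_lit 5) (nat_lit 212) (nat_lit 5) (nat_lit 213) (nat_lit 5) (nat_lit 486) (nat_lit 423) (nat_lit 231)) (XT.nd (nat_lit 78) (nat_lit 608) (nat_lit 0) (XT.lf (nat_lit 0) (nat_lit 15987911306) (nat_lit 532) (nat_lit 900950266) (nat_lit 608) (nat_lit 2681035105) (nat_lit 205) (nat_lit 5) (nat_lit 212) (nat_lit 5) (nat_lit 213) (nat_lit 5) (nat_lit 487) (nat_lit 423) (nat_lit 230)) (XT.lf (nat_lit 0) (nat_lit 805608697) (nat_lit 608) (nat_lit 12479284458) (nat_lit 76) (nat_lit 6520832769) (nat_lit 197) (nat_lit 5) (nat_lit 205) (nat_lit 5) (nat_lit 198) (nat_lit 5) (nat_lit 488)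 (nat_lit 423) (nat_lit 229)))))) (XT.nd (nat_lit 390) (nat_lit 1444) (nat_lit 0) (XT.nd (nat_lit 156) (nat_lit 912) (nat_lit 0) (XT.nd (nat_lit 78) (nat_lit 532) (nat_lit 0) (XT.lf (nat_lit 0) (nat_lit 4349685370) (nat_lit 608) (nat_lit 1576868134) (nat_lit 76) (nat_lit 14118893460) (nat_lit 197) (nat_lit 5) (nat_lit 205) (nat_lit 5) (nat_lit 198) (nat_lit 5) (nat_lit 489) (nat_lit 423) (nat_lit 228)) (XT.lf (nat_lit 0) (nat_lit 8031558916) (nat_lit 608) (nat_lit 10637795935) (nat_lit 76) (nat_lit 1619270856) (nat_lit 190) (nat_lit 5) (nat_lit 198) (nat_lit 5) (nat_lit 191) (nat_lit 5) (nat_lit 490) (nat_lit 423) (nat_lit 227))) (XT.nd (nat_lit 78) (nat_lit 456) (nat_lit 0) (XT.lf (nat_lit 0) (nat_lit 547183505) (nat_lit 456) (nat_lit 11286928812) (nat_lit 532) (nat_lit 8701616418) (nat_lit 184) (nat_lit 5) (nat_lit 190) (nat_lit 5) (nat_lit 191) (nat_lit 5) (nat_lit 491) (nat_lit 423) (nat_lit 226)) (XT.nd (nat_lit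 78) (nat_lit 456) (nat_lit 0) (XT.lf (nat_lit 0) (nat_lit 12091443490) (nat_lit 456) (nat_lit 3686317576) (nat_lit 532) (nat_lit 5008713400) (nat_lit 184) (nat_lit 5) (nat_lit 190) (nat_lit 5) (nat_lit 191) (nat_lit 5) (nat_lit 492) (nat_lit 423) (nat_lit 225)) (XT.lf (nat_lit 0) (nat_lit 2826462426) (nat_lit 456) (nat_lit 17012341699) (nat_lit 532) (nat_lit 1202662058) (nat_lit 178) (nat_lit 5) (nat_lit 184) (nat_lit 5) (nat_lit 185) (nat_lit 5) (nat_lit 493) (nat_lit 423) (nat_lit 224))))) (XT.nd (nat_lit 234) (nat_lit 912) (nat_lit 0) (XT.nd (nat_lit 78) (nat_lit 456) (nat_lit 0) (XT.lf (nat_lit 0) (nat_lit 2721309006) (nat_lit 532) (nat_lit 6654925060) (nat_lit 76) (nat_lit 11923438344) (nat_lit 177) (nat_lit 5) (nat_lit 184) (nat_lit 5) (nat_lit 178) (nat_lit 5) (nat_lit 494) (nat_lit 423) (nat_lit 223)) (XT.nd (nat_lit 78) (nat_lit 0) (nat_lit 0) (XT.lf (nat_lit 0) (nat_lit 5188013515) (nat_lit 456) (nat_lit 1547256714)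 (nat_lit 532) (nat_lit 14827062666) (nat_lit 171) (nat_lit 5) (nat_lit 177) (nat_lit 5) (nat_lit 178) (nat_lit 5) (nat_lit 495) (nat_lit 423) (nat_lit 222)) (XT.lf (nat_lit 0) (nat_lit 10910231284) (nat_lit 532) (nat_lit 4521900719) (nat_lit 76) (nat_lit 6396501556) (nat_lit 171) (nat_lit 5) (nat_lit 178) (nat_lit 5) (nat_lit 172) (nat_lit 5) (nat_lit 496) (nat_lit 423) (nat_lit 221)))) (XT.nd (nat_lit 78) (nat_lit 456) (nat_lit 0) (XT.lf (nat_lit 0) (nat_lit 7649338155) (nat_lit 456) (nat_lit 7573348141) (nat_lit 532) (nat_lit 6876495404) (nat_lit 165) (nat_lit 5) (nat_lit 171) (nat_lit 5) (nat_lit 172) (nat_lit 5) (nat_lit 497) (nat_lit 423) (nat_lit 220)) (XT.nd (nat_lit 78) (nat_lit 456) (nat_lit 0) (XT.lf (nat_lit 0) (nat_lit 19648939752) (nat_lit 532) (nat_lit 2260663342) (nat_lit 76) (nat_lit 464988052) (nat_lit 165) (nat_lit 5) (nat_lit 172) (nat_lit 5) (nat_lit 166) (nat_lit 5) (nat_lit 498) (nat_lit 423) (nat_lit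 219)) (XT.lf (nat_lit 0) (nat_lit 1600101700) (nat_lit 456) (nat_lit 12415451610) (nat_lit 76) (nat_lit 8637527452) (nat_lit 159) (nat_lit 5) (nat_lit 165) (nat_lit 5) (nat_lit 160) (nat_lit 5) (nat_lit 499) (nat_lit 423) (nat_lit 218))))))))
noncomputable def xc196 : XT := (XT.nd (nat_lit 54756) (nat_lit 0) (nat_lit 13680) (XT.nd (nat_lit 53898) (nat_lit 0) (nat_lit 22192) (XT.nd (nat_lit 53508) (nat_lit 0) (nat_lit 23560) (XT.nd (nat_lit 156) (nat_lit 380) (nat_lit 0) (XT.nd (nat_lit 78) (nat_lit 0) (nat_lit 0) (XT.lf (nat_lit 0) (nat_lit 54040316) (nat_lit 456) (nat_lit 5931755222) (nat_lit 532) (nat_lit 16950787110) (nat_lit 153) (nat_lit 5) (nat_lit 159) (nat_lit 5) (nat_lit 160) (nat_lit 5) (nat_lit 500) (nat_lit 423) (nat_lit 217)) (XT.lf (nat_lit 0) (nat_lit 10552401209) (nat_lit 532) (nat_lit 10306701912) (nat_lit 76) (nat_lit 2364788719) (nat_lit 153) (nat_lit 5) (nat_lit 160) (nat_lit 5) (nat_lit 154) (nat_lit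 5) (nat_lit 501) (nat_lit 423) (nat_lit 216))) (XT.nd (nat_lit 78) (nat_lit 0) (nat_lit 0) (XT.lf (nat_lit 0) (nat_lit 2506146144) (nat_lit 380) (nat_lit 12754168926) (nat_lit 456) (nat_lit 8255633830) (nat_lit 148) (nat_lit 5) (nat_lit 153) (nat_lit 5) (nat_lit 154) (nat_lit 5) (nat_lit 502) (nat_lit 423) (nat_lit 215)) (XT.nd (nat_lit 53196) (nat_lit 0) (nat_lit 23560) (XT.lf (nat_lit 0) (nat_lit 15706919892) (nat_lit 380) (nat_lit 4419109254) (nat_lit 456) (nat_lit 3686546298) (nat_lit 148) (nat_lit 5) (nat_lit 153) (nat_lit 5) (nat_lit 154) (nat_lit 5) (nat_lit 503) (nat_lit 423) (nat_lit 214)) (XT.lf (nat_lit 0) (nat_lit 743658556) (nat_lit 0) (nat_lit 743658556) (nat_lit 1596) (nat_lit 3611257465) (nat_lit 458) (nat_lit 5) (nat_lit 458) (nat_lit 3) (nat_lit 479) (nat_lit 3) (nat_lit 424) (nat_lit 424) (nat_lit 292))))) (XT.nd (nat_lit 156) (nat_lit 0) (nat_lit 76) (XT.nd (nat_lit 78) (nat_lit 0) (nat_lit 0) (XT.lf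 (nat_lit 0) (nat_lit 3689581481) (nat_lit 1596) (nat_lit 3839579650) (nat_lit 1672) (nat_lit 2756008306) (nat_lit 458) (nat_lit 5) (nat_lit 479) (nat_lit 3) (nat_lit 480) (nat_lit 5) (nat_lit 425) (nat_lit 424) (nat_lit 291)) (XT.lf (nat_lit 76) (nat_lit 1123804941) (nat_lit 0) (nat_lit 3294728346) (nat_lit 1672) (nat_lit 5956429210) (nat_lit 459) (nat_lit 5) (nat_lit 458) (nat_lit 5) (nat_lit 480) (nat_lit 5) (nat_lit 426) (nat_lit 424) (nat_lit 290))) (XT.nd (nat_lit 78) (nat_lit 0) (nat_lit 0) (XT.lf (nat_lit 0) (nat_lit 5177545924) (nat_lit 1596) (nat_lit 4243857552) (nat_lit 1672) (nat_lit 1044844664) (nat_lit 459) (nat_lit 5) (nat_lit 480) (nat_lit 5) (nat_lit 481) (nat_lit 5) (nat_lit 427) (nat_lit 424) (nat_lit 289)) (XT.nd (nat_lit 78) (nat_lit 0) (nat_lit 0) (XT.lf (nat_lit 76) (nat_lit 843514738) (nat_lit 0) (nat_lit 5118750046) (nat_lit 1672) (nat_lit 4596890423) (nat_lit 460) (nat_lit 5) (nat_lit 459) (nat_lit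 5) (nat_lit 481) (nat_lit 5) (nat_lit 428) (nat_lit 424) (nat_lit 288)) (XT.lf (nat_lit 76) (nat_lit 6080905210) (nat_lit 0) (nat_lit 693749982) (nat_lit 1672) (nat_lit 3879031790) (nat_lit 460) (nat_lit 5) (nat_lit 459) (nat_lit 5) (nat_lit 481) (nat_lit 5) (nat_lit 429) (nat_lit 424) (nat_lit 287)))))) (XT.nd (nat_lit 390) (nat_lit 0) (nat_lit 0) (XT.nd (nat_lit 156) (nat_lit 1520) (nat_lit 0) (XT.nd (nat_lit 78) (nat_lit 0) (nat_lit 0) (XT.lf (nat_lit 76) (nat_lit 647171466) (nat_lit 0) (nat_lit 6968992487) (nat_lit 1672) (nat_lit 3133694019) (nat_lit 461) (nat_lit 5) (nat_lit 460) (nat_lit 5) (nat_lit 482) (nat_lit 5) (nat_lit 430) (nat_lit 424) (nat_lit 286)) (XT.lf (nat_lit 76) (nat_lit 6019465726) (nat_lit 0) (nat_lit 2474410764) (nat_lit 1672) (nat_lit 2353694294) (nat_lit 461) (nat_lit 5) (nat_lit 460) (nat_lit 5) (nat_lit 482) (nat_lit 5) (nat_lit 431) (nat_lit 424) (nat_lit 285))) (XT.nd (nat_lit 78) (nat_lit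 1596) (nat_lit 0) (XT.lf (nat_lit 76) (nat_lit 535732156) (nat_lit 0) (nat_lit 8855065660) (nat_lit 1672) (nat_lit 1556412702) (nat_lit 462) (nat_lit 5) (nat_lit 461) (nat_lit 5) (nat_lit 483) (nat_lit 5) (nat_lit 432) (nat_lit 424) (nat_lit 284)) (XT.nd (nat_lit 78) (nat_lit 1596) (nat_lit 0) (XT.lf (nat_lit 76) (nat_lit 6046188500) (nat_lit 0) (nat_lit 4292866208) (nat_lit 1672) (nat_lit 709126040) (nat_lit 462) (nat_lit 5) (nat_lit 461) (nat_lit 5) (nat_lit 483) (nat_lit 5) (nat_lit 433) (nat_lit 424) (nat_lit 283)) (XT.lf (nat_lit 0) (nat_lit 143715390) (nat_lit 1672) (nat_lit 10641925942) (nat_lit 1748) (nat_lit 365701469) (nat_lit 440) (nat_lit 5) (nat_lit 462) (nat_lit 5) (nat_lit 463) (nat_lit 5) (nat_lit 434) (nat_lit 424) (nat_lit 282))))) (XT.nd (nat_lit 234) (nat_lit 0) (nat_lit 76) (XT.nd (nat_lit 78) (nat_lit 0) (nat_lit 0) (XT.lf (nat_lit 0) (nat_lit 1051528582) (nat_lit 1672) (nat_lit 5100181033) (nat_lit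 1748) (nat_lit 5103821850) (nat_lit 440) (nat_lit 5) (nat_lit 462) (nat_lit 5) (nat_lit 463) (nat_lit 5) (nat_lit 435) (nat_lit 424) (nat_lit 281)) (XT.nd (nat_lit 78) (nat_lit 0) (nat_lit 76) (XT.lf (nat_lit 76) (nat_lit 550010633) (nat_lit 0) (nat_lit 1416532348) (nat_lit 1748) (nat_lit 9395485239) (nat_lit 441) (nat_lit 5) (nat_lit 440) (nat_lit 5) (nat_lit 463) (nat_lit 5) (nat_lit 436) (nat_lit 424) (nat_lit 280)) (XT.lf (nat_lit 0) (nat_lit 2942198683) (nat_lit 1672) (nat_lit 5119878931) (nat_lit 1748) (nat_lit 3407735587) (nat_lit 441) (nat_lit 5) (nat_lit 463) (nat_lit 5) (nat_lit 464) (nat_lit 5) (nat_lit 437) (nat_lit 424) (nat_lit 279)))) (XT.nd (nat_lit 78) (nat_lit 0) (nat_lit 76) (XT.lf (nat_lit 76) (nat_lit 675919061) (nat_lit 0) (nat_lit 3261225548) (nat_lit 1748) (nat_lit 7642618743) (nat_lit 442) (nat_lit 5) (nat_lit 441) (nat_lit 5) (nat_lit 464) (nat_lit 5) (nat_lit 438) (nat_lit 424) (nat_lit 278))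 (XT.nd (nat_lit 78) (nat_lit 0) (nat_lit 0) (XT.lf (nat_lit 0) (nat_lit 4983440464) (nat_lit 1672) (nat_lit 5054949526) (nat_lit 1748) (nat_lit 1652898410) (nat_lit 442) (nat_lit 5) (nat_lit 464) (nat_lit 5) (nat_lit 465) (nat_lit 5) (nat_lit 439) (nat_lit 424) (nat_lit 277)) (XT.lf (nat_lit 76) (nat_lit 891298222) (nat_lit 0) (nat_lit 5173264818) (nat_lit 1748) (nat_lit 5740207709) (nat_lit 443) (nat_lit 5) (nat_lit 442) (nat_lit 5) (nat_lit 465) (nat_lit 5) (nat_lit 440) (nat_lit 424) (nat_lit 276))))))) (XT.nd (nat_lit 858) (nat_lit 5472) (nat_lit 0) (XT.nd (nat_lit 390) (nat_lit 3192) (nat_lit 0) (XT.nd (nat_lit 156) (nat_lit 0) (nat_lit 76) (XT.nd (nat_lit 78) (nat_lit 0) (nat_lit 76) (XT.lf (nat_lit 76) (nat_lit 7015339094) (nat_lit 0) (nat_lit 172608443) (nat_lit 1748) (nat_lit 4732167143) (nat_lit 443) (nat_lit 5) (nat_lit 442) (nat_lit 5) (nat_lit 465) (nat_lit 5) (nat_lit 441) (nat_lit 424) (nat_lit 275)) (XT.lf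 (nat_lit 76) (nat_lit 1198059936) (nat_lit 0) (nat_lit 7162516254) (nat_lit 1748) (nat_lit 3676658401) (nat_lit 444) (nat_lit 5) (nat_lit 443) (nat_lit 5) (nat_lit 466) (nat_lit 5) (nat_lit 442) (nat_lit 424) (nat_lit 274))) (XT.nd (nat_lit 78) (nat_lit 0) (nat_lit 76) (XT.lf (nat_lit 76) (nat_lit 7478591670) (nat_lit 0) (nat_lit 2099308550) (nat_lit 1748) (nat_lit 2578376363) (nat_lit 444) (nat_lit 5) (nat_lit 443) (nat_lit 5) (nat_lit 466) (nat_lit 5) (nat_lit 443) (nat_lit 424) (nat_lit 273)) (XT.nd (nat_lit 78) (nat_lit 0) (nat_lit 0) (XT.lf (nat_lit 76) (nat_lit 1598322656) (nat_lit 0) (nat_lit 9238991073) (nat_lit 1748) (nat_lit 1440035278) (nat_lit 445) (nat_lit 5) (nat_lit 444) (nat_lit 5) (nat_lit 467) (nat_lit 5) (nat_lit 444) (nat_lit 424) (nat_lit 272)) (XT.lf (nat_lit 76) (nat_lit 8039461277) (nat_lit 0) (nat_lit 4115302509) (nat_lit 1748) (nat_lit 245426490) (nat_lit 445) (nat_lit 5) (nat_lit 444) (nat_lit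 5) (nat_lit 467) (nat_lit 5) (nat_lit 445) (nat_lit 424) (nat_lit 271))))) (XT.nd (nat_lit 234) (nat_lit 1672) (nat_lit 0) (XT.nd (nat_lit 78) (nat_lit 0) (nat_lit 0) (XT.lf (nat_lit 0) (nat_lit 969083010) (nat_lit 1748) (nat_lit 10437285281) (nat_lit 1824) (nat_lit 1118822506) (nat_lit 422) (nat_lit 5) (nat_lit 445) (nat_lit 5) (nat_lit 446) (nat_lit 5) (nat_lit 446) (nat_lit 424) (nat_lit 270)) (XT.nd (nat_lit 78) (nat_lit 0) (nat_lit 0) (XT.lf (nat_lit 0) (nat_lit 2249307061) (nat_lit 1748) (nat_lit 3966436411) (nat_lit 1824) (nat_lit 6436025309) (nat_lit 422) (nat_lit 5) (nat_lit 445) (nat_lit 5) (nat_lit 446) (nat_lit 5) (nat_lit 447) (nat_lit 424) (nat_lit 269)) (XT.lf (nat_lit 76) (nat_lit 2659015551) (nat_lit 0) (nat_lit 901616792) (nat_lit 1824) (nat_lit 9220140080) (nat_lit 423) (nat_lit 5) (nat_lit 422) (nat_lit 5) (nat_lit 446) (nat_lit 5) (nat_lit 448) (nat_lit 424) (nat_lit 268)))) (XT.nd (nat_lit 78) (nat_lit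 1748) (nat_lit 0) (XT.lf (nat_lit 0) (nat_lit 4942730007) (nat_lit 1748) (nat_lit 3480468803) (nat_lit 76) (nat_lit 4488270360) (nat_lit 423) (nat_lit 5) (nat_lit 446) (nat_lit 5) (nat_lit 424) (nat_lit 5) (nat_lit 449) (nat_lit 424) (nat_lit 267)) (XT.nd (nat_lit 78) (nat_lit 0) (nat_lit 0) (XT.lf (nat_lit 0) (nat_lit 3321558083) (nat_lit 1748) (nat_lit 3047089185) (nat_lit 1824) (nat_lit 6675812907) (nat_lit 400) (nat_lit 5) (nat_lit 423) (nat_lit 5) (nat_lit 424) (nat_lit 5) (nat_lit 450) (nat_lit 424) (nat_lit 266)) (XT.lf (nat_lit 0) (nat_lit 7851224473) (nat_lit 1824) (nat_lit 2898667215) (nat_lit 76) (nat_lit 2429660278) (nat_lit 400) (nat_lit 5) (nat_lit 424) (nat_lit 5) (nat_lit 401) (nat_lit 5) (nat_lit 451) (nat_lit 424) (nat_lit 265)))))) (XT.nd (nat_lit 390) (nat_lit 2508) (nat_lit 0) (XT.nd (nat_lit 156) (nat_lit 1824) (nat_lit 0) (XT.nd (nat_lit 78) (nat_lit 0) (nat_lit 0) (XT.lf (nat_lit 0) (nat_lit 4085798965)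 (nat_lit 1140) (nat_lit 5313392250) (nat_lit 1216) (nat_lit 3917443344) (nat_lit 385) (nat_lit 5) (nat_lit 400) (nat_lit 5) (nat_lit 401) (nat_lit 5) (nat_lit 452) (nat_lit 424) (nat_lit 264)) (XT.lf (nat_lit 0) (nat_lit 10988394508) (nat_lit 1216) (nat_lit 2218281492) (nat_lit 76) (nat_lit 249580910) (nat_lit 385) (nat_lit 5) (nat_lit 401) (nat_lit 5) (nat_lit 386) (nat_lit 5) (nat_lit 453) (nat_lit 424) (nat_lit 263))) (XT.nd (nat_lit 78) (nat_lit 912) (nat_lit 0) (XT.lf (nat_lit 0) (nat_lit 4954685559) (nat_lit 912) (nat_lit 7711456942) (nat_lit 988) (nat_lit 931397573) (nat_lit 373) (nat_lit 5) (nat_lit 385) (nat_lit 5) (nat_lit 386) (nat_lit 5) (nat_lit 454) (nat_lit 424) (nat_lit 262)) (XT.nd (nat_lit 78) (nat_lit 836) (nat_lit 0) (XT.lf (nat_lit 0) (nat_lit 631918863) (nat_lit 988) (nat_lit 1454108060) (nat_lit 76) (nat_lit 11655453642) (nat_lit 372) (nat_lit 5) (nat_lit 385) (nat_lit 5) (nat_lit 373) (nat_lit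 5) (nat_lit 455) (nat_lit 424) (nat_lit 261)) (XT.lf (nat_lit 0) (nat_lit 2266307332) (nat_lit 912) (nat_lit 7970990444) (nat_lit 76) (nat_lit 3649836788) (nat_lit 361) (nat_lit 5) (nat_lit 373) (nat_lit 5) (nat_lit 362) (nat_lit 5) (nat_lit 456) (nat_lit 424) (nat_lit 260))))) (XT.nd (nat_lit 234) (nat_lit 836) (nat_lit 0) (XT.nd (nat_lit 78) (nat_lit 1672) (nat_lit 0) (XT.lf (nat_lit 0) (nat_lit 3946849139) (nat_lit 912) (nat_lit 605543746) (nat_lit 76) (nat_lit 9483042755) (nat_lit 361) (nat_lit 5) (nat_lit 373) (nat_lit 5) (nat_lit 362) (nat_lit 5) (nat_lit 457) (nat_lit 424) (nat_lit 259)) (XT.nd (nat_lit 78) (nat_lit 836) (nat_lit 0) (XT.lf (nat_lit 0) (nat_lit 5704804351) (nat_lit 912) (nat_lit 7204994107) (nat_lit 76) (nat_lit 1276031470) (nat_lit 350) (nat_lit 5) (nat_lit 362) (nat_lit 5) (nat_lit 351) (nat_lit 5) (nat_lit 458) (nat_lit 424) (nat_lit 258)) (XT.lf (nat_lit 0) (nat_lit 352831969) (nat_lit 836)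 (nat_lit 7171781164) (nat_lit 912) (nat_lit 6814088257) (nat_lit 339) (nat_lit 5) (nat_lit 350) (nat_lit 5) (nat_lit 351) (nat_lit 5) (nat_lit 459) (nat_lit 424) (nat_lit 257)))) (XT.nd (nat_lit 78) (nat_lit 836) (nat_lit 0) (XT.lf (nat_lit 0) (nat_lit 8149922722) (nat_lit 836) (nat_lit 1269540386) (nat_lit 912) (nat_lit 5074397389) (nat_lit 339) (nat_lit 5) (nat_lit 350) (nat_lit 5) (nat_lit 351) (nat_lit 5) (nat_lit 460) (nat_lit 424) (nat_lit 256)) (XT.nd (nat_lit 78) (nat_lit 0) (nat_lit 0) (XT.lf (nat_lit 0) (nat_lit 1429166989) (nat_lit 836) (nat_lit 9953654113) (nat_lit 912) (nat_lit 3268692521) (nat_lit 328) (nat_lit 5) (nat_lit 339) (nat_lit 5) (nat_lit 340) (nat_lit 5) (nat_lit 461) (nat_lit 424) (nat_lit 255)) (XT.lf (nat_lit 0) (nat_lit 9425706929) (nat_lit 836) (nat_lit 4001274497) (nat_lit 912) (nat_lit 1384510676) (nat_lit 328) (nat_lit 5) (nat_lit 339) (nat_lit 5) (nat_lit 340) (nat_lit 5) (nat_lit 462)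 (nat_lit 424) (nat_lit 254))))))))
noncomputable def xc197 : XT := (XT.nd (nat_lit 1716) (nat_lit 5396) (nat_lit 0) (XT.nd (nat_lit 858) (nat_lit 3800) (nat_lit 0) (XT.nd (nat_lit 390) (nat_lit 2204) (nat_lit 0) (XT.nd (nat_lit 156) (nat_lit 1444) (nat_lit 0) (XT.nd (nat_lit 78) (nat_lit 0) (nat_lit 0) (XT.lf (nat_lit 0) (nat_lit 551684719) (nat_lit 836) (nat_lit 12358964955) (nat_lit 76) (nat_lit 2063526031) (nat_lit 317) (nat_lit 5) (nat_lit 328) (nat_lit 5) (nat_lit 318) (nat_lit 5) (nat_lit 463) (nat_lit 424) (nat_lit 253)) (XT.lf (nat_lit 0) (nat_lit 2561813387) (nat_lit 836) (nat_lit 4335627895) (nat_lit 76) (nat_lit 8241416527) (nat_lit 317) (nat_lit 5) (nat_lit 328) (nat_lit 5) (nat_lit 318) (nat_lit 5) (nat_lit 464) (nat_lit 424) (nat_lit 252))) (XT.nd (nat_lit 78) (nat_lit 684) (nat_lit 0) (XT.lf (nat_lit 0) (nat_lit 3889815779) (nat_lit 760) (nat_lit 738614826) (nat_lit 836) (nat_lit 10678079999) (nat_lit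 307) (nat_lit 5) (nat_lit 317) (nat_lit 5) (nat_lit 318) (nat_lit 5) (nat_lit 465) (nat_lit 424) (nat_lit 251)) (XT.nd (nat_lit 78) (nat_lit 684) (nat_lit 0) (XT.lf (nat_lit 0) (nat_lit 6792801662) (nat_lit 836) (nat_lit 3184070574) (nat_lit 76) (nat_lit 5499518501) (nat_lit 307) (nat_lit 5) (nat_lit 318) (nat_lit 5) (nat_lit 308) (nat_lit 5) (nat_lit 466) (nat_lit 424) (nat_lit 250)) (XT.lf (nat_lit 0) (nat_lit 5268101994) (nat_lit 684) (nat_lit 3762770432) (nat_lit 760) (nat_lit 6618190462) (nat_lit 298) (nat_lit 5) (nat_lit 307) (nat_lit 5) (nat_lit 308) (nat_lit 5) (nat_lit 467) (nat_lit 424) (nat_lit 249))))) (XT.nd (nat_lit 234) (nat_lit 1368) (nat_lit 0) (XT.nd (nat_lit 78) (nat_lit 836) (nat_lit 0) (XT.lf (nat_lit 0) (nat_lit 11343358160) (nat_lit 760) (nat_lit 1918559590) (nat_lit 76) (nat_lit 2562680266) (nat_lit 298) (nat_lit 5) (nat_lit 308) (nat_lit 5) (nat_lit 299) (nat_lit 5) (nat_lit 468) (nat_lit 424)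 (nat_lit 248)) (XT.nd (nat_lit 78) (nat_lit 76) (nat_lit 0) (XT.lf (nat_lit 0) (nat_lit 6767701646) (nat_lit 760) (nat_lit 6994842237) (nat_lit 836) (nat_lit 2239893517) (nat_lit 288) (nat_lit 5) (nat_lit 298) (nat_lit 5) (nat_lit 299) (nat_lit 5) (nat_lit 469) (nat_lit 424) (nat_lit 247)) (XT.lf (nat_lit 0) (nat_lit 50271339) (nat_lit 836) (nat_lit 539548699) (nat_lit 76) (nat_lit 15593918009) (nat_lit 287) (nat_lit 5) (nat_lit 298) (nat_lit 5) (nat_lit 288) (nat_lit 5) (nat_lit 470) (nat_lit 424) (nat_lit 246)))) (XT.nd (nat_lit 78) (nat_lit 684) (nat_lit 0) (XT.lf (nat_lit 0) (nat_lit 2441762326) (nat_lit 760) (nat_lit 7990497694) (nat_lit 76) (nat_lit 5934400683) (nat_lit 278) (nat_lit 5) (nat_lit 288) (nat_lit 5) (nat_lit 279) (nat_lit 5) (nat_lit 471) (nat_lit 424) (nat_lit 245)) (XT.nd (nat_lit 78) (nat_lit 0) (nat_lit 0) (XT.lf (nat_lit 0) (nat_lit 923314803) (nat_lit 684) (nat_lit 3963212433) (nat_lit 760) (nat_lit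 11666608054) (nat_lit 269) (nat_lit 5) (nat_lit 278) (nat_lit 5) (nat_lit 279) (nat_lit 5) (nat_lit 472) (nat_lit 424) (nat_lit 244)) (XT.lf (nat_lit 0) (nat_lit 7443263321) (nat_lit 760) (nat_lit 6645307097) (nat_lit 76) (nat_lit 2653509749) (nat_lit 269) (nat_lit 5) (nat_lit 279) (nat_lit 5) (nat_lit 270) (nat_lit 5) (nat_lit 473) (nat_lit 424) (nat_lit 243)))))) (XT.nd (nat_lit 390) (nat_lit 1824) (nat_lit 0) (XT.nd (nat_lit 156) (nat_lit 1368) (nat_lit 0) (XT.nd (nat_lit 78) (nat_lit 0) (nat_lit 0) (XT.lf (nat_lit 0) (nat_lit 2516544950) (nat_lit 608) (nat_lit 7569322498) (nat_lit 684) (nat_lit 6848244097) (nat_lit 261) (nat_lit 5) (nat_lit 269) (nat_lit 5) (nat_lit 270) (nat_lit 5) (nat_lit 474) (nat_lit 424) (nat_lit 242)) (XT.lf (nat_lit 0) (nat_lit 11942662751) (nat_lit 608) (nat_lit 875497423) (nat_lit 684) (nat_lit 4311088873) (nat_lit 261) (nat_lit 5) (nat_lit 269) (nat_lit 5) (nat_lit 270) (nat_lit 5) (nat_lit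 475) (nat_lit 424) (nat_lit 241))) (XT.nd (nat_lit 78) (nat_lit 684) (nat_lit 0) (XT.lf (nat_lit 0) (nat_lit 4236917112) (nat_lit 684) (nat_lit 11426723050) (nat_lit 760) (nat_lit 1663480490) (nat_lit 252) (nat_lit 5) (nat_lit 261) (nat_lit 5) (nat_lit 262) (nat_lit 5) (nat_lit 476) (nat_lit 424) (nat_lit 240)) (XT.nd (nat_lit 78) (nat_lit 608) (nat_lit 0) (XT.lf (nat_lit 0) (nat_lit 1056737837) (nat_lit 760) (nat_lit 3630881551) (nat_lit 76) (nat_lit 12840532544) (nat_lit 251) (nat_lit 5) (nat_lit 261) (nat_lit 5) (nat_lit 252) (nat_lit 5) (nat_lit 477) (nat_lit 424) (nat_lit 239)) (XT.lf (nat_lit 0) (nat_lit 3855660126) (nat_lit 684) (nat_lit 11669431817) (nat_lit 76) (nat_lit 2206962568) (nat_lit 243) (nat_lit 5) (nat_lit 252) (nat_lit 5) (nat_lit 244) (nat_lit 5) (nat_lit 478) (nat_lit 424) (nat_lit 238))))) (XT.nd (nat_lit 234) (nat_lit 1216) (nat_lit 0) (XT.nd (nat_lit 78) (nat_lit 608) (nat_lit 0) (XT.lf (nat_lit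 0) (nat_lit 6758784370) (nat_lit 684) (nat_lit 1980503590) (nat_lit 76) (nat_lit 9199784726) (nat_lit 243) (nat_lit 5) (nat_lit 252) (nat_lit 5) (nat_lit 244) (nat_lit 5) (nat_lit 479) (nat_lit 424) (nat_lit 237)) (XT.nd (nat_lit 78) (nat_lit 0) (nat_lit 0) (XT.lf (nat_lit 0) (nat_lit 7998313167) (nat_lit 608) (nat_lit 1766385529) (nat_lit 684) (nat_lit 8384639952) (nat_lit 235) (nat_lit 5) (nat_lit 243) (nat_lit 5) (nat_lit 244) (nat_lit 5) (nat_lit 480) (nat_lit 424) (nat_lit 236)) (XT.lf (nat_lit 0) (nat_lit 12871690470) (nat_lit 684) (nat_lit 203654602) (nat_lit 76) (nat_lit 5287647613) (nat_lit 235) (nat_lit 5) (nat_lit 244) (nat_lit 5) (nat_lit 236) (nat_lit 5) (nat_lit 481) (nat_lit 424) (nat_lit 235)))) (XT.nd (nat_lit 78) (nat_lit 684) (nat_lit 0) (XT.lf (nat_lit 0) (nat_lit 10054136058) (nat_lit 532) (nat_lit 6056673145) (nat_lit 608) (nat_lit 2468712756) (nat_lit 228) (nat_lit 5) (nat_lit 235) (nat_lit 5)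 (nat_lit 236) (nat_lit 5) (nat_lit 482) (nat_lit 424) (nat_lit 234)) (XT.nd (nat_lit 78) (nat_lit 0) (nat_lit 0) (XT.lf (nat_lit 0) (nat_lit 619176028) (nat_lit 684) (nat_lit 17078002273) (nat_lit 76) (nat_lit 1102867480) (nat_lit 219) (nat_lit 5) (nat_lit 228) (nat_lit 5) (nat_lit 220) (nat_lit 5) (nat_lit 483) (nat_lit 424) (nat_lit 233)) (XT.lf (nat_lit 0) (nat_lit 3826609445) (nat_lit 684) (nat_lit 6799487724) (nat_lit 76) (nat_lit 8396741477) (nat_lit 219) (nat_lit 5) (nat_lit 228) (nat_lit 5) (nat_lit 220) (nat_lit 5) (nat_lit 484) (nat_lit 424) (nat_lit 232))))))) (XT.nd (nat_lit 858) (nat_lit 2204) (nat_lit 0) (XT.nd (nat_lit 390) (nat_lit 1520) (nat_lit 0) (XT.nd (nat_lit 156) (nat_lit 1140) (nat_lit 0) (XT.nd (nat_lit 78) (nat_lit 0) (nat_lit 0) (XT.lf (nat_lit 0) (nat_lit 3724822543) (nat_lit 532) (nat_lit 3390800951) (nat_lit 608) (nat_lit 12134116990) (nat_lit 212) (nat_lit 5) (nat_lit 219) (nat_lit 5) (nat_lit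 220) (nat_lit 5) (nat_lit 485) (nat_lit 424) (nat_lit 231)) (XT.lf (nat_lit 0) (nat_lit 10535561079) (nat_lit 608) (nat_lit 4963375116) (nat_lit 76) (nat_lit 3980943020) (nat_lit 212) (nat_lit 5) (nat_lit 220) (nat_lit 5) (nat_lit 213) (nat_lit 5) (nat_lit 486) (nat_lit 424) (nat_lit 230))) (XT.nd (nat_lit 78) (nat_lit 608) (nat_lit 0) (XT.lf (nat_lit 0) (nat_lit 5855213078) (nat_lit 532) (nat_lit 8222599428) (nat_lit 608) (nat_lit 5635731598) (nat_lit 205) (nat_lit 5) (nat_lit 212) (nat_lit 5) (nat_lit 213) (nat_lit 5) (nat_lit 487) (nat_lit 424) (nat_lit 229)) (XT.nd (nat_lit 78) (nat_lit 608) (nat_lit 0) (XT.lf (nat_lit 0) (nat_lit 16948986932) (nat_lit 532) (nat_lit 768746010) (nat_lit 608) (nat_lit 2233614523) (nat_lit 205) (nat_lit 5) (nat_lit 212) (nat_lit 5) (nat_lit 213) (nat_lit 5) (nat_lit 488) (nat_lit 424) (nat_lit 228)) (XT.lf (nat_lit 0) (nat_lit 1311680084) (nat_lit 608) (nat_lit 12076227470) (nat_lit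 76) (nat_lit 6804013306) (nat_lit 197) (nat_lit 5) (nat_lit 205) (nat_lit 5) (nat_lit 198) (nat_lit 5) (nat_lit 489) (nat_lit 424) (nat_lit 227))))) (XT.nd (nat_lit 234) (nat_lit 532) (nat_lit 0) (XT.nd (nat_lit 78) (nat_lit 988) (nat_lit 0) (XT.lf (nat_lit 0) (nat_lit 4917031247) (nat_lit 608) (nat_lit 968559735) (nat_lit 76) (nat_lit 14551039840) (nat_lit 197) (nat_lit 5) (nat_lit 205) (nat_lit 5) (nat_lit 198) (nat_lit 5) (nat_lit 490) (nat_lit 424) (nat_lit 226)) (XT.nd (nat_lit 78) (nat_lit 456) (nat_lit 0) (XT.lf (nat_lit 0) (nat_lit 8668293130) (nat_lit 608) (nat_lit 10206341236) (nat_lit 76) (nat_lit 1810126072) (nat_lit 190) (nat_lit 5) (nat_lit 198) (nat_lit 5) (nat_lit 191) (nat_lit 5) (nat_lit 491) (nat_lit 424) (nat_lit 225)) (XT.lf (nat_lit 0) (nat_lit 1198099566) (nat_lit 456) (nat_lit 11343617806) (nat_lit 532) (nat_lit 8395194028) (nat_lit 184) (nat_lit 5) (nat_lit 190) (nat_lit 5) (nat_lit 191) (nat_lit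 5) (nat_lit 492) (nat_lit 424) (nat_lit 224)))) (XT.nd (nat_lit 78) (nat_lit 532) (nat_lit 0) (XT.lf (nat_lit 0) (nat_lit 12960696272) (nat_lit 456) (nat_lit 3594309042) (nat_lit 532) (nat_lit 4637853631) (nat_lit 184) (nat_lit 5) (nat_lit 190) (nat_lit 5) (nat_lit 191) (nat_lit 5) (nat_lit 493) (nat_lit 424) (nat_lit 223)) (XT.nd (nat_lit 78) (nat_lit 76) (nat_lit 0) (XT.lf (nat_lit 0) (nat_lit 3514502346) (nat_lit 456) (nat_lit 17178869310) (nat_lit 532) (nat_lit 759658972) (nat_lit 178) (nat_lit 5) (nat_lit 184) (nat_lit 5) (nat_lit 185) (nat_lit 5) (nat_lit 494) (nat_lit 424) (nat_lit 222)) (XT.lf (nat_lit 0) (nat_lit 3227628126) (nat_lit 532) (nat_lit 6162785218) (nat_lit 76) (nat_lit 12326109841) (nat_lit 177) (nat_lit 5) (nat_lit 184) (nat_lit 5) (nat_lit 178) (nat_lit 5) (nat_lit 495) (nat_lit 424) (nat_lit 221)))))) (XT.nd (nat_lit 390) (nat_lit 836) (nat_lit 0) (XT.nd (nat_lit 156) (nat_lit 912) (nat_lit 0)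 (XT.nd (nat_lit 78) (nat_lit 0) (nat_lit 0) (XT.lf (nat_lit 0) (nat_lit 5912898718) (nat_lit 456) (nat_lit 1404141965) (nat_lit 532) (nat_lit 14667494810) (nat_lit 171) (nat_lit 5) (nat_lit 177) (nat_lit 5) (nat_lit 178) (nat_lit 5) (nat_lit 496) (nat_lit 424) (nat_lit 220)) (XT.lf (nat_lit 0) (nat_lit 11567842931) (nat_lit 532) (nat_lit 3995633949) (nat_lit 76) (nat_lit 6692840467) (nat_lit 171) (nat_lit 5) (nat_lit 178) (nat_lit 5) (nat_lit 172) (nat_lit 5) (nat_lit 497) (nat_lit 424) (nat_lit 219))) (XT.nd (nat_lit 78) (nat_lit 456) (nat_lit 0) (XT.lf (nat_lit 0) (nat_lit 8414972434) (nat_lit 456) (nat_lit 7546936499) (nat_lit 532) (nat_lit 6570462255) (nat_lit 165) (nat_lit 5) (nat_lit 171) (nat_lit 5) (nat_lit 172) (nat_lit 5) (nat_lit 498) (nat_lit 424) (nat_lit 218)) (XT.nd (nat_lit 78) (nat_lit 456) (nat_lit 0) (XT.lf (nat_lit 0) (nat_lit 20469294838) (nat_lit 532) (nat_lit 1697752337) (nat_lit 76) (nat_lit 646391437)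 (nat_lit 165) (nat_lit 5) (nat_lit 172) (nat_lit 5) (nat_lit 166) (nat_lit 5) (nat_lit 499) (nat_lit 424) (nat_lit 217)) (XT.lf (nat_lit 0) (nat_lit 2057916942) (nat_lit 456) (nat_lit 12053885282) (nat_lit 76) (nat_lit 8985730816) (nat_lit 159) (nat_lit 5) (nat_lit 165) (nat_lit 5) (nat_lit 160) (nat_lit 5) (nat_lit 500) (nat_lit 424) (nat_lit 216))))) (XT.nd (nat_lit 53430) (nat_lit 0) (nat_lit 23560) (XT.nd (nat_lit 78) (nat_lit 380) (nat_lit 0) (XT.lf (nat_lit 0) (nat_lit 660984144) (nat_lit 456) (nat_lit 5865924899) (nat_lit 532) (nat_lit 16859886058) (nat_lit 153) (nat_lit 5) (nat_lit 159) (nat_lit 5) (nat_lit 160) (nat_lit 5) (nat_lit 501) (nat_lit 424) (nat_lit 215)) (XT.nd (nat_lit 78) (nat_lit 380) (nat_lit 0) (XT.lf (nat_lit 0) (nat_lit 11177758318) (nat_lit 532) (nat_lit 9911674628) (nat_lit 76) (nat_lit 2590561092) (nat_lit 153) (nat_lit 5) (nat_lit 160) (nat_lit 5) (nat_lit 154) (nat_lit 5) (nat_lit 502)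 (nat_lit 424) (nat_lit 214)) (XT.lf (nat_lit 0) (nat_lit 3153475381) (nat_lit 380) (nat_lit 12822108828) (nat_lit 456) (nat_lit 8002394710) (nat_lit 148) (nat_lit 5) (nat_lit 153) (nat_lit 5) (nat_lit 154) (nat_lit 5) (nat_lit 503) (nat_lit 424) (nat_lit 213)))) (XT.nd (nat_lit 78) (nat_lit 0) (nat_lit 0) (XT.lf (nat_lit 0) (nat_lit 1089900839) (nat_lit 0) (nat_lit 1089900839) (nat_lit 1596) (nat_lit 3007244040) (nat_lit 458) (nat_lit 5) (nat_lit 458) (nat_lit 3) (nat_lit 479) (nat_lit 3) (nat_lit 425) (nat_lit 425) (nat_lit 290)) (XT.nd (nat_lit 78) (nat_lit 0) (nat_lit 0) (XT.lf (nat_lit 0) (nat_lit 5058641261) (nat_lit 1596) (nat_lit 3235938046) (nat_lit 1672) (nat_lit 2169906615) (nat_lit 458) (nat_lit 5) (nat_lit 479) (nat_lit 3) (nat_lit 480) (nat_lit 5) (nat_lit 426) (nat_lit 425) (nat_lit 289)) (XT.lf (nat_lit 76) (nat_lit 1822237704) (nat_lit 0) (nat_lit 3958925744) (nat_lit 1672) (nat_lit 4775341011) (nat_lit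 459) (nat_lit 5) (nat_lit 458) (nat_lit 5) (nat_lit 480) (nat_lit 5) (nat_lit 427) (nat_lit 425) (nat_lit 288))))))))
noncomputable def xc198 : XT := (XT.nd (nat_lit 1716) (nat_lit 10868) (nat_lit 0) (XT.nd (nat_lit 858) (nat_lit 1368) (nat_lit 0) (XT.nd (nat_lit 390) (nat_lit 1520) (nat_lit 0) (XT.nd (nat_lit 156) (nat_lit 0) (nat_lit 0) (XT.nd (nat_lit 78) (nat_lit 0) (nat_lit 0) (XT.lf (nat_lit 0) (nat_lit 6526562446) (nat_lit 1596) (nat_lit 3636775359) (nat_lit 1672) (nat_lit 486863143) (nat_lit 459) (nat_lit 5) (nat_lit 480) (nat_lit 5) (nat_lit 481) (nat_lit 5) (nat_lit 428) (nat_lit 425) (nat_lit 287)) (XT.lf (nat_lit 76) (nat_lit 1547792012) (nat_lit 0) (nat_lit 5759225879) (nat_lit 1672) (nat_lit 3438356497) (nat_lit 460) (nat_lit 5) (nat_lit 459) (nat_lit 5) (nat_lit 481) (nat_lit 5) (nat_lit 429) (nat_lit 425) (nat_lit 286))) (XT.nd (nat_lit 78) (nat_lit 0) (nat_lit 76) (XT.lf (nat_lit 76) (nat_lit 6876451725)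 (nat_lit 0) (nat_lit 1235174817) (nat_lit 1672) (nat_lit 2730659745) (nat_lit 460) (nat_lit 5) (nat_lit 459) (nat_lit 5) (nat_lit 481) (nat_lit 5) (nat_lit 430) (nat_lit 425) (nat_lit 285)) (XT.nd (nat_lit 78) (nat_lit 0) (nat_lit 0) (XT.lf (nat_lit 76) (nat_lit 1357325654) (nat_lit 0) (nat_lit 7590250140) (nat_lit 1672) (nat_lit 1993261420) (nat_lit 461) (nat_lit 5) (nat_lit 460) (nat_lit 5) (nat_lit 482) (nat_lit 5) (nat_lit 431) (nat_lit 425) (nat_lit 284)) (XT.lf (nat_lit 76) (nat_lit 6823395001) (nat_lit 0) (nat_lit 2996328197) (nat_lit 1672) (nat_lit 1221252024) (nat_lit 461) (nat_lit 5) (nat_lit 460) (nat_lit 5) (nat_lit 482) (nat_lit 5) (nat_lit 432) (nat_lit 425) (nat_lit 283))))) (XT.nd (nat_lit 234) (nat_lit 0) (nat_lit 76) (XT.nd (nat_lit 78) (nat_lit 1672) (nat_lit 0) (XT.lf (nat_lit 76) (nat_lit 1251928993) (nat_lit 0) (nat_lit 9461561173) (nat_lit 1672) (nat_lit 429547824) (nat_lit 462) (nat_lit 5) (nat_lit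 461) (nat_lit 5) (nat_lit 483) (nat_lit 5) (nat_lit 433) (nat_lit 425) (nat_lit 282)) (XT.nd (nat_lit 78) (nat_lit 0) (nat_lit 0) (XT.lf (nat_lit 0) (nat_lit 406575646) (nat_lit 1672) (nat_lit 4390394255) (nat_lit 1748) (nat_lit 6449457496) (nat_lit 439) (nat_lit 5) (nat_lit 461) (nat_lit 5) (nat_lit 462) (nat_lit 5) (nat_lit 434) (nat_lit 425) (nat_lit 281)) (XT.lf (nat_lit 76) (nat_lit 1224399035) (nat_lit 0) (nat_lit 22725650) (nat_lit 1748) (nat_lit 10104839242) (nat_lit 440) (nat_lit 5) (nat_lit 439) (nat_lit 5) (nat_lit 462) (nat_lit 5) (nat_lit 435) (nat_lit 425) (nat_lit 280)))) (XT.nd (nat_lit 78) (nat_lit 0) (nat_lit 0) (XT.lf (nat_lit 0) (nat_lit 2151370368) (nat_lit 1672) (nat_lit 4489099243) (nat_lit 1748) (nat_lit 4818208975) (nat_lit 440) (nat_lit 5) (nat_lit 462) (nat_lit 5) (nat_lit 463) (nat_lit 5) (nat_lit 436) (nat_lit 425) (nat_lit 279)) (XT.nd (nat_lit 78) (nat_lit 0) (nat_lit 76) (XT.lf (nat_lit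 76) (nat_lit 1269404905) (nat_lit 0) (nat_lit 1798726352) (nat_lit 1748) (nat_lit 8499512688) (nat_lit 441) (nat_lit 5) (nat_lit 440) (nat_lit 5) (nat_lit 463) (nat_lit 5) (nat_lit 437) (nat_lit 425) (nat_lit 278)) (XT.lf (nat_lit 0) (nat_lit 4040219030) (nat_lit 1672) (nat_lit 4504319240) (nat_lit 1748) (nat_lit 3133515421) (nat_lit 441) (nat_lit 5) (nat_lit 463) (nat_lit 5) (nat_lit 464) (nat_lit 5) (nat_lit 438) (nat_lit 425) (nat_lit 277)))))) (XT.nd (nat_lit 390) (nat_lit 1520) (nat_lit 0) (XT.nd (nat_lit 156) (nat_lit 0) (nat_lit 76) (XT.nd (nat_lit 78) (nat_lit 0) (nat_lit 76) (XT.lf (nat_lit 76) (nat_lit 1402671308) (nat_lit 0) (nat_lit 3636647346) (nat_lit 1748) (nat_lit 6751206393) (nat_lit 442) (nat_lit 5) (nat_lit 441) (nat_lit 5) (nat_lit 464) (nat_lit 5) (nat_lit 439) (nat_lit 425) (nat_lit 276)) (XT.lf (nat_lit 0) (nat_lit 6084498633) (nat_lit 1672) (nat_lit 4434400042) (nat_lit 1748) (nat_lit 1385829914)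 (nat_lit 442) (nat_lit 5) (nat_lit 464) (nat_lit 5) (nat_lit 465) (nat_lit 5) (nat_lit 440) (nat_lit 425) (nat_lit 275))) (XT.nd (nat_lit 78) (nat_lit 0) (nat_lit 0) (XT.lf (nat_lit 76) (nat_lit 1626024973) (nat_lit 0) (nat_lit 5546238198) (nat_lit 1748) (nat_lit 4848524040) (nat_lit 443) (nat_lit 5) (nat_lit 442) (nat_lit 5) (nat_lit 465) (nat_lit 5) (nat_lit 441) (nat_lit 425) (nat_lit 274)) (XT.nd (nat_lit 78) (nat_lit 0) (nat_lit 76) (XT.lf (nat_lit 76) (nat_lit 7858489784) (nat_lit 0) (nat_lit 440284223) (nat_lit 1748) (nat_lit 3840057718) (nat_lit 443) (nat_lit 5) (nat_lit 442) (nat_lit 5) (nat_lit 465) (nat_lit 5) (nat_lit 442) (nat_lit 425) (nat_lit 273)) (XT.lf (nat_lit 76) (nat_lit 1941501039) (nat_lit 0) (nat_lit 7537381549) (nat_lit 1748) (nat_lit 2779737642) (nat_lit 444) (nat_lit 5) (nat_lit 443) (nat_lit 5) (nat_lit 466) (nat_lit 5) (nat_lit 443) (nat_lit 425) (nat_lit 272))))) (XT.nd (nat_lit 234) (nat_lit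 0) (nat_lit 76) (XT.nd (nat_lit 78) (nat_lit 1672) (nat_lit 0) (XT.lf (nat_lit 76) (nat_lit 8333535959) (nat_lit 0) (nat_lit 2368368220) (nat_lit 1748) (nat_lit 1678518472) (nat_lit 444) (nat_lit 5) (nat_lit 443) (nat_lit 5) (nat_lit 466) (nat_lit 5) (nat_lit 444) (nat_lit 425) (nat_lit 271)) (XT.nd (nat_lit 78) (nat_lit 1748) (nat_lit 0) (XT.lf (nat_lit 76) (nat_lit 2351340167) (nat_lit 0) (nat_lit 9620118676) (nat_lit 1748) (nat_lit 532765104) (nat_lit 445) (nat_lit 5) (nat_lit 444) (nat_lit 5) (nat_lit 467) (nat_lit 5) (nat_lit 445) (nat_lit 425) (nat_lit 270)) (XT.lf (nat_lit 0) (nat_lit 658628698) (nat_lit 1748) (nat_lit 3727057940) (nat_lit 1824) (nat_lit 8244114861) (nat_lit 421) (nat_lit 5) (nat_lit 444) (nat_lit 5) (nat_lit 445) (nat_lit 5) (nat_lit 446) (nat_lit 425) (nat_lit 269)))) (XT.nd (nat_lit 78) (nat_lit 0) (nat_lit 0) (XT.lf (nat_lit 0) (nat_lit 1879870043) (nat_lit 1748) (nat_lit 9912190158) (nat_lit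 1824) (nat_lit 965500933) (nat_lit 422) (nat_lit 5) (nat_lit 445) (nat_lit 5) (nat_lit 446) (nat_lit 5) (nat_lit 447) (nat_lit 425) (nat_lit 268)) (XT.nd (nat_lit 78) (nat_lit 0) (nat_lit 0) (XT.lf (nat_lit 0) (nat_lit 3168220038) (nat_lit 1748) (nat_lit 3326313347) (nat_lit 1824) (nat_lit 6392492851) (nat_lit 422) (nat_lit 5) (nat_lit 445) (nat_lit 5) (nat_lit 446) (nat_lit 5) (nat_lit 448) (nat_lit 425) (nat_lit 267)) (XT.lf (nat_lit 76) (nat_lit 3426914419) (nat_lit 0) (nat_lit 1066362013) (nat_lit 1824) (nat_lit 8525589296) (nat_lit 423) (nat_lit 5) (nat_lit 422) (nat_lit 5) (nat_lit 446) (nat_lit 5) (nat_lit 449) (nat_lit 425) (nat_lit 266))))))) (XT.nd (nat_lit 858) (nat_lit 4636) (nat_lit 0) (XT.nd (nat_lit 390) (nat_lit 3496) (nat_lit 0) (XT.nd (nat_lit 156) (nat_lit 1140) (nat_lit 0) (XT.nd (nat_lit 78) (nat_lit 1748) (nat_lit 0) (XT.lf (nat_lit 0) (nat_lit 5885191357) (nat_lit 1748) (nat_lit 2831261260) (nat_lit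 76) (nat_lit 4436086043) (nat_lit 423) (nat_lit 5) (nat_lit 446) (nat_lit 5) (nat_lit 424) (nat_lit 5) (nat_lit 450) (nat_lit 425) (nat_lit 265)) (XT.lf (nat_lit 0) (nat_lit 4102077105) (nat_lit 1748) (nat_lit 3225644882) (nat_lit 1824) (nat_lit 5960711240) (nat_lit 400) (nat_lit 5) (nat_lit 423) (nat_lit 5) (nat_lit 424) (nat_lit 5) (nat_lit 451) (nat_lit 425) (nat_lit 264))) (XT.nd (nat_lit 78) (nat_lit 1140) (nat_lit 0) (XT.lf (nat_lit 0) (nat_lit 8822894204) (nat_lit 1824) (nat_lit 2239221305) (nat_lit 76) (nat_lit 2364458008) (nat_lit 400) (nat_lit 5) (nat_lit 424) (nat_lit 5) (nat_lit 401) (nat_lit 5) (nat_lit 452) (nat_lit 425) (nat_lit 263)) (XT.nd (nat_lit 78) (nat_lit 0) (nat_lit 0) (XT.lf (nat_lit 0) (nat_lit 4880214336) (nat_lit 1140) (nat_lit 5510259826) (nat_lit 1216) (nat_lit 3176155945) (nat_lit 385) (nat_lit 5) (nat_lit 400) (nat_lit 5) (nat_lit 401) (nat_lit 5) (nat_lit 453) (nat_lit 425) (nat_lit 262))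 (XT.lf (nat_lit 0) (nat_lit 11995133857) (nat_lit 1216) (nat_lit 1547328721) (nat_lit 76) (nat_lit 166914195) (nat_lit 385) (nat_lit 5) (nat_lit 401) (nat_lit 5) (nat_lit 386) (nat_lit 5) (nat_lit 454) (nat_lit 425) (nat_lit 261))))) (XT.nd (nat_lit 234) (nat_lit 1672) (nat_lit 0) (XT.nd (nat_lit 78) (nat_lit 912) (nat_lit 0) (XT.lf (nat_lit 0) (nat_lit 5764391629) (nat_lit 912) (nat_lit 7931228135) (nat_lit 988) (nat_lit 158087391) (nat_lit 373) (nat_lit 5) (nat_lit 385) (nat_lit 5) (nat_lit 386) (nat_lit 5) (nat_lit 455) (nat_lit 425) (nat_lit 260)) (XT.nd (nat_lit 78) (nat_lit 836) (nat_lit 0) (XT.lf (nat_lit 0) (nat_lit 1410784419) (nat_lit 988) (nat_lit 776078171) (nat_lit 76) (nat_lit 11813872531) (nat_lit 372) (nat_lit 5) (nat_lit 385) (nat_lit 5) (nat_lit 373) (nat_lit 5) (nat_lit 456) (nat_lit 425) (nat_lit 259)) (XT.lf (nat_lit 0) (nat_lit 3067051346) (nat_lit 912) (nat_lit 7412243293) (nat_lit 76) (nat_lit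 3670228659) (nat_lit 361) (nat_lit 5) (nat_lit 373) (nat_lit 5) (nat_lit 362) (nat_lit 5) (nat_lit 457) (nat_lit 425) (nat_lit 258)))) (XT.nd (nat_lit 78) (nat_lit 836) (nat_lit 0) (XT.lf (nat_lit 0) (nat_lit 87579251) (nat_lit 836) (nat_lit 4679381246) (nat_lit 912) (nat_lit 9534119585) (nat_lit 350) (nat_lit 5) (nat_lit 361) (nat_lit 5) (nat_lit 362) (nat_lit 5) (nat_lit 458) (nat_lit 425) (nat_lit 257)) (XT.nd (nat_lit 78) (nat_lit 836) (nat_lit 0) (XT.lf (nat_lit 0) (nat_lit 6549323432) (nat_lit 912) (nat_lit 6634589913) (nat_lit 76) (nat_lit 1270788659) (nat_lit 350) (nat_lit 5) (nat_lit 362) (nat_lit 5) (nat_lit 351) (nat_lit 5) (nat_lit 459) (nat_lit 425) (nat_lit 256)) (XT.lf (nat_lit 0) (nat_lit 1069692000) (nat_lit 836) (nat_lit 7326122885) (nat_lit 912) (nat_lit 6215014910) (nat_lit 339) (nat_lit 5) (nat_lit 350) (nat_lit 5) (nat_lit 351) (nat_lit 5) (nat_lit 460) (nat_lit 425) (nat_lit 255)))))) (XT.nd (nat_lit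 390) (nat_lit 2964) (nat_lit 0) (XT.nd (nat_lit 156) (nat_lit 836) (nat_lit 0) (XT.nd (nat_lit 78) (nat_lit 836) (nat_lit 0) (XT.lf (nat_lit 0) (nat_lit 9008806855) (nat_lit 836) (nat_lit 1305623446) (nat_lit 912) (nat_lit 4454948952) (nat_lit 339) (nat_lit 5) (nat_lit 350) (nat_lit 5) (nat_lit 351) (nat_lit 5) (nat_lit 461) (nat_lit 425) (nat_lit 254)) (XT.lf (nat_lit 0) (nat_lit 2163390767) (nat_lit 836) (nat_lit 10144323644) (nat_lit 912) (nat_lit 2622662300) (nat_lit 328) (nat_lit 5) (nat_lit 339) (nat_lit 5) (nat_lit 340) (nat_lit 5) (nat_lit 462) (nat_lit 425) (nat_lit 253))) (XT.nd (nat_lit 78) (nat_lit 836) (nat_lit 0) (XT.lf (nat_lit 0) (nat_lit 10306025419) (nat_lit 836) (nat_lit 4073061211) (nat_lit 912) (nat_lit 714745918) (nat_lit 328) (nat_lit 5) (nat_lit 339) (nat_lit 5) (nat_lit 340) (nat_lit 5) (nat_lit 463) (nat_lit 425) (nat_lit 252)) (XT.nd (nat_lit 78) (nat_lit 0) (nat_lit 0) (XT.lf (nat_lit 0) (nat_lit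 1242164182) (nat_lit 836) (nat_lit 11895907275) (nat_lit 76) (nat_lit 2121789229) (nat_lit 317) (nat_lit 5) (nat_lit 328) (nat_lit 5) (nat_lit 318) (nat_lit 5) (nat_lit 464) (nat_lit 425) (nat_lit 251)) (XT.lf (nat_lit 0) (nat_lit 3279172958) (nat_lit 836) (nat_lit 3726029689) (nat_lit 76) (nat_lit 8422904345) (nat_lit 317) (nat_lit 5) (nat_lit 328) (nat_lit 5) (nat_lit 318) (nat_lit 5) (nat_lit 465) (nat_lit 425) (nat_lit 250))))) (XT.nd (nat_lit 234) (nat_lit 1520) (nat_lit 0) (XT.nd (nat_lit 78) (nat_lit 684) (nat_lit 0) (XT.lf (nat_lit 0) (nat_lit 4659341866) (nat_lit 760) (nat_lit 719210581) (nat_lit 836) (nat_lit 10220735827) (nat_lit 307) (nat_lit 5) (nat_lit 317) (nat_lit 5) (nat_lit 318) (nat_lit 5) (nat_lit 466) (nat_lit 425) (nat_lit 249)) (XT.nd (nat_lit 78) (nat_lit 684) (nat_lit 0) (XT.lf (nat_lit 0) (nat_lit 7573535272) (nat_lit 836) (nat_lit 2556712361) (nat_lit 76) (nat_lit 5642575842) (nat_lit 307)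 (nat_lit 5) (nat_lit 318) (nat_lit 5) (nat_lit 308) (nat_lit 5) (nat_lit 467) (nat_lit 425) (nat_lit 248)) (XT.lf (nat_lit 0) (nat_lit 6059957345) (nat_lit 684) (nat_lit 3788222617) (nat_lit 760) (nat_lit 6100936729) (nat_lit 298) (nat_lit 5) (nat_lit 307) (nat_lit 5) (nat_lit 308) (nat_lit 5) (nat_lit 468) (nat_lit 425) (nat_lit 247)))) (XT.nd (nat_lit 78) (nat_lit 1520) (nat_lit 0) (XT.lf (nat_lit 0) (nat_lit 12194748307) (nat_lit 760) (nat_lit 1271541164) (nat_lit 76) (nat_lit 2662120191) (nat_lit 298) (nat_lit 5) (nat_lit 308) (nat_lit 5) (nat_lit 299) (nat_lit 5) (nat_lit 469) (nat_lit 425) (nat_lit 246)) (XT.nd (nat_lit 78) (nat_lit 760) (nat_lit 0) (XT.lf (nat_lit 0) (nat_lit 7583936155) (nat_lit 760) (nat_lit 7070556768) (nat_lit 836) (nat_lit 1655473129) (nat_lit 288) (nat_lit 5) (nat_lit 298) (nat_lit 5) (nat_lit 299) (nat_lit 5) (nat_lit 470) (nat_lit 425) (nat_lit 245)) (XT.lf (nat_lit 0) (nat_lit 127126904)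 (nat_lit 684) (nat_lit 533765400) (nat_lit 760) (nat_lit 15834149288) (nat_lit 278) (nat_lit 5) (nat_lit 287) (nat_lit 5) (nat_lit 288) (nat_lit 5) (nat_lit 471) (nat_lit 425) (nat_lit 244))))))))
noncomputable def xc199 : XT := (XT.nd (nat_lit 1716) (nat_lit 2356) (nat_lit 0) (XT.nd (nat_lit 858) (nat_lit 3344) (nat_lit 0) (XT.nd (nat_lit 390) (nat_lit 2508) (nat_lit 0) (XT.nd (nat_lit 156) (nat_lit 608) (nat_lit 0) (XT.nd (nat_lit 78) (nat_lit 684) (nat_lit 0) (XT.lf (nat_lit 0) (nat_lit 3092264930) (nat_lit 760) (nat_lit 7467210178) (nat_lit 76) (nat_lit 6122310063) (nat_lit 278) (nat_lit 5) (nat_lit 288) (nat_lit 5) (nat_lit 279) (nat_lit 5) (nat_lit 472) (nat_lit 425) (nat_lit 243)) (XT.lf (nat_lit 0) (nat_lit 1620384507) (nat_lit 684) (nat_lit 3958149176) (nat_lit 760) (nat_lit 11293606836) (nat_lit 269) (nat_lit 5) (nat_lit 278) (nat_lit 5) (nat_lit 279) (nat_lit 5) (nat_lit 473) (nat_lit 425) (nat_lit 242)))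 (XT.nd (nat_lit 78) (nat_lit 608) (nat_lit 0) (XT.lf (nat_lit 0) (nat_lit 8175288796) (nat_lit 760) (nat_lit 6101631499) (nat_lit 76) (nat_lit 2788169685) (nat_lit 269) (nat_lit 5) (nat_lit 279) (nat_lit 5) (nat_lit 270) (nat_lit 5) (nat_lit 474) (nat_lit 425) (nat_lit 241)) (XT.nd (nat_lit 78) (nat_lit 0) (nat_lit 0) (XT.lf (nat_lit 0) (nat_lit 3239006393) (nat_lit 608) (nat_lit 7624668016) (nat_lit 684) (nat_lit 6397432294) (nat_lit 261) (nat_lit 5) (nat_lit 269) (nat_lit 5) (nat_lit 270) (nat_lit 5) (nat_lit 475) (nat_lit 425) (nat_lit 240)) (XT.lf (nat_lit 0) (nat_lit 12840467520) (nat_lit 608) (nat_lit 798849595) (nat_lit 684) (nat_lit 3821058998) (nat_lit 261) (nat_lit 5) (nat_lit 269) (nat_lit 5) (nat_lit 270) (nat_lit 5) (nat_lit 476) (nat_lit 425) (nat_lit 239))))) (XT.nd (nat_lit 234) (nat_lit 1140) (nat_lit 0) (XT.nd (nat_lit 78) (nat_lit 684) (nat_lit 0) (XT.lf (nat_lit 0) (nat_lit 4987046982) (nat_lit 684)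 (nat_lit 11548504844) (nat_lit 760) (nat_lit 1126779598) (nat_lit 252) (nat_lit 5) (nat_lit 261) (nat_lit 5) (nat_lit 262) (nat_lit 5) (nat_lit 477) (nat_lit 425) (nat_lit 238)) (XT.nd (nat_lit 78) (nat_lit 608) (nat_lit 0) (XT.lf (nat_lit 0) (nat_lit 1629338511) (nat_lit 760) (nat_lit 3043673161) (nat_lit 76) (nat_lit 13194521286) (nat_lit 251) (nat_lit 5) (nat_lit 261) (nat_lit 5) (nat_lit 252) (nat_lit 5) (nat_lit 478) (nat_lit 425) (nat_lit 237)) (XT.lf (nat_lit 0) (nat_lit 4478399967) (nat_lit 684) (nat_lit 11237005453) (nat_lit 76) (nat_lit 2360227947) (nat_lit 243) (nat_lit 5) (nat_lit 252) (nat_lit 5) (nat_lit 244) (nat_lit 5) (nat_lit 479) (nat_lit 425) (nat_lit 236)))) (XT.nd (nat_lit 78) (nat_lit 1140) (nat_lit 0) (XT.lf (nat_lit 0) (nat_lit 7428888135) (nat_lit 684) (nat_lit 1367353858) (nat_lit 76) (nat_lit 9490766820) (nat_lit 243) (nat_lit 5) (nat_lit 252) (nat_lit 5) (nat_lit 244) (nat_lit 5) (nat_lit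 480) (nat_lit 425) (nat_lit 235)) (XT.nd (nat_lit 78) (nat_lit 532) (nat_lit 0) (XT.lf (nat_lit 0) (nat_lit 8806744762) (nat_lit 608) (nat_lit 1681897467) (nat_lit 684) (nat_lit 8012966314) (nat_lit 235) (nat_lit 5) (nat_lit 243) (nat_lit 5) (nat_lit 244) (nat_lit 5) (nat_lit 481) (nat_lit 425) (nat_lit 234)) (XT.lf (nat_lit 0) (nat_lit 443584392) (nat_lit 532) (nat_lit 13207466482) (nat_lit 608) (nat_lit 5068622066) (nat_lit 228) (nat_lit 5) (nat_lit 235) (nat_lit 5) (nat_lit 236) (nat_lit 5) (nat_lit 482) (nat_lit 425) (nat_lit 233)))))) (XT.nd (nat_lit 390) (nat_lit 2128) (nat_lit 0) (XT.nd (nat_lit 156) (nat_lit 532) (nat_lit 0) (XT.nd (nat_lit 78) (nat_lit 684) (nat_lit 0) (XT.lf (nat_lit 0) (nat_lit 10896466504) (nat_lit 532) (nat_lit 6049591456) (nat_lit 608) (nat_lit 1994655487) (nat_lit 228) (nat_lit 5) (nat_lit 235) (nat_lit 5) (nat_lit 236) (nat_lit 5) (nat_lit 483) (nat_lit 425) (nat_lit 232)) (XT.lf (nat_lit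 0) (nat_lit 1143044475) (nat_lit 684) (nat_lit 16766099477) (nat_lit 76) (nat_lit 1256540116) (nat_lit 219) (nat_lit 5) (nat_lit 228) (nat_lit 5) (nat_lit 220) (nat_lit 5) (nat_lit 484) (nat_lit 425) (nat_lit 231))) (XT.nd (nat_lit 78) (nat_lit 532) (nat_lit 0) (XT.lf (nat_lit 0) (nat_lit 4404597445) (nat_lit 684) (nat_lit 6294827634) (nat_lit 76) (nat_lit 8693710901) (nat_lit 219) (nat_lit 5) (nat_lit 228) (nat_lit 5) (nat_lit 220) (nat_lit 5) (nat_lit 485) (nat_lit 425) (nat_lit 230)) (XT.nd (nat_lit 78) (nat_lit 0) (nat_lit 0) (XT.lf (nat_lit 0) (nat_lit 4435754036) (nat_lit 532) (nat_lit 3317937429) (nat_lit 608) (nat_lit 11871000950) (nat_lit 212) (nat_lit 5) (nat_lit 219) (nat_lit 5) (nat_lit 220) (nat_lit 5) (nat_lit 486) (nat_lit 425) (nat_lit 229)) (XT.lf (nat_lit 0) (nat_lit 11233202581) (nat_lit 608) (nat_lit 4429736211) (nat_lit 76) (nat_lit 4196674139) (nat_lit 212) (nat_lit 5) (nat_lit 220) (nat_lit 5)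 (nat_lit 213) (nat_lit 5) (nat_lit 487) (nat_lit 425) (nat_lit 228))))) (XT.nd (nat_lit 234) (nat_lit 988) (nat_lit 0) (XT.nd (nat_lit 78) (nat_lit 608) (nat_lit 0) (XT.lf (nat_lit 0) (nat_lit 6601059889) (nat_lit 532) (nat_lit 8239773710) (nat_lit 608) (nat_lit 5257229285) (nat_lit 205) (nat_lit 5) (nat_lit 212) (nat_lit 5) (nat_lit 213) (nat_lit 5) (nat_lit 488) (nat_lit 425) (nat_lit 227)) (XT.nd (nat_lit 78) (nat_lit 608) (nat_lit 0) (XT.lf (nat_lit 0) (nat_lit 17904380935) (nat_lit 532) (nat_lit 639731021) (nat_lit 608) (nat_lit 1796701573) (nat_lit 205) (nat_lit 5) (nat_lit 212) (nat_lit 5) (nat_lit 213) (nat_lit 5) (nat_lit 489) (nat_lit 425) (nat_lit 226)) (XT.lf (nat_lit 0) (nat_lit 1808847185) (nat_lit 608) (nat_lit 11690452254) (nat_lit 76) (nat_lit 7086925446) (nat_lit 197) (nat_lit 5) (nat_lit 205) (nat_lit 5) (nat_lit 198) (nat_lit 5) (nat_lit 490) (nat_lit 425) (nat_lit 225)))) (XT.nd (nat_lit 78) (nat_lit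 988) (nat_lit 0) (XT.lf (nat_lit 0) (nat_lit 5477071381) (nat_lit 608) (nat_lit 372931159) (nat_lit 76) (nat_lit 14986013454) (nat_lit 197) (nat_lit 5) (nat_lit 205) (nat_lit 5) (nat_lit 198) (nat_lit 5) (nat_lit 491) (nat_lit 425) (nat_lit 224)) (XT.nd (nat_lit 78) (nat_lit 456) (nat_lit 0) (XT.lf (nat_lit 0) (nat_lit 9299274367) (nat_lit 608) (nat_lit 9791272926) (nat_lit 76) (nat_lit 1998644816) (nat_lit 190) (nat_lit 5) (nat_lit 198) (nat_lit 5) (nat_lit 191) (nat_lit 5) (nat_lit 492) (nat_lit 425) (nat_lit 223)) (XT.lf (nat_lit 0) (nat_lit 1837183040) (nat_lit 456) (nat_lit 11408004980) (nat_lit 532) (nat_lit 8101299833) (nat_lit 184) (nat_lit 5) (nat_lit 190) (nat_lit 5) (nat_lit 191) (nat_lit 5) (nat_lit 493) (nat_lit 425) (nat_lit 222))))))) (XT.nd (nat_lit 54132) (nat_lit 0) (nat_lit 21736) (XT.nd (nat_lit 390) (nat_lit 1368) (nat_lit 0) (XT.nd (nat_lit 156) (nat_lit 532) (nat_lit 0) (XT.nd (nat_lit 78) (nat_lit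 456) (nat_lit 0) (XT.lf (nat_lit 0) (nat_lit 13822970475) (nat_lit 456) (nat_lit 3506896025) (nat_lit 532) (nat_lit 4277867492) (nat_lit 184) (nat_lit 5) (nat_lit 190) (nat_lit 5) (nat_lit 191) (nat_lit 5) (nat_lit 494) (nat_lit 425) (nat_lit 221)) (XT.lf (nat_lit 0) (nat_lit 4191780735) (nat_lit 456) (nat_lit 17355473202) (nat_lit 532) (nat_lit 325932192) (nat_lit 178) (nat_lit 5) (nat_lit 184) (nat_lit 5) (nat_lit 185) (nat_lit 5) (nat_lit 495) (nat_lit 425) (nat_lit 220))) (XT.nd (nat_lit 78) (nat_lit 456) (nat_lit 0) (XT.lf (nat_lit 0) (nat_lit 3726526075) (nat_lit 532) (nat_lit 5685081347) (nat_lit 76) (nat_lit 12730458576) (nat_lit 177) (nat_lit 5) (nat_lit 184) (nat_lit 5) (nat_lit 178) (nat_lit 5) (nat_lit 496) (nat_lit 425) (nat_lit 219)) (XT.nd (nat_lit 78) (nat_lit 0) (nat_lit 0) (XT.lf (nat_lit 0) (nat_lit 6628162587) (nat_lit 456) (nat_lit 1264923878) (nat_lit 532) (nat_lit 14522446870) (nat_lit 171) (nat_lit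 5) (nat_lit 177) (nat_lit 5) (nat_lit 178) (nat_lit 5) (nat_lit 497) (nat_lit 425) (nat_lit 218)) (XT.lf (nat_lit 0) (nat_lit 12221544100) (nat_lit 532) (nat_lit 3482789241) (nat_lit 76) (nat_lit 6988566634) (nat_lit 171) (nat_lit 5) (nat_lit 178) (nat_lit 5) (nat_lit 172) (nat_lit 5) (nat_lit 498) (nat_lit 425) (nat_lit 217))))) (XT.nd (nat_lit 234) (nat_lit 456) (nat_lit 0) (XT.nd (nat_lit 78) (nat_lit 456) (nat_lit 0) (XT.lf (nat_lit 0) (nat_lit 9172129549) (nat_lit 456) (nat_lit 7526903866) (nat_lit 532) (nat_lit 6275532536) (nat_lit 165) (nat_lit 5) (nat_lit 171) (nat_lit 5) (nat_lit 172) (nat_lit 5) (nat_lit 499) (nat_lit 425) (nat_lit 216)) (XT.nd (nat_lit 78) (nat_lit 456) (nat_lit 0) (XT.lf (nat_lit 0) (nat_lit 21289461483) (nat_lit 532) (nat_lit 1147197319) (nat_lit 76) (nat_lit 824739895) (nat_lit 165) (nat_lit 5) (nat_lit 172) (nat_lit 5) (nat_lit 166) (nat_lit 5) (nat_lit 500) (nat_lit 425) (nat_lit 215))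 (XT.lf (nat_lit 0) (nat_lit 2508353644) (nat_lit 456) (nat_lit 11708769832) (nat_lit 76) (nat_lit 9334085200) (nat_lit 159) (nat_lit 5) (nat_lit 165) (nat_lit 5) (nat_lit 160) (nat_lit 5) (nat_lit 501) (nat_lit 425) (nat_lit 214)))) (XT.nd (nat_lit 78) (nat_lit 0) (nat_lit 0) (XT.lf (nat_lit 0) (nat_lit 1256540449) (nat_lit 456) (nat_lit 5805940987) (nat_lit 532) (nat_lit 16783861179) (nat_lit 153) (nat_lit 5) (nat_lit 159) (nat_lit 5) (nat_lit 160) (nat_lit 5) (nat_lit 502) (nat_lit 425) (nat_lit 213)) (XT.nd (nat_lit 53352) (nat_lit 0) (nat_lit 23180) (XT.lf (nat_lit 0) (nat_lit 11799534443) (nat_lit 532) (nat_lit 9532090625) (nat_lit 76) (nat_lit 2813918448) (nat_lit 153) (nat_lit 5) (nat_lit 160) (nat_lit 5) (nat_lit 154) (nat_lit 5) (nat_lit 503) (nat_lit 425) (nat_lit 212)) (XT.lf (nat_lit 0) (nat_lit 1430200502) (nat_lit 0) (nat_lit 1430200502) (nat_lit 1596) (nat_lit 2417409513) (nat_lit 458) (nat_lit 5) (nat_lit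 458) (nat_lit 3) (nat_lit 479) (nat_lit 3) (nat_lit 426) (nat_lit 426) (nat_lit 288)))))) (XT.nd (nat_lit 390) (nat_lit 1444) (nat_lit 0) (XT.nd (nat_lit 156) (nat_lit 0) (nat_lit 0) (XT.nd (nat_lit 78) (nat_lit 0) (nat_lit 0) (XT.lf (nat_lit 0) (nat_lit 6404785396) (nat_lit 1596) (nat_lit 2646645660) (nat_lit 1672) (nat_lit 1596982317) (nat_lit 458) (nat_lit 5) (nat_lit 479) (nat_lit 3) (nat_lit 480) (nat_lit 5) (nat_lit 427) (nat_lit 426) (nat_lit 287)) (XT.lf (nat_lit 76) (nat_lit 2508390900) (nat_lit 0) (nat_lit 4613174262) (nat_lit 1672) (nat_lit 3621120050) (nat_lit 459) (nat_lit 5) (nat_lit 458) (nat_lit 5) (nat_lit 480) (nat_lit 5) (nat_lit 428) (nat_lit 426) (nat_lit 286))) (XT.nd (nat_lit 78) (nat_lit 0) (nat_lit 76) (XT.lf (nat_lit 76) (nat_lit 7793995612) (nat_lit 0) (nat_lit 60594156) (nat_lit 1672) (nat_lit 2984220408) (nat_lit 459) (nat_lit 5) (nat_lit 458) (nat_lit 5) (nat_lit 480) (nat_lit 5) (nat_lit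 429) (nat_lit 426) (nat_lit 285)) (XT.nd (nat_lit 78) (nat_lit 0) (nat_lit 0) (XT.lf (nat_lit 76) (nat_lit 2239461981) (nat_lit 0) (nat_lit 6391616118) (nat_lit 1672) (nat_lit 2305209234) (nat_lit 460) (nat_lit 5) (nat_lit 459) (nat_lit 5) (nat_lit 481) (nat_lit 5) (nat_lit 430) (nat_lit 426) (nat_lit 284)) (XT.lf (nat_lit 76) (nat_lit 7661739710) (nat_lit 0) (nat_lit 1766942746) (nat_lit 1672) (nat_lit 1606925496) (nat_lit 460) (nat_lit 5) (nat_lit 459) (nat_lit 5) (nat_lit 481) (nat_lit 5) (nat_lit 431) (nat_lit 426) (nat_lit 283))))) (XT.nd (nat_lit 234) (nat_lit 0) (nat_lit 0) (XT.nd (nat_lit 78) (nat_lit 1596) (nat_lit 0) (XT.lf (nat_lit 76) (nat_lit 2054609383) (nat_lit 0) (nat_lit 8205221043) (nat_lit 1672) (nat_lit 876738261) (nat_lit 461) (nat_lit 5) (nat_lit 460) (nat_lit 5) (nat_lit 482) (nat_lit 5) (nat_lit 432) (nat_lit 426) (nat_lit 282)) (XT.nd (nat_lit 78) (nat_lit 1596) (nat_lit 0) (XT.lf (nat_lit 76)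 (nat_lit 7616860171) (nat_lit 0) (nat_lit 3510338977) (nat_lit 1672) (nat_lit 111962958) (nat_lit 461) (nat_lit 5) (nat_lit 460) (nat_lit 5) (nat_lit 482) (nat_lit 5) (nat_lit 433) (nat_lit 426) (nat_lit 281)) (XT.lf (nat_lit 0) (nat_lit 666036788) (nat_lit 1672) (nat_lit 9393006450) (nat_lit 1748) (nat_lit 1284548788) (nat_lit 439) (nat_lit 5) (nat_lit 461) (nat_lit 5) (nat_lit 462) (nat_lit 5) (nat_lit 434) (nat_lit 426) (nat_lit 280)))) (XT.nd (nat_lit 78) (nat_lit 0) (nat_lit 0) (XT.lf (nat_lit 0) (nat_lit 1491598630) (nat_lit 1672) (nat_lit 3798711905) (nat_lit 1748) (nat_lit 6159120295) (nat_lit 439) (nat_lit 5) (nat_lit 461) (nat_lit 5) (nat_lit 462) (nat_lit 5) (nat_lit 435) (nat_lit 426) (nat_lit 279)) (XT.nd (nat_lit 78) (nat_lit 0) (nat_lit 76) (XT.lf (nat_lit 76) (nat_lit 1923906919) (nat_lit 0) (nat_lit 408318888) (nat_lit 1748) (nat_lit 9225194534) (nat_lit 440) (nat_lit 5) (nat_lit 439) (nat_lit 5) (nat_lit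 462) (nat_lit 5) (nat_lit 436) (nat_lit 426) (nat_lit 278)) (XT.lf (nat_lit 0) (nat_lit 3231317434) (nat_lit 1672) (nat_lit 3893485793) (nat_lit 1748) (nat_lit 4541938290) (nat_lit 440) (nat_lit 5) (nat_lit 462) (nat_lit 5) (nat_lit 463) (nat_lit 5) (nat_lit 437) (nat_lit 426) (nat_lit 277))))))))
noncomputable def xc200 : XT := (XT.nd (nat_lit 1638) (nat_lit 8968) (nat_lit 0) (XT.nd (nat_lit 780) (nat_lit 4560) (nat_lit 0) (XT.nd (nat_lit 390) (nat_lit 1444) (nat_lit 0) (XT.nd (nat_lit 156) (nat_lit 0) (nat_lit 76) (XT.nd (nat_lit 78) (nat_lit 0) (nat_lit 76) (XT.lf (nat_lit 76) (nat_lit 1975679258) (nat_lit 0) (nat_lit 2174823291) (nat_lit 1748) (nat_lit 7627709154) (nat_lit 441) (nat_lit 5) (nat_lit 440) (nat_lit 5) (nat_lit 463) (nat_lit 5) (nat_lit 438) (nat_lit 426) (nat_lit 276)) (XT.lf (nat_lit 0) (nat_lit 5119847299) (nat_lit 1672) (nat_lit 3904327512) (nat_lit 1748) (nat_lit 2867105685) (nat_lit 441) (nat_lit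 5) (nat_lit 463) (nat_lit 5) (nat_lit 464) (nat_lit 5) (nat_lit 439) (nat_lit 426) (nat_lit 275))) (XT.nd (nat_lit 78) (nat_lit 0) (nat_lit 76) (XT.lf (nat_lit 76) (nat_lit 2116262861) (nat_lit 0) (nat_lit 4007532242) (nat_lit 1748) (nat_lit 5882515869) (nat_lit 442) (nat_lit 5) (nat_lit 441) (nat_lit 5) (nat_lit 464) (nat_lit 5) (nat_lit 440) (nat_lit 426) (nat_lit 274)) (XT.nd (nat_lit 78) (nat_lit 0) (nat_lit 0) (XT.lf (nat_lit 0) (nat_lit 7168692796) (nat_lit 1672) (nat_lit 3829462058) (nat_lit 1748) (nat_lit 1125074323) (nat_lit 442) (nat_lit 5) (nat_lit 464) (nat_lit 5) (nat_lit 465) (nat_lit 5) (nat_lit 441) (nat_lit 426) (nat_lit 273)) (XT.lf (nat_lit 76) (nat_lit 2347608128) (nat_lit 0) (nat_lit 5916205717) (nat_lit 1748) (nat_lit 3978089846) (nat_lit 443) (nat_lit 5) (nat_lit 442) (nat_lit 5) (nat_lit 465) (nat_lit 5) (nat_lit 442) (nat_lit 426) (nat_lit 272))))) (XT.nd (nat_lit 156) (nat_lit 1596) (nat_lit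 0) (XT.nd (nat_lit 78) (nat_lit 0) (nat_lit 76) (XT.lf (nat_lit 76) (nat_lit 8691211203) (nat_lit 0) (nat_lit 703053393) (nat_lit 1748) (nat_lit 2968422917) (nat_lit 443) (nat_lit 5) (nat_lit 442) (nat_lit 5) (nat_lit 465) (nat_lit 5) (nat_lit 443) (nat_lit 426) (nat_lit 271)) (XT.lf (nat_lit 76) (nat_lit 2671872683) (nat_lit 0) (nat_lit 7910750258) (nat_lit 1748) (nat_lit 1902562376) (nat_lit 444) (nat_lit 5) (nat_lit 443) (nat_lit 5) (nat_lit 466) (nat_lit 5) (nat_lit 444) (nat_lit 426) (nat_lit 270))) (XT.nd (nat_lit 78) (nat_lit 1672) (nat_lit 0) (XT.lf (nat_lit 76) (nat_lit 9178188662) (nat_lit 0) (nat_lit 2633991544) (nat_lit 1748) (nat_lit 797608431) (nat_lit 444) (nat_lit 5) (nat_lit 443) (nat_lit 5) (nat_lit 466) (nat_lit 5) (nat_lit 445) (nat_lit 426) (nat_lit 269)) (XT.nd (nat_lit 78) (nat_lit 0) (nat_lit 0) (XT.lf (nat_lit 0) (nat_lit 351628738) (nat_lit 1748) (nat_lit 9647256055) (nat_lit 1824) (nat_lit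 2737430385) (nat_lit 421) (nat_lit 5) (nat_lit 444) (nat_lit 5) (nat_lit 445) (nat_lit 5) (nat_lit 446) (nat_lit 426) (nat_lit 268)) (XT.lf (nat_lit 0) (nat_lit 1542313124) (nat_lit 1748) (nat_lit 3110268554) (nat_lit 1824) (nat_lit 8212106230) (nat_lit 421) (nat_lit 5) (nat_lit 444) (nat_lit 5) (nat_lit 445) (nat_lit 5) (nat_lit 447) (nat_lit 426) (nat_lit 267)))))) (XT.nd (nat_lit 390) (nat_lit 2964) (nat_lit 0) (XT.nd (nat_lit 156) (nat_lit 1672) (nat_lit 0) (XT.nd (nat_lit 78) (nat_lit 0) (nat_lit 0) (XT.lf (nat_lit 0) (nat_lit 2774258459) (nat_lit 1748) (nat_lit 9405089066) (nat_lit 1824) (nat_lit 815935497) (nat_lit 422) (nat_lit 5) (nat_lit 445) (nat_lit 5) (nat_lit 446) (nat_lit 5) (nat_lit 448) (nat_lit 426) (nat_lit 266)) (XT.lf (nat_lit 0) (nat_lit 4071575631) (nat_lit 1748) (nat_lit 2701325010) (nat_lit 1824) (nat_lit 6354778537) (nat_lit 422) (nat_lit 5) (nat_lit 445) (nat_lit 5) (nat_lit 446) (nat_lit 5)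 (nat_lit 449) (nat_lit 426) (nat_lit 265))) (XT.nd (nat_lit 78) (nat_lit 1672) (nat_lit 0) (XT.lf (nat_lit 76) (nat_lit 4182417873) (nat_lit 0) (nat_lit 1228705098) (nat_lit 1824) (nat_lit 7851278336) (nat_lit 423) (nat_lit 5) (nat_lit 422) (nat_lit 5) (nat_lit 446) (nat_lit 5) (nat_lit 450) (nat_lit 426) (nat_lit 264)) (XT.nd (nat_lit 78) (nat_lit 1748) (nat_lit 0) (XT.lf (nat_lit 0) (nat_lit 6813743657) (nat_lit 1748) (nat_lit 2196982103) (nat_lit 76) (nat_lit 4388370120) (nat_lit 423) (nat_lit 5) (nat_lit 446) (nat_lit 5) (nat_lit 424) (nat_lit 5) (nat_lit 451) (nat_lit 426) (nat_lit 263)) (XT.lf (nat_lit 0) (nat_lit 4870477605) (nat_lit 1748) (nat_lit 3403204601) (nat_lit 1824) (nat_lit 5264260408) (nat_lit 400) (nat_lit 5) (nat_lit 423) (nat_lit 5) (nat_lit 424) (nat_lit 5) (nat_lit 452) (nat_lit 426) (nat_lit 262))))) (XT.nd (nat_lit 234) (nat_lit 1824) (nat_lit 0) (XT.nd (nat_lit 78) (nat_lit 1140) (nat_lit 0)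 (XT.lf (nat_lit 0) (nat_lit 9782363662) (nat_lit 1824) (nat_lit 1594444740) (nat_lit 76) (nat_lit 2302370509) (nat_lit 400) (nat_lit 5) (nat_lit 424) (nat_lit 5) (nat_lit 401) (nat_lit 5) (nat_lit 453) (nat_lit 426) (nat_lit 261)) (XT.nd (nat_lit 78) (nat_lit 0) (nat_lit 0) (XT.lf (nat_lit 0) (nat_lit 5662843028) (nat_lit 1140) (nat_lit 5707546655) (nat_lit 1216) (nat_lit 2451870273) (nat_lit 385) (nat_lit 5) (nat_lit 400) (nat_lit 5) (nat_lit 401) (nat_lit 5) (nat_lit 454) (nat_lit 426) (nat_lit 260)) (XT.lf (nat_lit 0) (nat_lit 12991448933) (nat_lit 1216) (nat_lit 890733581) (nat_lit 76) (nat_lit 85998027) (nat_lit 385) (nat_lit 5) (nat_lit 401) (nat_lit 5) (nat_lit 386) (nat_lit 5) (nat_lit 455) (nat_lit 426) (nat_lit 259)))) (XT.nd (nat_lit 78) (nat_lit 836) (nat_lit 0) (XT.lf (nat_lit 0) (nat_lit 592068788) (nat_lit 988) (nat_lit 7556807793) (nat_lit 76) (nat_lit 5966655995) (nat_lit 372) (nat_lit 5) (nat_lit 385)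 (nat_lit 5) (nat_lit 373) (nat_lit 5) (nat_lit 456) (nat_lit 426) (nat_lit 258)) (XT.nd (nat_lit 78) (nat_lit 836) (nat_lit 0) (XT.lf (nat_lit 0) (nat_lit 2175473751) (nat_lit 988) (nat_lit 111945707) (nat_lit 76) (nat_lit 11978360109) (nat_lit 372) (nat_lit 5) (nat_lit 385) (nat_lit 5) (nat_lit 373) (nat_lit 5) (nat_lit 457) (nat_lit 426) (nat_lit 257)) (XT.lf (nat_lit 0) (nat_lit 3854476445) (nat_lit 912) (nat_lit 6870208497) (nat_lit 76) (nat_lit 3693071079) (nat_lit 361) (nat_lit 5) (nat_lit 373) (nat_lit 5) (nat_lit 362) (nat_lit 5) (nat_lit 458) (nat_lit 426) (nat_lit 256))))))) (XT.nd (nat_lit 858) (nat_lit 4180) (nat_lit 0) (XT.nd (nat_lit 390) (nat_lit 2280) (nat_lit 0) (XT.nd (nat_lit 156) (nat_lit 1672) (nat_lit 0) (XT.nd (nat_lit 78) (nat_lit 0) (nat_lit 0) (XT.lf (nat_lit 0) (nat_lit 775069184) (nat_lit 836) (nat_lit 4803529920) (nat_lit 912) (nat_lit 8993945158) (nat_lit 350) (nat_lit 5) (nat_lit 361) (nat_lit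 5) (nat_lit 362) (nat_lit 5) (nat_lit 459) (nat_lit 426) (nat_lit 255)) (XT.lf (nat_lit 0) (nat_lit 7382369679) (nat_lit 912) (nat_lit 6080522699) (nat_lit 76) (nat_lit 1266635574) (nat_lit 350) (nat_lit 5) (nat_lit 362) (nat_lit 5) (nat_lit 351) (nat_lit 5) (nat_lit 460) (nat_lit 426) (nat_lit 254))) (XT.nd (nat_lit 78) (nat_lit 836) (nat_lit 0) (XT.lf (nat_lit 0) (nat_lit 1773326701) (nat_lit 836) (nat_lit 7483127943) (nat_lit 912) (nat_lit 5632514831) (nat_lit 339) (nat_lit 5) (nat_lit 350) (nat_lit 5) (nat_lit 351) (nat_lit 5) (nat_lit 461) (nat_lit 426) (nat_lit 253)) (XT.nd (nat_lit 78) (nat_lit 836) (nat_lit 0) (XT.lf (nat_lit 0) (nat_lit 9857846581) (nat_lit 836) (nat_lit 1342012975) (nat_lit 912) (nat_lit 3851106385) (nat_lit 339) (nat_lit 5) (nat_lit 350) (nat_lit 5) (nat_lit 351) (nat_lit 5) (nat_lit 462) (nat_lit 426) (nat_lit 252)) (XT.lf (nat_lit 0) (nat_lit 2884898142) (nat_lit 836) (nat_lit 10339132886)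 (nat_lit 912) (nat_lit 1991336162) (nat_lit 328) (nat_lit 5) (nat_lit 339) (nat_lit 5) (nat_lit 340) (nat_lit 5) (nat_lit 463) (nat_lit 426) (nat_lit 251))))) (XT.nd (nat_lit 234) (nat_lit 1444) (nat_lit 0) (XT.nd (nat_lit 78) (nat_lit 836) (nat_lit 0) (XT.lf (nat_lit 0) (nat_lit 11177086672) (nat_lit 836) (nat_lit 4146603581) (nat_lit 912) (nat_lit 58668891) (nat_lit 328) (nat_lit 5) (nat_lit 339) (nat_lit 5) (nat_lit 340) (nat_lit 5) (nat_lit 464) (nat_lit 426) (nat_lit 250)) (XT.nd (nat_lit 78) (nat_lit 0) (nat_lit 0) (XT.lf (nat_lit 0) (nat_lit 1920069528) (nat_lit 836) (nat_lit 11451167808) (nat_lit 76) (nat_lit 2180557845) (nat_lit 317) (nat_lit 5) (nat_lit 328) (nat_lit 5) (nat_lit 318) (nat_lit 5) (nat_lit 465) (nat_lit 426) (nat_lit 249)) (XT.lf (nat_lit 0) (nat_lit 3985013341) (nat_lit 836) (nat_lit 3131278115) (nat_lit 76) (nat_lit 8607375012) (nat_lit 317) (nat_lit 5) (nat_lit 328) (nat_lit 5) (nat_lit 318)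 (nat_lit 5) (nat_lit 466) (nat_lit 426) (nat_lit 248)))) (XT.nd (nat_lit 78) (nat_lit 684) (nat_lit 0) (XT.lf (nat_lit 0) (nat_lit 5417397766) (nat_lit 760) (nat_lit 700745368) (nat_lit 836) (nat_lit 9780296860) (nat_lit 307) (nat_lit 5) (nat_lit 317) (nat_lit 5) (nat_lit 318) (nat_lit 5) (nat_lit 467) (nat_lit 426) (nat_lit 247)) (XT.nd (nat_lit 78) (nat_lit 684) (nat_lit 0) (XT.lf (nat_lit 0) (nat_lit 8344842171) (nat_lit 836) (nat_lit 1943640895) (nat_lit 76) (nat_lit 5787210298) (nat_lit 307) (nat_lit 5) (nat_lit 318) (nat_lit 5) (nat_lit 308) (nat_lit 5) (nat_lit 468) (nat_lit 426) (nat_lit 246)) (XT.lf (nat_lit 0) (nat_lit 6840992431) (nat_lit 684) (nat_lit 3816117765) (nat_lit 760) (nat_lit 5598563362) (nat_lit 298) (nat_lit 5) (nat_lit 307) (nat_lit 5) (nat_lit 308) (nat_lit 5) (nat_lit 469) (nat_lit 426) (nat_lit 245)))))) (XT.nd (nat_lit 390) (nat_lit 1976) (nat_lit 0) (XT.nd (nat_lit 156) (nat_lit 1444) (nat_lit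 0) (XT.nd (nat_lit 78) (nat_lit 760) (nat_lit 0) (XT.lf (nat_lit 0) (nat_lit 13038915268) (nat_lit 760) (nat_lit 638196883) (nat_lit 76) (nat_lit 2761677780) (nat_lit 298) (nat_lit 5) (nat_lit 308) (nat_lit 5) (nat_lit 299) (nat_lit 5) (nat_lit 470) (nat_lit 426) (nat_lit 244)) (XT.lf (nat_lit 0) (nat_lit 8390055935) (nat_lit 760) (nat_lit 7150277867) (nat_lit 836) (nat_lit 1083797644) (nat_lit 288) (nat_lit 5) (nat_lit 298) (nat_lit 5) (nat_lit 299) (nat_lit 5) (nat_lit 471) (nat_lit 426) (nat_lit 243))) (XT.nd (nat_lit 78) (nat_lit 684) (nat_lit 0) (XT.lf (nat_lit 0) (nat_lit 787858890) (nat_lit 684) (nat_lit 475674744) (nat_lit 760) (nat_lit 15549448361) (nat_lit 278) (nat_lit 5) (nat_lit 287) (nat_lit 5) (nat_lit 288) (nat_lit 5) (nat_lit 472) (nat_lit 426) (nat_lit 242)) (XT.nd (nat_lit 78) (nat_lit 684) (nat_lit 0) (XT.lf (nat_lit 0) (nat_lit 3732414110) (nat_lit 760) (nat_lit 6959982418) (nat_lit 76) (nat_lit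 6311289682) (nat_lit 278) (nat_lit 5) (nat_lit 288) (nat_lit 5) (nat_lit 279) (nat_lit 5) (nat_lit 473) (nat_lit 426) (nat_lit 241)) (XT.lf (nat_lit 0) (nat_lit 2305044607) (nat_lit 684) (nat_lit 3956259194) (nat_lit 760) (nat_lit 10936690258) (nat_lit 269) (nat_lit 5) (nat_lit 278) (nat_lit 5) (nat_lit 279) (nat_lit 5) (nat_lit 474) (nat_lit 426) (nat_lit 240))))) (XT.nd (nat_lit 234) (nat_lit 1368) (nat_lit 0) (XT.nd (nat_lit 78) (nat_lit 608) (nat_lit 0) (XT.lf (nat_lit 0) (nat_lit 8899309958) (nat_lit 760) (nat_lit 5573354883) (nat_lit 76) (nat_lit 2922354590) (nat_lit 269) (nat_lit 5) (nat_lit 279) (nat_lit 5) (nat_lit 270) (nat_lit 5) (nat_lit 475) (nat_lit 426) (nat_lit 239)) (XT.nd (nat_lit 78) (nat_lit 0) (nat_lit 0) (XT.lf (nat_lit 0) (nat_lit 3949817417) (nat_lit 608) (nat_lit 7684849830) (nat_lit 684) (nat_lit 5960428340) (nat_lit 261) (nat_lit 5) (nat_lit 269) (nat_lit 5) (nat_lit 270) (nat_lit 5) (nat_lit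 476) (nat_lit 426) (nat_lit 238)) (XT.lf (nat_lit 0) (nat_lit 13730640494) (nat_lit 608) (nat_lit 724325071) (nat_lit 684) (nat_lit 3343605079) (nat_lit 261) (nat_lit 5) (nat_lit 269) (nat_lit 5) (nat_lit 270) (nat_lit 5) (nat_lit 477) (nat_lit 426) (nat_lit 237)))) (XT.nd (nat_lit 78) (nat_lit 684) (nat_lit 0) (XT.lf (nat_lit 0) (nat_lit 5726341486) (nat_lit 684) (nat_lit 11676867610) (nat_lit 760) (nat_lit 601477338) (nat_lit 252) (nat_lit 5) (nat_lit 261) (nat_lit 5) (nat_lit 262) (nat_lit 5) (nat_lit 478) (nat_lit 426) (nat_lit 236)) (XT.nd (nat_lit 78) (nat_lit 608) (nat_lit 0) (XT.lf (nat_lit 0) (nat_lit 2191977105) (nat_lit 760) (nat_lit 2470342452) (nat_lit 76) (nat_lit 13551816259) (nat_lit 251) (nat_lit 5) (nat_lit 261) (nat_lit 5) (nat_lit 252) (nat_lit 5) (nat_lit 479) (nat_lit 426) (nat_lit 235)) (XT.lf (nat_lit 0) (nat_lit 5092407258) (nat_lit 684) (nat_lit 10821784970) (nat_lit 76) (nat_lit 2512321134)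 (nat_lit 243) (nat_lit 5) (nat_lit 252) (nat_lit 5) (nat_lit 244) (nat_lit 5) (nat_lit 480) (nat_lit 426) (nat_lit 234))))))))
noncomputable def xc201 : XT := (XT.nd (nat_lit 1716) (nat_lit 456) (nat_lit 0) (XT.nd (nat_lit 858) (nat_lit 2888) (nat_lit 0) (XT.nd (nat_lit 390) (nat_lit 1672) (nat_lit 0) (XT.nd (nat_lit 156) (nat_lit 1216) (nat_lit 0) (XT.nd (nat_lit 78) (nat_lit 608) (nat_lit 0) (XT.lf (nat_lit 0) (nat_lit 8091622066) (nat_lit 684) (nat_lit 767288590) (nat_lit 76) (nat_lit 9783414144) (nat_lit 243) (nat_lit 5) (nat_lit 252) (nat_lit 5) (nat_lit 244) (nat_lit 5) (nat_lit 481) (nat_lit 426) (nat_lit 233)) (XT.lf (nat_lit 0) (nat_lit 9606164289) (nat_lit 608) (nat_lit 1600372236) (nat_lit 684) (nat_lit 7654803459) (nat_lit 235) (nat_lit 5) (nat_lit 243) (nat_lit 5) (nat_lit 244) (nat_lit 5) (nat_lit 482) (nat_lit 426) (nat_lit 232))) (XT.nd (nat_lit 78) (nat_lit 684) (nat_lit 0) (XT.lf (nat_lit 0) (nat_lit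 1081130320) (nat_lit 532) (nat_lit 13345914683) (nat_lit 608) (nat_lit 4656826346) (nat_lit 228) (nat_lit 5) (nat_lit 235) (nat_lit 5) (nat_lit 236) (nat_lit 5) (nat_lit 483) (nat_lit 426) (nat_lit 231)) (XT.nd (nat_lit 78) (nat_lit 684) (nat_lit 0) (XT.lf (nat_lit 0) (nat_lit 11730743128) (nat_lit 532) (nat_lit 6047346885) (nat_lit 608) (nat_lit 1531442556) (nat_lit 228) (nat_lit 5) (nat_lit 235) (nat_lit 5) (nat_lit 236) (nat_lit 5) (nat_lit 484) (nat_lit 426) (nat_lit 230)) (XT.lf (nat_lit 0) (nat_lit 1657528708) (nat_lit 684) (nat_lit 16473333384) (nat_lit 76) (nat_lit 1408175423) (nat_lit 219) (nat_lit 5) (nat_lit 228) (nat_lit 5) (nat_lit 220) (nat_lit 5) (nat_lit 485) (nat_lit 426) (nat_lit 229))))) (XT.nd (nat_lit 234) (nat_lit 1140) (nat_lit 0) (XT.nd (nat_lit 78) (nat_lit 532) (nat_lit 0) (XT.lf (nat_lit 0) (nat_lit 4974673063) (nat_lit 684) (nat_lit 5804951557) (nat_lit 76) (nat_lit 8991609143) (nat_lit 219)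 (nat_lit 5) (nat_lit 228) (nat_lit 5) (nat_lit 220) (nat_lit 5) (nat_lit 486) (nat_lit 426) (nat_lit 228)) (XT.nd (nat_lit 78) (nat_lit 0) (nat_lit 0) (XT.lf (nat_lit 0) (nat_lit 5136190611) (nat_lit 532) (nat_lit 3249079395) (nat_lit 608) (nat_lit 11622263357) (nat_lit 212) (nat_lit 5) (nat_lit 219) (nat_lit 5) (nat_lit 220) (nat_lit 5) (nat_lit 487) (nat_lit 426) (nat_lit 227)) (XT.lf (nat_lit 0) (nat_lit 11925888818) (nat_lit 608) (nat_lit 3910001055) (nat_lit 76) (nat_lit 4411434475) (nat_lit 212) (nat_lit 5) (nat_lit 220) (nat_lit 5) (nat_lit 213) (nat_lit 5) (nat_lit 488) (nat_lit 426) (nat_lit 226)))) (XT.nd (nat_lit 78) (nat_lit 608) (nat_lit 0) (XT.lf (nat_lit 0) (nat_lit 7337408797) (nat_lit 532) (nat_lit 8263010449) (nat_lit 608) (nat_lit 4890231478) (nat_lit 205) (nat_lit 5) (nat_lit 212) (nat_lit 5) (nat_lit 213) (nat_lit 5) (nat_lit 489) (nat_lit 426) (nat_lit 225)) (XT.nd (nat_lit 78) (nat_lit 608) (nat_lit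 0) (XT.lf (nat_lit 0) (nat_lit 18854946701) (nat_lit 532) (nat_lit 513742569) (nat_lit 608) (nat_lit 1369750906) (nat_lit 205) (nat_lit 5) (nat_lit 212) (nat_lit 5) (nat_lit 213) (nat_lit 5) (nat_lit 490) (nat_lit 426) (nat_lit 224)) (XT.lf (nat_lit 0) (nat_lit 2297670707) (nat_lit 608) (nat_lit 11321320347) (nat_lit 76) (nat_lit 7369794168) (nat_lit 197) (nat_lit 5) (nat_lit 205) (nat_lit 5) (nat_lit 198) (nat_lit 5) (nat_lit 491) (nat_lit 426) (nat_lit 223)))))) (XT.nd (nat_lit 390) (nat_lit 1368) (nat_lit 0) (XT.nd (nat_lit 156) (nat_lit 988) (nat_lit 0) (XT.nd (nat_lit 78) (nat_lit 0) (nat_lit 0) (XT.lf (nat_lit 0) (nat_lit 213529272) (nat_lit 532) (nat_lit 5818241065) (nat_lit 608) (nat_lit 15211953779) (nat_lit 190) (nat_lit 5) (nat_lit 197) (nat_lit 5) (nat_lit 198) (nat_lit 5) (nat_lit 492) (nat_lit 426) (nat_lit 222)) (XT.lf (nat_lit 0) (nat_lit 9925105467) (nat_lit 608) (nat_lit 9391947351) (nat_lit 76) (nat_lit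 2185019310) (nat_lit 190) (nat_lit 5) (nat_lit 198) (nat_lit 5) (nat_lit 191) (nat_lit 5) (nat_lit 493) (nat_lit 426) (nat_lit 221))) (XT.nd (nat_lit 78) (nat_lit 532) (nat_lit 0) (XT.lf (nat_lit 0) (nat_lit 2465162266) (nat_lit 456) (nat_lit 11479989396) (nat_lit 532) (nat_lit 7819459936) (nat_lit 184) (nat_lit 5) (nat_lit 190) (nat_lit 5) (nat_lit 191) (nat_lit 5) (nat_lit 494) (nat_lit 426) (nat_lit 220)) (XT.nd (nat_lit 78) (nat_lit 532) (nat_lit 0) (XT.lf (nat_lit 0) (nat_lit 14679072596) (nat_lit 456) (nat_lit 3423920530) (nat_lit 532) (nat_lit 3928262201) (nat_lit 184) (nat_lit 5) (nat_lit 190) (nat_lit 5) (nat_lit 191) (nat_lit 5) (nat_lit 495) (nat_lit 426) (nat_lit 219)) (XT.lf (nat_lit 0) (nat_lit 97738126) (nat_lit 532) (nat_lit 17443698957) (nat_lit 76) (nat_lit 4760640595) (nat_lit 177) (nat_lit 5) (nat_lit 184) (nat_lit 5) (nat_lit 178) (nat_lit 5) (nat_lit 496) (nat_lit 426) (nat_lit 218))))) (XT.nd (nat_lit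 234) (nat_lit 912) (nat_lit 0) (XT.nd (nat_lit 78) (nat_lit 456) (nat_lit 0) (XT.lf (nat_lit 0) (nat_lit 4218535822) (nat_lit 532) (nat_lit 5221159391) (nat_lit 76) (nat_lit 13136765688) (nat_lit 177) (nat_lit 5) (nat_lit 184) (nat_lit 5) (nat_lit 178) (nat_lit 5) (nat_lit 497) (nat_lit 426) (nat_lit 217)) (XT.nd (nat_lit 78) (nat_lit 0) (nat_lit 0) (XT.lf (nat_lit 0) (nat_lit 7334549266) (nat_lit 456) (nat_lit 1129417928) (nat_lit 532) (nat_lit 14391521493) (nat_lit 171) (nat_lit 5) (nat_lit 177) (nat_lit 5) (nat_lit 178) (nat_lit 5) (nat_lit 498) (nat_lit 426) (nat_lit 216)) (XT.lf (nat_lit 0) (nat_lit 12871919149) (nat_lit 532) (nat_lit 2982705132) (nat_lit 76) (nat_lit 7283921739) (nat_lit 171) (nat_lit 5) (nat_lit 178) (nat_lit 5) (nat_lit 172) (nat_lit 5) (nat_lit 499) (nat_lit 426) (nat_lit 215)))) (XT.nd (nat_lit 78) (nat_lit 456) (nat_lit 0) (XT.lf (nat_lit 0) (nat_lit 9921563746) (nat_lit 456) (nat_lit 7513109608)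 (nat_lit 532) (nat_lit 5991259485) (nat_lit 165) (nat_lit 5) (nat_lit 171) (nat_lit 5) (nat_lit 172) (nat_lit 5) (nat_lit 500) (nat_lit 426) (nat_lit 214)) (XT.nd (nat_lit 78) (nat_lit 456) (nat_lit 0) (XT.lf (nat_lit 0) (nat_lit 22110080345) (nat_lit 532) (nat_lit 608328438) (nat_lit 76) (nat_lit 1000231838) (nat_lit 165) (nat_lit 5) (nat_lit 172) (nat_lit 5) (nat_lit 166) (nat_lit 5) (nat_lit 501) (nat_lit 426) (nat_lit 213)) (XT.lf (nat_lit 0) (nat_lit 2951906302) (nat_lit 456) (nat_lit 11379514667) (nat_lit 76) (nat_lit 9682858185) (nat_lit 159) (nat_lit 5) (nat_lit 165) (nat_lit 5) (nat_lit 160) (nat_lit 5) (nat_lit 502) (nat_lit 426) (nat_lit 212))))))) (XT.nd (nat_lit 54210) (nat_lit 0) (nat_lit 20292) (XT.nd (nat_lit 53742) (nat_lit 0) (nat_lit 21660) (XT.nd (nat_lit 53508) (nat_lit 0) (nat_lit 23180) (XT.nd (nat_lit 53430) (nat_lit 0) (nat_lit 23180) (XT.lf (nat_lit 0) (nat_lit 1841395040) (nat_lit 456) (nat_lit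 5751642266) (nat_lit 532) (nat_lit 16722361740) (nat_lit 153) (nat_lit 5) (nat_lit 159) (nat_lit 5) (nat_lit 160) (nat_lit 5) (nat_lit 503) (nat_lit 426) (nat_lit 211)) (XT.lf (nat_lit 0) (nat_lit 1764938351) (nat_lit 0) (nat_lit 1764938351) (nat_lit 1596) (nat_lit 1841017789) (nat_lit 458) (nat_lit 5) (nat_lit 458) (nat_lit 3) (nat_lit 479) (nat_lit 3) (nat_lit 427) (nat_lit 427) (nat_lit 286))) (XT.nd (nat_lit 78) (nat_lit 0) (nat_lit 0) (XT.lf (nat_lit 0) (nat_lit 7729508660) (nat_lit 1596) (nat_lit 2070963476) (nat_lit 1672) (nat_lit 1036532084) (nat_lit 458) (nat_lit 5) (nat_lit 479) (nat_lit 3) (nat_lit 480) (nat_lit 5) (nat_lit 428) (nat_lit 427) (nat_lit 285)) (XT.nd (nat_lit 78) (nat_lit 0) (nat_lit 0) (XT.lf (nat_lit 76) (nat_lit 3183038189) (nat_lit 0) (nat_lit 5258177082) (nat_lit 1672) (nat_lit 2492343123) (nat_lit 459) (nat_lit 5) (nat_lit 458) (nat_lit 5) (nat_lit 480) (nat_lit 5) (nat_lit 429) (nat_lit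 427) (nat_lit 284)) (XT.lf (nat_lit 76) (nat_lit 8562110300) (nat_lit 0) (nat_lit 603707347) (nat_lit 1672) (nat_lit 1866258417) (nat_lit 459) (nat_lit 5) (nat_lit 458) (nat_lit 5) (nat_lit 480) (nat_lit 5) (nat_lit 430) (nat_lit 427) (nat_lit 283))))) (XT.nd (nat_lit 234) (nat_lit 0) (nat_lit 0) (XT.nd (nat_lit 78) (nat_lit 1596) (nat_lit 0) (XT.lf (nat_lit 76) (nat_lit 2919309015) (nat_lit 0) (nat_lit 7016570432) (nat_lit 1672) (nat_lit 1196070826) (nat_lit 460) (nat_lit 5) (nat_lit 459) (nat_lit 5) (nat_lit 481) (nat_lit 5) (nat_lit 431) (nat_lit 427) (nat_lit 282)) (XT.nd (nat_lit 78) (nat_lit 1596) (nat_lit 0) (XT.lf (nat_lit 76) (nat_lit 8437580184) (nat_lit 0) (nat_lit 2289656103) (nat_lit 1672) (nat_lit 506473230) (nat_lit 460) (nat_lit 5) (nat_lit 459) (nat_lit 5) (nat_lit 481) (nat_lit 5) (nat_lit 432) (nat_lit 427) (nat_lit 281)) (XT.lf (nat_lit 0) (nat_lit 214362625) (nat_lit 1672) (nat_lit 8598704957) (nat_lit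 1748) (nat_lit 2524015430) (nat_lit 438) (nat_lit 5) (nat_lit 460) (nat_lit 5) (nat_lit 461) (nat_lit 5) (nat_lit 433) (nat_lit 427) (nat_lit 280)))) (XT.nd (nat_lit 78) (nat_lit 0) (nat_lit 76) (XT.lf (nat_lit 0) (nat_lit 962694682) (nat_lit 1672) (nat_lit 3047842459) (nat_lit 1748) (nat_lit 7431527769) (nat_lit 438) (nat_lit 5) (nat_lit 460) (nat_lit 5) (nat_lit 461) (nat_lit 5) (nat_lit 434) (nat_lit 427) (nat_lit 279)) (XT.nd (nat_lit 78) (nat_lit 0) (nat_lit 0) (XT.lf (nat_lit 0) (nat_lit 1735133475) (nat_lit 1672) (nat_lit 8914699683) (nat_lit 1748) (nat_lit 899135498) (nat_lit 439) (nat_lit 5) (nat_lit 461) (nat_lit 5) (nat_lit 462) (nat_lit 5) (nat_lit 435) (nat_lit 427) (nat_lit 278)) (XT.lf (nat_lit 0) (nat_lit 2556505065) (nat_lit 1672) (nat_lit 3221581343) (nat_lit 1748) (nat_lit 5879259303) (nat_lit 439) (nat_lit 5) (nat_lit 461) (nat_lit 5) (nat_lit 462) (nat_lit 5) (nat_lit 436) (nat_lit 427) (nat_lit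 277)))))) (XT.nd (nat_lit 390) (nat_lit 1444) (nat_lit 0) (XT.nd (nat_lit 156) (nat_lit 0) (nat_lit 76) (XT.nd (nat_lit 78) (nat_lit 0) (nat_lit 76) (XT.lf (nat_lit 76) (nat_lit 2611193116) (nat_lit 0) (nat_lit 786668584) (nat_lit 1748) (nat_lit 8369962272) (nat_lit 440) (nat_lit 5) (nat_lit 439) (nat_lit 5) (nat_lit 462) (nat_lit 5) (nat_lit 437) (nat_lit 427) (nat_lit 276)) (XT.lf (nat_lit 0) (nat_lit 4292598588) (nat_lit 1672) (nat_lit 3312574814) (nat_lit 1748) (nat_lit 4274612058) (nat_lit 440) (nat_lit 5) (nat_lit 462) (nat_lit 5) (nat_lit 463) (nat_lit 5) (nat_lit 438) (nat_lit 427) (nat_lit 275))) (XT.nd (nat_lit 78) (nat_lit 0) (nat_lit 76) (XT.lf (nat_lit 76) (nat_lit 2669639454) (nat_lit 0) (nat_lit 2545234801) (nat_lit 1748) (nat_lit 6778923672) (nat_lit 441) (nat_lit 5) (nat_lit 440) (nat_lit 5) (nat_lit 463) (nat_lit 5) (nat_lit 439) (nat_lit 427) (nat_lit 274)) (XT.nd (nat_lit 78) (nat_lit 0) (nat_lit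 0) (XT.lf (nat_lit 0) (nat_lit 6182282584) (nat_lit 1672) (nat_lit 3319132522) (nat_lit 1748) (nat_lit 2608146333) (nat_lit 441) (nat_lit 5) (nat_lit 463) (nat_lit 5) (nat_lit 464) (nat_lit 5) (nat_lit 440) (nat_lit 427) (nat_lit 273)) (XT.lf (nat_lit 76) (nat_lit 2817505963) (nat_lit 0) (nat_lit 4374257231) (nat_lit 1748) (nat_lit 5035426997) (nat_lit 442) (nat_lit 5) (nat_lit 441) (nat_lit 5) (nat_lit 464) (nat_lit 5) (nat_lit 441) (nat_lit 427) (nat_lit 272))))) (XT.nd (nat_lit 234) (nat_lit 1672) (nat_lit 0) (XT.nd (nat_lit 78) (nat_lit 0) (nat_lit 0) (XT.lf (nat_lit 0) (nat_lit 8237195632) (nat_lit 1672) (nat_lit 3239359658) (nat_lit 1748) (nat_lit 870305348) (nat_lit 442) (nat_lit 5) (nat_lit 464) (nat_lit 5) (nat_lit 465) (nat_lit 5) (nat_lit 442) (nat_lit 427) (nat_lit 271)) (XT.nd (nat_lit 78) (nat_lit 0) (nat_lit 0) (XT.lf (nat_lit 76) (nat_lit 3056865803) (nat_lit 0) (nat_lit 6283513641) (nat_lit 1748) (nat_lit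 3127812471) (nat_lit 443) (nat_lit 5) (nat_lit 442) (nat_lit 5) (nat_lit 465) (nat_lit 5) (nat_lit 443) (nat_lit 427) (nat_lit 270)) (XT.lf (nat_lit 76) (nat_lit 9514354557) (nat_lit 0) (nat_lit 961216235) (nat_lit 1748) (nat_lit 2116184344) (nat_lit 443) (nat_lit 5) (nat_lit 442) (nat_lit 5) (nat_lit 465) (nat_lit 5) (nat_lit 444) (nat_lit 427) (nat_lit 269)))) (XT.nd (nat_lit 78) (nat_lit 1748) (nat_lit 0) (XT.lf (nat_lit 76) (nat_lit 3389998355) (nat_lit 0) (nat_lit 8282941694) (nat_lit 1748) (nat_lit 1044064202) (nat_lit 444) (nat_lit 5) (nat_lit 443) (nat_lit 5) (nat_lit 466) (nat_lit 5) (nat_lit 445) (nat_lit 427) (nat_lit 268)) (XT.nd (nat_lit 78) (nat_lit 0) (nat_lit 76) (XT.lf (nat_lit 0) (nat_lit 64551564) (nat_lit 1748) (nat_lit 2831467449) (nat_lit 1824) (nat_lit 9948422812) (nat_lit 420) (nat_lit 5) (nat_lit 443) (nat_lit 5) (nat_lit 444) (nat_lit 5) (nat_lit 446) (nat_lit 427) (nat_lit 267)) (XT.lf (nat_lit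 0) (nat_lit 1212104305) (nat_lit 1748) (nat_lit 9162426132) (nat_lit 1824) (nat_lit 2599148671) (nat_lit 421) (nat_lit 5) (nat_lit 444) (nat_lit 5) (nat_lit 445) (nat_lit 5) (nat_lit 447) (nat_lit 427) (nat_lit 266))))))))
noncomputable def xc202 : XT := (XT.nd (nat_lit 1716) (nat_lit 7752) (nat_lit 0) (XT.nd (nat_lit 858) (nat_lit 4104) (nat_lit 0) (XT.nd (nat_lit 390) (nat_lit 4560) (nat_lit 0) (XT.nd (nat_lit 156) (nat_lit 0) (nat_lit 76) (XT.nd (nat_lit 78) (nat_lit 0) (nat_lit 76) (XT.lf (nat_lit 0) (nat_lit 2409868202) (nat_lit 1748) (nat_lit 2507988587) (nat_lit 1824) (nat_lit 8187102941) (nat_lit 421) (nat_lit 5) (nat_lit 444) (nat_lit 5) (nat_lit 445) (nat_lit 5) (nat_lit 448) (nat_lit 427) (nat_lit 265)) (XT.lf (nat_lit 0) (nat_lit 3653264405) (nat_lit 1748) (nat_lit 8915235354) (nat_lit 1824) (nat_lit 669936392) (nat_lit 422) (nat_lit 5) (nat_lit 445) (nat_lit 5) (nat_lit 446) (nat_lit 5) (nat_lit 449) (nat_lit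 427) (nat_lit 264))) (XT.nd (nat_lit 78) (nat_lit 0) (nat_lit 0) (XT.lf (nat_lit 0) (nat_lit 4960380454) (nat_lit 1748) (nat_lit 2090689263) (nat_lit 1824) (nat_lit 6322738995) (nat_lit 422) (nat_lit 5) (nat_lit 445) (nat_lit 5) (nat_lit 446) (nat_lit 5) (nat_lit 450) (nat_lit 427) (nat_lit 263)) (XT.nd (nat_lit 78) (nat_lit 0) (nat_lit 76) (XT.lf (nat_lit 76) (nat_lit 4926355700) (nat_lit 0) (nat_lit 1388819228) (nat_lit 1824) (nat_lit 7196286653) (nat_lit 423) (nat_lit 5) (nat_lit 422) (nat_lit 5) (nat_lit 446) (nat_lit 5) (nat_lit 451) (nat_lit 427) (nat_lit 262)) (XT.lf (nat_lit 0) (nat_lit 7729380767) (nat_lit 1748) (nat_lit 1576846022) (nat_lit 76) (nat_lit 4344997918) (nat_lit 423) (nat_lit 5) (nat_lit 446) (nat_lit 5) (nat_lit 424) (nat_lit 5) (nat_lit 452) (nat_lit 427) (nat_lit 261))))) (XT.nd (nat_lit 234) (nat_lit 1824) (nat_lit 0) (XT.nd (nat_lit 78) (nat_lit 1140) (nat_lit 0) (XT.lf (nat_lit 0) (nat_lit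 5627593961) (nat_lit 1748) (nat_lit 3579925769) (nat_lit 1824) (nat_lit 4585553828) (nat_lit 400) (nat_lit 5) (nat_lit 423) (nat_lit 5) (nat_lit 424) (nat_lit 5) (nat_lit 453) (nat_lit 427) (nat_lit 260)) (XT.nd (nat_lit 78) (nat_lit 1140) (nat_lit 0) (XT.lf (nat_lit 0) (nat_lit 10730617215) (nat_lit 1824) (nat_lit 963549138) (nat_lit 76) (nat_lit 2243288490) (nat_lit 400) (nat_lit 5) (nat_lit 424) (nat_lit 5) (nat_lit 401) (nat_lit 5) (nat_lit 454) (nat_lit 427) (nat_lit 259)) (XT.lf (nat_lit 0) (nat_lit 6434523961) (nat_lit 1140) (nat_lit 5905397735) (nat_lit 1216) (nat_lit 1743690463) (nat_lit 385) (nat_lit 5) (nat_lit 400) (nat_lit 5) (nat_lit 401) (nat_lit 5) (nat_lit 455) (nat_lit 427) (nat_lit 258)))) (XT.nd (nat_lit 78) (nat_lit 1824) (nat_lit 0) (XT.lf (nat_lit 0) (nat_lit 13978317895) (nat_lit 1216) (nat_lit 247704620) (nat_lit 76) (nat_lit 6735238) (nat_lit 385) (nat_lit 5) (nat_lit 401) (nat_lit 5) (nat_lit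 386) (nat_lit 5) (nat_lit 456) (nat_lit 427) (nat_lit 257)) (XT.nd (nat_lit 78) (nat_lit 836) (nat_lit 0) (XT.lf (nat_lit 0) (nat_lit 1325943148) (nat_lit 988) (nat_lit 7041616471) (nat_lit 76) (nat_lit 6015606886) (nat_lit 372) (nat_lit 5) (nat_lit 385) (nat_lit 5) (nat_lit 373) (nat_lit 5) (nat_lit 457) (nat_lit 427) (nat_lit 256)) (XT.lf (nat_lit 0) (nat_lit 546241669) (nat_lit 836) (nat_lit 2384163594) (nat_lit 912) (nat_lit 11606230021) (nat_lit 361) (nat_lit 5) (nat_lit 372) (nat_lit 5) (nat_lit 373) (nat_lit 5) (nat_lit 458) (nat_lit 427) (nat_lit 255)))))) (XT.nd (nat_lit 390) (nat_lit 2432) (nat_lit 0) (XT.nd (nat_lit 156) (nat_lit 836) (nat_lit 0) (XT.nd (nat_lit 78) (nat_lit 836) (nat_lit 0) (XT.lf (nat_lit 0) (nat_lit 4629455316) (nat_lit 912) (nat_lit 6344137406) (nat_lit 76) (nat_lit 3718333737) (nat_lit 361) (nat_lit 5) (nat_lit 373) (nat_lit 5) (nat_lit 362) (nat_lit 5) (nat_lit 459) (nat_lit 427) (nat_lit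 254)) (XT.lf (nat_lit 0) (nat_lit 1449680860) (nat_lit 836) (nat_lit 4928974845) (nat_lit 912) (nat_lit 8471347303) (nat_lit 350) (nat_lit 5) (nat_lit 361) (nat_lit 5) (nat_lit 362) (nat_lit 5) (nat_lit 460) (nat_lit 427) (nat_lit 253))) (XT.nd (nat_lit 78) (nat_lit 836) (nat_lit 0) (XT.lf (nat_lit 0) (nat_lit 8204815015) (nat_lit 912) (nat_lit 5542041830) (nat_lit 76) (nat_lit 1263547622) (nat_lit 350) (nat_lit 5) (nat_lit 362) (nat_lit 5) (nat_lit 351) (nat_lit 5) (nat_lit 461) (nat_lit 427) (nat_lit 252)) (XT.nd (nat_lit 78) (nat_lit 0) (nat_lit 0) (XT.lf (nat_lit 0) (nat_lit 2464541851) (nat_lit 836) (nat_lit 7642866050) (nat_lit 912) (nat_lit 5065810670) (nat_lit 339) (nat_lit 5) (nat_lit 350) (nat_lit 5) (nat_lit 351) (nat_lit 5) (nat_lit 462) (nat_lit 427) (nat_lit 251)) (XT.lf (nat_lit 0) (nat_lit 10697894313) (nat_lit 836) (nat_lit 1378731223) (nat_lit 912) (nat_lit 3262094731) (nat_lit 339) (nat_lit 5) (nat_lit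 350) (nat_lit 5) (nat_lit 351) (nat_lit 5) (nat_lit 463) (nat_lit 427) (nat_lit 250))))) (XT.nd (nat_lit 234) (nat_lit 760) (nat_lit 0) (XT.nd (nat_lit 78) (nat_lit 836) (nat_lit 0) (XT.lf (nat_lit 0) (nat_lit 3594498796) (nat_lit 836) (nat_lit 10538151962) (nat_lit 912) (nat_lit 1373935487) (nat_lit 328) (nat_lit 5) (nat_lit 339) (nat_lit 5) (nat_lit 340) (nat_lit 5) (nat_lit 464) (nat_lit 427) (nat_lit 249)) (XT.nd (nat_lit 78) (nat_lit 760) (nat_lit 0) (XT.lf (nat_lit 0) (nat_lit 576832516) (nat_lit 912) (nat_lit 3641220932) (nat_lit 76) (nat_lit 11459045325) (nat_lit 327) (nat_lit 5) (nat_lit 339) (nat_lit 5) (nat_lit 328) (nat_lit 5) (nat_lit 465) (nat_lit 427) (nat_lit 248)) (XT.lf (nat_lit 0) (nat_lit 2586173785) (nat_lit 836) (nat_lit 11024041980) (nat_lit 76) (nat_lit 2239867610) (nat_lit 317) (nat_lit 5) (nat_lit 328) (nat_lit 5) (nat_lit 318) (nat_lit 5) (nat_lit 466) (nat_lit 427) (nat_lit 247)))) (XT.nd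 (nat_lit 78) (nat_lit 760) (nat_lit 0) (XT.lf (nat_lit 0) (nat_lit 4680108575) (nat_lit 836) (nat_lit 2550620162) (nat_lit 76) (nat_lit 8794913304) (nat_lit 317) (nat_lit 5) (nat_lit 328) (nat_lit 5) (nat_lit 318) (nat_lit 5) (nat_lit 467) (nat_lit 427) (nat_lit 246)) (XT.nd (nat_lit 78) (nat_lit 0) (nat_lit 0) (XT.lf (nat_lit 0) (nat_lit 6164797107) (nat_lit 760) (nat_lit 683186434) (nat_lit 836) (nat_lit 9356089568) (nat_lit 307) (nat_lit 5) (nat_lit 317) (nat_lit 5) (nat_lit 318) (nat_lit 5) (nat_lit 468) (nat_lit 427) (nat_lit 245)) (XT.lf (nat_lit 0) (nat_lit 9107506213) (nat_lit 836) (nat_lit 1344099916) (nat_lit 76) (nat_lit 5933503274) (nat_lit 307) (nat_lit 5) (nat_lit 318) (nat_lit 5) (nat_lit 308) (nat_lit 5) (nat_lit 469) (nat_lit 427) (nat_lit 244))))))) (XT.nd (nat_lit 858) (nat_lit 3496) (nat_lit 0) (XT.nd (nat_lit 390) (nat_lit 2052) (nat_lit 0) (XT.nd (nat_lit 156) (nat_lit 1520) (nat_lit 0) (XT.nd (nat_lit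 78) (nat_lit 0) (nat_lit 0) (XT.lf (nat_lit 0) (nat_lit 7612025985) (nat_lit 684) (nat_lit 3846429640) (nat_lit 760) (nat_lit 5110388433) (nat_lit 298) (nat_lit 5) (nat_lit 307) (nat_lit 5) (nat_lit 308) (nat_lit 5) (nat_lit 470) (nat_lit 427) (nat_lit 243)) (XT.lf (nat_lit 0) (nat_lit 13876656275) (nat_lit 760) (nat_lit 17766757) (nat_lit 76) (nat_lit 2861428046) (nat_lit 298) (nat_lit 5) (nat_lit 308) (nat_lit 5) (nat_lit 299) (nat_lit 5) (nat_lit 471) (nat_lit 427) (nat_lit 242))) (XT.nd (nat_lit 78) (nat_lit 760) (nat_lit 0) (XT.lf (nat_lit 0) (nat_lit 9186885368) (nat_lit 760) (nat_lit 7233988887) (nat_lit 836) (nat_lit 524173186) (nat_lit 288) (nat_lit 5) (nat_lit 298) (nat_lit 5) (nat_lit 299) (nat_lit 5) (nat_lit 472) (nat_lit 427) (nat_lit 241)) (XT.nd (nat_lit 78) (nat_lit 0) (nat_lit 0) (XT.lf (nat_lit 0) (nat_lit 1436247217) (nat_lit 684) (nat_lit 419092542) (nat_lit 760) (nat_lit 15282405886) (nat_lit 278)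 (nat_lit 5) (nat_lit 287) (nat_lit 5) (nat_lit 288) (nat_lit 5) (nat_lit 473) (nat_lit 427) (nat_lit 240)) (XT.lf (nat_lit 0) (nat_lit 4362910029) (nat_lit 760) (nat_lit 6468105593) (nat_lit 76) (nat_lit 6501465319) (nat_lit 278) (nat_lit 5) (nat_lit 288) (nat_lit 5) (nat_lit 279) (nat_lit 5) (nat_lit 474) (nat_lit 427) (nat_lit 239))))) (XT.nd (nat_lit 234) (nat_lit 760) (nat_lit 0) (XT.nd (nat_lit 78) (nat_lit 608) (nat_lit 0) (XT.lf (nat_lit 0) (nat_lit 2978070154) (nat_lit 684) (nat_lit 3957478797) (nat_lit 760) (nat_lit 10595265744) (nat_lit 269) (nat_lit 5) (nat_lit 278) (nat_lit 5) (nat_lit 279) (nat_lit 5) (nat_lit 475) (nat_lit 427) (nat_lit 238)) (XT.nd (nat_lit 78) (nat_lit 608) (nat_lit 0) (XT.lf (nat_lit 0) (nat_lit 9616046049) (nat_lit 760) (nat_lit 5059765035) (nat_lit 76) (nat_lit 3056177990) (nat_lit 269) (nat_lit 5) (nat_lit 279) (nat_lit 5) (nat_lit 270) (nat_lit 5) (nat_lit 476) (nat_lit 427) (nat_lit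 237)) (XT.lf (nat_lit 0) (nat_lit 4649758494) (nat_lit 608) (nat_lit 7749819851) (nat_lit 684) (nat_lit 5536622104) (nat_lit 261) (nat_lit 5) (nat_lit 269) (nat_lit 5) (nat_lit 270) (nat_lit 5) (nat_lit 477) (nat_lit 427) (nat_lit 236)))) (XT.nd (nat_lit 78) (nat_lit 760) (nat_lit 0) (XT.lf (nat_lit 0) (nat_lit 14614022646) (nat_lit 608) (nat_lit 651824341) (nat_lit 684) (nat_lit 2878109728) (nat_lit 261) (nat_lit 5) (nat_lit 269) (nat_lit 5) (nat_lit 270) (nat_lit 5) (nat_lit 478) (nat_lit 427) (nat_lit 235)) (XT.nd (nat_lit 78) (nat_lit 76) (nat_lit 0) (XT.lf (nat_lit 0) (nat_lit 6455587235) (nat_lit 684) (nat_lit 11811781999) (nat_lit 760) (nat_lit 86942244) (nat_lit 252) (nat_lit 5) (nat_lit 261) (nat_lit 5) (nat_lit 262) (nat_lit 5) (nat_lit 479) (nat_lit 427) (nat_lit 234)) (XT.lf (nat_lit 0) (nat_lit 2745285913) (nat_lit 760) (nat_lit 1910172049) (nat_lit 76) (nat_lit 13912630119) (nat_lit 251) (nat_lit 5) (nat_lit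 261) (nat_lit 5) (nat_lit 252) (nat_lit 5) (nat_lit 480) (nat_lit 427) (nat_lit 233)))))) (XT.nd (nat_lit 390) (nat_lit 1748) (nat_lit 0) (XT.nd (nat_lit 156) (nat_lit 1140) (nat_lit 0) (XT.nd (nat_lit 78) (nat_lit 0) (nat_lit 0) (XT.lf (nat_lit 0) (nat_lit 5698330078) (nat_lit 684) (nat_lit 10423110527) (nat_lit 76) (nat_lit 2663383230) (nat_lit 243) (nat_lit 5) (nat_lit 252) (nat_lit 5) (nat_lit 244) (nat_lit 5) (nat_lit 481) (nat_lit 427) (nat_lit 232)) (XT.lf (nat_lit 0) (nat_lit 8747645365) (nat_lit 684) (nat_lit 179585202) (nat_lit 76) (nat_lit 10077921323) (nat_lit 243) (nat_lit 5) (nat_lit 252) (nat_lit 5) (nat_lit 244) (nat_lit 5) (nat_lit 482) (nat_lit 427) (nat_lit 231))) (XT.nd (nat_lit 78) (nat_lit 532) (nat_lit 0) (XT.lf (nat_lit 0) (nat_lit 10397369305) (nat_lit 608) (nat_lit 1521688428) (nat_lit 684) (nat_lit 7309608313) (nat_lit 235) (nat_lit 5) (nat_lit 243) (nat_lit 5) (nat_lit 244) (nat_lit 5) (nat_lit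 483) (nat_lit 427) (nat_lit 230)) (XT.nd (nat_lit 78) (nat_lit 0) (nat_lit 0) (XT.lf (nat_lit 0) (nat_lit 1707014980) (nat_lit 532) (nat_lit 13492012976) (nat_lit 608) (nat_lit 4256721657) (nat_lit 228) (nat_lit 5) (nat_lit 235) (nat_lit 5) (nat_lit 236) (nat_lit 5) (nat_lit 484) (nat_lit 427) (nat_lit 229)) (XT.lf (nat_lit 0) (nat_lit 12557771768) (nat_lit 532) (nat_lit 6049842841) (nat_lit 608) (nat_lit 1078501587) (nat_lit 228) (nat_lit 5) (nat_lit 235) (nat_lit 5) (nat_lit 236) (nat_lit 5) (nat_lit 485) (nat_lit 427) (nat_lit 228))))) (XT.nd (nat_lit 234) (nat_lit 532) (nat_lit 0) (XT.nd (nat_lit 78) (nat_lit 532) (nat_lit 0) (XT.lf (nat_lit 0) (nat_lit 2163212292) (nat_lit 684) (nat_lit 16199101395) (nat_lit 76) (nat_lit 1557931112) (nat_lit 219) (nat_lit 5) (nat_lit 228) (nat_lit 5) (nat_lit 220) (nat_lit 5) (nat_lit 486) (nat_lit 427) (nat_lit 227)) (XT.nd (nat_lit 78) (nat_lit 532) (nat_lit 0) (XT.lf (nat_lit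 0) (nat_lit 5537434181) (nat_lit 684) (nat_lit 5329189160) (nat_lit 76) (nat_lit 9290649346) (nat_lit 219) (nat_lit 5) (nat_lit 228) (nat_lit 5) (nat_lit 220) (nat_lit 5) (nat_lit 487) (nat_lit 427) (nat_lit 226)) (XT.lf (nat_lit 0) (nat_lit 5826882026) (nat_lit 532) (nat_lit 3184094833) (nat_lit 608) (nat_lit 11387429105) (nat_lit 212) (nat_lit 5) (nat_lit 219) (nat_lit 5) (nat_lit 220) (nat_lit 5) (nat_lit 488) (nat_lit 427) (nat_lit 225)))) (XT.nd (nat_lit 78) (nat_lit 532) (nat_lit 0) (XT.lf (nat_lit 0) (nat_lit 12614254907) (nat_lit 608) (nat_lit 3403493386) (nat_lit 76) (nat_lit 4625409851) (nat_lit 212) (nat_lit 5) (nat_lit 220) (nat_lit 5) (nat_lit 213) (nat_lit 5) (nat_lit 489) (nat_lit 427) (nat_lit 224)) (XT.nd (nat_lit 78) (nat_lit 0) (nat_lit 0) (XT.lf (nat_lit 0) (nat_lit 8065017901) (nat_lit 532) (nat_lit 8292208822) (nat_lit 608) (nat_lit 4534227579) (nat_lit 205) (nat_lit 5) (nat_lit 212) (nat_lit 5)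 (nat_lit 213) (nat_lit 5) (nat_lit 490) (nat_lit 427) (nat_lit 223)) (XT.lf (nat_lit 0) (nat_lit 19801517133) (nat_lit 532) (nat_lit 390623463) (nat_lit 608) (nat_lit 952235602) (nat_lit 205) (nat_lit 5) (nat_lit 212) (nat_lit 5) (nat_lit 213) (nat_lit 5) (nat_lit 491) (nat_lit 427) (nat_lit 222))))))))
noncomputable def xc203 : XT := (XT.nd (nat_lit 55146) (nat_lit 0) (nat_lit 15352) (XT.nd (nat_lit 858) (nat_lit 456) (nat_lit 0) (XT.nd (nat_lit 390) (nat_lit 1444) (nat_lit 0) (XT.nd (nat_lit 156) (nat_lit 456) (nat_lit 0) (XT.nd (nat_lit 78) (nat_lit 532) (nat_lit 0) (XT.lf (nat_lit 0) (nat_lit 2778693880) (nat_lit 608) (nat_lit 10968218734) (nat_lit 76) (nat_lit 7652840006) (nat_lit 197) (nat_lit 5) (nat_lit 205) (nat_lit 5) (nat_lit 198) (nat_lit 5) (nat_lit 492) (nat_lit 427) (nat_lit 221)) (XT.lf (nat_lit 0) (nat_lit 793515193) (nat_lit 532) (nat_lit 5789167456) (nat_lit 608) (nat_lit 15077205596) (nat_lit 190)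 (nat_lit 5) (nat_lit 197) (nat_lit 5) (nat_lit 198) (nat_lit 5) (nat_lit 493) (nat_lit 427) (nat_lit 220))) (XT.nd (nat_lit 78) (nat_lit 456) (nat_lit 0) (XT.lf (nat_lit 0) (nat_lit 10546373447) (nat_lit 608) (nat_lit 9007745705) (nat_lit 76) (nat_lit 2369436342) (nat_lit 190) (nat_lit 5) (nat_lit 198) (nat_lit 5) (nat_lit 191) (nat_lit 5) (nat_lit 494) (nat_lit 427) (nat_lit 219)) (XT.nd (nat_lit 78) (nat_lit 0) (nat_lit 0) (XT.lf (nat_lit 0) (nat_lit 3082742680) (nat_lit 456) (nat_lit 11559477992) (nat_lit 532) (nat_lit 7549219095) (nat_lit 184) (nat_lit 5) (nat_lit 190) (nat_lit 5) (nat_lit 191) (nat_lit 5) (nat_lit 495) (nat_lit 427) (nat_lit 218)) (XT.lf (nat_lit 0) (nat_lit 15529788526) (nat_lit 456) (nat_lit 3345231106) (nat_lit 532) (nat_lit 3588562700) (nat_lit 184) (nat_lit 5) (nat_lit 190) (nat_lit 5) (nat_lit 191) (nat_lit 5) (nat_lit 496) (nat_lit 427) (nat_lit 217))))) (XT.nd (nat_lit 234) (nat_lit 456)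 (nat_lit 0) (XT.nd (nat_lit 78) (nat_lit 456) (nat_lit 0) (XT.lf (nat_lit 0) (nat_lit 508986247) (nat_lit 532) (nat_lit 17226275305) (nat_lit 76) (nat_lit 5004576879) (nat_lit 177) (nat_lit 5) (nat_lit 184) (nat_lit 5) (nat_lit 178) (nat_lit 5) (nat_lit 497) (nat_lit 427) (nat_lit 216)) (XT.nd (nat_lit 78) (nat_lit 456) (nat_lit 0) (XT.lf (nat_lit 0) (nat_lit 4704174537) (nat_lit 532) (nat_lit 4770388823) (nat_lit 76) (nat_lit 13545308327) (nat_lit 177) (nat_lit 5) (nat_lit 184) (nat_lit 5) (nat_lit 178) (nat_lit 5) (nat_lit 498) (nat_lit 427) (nat_lit 215)) (XT.lf (nat_lit 0) (nat_lit 8032781417) (nat_lit 456) (nat_lit 997446091) (nat_lit 532) (nat_lit 14274340087) (nat_lit 171) (nat_lit 5) (nat_lit 177) (nat_lit 5) (nat_lit 178) (nat_lit 5) (nat_lit 499) (nat_lit 427) (nat_lit 214)))) (XT.nd (nat_lit 78) (nat_lit 456) (nat_lit 0) (XT.lf (nat_lit 0) (nat_lit 13519538391) (nat_lit 532) (nat_lit 2494743034) (nat_lit 76)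 (nat_lit 7579142439) (nat_lit 171) (nat_lit 5) (nat_lit 178) (nat_lit 5) (nat_lit 172) (nat_lit 5) (nat_lit 500) (nat_lit 427) (nat_lit 213)) (XT.nd (nat_lit 78) (nat_lit 0) (nat_lit 0) (XT.lf (nat_lit 0) (nat_lit 10664008483) (nat_lit 456) (nat_lit 7505420689) (nat_lit 532) (nat_lit 5717213373) (nat_lit 165) (nat_lit 5) (nat_lit 171) (nat_lit 5) (nat_lit 172) (nat_lit 5) (nat_lit 501) (nat_lit 427) (nat_lit 212)) (XT.lf (nat_lit 0) (nat_lit 22931779867) (nat_lit 532) (nat_lit 80498057) (nat_lit 76) (nat_lit 1173059567) (nat_lit 165) (nat_lit 5) (nat_lit 172) (nat_lit 5) (nat_lit 166) (nat_lit 5) (nat_lit 502) (nat_lit 427) (nat_lit 211)))))) (XT.nd (nat_lit 53820) (nat_lit 0) (nat_lit 21128) (XT.nd (nat_lit 53586) (nat_lit 0) (nat_lit 22724) (XT.nd (nat_lit 53508) (nat_lit 0) (nat_lit 22724) (XT.lf (nat_lit 0) (nat_lit 3389054371) (nat_lit 456) (nat_lit 11065553094) (nat_lit 76) (nat_lit 10032312428) (nat_lit 159) (nat_lit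 5) (nat_lit 165) (nat_lit 5) (nat_lit 160) (nat_lit 5) (nat_lit 503) (nat_lit 427) (nat_lit 210)) (XT.lf (nat_lit 0) (nat_lit 2094483406) (nat_lit 0) (nat_lit 2094483406) (nat_lit 1596) (nat_lit 1277357643) (nat_lit 458) (nat_lit 5) (nat_lit 458) (nat_lit 3) (nat_lit 479) (nat_lit 3) (nat_lit 428) (nat_lit 428) (nat_lit 284))) (XT.nd (nat_lit 78) (nat_lit 0) (nat_lit 0) (XT.lf (nat_lit 0) (nat_lit 9034259883) (nat_lit 1596) (nat_lit 1508177539) (nat_lit 1672) (nat_lit 487876068) (nat_lit 458) (nat_lit 5) (nat_lit 479) (nat_lit 3) (nat_lit 480) (nat_lit 5) (nat_lit 429) (nat_lit 428) (nat_lit 283)) (XT.nd (nat_lit 78) (nat_lit 0) (nat_lit 0) (XT.lf (nat_lit 76) (nat_lit 3846929126) (nat_lit 0) (nat_lit 5894616416) (nat_lit 1672) (nat_lit 1387634692) (nat_lit 459) (nat_lit 5) (nat_lit 458) (nat_lit 5) (nat_lit 480) (nat_lit 5) (nat_lit 430) (nat_lit 428) (nat_lit 282)) (XT.lf (nat_lit 76) (nat_lit 9321813460) (nat_lit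 0) (nat_lit 1136640114) (nat_lit 1672) (nat_lit 771666630) (nat_lit 459) (nat_lit 5) (nat_lit 458) (nat_lit 5) (nat_lit 480) (nat_lit 5) (nat_lit 431) (nat_lit 428) (nat_lit 281))))) (XT.nd (nat_lit 234) (nat_lit 0) (nat_lit 76) (XT.nd (nat_lit 78) (nat_lit 1672) (nat_lit 0) (XT.lf (nat_lit 76) (nat_lit 3588092921) (nat_lit 0) (nat_lit 7634719981) (nat_lit 1672) (nat_lit 109609129) (nat_lit 460) (nat_lit 5) (nat_lit 459) (nat_lit 5) (nat_lit 481) (nat_lit 5) (nat_lit 432) (nat_lit 428) (nat_lit 280)) (XT.nd (nat_lit 78) (nat_lit 0) (nat_lit 76) (XT.lf (nat_lit 0) (nat_lit 564506211) (nat_lit 1672) (nat_lit 2235604037) (nat_lit 1748) (nat_lit 8636466586) (nat_lit 437) (nat_lit 5) (nat_lit 459) (nat_lit 5) (nat_lit 460) (nat_lit 5) (nat_lit 433) (nat_lit 428) (nat_lit 279)) (XT.lf (nat_lit 0) (nat_lit 1272962737) (nat_lit 1672) (nat_lit 8137184900) (nat_lit 1748) (nat_lit 2132211086) (nat_lit 438) (nat_lit 5) (nat_lit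 460) (nat_lit 5) (nat_lit 461) (nat_lit 5) (nat_lit 434) (nat_lit 428) (nat_lit 278)))) (XT.nd (nat_lit 78) (nat_lit 0) (nat_lit 76) (XT.lf (nat_lit 0) (nat_lit 2015588635) (nat_lit 1672) (nat_lit 2487726606) (nat_lit 1748) (nat_lit 7146545919) (nat_lit 438) (nat_lit 5) (nat_lit 460) (nat_lit 5) (nat_lit 461) (nat_lit 5) (nat_lit 435) (nat_lit 428) (nat_lit 277)) (XT.nd (nat_lit 78) (nat_lit 0) (nat_lit 0) (XT.lf (nat_lit 0) (nat_lit 2784615029) (nat_lit 1672) (nat_lit 8452694853) (nat_lit 1748) (nat_lit 521977622) (nat_lit 439) (nat_lit 5) (nat_lit 461) (nat_lit 5) (nat_lit 462) (nat_lit 5) (nat_lit 436) (nat_lit 428) (nat_lit 276)) (XT.lf (nat_lit 0) (nat_lit 3602516426) (nat_lit 1672) (nat_lit 2658269025) (nat_lit 1748) (nat_lit 5609451758) (nat_lit 439) (nat_lit 5) (nat_lit 461) (nat_lit 5) (nat_lit 462) (nat_lit 5) (nat_lit 437) (nat_lit 428) (nat_lit 275))))))) (XT.nd (nat_lit 858) (nat_lit 4484) (nat_lit 0) (XT.nd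 (nat_lit 390) (nat_lit 1444) (nat_lit 0) (XT.nd (nat_lit 156) (nat_lit 0) (nat_lit 76) (XT.nd (nat_lit 78) (nat_lit 0) (nat_lit 76) (XT.lf (nat_lit 76) (nat_lit 3287031029) (nat_lit 0) (nat_lit 1158210605) (nat_lit 1748) (nat_lit 7537999588) (nat_lit 440) (nat_lit 5) (nat_lit 439) (nat_lit 5) (nat_lit 462) (nat_lit 5) (nat_lit 438) (nat_lit 428) (nat_lit 274)) (XT.lf (nat_lit 0) (nat_lit 5336404045) (nat_lit 1672) (nat_lit 2745626872) (nat_lit 1748) (nat_lit 4015847285) (nat_lit 440) (nat_lit 5) (nat_lit 462) (nat_lit 5) (nat_lit 463) (nat_lit 5) (nat_lit 439) (nat_lit 428) (nat_lit 273))) (XT.nd (nat_lit 78) (nat_lit 0) (nat_lit 76) (XT.lf (nat_lit 76) (nat_lit 3352065896) (nat_lit 0) (nat_lit 2910360031) (nat_lit 1748) (nat_lit 5952045720) (nat_lit 441) (nat_lit 5) (nat_lit 440) (nat_lit 5) (nat_lit 463) (nat_lit 5) (nat_lit 440) (nat_lit 428) (nat_lit 272)) (XT.nd (nat_lit 78) (nat_lit 0) (nat_lit 0) (XT.lf (nat_lit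 0) (nat_lit 7228687117) (nat_lit 1672) (nat_lit 2747989664) (nat_lit 1748) (nat_lit 2356290166) (nat_lit 441) (nat_lit 5) (nat_lit 463) (nat_lit 5) (nat_lit 464) (nat_lit 5) (nat_lit 441) (nat_lit 428) (nat_lit 271)) (XT.lf (nat_lit 76) (nat_lit 3507187344) (nat_lit 0) (nat_lit 4737188690) (nat_lit 1748) (nat_lit 4208858347) (nat_lit 442) (nat_lit 5) (nat_lit 441) (nat_lit 5) (nat_lit 464) (nat_lit 5) (nat_lit 442) (nat_lit 428) (nat_lit 270))))) (XT.nd (nat_lit 234) (nat_lit 1672) (nat_lit 0) (XT.nd (nat_lit 78) (nat_lit 0) (nat_lit 0) (XT.lf (nat_lit 0) (nat_lit 9291144638) (nat_lit 1672) (nat_lit 2663343658) (nat_lit 1748) (nat_lit 621207744) (nat_lit 442) (nat_lit 5) (nat_lit 464) (nat_lit 5) (nat_lit 465) (nat_lit 5) (nat_lit 443) (nat_lit 428) (nat_lit 269)) (XT.nd (nat_lit 78) (nat_lit 0) (nat_lit 0) (XT.lf (nat_lit 76) (nat_lit 3754590502) (nat_lit 0) (nat_lit 6648499379) (nat_lit 1748) (nat_lit 2296636337) (nat_lit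 443) (nat_lit 5) (nat_lit 442) (nat_lit 5) (nat_lit 465) (nat_lit 5) (nat_lit 444) (nat_lit 428) (nat_lit 268)) (XT.lf (nat_lit 76) (nat_lit 10328746925) (nat_lit 0) (nat_lit 1215063565) (nat_lit 1748) (nat_lit 1282299812) (nat_lit 443) (nat_lit 5) (nat_lit 442) (nat_lit 5) (nat_lit 465) (nat_lit 5) (nat_lit 445) (nat_lit 428) (nat_lit 267)))) (XT.nd (nat_lit 78) (nat_lit 1748) (nat_lit 0) (XT.lf (nat_lit 76) (nat_lit 4096675888) (nat_lit 0) (nat_lit 8654267993) (nat_lit 1748) (nat_lit 203210171) (nat_lit 444) (nat_lit 5) (nat_lit 443) (nat_lit 5) (nat_lit 466) (nat_lit 5) (nat_lit 446) (nat_lit 428) (nat_lit 266)) (XT.nd (nat_lit 78) (nat_lit 0) (nat_lit 76) (XT.lf (nat_lit 0) (nat_lit 899600930) (nat_lit 1748) (nat_lit 2250378276) (nat_lit 1824) (nat_lit 9934388531) (nat_lit 420) (nat_lit 5) (nat_lit 443) (nat_lit 5) (nat_lit 444) (nat_lit 5) (nat_lit 447) (nat_lit 428) (nat_lit 265)) (XT.lf (nat_lit 0) (nat_lit 2056649151)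 (nat_lit 1748) (nat_lit 8694218441) (nat_lit 1824) (nat_lit 2465596925) (nat_lit 421) (nat_lit 5) (nat_lit 444) (nat_lit 5) (nat_lit 445) (nat_lit 5) (nat_lit 448) (nat_lit 428) (nat_lit 264)))))) (XT.nd (nat_lit 390) (nat_lit 4560) (nat_lit 0) (XT.nd (nat_lit 156) (nat_lit 0) (nat_lit 76) (XT.nd (nat_lit 78) (nat_lit 0) (nat_lit 76) (XT.lf (nat_lit 0) (nat_lit 3262283959) (nat_lit 1748) (nat_lit 1919465797) (nat_lit 1824) (nat_lit 8168948216) (nat_lit 421) (nat_lit 5) (nat_lit 444) (nat_lit 5) (nat_lit 445) (nat_lit 5) (nat_lit 449) (nat_lit 428) (nat_lit 263)) (XT.lf (nat_lit 0) (nat_lit 4517872154) (nat_lit 1748) (nat_lit 8441910406) (nat_lit 1824) (nat_lit 527320303) (nat_lit 422) (nat_lit 5) (nat_lit 445) (nat_lit 5) (nat_lit 446) (nat_lit 5) (nat_lit 450) (nat_lit 428) (nat_lit 262))) (XT.nd (nat_lit 78) (nat_lit 0) (nat_lit 0) (XT.lf (nat_lit 0) (nat_lit 5835610083) (nat_lit 1748) (nat_lit 1493650445) (nat_lit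 1824) (nat_lit 6296238073) (nat_lit 422) (nat_lit 5) (nat_lit 445) (nat_lit 5) (nat_lit 446) (nat_lit 5) (nat_lit 451) (nat_lit 428) (nat_lit 261)) (XT.nd (nat_lit 78) (nat_lit 0) (nat_lit 76) (XT.lf (nat_lit 76) (nat_lit 5659532440) (nat_lit 0) (nat_lit 1546872456) (nat_lit 1824) (nat_lit 6559726756) (nat_lit 423) (nat_lit 5) (nat_lit 422) (nat_lit 5) (nat_lit 446) (nat_lit 5) (nat_lit 452) (nat_lit 428) (nat_lit 260)) (XT.lf (nat_lit 0) (nat_lit 8633067035) (nat_lit 1748) (nat_lit 970094090) (nat_lit 76) (nat_lit 4305850583) (nat_lit 423) (nat_lit 5) (nat_lit 446) (nat_lit 5) (nat_lit 424) (nat_lit 5) (nat_lit 453) (nat_lit 428) (nat_lit 259))))) (XT.nd (nat_lit 234) (nat_lit 1824) (nat_lit 0) (XT.nd (nat_lit 78) (nat_lit 1140) (nat_lit 0) (XT.lf (nat_lit 0) (nat_lit 6374235425) (nat_lit 1748) (nat_lit 3755962073) (nat_lit 1824) (nat_lit 3923716472) (nat_lit 400) (nat_lit 5) (nat_lit 423) (nat_lit 5) (nat_lit 424)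 (nat_lit 5) (nat_lit 454) (nat_lit 428) (nat_lit 258)) (XT.nd (nat_lit 78) (nat_lit 1140) (nat_lit 0) (XT.lf (nat_lit 0) (nat_lit 11668611220) (nat_lit 1824) (nat_lit 345772354) (nat_lit 76) (nat_lit 2187107134) (nat_lit 400) (nat_lit 5) (nat_lit 424) (nat_lit 5) (nat_lit 401) (nat_lit 5) (nat_lit 455) (nat_lit 428) (nat_lit 257)) (XT.lf (nat_lit 0) (nat_lit 7196071104) (nat_lit 1140) (nat_lit 6103955658) (nat_lit 1216) (nat_lit 1050750724) (nat_lit 385) (nat_lit 5) (nat_lit 400) (nat_lit 5) (nat_lit 401) (nat_lit 5) (nat_lit 456) (nat_lit 428) (nat_lit 256)))) (XT.nd (nat_lit 78) (nat_lit 836) (nat_lit 0) (XT.lf (nat_lit 0) (nat_lit 384147361) (nat_lit 912) (nat_lit 66360844) (nat_lit 988) (nat_lit 14052574307) (nat_lit 372) (nat_lit 5) (nat_lit 384) (nat_lit 5) (nat_lit 385) (nat_lit 5) (nat_lit 457) (nat_lit 428) (nat_lit 255)) (XT.nd (nat_lit 78) (nat_lit 836) (nat_lit 0) (XT.lf (nat_lit 0) (nat_lit 2046457574) (nat_lit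 988) (nat_lit 6541995631) (nat_lit 76) (nat_lit 6068269824) (nat_lit 372) (nat_lit 5) (nat_lit 385) (nat_lit 5) (nat_lit 373) (nat_lit 5) (nat_lit 458) (nat_lit 428) (nat_lit 254)) (XT.lf (nat_lit 0) (nat_lit 1193406164) (nat_lit 836) (nat_lit 2480125901) (nat_lit 912) (nat_lit 11139923103) (nat_lit 361) (nat_lit 5) (nat_lit 372) (nat_lit 5) (nat_lit 373) (nat_lit 5) (nat_lit 459) (nat_lit 428) (nat_lit 253))))))))
noncomputable def xc204 : XT := (XT.nd (nat_lit 1638) (nat_lit 6536) (nat_lit 0) (XT.nd (nat_lit 780) (nat_lit 4256) (nat_lit 0) (XT.nd (nat_lit 390) (nat_lit 2432) (nat_lit 0) (XT.nd (nat_lit 156) (nat_lit 836) (nat_lit 0) (XT.nd (nat_lit 78) (nat_lit 836) (nat_lit 0) (XT.lf (nat_lit 0) (nat_lit 5392833871) (nat_lit 912) (nat_lit 5833308446) (nat_lit 76) (nat_lit 3745988797) (nat_lit 361) (nat_lit 5) (nat_lit 373) (nat_lit 5) (nat_lit 362) (nat_lit 5) (nat_lit 460) (nat_lit 428) (nat_lit 252)) (XT.lf (nat_lit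 0) (nat_lit 2112190714) (nat_lit 836) (nat_lit 5055788027) (nat_lit 912) (nat_lit 7965575520) (nat_lit 350) (nat_lit 5) (nat_lit 361) (nat_lit 5) (nat_lit 362) (nat_lit 5) (nat_lit 461) (nat_lit 428) (nat_lit 251))) (XT.nd (nat_lit 78) (nat_lit 836) (nat_lit 0) (XT.lf (nat_lit 0) (nat_lit 9017506031) (nat_lit 912) (nat_lit 5018423495) (nat_lit 76) (nat_lit 1261501520) (nat_lit 350) (nat_lit 5) (nat_lit 362) (nat_lit 5) (nat_lit 351) (nat_lit 5) (nat_lit 462) (nat_lit 428) (nat_lit 250)) (XT.nd (nat_lit 78) (nat_lit 0) (nat_lit 0) (XT.lf (nat_lit 0) (nat_lit 3144117787) (nat_lit 836) (nat_lit 7805407674) (nat_lit 912) (nat_lit 4514152588) (nat_lit 339) (nat_lit 5) (nat_lit 350) (nat_lit 5) (nat_lit 351) (nat_lit 5) (nat_lit 463) (nat_lit 428) (nat_lit 249)) (XT.lf (nat_lit 0) (nat_lit 11529778767) (nat_lit 836) (nat_lit 1415800261) (nat_lit 912) (nat_lit 2687165748) (nat_lit 339) (nat_lit 5) (nat_lit 350) (nat_lit 5)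 (nat_lit 351) (nat_lit 5) (nat_lit 464) (nat_lit 428) (nat_lit 248))))) (XT.nd (nat_lit 156) (nat_lit 1520) (nat_lit 0) (XT.nd (nat_lit 78) (nat_lit 76) (nat_lit 0) (XT.lf (nat_lit 0) (nat_lit 4292977287) (nat_lit 836) (nat_lit 10741452888) (nat_lit 912) (nat_lit 769707741) (nat_lit 328) (nat_lit 5) (nat_lit 339) (nat_lit 5) (nat_lit 340) (nat_lit 5) (nat_lit 465) (nat_lit 428) (nat_lit 247)) (XT.lf (nat_lit 0) (nat_lit 1199566728) (nat_lit 912) (nat_lit 3091430534) (nat_lit 76) (nat_lit 11687229678) (nat_lit 327) (nat_lit 5) (nat_lit 339) (nat_lit 5) (nat_lit 328) (nat_lit 5) (nat_lit 466) (nat_lit 428) (nat_lit 246))) (XT.nd (nat_lit 78) (nat_lit 760) (nat_lit 0) (XT.lf (nat_lit 0) (nat_lit 3241225660) (nat_lit 836) (nat_lit 10613852707) (nat_lit 76) (nat_lit 2299753974) (nat_lit 317) (nat_lit 5) (nat_lit 328) (nat_lit 5) (nat_lit 318) (nat_lit 5) (nat_lit 467) (nat_lit 428) (nat_lit 245)) (XT.nd (nat_lit 78) (nat_lit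 760) (nat_lit 0) (XT.lf (nat_lit 0) (nat_lit 5365209177) (nat_lit 836) (nat_lit 1983328534) (nat_lit 76) (nat_lit 8985604719) (nat_lit 317) (nat_lit 5) (nat_lit 328) (nat_lit 5) (nat_lit 318) (nat_lit 5) (nat_lit 468) (nat_lit 428) (nat_lit 244)) (XT.lf (nat_lit 0) (nat_lit 6902329291) (nat_lit 760) (nat_lit 666502371) (nat_lit 836) (nat_lit 8947466234) (nat_lit 307) (nat_lit 5) (nat_lit 317) (nat_lit 5) (nat_lit 318) (nat_lit 5) (nat_lit 469) (nat_lit 428) (nat_lit 243)))))) (XT.nd (nat_lit 390) (nat_lit 2052) (nat_lit 0) (XT.nd (nat_lit 156) (nat_lit 1520) (nat_lit 0) (XT.nd (nat_lit 78) (nat_lit 684) (nat_lit 0) (XT.lf (nat_lit 0) (nat_lit 9862289170) (nat_lit 836) (nat_lit 757358504) (nat_lit 76) (nat_lit 6081535863) (nat_lit 307) (nat_lit 5) (nat_lit 318) (nat_lit 5) (nat_lit 308) (nat_lit 5) (nat_lit 470) (nat_lit 428) (nat_lit 242)) (XT.lf (nat_lit 0) (nat_lit 8373852919) (nat_lit 684) (nat_lit 3879134395) (nat_lit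 760) (nat_lit 4635754415) (nat_lit 298) (nat_lit 5) (nat_lit 307) (nat_lit 5) (nat_lit 308) (nat_lit 5) (nat_lit 471) (nat_lit 428) (nat_lit 241))) (XT.nd (nat_lit 78) (nat_lit 760) (nat_lit 0) (XT.lf (nat_lit 0) (nat_lit 598331499) (nat_lit 760) (nat_lit 14114301202) (nat_lit 836) (nat_lit 2366997945) (nat_lit 288) (nat_lit 5) (nat_lit 298) (nat_lit 5) (nat_lit 299) (nat_lit 5) (nat_lit 472) (nat_lit 428) (nat_lit 240)) (XT.nd (nat_lit 78) (nat_lit 684) (nat_lit 0) (XT.lf (nat_lit 0) (nat_lit 23755459) (nat_lit 836) (nat_lit 7297761736) (nat_lit 76) (nat_lit 9951310581) (nat_lit 287) (nat_lit 5) (nat_lit 298) (nat_lit 5) (nat_lit 288) (nat_lit 5) (nat_lit 473) (nat_lit 428) (nat_lit 239)) (XT.lf (nat_lit 0) (nat_lit 2073037472) (nat_lit 684) (nat_lit 363945272) (nat_lit 760) (nat_lit 15032468226) (nat_lit 278) (nat_lit 5) (nat_lit 287) (nat_lit 5) (nat_lit 288) (nat_lit 5) (nat_lit 474) (nat_lit 428) (nat_lit 238)))))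 (XT.nd (nat_lit 234) (nat_lit 1368) (nat_lit 0) (XT.nd (nat_lit 78) (nat_lit 684) (nat_lit 0) (XT.lf (nat_lit 0) (nat_lit 4984431626) (nat_lit 760) (nat_lit 5990896700) (nat_lit 76) (nat_lit 6692961218) (nat_lit 278) (nat_lit 5) (nat_lit 288) (nat_lit 5) (nat_lit 279) (nat_lit 5) (nat_lit 475) (nat_lit 428) (nat_lit 237)) (XT.nd (nat_lit 78) (nat_lit 0) (nat_lit 0) (XT.lf (nat_lit 0) (nat_lit 3640211963) (nat_lit 684) (nat_lit 3961747962) (nat_lit 760) (nat_lit 10268764371) (nat_lit 269) (nat_lit 5) (nat_lit 278) (nat_lit 5) (nat_lit 279) (nat_lit 5) (nat_lit 476) (nat_lit 428) (nat_lit 236)) (XT.lf (nat_lit 0) (nat_lit 10326196546) (nat_lit 760) (nat_lit 4560175113) (nat_lit 76) (nat_lit 3189750904) (nat_lit 269) (nat_lit 5) (nat_lit 279) (nat_lit 5) (nat_lit 270) (nat_lit 5) (nat_lit 477) (nat_lit 428) (nat_lit 235)))) (XT.nd (nat_lit 78) (nat_lit 760) (nat_lit 0) (XT.lf (nat_lit 0) (nat_lit 5339586352) (nat_lit 608)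 (nat_lit 7819534649) (nat_lit 684) (nat_lit 5125425671) (nat_lit 261) (nat_lit 5) (nat_lit 269) (nat_lit 5) (nat_lit 270) (nat_lit 5) (nat_lit 478) (nat_lit 428) (nat_lit 234)) (XT.nd (nat_lit 78) (nat_lit 760) (nat_lit 0) (XT.lf (nat_lit 0) (nat_lit 15491433185) (nat_lit 608) (nat_lit 581251417) (nat_lit 684) (nat_lit 2423976946) (nat_lit 261) (nat_lit 5) (nat_lit 269) (nat_lit 5) (nat_lit 270) (nat_lit 5) (nat_lit 479) (nat_lit 428) (nat_lit 233)) (XT.lf (nat_lit 0) (nat_lit 411961650) (nat_lit 760) (nat_lit 11538498196) (nat_lit 76) (nat_lit 6760821484) (nat_lit 251) (nat_lit 5) (nat_lit 261) (nat_lit 5) (nat_lit 252) (nat_lit 5) (nat_lit 480) (nat_lit 428) (nat_lit 232))))))) (XT.nd (nat_lit 858) (nat_lit 3040) (nat_lit 0) (XT.nd (nat_lit 390) (nat_lit 1748) (nat_lit 0) (XT.nd (nat_lit 156) (nat_lit 1140) (nat_lit 0) (XT.nd (nat_lit 78) (nat_lit 608) (nat_lit 0) (XT.lf (nat_lit 0) (nat_lit 3289877584) (nat_lit 760)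 (nat_lit 1362468866) (nat_lit 76) (nat_lit 14277174086) (nat_lit 251) (nat_lit 5) (nat_lit 261) (nat_lit 5) (nat_lit 252) (nat_lit 5) (nat_lit 481) (nat_lit 428) (nat_lit 231)) (XT.lf (nat_lit 0) (nat_lit 6296797520) (nat_lit 684) (nat_lit 10040348072) (nat_lit 76) (nat_lit 2813551773) (nat_lit 243) (nat_lit 5) (nat_lit 252) (nat_lit 5) (nat_lit 244) (nat_lit 5) (nat_lit 482) (nat_lit 428) (nat_lit 230))) (XT.nd (nat_lit 78) (nat_lit 532) (nat_lit 0) (XT.lf (nat_lit 0) (nat_lit 401723798) (nat_lit 608) (nat_lit 8998483556) (nat_lit 684) (nat_lit 9975365070) (nat_lit 235) (nat_lit 5) (nat_lit 243) (nat_lit 5) (nat_lit 244) (nat_lit 5) (nat_lit 483) (nat_lit 428) (nat_lit 229)) (XT.nd (nat_lit 78) (nat_lit 532) (nat_lit 0) (XT.lf (nat_lit 0) (nat_lit 11181135348) (nat_lit 608) (nat_lit 1445729219) (nat_lit 684) (nat_lit 6976858518) (nat_lit 235) (nat_lit 5) (nat_lit 243) (nat_lit 5) (nat_lit 244) (nat_lit 5) (nat_lit 484)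 (nat_lit 428) (nat_lit 228)) (XT.lf (nat_lit 0) (nat_lit 2321953100) (nat_lit 532) (nat_lit 13645724822) (nat_lit 608) (nat_lit 3867768031) (nat_lit 228) (nat_lit 5) (nat_lit 235) (nat_lit 5) (nat_lit 236) (nat_lit 5) (nat_lit 485) (nat_lit 428) (nat_lit 227))))) (XT.nd (nat_lit 234) (nat_lit 1064) (nat_lit 0) (XT.nd (nat_lit 78) (nat_lit 684) (nat_lit 0) (XT.lf (nat_lit 0) (nat_lit 13378336832) (nat_lit 532) (nat_lit 6056988313) (nat_lit 608) (nat_lit 635279404) (nat_lit 228) (nat_lit 5) (nat_lit 235) (nat_lit 5) (nat_lit 236) (nat_lit 5) (nat_lit 486) (nat_lit 428) (nat_lit 226)) (XT.nd (nat_lit 78) (nat_lit 0) (nat_lit 0) (XT.lf (nat_lit 0) (nat_lit 2660660514) (nat_lit 684) (nat_lit 15942827121) (nat_lit 76) (nat_lit 1705960342) (nat_lit 219) (nat_lit 5) (nat_lit 228) (nat_lit 5) (nat_lit 220) (nat_lit 5) (nat_lit 487) (nat_lit 428) (nat_lit 225)) (XT.lf (nat_lit 0) (nat_lit 6093461274) (nat_lit 684) (nat_lit 4866894215)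 (nat_lit 76) (nat_lit 9591041360) (nat_lit 219) (nat_lit 5) (nat_lit 228) (nat_lit 5) (nat_lit 220) (nat_lit 5) (nat_lit 488) (nat_lit 428) (nat_lit 224)))) (XT.nd (nat_lit 78) (nat_lit 532) (nat_lit 0) (XT.lf (nat_lit 0) (nat_lit 6508555771) (nat_lit 532) (nat_lit 3122857323) (nat_lit 608) (nat_lit 11166043201) (nat_lit 212) (nat_lit 5) (nat_lit 219) (nat_lit 5) (nat_lit 220) (nat_lit 5) (nat_lit 489) (nat_lit 428) (nat_lit 223)) (XT.nd (nat_lit 78) (nat_lit 532) (nat_lit 0) (XT.lf (nat_lit 0) (nat_lit 13298920160) (nat_lit 608) (nat_lit 2909560477) (nat_lit 76) (nat_lit 4838781838) (nat_lit 212) (nat_lit 5) (nat_lit 220) (nat_lit 5) (nat_lit 213) (nat_lit 5) (nat_lit 490) (nat_lit 428) (nat_lit 222)) (XT.lf (nat_lit 0) (nat_lit 8784623650) (nat_lit 532) (nat_lit 8327274609) (nat_lit 608) (nat_lit 4188725541) (nat_lit 205) (nat_lit 5) (nat_lit 212) (nat_lit 5) (nat_lit 213) (nat_lit 5) (nat_lit 491) (nat_lit 428) (nat_lit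 221)))))) (XT.nd (nat_lit 390) (nat_lit 1444) (nat_lit 0) (XT.nd (nat_lit 156) (nat_lit 988) (nat_lit 0) (XT.nd (nat_lit 78) (nat_lit 608) (nat_lit 0) (XT.lf (nat_lit 0) (nat_lit 20744905702) (nat_lit 532) (nat_lit 270221825) (nat_lit 608) (nat_lit 543646402) (nat_lit 205) (nat_lit 5) (nat_lit 212) (nat_lit 5) (nat_lit 213) (nat_lit 5) (nat_lit 492) (nat_lit 428) (nat_lit 220)) (XT.lf (nat_lit 0) (nat_lit 3252443228) (nat_lit 608) (nat_lit 10630558868) (nat_lit 76) (nat_lit 7936279308) (nat_lit 197) (nat_lit 5) (nat_lit 205) (nat_lit 5) (nat_lit 198) (nat_lit 5) (nat_lit 493) (nat_lit 428) (nat_lit 219))) (XT.nd (nat_lit 78) (nat_lit 456) (nat_lit 0) (XT.lf (nat_lit 0) (nat_lit 1362745104) (nat_lit 532) (nat_lit 5765159927) (nat_lit 608) (nat_lit 14956808861) (nat_lit 190) (nat_lit 5) (nat_lit 197) (nat_lit 5) (nat_lit 198) (nat_lit 5) (nat_lit 494) (nat_lit 428) (nat_lit 218)) (XT.nd (nat_lit 78) (nat_lit 456) (nat_lit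 0) (XT.lf (nat_lit 0) (nat_lit 11163650273) (nat_lit 608) (nat_lit 8638073060) (nat_lit 76) (nat_lit 2552077516) (nat_lit 190) (nat_lit 5) (nat_lit 198) (nat_lit 5) (nat_lit 191) (nat_lit 5) (nat_lit 495) (nat_lit 428) (nat_lit 217)) (XT.lf (nat_lit 0) (nat_lit 3690607806) (nat_lit 456) (nat_lit 11646385361) (nat_lit 532) (nat_lit 7290140001) (nat_lit 184) (nat_lit 5) (nat_lit 190) (nat_lit 5) (nat_lit 191) (nat_lit 5) (nat_lit 496) (nat_lit 428) (nat_lit 216))))) (XT.nd (nat_lit 234) (nat_lit 912) (nat_lit 0) (XT.nd (nat_lit 78) (nat_lit 532) (nat_lit 0) (XT.lf (nat_lit 0) (nat_lit 16375884564) (nat_lit 456) (nat_lit 3270682599) (nat_lit 532) (nat_lit 3258310939) (nat_lit 184) (nat_lit 5) (nat_lit 190) (nat_lit 5) (nat_lit 191) (nat_lit 5) (nat_lit 497) (nat_lit 428) (nat_lit 215)) (XT.nd (nat_lit 78) (nat_lit 0) (nat_lit 0) (XT.lf (nat_lit 0) (nat_lit 912565970) (nat_lit 532) (nat_lit 17026493208) (nat_lit 76) (nat_lit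 5247616774) (nat_lit 177) (nat_lit 5) (nat_lit 184) (nat_lit 5) (nat_lit 178) (nat_lit 5) (nat_lit 498) (nat_lit 428) (nat_lit 214)) (XT.lf (nat_lit 0) (nat_lit 5183944301) (nat_lit 532) (nat_lit 4332161694) (nat_lit 76) (nat_lit 13956359943) (nat_lit 177) (nat_lit 5) (nat_lit 184) (nat_lit 5) (nat_lit 178) (nat_lit 5) (nat_lit 499) (nat_lit 428) (nat_lit 213)))) (XT.nd (nat_lit 78) (nat_lit 456) (nat_lit 0) (XT.lf (nat_lit 0) (nat_lit 8723561194) (nat_lit 456) (nat_lit 868836578) (nat_lit 532) (nat_lit 14170542156) (nat_lit 171) (nat_lit 5) (nat_lit 177) (nat_lit 5) (nat_lit 178) (nat_lit 5) (nat_lit 500) (nat_lit 428) (nat_lit 212)) (XT.nd (nat_lit 78) (nat_lit 456) (nat_lit 0) (XT.lf (nat_lit 0) (nat_lit 14164958820) (nat_lit 532) (nat_lit 2018286299) (nat_lit 76) (nat_lit 7874460645) (nat_lit 171) (nat_lit 5) (nat_lit 178) (nat_lit 5) (nat_lit 172) (nat_lit 5) (nat_lit 501) (nat_lit 428) (nat_lit 211)) (XT.lf (nat_lit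 0) (nat_lit 11400177409) (nat_lit 456) (nat_lit 7503711426) (nat_lit 532) (nat_lit 5452980841) (nat_lit 165) (nat_lit 5) (nat_lit 171) (nat_lit 5) (nat_lit 172) (nat_lit 5) (nat_lit 502) (nat_lit 428) (nat_lit 210))))))))
noncomputable def xc205 : XT := (XT.nd (nat_lit 55224) (nat_lit 0) (nat_lit 11172) (XT.nd (nat_lit 54366) (nat_lit 0) (nat_lit 19760) (XT.nd (nat_lit 53898) (nat_lit 0) (nat_lit 21052) (XT.nd (nat_lit 53664) (nat_lit 0) (nat_lit 20976) (XT.nd (nat_lit 53586) (nat_lit 0) (nat_lit 22648) (XT.lf (nat_lit 0) (nat_lit 442726631) (nat_lit 380) (nat_lit 23315324857) (nat_lit 456) (nat_lit 903557386) (nat_lit 160) (nat_lit 5) (nat_lit 165) (nat_lit 5) (nat_lit 166) (nat_lit 5) (nat_lit 503) (nat_lit 428) (nat_lit 209)) (XT.lf (nat_lit 0) (nat_lit 2419193421) (nat_lit 0) (nat_lit 2419193421) (nat_lit 1596) (nat_lit 725741683) (nat_lit 458) (nat_lit 5) (nat_lit 458) (nat_lit 3) (nat_lit 479) (nat_lit 3) (nat_lit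 429) (nat_lit 429) (nat_lit 282))) (XT.nd (nat_lit 78) (nat_lit 1672) (nat_lit 0) (XT.lf (nat_lit 0) (nat_lit 10270467752) (nat_lit 0) (nat_lit 50302821) (nat_lit 1596) (nat_lit 907621685) (nat_lit 458) (nat_lit 5) (nat_lit 458) (nat_lit 3) (nat_lit 479) (nat_lit 3) (nat_lit 430) (nat_lit 429) (nat_lit 281)) (XT.nd (nat_lit 78) (nat_lit 1672) (nat_lit 0) (XT.lf (nat_lit 76) (nat_lit 4500790211) (nat_lit 0) (nat_lit 6523154450) (nat_lit 1672) (nat_lit 305664881) (nat_lit 459) (nat_lit 5) (nat_lit 458) (nat_lit 5) (nat_lit 480) (nat_lit 5) (nat_lit 431) (nat_lit 429) (nat_lit 280)) (XT.lf (nat_lit 0) (nat_lit 296917401) (nat_lit 1672) (nat_lit 1361096088) (nat_lit 1748) (nat_lit 9774950153) (nat_lit 436) (nat_lit 5) (nat_lit 458) (nat_lit 5) (nat_lit 459) (nat_lit 5) (nat_lit 432) (nat_lit 429) (nat_lit 279))))) (XT.nd (nat_lit 234) (nat_lit 0) (nat_lit 76) (XT.nd (nat_lit 78) (nat_lit 0) (nat_lit 0) (XT.lf (nat_lit 0)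 (nat_lit 942933187) (nat_lit 1672) (nat_lit 7297417494) (nat_lit 1748) (nat_lit 3297289252) (nat_lit 437) (nat_lit 5) (nat_lit 459) (nat_lit 5) (nat_lit 460) (nat_lit 5) (nat_lit 433) (nat_lit 429) (nat_lit 278)) (XT.nd (nat_lit 78) (nat_lit 0) (nat_lit 76) (XT.lf (nat_lit 0) (nat_lit 1608412222) (nat_lit 1672) (nat_lit 1691029539) (nat_lit 1748) (nat_lit 8344842045) (nat_lit 437) (nat_lit 5) (nat_lit 459) (nat_lit 5) (nat_lit 460) (nat_lit 5) (nat_lit 434) (nat_lit 429) (nat_lit 277)) (XT.lf (nat_lit 0) (nat_lit 2311794599) (nat_lit 1672) (nat_lit 7691033792) (nat_lit 1748) (nat_lit 1749745107) (nat_lit 438) (nat_lit 5) (nat_lit 460) (nat_lit 5) (nat_lit 461) (nat_lit 5) (nat_lit 435) (nat_lit 429) (nat_lit 276)))) (XT.nd (nat_lit 78) (nat_lit 0) (nat_lit 76) (XT.lf (nat_lit 0) (nat_lit 3049402963) (nat_lit 1672) (nat_lit 1940525446) (nat_lit 1748) (nat_lit 6872702131) (nat_lit 438) (nat_lit 5) (nat_lit 460) (nat_lit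 5) (nat_lit 461) (nat_lit 5) (nat_lit 436) (nat_lit 429) (nat_lit 275)) (XT.nd (nat_lit 78) (nat_lit 0) (nat_lit 0) (XT.lf (nat_lit 0) (nat_lit 3815681114) (nat_lit 1672) (nat_lit 8006313510) (nat_lit 1748) (nat_lit 152620379) (nat_lit 439) (nat_lit 5) (nat_lit 461) (nat_lit 5) (nat_lit 462) (nat_lit 5) (nat_lit 437) (nat_lit 429) (nat_lit 274)) (XT.lf (nat_lit 0) (nat_lit 4630815562) (nat_lit 1672) (nat_lit 2108066523) (nat_lit 1748) (nat_lit 5349290993) (nat_lit 439) (nat_lit 5) (nat_lit 461) (nat_lit 5) (nat_lit 462) (nat_lit 5) (nat_lit 438) (nat_lit 429) (nat_lit 273)))))) (XT.nd (nat_lit 390) (nat_lit 1444) (nat_lit 0) (XT.nd (nat_lit 156) (nat_lit 0) (nat_lit 76) (XT.nd (nat_lit 78) (nat_lit 0) (nat_lit 76) (XT.lf (nat_lit 76) (nat_lit 3952170007) (nat_lit 0) (nat_lit 1523366983) (nat_lit 1748) (nat_lit 6728204091) (nat_lit 440) (nat_lit 5) (nat_lit 439) (nat_lit 5) (nat_lit 462) (nat_lit 5) (nat_lit 439) (nat_lit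 429) (nat_lit 272)) (XT.lf (nat_lit 0) (nat_lit 6363887109) (nat_lit 1672) (nat_lit 2191927878) (nat_lit 1748) (nat_lit 3765275135) (nat_lit 440) (nat_lit 5) (nat_lit 462) (nat_lit 5) (nat_lit 463) (nat_lit 5) (nat_lit 440) (nat_lit 429) (nat_lit 271))) (XT.nd (nat_lit 78) (nat_lit 0) (nat_lit 76) (XT.lf (nat_lit 76) (nat_lit 4023714722) (nat_lit 0) (nat_lit 3270586200) (nat_lit 1748) (nat_lit 5146003565) (nat_lit 441) (nat_lit 5) (nat_lit 440) (nat_lit 5) (nat_lit 463) (nat_lit 5) (nat_lit 441) (nat_lit 429) (nat_lit 270)) (XT.nd (nat_lit 78) (nat_lit 0) (nat_lit 0) (XT.lf (nat_lit 0) (nat_lit 8260187888) (nat_lit 1672) (nat_lit 2190179841) (nat_lit 1748) (nat_lit 2111202308) (nat_lit 441) (nat_lit 5) (nat_lit 463) (nat_lit 5) (nat_lit 464) (nat_lit 5) (nat_lit 442) (nat_lit 429) (nat_lit 269)) (XT.lf (nat_lit 76) (nat_lit 4186069329) (nat_lit 0) (nat_lit 5096682861) (nat_lit 1748) (nat_lit 3401765627) (nat_lit 442)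 (nat_lit 5) (nat_lit 441) (nat_lit 5) (nat_lit 464) (nat_lit 5) (nat_lit 443) (nat_lit 429) (nat_lit 268))))) (XT.nd (nat_lit 234) (nat_lit 1672) (nat_lit 0) (XT.nd (nat_lit 78) (nat_lit 0) (nat_lit 0) (XT.lf (nat_lit 0) (nat_lit 10331643707) (nat_lit 1672) (nat_lit 2100690507) (nat_lit 1748) (nat_lit 377476851) (nat_lit 442) (nat_lit 5) (nat_lit 464) (nat_lit 5) (nat_lit 465) (nat_lit 5) (nat_lit 444) (nat_lit 429) (nat_lit 267)) (XT.nd (nat_lit 78) (nat_lit 0) (nat_lit 0) (XT.lf (nat_lit 76) (nat_lit 4441550230) (nat_lit 0) (nat_lit 7011491920) (nat_lit 1748) (nat_lit 1483541398) (nat_lit 443) (nat_lit 5) (nat_lit 442) (nat_lit 5) (nat_lit 465) (nat_lit 5) (nat_lit 445) (nat_lit 429) (nat_lit 266)) (XT.lf (nat_lit 76) (nat_lit 11135192372) (nat_lit 0) (nat_lit 1464877144) (nat_lit 1748) (nat_lit 465761822) (nat_lit 443) (nat_lit 5) (nat_lit 442) (nat_lit 5) (nat_lit 465) (nat_lit 5) (nat_lit 446) (nat_lit 429) (nat_lit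 265)))) (XT.nd (nat_lit 78) (nat_lit 0) (nat_lit 0) (XT.lf (nat_lit 0) (nat_lit 612854197) (nat_lit 1748) (nat_lit 8408067727) (nat_lit 1824) (nat_lit 4175711804) (nat_lit 420) (nat_lit 5) (nat_lit 443) (nat_lit 5) (nat_lit 444) (nat_lit 5) (nat_lit 447) (nat_lit 429) (nat_lit 264)) (XT.nd (nat_lit 78) (nat_lit 0) (nat_lit 76) (XT.lf (nat_lit 0) (nat_lit 1718975431) (nat_lit 1748) (nat_lit 1682430707) (nat_lit 1824) (nat_lit 9928344719) (nat_lit 420) (nat_lit 5) (nat_lit 443) (nat_lit 5) (nat_lit 444) (nat_lit 5) (nat_lit 448) (nat_lit 429) (nat_lit 263)) (XT.lf (nat_lit 0) (nat_lit 2886231539) (nat_lit 1748) (nat_lit 8241943436) (nat_lit 1824) (nat_lit 2336578684) (nat_lit 421) (nat_lit 5) (nat_lit 444) (nat_lit 5) (nat_lit 445) (nat_lit 5) (nat_lit 449) (nat_lit 429) (nat_lit 262))))))) (XT.nd (nat_lit 858) (nat_lit 4104) (nat_lit 0) (XT.nd (nat_lit 390) (nat_lit 4560) (nat_lit 0) (XT.nd (nat_lit 156) (nat_lit 0) (nat_lit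 76) (XT.nd (nat_lit 78) (nat_lit 0) (nat_lit 76) (XT.lf (nat_lit 0) (nat_lit 4100519251) (nat_lit 1748) (nat_lit 1343973374) (nat_lit 1824) (nat_lit 8157493671) (nat_lit 421) (nat_lit 5) (nat_lit 444) (nat_lit 5) (nat_lit 445) (nat_lit 5) (nat_lit 450) (nat_lit 429) (nat_lit 261)) (XT.lf (nat_lit 0) (nat_lit 5369035499) (nat_lit 1748) (nat_lit 7984422533) (nat_lit 1824) (nat_lit 387910138) (nat_lit 422) (nat_lit 5) (nat_lit 445) (nat_lit 5) (nat_lit 446) (nat_lit 5) (nat_lit 451) (nat_lit 429) (nat_lit 260))) (XT.nd (nat_lit 78) (nat_lit 0) (nat_lit 0) (XT.lf (nat_lit 0) (nat_lit 6698210425) (nat_lit 1748) (nat_lit 909478276) (nat_lit 1824) (nat_lit 6275146588) (nat_lit 422) (nat_lit 5) (nat_lit 445) (nat_lit 5) (nat_lit 446) (nat_lit 5) (nat_lit 452) (nat_lit 429) (nat_lit 259)) (XT.nd (nat_lit 78) (nat_lit 0) (nat_lit 76) (XT.lf (nat_lit 76) (nat_lit 6382728495) (nat_lit 0) (nat_lit 1703027940) (nat_lit 1824) (nat_lit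 5940742869) (nat_lit 423) (nat_lit 5) (nat_lit 422) (nat_lit 5) (nat_lit 446) (nat_lit 5) (nat_lit 453) (nat_lit 429) (nat_lit 258)) (XT.lf (nat_lit 0) (nat_lit 9525738614) (nat_lit 1748) (nat_lit 375992652) (nat_lit 76) (nat_lit 4270814872) (nat_lit 423) (nat_lit 5) (nat_lit 446) (nat_lit 5) (nat_lit 424) (nat_lit 5) (nat_lit 454) (nat_lit 429) (nat_lit 257))))) (XT.nd (nat_lit 234) (nat_lit 1824) (nat_lit 0) (XT.nd (nat_lit 78) (nat_lit 1140) (nat_lit 0) (XT.lf (nat_lit 0) (nat_lit 7111187247) (nat_lit 1748) (nat_lit 3931463657) (nat_lit 1824) (nat_lit 3277903573) (nat_lit 400) (nat_lit 5) (nat_lit 423) (nat_lit 5) (nat_lit 424) (nat_lit 5) (nat_lit 455) (nat_lit 429) (nat_lit 256)) (XT.nd (nat_lit 78) (nat_lit 0) (nat_lit 0) (XT.lf (nat_lit 0) (nat_lit 263072872) (nat_lit 1140) (nat_lit 12335910484) (nat_lit 1216) (nat_lit 1872361104) (nat_lit 385) (nat_lit 5) (nat_lit 400) (nat_lit 5) (nat_lit 401) (nat_lit 5) (nat_lit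 456) (nat_lit 429) (nat_lit 255)) (XT.lf (nat_lit 0) (nat_lit 7948274594) (nat_lit 1140) (nat_lit 6303360770) (nat_lit 1216) (nat_lit 372214078) (nat_lit 385) (nat_lit 5) (nat_lit 400) (nat_lit 5) (nat_lit 401) (nat_lit 5) (nat_lit 457) (nat_lit 429) (nat_lit 254)))) (XT.nd (nat_lit 78) (nat_lit 836) (nat_lit 0) (XT.lf (nat_lit 0) (nat_lit 1005450309) (nat_lit 912) (nat_lit 134892201) (nat_lit 988) (nat_lit 13638962723) (nat_lit 372) (nat_lit 5) (nat_lit 384) (nat_lit 5) (nat_lit 385) (nat_lit 5) (nat_lit 458) (nat_lit 429) (nat_lit 253)) (XT.nd (nat_lit 78) (nat_lit 836) (nat_lit 0) (XT.lf (nat_lit 0) (nat_lit 2754433595) (nat_lit 988) (nat_lit 6057251951) (nat_lit 76) (nat_lit 6124612921) (nat_lit 372) (nat_lit 5) (nat_lit 385) (nat_lit 5) (nat_lit 373) (nat_lit 5) (nat_lit 459) (nat_lit 429) (nat_lit 252)) (XT.lf (nat_lit 0) (nat_lit 1828807988) (nat_lit 836) (nat_lit 2576132720) (nat_lit 912) (nat_lit 10691410995)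 (nat_lit 361) (nat_lit 5) (nat_lit 372) (nat_lit 5) (nat_lit 373) (nat_lit 5) (nat_lit 460) (nat_lit 429) (nat_lit 251)))))) (XT.nd (nat_lit 390) (nat_lit 2432) (nat_lit 0) (XT.nd (nat_lit 156) (nat_lit 836) (nat_lit 0) (XT.nd (nat_lit 78) (nat_lit 836) (nat_lit 0) (XT.lf (nat_lit 0) (nat_lit 6145432425) (nat_lit 912) (nat_lit 5337026030) (nat_lit 76) (nat_lit 3776010828) (nat_lit 361) (nat_lit 5) (nat_lit 373) (nat_lit 5) (nat_lit 362) (nat_lit 5) (nat_lit 461) (nat_lit 429) (nat_lit 250)) (XT.lf (nat_lit 0) (nat_lit 2763350557) (nat_lit 836) (nat_lit 5184041124) (nat_lit 912) (nat_lit 7475907091) (nat_lit 350) (nat_lit 5) (nat_lit 361) (nat_lit 5) (nat_lit 362) (nat_lit 5) (nat_lit 462) (nat_lit 429) (nat_lit 249))) (XT.nd (nat_lit 78) (nat_lit 836) (nat_lit 0) (XT.lf (nat_lit 0) (nat_lit 9821265144) (nat_lit 912) (nat_lit 4508969615) (nat_lit 76) (nat_lit 1260475251) (nat_lit 350) (nat_lit 5) (nat_lit 362) (nat_lit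 5) (nat_lit 351) (nat_lit 5) (nat_lit 463) (nat_lit 429) (nat_lit 248)) (XT.nd (nat_lit 78) (nat_lit 0) (nat_lit 0) (XT.lf (nat_lit 0) (nat_lit 3812810503) (nat_lit 836) (nat_lit 7970824076) (nat_lit 912) (nat_lit 3976817132) (nat_lit 339) (nat_lit 5) (nat_lit 350) (nat_lit 5) (nat_lit 351) (nat_lit 5) (nat_lit 464) (nat_lit 429) (nat_lit 247)) (XT.lf (nat_lit 0) (nat_lit 12354306068) (nat_lit 836) (nat_lit 1453242001) (nat_lit 912) (nat_lit 2125596800) (nat_lit 339) (nat_lit 5) (nat_lit 350) (nat_lit 5) (nat_lit 351) (nat_lit 5) (nat_lit 465) (nat_lit 429) (nat_lit 246))))) (XT.nd (nat_lit 234) (nat_lit 760) (nat_lit 0) (XT.nd (nat_lit 78) (nat_lit 836) (nat_lit 0) (XT.lf (nat_lit 0) (nat_lit 4981094152) (nat_lit 836) (nat_lit 10949109596) (nat_lit 912) (nat_lit 177925370) (nat_lit 328) (nat_lit 5) (nat_lit 339) (nat_lit 5) (nat_lit 340) (nat_lit 5) (nat_lit 466) (nat_lit 429) (nat_lit 245)) (XT.nd (nat_lit 78) (nat_lit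 760) (nat_lit 0) (XT.lf (nat_lit 0) (nat_lit 1811022078) (nat_lit 912) (nat_lit 2554821221) (nat_lit 76) (nat_lit 11920016416) (nat_lit 327) (nat_lit 5) (nat_lit 339) (nat_lit 5) (nat_lit 328) (nat_lit 5) (nat_lit 467) (nat_lit 429) (nat_lit 244)) (XT.lf (nat_lit 0) (nat_lit 3885950595) (nat_lit 836) (nat_lit 10219949338) (nat_lit 76) (nat_lit 2360252140) (nat_lit 317) (nat_lit 5) (nat_lit 328) (nat_lit 5) (nat_lit 318) (nat_lit 5) (nat_lit 468) (nat_lit 429) (nat_lit 243)))) (XT.nd (nat_lit 78) (nat_lit 760) (nat_lit 0) (XT.lf (nat_lit 0) (nat_lit 6041043186) (nat_lit 836) (nat_lit 1428700572) (nat_lit 76) (nat_lit 9179535526) (nat_lit 317) (nat_lit 5) (nat_lit 328) (nat_lit 5) (nat_lit 318) (nat_lit 5) (nat_lit 469) (nat_lit 429) (nat_lit 242)) (XT.nd (nat_lit 78) (nat_lit 0) (nat_lit 0) (XT.lf (nat_lit 0) (nat_lit 7630760577) (nat_lit 760) (nat_lit 650663070) (nat_lit 836) (nat_lit 8553803942) (nat_lit 307) (nat_lit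 5) (nat_lit 317) (nat_lit 5) (nat_lit 318) (nat_lit 5) (nat_lit 470) (nat_lit 429) (nat_lit 241)) (XT.lf (nat_lit 0) (nat_lit 10609931755) (nat_lit 836) (nat_lit 182710009) (nat_lit 76) (nat_lit 6231388921) (nat_lit 307) (nat_lit 5) (nat_lit 318) (nat_lit 5) (nat_lit 308) (nat_lit 5) (nat_lit 471) (nat_lit 429) (nat_lit 240))))))))
noncomputable def xc206 : XT := (XT.nd (nat_lit 1716) (nat_lit 3040) (nat_lit 0) (XT.nd (nat_lit 858) (nat_lit 3496) (nat_lit 0) (XT.nd (nat_lit 390) (nat_lit 2052) (nat_lit 0) (XT.nd (nat_lit 156) (nat_lit 760) (nat_lit 0) (XT.nd (nat_lit 78) (nat_lit 760) (nat_lit 0) (XT.lf (nat_lit 0) (nat_lit 9127245409) (nat_lit 684) (nat_lit 3914210511) (nat_lit 760) (nat_lit 4174027186) (nat_lit 298) (nat_lit 5) (nat_lit 307) (nat_lit 5) (nat_lit 308) (nat_lit 5) (nat_lit 472) (nat_lit 429) (nat_lit 239)) (XT.lf (nat_lit 0) (nat_lit 1203045558) (nat_lit 760) (nat_lit 14340712660) (nat_lit 836) (nat_lit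 1866565544) (nat_lit 288) (nat_lit 5) (nat_lit 298) (nat_lit 5) (nat_lit 299) (nat_lit 5) (nat_lit 473) (nat_lit 429) (nat_lit 238))) (XT.nd (nat_lit 78) (nat_lit 684) (nat_lit 0) (XT.lf (nat_lit 0) (nat_lit 554219026) (nat_lit 836) (nat_lit 6855393025) (nat_lit 76) (nat_lit 10197916764) (nat_lit 287) (nat_lit 5) (nat_lit 298) (nat_lit 5) (nat_lit 288) (nat_lit 5) (nat_lit 474) (nat_lit 429) (nat_lit 237)) (XT.nd (nat_lit 78) (nat_lit 0) (nat_lit 0) (XT.lf (nat_lit 0) (nat_lit 2698951616) (nat_lit 684) (nat_lit 310161970) (nat_lit 760) (nat_lit 14799105886) (nat_lit 278) (nat_lit 5) (nat_lit 287) (nat_lit 5) (nat_lit 288) (nat_lit 5) (nat_lit 475) (nat_lit 429) (nat_lit 236)) (XT.lf (nat_lit 0) (nat_lit 5597637555) (nat_lit 760) (nat_lit 5527697521) (nat_lit 76) (nat_lit 6885900212) (nat_lit 278) (nat_lit 5) (nat_lit 288) (nat_lit 5) (nat_lit 279) (nat_lit 5) (nat_lit 476) (nat_lit 429) (nat_lit 235))))) (XT.nd (nat_lit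 234) (nat_lit 760) (nat_lit 0) (XT.nd (nat_lit 78) (nat_lit 608) (nat_lit 0) (XT.lf (nat_lit 0) (nat_lit 4292197677) (nat_lit 684) (nat_lit 3969010207) (nat_lit 760) (nat_lit 9956639957) (nat_lit 269) (nat_lit 5) (nat_lit 278) (nat_lit 5) (nat_lit 279) (nat_lit 5) (nat_lit 477) (nat_lit 429) (nat_lit 234)) (XT.nd (nat_lit 78) (nat_lit 608) (nat_lit 0) (XT.lf (nat_lit 0) (nat_lit 11030442099) (nat_lit 760) (nat_lit 4073922616) (nat_lit 76) (nat_lit 3323181980) (nat_lit 269) (nat_lit 5) (nat_lit 279) (nat_lit 5) (nat_lit 270) (nat_lit 5) (nat_lit 478) (nat_lit 429) (nat_lit 233)) (XT.lf (nat_lit 0) (nat_lit 6020035027) (nat_lit 608) (nat_lit 7893955331) (nat_lit 684) (nat_lit 4726272443) (nat_lit 261) (nat_lit 5) (nat_lit 269) (nat_lit 5) (nat_lit 270) (nat_lit 5) (nat_lit 479) (nat_lit 429) (nat_lit 232)))) (XT.nd (nat_lit 78) (nat_lit 760) (nat_lit 0) (XT.lf (nat_lit 0) (nat_lit 16363670621) (nat_lit 608) (nat_lit 512513690)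 (nat_lit 684) (nat_lit 1980631249) (nat_lit 261) (nat_lit 5) (nat_lit 269) (nat_lit 5) (nat_lit 270) (nat_lit 5) (nat_lit 480) (nat_lit 429) (nat_lit 231)) (XT.nd (nat_lit 78) (nat_lit 0) (nat_lit 0) (XT.lf (nat_lit 0) (nat_lit 900285151) (nat_lit 760) (nat_lit 11194849901) (nat_lit 76) (nat_lit 6980637290) (nat_lit 251) (nat_lit 5) (nat_lit 261) (nat_lit 5) (nat_lit 252) (nat_lit 5) (nat_lit 481) (nat_lit 429) (nat_lit 230)) (XT.lf (nat_lit 0) (nat_lit 3826345986) (nat_lit 760) (nat_lit 826563088) (nat_lit 76) (nat_lit 14645658133) (nat_lit 251) (nat_lit 5) (nat_lit 261) (nat_lit 5) (nat_lit 252) (nat_lit 5) (nat_lit 482) (nat_lit 429) (nat_lit 229)))))) (XT.nd (nat_lit 390) (nat_lit 1748) (nat_lit 0) (XT.nd (nat_lit 156) (nat_lit 532) (nat_lit 0) (XT.nd (nat_lit 78) (nat_lit 608) (nat_lit 0) (XT.lf (nat_lit 0) (nat_lit 6888420554) (nat_lit 684) (nat_lit 9672888342) (nat_lit 76) (nat_lit 2962960908) (nat_lit 243) (nat_lit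 5) (nat_lit 252) (nat_lit 5) (nat_lit 244) (nat_lit 5) (nat_lit 483) (nat_lit 429) (nat_lit 228)) (XT.lf (nat_lit 0) (nat_lit 974286368) (nat_lit 608) (nat_lit 9074146386) (nat_lit 684) (nat_lit 9705321430) (nat_lit 235) (nat_lit 5) (nat_lit 243) (nat_lit 5) (nat_lit 244) (nat_lit 5) (nat_lit 484) (nat_lit 429) (nat_lit 227))) (XT.nd (nat_lit 78) (nat_lit 532) (nat_lit 0) (XT.lf (nat_lit 0) (nat_lit 11958216972) (nat_lit 608) (nat_lit 1372382195) (nat_lit 684) (nat_lit 6656051628) (nat_lit 235) (nat_lit 5) (nat_lit 243) (nat_lit 5) (nat_lit 244) (nat_lit 5) (nat_lit 485) (nat_lit 429) (nat_lit 226)) (XT.nd (nat_lit 78) (nat_lit 0) (nat_lit 0) (XT.lf (nat_lit 0) (nat_lit 2926636896) (nat_lit 532) (nat_lit 13807020314) (nat_lit 608) (nat_lit 3489444750) (nat_lit 228) (nat_lit 5) (nat_lit 235) (nat_lit 5) (nat_lit 236) (nat_lit 5) (nat_lit 486) (nat_lit 429) (nat_lit 225)) (XT.lf (nat_lit 0) (nat_lit 14193202327) (nat_lit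 532) (nat_lit 6068697682) (nat_lit 608) (nat_lit 201241226) (nat_lit 228) (nat_lit 5) (nat_lit 235) (nat_lit 5) (nat_lit 236) (nat_lit 5) (nat_lit 487) (nat_lit 429) (nat_lit 224))))) (XT.nd (nat_lit 234) (nat_lit 532) (nat_lit 0) (XT.nd (nat_lit 78) (nat_lit 532) (nat_lit 0) (XT.lf (nat_lit 0) (nat_lit 3150421184) (nat_lit 684) (nat_lit 15703959420) (nat_lit 76) (nat_lit 1852411929) (nat_lit 219) (nat_lit 5) (nat_lit 228) (nat_lit 5) (nat_lit 220) (nat_lit 5) (nat_lit 488) (nat_lit 429) (nat_lit 223)) (XT.nd (nat_lit 78) (nat_lit 532) (nat_lit 0) (XT.lf (nat_lit 0) (nat_lit 6643318205) (nat_lit 684) (nat_lit 4417443626) (nat_lit 76) (nat_lit 9892991971) (nat_lit 219) (nat_lit 5) (nat_lit 228) (nat_lit 5) (nat_lit 220) (nat_lit 5) (nat_lit 489) (nat_lit 429) (nat_lit 222)) (XT.lf (nat_lit 0) (nat_lit 7181918067) (nat_lit 532) (nat_lit 3065245836) (nat_lit 608) (nat_lit 10957670018) (nat_lit 212) (nat_lit 5) (nat_lit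 219) (nat_lit 5) (nat_lit 220) (nat_lit 5) (nat_lit 490) (nat_lit 429) (nat_lit 221)))) (XT.nd (nat_lit 78) (nat_lit 532) (nat_lit 0) (XT.lf (nat_lit 0) (nat_lit 13980488870) (nat_lit 608) (nat_lit 2427572162) (nat_lit 76) (nat_lit 5051727977) (nat_lit 212) (nat_lit 5) (nat_lit 220) (nat_lit 5) (nat_lit 213) (nat_lit 5) (nat_lit 491) (nat_lit 429) (nat_lit 220)) (XT.nd (nat_lit 78) (nat_lit 0) (nat_lit 0) (XT.lf (nat_lit 0) (nat_lit 9496941835) (nat_lit 532) (nat_lit 8368119996) (nat_lit 608) (nat_lit 3853251118) (nat_lit 205) (nat_lit 5) (nat_lit 212) (nat_lit 5) (nat_lit 213) (nat_lit 5) (nat_lit 492) (nat_lit 429) (nat_lit 219)) (XT.lf (nat_lit 0) (nat_lit 21685907455) (nat_lit 532) (nat_lit 152390865) (nat_lit 608) (nat_lit 143490965) (nat_lit 205) (nat_lit 5) (nat_lit 212) (nat_lit 5) (nat_lit 213) (nat_lit 5) (nat_lit 493) (nat_lit 429) (nat_lit 218))))))) (XT.nd (nat_lit 54444) (nat_lit 0) (nat_lit 20520) (XT.nd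 (nat_lit 390) (nat_lit 1444) (nat_lit 0) (XT.nd (nat_lit 156) (nat_lit 456) (nat_lit 0) (XT.nd (nat_lit 78) (nat_lit 532) (nat_lit 0) (XT.lf (nat_lit 0) (nat_lit 3719429300) (nat_lit 608) (nat_lit 10307775735) (nat_lit 76) (nat_lit 8220324484) (nat_lit 197) (nat_lit 5) (nat_lit 205) (nat_lit 5) (nat_lit 198) (nat_lit 5) (nat_lit 494) (nat_lit 429) (nat_lit 217)) (XT.lf (nat_lit 0) (nat_lit 1921871985) (nat_lit 532) (nat_lit 5746100497) (nat_lit 608) (nat_lit 14850388668) (nat_lit 190) (nat_lit 5) (nat_lit 197) (nat_lit 5) (nat_lit 198) (nat_lit 5) (nat_lit 495) (nat_lit 429) (nat_lit 216))) (XT.nd (nat_lit 78) (nat_lit 456) (nat_lit 0) (XT.lf (nat_lit 0) (nat_lit 11777493595) (nat_lit 608) (nat_lit 8282357435) (nat_lit 76) (nat_lit 2733119496) (nat_lit 190) (nat_lit 5) (nat_lit 198) (nat_lit 5) (nat_lit 191) (nat_lit 5) (nat_lit 496) (nat_lit 429) (nat_lit 215)) (XT.nd (nat_lit 78) (nat_lit 0) (nat_lit 0) (XT.lf (nat_lit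 0) (nat_lit 4289420225) (nat_lit 456) (nat_lit 11740633530) (nat_lit 532) (nat_lit 7041802590) (nat_lit 184) (nat_lit 5) (nat_lit 190) (nat_lit 5) (nat_lit 191) (nat_lit 5) (nat_lit 497) (nat_lit 429) (nat_lit 214)) (XT.lf (nat_lit 0) (nat_lit 17218108395) (nat_lit 456) (nat_lit 3200135920) (nat_lit 532) (nat_lit 2937065186) (nat_lit 184) (nat_lit 5) (nat_lit 190) (nat_lit 5) (nat_lit 191) (nat_lit 5) (nat_lit 498) (nat_lit 429) (nat_lit 213))))) (XT.nd (nat_lit 234) (nat_lit 456) (nat_lit 0) (XT.nd (nat_lit 78) (nat_lit 456) (nat_lit 0) (XT.lf (nat_lit 0) (nat_lit 1308941086) (nat_lit 532) (nat_lit 16843851596) (nat_lit 76) (nat_lit 5489966609) (nat_lit 177) (nat_lit 5) (nat_lit 184) (nat_lit 5) (nat_lit 178) (nat_lit 5) (nat_lit 499) (nat_lit 429) (nat_lit 212)) (XT.nd (nat_lit 78) (nat_lit 456) (nat_lit 0) (XT.lf (nat_lit 0) (nat_lit 5658332791) (nat_lit 532) (nat_lit 3905891716) (nat_lit 76) (nat_lit 14370190572)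 (nat_lit 177) (nat_lit 5) (nat_lit 184) (nat_lit 5) (nat_lit 178) (nat_lit 5) (nat_lit 500) (nat_lit 429) (nat_lit 211)) (XT.lf (nat_lit 0) (nat_lit 9407571201) (nat_lit 456) (nat_lit 743423580) (nat_lit 532) (nat_lit 14079784667) (nat_lit 171) (nat_lit 5) (nat_lit 177) (nat_lit 5) (nat_lit 178) (nat_lit 5) (nat_lit 501) (nat_lit 429) (nat_lit 210)))) (XT.nd (nat_lit 78) (nat_lit 456) (nat_lit 0) (XT.lf (nat_lit 0) (nat_lit 14808724799) (nat_lit 532) (nat_lit 1552739304) (nat_lit 76) (nat_lit 8170103796) (nat_lit 171) (nat_lit 5) (nat_lit 178) (nat_lit 5) (nat_lit 172) (nat_lit 5) (nat_lit 502) (nat_lit 429) (nat_lit 209)) (XT.nd (nat_lit 53664) (nat_lit 0) (nat_lit 22268) (XT.lf (nat_lit 0) (nat_lit 12130765305) (nat_lit 456) (nat_lit 7507863242) (nat_lit 532) (nat_lit 5198164258) (nat_lit 165) (nat_lit 5) (nat_lit 171) (nat_lit 5) (nat_lit 172) (nat_lit 5) (nat_lit 503) (nat_lit 429) (nat_lit 208)) (XT.lf (nat_lit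 0) (nat_lit 2739415378) (nat_lit 0) (nat_lit 2739415378) (nat_lit 1596) (nat_lit 185505352) (nat_lit 458) (nat_lit 5) (nat_lit 458) (nat_lit 3) (nat_lit 479) (nat_lit 3) (nat_lit 430) (nat_lit 430) (nat_lit 280)))))) (XT.nd (nat_lit 390) (nat_lit 0) (nat_lit 228) (XT.nd (nat_lit 156) (nat_lit 0) (nat_lit 76) (XT.nd (nat_lit 78) (nat_lit 0) (nat_lit 76) (XT.lf (nat_lit 0) (nat_lit 159848955) (nat_lit 1748) (nat_lit 423403110) (nat_lit 1748) (nat_lit 10847971341) (nat_lit 435) (nat_lit 3) (nat_lit 458) (nat_lit 3) (nat_lit 458) (nat_lit 5) (nat_lit 431) (nat_lit 430) (nat_lit 279)) (XT.lf (nat_lit 0) (nat_lit 744952423) (nat_lit 1672) (nat_lit 6394482803) (nat_lit 1748) (nat_lit 4395374469) (nat_lit 436) (nat_lit 5) (nat_lit 458) (nat_lit 5) (nat_lit 459) (nat_lit 5) (nat_lit 432) (nat_lit 430) (nat_lit 278))) (XT.nd (nat_lit 78) (nat_lit 0) (nat_lit 76) (XT.lf (nat_lit 0) (nat_lit 1334857293) (nat_lit 1672) (nat_lit 830584045)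 (nat_lit 1748) (nat_lit 9475169299) (nat_lit 436) (nat_lit 5) (nat_lit 458) (nat_lit 5) (nat_lit 459) (nat_lit 5) (nat_lit 433) (nat_lit 430) (nat_lit 277)) (XT.nd (nat_lit 78) (nat_lit 0) (nat_lit 0) (XT.lf (nat_lit 0) (nat_lit 1974160367) (nat_lit 1672) (nat_lit 6865633905) (nat_lit 1748) (nat_lit 2907986142) (nat_lit 437) (nat_lit 5) (nat_lit 459) (nat_lit 5) (nat_lit 460) (nat_lit 5) (nat_lit 434) (nat_lit 430) (nat_lit 276)) (XT.lf (nat_lit 0) (nat_lit 2633098620) (nat_lit 1672) (nat_lit 1158446268) (nat_lit 1748) (nat_lit 8065416439) (nat_lit 437) (nat_lit 5) (nat_lit 459) (nat_lit 5) (nat_lit 460) (nat_lit 5) (nat_lit 435) (nat_lit 430) (nat_lit 275))))) (XT.nd (nat_lit 234) (nat_lit 0) (nat_lit 76) (XT.nd (nat_lit 78) (nat_lit 0) (nat_lit 0) (XT.lf (nat_lit 0) (nat_lit 3332052605) (nat_lit 1672) (nat_lit 7259603790) (nat_lit 1748) (nat_lit 1376137355) (nat_lit 438) (nat_lit 5) (nat_lit 460) (nat_lit 5) (nat_lit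 461) (nat_lit 5) (nat_lit 436) (nat_lit 430) (nat_lit 274)) (XT.nd (nat_lit 78) (nat_lit 0) (nat_lit 0) (XT.lf (nat_lit 0) (nat_lit 4065314663) (nat_lit 1672) (nat_lit 1405560781) (nat_lit 1748) (nat_lit 6609565336) (nat_lit 438) (nat_lit 5) (nat_lit 460) (nat_lit 5) (nat_lit 461) (nat_lit 5) (nat_lit 437) (nat_lit 430) (nat_lit 273)) (XT.lf (nat_lit 76) (nat_lit 4618712507) (nat_lit 0) (nat_lit 212158533) (nat_lit 1748) (nat_lit 7364121581) (nat_lit 439) (nat_lit 5) (nat_lit 438) (nat_lit 5) (nat_lit 461) (nat_lit 5) (nat_lit 438) (nat_lit 430) (nat_lit 272)))) (XT.nd (nat_lit 78) (nat_lit 0) (nat_lit 0) (XT.lf (nat_lit 0) (nat_lit 5642548374) (nat_lit 1672) (nat_lit 1570289481) (nat_lit 1748) (nat_lit 5098385810) (nat_lit 439) (nat_lit 5) (nat_lit 461) (nat_lit 5) (nat_lit 462) (nat_lit 5) (nat_lit 439) (nat_lit 430) (nat_lit 271)) (XT.nd (nat_lit 78) (nat_lit 0) (nat_lit 76) (XT.lf (nat_lit 76) (nat_lit 4607336395)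 (nat_lit 0) (nat_lit 1882546516) (nat_lit 1748) (nat_lit 5939512225) (nat_lit 440) (nat_lit 5) (nat_lit 439) (nat_lit 5) (nat_lit 462) (nat_lit 5) (nat_lit 440) (nat_lit 430) (nat_lit 270)) (XT.lf (nat_lit 0) (nat_lit 7376165796) (nat_lit 1672) (nat_lit 1650788031) (nat_lit 1748) (nat_lit 3522540370) (nat_lit 440) (nat_lit 5) (nat_lit 462) (nat_lit 5) (nat_lit 463) (nat_lit 5) (nat_lit 441) (nat_lit 430) (nat_lit 269))))))))
noncomputable def xc207 : XT := (XT.nd (nat_lit 1716) (nat_lit 8740) (nat_lit 0) (XT.nd (nat_lit 858) (nat_lit 5244) (nat_lit 0) (XT.nd (nat_lit 390) (nat_lit 1596) (nat_lit 0) (XT.nd (nat_lit 156) (nat_lit 0) (nat_lit 76) (XT.nd (nat_lit 78) (nat_lit 0) (nat_lit 76) (XT.lf (nat_lit 76) (nat_lit 4685318879) (nat_lit 0) (nat_lit 3626289127) (nat_lit 1748) (nat_lit 4359762670) (nat_lit 441) (nat_lit 5) (nat_lit 440) (nat_lit 5) (nat_lit 463) (nat_lit 5) (nat_lit 442) (nat_lit 430) (nat_lit 268)) (XT.lf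 (nat_lit 0) (nat_lit 9277878217) (nat_lit 1672) (nat_lit 1645008412) (nat_lit 1748) (nat_lit 1872559705) (nat_lit 441) (nat_lit 5) (nat_lit 463) (nat_lit 5) (nat_lit 464) (nat_lit 5) (nat_lit 443) (nat_lit 430) (nat_lit 267))) (XT.nd (nat_lit 78) (nat_lit 0) (nat_lit 76) (XT.lf (nat_lit 76) (nat_lit 4854890905) (nat_lit 0) (nat_lit 5453086336) (nat_lit 1748) (nat_lit 2613140148) (nat_lit 442) (nat_lit 5) (nat_lit 441) (nat_lit 5) (nat_lit 464) (nat_lit 5) (nat_lit 444) (nat_lit 430) (nat_lit 266)) (XT.nd (nat_lit 78) (nat_lit 0) (nat_lit 0) (XT.lf (nat_lit 0) (nat_lit 11359764640) (nat_lit 1672) (nat_lit 1550701218) (nat_lit 1748) (nat_lit 138818153) (nat_lit 442) (nat_lit 5) (nat_lit 464) (nat_lit 5) (nat_lit 465) (nat_lit 5) (nat_lit 445) (nat_lit 430) (nat_lit 265)) (XT.lf (nat_lit 76) (nat_lit 5118489577) (nat_lit 0) (nat_lit 7372812257) (nat_lit 1748) (nat_lit 687541651) (nat_lit 443) (nat_lit 5) (nat_lit 442) (nat_lit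 5) (nat_lit 465) (nat_lit 5) (nat_lit 446) (nat_lit 430) (nat_lit 264))))) (XT.nd (nat_lit 234) (nat_lit 0) (nat_lit 152) (XT.nd (nat_lit 78) (nat_lit 0) (nat_lit 76) (XT.lf (nat_lit 0) (nat_lit 330018129) (nat_lit 1748) (nat_lit 1378697351) (nat_lit 1824) (nat_lit 11602240300) (nat_lit 419) (nat_lit 5) (nat_lit 442) (nat_lit 5) (nat_lit 443) (nat_lit 5) (nat_lit 447) (nat_lit 430) (nat_lit 263)) (XT.nd (nat_lit 78) (nat_lit 0) (nat_lit 0) (XT.lf (nat_lit 0) (nat_lit 1410780382) (nat_lit 1748) (nat_lit 7975292675) (nat_lit 1824) (nat_lit 4058508803) (nat_lit 420) (nat_lit 5) (nat_lit 443) (nat_lit 5) (nat_lit 444) (nat_lit 5) (nat_lit 448) (nat_lit 430) (nat_lit 262)) (XT.lf (nat_lit 0) (nat_lit 2523618764) (nat_lit 1748) (nat_lit 1126925981) (nat_lit 1824) (nat_lit 9930130009) (nat_lit 420) (nat_lit 5) (nat_lit 443) (nat_lit 5) (nat_lit 444) (nat_lit 5) (nat_lit 449) (nat_lit 430) (nat_lit 261)))) (XT.nd (nat_lit 78)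 (nat_lit 0) (nat_lit 0) (XT.lf (nat_lit 0) (nat_lit 3701789123) (nat_lit 1748) (nat_lit 7804937462) (nat_lit 1824) (nat_lit 2211904856) (nat_lit 421) (nat_lit 5) (nat_lit 444) (nat_lit 5) (nat_lit 445) (nat_lit 5) (nat_lit 450) (nat_lit 430) (nat_lit 260)) (XT.nd (nat_lit 78) (nat_lit 0) (nat_lit 76) (XT.lf (nat_lit 0) (nat_lit 4925503119) (nat_lit 1748) (nat_lit 780808878) (nat_lit 1824) (nat_lit 8152599033) (nat_lit 421) (nat_lit 5) (nat_lit 444) (nat_lit 5) (nat_lit 445) (nat_lit 5) (nat_lit 451) (nat_lit 430) (nat_lit 259)) (XT.lf (nat_lit 0) (nat_lit 6207679091) (nat_lit 1748) (nat_lit 7542105907) (nat_lit 1824) (nat_lit 251534766) (nat_lit 422) (nat_lit 5) (nat_lit 445) (nat_lit 5) (nat_lit 446) (nat_lit 5) (nat_lit 452) (nat_lit 430) (nat_lit 258)))))) (XT.nd (nat_lit 390) (nat_lit 2660) (nat_lit 0) (XT.nd (nat_lit 156) (nat_lit 2812) (nat_lit 0) (XT.nd (nat_lit 78) (nat_lit 0) (nat_lit 0) (XT.lf (nat_lit 0) (nat_lit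 7549099027) (nat_lit 1748) (nat_lit 337466786) (nat_lit 1824) (nat_lit 6259342094) (nat_lit 422) (nat_lit 5) (nat_lit 445) (nat_lit 5) (nat_lit 446) (nat_lit 5) (nat_lit 453) (nat_lit 430) (nat_lit 257)) (XT.lf (nat_lit 76) (nat_lit 7096701219) (nat_lit 0) (nat_lit 1857444164) (nat_lit 1824) (nat_lit 5338509647) (nat_lit 423) (nat_lit 5) (nat_lit 422) (nat_lit 5) (nat_lit 446) (nat_lit 5) (nat_lit 454) (nat_lit 430) (nat_lit 256))) (XT.nd (nat_lit 78) (nat_lit 1140) (nat_lit 0) (XT.lf (nat_lit 0) (nat_lit 208907592) (nat_lit 1748) (nat_lit 10200753524) (nat_lit 1824) (nat_lit 4032231728) (nat_lit 400) (nat_lit 5) (nat_lit 423) (nat_lit 5) (nat_lit 424) (nat_lit 5) (nat_lit 455) (nat_lit 430) (nat_lit 255)) (XT.nd (nat_lit 78) (nat_lit 1140) (nat_lit 0) (XT.lf (nat_lit 0) (nat_lit 7839211754) (nat_lit 1748) (nat_lit 4106577303) (nat_lit 1824) (nat_lit 2647299373) (nat_lit 400) (nat_lit 5) (nat_lit 423) (nat_lit 5) (nat_lit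 424) (nat_lit 5) (nat_lit 456) (nat_lit 430) (nat_lit 254)) (XT.lf (nat_lit 0) (nat_lit 864689298) (nat_lit 1140) (nat_lit 12658438496) (nat_lit 1216) (nat_lit 1223973365) (nat_lit 385) (nat_lit 5) (nat_lit 400) (nat_lit 5) (nat_lit 401) (nat_lit 5) (nat_lit 457) (nat_lit 430) (nat_lit 253))))) (XT.nd (nat_lit 234) (nat_lit 1672) (nat_lit 0) (XT.nd (nat_lit 78) (nat_lit 912) (nat_lit 0) (XT.lf (nat_lit 0) (nat_lit 288889666) (nat_lit 1216) (nat_lit 6212923052) (nat_lit 76) (nat_lit 8401073552) (nat_lit 384) (nat_lit 5) (nat_lit 400) (nat_lit 5) (nat_lit 385) (nat_lit 5) (nat_lit 458) (nat_lit 430) (nat_lit 252)) (XT.nd (nat_lit 78) (nat_lit 0) (nat_lit 0) (XT.lf (nat_lit 0) (nat_lit 1615351704) (nat_lit 912) (nat_lit 202184566) (nat_lit 988) (nat_lit 13244053520) (nat_lit 372) (nat_lit 5) (nat_lit 384) (nat_lit 5) (nat_lit 385) (nat_lit 5) (nat_lit 459) (nat_lit 430) (nat_lit 251)) (XT.lf (nat_lit 0) (nat_lit 3450666894)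 (nat_lit 988) (nat_lit 5586717258) (nat_lit 76) (nat_lit 6184607775) (nat_lit 372) (nat_lit 5) (nat_lit 385) (nat_lit 5) (nat_lit 373) (nat_lit 5) (nat_lit 460) (nat_lit 430) (nat_lit 250)))) (XT.nd (nat_lit 78) (nat_lit 836) (nat_lit 0) (XT.lf (nat_lit 0) (nat_lit 2453171250) (nat_lit 836) (nat_lit 2672257740) (nat_lit 912) (nat_lit 10259996452) (nat_lit 361) (nat_lit 5) (nat_lit 372) (nat_lit 5) (nat_lit 373) (nat_lit 5) (nat_lit 461) (nat_lit 430) (nat_lit 249)) (XT.nd (nat_lit 78) (nat_lit 836) (nat_lit 0) (XT.lf (nat_lit 0) (nat_lit 6888046837) (nat_lit 912) (nat_lit 4854619505) (nat_lit 76) (nat_lit 3808376733) (nat_lit 361) (nat_lit 5) (nat_lit 373) (nat_lit 5) (nat_lit 362) (nat_lit 5) (nat_lit 462) (nat_lit 430) (nat_lit 248)) (XT.lf (nat_lit 0) (nat_lit 3403888645) (nat_lit 836) (nat_lit 5313805508) (nat_lit 912) (nat_lit 7001645975) (nat_lit 350) (nat_lit 5) (nat_lit 361) (nat_lit 5) (nat_lit 362) (nat_lit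 5) (nat_lit 463) (nat_lit 430) (nat_lit 247))))))) (XT.nd (nat_lit 858) (nat_lit 4028) (nat_lit 0) (XT.nd (nat_lit 390) (nat_lit 2964) (nat_lit 0) (XT.nd (nat_lit 156) (nat_lit 912) (nat_lit 0) (XT.nd (nat_lit 78) (nat_lit 836) (nat_lit 0) (XT.lf (nat_lit 0) (nat_lit 10616891708) (nat_lit 912) (nat_lit 4013006803) (nat_lit 76) (nat_lit 1260448020) (nat_lit 350) (nat_lit 5) (nat_lit 362) (nat_lit 5) (nat_lit 351) (nat_lit 5) (nat_lit 464) (nat_lit 430) (nat_lit 246)) (XT.lf (nat_lit 0) (nat_lit 4471352719) (nat_lit 836) (nat_lit 8139187356) (nat_lit 912) (nat_lit 3453106158) (nat_lit 339) (nat_lit 5) (nat_lit 350) (nat_lit 5) (nat_lit 351) (nat_lit 5) (nat_lit 465) (nat_lit 430) (nat_lit 245))) (XT.nd (nat_lit 78) (nat_lit 912) (nat_lit 0) (XT.lf (nat_lit 0) (nat_lit 13172260822) (nat_lit 836) (nat_lit 1491078212) (nat_lit 912) (nat_lit 1576689799) (nat_lit 339) (nat_lit 5) (nat_lit 350) (nat_lit 5) (nat_lit 351) (nat_lit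 5) (nat_lit 466) (nat_lit 430) (nat_lit 244)) (XT.nd (nat_lit 78) (nat_lit 0) (nat_lit 0) (XT.lf (nat_lit 0) (nat_lit 396841428) (nat_lit 912) (nat_lit 10761693505) (nat_lit 76) (nat_lit 5260082525) (nat_lit 327) (nat_lit 5) (nat_lit 339) (nat_lit 5) (nat_lit 328) (nat_lit 5) (nat_lit 467) (nat_lit 430) (nat_lit 243)) (XT.lf (nat_lit 0) (nat_lit 2411894591) (nat_lit 912) (nat_lit 2030717796) (nat_lit 76) (nat_lit 12157496083) (nat_lit 327) (nat_lit 5) (nat_lit 339) (nat_lit 5) (nat_lit 328) (nat_lit 5) (nat_lit 468) (nat_lit 430) (nat_lit 242))))) (XT.nd (nat_lit 234) (nat_lit 1444) (nat_lit 0) (XT.nd (nat_lit 78) (nat_lit 760) (nat_lit 0) (XT.lf (nat_lit 0) (nat_lit 4521051789) (nat_lit 836) (nat_lit 9841706627) (nat_lit 76) (nat_lit 2421397097) (nat_lit 317) (nat_lit 5) (nat_lit 328) (nat_lit 5) (nat_lit 318) (nat_lit 5) (nat_lit 469) (nat_lit 430) (nat_lit 241)) (XT.nd (nat_lit 78) (nat_lit 760) (nat_lit 0) (XT.lf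 (nat_lit 0) (nat_lit 6708317169) (nat_lit 836) (nat_lit 886057232) (nat_lit 76) (nat_lit 9376792819) (nat_lit 317) (nat_lit 5) (nat_lit 328) (nat_lit 5) (nat_lit 318) (nat_lit 5) (nat_lit 470) (nat_lit 430) (nat_lit 240)) (XT.lf (nat_lit 0) (nat_lit 8350835131) (nat_lit 760) (nat_lit 635639664) (nat_lit 836) (nat_lit 8174503611) (nat_lit 307) (nat_lit 5) (nat_lit 317) (nat_lit 5) (nat_lit 318) (nat_lit 5) (nat_lit 471) (nat_lit 430) (nat_lit 239)))) (XT.nd (nat_lit 78) (nat_lit 760) (nat_lit 0) (XT.lf (nat_lit 0) (nat_lit 385586001) (nat_lit 684) (nat_lit 10968072091) (nat_lit 760) (nat_lit 6000060611) (nat_lit 298) (nat_lit 5) (nat_lit 307) (nat_lit 5) (nat_lit 308) (nat_lit 5) (nat_lit 472) (nat_lit 430) (nat_lit 238)) (XT.nd (nat_lit 78) (nat_lit 760) (nat_lit 0) (XT.lf (nat_lit 0) (nat_lit 9872953937) (nat_lit 684) (nat_lit 3951638732) (nat_lit 760) (nat_lit 3724595083) (nat_lit 298) (nat_lit 5) (nat_lit 307) (nat_lit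 5) (nat_lit 308) (nat_lit 5) (nat_lit 473) (nat_lit 430) (nat_lit 237)) (XT.lf (nat_lit 0) (nat_lit 1796836793) (nat_lit 760) (nat_lit 14573822024) (nat_lit 836) (nat_lit 1377395163) (nat_lit 288) (nat_lit 5) (nat_lit 298) (nat_lit 5) (nat_lit 299) (nat_lit 5) (nat_lit 474) (nat_lit 430) (nat_lit 236)))))) (XT.nd (nat_lit 390) (nat_lit 2584) (nat_lit 0) (XT.nd (nat_lit 156) (nat_lit 684) (nat_lit 0) (XT.nd (nat_lit 78) (nat_lit 684) (nat_lit 0) (XT.lf (nat_lit 0) (nat_lit 1074711767) (nat_lit 836) (nat_lit 6427022275) (nat_lit 76) (nat_lit 10447607482) (nat_lit 287) (nat_lit 5) (nat_lit 298) (nat_lit 5) (nat_lit 288) (nat_lit 5) (nat_lit 475) (nat_lit 430) (nat_lit 235)) (XT.lf (nat_lit 0) (nat_lit 3314689004) (nat_lit 684) (nat_lit 257674122) (nat_lit 760) (nat_lit 14581812624) (nat_lit 278) (nat_lit 5) (nat_lit 287) (nat_lit 5) (nat_lit 288) (nat_lit 5) (nat_lit 476) (nat_lit 430) (nat_lit 234))) (XT.nd (nat_lit 78)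 (nat_lit 684) (nat_lit 0) (XT.lf (nat_lit 0) (nat_lit 6203167100) (nat_lit 760) (nat_lit 5077873623) (nat_lit 76) (nat_lit 7080403847) (nat_lit 278) (nat_lit 5) (nat_lit 288) (nat_lit 5) (nat_lit 279) (nat_lit 5) (nat_lit 477) (nat_lit 430) (nat_lit 233)) (XT.nd (nat_lit 78) (nat_lit 0) (nat_lit 0) (XT.lf (nat_lit 0) (nat_lit 4934732782) (nat_lit 684) (nat_lit 3979212486) (nat_lit 760) (nat_lit 9658368200) (nat_lit 269) (nat_lit 5) (nat_lit 278) (nat_lit 5) (nat_lit 279) (nat_lit 5) (nat_lit 478) (nat_lit 430) (nat_lit 232)) (XT.lf (nat_lit 0) (nat_lit 11729445427) (nat_lit 760) (nat_lit 3600368388) (nat_lit 76) (nat_lit 3456577624) (nat_lit 269) (nat_lit 5) (nat_lit 279) (nat_lit 5) (nat_lit 270) (nat_lit 5) (nat_lit 479) (nat_lit 430) (nat_lit 231))))) (XT.nd (nat_lit 234) (nat_lit 1216) (nat_lit 0) (XT.nd (nat_lit 78) (nat_lit 760) (nat_lit 0) (XT.lf (nat_lit 0) (nat_lit 6691816876) (nat_lit 608) (nat_lit 7973047422)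 (nat_lit 684) (nat_lit 4338616287) (nat_lit 261) (nat_lit 5) (nat_lit 269) (nat_lit 5) (nat_lit 270) (nat_lit 5) (nat_lit 480) (nat_lit 430) (nat_lit 230)) (XT.nd (nat_lit 78) (nat_lit 760) (nat_lit 0) (XT.lf (nat_lit 0) (nat_lit 17231513787) (nat_lit 608) (nat_lit 445521792) (nat_lit 684) (nat_lit 1547516810) (nat_lit 261) (nat_lit 5) (nat_lit 269) (nat_lit 5) (nat_lit 270) (nat_lit 5) (nat_lit 481) (nat_lit 430) (nat_lit 229)) (XT.lf (nat_lit 0) (nat_lit 1379732864) (nat_lit 760) (nat_lit 10866634001) (nat_lit 76) (nat_lit 7201564315) (nat_lit 251) (nat_lit 5) (nat_lit 261) (nat_lit 5) (nat_lit 252) (nat_lit 5) (nat_lit 482) (nat_lit 430) (nat_lit 228)))) (XT.nd (nat_lit 78) (nat_lit 1216) (nat_lit 0) (XT.lf (nat_lit 0) (nat_lit 4355267033) (nat_lit 760) (nat_lit 301807195) (nat_lit 76) (nat_lit 15018291177) (nat_lit 251) (nat_lit 5) (nat_lit 261) (nat_lit 5) (nat_lit 252) (nat_lit 5) (nat_lit 483) (nat_lit 430) (nat_lit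 227)) (XT.nd (nat_lit 78) (nat_lit 608) (nat_lit 0) (XT.lf (nat_lit 0) (nat_lit 7473792850) (nat_lit 684) (nat_lit 9320145906) (nat_lit 76) (nat_lit 3111741560) (nat_lit 243) (nat_lit 5) (nat_lit 252) (nat_lit 5) (nat_lit 244) (nat_lit 5) (nat_lit 484) (nat_lit 430) (nat_lit 226)) (XT.lf (nat_lit 0) (nat_lit 1536378877) (nat_lit 608) (nat_lit 9155372835) (nat_lit 684) (nat_lit 9448110152) (nat_lit 235) (nat_lit 5) (nat_lit 243) (nat_lit 5) (nat_lit 244) (nat_lit 5) (nat_lit 485) (nat_lit 430) (nat_lit 225))))))))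
noncomputable def xc208 : XT := (XT.nd (nat_lit 55380) (nat_lit 0) (nat_lit 17404) (XT.nd (nat_lit 780) (nat_lit 1976) (nat_lit 0) (XT.nd (nat_lit 390) (nat_lit 1672) (nat_lit 0) (XT.nd (nat_lit 156) (nat_lit 684) (nat_lit 0) (XT.nd (nat_lit 78) (nat_lit 532) (nat_lit 0) (XT.lf (nat_lit 0) (nat_lit 12729348743) (nat_lit 608) (nat_lit 1301539173) (nat_lit 684) (nat_lit 6346704321) (nat_lit 235) (nat_lit 5) (nat_lit 243) (nat_lit 5) (nat_lit 244) (nat_lit 5) (nat_lit 486) (nat_lit 430) (nat_lit 224)) (XT.lf (nat_lit 0) (nat_lit 3521737045) (nat_lit 532) (nat_lit 13975876017) (nat_lit 608) (nat_lit 3121249560) (nat_lit 228) (nat_lit 5) (nat_lit 235) (nat_lit 5) (nat_lit 236) (nat_lit 5) (nat_lit 487) (nat_lit 430) (nat_lit 223))) (XT.nd (nat_lit 78) (nat_lit 608) (nat_lit 0) (XT.lf (nat_lit 0) (nat_lit 221190604) (nat_lit 608) (nat_lit 5862215644) (nat_lit 76) (nat_lit 14780437945) (nat_lit 227) (nat_lit 5) (nat_lit 235)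 (nat_lit 5) (nat_lit 228) (nat_lit 5) (nat_lit 488) (nat_lit 430) (nat_lit 222)) (XT.nd (nat_lit 78) (nat_lit 0) (nat_lit 0) (XT.lf (nat_lit 0) (nat_lit 3633025398) (nat_lit 684) (nat_lit 15481971478) (nat_lit 76) (nat_lit 1997430544) (nat_lit 219) (nat_lit 5) (nat_lit 228) (nat_lit 5) (nat_lit 220) (nat_lit 5) (nat_lit 489) (nat_lit 430) (nat_lit 221)) (XT.lf (nat_lit 0) (nat_lit 7187552990) (nat_lit 684) (nat_lit 3980236488) (nat_lit 76) (nat_lit 10196705121) (nat_lit 219) (nat_lit 5) (nat_lit 228) (nat_lit 5) (nat_lit 220) (nat_lit 5) (nat_lit 490) (nat_lit 430) (nat_lit 220))))) (XT.nd (nat_lit 156) (nat_lit 1140) (nat_lit 0) (XT.nd (nat_lit 78) (nat_lit 0) (nat_lit 0) (XT.lf (nat_lit 0) (nat_lit 7847654834) (nat_lit 532) (nat_lit 3011144531) (nat_lit 608) (nat_lit 10761892578) (nat_lit 212) (nat_lit 5) (nat_lit 219) (nat_lit 5) (nat_lit 220) (nat_lit 5) (nat_lit 491) (nat_lit 430) (nat_lit 219)) (XT.lf (nat_lit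 0) (nat_lit 14659551075) (nat_lit 608) (nat_lit 1956919909) (nat_lit 76) (nat_lit 5264421996) (nat_lit 212) (nat_lit 5) (nat_lit 220) (nat_lit 5) (nat_lit 213) (nat_lit 5) (nat_lit 492) (nat_lit 430) (nat_lit 218))) (XT.nd (nat_lit 78) (nat_lit 608) (nat_lit 0) (XT.lf (nat_lit 0) (nat_lit 10202668553) (nat_lit 532) (nat_lit 8414663380) (nat_lit 608) (nat_lit 3527347155) (nat_lit 205) (nat_lit 5) (nat_lit 212) (nat_lit 5) (nat_lit 213) (nat_lit 5) (nat_lit 493) (nat_lit 430) (nat_lit 217)) (XT.nd (nat_lit 78) (nat_lit 0) (nat_lit 0) (XT.lf (nat_lit 0) (nat_lit 212895576) (nat_lit 532) (nat_lit 33931696) (nat_lit 608) (nat_lit 22166694602) (nat_lit 197) (nat_lit 5) (nat_lit 204) (nat_lit 5) (nat_lit 205) (nat_lit 5) (nat_lit 494) (nat_lit 430) (nat_lit 216)) (XT.lf (nat_lit 0) (nat_lit 4180147382) (nat_lit 608) (nat_lit 9999326953) (nat_lit 76) (nat_lit 8505184252) (nat_lit 197) (nat_lit 5) (nat_lit 205) (nat_lit 5) (nat_lit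 198) (nat_lit 5) (nat_lit 495) (nat_lit 430) (nat_lit 215)))))) (XT.nd (nat_lit 390) (nat_lit 456) (nat_lit 0) (XT.nd (nat_lit 156) (nat_lit 988) (nat_lit 0) (XT.nd (nat_lit 78) (nat_lit 0) (nat_lit 0) (XT.lf (nat_lit 0) (nat_lit 2471528167) (nat_lit 532) (nat_lit 5731877344) (nat_lit 608) (nat_lit 14757588319) (nat_lit 190) (nat_lit 5) (nat_lit 197) (nat_lit 5) (nat_lit 198) (nat_lit 5) (nat_lit 496) (nat_lit 430) (nat_lit 214)) (XT.lf (nat_lit 0) (nat_lit 12388447462) (nat_lit 608) (nat_lit 7940048908) (nat_lit 76) (nat_lit 2912734240) (nat_lit 190) (nat_lit 5) (nat_lit 198) (nat_lit 5) (nat_lit 191) (nat_lit 5) (nat_lit 497) (nat_lit 430) (nat_lit 213))) (XT.nd (nat_lit 78) (nat_lit 532) (nat_lit 0) (XT.lf (nat_lit 0) (nat_lit 4879822492) (nat_lit 456) (nat_lit 11842151759) (nat_lit 532) (nat_lit 6803803376) (nat_lit 184) (nat_lit 5) (nat_lit 190) (nat_lit 5) (nat_lit 191) (nat_lit 5) (nat_lit 498) (nat_lit 430) (nat_lit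 212)) (XT.nd (nat_lit 78) (nat_lit 532) (nat_lit 0) (XT.lf (nat_lit 0) (nat_lit 18057190036) (nat_lit 456) (nat_lit 3133457813) (nat_lit 532) (nat_lit 2624399366) (nat_lit 184) (nat_lit 5) (nat_lit 190) (nat_lit 5) (nat_lit 191) (nat_lit 5) (nat_lit 499) (nat_lit 430) (nat_lit 211)) (XT.lf (nat_lit 0) (nat_lit 1698560697) (nat_lit 532) (nat_lit 16677872538) (nat_lit 76) (nat_lit 5731828128) (nat_lit 177) (nat_lit 5) (nat_lit 184) (nat_lit 5) (nat_lit 178) (nat_lit 5) (nat_lit 500) (nat_lit 430) (nat_lit 210))))) (XT.nd (nat_lit 53976) (nat_lit 0) (nat_lit 20064) (XT.nd (nat_lit 78) (nat_lit 456) (nat_lit 0) (XT.lf (nat_lit 0) (nat_lit 6127813946) (nat_lit 532) (nat_lit 3491013384) (nat_lit 76) (nat_lit 14787067116) (nat_lit 177) (nat_lit 5) (nat_lit 184) (nat_lit 5) (nat_lit 178) (nat_lit 5) (nat_lit 501) (nat_lit 430) (nat_lit 209)) (XT.nd (nat_lit 53820) (nat_lit 0) (nat_lit 20064) (XT.lf (nat_lit 0) (nat_lit 10085475395)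 (nat_lit 456) (nat_lit 621047021) (nat_lit 532) (nat_lit 14001741441) (nat_lit 171) (nat_lit 5) (nat_lit 177) (nat_lit 5) (nat_lit 178) (nat_lit 5) (nat_lit 502) (nat_lit 430) (nat_lit 208)) (XT.lf (nat_lit 0) (nat_lit 339482498) (nat_lit 1748) (nat_lit 2713725364) (nat_lit 1748) (nat_lit 2713725364) (nat_lit 435) (nat_lit 3) (nat_lit 458) (nat_lit 3) (nat_lit 458) (nat_lit 5) (nat_lit 431) (nat_lit 431) (nat_lit 278)))) (XT.nd (nat_lit 78) (nat_lit 0) (nat_lit 76) (XT.lf (nat_lit 76) (nat_lit 95787584) (nat_lit 0) (nat_lit 1099677056) (nat_lit 1748) (nat_lit 10443362613) (nat_lit 436) (nat_lit 5) (nat_lit 435) (nat_lit 3) (nat_lit 458) (nat_lit 5) (nat_lit 432) (nat_lit 431) (nat_lit 277)) (XT.nd (nat_lit 78) (nat_lit 0) (nat_lit 0) (XT.lf (nat_lit 0) (nat_lit 1771617691) (nat_lit 1672) (nat_lit 5975574455) (nat_lit 1748) (nat_lit 3997713471) (nat_lit 436) (nat_lit 5) (nat_lit 458) (nat_lit 5) (nat_lit 459) (nat_lit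 5) (nat_lit 433) (nat_lit 431) (nat_lit 276)) (XT.lf (nat_lit 0) (nat_lit 2353482105) (nat_lit 1672) (nat_lit 311119252) (nat_lit 1748) (nat_lit 9188625148) (nat_lit 436) (nat_lit 5) (nat_lit 458) (nat_lit 5) (nat_lit 459) (nat_lit 5) (nat_lit 434) (nat_lit 431) (nat_lit 275))))))) (XT.nd (nat_lit 858) (nat_lit 2812) (nat_lit 0) (XT.nd (nat_lit 390) (nat_lit 0) (nat_lit 152) (XT.nd (nat_lit 156) (nat_lit 0) (nat_lit 76) (XT.nd (nat_lit 78) (nat_lit 0) (nat_lit 0) (XT.lf (nat_lit 0) (nat_lit 2986700588) (nat_lit 1672) (nat_lit 6447648679) (nat_lit 1748) (nat_lit 2528574840) (nat_lit 437) (nat_lit 5) (nat_lit 459) (nat_lit 5) (nat_lit 460) (nat_lit 5) (nat_lit 435) (nat_lit 431) (nat_lit 274)) (XT.lf (nat_lit 0) (nat_lit 3639738056) (nat_lit 1672) (nat_lit 637205483) (nat_lit 1748) (nat_lit 7797733567) (nat_lit 437) (nat_lit 5) (nat_lit 459) (nat_lit 5) (nat_lit 460) (nat_lit 5) (nat_lit 436) (nat_lit 431) (nat_lit 273)))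 (XT.nd (nat_lit 78) (nat_lit 0) (nat_lit 0) (XT.lf (nat_lit 0) (nat_lit 4334893305) (nat_lit 1672) (nat_lit 6842271185) (nat_lit 1748) (nat_lit 1010923987) (nat_lit 438) (nat_lit 5) (nat_lit 460) (nat_lit 5) (nat_lit 461) (nat_lit 5) (nat_lit 437) (nat_lit 431) (nat_lit 272)) (XT.nd (nat_lit 78) (nat_lit 0) (nat_lit 0) (XT.lf (nat_lit 0) (nat_lit 5064463749) (nat_lit 1672) (nat_lit 882177211) (nat_lit 1748) (nat_lit 6356721237) (nat_lit 438) (nat_lit 5) (nat_lit 460) (nat_lit 5) (nat_lit 461) (nat_lit 5) (nat_lit 438) (nat_lit 431) (nat_lit 271)) (XT.lf (nat_lit 76) (nat_lit 5258953288) (nat_lit 0) (nat_lit 571938161) (nat_lit 1748) (nat_lit 6589608902) (nat_lit 439) (nat_lit 5) (nat_lit 438) (nat_lit 5) (nat_lit 461) (nat_lit 5) (nat_lit 439) (nat_lit 431) (nat_lit 270))))) (XT.nd (nat_lit 234) (nat_lit 0) (nat_lit 76) (XT.nd (nat_lit 78) (nat_lit 0) (nat_lit 0) (XT.lf (nat_lit 0) (nat_lit 6638825429) (nat_lit 1672)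 (nat_lit 1044276613) (nat_lit 1748) (nat_lit 4856359867) (nat_lit 439) (nat_lit 5) (nat_lit 461) (nat_lit 5) (nat_lit 462) (nat_lit 5) (nat_lit 440) (nat_lit 431) (nat_lit 269)) (XT.nd (nat_lit 78) (nat_lit 0) (nat_lit 76) (XT.lf (nat_lit 76) (nat_lit 5253234553) (nat_lit 0) (nat_lit 2236145344) (nat_lit 1748) (nat_lit 5170897675) (nat_lit 440) (nat_lit 5) (nat_lit 439) (nat_lit 5) (nat_lit 462) (nat_lit 5) (nat_lit 441) (nat_lit 431) (nat_lit 268)) (XT.lf (nat_lit 0) (nat_lit 8374324391) (nat_lit 1672) (nat_lit 1121540811) (nat_lit 1748) (nat_lit 3287300800) (nat_lit 440) (nat_lit 5) (nat_lit 462) (nat_lit 5) (nat_lit 463) (nat_lit 5) (nat_lit 442) (nat_lit 431) (nat_lit 267)))) (XT.nd (nat_lit 78) (nat_lit 0) (nat_lit 76) (XT.lf (nat_lit 76) (nat_lit 5337589138) (nat_lit 0) (nat_lit 3977833752) (nat_lit 1748) (nat_lit 3592324161) (nat_lit 441) (nat_lit 5) (nat_lit 440) (nat_lit 5) (nat_lit 463) (nat_lit 5) (nat_lit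 443) (nat_lit 431) (nat_lit 266)) (XT.nd (nat_lit 78) (nat_lit 0) (nat_lit 0) (XT.lf (nat_lit 0) (nat_lit 10282819260) (nat_lit 1672) (nat_lit 1111804173) (nat_lit 1748) (nat_lit 1640050644) (nat_lit 441) (nat_lit 5) (nat_lit 463) (nat_lit 5) (nat_lit 464) (nat_lit 5) (nat_lit 444) (nat_lit 431) (nat_lit 265)) (XT.lf (nat_lit 76) (nat_lit 5514368759) (nat_lit 0) (nat_lit 5806736507) (nat_lit 1748) (nat_lit 1842007342) (nat_lit 442) (nat_lit 5) (nat_lit 441) (nat_lit 5) (nat_lit 464) (nat_lit 5) (nat_lit 445) (nat_lit 431) (nat_lit 264)))))) (XT.nd (nat_lit 390) (nat_lit 1444) (nat_lit 0) (XT.nd (nat_lit 156) (nat_lit 0) (nat_lit 0) (XT.nd (nat_lit 78) (nat_lit 1672) (nat_lit 0) (XT.lf (nat_lit 76) (nat_lit 12280857600) (nat_lit 0) (nat_lit 96316359) (nat_lit 1748) (nat_lit 917009336) (nat_lit 442) (nat_lit 5) (nat_lit 441) (nat_lit 5) (nat_lit 464) (nat_lit 5) (nat_lit 446) (nat_lit 431) (nat_lit 263)) (XT.lf (nat_lit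 0) (nat_lit 91105550) (nat_lit 1748) (nat_lit 7641056869) (nat_lit 1824) (nat_lit 5694413829) (nat_lit 419) (nat_lit 5) (nat_lit 442) (nat_lit 5) (nat_lit 443) (nat_lit 5) (nat_lit 447) (nat_lit 431) (nat_lit 262))) (XT.nd (nat_lit 78) (nat_lit 0) (nat_lit 76) (XT.lf (nat_lit 0) (nat_lit 1104462078) (nat_lit 1748) (nat_lit 841613591) (nat_lit 1824) (nat_lit 11615476510) (nat_lit 419) (nat_lit 5) (nat_lit 442) (nat_lit 5) (nat_lit 443) (nat_lit 5) (nat_lit 448) (nat_lit 431) (nat_lit 261)) (XT.nd (nat_lit 78) (nat_lit 0) (nat_lit 0) (XT.lf (nat_lit 0) (nat_lit 2194156601) (nat_lit 1748) (nat_lit 7557197215) (nat_lit 1824) (nat_lit 3946755837) (nat_lit 420) (nat_lit 5) (nat_lit 443) (nat_lit 5) (nat_lit 444) (nat_lit 5) (nat_lit 449) (nat_lit 431) (nat_lit 260)) (XT.lf (nat_lit 0) (nat_lit 3314444680) (nat_lit 1748) (nat_lit 583188702) (nat_lit 1824) (nat_lit 9939592274) (nat_lit 420) (nat_lit 5) (nat_lit 443) (nat_lit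 5) (nat_lit 444) (nat_lit 5) (nat_lit 450) (nat_lit 431) (nat_lit 259))))) (XT.nd (nat_lit 234) (nat_lit 1596) (nat_lit 0) (XT.nd (nat_lit 78) (nat_lit 0) (nat_lit 0) (XT.lf (nat_lit 0) (nat_lit 4504230281) (nat_lit 1748) (nat_lit 7382561737) (nat_lit 1824) (nat_lit 2091393432) (nat_lit 421) (nat_lit 5) (nat_lit 444) (nat_lit 5) (nat_lit 445) (nat_lit 5) (nat_lit 451) (nat_lit 431) (nat_lit 258)) (XT.nd (nat_lit 78) (nat_lit 0) (nat_lit 76) (XT.lf (nat_lit 0) (nat_lit 5738136099) (nat_lit 1748) (nat_lit 229293218) (nat_lit 1824) (nat_lit 8154131876) (nat_lit 421) (nat_lit 5) (nat_lit 444) (nat_lit 5) (nat_lit 445) (nat_lit 5) (nat_lit 452) (nat_lit 431) (nat_lit 257)) (XT.lf (nat_lit 0) (nat_lit 7034699726) (nat_lit 1748) (nat_lit 7114319540) (nat_lit 1824) (nat_lit 118028769) (nat_lit 422) (nat_lit 5) (nat_lit 445) (nat_lit 5) (nat_lit 446) (nat_lit 5) (nat_lit 453) (nat_lit 431) (nat_lit 256)))) (XT.nd (nat_lit 78)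 (nat_lit 1672) (nat_lit 0) (XT.lf (nat_lit 76) (nat_lit 226031145) (nat_lit 0) (nat_lit 8164602752) (nat_lit 1824) (nat_lit 6024145048) (nat_lit 423) (nat_lit 5) (nat_lit 422) (nat_lit 5) (nat_lit 446) (nat_lit 5) (nat_lit 454) (nat_lit 431) (nat_lit 255)) (XT.nd (nat_lit 78) (nat_lit 1672) (nat_lit 0) (XT.lf (nat_lit 76) (nat_lit 7802185948) (nat_lit 0) (nat_lit 2010275156) (nat_lit 1824) (nat_lit 4752230937) (nat_lit 423) (nat_lit 5) (nat_lit 422) (nat_lit 5) (nat_lit 446) (nat_lit 5) (nat_lit 455) (nat_lit 431) (nat_lit 254)) (XT.lf (nat_lit 0) (nat_lit 787400216) (nat_lit 1748) (nat_lit 10499361117) (nat_lit 1824) (nat_lit 3430364331) (nat_lit 400) (nat_lit 5) (nat_lit 423) (nat_lit 5) (nat_lit 424) (nat_lit 5) (nat_lit 456) (nat_lit 431) (nat_lit 253))))))))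
noncomputable def xc209 : XT := (XT.nd (nat_lit 1716) (nat_lit 7144) (nat_lit 0) (XT.nd (nat_lit 858) (nat_lit 4636) (nat_lit 0) (XT.nd (nat_lit 390) (nat_lit 2508) (nat_lit 0) (XT.nd (nat_lit 156) (nat_lit 988) (nat_lit 0) (XT.nd (nat_lit 78) (nat_lit 1140) (nat_lit 0) (XT.lf (nat_lit 0) (nat_lit 8559049394) (nat_lit 1748) (nat_lit 4281446617) (nat_lit 1824) (nat_lit 2031115917) (nat_lit 400) (nat_lit 5) (nat_lit 423) (nat_lit 5) (nat_lit 424) (nat_lit 5) (nat_lit 457) (nat_lit 431) (nat_lit 252)) (XT.lf (nat_lit 0) (nat_lit 1455180863) (nat_lit 1140) (nat_lit 12984473280) (nat_lit 1216) (nat_lit 589249678) (nat_lit 385) (nat_lit 5) (nat_lit 400) (nat_lit 5) (nat_lit 401) (nat_lit 5) (nat_lit 458) (nat_lit 431) (nat_lit 251))) (XT.nd (nat_lit 78) (nat_lit 912) (nat_lit 0) (XT.lf (nat_lit 0) (nat_lit 932469014) (nat_lit 1216) (nat_lit 5766537244) (nat_lit 76) (nat_lit 8488972090) (nat_lit 384) (nat_lit 5) (nat_lit 400)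 (nat_lit 5) (nat_lit 385) (nat_lit 5) (nat_lit 459) (nat_lit 431) (nat_lit 250)) (XT.nd (nat_lit 78) (nat_lit 0) (nat_lit 0) (XT.lf (nat_lit 0) (nat_lit 2214548769) (nat_lit 912) (nat_lit 268314495) (nat_lit 988) (nat_lit 12867173290) (nat_lit 372) (nat_lit 5) (nat_lit 384) (nat_lit 5) (nat_lit 385) (nat_lit 5) (nat_lit 460) (nat_lit 431) (nat_lit 249)) (XT.lf (nat_lit 0) (nat_lit 4135928431) (nat_lit 988) (nat_lit 5129747517) (nat_lit 76) (nat_lit 6248229376) (nat_lit 372) (nat_lit 5) (nat_lit 385) (nat_lit 5) (nat_lit 373) (nat_lit 5) (nat_lit 461) (nat_lit 431) (nat_lit 248))))) (XT.nd (nat_lit 234) (nat_lit 836) (nat_lit 0) (XT.nd (nat_lit 78) (nat_lit 836) (nat_lit 0) (XT.lf (nat_lit 0) (nat_lit 3067197287) (nat_lit 836) (nat_lit 2768573296) (nat_lit 912) (nat_lit 9845009181) (nat_lit 361) (nat_lit 5) (nat_lit 372) (nat_lit 5) (nat_lit 373) (nat_lit 5) (nat_lit 462) (nat_lit 431) (nat_lit 247)) (XT.nd (nat_lit 78)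 (nat_lit 836) (nat_lit 0) (XT.lf (nat_lit 0) (nat_lit 7621449608) (nat_lit 912) (nat_lit 4385442149) (nat_lit 76) (nat_lit 3843065691) (nat_lit 361) (nat_lit 5) (nat_lit 373) (nat_lit 5) (nat_lit 362) (nat_lit 5) (nat_lit 463) (nat_lit 431) (nat_lit 246)) (XT.lf (nat_lit 0) (nat_lit 4034510706) (nat_lit 836) (nat_lit 5445152323) (nat_lit 912) (nat_lit 6542121746) (nat_lit 350) (nat_lit 5) (nat_lit 361) (nat_lit 5) (nat_lit 362) (nat_lit 5) (nat_lit 464) (nat_lit 431) (nat_lit 245)))) (XT.nd (nat_lit 78) (nat_lit 836) (nat_lit 0) (XT.lf (nat_lit 0) (nat_lit 11405163089) (nat_lit 912) (nat_lit 3529885351) (nat_lit 76) (nat_lit 1261400218) (nat_lit 350) (nat_lit 5) (nat_lit 362) (nat_lit 5) (nat_lit 351) (nat_lit 5) (nat_lit 465) (nat_lit 431) (nat_lit 244)) (XT.nd (nat_lit 78) (nat_lit 0) (nat_lit 0) (XT.lf (nat_lit 0) (nat_lit 5120454903) (nat_lit 836) (nat_lit 8310570487) (nat_lit 912) (nat_lit 2942345793) (nat_lit 339)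 (nat_lit 5) (nat_lit 350) (nat_lit 5) (nat_lit 351) (nat_lit 5) (nat_lit 466) (nat_lit 431) (nat_lit 243)) (XT.lf (nat_lit 0) (nat_lit 13984407147) (nat_lit 836) (nat_lit 1529330544) (nat_lit 912) (nat_lit 1039770175) (nat_lit 339) (nat_lit 5) (nat_lit 350) (nat_lit 5) (nat_lit 351) (nat_lit 5) (nat_lit 467) (nat_lit 431) (nat_lit 242)))))) (XT.nd (nat_lit 390) (nat_lit 2204) (nat_lit 0) (XT.nd (nat_lit 156) (nat_lit 1520) (nat_lit 0) (XT.nd (nat_lit 78) (nat_lit 0) (nat_lit 0) (XT.lf (nat_lit 0) (nat_lit 958358719) (nat_lit 912) (nat_lit 10413005954) (nat_lit 76) (nat_lit 5364381567) (nat_lit 327) (nat_lit 5) (nat_lit 339) (nat_lit 5) (nat_lit 328) (nat_lit 5) (nat_lit 468) (nat_lit 431) (nat_lit 241)) (XT.lf (nat_lit 0) (nat_lit 3002858427) (nat_lit 912) (nat_lit 1518468013) (nat_lit 76) (nat_lit 12399761094) (nat_lit 327) (nat_lit 5) (nat_lit 339) (nat_lit 5) (nat_lit 328) (nat_lit 5) (nat_lit 469) (nat_lit 431) (nat_lit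 240))) (XT.nd (nat_lit 78) (nat_lit 760) (nat_lit 0) (XT.lf (nat_lit 0) (nat_lit 5147211177) (nat_lit 836) (nat_lit 9478523748) (nat_lit 76) (nat_lit 2483223650) (nat_lit 317) (nat_lit 5) (nat_lit 328) (nat_lit 5) (nat_lit 318) (nat_lit 5) (nat_lit 470) (nat_lit 431) (nat_lit 239)) (XT.nd (nat_lit 78) (nat_lit 760) (nat_lit 0) (XT.lf (nat_lit 0) (nat_lit 7367717191) (nat_lit 836) (nat_lit 354742092) (nat_lit 76) (nat_lit 9577464568) (nat_lit 317) (nat_lit 5) (nat_lit 328) (nat_lit 5) (nat_lit 318) (nat_lit 5) (nat_lit 471) (nat_lit 431) (nat_lit 238)) (XT.lf (nat_lit 0) (nat_lit 9063276038) (nat_lit 760) (nat_lit 621404487) (nat_lit 836) (nat_lit 7808989061) (nat_lit 307) (nat_lit 5) (nat_lit 317) (nat_lit 5) (nat_lit 318) (nat_lit 5) (nat_lit 472) (nat_lit 431) (nat_lit 237))))) (XT.nd (nat_lit 234) (nat_lit 760) (nat_lit 0) (XT.nd (nat_lit 78) (nat_lit 760) (nat_lit 0) (XT.lf (nat_lit 0) (nat_lit 945418918) (nat_lit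 684) (nat_lit 11147378641) (nat_lit 760) (nat_lit 5597598444) (nat_lit 298) (nat_lit 5) (nat_lit 307) (nat_lit 5) (nat_lit 308) (nat_lit 5) (nat_lit 473) (nat_lit 431) (nat_lit 236)) (XT.nd (nat_lit 78) (nat_lit 760) (nat_lit 0) (XT.lf (nat_lit 0) (nat_lit 10611708307) (nat_lit 684) (nat_lit 3991402005) (nat_lit 760) (nat_lit 3286867985) (nat_lit 298) (nat_lit 5) (nat_lit 307) (nat_lit 5) (nat_lit 308) (nat_lit 5) (nat_lit 474) (nat_lit 431) (nat_lit 235)) (XT.lf (nat_lit 0) (nat_lit 2380380530) (nat_lit 760) (nat_lit 14813679002) (nat_lit 836) (nat_lit 898886077) (nat_lit 288) (nat_lit 5) (nat_lit 298) (nat_lit 5) (nat_lit 299) (nat_lit 5) (nat_lit 475) (nat_lit 431) (nat_lit 234)))) (XT.nd (nat_lit 78) (nat_lit 684) (nat_lit 0) (XT.lf (nat_lit 0) (nat_lit 1585833415) (nat_lit 836) (nat_lit 6012042334) (nat_lit 76) (nat_lit 10700516170) (nat_lit 287) (nat_lit 5) (nat_lit 298) (nat_lit 5) (nat_lit 288) (nat_lit 5) (nat_lit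 476) (nat_lit 431) (nat_lit 233)) (XT.nd (nat_lit 78) (nat_lit 0) (nat_lit 0) (XT.lf (nat_lit 0) (nat_lit 3920927379) (nat_lit 684) (nat_lit 206415564) (nat_lit 760) (nat_lit 14380104606) (nat_lit 278) (nat_lit 5) (nat_lit 287) (nat_lit 5) (nat_lit 288) (nat_lit 5) (nat_lit 477) (nat_lit 431) (nat_lit 232)) (XT.lf (nat_lit 0) (nat_lit 6801641048) (nat_lit 760) (nat_lit 4640813402) (nat_lit 76) (nat_lit 7276592500) (nat_lit 278) (nat_lit 5) (nat_lit 288) (nat_lit 5) (nat_lit 279) (nat_lit 5) (nat_lit 478) (nat_lit 431) (nat_lit 231))))))) (XT.nd (nat_lit 858) (nat_lit 3268) (nat_lit 0) (XT.nd (nat_lit 390) (nat_lit 1824) (nat_lit 0) (XT.nd (nat_lit 156) (nat_lit 1368) (nat_lit 0) (XT.nd (nat_lit 78) (nat_lit 0) (nat_lit 0) (XT.lf (nat_lit 0) (nat_lit 5568501594) (nat_lit 684) (nat_lit 3992305073) (nat_lit 760) (nat_lit 9373445832) (nat_lit 269) (nat_lit 5) (nat_lit 278) (nat_lit 5) (nat_lit 279) (nat_lit 5) (nat_lit 479)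 (nat_lit 431) (nat_lit 230)) (XT.lf (nat_lit 0) (nat_lit 12423852180) (nat_lit 760) (nat_lit 3138895671) (nat_lit 76) (nat_lit 3590042130) (nat_lit 269) (nat_lit 5) (nat_lit 279) (nat_lit 5) (nat_lit 270) (nat_lit 5) (nat_lit 480) (nat_lit 431) (nat_lit 229))) (XT.nd (nat_lit 78) (nat_lit 760) (nat_lit 0) (XT.lf (nat_lit 0) (nat_lit 7355623561) (nat_lit 608) (nat_lit 8056780751) (nat_lit 684) (nat_lit 3961930708) (nat_lit 261) (nat_lit 5) (nat_lit 269) (nat_lit 5) (nat_lit 270) (nat_lit 5) (nat_lit 481) (nat_lit 431) (nat_lit 228)) (XT.nd (nat_lit 78) (nat_lit 760) (nat_lit 0) (XT.lf (nat_lit 0) (nat_lit 18095722834) (nat_lit 608) (nat_lit 380189463) (nat_lit 684) (nat_lit 1124096651) (nat_lit 261) (nat_lit 5) (nat_lit 269) (nat_lit 5) (nat_lit 270) (nat_lit 5) (nat_lit 482) (nat_lit 431) (nat_lit 227)) (XT.lf (nat_lit 0) (nat_lit 1850851176) (nat_lit 760) (nat_lit 10553293000) (nat_lit 76) (nat_lit 7423752348) (nat_lit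 251) (nat_lit 5) (nat_lit 261) (nat_lit 5) (nat_lit 252) (nat_lit 5) (nat_lit 483) (nat_lit 431) (nat_lit 226))))) (XT.nd (nat_lit 234) (nat_lit 608) (nat_lit 0) (XT.nd (nat_lit 78) (nat_lit 608) (nat_lit 0) (XT.lf (nat_lit 0) (nat_lit 215247991) (nat_lit 608) (nat_lit 4663349027) (nat_lit 684) (nat_lit 15181430803) (nat_lit 243) (nat_lit 5) (nat_lit 251) (nat_lit 5) (nat_lit 252) (nat_lit 5) (nat_lit 484) (nat_lit 431) (nat_lit 225)) (XT.nd (nat_lit 78) (nat_lit 608) (nat_lit 0) (XT.lf (nat_lit 0) (nat_lit 8053491589) (nat_lit 684) (nat_lit 8981558240) (nat_lit 76) (nat_lit 3260021598) (nat_lit 243) (nat_lit 5) (nat_lit 252) (nat_lit 5) (nat_lit 244) (nat_lit 5) (nat_lit 485) (nat_lit 431) (nat_lit 224)) (XT.lf (nat_lit 0) (nat_lit 2088643152) (nat_lit 608) (nat_lit 9242116894) (nat_lit 684) (nat_lit 9203279865) (nat_lit 235) (nat_lit 5) (nat_lit 243) (nat_lit 5) (nat_lit 244) (nat_lit 5) (nat_lit 486) (nat_lit 431)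 (nat_lit 223)))) (XT.nd (nat_lit 78) (nat_lit 608) (nat_lit 0) (XT.lf (nat_lit 0) (nat_lit 13495246207) (nat_lit 608) (nat_lit 1233096038) (nat_lit 684) (nat_lit 6048351652) (nat_lit 235) (nat_lit 5) (nat_lit 243) (nat_lit 5) (nat_lit 244) (nat_lit 5) (nat_lit 487) (nat_lit 431) (nat_lit 222)) (XT.nd (nat_lit 78) (nat_lit 76) (nat_lit 0) (XT.lf (nat_lit 0) (nat_lit 4107903629) (nat_lit 532) (nat_lit 14152274830) (nat_lit 608) (nat_lit 2762697923) (nat_lit 228) (nat_lit 5) (nat_lit 235) (nat_lit 5) (nat_lit 236) (nat_lit 5) (nat_lit 488) (nat_lit 431) (nat_lit 221)) (XT.lf (nat_lit 0) (nat_lit 632923675) (nat_lit 608) (nat_lit 5468320666) (nat_lit 76) (nat_lit 15171623640) (nat_lit 227) (nat_lit 5) (nat_lit 235) (nat_lit 5) (nat_lit 228) (nat_lit 5) (nat_lit 489) (nat_lit 431) (nat_lit 220)))))) (XT.nd (nat_lit 390) (nat_lit 1596) (nat_lit 0) (XT.nd (nat_lit 156) (nat_lit 1064) (nat_lit 0) (XT.nd (nat_lit 78) (nat_lit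 0) (nat_lit 0) (XT.lf (nat_lit 0) (nat_lit 4108988280) (nat_lit 684) (nat_lit 15276359917) (nat_lit 76) (nat_lit 2141156910) (nat_lit 219) (nat_lit 5) (nat_lit 228) (nat_lit 5) (nat_lit 220) (nat_lit 5) (nat_lit 490) (nat_lit 431) (nat_lit 219)) (XT.lf (nat_lit 0) (nat_lit 7726698534) (nat_lit 684) (nat_lit 3554693188) (nat_lit 76) (nat_lit 10502382121) (nat_lit 219) (nat_lit 5) (nat_lit 228) (nat_lit 5) (nat_lit 220) (nat_lit 5) (nat_lit 491) (nat_lit 431) (nat_lit 218))) (XT.nd (nat_lit 78) (nat_lit 532) (nat_lit 0) (XT.lf (nat_lit 0) (nat_lit 8506432618) (nat_lit 532) (nat_lit 2960442564) (nat_lit 608) (nat_lit 10578311859) (nat_lit 212) (nat_lit 5) (nat_lit 219) (nat_lit 5) (nat_lit 220) (nat_lit 5) (nat_lit 492) (nat_lit 431) (nat_lit 217)) (XT.nd (nat_lit 78) (nat_lit 532) (nat_lit 0) (XT.lf (nat_lit 0) (nat_lit 15336683300) (nat_lit 608) (nat_lit 1497015925) (nat_lit 76) (nat_lit 5477034023) (nat_lit 212) (nat_lit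 5) (nat_lit 220) (nat_lit 5) (nat_lit 213) (nat_lit 5) (nat_lit 493) (nat_lit 431) (nat_lit 216)) (XT.lf (nat_lit 0) (nat_lit 10902481133) (nat_lit 532) (nat_lit 8466829180) (nat_lit 608) (nat_lit 3210572889) (nat_lit 205) (nat_lit 5) (nat_lit 212) (nat_lit 5) (nat_lit 213) (nat_lit 5) (nat_lit 494) (nat_lit 431) (nat_lit 215))))) (XT.nd (nat_lit 234) (nat_lit 456) (nat_lit 0) (XT.nd (nat_lit 78) (nat_lit 532) (nat_lit 0) (XT.lf (nat_lit 0) (nat_lit 630293512) (nat_lit 608) (nat_lit 22139900094) (nat_lit 76) (nat_lit 83935039) (nat_lit 197) (nat_lit 5) (nat_lit 205) (nat_lit 5) (nat_lit 198) (nat_lit 5) (nat_lit 495) (nat_lit 431) (nat_lit 214)) (XT.nd (nat_lit 78) (nat_lit 532) (nat_lit 0) (XT.lf (nat_lit 0) (nat_lit 4635078180) (nat_lit 608) (nat_lit 9704691908) (nat_lit 76) (nat_lit 8791063867) (nat_lit 197) (nat_lit 5) (nat_lit 205) (nat_lit 5) (nat_lit 198) (nat_lit 5) (nat_lit 496) (nat_lit 431) (nat_lit 213))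 (XT.lf (nat_lit 0) (nat_lit 3012326226) (nat_lit 532) (nat_lit 5722384591) (nat_lit 608) (nat_lit 14678068688) (nat_lit 190) (nat_lit 5) (nat_lit 197) (nat_lit 5) (nat_lit 198) (nat_lit 5) (nat_lit 497) (nat_lit 431) (nat_lit 212)))) (XT.nd (nat_lit 78) (nat_lit 456) (nat_lit 0) (XT.lf (nat_lit 0) (nat_lit 12997043011) (nat_lit 608) (nat_lit 7610618748) (nat_lit 76) (nat_lit 3091089227) (nat_lit 190) (nat_lit 5) (nat_lit 198) (nat_lit 5) (nat_lit 191) (nat_lit 5) (nat_lit 498) (nat_lit 431) (nat_lit 211)) (XT.nd (nat_lit 78) (nat_lit 0) (nat_lit 0) (XT.lf (nat_lit 0) (nat_lit 5462438033) (nat_lit 456) (nat_lit 11950876337) (nat_lit 532) (nat_lit 6575754812) (nat_lit 184) (nat_lit 5) (nat_lit 190) (nat_lit 5) (nat_lit 191) (nat_lit 5) (nat_lit 499) (nat_lit 431) (nat_lit 210)) (XT.lf (nat_lit 0) (nat_lit 18893842750) (nat_lit 456) (nat_lit 3070520639) (nat_lit 532) (nat_lit 2319902421) (nat_lit 184) (nat_lit 5) (nat_lit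 190) (nat_lit 5) (nat_lit 191) (nat_lit 5) (nat_lit 500) (nat_lit 431) (nat_lit 209))))))))
noncomputable def xc210 : XT := (XT.nd (nat_lit 55536) (nat_lit 0) (nat_lit 9880) (XT.nd (nat_lit 54678) (nat_lit 0) (nat_lit 18392) (XT.nd (nat_lit 54210) (nat_lit 0) (nat_lit 19684) (XT.nd (nat_lit 53976) (nat_lit 0) (nat_lit 19608) (XT.nd (nat_lit 78) (nat_lit 0) (nat_lit 0) (XT.lf (nat_lit 0) (nat_lit 2081859852) (nat_lit 532) (nat_lit 16528100414) (nat_lit 76) (nat_lit 5973398741) (nat_lit 177) (nat_lit 5) (nat_lit 184) (nat_lit 5) (nat_lit 178) (nat_lit 5) (nat_lit 501) (nat_lit 431) (nat_lit 208)) (XT.lf (nat_lit 0) (nat_lit 6592848598) (nat_lit 532) (nat_lit 3086981128) (nat_lit 76) (nat_lit 15207253606) (nat_lit 177) (nat_lit 5) (nat_lit 184) (nat_lit 5) (nat_lit 178) (nat_lit 5) (nat_lit 502) (nat_lit 431) (nat_lit 207))) (XT.nd (nat_lit 78) (nat_lit 0) (nat_lit 0) (XT.lf (nat_lit 0) (nat_lit 852054888) (nat_lit 1748)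 (nat_lit 2509959437) (nat_lit 1748) (nat_lit 2509959437) (nat_lit 435) (nat_lit 3) (nat_lit 458) (nat_lit 3) (nat_lit 458) (nat_lit 5) (nat_lit 432) (nat_lit 432) (nat_lit 276)) (XT.nd (nat_lit 78) (nat_lit 0) (nat_lit 76) (XT.lf (nat_lit 76) (nat_lit 610388936) (nat_lit 0) (nat_lit 1604044555) (nat_lit 1748) (nat_lit 9636911325) (nat_lit 436) (nat_lit 5) (nat_lit 435) (nat_lit 3) (nat_lit 458) (nat_lit 5) (nat_lit 433) (nat_lit 432) (nat_lit 275)) (XT.lf (nat_lit 0) (nat_lit 2779528149) (nat_lit 1672) (nat_lit 5569520773) (nat_lit 1748) (nat_lit 3610954469) (nat_lit 436) (nat_lit 5) (nat_lit 458) (nat_lit 5) (nat_lit 459) (nat_lit 5) (nat_lit 434) (nat_lit 432) (nat_lit 274))))) (XT.nd (nat_lit 234) (nat_lit 0) (nat_lit 152) (XT.nd (nat_lit 78) (nat_lit 0) (nat_lit 76) (XT.lf (nat_lit 76) (nat_lit 200548564) (nat_lit 0) (nat_lit 3154715183) (nat_lit 1748) (nat_lit 8715589149) (nat_lit 437) (nat_lit 5) (nat_lit 436)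 (nat_lit 5) (nat_lit 459) (nat_lit 5) (nat_lit 435) (nat_lit 432) (nat_lit 273)) (XT.nd (nat_lit 78) (nat_lit 0) (nat_lit 0) (XT.lf (nat_lit 0) (nat_lit 3981706623) (nat_lit 1672) (nat_lit 6042866642) (nat_lit 1748) (nat_lit 2158566727) (nat_lit 437) (nat_lit 5) (nat_lit 459) (nat_lit 5) (nat_lit 460) (nat_lit 5) (nat_lit 436) (nat_lit 432) (nat_lit 272)) (XT.lf (nat_lit 0) (nat_lit 4629466174) (nat_lit 1672) (nat_lit 126679976) (nat_lit 1748) (nat_lit 7541355287) (nat_lit 437) (nat_lit 5) (nat_lit 459) (nat_lit 5) (nat_lit 460) (nat_lit 5) (nat_lit 437) (nat_lit 432) (nat_lit 271)))) (XT.nd (nat_lit 78) (nat_lit 0) (nat_lit 0) (XT.lf (nat_lit 0) (nat_lit 5321437045) (nat_lit 1672) (nat_lit 6438435446) (nat_lit 1748) (nat_lit 653656775) (nat_lit 438) (nat_lit 5) (nat_lit 460) (nat_lit 5) (nat_lit 461) (nat_lit 5) (nat_lit 438) (nat_lit 432) (nat_lit 270)) (XT.nd (nat_lit 78) (nat_lit 0) (nat_lit 0) (XT.lf (nat_lit 0)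 (nat_lit 6047954861) (nat_lit 1672) (nat_lit 369741184) (nat_lit 1748) (nat_lit 6113771649) (nat_lit 438) (nat_lit 5) (nat_lit 460) (nat_lit 5) (nat_lit 461) (nat_lit 5) (nat_lit 439) (nat_lit 432) (nat_lit 269)) (XT.lf (nat_lit 76) (nat_lit 5890724559) (nat_lit 0) (nat_lit 925107467) (nat_lit 1748) (nat_lit 5835400398) (nat_lit 439) (nat_lit 5) (nat_lit 438) (nat_lit 5) (nat_lit 461) (nat_lit 5) (nat_lit 440) (nat_lit 432) (nat_lit 268)))))) (XT.nd (nat_lit 390) (nat_lit 1520) (nat_lit 0) (XT.nd (nat_lit 156) (nat_lit 0) (nat_lit 76) (XT.nd (nat_lit 78) (nat_lit 0) (nat_lit 0) (XT.lf (nat_lit 0) (nat_lit 7620723513) (nat_lit 1672) (nat_lit 529388732) (nat_lit 1748) (nat_lit 4622851098) (nat_lit 439) (nat_lit 5) (nat_lit 461) (nat_lit 5) (nat_lit 462) (nat_lit 5) (nat_lit 441) (nat_lit 432) (nat_lit 267)) (XT.lf (nat_lit 76) (nat_lit 5890547832) (nat_lit 0) (nat_lit 2584547508) (nat_lit 1748) (nat_lit 4421369844) (nat_lit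 440) (nat_lit 5) (nat_lit 439) (nat_lit 5) (nat_lit 462) (nat_lit 5) (nat_lit 442) (nat_lit 432) (nat_lit 266))) (XT.nd (nat_lit 78) (nat_lit 0) (nat_lit 0) (XT.lf (nat_lit 0) (nat_lit 9359414954) (nat_lit 1672) (nat_lit 603542004) (nat_lit 1748) (nat_lit 3059226769) (nat_lit 440) (nat_lit 5) (nat_lit 462) (nat_lit 5) (nat_lit 463) (nat_lit 5) (nat_lit 443) (nat_lit 432) (nat_lit 265)) (XT.nd (nat_lit 78) (nat_lit 0) (nat_lit 76) (XT.lf (nat_lit 76) (nat_lit 5981215086) (nat_lit 0) (nat_lit 4325574628) (nat_lit 1748) (nat_lit 2842723353) (nat_lit 441) (nat_lit 5) (nat_lit 440) (nat_lit 5) (nat_lit 463) (nat_lit 5) (nat_lit 444) (nat_lit 432) (nat_lit 264)) (XT.lf (nat_lit 0) (nat_lit 11276041465) (nat_lit 1672) (nat_lit 589918373) (nat_lit 1748) (nat_lit 1413374288) (nat_lit 441) (nat_lit 5) (nat_lit 463) (nat_lit 5) (nat_lit 464) (nat_lit 5) (nat_lit 445) (nat_lit 432) (nat_lit 263))))) (XT.nd (nat_lit 234) (nat_lit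 0) (nat_lit 0) (XT.nd (nat_lit 78) (nat_lit 1672) (nat_lit 0) (XT.lf (nat_lit 76) (nat_lit 6165198268) (nat_lit 0) (nat_lit 6157962013) (nat_lit 1748) (nat_lit 1087425336) (nat_lit 442) (nat_lit 5) (nat_lit 441) (nat_lit 5) (nat_lit 464) (nat_lit 5) (nat_lit 446) (nat_lit 432) (nat_lit 262)) (XT.nd (nat_lit 78) (nat_lit 1672) (nat_lit 0) (XT.lf (nat_lit 76) (nat_lit 13056418020) (nat_lit 0) (nat_lit 328723840) (nat_lit 1748) (nat_lit 159445451) (nat_lit 442) (nat_lit 5) (nat_lit 441) (nat_lit 5) (nat_lit 464) (nat_lit 5) (nat_lit 447) (nat_lit 432) (nat_lit 261)) (XT.lf (nat_lit 0) (nat_lit 845715491) (nat_lit 1748) (nat_lit 7240292019) (nat_lit 1824) (nat_lit 5593783875) (nat_lit 419) (nat_lit 5) (nat_lit 442) (nat_lit 5) (nat_lit 443) (nat_lit 5) (nat_lit 448) (nat_lit 432) (nat_lit 260)))) (XT.nd (nat_lit 78) (nat_lit 0) (nat_lit 76) (XT.lf (nat_lit 0) (nat_lit 1864578604) (nat_lit 1748) (nat_lit 315714503) (nat_lit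 1824) (nat_lit 11637474049) (nat_lit 419) (nat_lit 5) (nat_lit 442) (nat_lit 5) (nat_lit 443) (nat_lit 5) (nat_lit 449) (nat_lit 432) (nat_lit 259)) (XT.nd (nat_lit 78) (nat_lit 0) (nat_lit 0) (XT.lf (nat_lit 0) (nat_lit 2963876538) (nat_lit 1748) (nat_lit 7153168808) (nat_lit 1824) (nat_lit 3840259253) (nat_lit 420) (nat_lit 5) (nat_lit 443) (nat_lit 5) (nat_lit 444) (nat_lit 5) (nat_lit 450) (nat_lit 432) (nat_lit 258)) (XT.lf (nat_lit 0) (nat_lit 4092338284) (nat_lit 1748) (nat_lit 50565858) (nat_lit 1824) (nat_lit 9956588333) (nat_lit 420) (nat_lit 5) (nat_lit 443) (nat_lit 5) (nat_lit 444) (nat_lit 5) (nat_lit 451) (nat_lit 432) (nat_lit 257))))))) (XT.nd (nat_lit 858) (nat_lit 4940) (nat_lit 0) (XT.nd (nat_lit 390) (nat_lit 3724) (nat_lit 0) (XT.nd (nat_lit 156) (nat_lit 0) (nat_lit 0) (XT.nd (nat_lit 78) (nat_lit 0) (nat_lit 0) (XT.lf (nat_lit 0) (nat_lit 5294435395) (nat_lit 1748) (nat_lit 6974201367) (nat_lit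 1824) (nat_lit 1974869205) (nat_lit 421) (nat_lit 5) (nat_lit 444) (nat_lit 5) (nat_lit 445) (nat_lit 5) (nat_lit 452) (nat_lit 432) (nat_lit 256)) (XT.lf (nat_lit 76) (nat_lit 315366420) (nat_lit 0) (nat_lit 6225972623) (nat_lit 1824) (nat_lit 7848648507) (nat_lit 422) (nat_lit 5) (nat_lit 421) (nat_lit 5) (nat_lit 445) (nat_lit 5) (nat_lit 453) (nat_lit 432) (nat_lit 255))) (XT.nd (nat_lit 78) (nat_lit 0) (nat_lit 76) (XT.lf (nat_lit 76) (nat_lit 7838114112) (nat_lit 0) (nat_lit 12937475) (nat_lit 1824) (nat_lit 6687592818) (nat_lit 422) (nat_lit 5) (nat_lit 421) (nat_lit 5) (nat_lit 445) (nat_lit 5) (nat_lit 454) (nat_lit 432) (nat_lit 254)) (XT.nd (nat_lit 78) (nat_lit 0) (nat_lit 0) (XT.lf (nat_lit 76) (nat_lit 783052459) (nat_lit 0) (nat_lit 8441308640) (nat_lit 1824) (nat_lit 5465168239) (nat_lit 423) (nat_lit 5) (nat_lit 422) (nat_lit 5) (nat_lit 446) (nat_lit 5) (nat_lit 455) (nat_lit 432) (nat_lit 253)) (XT.lf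 (nat_lit 76) (nat_lit 8499897011) (nat_lit 0) (nat_lit 2161670691) (nat_lit 1824) (nat_lit 4181138585) (nat_lit 423) (nat_lit 5) (nat_lit 422) (nat_lit 5) (nat_lit 446) (nat_lit 5) (nat_lit 456) (nat_lit 432) (nat_lit 252))))) (XT.nd (nat_lit 234) (nat_lit 912) (nat_lit 0) (XT.nd (nat_lit 78) (nat_lit 1216) (nat_lit 0) (XT.lf (nat_lit 0) (nat_lit 1355161363) (nat_lit 1748) (nat_lit 10800267720) (nat_lit 1824) (nat_lit 2842962360) (nat_lit 400) (nat_lit 5) (nat_lit 423) (nat_lit 5) (nat_lit 424) (nat_lit 5) (nat_lit 457) (nat_lit 432) (nat_lit 251)) (XT.nd (nat_lit 78) (nat_lit 1216) (nat_lit 0) (XT.lf (nat_lit 0) (nat_lit 9271419736) (nat_lit 1748) (nat_lit 4456212197) (nat_lit 1824) (nat_lit 1428591905) (nat_lit 400) (nat_lit 5) (nat_lit 423) (nat_lit 5) (nat_lit 424) (nat_lit 5) (nat_lit 458) (nat_lit 432) (nat_lit 250)) (XT.lf (nat_lit 0) (nat_lit 32143648) (nat_lit 1216) (nat_lit 13281839936) (nat_lit 76) (nat_lit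 2002864941) (nat_lit 384) (nat_lit 5) (nat_lit 400) (nat_lit 5) (nat_lit 385) (nat_lit 5) (nat_lit 459) (nat_lit 432) (nat_lit 249)))) (XT.nd (nat_lit 78) (nat_lit 912) (nat_lit 0) (XT.lf (nat_lit 0) (nat_lit 1564153338) (nat_lit 1216) (nat_lit 5333382531) (nat_lit 76) (nat_lit 8581739870) (nat_lit 384) (nat_lit 5) (nat_lit 400) (nat_lit 5) (nat_lit 385) (nat_lit 5) (nat_lit 460) (nat_lit 432) (nat_lit 248)) (XT.nd (nat_lit 78) (nat_lit 0) (nat_lit 0) (XT.lf (nat_lit 0) (nat_lit 2803716745) (nat_lit 912) (nat_lit 333356138) (nat_lit 988) (nat_lit 12507675829) (nat_lit 372) (nat_lit 5) (nat_lit 384) (nat_lit 5) (nat_lit 385) (nat_lit 5) (nat_lit 461) (nat_lit 432) (nat_lit 247)) (XT.lf (nat_lit 0) (nat_lit 4810965530) (nat_lit 988) (nat_lit 4685721854) (nat_lit 76) (nat_lit 6315456022) (nat_lit 372) (nat_lit 5) (nat_lit 385) (nat_lit 5) (nat_lit 373) (nat_lit 5) (nat_lit 462) (nat_lit 432) (nat_lit 246)))))) (XT.nd (nat_lit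 390) (nat_lit 2432) (nat_lit 0) (XT.nd (nat_lit 156) (nat_lit 1672) (nat_lit 0) (XT.nd (nat_lit 78) (nat_lit 0) (nat_lit 0) (XT.lf (nat_lit 0) (nat_lit 3671565658) (nat_lit 836) (nat_lit 2865150453) (nat_lit 912) (nat_lit 9445804789) (nat_lit 361) (nat_lit 5) (nat_lit 372) (nat_lit 5) (nat_lit 373) (nat_lit 5) (nat_lit 463) (nat_lit 432) (nat_lit 245)) (XT.lf (nat_lit 0) (nat_lit 8346390935) (nat_lit 912) (nat_lit 3928870189) (nat_lit 76) (nat_lit 3880059092) (nat_lit 361) (nat_lit 5) (nat_lit 373) (nat_lit 5) (nat_lit 362) (nat_lit 5) (nat_lit 464) (nat_lit 432) (nat_lit 244))) (XT.nd (nat_lit 78) (nat_lit 836) (nat_lit 0) (XT.lf (nat_lit 0) (nat_lit 4655900928) (nat_lit 836) (nat_lit 5578152548) (nat_lit 912) (nat_lit 6096688567) (nat_lit 350) (nat_lit 5) (nat_lit 361) (nat_lit 5) (nat_lit 362) (nat_lit 5) (nat_lit 465) (nat_lit 432) (nat_lit 243)) (XT.nd (nat_lit 78) (nat_lit 836) (nat_lit 0) (XT.lf (nat_lit 0) (nat_lit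 12186835695) (nat_lit 912) (nat_lit 3058978264) (nat_lit 76) (nat_lit 1263313379) (nat_lit 350) (nat_lit 5) (nat_lit 362) (nat_lit 5) (nat_lit 351) (nat_lit 5) (nat_lit 466) (nat_lit 432) (nat_lit 242)) (XT.lf (nat_lit 0) (nat_lit 5760806264) (nat_lit 836) (nat_lit 8485047356) (nat_lit 912) (nat_lit 2443885435) (nat_lit 339) (nat_lit 5) (nat_lit 350) (nat_lit 5) (nat_lit 351) (nat_lit 5) (nat_lit 467) (nat_lit 432) (nat_lit 241))))) (XT.nd (nat_lit 234) (nat_lit 1520) (nat_lit 0) (XT.nd (nat_lit 78) (nat_lit 912) (nat_lit 0) (XT.lf (nat_lit 0) (nat_lit 14791489665) (nat_lit 836) (nat_lit 1568020546) (nat_lit 912) (nat_lit 514185898) (nat_lit 339) (nat_lit 5) (nat_lit 350) (nat_lit 5) (nat_lit 351) (nat_lit 5) (nat_lit 468) (nat_lit 432) (nat_lit 240)) (XT.nd (nat_lit 78) (nat_lit 0) (nat_lit 0) (XT.lf (nat_lit 0) (nat_lit 1509610152) (nat_lit 912) (nat_lit 10079242407) (nat_lit 76) (nat_lit 5470801639) (nat_lit 327)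 (nat_lit 5) (nat_lit 339) (nat_lit 5) (nat_lit 328) (nat_lit 5) (nat_lit 469) (nat_lit 432) (nat_lit 239)) (XT.lf (nat_lit 0) (nat_lit 3584566829) (nat_lit 912) (nat_lit 1017441623) (nat_lit 76) (nat_lit 12646905768) (nat_lit 327) (nat_lit 5) (nat_lit 339) (nat_lit 5) (nat_lit 328) (nat_lit 5) (nat_lit 470) (nat_lit 432) (nat_lit 238)))) (XT.nd (nat_lit 78) (nat_lit 760) (nat_lit 0) (XT.lf (nat_lit 0) (nat_lit 5765090380) (nat_lit 836) (nat_lit 9129823355) (nat_lit 76) (nat_lit 2545766449) (nat_lit 317) (nat_lit 5) (nat_lit 328) (nat_lit 5) (nat_lit 318) (nat_lit 5) (nat_lit 471) (nat_lit 432) (nat_lit 237)) (XT.nd (nat_lit 78) (nat_lit 0) (nat_lit 0) (XT.lf (nat_lit 0) (nat_lit 168084056) (nat_lit 760) (nat_lit 7852917007) (nat_lit 836) (nat_lit 9614646927) (nat_lit 307) (nat_lit 5) (nat_lit 317) (nat_lit 5) (nat_lit 318) (nat_lit 5) (nat_lit 472) (nat_lit 432) (nat_lit 236)) (XT.lf (nat_lit 0) (nat_lit 9768786277)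 (nat_lit 760) (nat_lit 607931030) (nat_lit 836) (nat_lit 7456706113) (nat_lit 307) (nat_lit 5) (nat_lit 317) (nat_lit 5) (nat_lit 318) (nat_lit 5) (nat_lit 473) (nat_lit 432) (nat_lit 235))))))))
noncomputable def xc211 : XT := (XT.nd (nat_lit 1716) (nat_lit 2584) (nat_lit 0) (XT.nd (nat_lit 858) (nat_lit 3496) (nat_lit 0) (XT.nd (nat_lit 390) (nat_lit 2052) (nat_lit 0) (XT.nd (nat_lit 156) (nat_lit 1520) (nat_lit 0) (XT.nd (nat_lit 78) (nat_lit 0) (nat_lit 0) (XT.lf (nat_lit 0) (nat_lit 1495008954) (nat_lit 684) (nat_lit 11331826702) (nat_lit 760) (nat_lit 5207374924) (nat_lit 298) (nat_lit 5) (nat_lit 307) (nat_lit 5) (nat_lit 308) (nat_lit 5) (nat_lit 474) (nat_lit 432) (nat_lit 234)) (XT.lf (nat_lit 0) (nat_lit 11344218608) (nat_lit 684) (nat_lit 4033485425) (nat_lit 760) (nat_lit 2860276434) (nat_lit 298) (nat_lit 5) (nat_lit 307) (nat_lit 5) (nat_lit 308) (nat_lit 5) (nat_lit 475) (nat_lit 432) (nat_lit 233)))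 (XT.nd (nat_lit 78) (nat_lit 760) (nat_lit 0) (XT.lf (nat_lit 0) (nat_lit 2954330894) (nat_lit 760) (nat_lit 15060337566) (nat_lit 836) (nat_lit 430457619) (nat_lit 288) (nat_lit 5) (nat_lit 298) (nat_lit 5) (nat_lit 299) (nat_lit 5) (nat_lit 476) (nat_lit 432) (nat_lit 232)) (XT.nd (nat_lit 78) (nat_lit 684) (nat_lit 0) (XT.lf (nat_lit 0) (nat_lit 2088164666) (nat_lit 836) (nat_lit 5609868353) (nat_lit 76) (nat_lit 10956776146) (nat_lit 287) (nat_lit 5) (nat_lit 298) (nat_lit 5) (nat_lit 288) (nat_lit 5) (nat_lit 477) (nat_lit 432) (nat_lit 231)) (XT.lf (nat_lit 0) (nat_lit 4518323815) (nat_lit 684) (nat_lit 156322382) (nat_lit 760) (nat_lit 14193519587) (nat_lit 278) (nat_lit 5) (nat_lit 287) (nat_lit 5) (nat_lit 288) (nat_lit 5) (nat_lit 478) (nat_lit 432) (nat_lit 230))))) (XT.nd (nat_lit 234) (nat_lit 1368) (nat_lit 0) (XT.nd (nat_lit 78) (nat_lit 684) (nat_lit 0) (XT.lf (nat_lit 0) (nat_lit 7393662533) (nat_lit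 760) (nat_lit 4215927158) (nat_lit 76) (nat_lit 7474585495) (nat_lit 278) (nat_lit 5) (nat_lit 288) (nat_lit 5) (nat_lit 279) (nat_lit 5) (nat_lit 479) (nat_lit 432) (nat_lit 229)) (XT.nd (nat_lit 78) (nat_lit 0) (nat_lit 0) (XT.lf (nat_lit 0) (nat_lit 6194168200) (nat_lit 684) (nat_lit 4008241464) (nat_lit 760) (nat_lit 9101389824) (nat_lit 269) (nat_lit 5) (nat_lit 278) (nat_lit 5) (nat_lit 279) (nat_lit 5) (nat_lit 480) (nat_lit 432) (nat_lit 228)) (XT.lf (nat_lit 0) (nat_lit 13114291781) (nat_lit 760) (nat_lit 2688909182) (nat_lit 76) (nat_lit 3723677799) (nat_lit 269) (nat_lit 5) (nat_lit 279) (nat_lit 5) (nat_lit 270) (nat_lit 5) (nat_lit 481) (nat_lit 432) (nat_lit 227)))) (XT.nd (nat_lit 78) (nat_lit 760) (nat_lit 0) (XT.lf (nat_lit 0) (nat_lit 8012126985) (nat_lit 608) (nat_lit 8145129342) (nat_lit 684) (nat_lit 3595708052) (nat_lit 261) (nat_lit 5) (nat_lit 269) (nat_lit 5) (nat_lit 270) (nat_lit 5) (nat_lit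 482) (nat_lit 432) (nat_lit 226)) (XT.nd (nat_lit 78) (nat_lit 760) (nat_lit 0) (XT.lf (nat_lit 0) (nat_lit 18957040186) (nat_lit 608) (nat_lit 316433425) (nat_lit 684) (nat_lit 709851849) (nat_lit 261) (nat_lit 5) (nat_lit 269) (nat_lit 5) (nat_lit 270) (nat_lit 5) (nat_lit 483) (nat_lit 432) (nat_lit 225)) (XT.lf (nat_lit 0) (nat_lit 2314169290) (nat_lit 760) (nat_lit 10254291885) (nat_lit 76) (nat_lit 7647349221) (nat_lit 251) (nat_lit 5) (nat_lit 261) (nat_lit 5) (nat_lit 252) (nat_lit 5) (nat_lit 484) (nat_lit 432) (nat_lit 224)))))) (XT.nd (nat_lit 390) (nat_lit 1748) (nat_lit 0) (XT.nd (nat_lit 156) (nat_lit 1140) (nat_lit 0) (XT.nd (nat_lit 78) (nat_lit 0) (nat_lit 0) (XT.lf (nat_lit 0) (nat_lit 726264223) (nat_lit 608) (nat_lit 4671136888) (nat_lit 684) (nat_lit 15055286901) (nat_lit 243) (nat_lit 5) (nat_lit 251) (nat_lit 5) (nat_lit 252) (nat_lit 5) (nat_lit 485) (nat_lit 432) (nat_lit 223)) (XT.lf (nat_lit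 0) (nat_lit 8628078223) (nat_lit 684) (nat_lit 8656584846) (nat_lit 76) (nat_lit 3407925997) (nat_lit 243) (nat_lit 5) (nat_lit 252) (nat_lit 5) (nat_lit 244) (nat_lit 5) (nat_lit 486) (nat_lit 432) (nat_lit 222))) (XT.nd (nat_lit 78) (nat_lit 532) (nat_lit 0) (XT.lf (nat_lit 0) (nat_lit 2631700808) (nat_lit 608) (nat_lit 9334337743) (nat_lit 684) (nat_lit 8970397663) (nat_lit 235) (nat_lit 5) (nat_lit 243) (nat_lit 5) (nat_lit 244) (nat_lit 5) (nat_lit 487) (nat_lit 432) (nat_lit 221)) (XT.nd (nat_lit 78) (nat_lit 532) (nat_lit 0) (XT.lf (nat_lit 0) (nat_lit 14256606810) (nat_lit 608) (nat_lit 1166952577) (nat_lit 684) (nat_lit 5760546333) (nat_lit 235) (nat_lit 5) (nat_lit 243) (nat_lit 5) (nat_lit 244) (nat_lit 5) (nat_lit 488) (nat_lit 432) (nat_lit 220)) (XT.lf (nat_lit 0) (nat_lit 4685767050) (nat_lit 532) (nat_lit 14336205844) (nat_lit 608) (nat_lit 2413322288) (nat_lit 228) (nat_lit 5) (nat_lit 235) (nat_lit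 5) (nat_lit 236) (nat_lit 5) (nat_lit 489) (nat_lit 432) (nat_lit 219))))) (XT.nd (nat_lit 234) (nat_lit 1064) (nat_lit 0) (XT.nd (nat_lit 78) (nat_lit 608) (nat_lit 0) (XT.lf (nat_lit 0) (nat_lit 1037075093) (nat_lit 608) (nat_lit 5086395950) (nat_lit 76) (nat_lit 15566921680) (nat_lit 227) (nat_lit 5) (nat_lit 235) (nat_lit 5) (nat_lit 228) (nat_lit 5) (nat_lit 490) (nat_lit 432) (nat_lit 218)) (XT.nd (nat_lit 78) (nat_lit 0) (nat_lit 0) (XT.lf (nat_lit 0) (nat_lit 4578809697) (nat_lit 684) (nat_lit 15086643949) (nat_lit 76) (nat_lit 2283727986) (nat_lit 219) (nat_lit 5) (nat_lit 228) (nat_lit 5) (nat_lit 220) (nat_lit 5) (nat_lit 491) (nat_lit 432) (nat_lit 217)) (XT.lf (nat_lit 0) (nat_lit 8261273340) (nat_lit 684) (nat_lit 3140254535) (nat_lit 76) (nat_lit 10810221860) (nat_lit 219) (nat_lit 5) (nat_lit 228) (nat_lit 5) (nat_lit 220) (nat_lit 5) (nat_lit 492) (nat_lit 432) (nat_lit 216)))) (XT.nd (nat_lit 78) (nat_lit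 532) (nat_lit 0) (XT.lf (nat_lit 0) (nat_lit 9158899494) (nat_lit 532) (nat_lit 2913033905) (nat_lit 608) (nat_lit 10406546137) (nat_lit 212) (nat_lit 5) (nat_lit 219) (nat_lit 5) (nat_lit 220) (nat_lit 5) (nat_lit 493) (nat_lit 432) (nat_lit 215)) (XT.nd (nat_lit 78) (nat_lit 532) (nat_lit 0) (XT.lf (nat_lit 0) (nat_lit 16012449265) (nat_lit 608) (nat_lit 1047292284) (nat_lit 76) (nat_lit 5689730784) (nat_lit 212) (nat_lit 5) (nat_lit 220) (nat_lit 5) (nat_lit 213) (nat_lit 5) (nat_lit 494) (nat_lit 432) (nat_lit 214)) (XT.lf (nat_lit 0) (nat_lit 11597039031) (nat_lit 532) (nat_lit 8524547668) (nat_lit 608) (nat_lit 2902503292) (nat_lit 205) (nat_lit 5) (nat_lit 212) (nat_lit 5) (nat_lit 213) (nat_lit 5) (nat_lit 495) (nat_lit 432) (nat_lit 213))))))) (XT.nd (nat_lit 54678) (nat_lit 0) (nat_lit 20140) (XT.nd (nat_lit 390) (nat_lit 988) (nat_lit 0) (XT.nd (nat_lit 156) (nat_lit 988) (nat_lit 0) (XT.nd (nat_lit 78) (nat_lit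 0) (nat_lit 0) (XT.lf (nat_lit 0) (nat_lit 1006946295) (nat_lit 608) (nat_lit 22097774974) (nat_lit 76) (nat_lit 199119553) (nat_lit 197) (nat_lit 5) (nat_lit 205) (nat_lit 5) (nat_lit 198) (nat_lit 5) (nat_lit 496) (nat_lit 432) (nat_lit 212)) (XT.lf (nat_lit 0) (nat_lit 5084688481) (nat_lit 608) (nat_lit 9423370920) (nat_lit 76) (nat_lit 9078165354) (nat_lit 197) (nat_lit 5) (nat_lit 205) (nat_lit 5) (nat_lit 198) (nat_lit 5) (nat_lit 497) (nat_lit 432) (nat_lit 211))) (XT.nd (nat_lit 78) (nat_lit 456) (nat_lit 0) (XT.lf (nat_lit 0) (nat_lit 3544859847) (nat_lit 532) (nat_lit 5717522115) (nat_lit 608) (nat_lit 14611507611) (nat_lit 190) (nat_lit 5) (nat_lit 197) (nat_lit 5) (nat_lit 198) (nat_lit 5) (nat_lit 498) (nat_lit 432) (nat_lit 210)) (XT.nd (nat_lit 78) (nat_lit 456) (nat_lit 0) (XT.lf (nat_lit 0) (nat_lit 13603799135) (nat_lit 608) (nat_lit 7293558595) (nat_lit 76) (nat_lit 3268347673) (nat_lit 190) (nat_lit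 5) (nat_lit 198) (nat_lit 5) (nat_lit 191) (nat_lit 5) (nat_lit 499) (nat_lit 432) (nat_lit 209)) (XT.lf (nat_lit 0) (nat_lit 6037872002) (nat_lit 456) (nat_lit 12066750403) (nat_lit 532) (nat_lit 6357284680) (nat_lit 184) (nat_lit 5) (nat_lit 190) (nat_lit 5) (nat_lit 191) (nat_lit 5) (nat_lit 500) (nat_lit 432) (nat_lit 208))))) (XT.nd (nat_lit 54054) (nat_lit 0) (nat_lit 20064) (XT.nd (nat_lit 78) (nat_lit 988) (nat_lit 0) (XT.lf (nat_lit 0) (nat_lit 19728763927) (nat_lit 456) (nat_lit 3011202169) (nat_lit 532) (nat_lit 2023177696) (nat_lit 184) (nat_lit 5) (nat_lit 190) (nat_lit 5) (nat_lit 191) (nat_lit 5) (nat_lit 501) (nat_lit 432) (nat_lit 207)) (XT.nd (nat_lit 156) (nat_lit 456) (nat_lit 0) (XT.lf (nat_lit 0) (nat_lit 2459260159) (nat_lit 532) (nat_lit 16394101124) (nat_lit 76) (nat_lit 6214871763) (nat_lit 177) (nat_lit 5) (nat_lit 184) (nat_lit 5) (nat_lit 178) (nat_lit 5) (nat_lit 502) (nat_lit 432) (nat_lit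 206)) (XT.lf (nat_lit 0) (nat_lit 11425534234) (nat_lit 456) (nat_lit 384790176) (nat_lit 532) (nat_lit 13882573848) (nat_lit 171) (nat_lit 5) (nat_lit 177) (nat_lit 5) (nat_lit 178) (nat_lit 5) (nat_lit 504) (nat_lit 432) (nat_lit 204)))) (XT.nd (nat_lit 78) (nat_lit 0) (nat_lit 0) (XT.lf (nat_lit 0) (nat_lit 1355238566) (nat_lit 1748) (nat_lit 2312138216) (nat_lit 1748) (nat_lit 2312138216) (nat_lit 435) (nat_lit 3) (nat_lit 458) (nat_lit 3) (nat_lit 458) (nat_lit 5) (nat_lit 433) (nat_lit 433) (nat_lit 274)) (XT.nd (nat_lit 78) (nat_lit 0) (nat_lit 76) (XT.lf (nat_lit 76) (nat_lit 1115374108) (nat_lit 0) (nat_lit 2099768236) (nat_lit 1748) (nat_lit 8853757066) (nat_lit 436) (nat_lit 5) (nat_lit 435) (nat_lit 3) (nat_lit 458) (nat_lit 5) (nat_lit 434) (nat_lit 433) (nat_lit 273)) (XT.lf (nat_lit 0) (nat_lit 3769834306) (nat_lit 1672) (nat_lit 5175754354) (nat_lit 1748) (nat_lit 3234583332) (nat_lit 436) (nat_lit 5)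 (nat_lit 458) (nat_lit 5) (nat_lit 459) (nat_lit 5) (nat_lit 435) (nat_lit 433) (nat_lit 272)))))) (XT.nd (nat_lit 390) (nat_lit 0) (nat_lit 152) (XT.nd (nat_lit 156) (nat_lit 0) (nat_lit 76) (XT.nd (nat_lit 78) (nat_lit 0) (nat_lit 76) (XT.lf (nat_lit 76) (nat_lit 706392970) (nat_lit 0) (nat_lit 3635622125) (nat_lit 1748) (nat_lit 7951531394) (nat_lit 437) (nat_lit 5) (nat_lit 436) (nat_lit 5) (nat_lit 459) (nat_lit 5) (nat_lit 436) (nat_lit 433) (nat_lit 271)) (XT.lf (nat_lit 0) (nat_lit 4960295026) (nat_lit 1672) (nat_lit 5650714547) (nat_lit 1748) (nat_lit 1797490071) (nat_lit 437) (nat_lit 5) (nat_lit 459) (nat_lit 5) (nat_lit 460) (nat_lit 5) (nat_lit 437) (nat_lit 433) (nat_lit 270))) (XT.nd (nat_lit 78) (nat_lit 0) (nat_lit 76) (XT.lf (nat_lit 76) (nat_lit 378703610) (nat_lit 0) (nat_lit 5227138398) (nat_lit 1748) (nat_lit 6919616018) (nat_lit 438) (nat_lit 5) (nat_lit 437) (nat_lit 5) (nat_lit 460) (nat_lit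 5) (nat_lit 438) (nat_lit 433) (nat_lit 269)) (XT.nd (nat_lit 78) (nat_lit 0) (nat_lit 0) (XT.lf (nat_lit 0) (nat_lit 6292769548) (nat_lit 1672) (nat_lit 6047518301) (nat_lit 1748) (nat_lit 303902447) (nat_lit 438) (nat_lit 5) (nat_lit 460) (nat_lit 5) (nat_lit 461) (nat_lit 5) (nat_lit 439) (nat_lit 433) (nat_lit 268)) (XT.lf (nat_lit 76) (nat_lit 134118920) (nat_lit 0) (nat_lit 6883610692) (nat_lit 1748) (nat_lit 5747085751) (nat_lit 439) (nat_lit 5) (nat_lit 438) (nat_lit 5) (nat_lit 461) (nat_lit 5) (nat_lit 440) (nat_lit 433) (nat_lit 267))))) (XT.nd (nat_lit 234) (nat_lit 0) (nat_lit 152) (XT.nd (nat_lit 78) (nat_lit 0) (nat_lit 76) (XT.lf (nat_lit 76) (nat_lit 6514683038) (nat_lit 0) (nat_lit 1272070346) (nat_lit 1748) (nat_lit 5100512209) (nat_lit 439) (nat_lit 5) (nat_lit 438) (nat_lit 5) (nat_lit 461) (nat_lit 5) (nat_lit 441) (nat_lit 433) (nat_lit 266)) (XT.nd (nat_lit 78) (nat_lit 0) (nat_lit 0) (XT.lf (nat_lit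 0) (nat_lit 8589287133) (nat_lit 1672) (nat_lit 25007829) (nat_lit 1748) (nat_lit 4397511151) (nat_lit 439) (nat_lit 5) (nat_lit 461) (nat_lit 5) (nat_lit 462) (nat_lit 5) (nat_lit 442) (nat_lit 433) (nat_lit 265)) (XT.lf (nat_lit 76) (nat_lit 6519939515) (nat_lit 0) (nat_lit 2928125478) (nat_lit 1748) (nat_lit 3689972380) (nat_lit 440) (nat_lit 5) (nat_lit 439) (nat_lit 5) (nat_lit 462) (nat_lit 5) (nat_lit 443) (nat_lit 433) (nat_lit 264)))) (XT.nd (nat_lit 78) (nat_lit 0) (nat_lit 0) (XT.lf (nat_lit 0) (nat_lit 10332458766) (nat_lit 1672) (nat_lit 96168762) (nat_lit 1748) (nat_lit 2838000648) (nat_lit 440) (nat_lit 5) (nat_lit 462) (nat_lit 5) (nat_lit 463) (nat_lit 5) (nat_lit 444) (nat_lit 433) (nat_lit 263)) (XT.nd (nat_lit 78) (nat_lit 0) (nat_lit 76) (XT.lf (nat_lit 76) (nat_lit 6616866075) (nat_lit 0) (nat_lit 4669856402) (nat_lit 1748) (nat_lit 2110028327) (nat_lit 441) (nat_lit 5) (nat_lit 440) (nat_lit 5)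 (nat_lit 463) (nat_lit 5) (nat_lit 445) (nat_lit 433) (nat_lit 262)) (XT.lf (nat_lit 0) (nat_lit 12258545973) (nat_lit 1672) (nat_lit 78723773) (nat_lit 1748) (nat_lit 1192240227) (nat_lit 441) (nat_lit 5) (nat_lit 463) (nat_lit 5) (nat_lit 464) (nat_lit 5) (nat_lit 446) (nat_lit 433) (nat_lit 261))))))))
noncomputable def xc212 : XT := (XT.nd (nat_lit 1638) (nat_lit 8740) (nat_lit 0) (XT.nd (nat_lit 780) (nat_lit 5168) (nat_lit 0) (XT.nd (nat_lit 390) (nat_lit 0) (nat_lit 152) (XT.nd (nat_lit 156) (nat_lit 0) (nat_lit 76) (XT.nd (nat_lit 78) (nat_lit 1748) (nat_lit 0) (XT.lf (nat_lit 76) (nat_lit 6808054458) (nat_lit 0) (nat_lit 6507083169) (nat_lit 1748) (nat_lit 348483576) (nat_lit 442) (nat_lit 5) (nat_lit 441) (nat_lit 5) (nat_lit 464) (nat_lit 5) (nat_lit 447) (nat_lit 433) (nat_lit 260)) (XT.lf (nat_lit 76) (nat_lit 22824011) (nat_lit 0) (nat_lit 552816596) (nat_lit 1824) (nat_lit 13224881207) (nat_lit 419) (nat_lit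 5) (nat_lit 418) (nat_lit 5) (nat_lit 442) (nat_lit 5) (nat_lit 448) (nat_lit 433) (nat_lit 259))) (XT.nd (nat_lit 78) (nat_lit 0) (nat_lit 0) (XT.lf (nat_lit 0) (nat_lit 1586185962) (nat_lit 1748) (nat_lit 6853008291) (nat_lit 1824) (nat_lit 5499471326) (nat_lit 419) (nat_lit 5) (nat_lit 442) (nat_lit 5) (nat_lit 443) (nat_lit 5) (nat_lit 449) (nat_lit 433) (nat_lit 258)) (XT.nd (nat_lit 78) (nat_lit 0) (nat_lit 76) (XT.lf (nat_lit 76) (nat_lit 202280592) (nat_lit 0) (nat_lit 2410271708) (nat_lit 1824) (nat_lit 11467110957) (nat_lit 420) (nat_lit 5) (nat_lit 419) (nat_lit 5) (nat_lit 443) (nat_lit 5) (nat_lit 450) (nat_lit 433) (nat_lit 257)) (XT.lf (nat_lit 0) (nat_lit 3720805746) (nat_lit 1748) (nat_lit 6762617853) (nat_lit 1824) (nat_lit 3738833275) (nat_lit 420) (nat_lit 5) (nat_lit 443) (nat_lit 5) (nat_lit 444) (nat_lit 5) (nat_lit 451) (nat_lit 433) (nat_lit 256))))) (XT.nd (nat_lit 156) (nat_lit 0) (nat_lit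 76) (XT.nd (nat_lit 78) (nat_lit 0) (nat_lit 76) (XT.lf (nat_lit 76) (nat_lit 477841101) (nat_lit 0) (nat_lit 4383418642) (nat_lit 1824) (nat_lit 9506245026) (nat_lit 421) (nat_lit 5) (nat_lit 420) (nat_lit 5) (nat_lit 444) (nat_lit 5) (nat_lit 452) (nat_lit 433) (nat_lit 255)) (XT.lf (nat_lit 0) (nat_lit 6073258077) (nat_lit 1748) (nat_lit 6579264397) (nat_lit 1824) (nat_lit 1862163497) (nat_lit 421) (nat_lit 5) (nat_lit 444) (nat_lit 5) (nat_lit 445) (nat_lit 5) (nat_lit 453) (nat_lit 433) (nat_lit 254))) (XT.nd (nat_lit 78) (nat_lit 0) (nat_lit 0) (XT.lf (nat_lit 76) (nat_lit 852578818) (nat_lit 0) (nat_lit 6482773185) (nat_lit 1824) (nat_lit 7328944679) (nat_lit 422) (nat_lit 5) (nat_lit 421) (nat_lit 5) (nat_lit 445) (nat_lit 5) (nat_lit 454) (nat_lit 433) (nat_lit 253)) (XT.nd (nat_lit 78) (nat_lit 0) (nat_lit 76) (XT.lf (nat_lit 76) (nat_lit 8515371560) (nat_lit 0) (nat_lit 142883588) (nat_lit 1824) (nat_lit 6157936048)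 (nat_lit 422) (nat_lit 5) (nat_lit 421) (nat_lit 5) (nat_lit 445) (nat_lit 5) (nat_lit 455) (nat_lit 433) (nat_lit 252)) (XT.lf (nat_lit 76) (nat_lit 1329759924) (nat_lit 0) (nat_lit 8719144647) (nat_lit 1824) (nat_lit 4921396143) (nat_lit 423) (nat_lit 5) (nat_lit 422) (nat_lit 5) (nat_lit 446) (nat_lit 5) (nat_lit 456) (nat_lit 433) (nat_lit 251)))))) (XT.nd (nat_lit 390) (nat_lit 2584) (nat_lit 0) (XT.nd (nat_lit 156) (nat_lit 1216) (nat_lit 0) (XT.nd (nat_lit 78) (nat_lit 1672) (nat_lit 0) (XT.lf (nat_lit 76) (nat_lit 9190528693) (nat_lit 0) (nat_lit 2311776492) (nat_lit 1824) (nat_lit 3624491297) (nat_lit 423) (nat_lit 5) (nat_lit 422) (nat_lit 5) (nat_lit 446) (nat_lit 5) (nat_lit 457) (nat_lit 433) (nat_lit 250)) (XT.lf (nat_lit 0) (nat_lit 1912842389) (nat_lit 1748) (nat_lit 11103661944) (nat_lit 1824) (nat_lit 2269285989) (nat_lit 400) (nat_lit 5) (nat_lit 423) (nat_lit 5) (nat_lit 424) (nat_lit 5) (nat_lit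 458) (nat_lit 433) (nat_lit 249))) (XT.nd (nat_lit 78) (nat_lit 1216) (nat_lit 0) (XT.lf (nat_lit 0) (nat_lit 9977022444) (nat_lit 1748) (nat_lit 4631011803) (nat_lit 1824) (nat_lit 838991568) (nat_lit 400) (nat_lit 5) (nat_lit 423) (nat_lit 5) (nat_lit 424) (nat_lit 5) (nat_lit 459) (nat_lit 433) (nat_lit 248)) (XT.nd (nat_lit 78) (nat_lit 0) (nat_lit 0) (XT.lf (nat_lit 0) (nat_lit 633801171) (nat_lit 1216) (nat_lit 13009745894) (nat_lit 76) (nat_lit 1967420610) (nat_lit 384) (nat_lit 5) (nat_lit 400) (nat_lit 5) (nat_lit 385) (nat_lit 5) (nat_lit 460) (nat_lit 433) (nat_lit 247)) (XT.lf (nat_lit 0) (nat_lit 2184666454) (nat_lit 1216) (nat_lit 4912863083) (nat_lit 76) (nat_lit 8679353462) (nat_lit 384) (nat_lit 5) (nat_lit 400) (nat_lit 5) (nat_lit 385) (nat_lit 5) (nat_lit 461) (nat_lit 433) (nat_lit 246))))) (XT.nd (nat_lit 234) (nat_lit 836) (nat_lit 0) (XT.nd (nat_lit 78) (nat_lit 836) (nat_lit 0) (XT.lf (nat_lit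 0) (nat_lit 3383509842) (nat_lit 912) (nat_lit 397381347) (nat_lit 988) (nat_lit 12164941104) (nat_lit 372) (nat_lit 5) (nat_lit 384) (nat_lit 5) (nat_lit 385) (nat_lit 5) (nat_lit 462) (nat_lit 433) (nat_lit 245)) (XT.nd (nat_lit 78) (nat_lit 836) (nat_lit 0) (XT.lf (nat_lit 0) (nat_lit 5476502921) (nat_lit 988) (nat_lit 4254041622) (nat_lit 76) (nat_lit 6386269236) (nat_lit 372) (nat_lit 5) (nat_lit 385) (nat_lit 5) (nat_lit 373) (nat_lit 5) (nat_lit 463) (nat_lit 433) (nat_lit 244)) (XT.lf (nat_lit 0) (nat_lit 4266935096) (nat_lit 836) (nat_lit 2962059087) (nat_lit 912) (nat_lit 9061763776) (nat_lit 361) (nat_lit 5) (nat_lit 372) (nat_lit 5) (nat_lit 373) (nat_lit 5) (nat_lit 464) (nat_lit 433) (nat_lit 243)))) (XT.nd (nat_lit 78) (nat_lit 836) (nat_lit 0) (XT.lf (nat_lit 0) (nat_lit 9063599737) (nat_lit 912) (nat_lit 3484301877) (nat_lit 76) (nat_lit 3919340480) (nat_lit 361) (nat_lit 5) (nat_lit 373) (nat_lit 5)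 (nat_lit 362) (nat_lit 5) (nat_lit 465) (nat_lit 433) (nat_lit 242)) (XT.nd (nat_lit 78) (nat_lit 0) (nat_lit 0) (XT.lf (nat_lit 0) (nat_lit 5268722914) (nat_lit 836) (nat_lit 5712877054) (nat_lit 912) (nat_lit 5664724208) (nat_lit 350) (nat_lit 5) (nat_lit 361) (nat_lit 5) (nat_lit 362) (nat_lit 5) (nat_lit 466) (nat_lit 433) (nat_lit 241)) (XT.lf (nat_lit 0) (nat_lit 12962645981) (nat_lit 912) (nat_lit 2599680326) (nat_lit 76) (nat_lit 1266170148) (nat_lit 350) (nat_lit 5) (nat_lit 362) (nat_lit 5) (nat_lit 351) (nat_lit 5) (nat_lit 467) (nat_lit 433) (nat_lit 240))))))) (XT.nd (nat_lit 858) (nat_lit 3952) (nat_lit 0) (XT.nd (nat_lit 390) (nat_lit 2280) (nat_lit 0) (XT.nd (nat_lit 156) (nat_lit 1596) (nat_lit 0) (XT.nd (nat_lit 78) (nat_lit 76) (nat_lit 0) (XT.lf (nat_lit 0) (nat_lit 6393075699) (nat_lit 836) (nat_lit 8662692804) (nat_lit 912) (nat_lit 1957096791) (nat_lit 339) (nat_lit 5) (nat_lit 350) (nat_lit 5)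 (nat_lit 351) (nat_lit 5) (nat_lit 468) (nat_lit 433) (nat_lit 239)) (XT.lf (nat_lit 0) (nat_lit 684379) (nat_lit 912) (nat_lit 1606480712) (nat_lit 76) (nat_lit 15593545495) (nat_lit 338) (nat_lit 5) (nat_lit 350) (nat_lit 5) (nat_lit 339) (nat_lit 5) (nat_lit 469) (nat_lit 433) (nat_lit 238))) (XT.nd (nat_lit 78) (nat_lit 760) (nat_lit 0) (XT.lf (nat_lit 0) (nat_lit 2051225134) (nat_lit 912) (nat_lit 9759851030) (nat_lit 76) (nat_lit 5579383800) (nat_lit 327) (nat_lit 5) (nat_lit 339) (nat_lit 5) (nat_lit 328) (nat_lit 5) (nat_lit 470) (nat_lit 433) (nat_lit 237)) (XT.nd (nat_lit 78) (nat_lit 760) (nat_lit 0) (XT.lf (nat_lit 0) (nat_lit 4157653046) (nat_lit 912) (nat_lit 527029449) (nat_lit 76) (nat_lit 12899026362) (nat_lit 327) (nat_lit 5) (nat_lit 339) (nat_lit 5) (nat_lit 328) (nat_lit 5) (nat_lit 471) (nat_lit 433) (nat_lit 236)) (XT.lf (nat_lit 0) (nat_lit 6375331614) (nat_lit 836) (nat_lit 8795050668) (nat_lit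 76) (nat_lit 2609060023) (nat_lit 317) (nat_lit 5) (nat_lit 328) (nat_lit 5) (nat_lit 318) (nat_lit 5) (nat_lit 472) (nat_lit 433) (nat_lit 235))))) (XT.nd (nat_lit 234) (nat_lit 836) (nat_lit 0) (XT.nd (nat_lit 78) (nat_lit 684) (nat_lit 0) (XT.lf (nat_lit 0) (nat_lit 685411147) (nat_lit 760) (nat_lit 7984581673) (nat_lit 836) (nat_lit 9308446994) (nat_lit 307) (nat_lit 5) (nat_lit 317) (nat_lit 5) (nat_lit 318) (nat_lit 5) (nat_lit 473) (nat_lit 433) (nat_lit 234)) (XT.nd (nat_lit 78) (nat_lit 684) (nat_lit 0) (XT.lf (nat_lit 0) (nat_lit 10468049660) (nat_lit 760) (nat_lit 595193892) (nat_lit 836) (nat_lit 7117121734) (nat_lit 307) (nat_lit 5) (nat_lit 317) (nat_lit 5) (nat_lit 318) (nat_lit 5) (nat_lit 474) (nat_lit 433) (nat_lit 233)) (XT.lf (nat_lit 0) (nat_lit 2034983775) (nat_lit 684) (nat_lit 11521458708) (nat_lit 760) (nat_lit 4828847020) (nat_lit 298) (nat_lit 5) (nat_lit 307) (nat_lit 5) (nat_lit 308) (nat_lit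 5) (nat_lit 475) (nat_lit 433) (nat_lit 232)))) (XT.nd (nat_lit 78) (nat_lit 836) (nat_lit 0) (XT.lf (nat_lit 0) (nat_lit 12071176159) (nat_lit 684) (nat_lit 4077876184) (nat_lit 760) (nat_lit 2444270783) (nat_lit 298) (nat_lit 5) (nat_lit 307) (nat_lit 5) (nat_lit 308) (nat_lit 5) (nat_lit 476) (nat_lit 433) (nat_lit 231)) (XT.nd (nat_lit 78) (nat_lit 0) (nat_lit 0) (XT.lf (nat_lit 0) (nat_lit 28078514) (nat_lit 836) (nat_lit 15285588976) (nat_lit 76) (nat_lit 3491054799) (nat_lit 287) (nat_lit 5) (nat_lit 298) (nat_lit 5) (nat_lit 288) (nat_lit 5) (nat_lit 477) (nat_lit 433) (nat_lit 230)) (XT.lf (nat_lit 0) (nat_lit 2582268005) (nat_lit 836) (nat_lit 5219936896) (nat_lit 76) (nat_lit 11216520716) (nat_lit 287) (nat_lit 5) (nat_lit 298) (nat_lit 5) (nat_lit 288) (nat_lit 5) (nat_lit 478) (nat_lit 433) (nat_lit 229)))))) (XT.nd (nat_lit 390) (nat_lit 1976) (nat_lit 0) (XT.nd (nat_lit 156) (nat_lit 1292) (nat_lit 0)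 (XT.nd (nat_lit 78) (nat_lit 0) (nat_lit 0) (XT.lf (nat_lit 0) (nat_lit 5107515635) (nat_lit 684) (nat_lit 107332824) (nat_lit 760) (nat_lit 14021616131) (nat_lit 278) (nat_lit 5) (nat_lit 287) (nat_lit 5) (nat_lit 288) (nat_lit 5) (nat_lit 479) (nat_lit 433) (nat_lit 228)) (XT.lf (nat_lit 0) (nat_lit 7979817852) (nat_lit 760) (nat_lit 3802646209) (nat_lit 76) (nat_lit 7674501220) (nat_lit 278) (nat_lit 5) (nat_lit 288) (nat_lit 5) (nat_lit 279) (nat_lit 5) (nat_lit 480) (nat_lit 433) (nat_lit 227))) (XT.nd (nat_lit 78) (nat_lit 608) (nat_lit 0) (XT.lf (nat_lit 0) (nat_lit 6812377376) (nat_lit 684) (nat_lit 4026978275) (nat_lit 760) (nat_lit 8841736609) (nat_lit 269) (nat_lit 5) (nat_lit 278) (nat_lit 5) (nat_lit 279) (nat_lit 5) (nat_lit 481) (nat_lit 433) (nat_lit 226)) (XT.nd (nat_lit 78) (nat_lit 608) (nat_lit 0) (XT.lf (nat_lit 0) (nat_lit 13801378229) (nat_lit 760) (nat_lit 2249834230) (nat_lit 76) (nat_lit 3857585059)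 (nat_lit 269) (nat_lit 5) (nat_lit 279) (nat_lit 5) (nat_lit 270) (nat_lit 5) (nat_lit 482) (nat_lit 433) (nat_lit 225)) (XT.lf (nat_lit 0) (nat_lit 8661980206) (nat_lit 608) (nat_lit 8238071314) (nat_lit 684) (nat_lit 3239458747) (nat_lit 261) (nat_lit 5) (nat_lit 269) (nat_lit 5) (nat_lit 270) (nat_lit 5) (nat_lit 483) (nat_lit 433) (nat_lit 224))))) (XT.nd (nat_lit 234) (nat_lit 608) (nat_lit 0) (XT.nd (nat_lit 78) (nat_lit 1368) (nat_lit 0) (XT.lf (nat_lit 0) (nat_lit 19816191461) (nat_lit 608) (nat_lit 254173255) (nat_lit 684) (nat_lit 304280783) (nat_lit 261) (nat_lit 5) (nat_lit 269) (nat_lit 5) (nat_lit 270) (nat_lit 5) (nat_lit 484) (nat_lit 433) (nat_lit 223)) (XT.nd (nat_lit 78) (nat_lit 608) (nat_lit 0) (XT.lf (nat_lit 0) (nat_lit 2770199976) (nat_lit 760) (nat_lit 9969117270) (nat_lit 76) (nat_lit 7872500958) (nat_lit 251) (nat_lit 5) (nat_lit 261) (nat_lit 5) (nat_lit 252) (nat_lit 5) (nat_lit 485) (nat_lit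 433) (nat_lit 222)) (XT.lf (nat_lit 0) (nat_lit 1227824562) (nat_lit 608) (nat_lit 4682399764) (nat_lit 684) (nat_lit 14943308713) (nat_lit 243) (nat_lit 5) (nat_lit 251) (nat_lit 5) (nat_lit 252) (nat_lit 5) (nat_lit 486) (nat_lit 433) (nat_lit 221)))) (XT.nd (nat_lit 78) (nat_lit 608) (nat_lit 0) (XT.lf (nat_lit 0) (nat_lit 9198099228) (nat_lit 684) (nat_lit 8344706393) (nat_lit 76) (nat_lit 3555576987) (nat_lit 243) (nat_lit 5) (nat_lit 252) (nat_lit 5) (nat_lit 244) (nat_lit 5) (nat_lit 487) (nat_lit 433) (nat_lit 220)) (XT.nd (nat_lit 78) (nat_lit 0) (nat_lit 0) (XT.lf (nat_lit 0) (nat_lit 3166154117) (nat_lit 608) (nat_lit 9431999614) (nat_lit 684) (nat_lit 8749048409) (nat_lit 235) (nat_lit 5) (nat_lit 243) (nat_lit 5) (nat_lit 244) (nat_lit 5) (nat_lit 488) (nat_lit 433) (nat_lit 219)) (XT.lf (nat_lit 0) (nat_lit 15014110802) (nat_lit 608) (nat_lit 1103012330) (nat_lit 684) (nat_lit 5482858037) (nat_lit 235)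 (nat_lit 5) (nat_lit 243) (nat_lit 5) (nat_lit 244) (nat_lit 5) (nat_lit 489) (nat_lit 433) (nat_lit 218))))))))
noncomputable def xc213 : XT := (XT.nd (nat_lit 55614) (nat_lit 0) (nat_lit 14820) (XT.nd (nat_lit 858) (nat_lit 988) (nat_lit 0) (XT.nd (nat_lit 390) (nat_lit 1672) (nat_lit 0) (XT.nd (nat_lit 156) (nat_lit 1140) (nat_lit 0) (XT.nd (nat_lit 78) (nat_lit 76) (nat_lit 0) (XT.lf (nat_lit 0) (nat_lit 5255938896) (nat_lit 532) (nat_lit 14527664215) (nat_lit 608) (nat_lit 2072671400) (nat_lit 228) (nat_lit 5) (nat_lit 235) (nat_lit 5) (nat_lit 236) (nat_lit 5) (nat_lit 490) (nat_lit 433) (nat_lit 217)) (XT.lf (nat_lit 0) (nat_lit 1434107392) (nat_lit 608) (nat_lit 4715910173) (nat_lit 76) (nat_lit 15966558428) (nat_lit 227) (nat_lit 5) (nat_lit 235) (nat_lit 5) (nat_lit 228) (nat_lit 5) (nat_lit 491) (nat_lit 433) (nat_lit 216))) (XT.nd (nat_lit 78) (nat_lit 532) (nat_lit 0) (XT.lf (nat_lit 0) (nat_lit 5042974944)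 (nat_lit 684) (nat_lit 14912364557) (nat_lit 76) (nat_lit 2425277151) (nat_lit 219) (nat_lit 5) (nat_lit 228) (nat_lit 5) (nat_lit 220) (nat_lit 5) (nat_lit 492) (nat_lit 433) (nat_lit 215)) (XT.nd (nat_lit 78) (nat_lit 532) (nat_lit 0) (XT.lf (nat_lit 0) (nat_lit 8791782192) (nat_lit 684) (nat_lit 2736380929) (nat_lit 76) (nat_lit 11120421007) (nat_lit 219) (nat_lit 5) (nat_lit 228) (nat_lit 5) (nat_lit 220) (nat_lit 5) (nat_lit 493) (nat_lit 433) (nat_lit 214)) (XT.lf (nat_lit 0) (nat_lit 9805685927) (nat_lit 532) (nat_lit 2868817160) (nat_lit 608) (nat_lit 10246230347) (nat_lit 212) (nat_lit 5) (nat_lit 219) (nat_lit 5) (nat_lit 220) (nat_lit 5) (nat_lit 494) (nat_lit 433) (nat_lit 213))))) (XT.nd (nat_lit 234) (nat_lit 532) (nat_lit 0) (XT.nd (nat_lit 78) (nat_lit 1140) (nat_lit 0) (XT.lf (nat_lit 0) (nat_lit 16687400575) (nat_lit 608) (nat_lit 607200107) (nat_lit 76) (nat_lit 5902675804) (nat_lit 212) (nat_lit 5)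 (nat_lit 220) (nat_lit 5) (nat_lit 213) (nat_lit 5) (nat_lit 495) (nat_lit 433) (nat_lit 212)) (XT.nd (nat_lit 78) (nat_lit 608) (nat_lit 0) (XT.lf (nat_lit 0) (nat_lit 12286984690) (nat_lit 532) (nat_lit 8587754792) (nat_lit 608) (nat_lit 2602728430) (nat_lit 205) (nat_lit 5) (nat_lit 212) (nat_lit 5) (nat_lit 213) (nat_lit 5) (nat_lit 496) (nat_lit 433) (nat_lit 211)) (XT.lf (nat_lit 0) (nat_lit 1376995748) (nat_lit 608) (nat_lit 22073637507) (nat_lit 76) (nat_lit 312200189) (nat_lit 197) (nat_lit 5) (nat_lit 205) (nat_lit 5) (nat_lit 198) (nat_lit 5) (nat_lit 497) (nat_lit 433) (nat_lit 210)))) (XT.nd (nat_lit 78) (nat_lit 532) (nat_lit 0) (XT.lf (nat_lit 0) (nat_lit 5529431787) (nat_lit 608) (nat_lit 9154884450) (nat_lit 76) (nat_lit 9366687725) (nat_lit 197) (nat_lit 5) (nat_lit 205) (nat_lit 5) (nat_lit 198) (nat_lit 5) (nat_lit 498) (nat_lit 433) (nat_lit 209)) (XT.nd (nat_lit 78) (nat_lit 0) (nat_lit 0) (XT.lf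 (nat_lit 0) (nat_lit 4069704657) (nat_lit 532) (nat_lit 5717195347) (nat_lit 608) (nat_lit 14557599306) (nat_lit 190) (nat_lit 5) (nat_lit 197) (nat_lit 5) (nat_lit 198) (nat_lit 5) (nat_lit 499) (nat_lit 433) (nat_lit 208)) (XT.lf (nat_lit 0) (nat_lit 14209223121) (nat_lit 608) (nat_lit 6988379663) (nat_lit 76) (nat_lit 3444668741) (nat_lit 190) (nat_lit 5) (nat_lit 198) (nat_lit 5) (nat_lit 191) (nat_lit 5) (nat_lit 500) (nat_lit 433) (nat_lit 207)))))) (XT.nd (nat_lit 54288) (nat_lit 0) (nat_lit 19684) (XT.nd (nat_lit 234) (nat_lit 532) (nat_lit 0) (XT.nd (nat_lit 78) (nat_lit 0) (nat_lit 0) (XT.lf (nat_lit 0) (nat_lit 6606712111) (nat_lit 456) (nat_lit 12189723761) (nat_lit 532) (nat_lit 6148035499) (nat_lit 184) (nat_lit 5) (nat_lit 190) (nat_lit 5) (nat_lit 191) (nat_lit 5) (nat_lit 501) (nat_lit 433) (nat_lit 206)) (XT.lf (nat_lit 0) (nat_lit 20562635940) (nat_lit 456) (nat_lit 2955385378) (nat_lit 532) (nat_lit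 1733842353) (nat_lit 184) (nat_lit 5) (nat_lit 190) (nat_lit 5) (nat_lit 191) (nat_lit 5) (nat_lit 502) (nat_lit 433) (nat_lit 205))) (XT.nd (nat_lit 53898) (nat_lit 0) (nat_lit 19608) (XT.lf (nat_lit 0) (nat_lit 7511359871) (nat_lit 532) (nat_lit 2309367379) (nat_lit 76) (nat_lit 16058599780) (nat_lit 177) (nat_lit 5) (nat_lit 184) (nat_lit 5) (nat_lit 178) (nat_lit 5) (nat_lit 504) (nat_lit 433) (nat_lit 203)) (XT.nd (nat_lit 78) (nat_lit 0) (nat_lit 0) (XT.lf (nat_lit 0) (nat_lit 1849608408) (nat_lit 1748) (nat_lit 2119991505) (nat_lit 1748) (nat_lit 2119991505) (nat_lit 435) (nat_lit 3) (nat_lit 458) (nat_lit 3) (nat_lit 458) (nat_lit 5) (nat_lit 434) (nat_lit 434) (nat_lit 272)) (XT.lf (nat_lit 76) (nat_lit 1611323836) (nat_lit 0) (nat_lit 2587402576) (nat_lit 1748) (nat_lit 8092834817) (nat_lit 436) (nat_lit 5) (nat_lit 435) (nat_lit 3) (nat_lit 458) (nat_lit 5) (nat_lit 435) (nat_lit 434) (nat_lit 271))))) (XT.nd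 (nat_lit 234) (nat_lit 0) (nat_lit 76) (XT.nd (nat_lit 78) (nat_lit 0) (nat_lit 0) (XT.lf (nat_lit 0) (nat_lit 4743650441) (nat_lit 1672) (nat_lit 4793728461) (nat_lit 1748) (nat_lit 2868104077) (nat_lit 436) (nat_lit 5) (nat_lit 458) (nat_lit 5) (nat_lit 459) (nat_lit 5) (nat_lit 436) (nat_lit 434) (nat_lit 270)) (XT.nd (nat_lit 78) (nat_lit 0) (nat_lit 76) (XT.lf (nat_lit 76) (nat_lit 1202867461) (nat_lit 0) (nat_lit 4109923032) (nat_lit 1748) (nat_lit 7208630515) (nat_lit 437) (nat_lit 5) (nat_lit 436) (nat_lit 5) (nat_lit 459) (nat_lit 5) (nat_lit 437) (nat_lit 434) (nat_lit 269)) (XT.lf (nat_lit 0) (nat_lit 5923547708) (nat_lit 1672) (nat_lit 5270640190) (nat_lit 1748) (nat_lit 1444889324) (nat_lit 437) (nat_lit 5) (nat_lit 459) (nat_lit 5) (nat_lit 460) (nat_lit 5) (nat_lit 438) (nat_lit 434) (nat_lit 268)))) (XT.nd (nat_lit 78) (nat_lit 0) (nat_lit 0) (XT.lf (nat_lit 76) (nat_lit 876122325) (nat_lit 0) (nat_lit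 5692121607) (nat_lit 1748) (nat_lit 6190412182) (nat_lit 438) (nat_lit 5) (nat_lit 437) (nat_lit 5) (nat_lit 460) (nat_lit 5) (nat_lit 439) (nat_lit 434) (nat_lit 267)) (XT.nd (nat_lit 78) (nat_lit 0) (nat_lit 76) (XT.lf (nat_lit 76) (nat_lit 7210925414) (nat_lit 0) (nat_lit 39273006) (nat_lit 1748) (nat_lit 5629944828) (nat_lit 438) (nat_lit 5) (nat_lit 437) (nat_lit 5) (nat_lit 460) (nat_lit 5) (nat_lit 440) (nat_lit 434) (nat_lit 266)) (XT.lf (nat_lit 76) (nat_lit 633020895) (nat_lit 0) (nat_lit 7343303229) (nat_lit 1748) (nat_lit 5027129235) (nat_lit 439) (nat_lit 5) (nat_lit 438) (nat_lit 5) (nat_lit 461) (nat_lit 5) (nat_lit 441) (nat_lit 434) (nat_lit 265))))))) (XT.nd (nat_lit 858) (nat_lit 3496) (nat_lit 0) (XT.nd (nat_lit 390) (nat_lit 1520) (nat_lit 0) (XT.nd (nat_lit 156) (nat_lit 0) (nat_lit 76) (XT.nd (nat_lit 78) (nat_lit 0) (nat_lit 76) (XT.lf (nat_lit 76) (nat_lit 7131466499) (nat_lit 0) (nat_lit 1613217952)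 (nat_lit 1748) (nat_lit 4383994775) (nat_lit 439) (nat_lit 5) (nat_lit 438) (nat_lit 5) (nat_lit 461) (nat_lit 5) (nat_lit 442) (nat_lit 434) (nat_lit 264)) (XT.lf (nat_lit 76) (nat_lit 475702757) (nat_lit 0) (nat_lit 9072915779) (nat_lit 1748) (nat_lit 3707390669) (nat_lit 440) (nat_lit 5) (nat_lit 439) (nat_lit 5) (nat_lit 462) (nat_lit 5) (nat_lit 443) (nat_lit 434) (nat_lit 263))) (XT.nd (nat_lit 78) (nat_lit 0) (nat_lit 76) (XT.lf (nat_lit 76) (nat_lit 7142053728) (nat_lit 0) (nat_lit 3267240680) (nat_lit 1748) (nat_lit 2975781766) (nat_lit 440) (nat_lit 5) (nat_lit 439) (nat_lit 5) (nat_lit 462) (nat_lit 5) (nat_lit 444) (nat_lit 434) (nat_lit 262)) (XT.nd (nat_lit 78) (nat_lit 0) (nat_lit 0) (XT.lf (nat_lit 76) (nat_lit 406512785) (nat_lit 0) (nat_lit 10890574291) (nat_lit 1748) (nat_lit 2219442919) (nat_lit 441) (nat_lit 5) (nat_lit 440) (nat_lit 5) (nat_lit 463) (nat_lit 5) (nat_lit 445) (nat_lit 434) (nat_lit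 261)) (XT.lf (nat_lit 76) (nat_lit 7245192138) (nat_lit 0) (nat_lit 5011014277) (nat_lit 1748) (nat_lit 1393338571) (nat_lit 441) (nat_lit 5) (nat_lit 440) (nat_lit 5) (nat_lit 463) (nat_lit 5) (nat_lit 446) (nat_lit 434) (nat_lit 260))))) (XT.nd (nat_lit 234) (nat_lit 0) (nat_lit 76) (XT.nd (nat_lit 78) (nat_lit 1748) (nat_lit 0) (XT.lf (nat_lit 76) (nat_lit 427999554) (nat_lit 0) (nat_lit 12806085275) (nat_lit 1748) (nat_lit 551147353) (nat_lit 442) (nat_lit 5) (nat_lit 441) (nat_lit 5) (nat_lit 464) (nat_lit 5) (nat_lit 447) (nat_lit 434) (nat_lit 259)) (XT.nd (nat_lit 78) (nat_lit 0) (nat_lit 0) (XT.lf (nat_lit 0) (nat_lit 370771135) (nat_lit 1748) (nat_lit 6481153166) (nat_lit 1824) (nat_lit 7070333720) (nat_lit 418) (nat_lit 5) (nat_lit 441) (nat_lit 5) (nat_lit 442) (nat_lit 5) (nat_lit 448) (nat_lit 434) (nat_lit 258)) (XT.lf (nat_lit 76) (nat_lit 529147455) (nat_lit 0) (nat_lit 768704654) (nat_lit 1824) (nat_lit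 12764220569) (nat_lit 419) (nat_lit 5) (nat_lit 418) (nat_lit 5) (nat_lit 442) (nat_lit 5) (nat_lit 449) (nat_lit 434) (nat_lit 257)))) (XT.nd (nat_lit 78) (nat_lit 0) (nat_lit 0) (XT.lf (nat_lit 0) (nat_lit 2313369274) (nat_lit 1748) (nat_lit 6478640574) (nat_lit 1824) (nat_lit 5411279066) (nat_lit 419) (nat_lit 5) (nat_lit 442) (nat_lit 5) (nat_lit 443) (nat_lit 5) (nat_lit 450) (nat_lit 434) (nat_lit 256)) (XT.nd (nat_lit 78) (nat_lit 0) (nat_lit 76) (XT.lf (nat_lit 76) (nat_lit 714389429) (nat_lit 0) (nat_lit 2635535732) (nat_lit 1824) (nat_lit 10997392863) (nat_lit 420) (nat_lit 5) (nat_lit 419) (nat_lit 5) (nat_lit 443) (nat_lit 5) (nat_lit 451) (nat_lit 434) (nat_lit 255)) (XT.lf (nat_lit 0) (nat_lit 4465782873) (nat_lit 1748) (nat_lit 6384976773) (nat_lit 1824) (nat_lit 3642299712) (nat_lit 420) (nat_lit 5) (nat_lit 443) (nat_lit 5) (nat_lit 444) (nat_lit 5) (nat_lit 452) (nat_lit 434) (nat_lit 254)))))) (XT.nd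 (nat_lit 390) (nat_lit 3648) (nat_lit 0) (XT.nd (nat_lit 156) (nat_lit 0) (nat_lit 76) (XT.nd (nat_lit 78) (nat_lit 0) (nat_lit 76) (XT.lf (nat_lit 76) (nat_lit 996917061) (nat_lit 0) (nat_lit 4622288770) (nat_lit 1824) (nat_lit 9022207719) (nat_lit 421) (nat_lit 5) (nat_lit 420) (nat_lit 5) (nat_lit 444) (nat_lit 5) (nat_lit 453) (nat_lit 434) (nat_lit 253)) (XT.lf (nat_lit 0) (nat_lit 6841526368) (nat_lit 1748) (nat_lit 6197180907) (nat_lit 1824) (nat_lit 1753113908) (nat_lit 421) (nat_lit 5) (nat_lit 444) (nat_lit 5) (nat_lit 445) (nat_lit 5) (nat_lit 454) (nat_lit 434) (nat_lit 252))) (XT.nd (nat_lit 78) (nat_lit 0) (nat_lit 0) (XT.lf (nat_lit 76) (nat_lit 1379919773) (nat_lit 0) (nat_lit 6739573122) (nat_lit 1824) (nat_lit 6825122959) (nat_lit 422) (nat_lit 5) (nat_lit 421) (nat_lit 5) (nat_lit 445) (nat_lit 5) (nat_lit 455) (nat_lit 434) (nat_lit 251)) (XT.nd (nat_lit 78) (nat_lit 0) (nat_lit 76) (XT.lf (nat_lit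 76) (nat_lit 9185962696) (nat_lit 0) (nat_lit 270392703) (nat_lit 1824) (nat_lit 5643447109) (nat_lit 422) (nat_lit 5) (nat_lit 421) (nat_lit 5) (nat_lit 445) (nat_lit 5) (nat_lit 456) (nat_lit 434) (nat_lit 250)) (XT.lf (nat_lit 76) (nat_lit 1866780359) (nat_lit 0) (nat_lit 8998304390) (nat_lit 1824) (nat_lit 4392108321) (nat_lit 423) (nat_lit 5) (nat_lit 422) (nat_lit 5) (nat_lit 446) (nat_lit 5) (nat_lit 457) (nat_lit 434) (nat_lit 249))))) (XT.nd (nat_lit 234) (nat_lit 2128) (nat_lit 0) (XT.nd (nat_lit 78) (nat_lit 1672) (nat_lit 0) (XT.lf (nat_lit 76) (nat_lit 9874756165) (nat_lit 0) (nat_lit 2460734423) (nat_lit 1824) (nat_lit 3081573530) (nat_lit 423) (nat_lit 5) (nat_lit 422) (nat_lit 5) (nat_lit 446) (nat_lit 5) (nat_lit 458) (nat_lit 434) (nat_lit 248)) (XT.nd (nat_lit 78) (nat_lit 0) (nat_lit 0) (XT.lf (nat_lit 0) (nat_lit 2461074053) (nat_lit 1748) (nat_lit 11409730636) (nat_lit 1824) (nat_lit 1708620556)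 (nat_lit 400) (nat_lit 5) (nat_lit 423) (nat_lit 5) (nat_lit 424) (nat_lit 5) (nat_lit 459) (nat_lit 434) (nat_lit 247)) (XT.lf (nat_lit 0) (nat_lit 10676538203) (nat_lit 1748) (nat_lit 4805980523) (nat_lit 1824) (nat_lit 261603603) (nat_lit 400) (nat_lit 5) (nat_lit 423) (nat_lit 5) (nat_lit 424) (nat_lit 5) (nat_lit 460) (nat_lit 434) (nat_lit 246)))) (XT.nd (nat_lit 78) (nat_lit 912) (nat_lit 0) (XT.lf (nat_lit 0) (nat_lit 1224153714) (nat_lit 1216) (nat_lit 12753090715) (nat_lit 76) (nat_lit 1934199213) (nat_lit 384) (nat_lit 5) (nat_lit 400) (nat_lit 5) (nat_lit 385) (nat_lit 5) (nat_lit 461) (nat_lit 434) (nat_lit 245)) (XT.nd (nat_lit 78) (nat_lit 912) (nat_lit 0) (XT.lf (nat_lit 0) (nat_lit 2794709312) (nat_lit 1216) (nat_lit 4504404564) (nat_lit 76) (nat_lit 8781793659) (nat_lit 384) (nat_lit 5) (nat_lit 400) (nat_lit 5) (nat_lit 385) (nat_lit 5) (nat_lit 462) (nat_lit 434) (nat_lit 244)) (XT.lf (nat_lit 0)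 (nat_lit 3954562164) (nat_lit 912) (nat_lit 460459776) (nat_lit 988) (nat_lit 11838374257) (nat_lit 372) (nat_lit 5) (nat_lit 384) (nat_lit 5) (nat_lit 385) (nat_lit 5) (nat_lit 463) (nat_lit 434) (nat_lit 243))))))))
noncomputable def xc214 : XT := (XT.nd (nat_lit 1716) (nat_lit 6308) (nat_lit 0) (XT.nd (nat_lit 858) (nat_lit 3572) (nat_lit 0) (XT.nd (nat_lit 390) (nat_lit 3268) (nat_lit 0) (XT.nd (nat_lit 156) (nat_lit 836) (nat_lit 0) (XT.nd (nat_lit 78) (nat_lit 836) (nat_lit 0) (XT.lf (nat_lit 0) (nat_lit 6133243745) (nat_lit 988) (nat_lit 3834129501) (nat_lit 76) (nat_lit 6460653688) (nat_lit 372) (nat_lit 5) (nat_lit 385) (nat_lit 5) (nat_lit 373) (nat_lit 5) (nat_lit 464) (nat_lit 434) (nat_lit 242)) (XT.lf (nat_lit 0) (nat_lit 4853944430) (nat_lit 836) (nat_lit 3059367958) (nat_lit 912) (nat_lit 8692290567) (nat_lit 361) (nat_lit 5) (nat_lit 372) (nat_lit 5) (nat_lit 373) (nat_lit 5) (nat_lit 465) (nat_lit 434)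 (nat_lit 241))) (XT.nd (nat_lit 78) (nat_lit 836) (nat_lit 0) (XT.lf (nat_lit 0) (nat_lit 9773784635) (nat_lit 912) (nat_lit 3051156585) (nat_lit 76) (nat_lit 3960895501) (nat_lit 361) (nat_lit 5) (nat_lit 373) (nat_lit 5) (nat_lit 362) (nat_lit 5) (nat_lit 466) (nat_lit 434) (nat_lit 240)) (XT.nd (nat_lit 78) (nat_lit 0) (nat_lit 0) (XT.lf (nat_lit 0) (nat_lit 5873620602) (nat_lit 836) (nat_lit 5849396664) (nat_lit 912) (nat_lit 5245629102) (nat_lit 350) (nat_lit 5) (nat_lit 361) (nat_lit 5) (nat_lit 362) (nat_lit 5) (nat_lit 467) (nat_lit 434) (nat_lit 239)) (XT.lf (nat_lit 0) (nat_lit 13733311408) (nat_lit 912) (nat_lit 2151407205) (nat_lit 76) (nat_lit 1269954240) (nat_lit 350) (nat_lit 5) (nat_lit 362) (nat_lit 5) (nat_lit 351) (nat_lit 5) (nat_lit 468) (nat_lit 434) (nat_lit 238))))) (XT.nd (nat_lit 234) (nat_lit 1520) (nat_lit 0) (XT.nd (nat_lit 78) (nat_lit 912) (nat_lit 0) (XT.lf (nat_lit 0) (nat_lit 7017912712)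 (nat_lit 836) (nat_lit 8843582666) (nat_lit 912) (nat_lit 1481372950) (nat_lit 339) (nat_lit 5) (nat_lit 350) (nat_lit 5) (nat_lit 351) (nat_lit 5) (nat_lit 469) (nat_lit 434) (nat_lit 237)) (XT.nd (nat_lit 78) (nat_lit 836) (nat_lit 0) (XT.lf (nat_lit 0) (nat_lit 498848281) (nat_lit 912) (nat_lit 1144603542) (nat_lit 76) (nat_lit 15891154222) (nat_lit 338) (nat_lit 5) (nat_lit 350) (nat_lit 5) (nat_lit 339) (nat_lit 5) (nat_lit 470) (nat_lit 434) (nat_lit 236)) (XT.lf (nat_lit 0) (nat_lit 2583813245) (nat_lit 912) (nat_lit 9454301966) (nat_lit 76) (nat_lit 5690169985) (nat_lit 327) (nat_lit 5) (nat_lit 339) (nat_lit 5) (nat_lit 328) (nat_lit 5) (nat_lit 471) (nat_lit 434) (nat_lit 235)))) (XT.nd (nat_lit 78) (nat_lit 1520) (nat_lit 0) (XT.lf (nat_lit 0) (nat_lit 4722731214) (nat_lit 912) (nat_lit 46642505) (nat_lit 76) (nat_lit 13156221114) (nat_lit 327) (nat_lit 5) (nat_lit 339) (nat_lit 5) (nat_lit 328) (nat_lit 5)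 (nat_lit 472) (nat_lit 434) (nat_lit 234)) (XT.nd (nat_lit 78) (nat_lit 760) (nat_lit 0) (XT.lf (nat_lit 0) (nat_lit 6978558571) (nat_lit 836) (nat_lit 8473672601) (nat_lit 76) (nat_lit 2673138806) (nat_lit 317) (nat_lit 5) (nat_lit 328) (nat_lit 5) (nat_lit 318) (nat_lit 5) (nat_lit 473) (nat_lit 434) (nat_lit 233)) (XT.lf (nat_lit 0) (nat_lit 1193126876) (nat_lit 760) (nat_lit 8119865700) (nat_lit 836) (nat_lit 9015480149) (nat_lit 307) (nat_lit 5) (nat_lit 317) (nat_lit 5) (nat_lit 318) (nat_lit 5) (nat_lit 474) (nat_lit 434) (nat_lit 232)))))) (XT.nd (nat_lit 390) (nat_lit 2052) (nat_lit 0) (XT.nd (nat_lit 156) (nat_lit 836) (nat_lit 0) (XT.nd (nat_lit 78) (nat_lit 684) (nat_lit 0) (XT.lf (nat_lit 0) (nat_lit 11161731738) (nat_lit 760) (nat_lit 583168743) (nat_lit 836) (nat_lit 6789723203) (nat_lit 307) (nat_lit 5) (nat_lit 317) (nat_lit 5) (nat_lit 318) (nat_lit 5) (nat_lit 475) (nat_lit 434) (nat_lit 231)) (XT.lf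 (nat_lit 0) (nat_lit 2565951273) (nat_lit 684) (nat_lit 11716320284) (nat_lit 760) (nat_lit 4461491431) (nat_lit 298) (nat_lit 5) (nat_lit 307) (nat_lit 5) (nat_lit 308) (nat_lit 5) (nat_lit 476) (nat_lit 434) (nat_lit 230))) (XT.nd (nat_lit 78) (nat_lit 836) (nat_lit 0) (XT.lf (nat_lit 0) (nat_lit 12793254410) (nat_lit 684) (nat_lit 4124563514) (nat_lit 760) (nat_lit 2038320386) (nat_lit 298) (nat_lit 5) (nat_lit 307) (nat_lit 5) (nat_lit 308) (nat_lit 5) (nat_lit 477) (nat_lit 434) (nat_lit 229)) (XT.nd (nat_lit 78) (nat_lit 0) (nat_lit 0) (XT.lf (nat_lit 0) (nat_lit 472110717) (nat_lit 836) (nat_lit 15099017596) (nat_lit 76) (nat_lit 3600688686) (nat_lit 287) (nat_lit 5) (nat_lit 298) (nat_lit 5) (nat_lit 288) (nat_lit 5) (nat_lit 478) (nat_lit 434) (nat_lit 228)) (XT.lf (nat_lit 0) (nat_lit 3068688496) (nat_lit 836) (nat_lit 4841705085) (nat_lit 76) (nat_lit 11479883278) (nat_lit 287) (nat_lit 5) (nat_lit 298) (nat_lit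 5) (nat_lit 288) (nat_lit 5) (nat_lit 479) (nat_lit 434) (nat_lit 227))))) (XT.nd (nat_lit 234) (nat_lit 684) (nat_lit 0) (XT.nd (nat_lit 78) (nat_lit 684) (nat_lit 0) (XT.lf (nat_lit 0) (nat_lit 5689121296) (nat_lit 684) (nat_lit 59387202) (nat_lit 760) (nat_lit 13863972860) (nat_lit 278) (nat_lit 5) (nat_lit 287) (nat_lit 5) (nat_lit 288) (nat_lit 5) (nat_lit 480) (nat_lit 434) (nat_lit 226)) (XT.nd (nat_lit 78) (nat_lit 684) (nat_lit 0) (XT.lf (nat_lit 0) (nat_lit 8560677251) (nat_lit 760) (nat_lit 3400422035) (nat_lit 76) (nat_lit 7876457233) (nat_lit 278) (nat_lit 5) (nat_lit 288) (nat_lit 5) (nat_lit 279) (nat_lit 5) (nat_lit 481) (nat_lit 434) (nat_lit 225)) (XT.lf (nat_lit 0) (nat_lit 7423755461) (nat_lit 684) (nat_lit 4048475147) (nat_lit 760) (nat_lit 8594041341) (nat_lit 269) (nat_lit 5) (nat_lit 278) (nat_lit 5) (nat_lit 279) (nat_lit 5) (nat_lit 482) (nat_lit 434) (nat_lit 224)))) (XT.nd (nat_lit 78) (nat_lit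 684) (nat_lit 0) (XT.lf (nat_lit 0) (nat_lit 14485710881) (nat_lit 760) (nat_lit 1821115867) (nat_lit 76) (nat_lit 3991862582) (nat_lit 269) (nat_lit 5) (nat_lit 279) (nat_lit 5) (nat_lit 270) (nat_lit 5) (nat_lit 483) (nat_lit 434) (nat_lit 223)) (XT.nd (nat_lit 78) (nat_lit 76) (nat_lit 0) (XT.lf (nat_lit 0) (nat_lit 9305818311) (nat_lit 608) (nat_lit 8335588781) (nat_lit 684) (nat_lit 2892710566) (nat_lit 261) (nat_lit 5) (nat_lit 269) (nat_lit 5) (nat_lit 270) (nat_lit 5) (nat_lit 484) (nat_lit 434) (nat_lit 222)) (XT.lf (nat_lit 0) (nat_lit 91880553) (nat_lit 684) (nat_lit 100834150) (nat_lit 76) (nat_lit 20581389250) (nat_lit 260) (nat_lit 5) (nat_lit 269) (nat_lit 5) (nat_lit 261) (nat_lit 5) (nat_lit 485) (nat_lit 434) (nat_lit 221))))))) (XT.nd (nat_lit 858) (nat_lit 2660) (nat_lit 0) (XT.nd (nat_lit 390) (nat_lit 1748) (nat_lit 0) (XT.nd (nat_lit 156) (nat_lit 608) (nat_lit 0) (XT.nd (nat_lit 78) (nat_lit 608)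 (nat_lit 0) (XT.lf (nat_lit 0) (nat_lit 3219440288) (nat_lit 760) (nat_lit 9697276573) (nat_lit 76) (nat_lit 8099351932) (nat_lit 251) (nat_lit 5) (nat_lit 261) (nat_lit 5) (nat_lit 252) (nat_lit 5) (nat_lit 486) (nat_lit 434) (nat_lit 220)) (XT.lf (nat_lit 0) (nat_lit 1720503944) (nat_lit 608) (nat_lit 4697078265) (nat_lit 684) (nat_lit 14845131512) (nat_lit 243) (nat_lit 5) (nat_lit 251) (nat_lit 5) (nat_lit 252) (nat_lit 5) (nat_lit 487) (nat_lit 434) (nat_lit 219))) (XT.nd (nat_lit 78) (nat_lit 608) (nat_lit 0) (XT.lf (nat_lit 0) (nat_lit 9764086820) (nat_lit 684) (nat_lit 8045423907) (nat_lit 76) (nat_lit 3703094209) (nat_lit 243) (nat_lit 5) (nat_lit 252) (nat_lit 5) (nat_lit 244) (nat_lit 5) (nat_lit 488) (nat_lit 434) (nat_lit 218)) (XT.nd (nat_lit 78) (nat_lit 0) (nat_lit 0) (XT.lf (nat_lit 0) (nat_lit 3692586862) (nat_lit 608) (nat_lit 9535071667) (nat_lit 684) (nat_lit 8538834060) (nat_lit 235) (nat_lit 5)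 (nat_lit 243) (nat_lit 5) (nat_lit 244) (nat_lit 5) (nat_lit 489) (nat_lit 434) (nat_lit 217)) (XT.lf (nat_lit 0) (nat_lit 15768422099) (nat_lit 608) (nat_lit 1041182440) (nat_lit 684) (nat_lit 5214872730) (nat_lit 235) (nat_lit 5) (nat_lit 243) (nat_lit 5) (nat_lit 244) (nat_lit 5) (nat_lit 490) (nat_lit 434) (nat_lit 216))))) (XT.nd (nat_lit 234) (nat_lit 532) (nat_lit 0) (XT.nd (nat_lit 78) (nat_lit 684) (nat_lit 0) (XT.lf (nat_lit 0) (nat_lit 5819012792) (nat_lit 532) (nat_lit 14726651038) (nat_lit 608) (nat_lit 1740309629) (nat_lit 228) (nat_lit 5) (nat_lit 235) (nat_lit 5) (nat_lit 236) (nat_lit 5) (nat_lit 491) (nat_lit 434) (nat_lit 215)) (XT.nd (nat_lit 78) (nat_lit 608) (nat_lit 0) (XT.lf (nat_lit 0) (nat_lit 1824468506) (nat_lit 608) (nat_lit 4356351314) (nat_lit 76) (nat_lit 16370759181) (nat_lit 227) (nat_lit 5) (nat_lit 235) (nat_lit 5) (nat_lit 228) (nat_lit 5) (nat_lit 492) (nat_lit 434) (nat_lit 214))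 (XT.lf (nat_lit 0) (nat_lit 5501955409) (nat_lit 684) (nat_lit 14753083713) (nat_lit 76) (nat_lit 2565934370) (nat_lit 219) (nat_lit 5) (nat_lit 228) (nat_lit 5) (nat_lit 220) (nat_lit 5) (nat_lit 493) (nat_lit 434) (nat_lit 213)))) (XT.nd (nat_lit 78) (nat_lit 532) (nat_lit 0) (XT.lf (nat_lit 0) (nat_lit 9318716823) (nat_lit 684) (nat_lit 2342551553) (nat_lit 76) (nat_lit 11433174209) (nat_lit 219) (nat_lit 5) (nat_lit 228) (nat_lit 5) (nat_lit 220) (nat_lit 5) (nat_lit 494) (nat_lit 434) (nat_lit 212)) (XT.nd (nat_lit 78) (nat_lit 0) (nat_lit 0) (XT.lf (nat_lit 0) (nat_lit 10447405607) (nat_lit 532) (nat_lit 2827695404) (nat_lit 608) (nat_lit 10097015477) (nat_lit 212) (nat_lit 5) (nat_lit 219) (nat_lit 5) (nat_lit 220) (nat_lit 5) (nat_lit 495) (nat_lit 434) (nat_lit 211)) (XT.lf (nat_lit 0) (nat_lit 17362077388) (nat_lit 608) (nat_lit 176208755) (nat_lit 76) (nat_lit 6116029594) (nat_lit 212) (nat_lit 5) (nat_lit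 220) (nat_lit 5) (nat_lit 213) (nat_lit 5) (nat_lit 496) (nat_lit 434) (nat_lit 210)))))) (XT.nd (nat_lit 390) (nat_lit 988) (nat_lit 0) (XT.nd (nat_lit 156) (nat_lit 532) (nat_lit 0) (XT.nd (nat_lit 78) (nat_lit 608) (nat_lit 0) (XT.lf (nat_lit 0) (nat_lit 12972944374) (nat_lit 532) (nat_lit 8656392020) (nat_lit 608) (nat_lit 2310852849) (nat_lit 205) (nat_lit 5) (nat_lit 212) (nat_lit 5) (nat_lit 213) (nat_lit 5) (nat_lit 497) (nat_lit 434) (nat_lit 209)) (XT.lf (nat_lit 0) (nat_lit 1740858737) (nat_lit 608) (nat_lit 22067116249) (nat_lit 76) (nat_lit 423306020) (nat_lit 197) (nat_lit 5) (nat_lit 205) (nat_lit 5) (nat_lit 198) (nat_lit 5) (nat_lit 498) (nat_lit 434) (nat_lit 208))) (XT.nd (nat_lit 78) (nat_lit 532) (nat_lit 0) (XT.lf (nat_lit 0) (nat_lit 5969748927) (nat_lit 608) (nat_lit 8898772327) (nat_lit 76) (nat_lit 9656827192) (nat_lit 197) (nat_lit 5) (nat_lit 205) (nat_lit 5) (nat_lit 198) (nat_lit 5) (nat_lit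 499) (nat_lit 434) (nat_lit 207)) (XT.nd (nat_lit 78) (nat_lit 0) (nat_lit 0) (XT.lf (nat_lit 0) (nat_lit 4587419024) (nat_lit 532) (nat_lit 5721315101) (nat_lit 608) (nat_lit 14516053813) (nat_lit 190) (nat_lit 5) (nat_lit 197) (nat_lit 5) (nat_lit 198) (nat_lit 5) (nat_lit 500) (nat_lit 434) (nat_lit 206)) (XT.lf (nat_lit 0) (nat_lit 14813811279) (nat_lit 608) (nat_lit 6694611978) (nat_lit 76) (nat_lit 3620207747) (nat_lit 190) (nat_lit 5) (nat_lit 198) (nat_lit 5) (nat_lit 191) (nat_lit 5) (nat_lit 501) (nat_lit 434) (nat_lit 205))))) (XT.nd (nat_lit 54210) (nat_lit 0) (nat_lit 19608) (XT.nd (nat_lit 156) (nat_lit 532) (nat_lit 0) (XT.lf (nat_lit 0) (nat_lit 7169529426) (nat_lit 456) (nat_lit 12319752713) (nat_lit 532) (nat_lit 5947663957) (nat_lit 184) (nat_lit 5) (nat_lit 190) (nat_lit 5) (nat_lit 191) (nat_lit 5) (nat_lit 502) (nat_lit 434) (nat_lit 204)) (XT.nd (nat_lit 53976) (nat_lit 0) (nat_lit 19608) (XT.lf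 (nat_lit 0) (nat_lit 3197987004) (nat_lit 532) (nat_lit 16171787725) (nat_lit 76) (nat_lit 6698279179) (nat_lit 177) (nat_lit 5) (nat_lit 184) (nat_lit 5) (nat_lit 178) (nat_lit 5) (nat_lit 504) (nat_lit 434) (nat_lit 202)) (XT.lf (nat_lit 0) (nat_lit 2335721175) (nat_lit 1748) (nat_lit 1933258814) (nat_lit 1748) (nat_lit 1933258814) (nat_lit 435) (nat_lit 3) (nat_lit 458) (nat_lit 3) (nat_lit 458) (nat_lit 5) (nat_lit 435) (nat_lit 435) (nat_lit 270)))) (XT.nd (nat_lit 78) (nat_lit 0) (nat_lit 76) (XT.lf (nat_lit 76) (nat_lit 2098800454) (nat_lit 0) (nat_lit 3067484897) (nat_lit 1748) (nat_lit 7353117706) (nat_lit 436) (nat_lit 5) (nat_lit 435) (nat_lit 3) (nat_lit 458) (nat_lit 5) (nat_lit 436) (nat_lit 435) (nat_lit 269)) (XT.nd (nat_lit 78) (nat_lit 0) (nat_lit 0) (XT.lf (nat_lit 0) (nat_lit 5702056177) (nat_lit 1672) (nat_lit 4422916199) (nat_lit 1748) (nat_lit 2511038130) (nat_lit 436) (nat_lit 5) (nat_lit 458)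 (nat_lit 5) (nat_lit 459) (nat_lit 5) (nat_lit 437) (nat_lit 435) (nat_lit 268)) (XT.lf (nat_lit 76) (nat_lit 1690541333) (nat_lit 0) (nat_lit 4578115787) (nat_lit 1748) (nat_lit 6485894719) (nat_lit 437) (nat_lit 5) (nat_lit 436) (nat_lit 5) (nat_lit 459) (nat_lit 5) (nat_lit 438) (nat_lit 435) (nat_lit 267))))))))
noncomputable def xc215 : XT := (XT.nd (nat_lit 1716) (nat_lit 9272) (nat_lit 0) (XT.nd (nat_lit 858) (nat_lit 1368) (nat_lit 0) (XT.nd (nat_lit 390) (nat_lit 1444) (nat_lit 0) (XT.nd (nat_lit 156) (nat_lit 0) (nat_lit 0) (XT.nd (nat_lit 78) (nat_lit 0) (nat_lit 0) (XT.lf (nat_lit 0) (nat_lit 6872513453) (nat_lit 1672) (nat_lit 4902111580) (nat_lit 1748) (nat_lit 1100324453) (nat_lit 437) (nat_lit 5) (nat_lit 459) (nat_lit 5) (nat_lit 460) (nat_lit 5) (nat_lit 439) (nat_lit 435) (nat_lit 266)) (XT.lf (nat_lit 76) (nat_lit 1364468151) (nat_lit 0) (nat_lit 6152408138) (nat_lit 1748) (nat_lit 5480314084) (nat_lit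 438) (nat_lit 5) (nat_lit 437) (nat_lit 5) (nat_lit 460) (nat_lit 5) (nat_lit 440) (nat_lit 435) (nat_lit 265))) (XT.nd (nat_lit 78) (nat_lit 0) (nat_lit 76) (XT.lf (nat_lit 76) (nat_lit 7816735470) (nat_lit 0) (nat_lit 379709544) (nat_lit 1748) (nat_lit 4924988488) (nat_lit 438) (nat_lit 5) (nat_lit 437) (nat_lit 5) (nat_lit 460) (nat_lit 5) (nat_lit 441) (nat_lit 435) (nat_lit 264)) (XT.nd (nat_lit 78) (nat_lit 0) (nat_lit 0) (XT.lf (nat_lit 76) (nat_lit 1122632097) (nat_lit 0) (nat_lit 7799685175) (nat_lit 1748) (nat_lit 4325193704) (nat_lit 439) (nat_lit 5) (nat_lit 438) (nat_lit 5) (nat_lit 461) (nat_lit 5) (nat_lit 442) (nat_lit 435) (nat_lit 263)) (XT.lf (nat_lit 76) (nat_lit 7741694638) (nat_lit 0) (nat_lit 1948929254) (nat_lit 1748) (nat_lit 3684931420) (nat_lit 439) (nat_lit 5) (nat_lit 438) (nat_lit 5) (nat_lit 461) (nat_lit 5) (nat_lit 443) (nat_lit 435) (nat_lit 262))))) (XT.nd (nat_lit 234) (nat_lit 1596)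 (nat_lit 0) (XT.nd (nat_lit 78) (nat_lit 0) (nat_lit 0) (XT.lf (nat_lit 76) (nat_lit 967290757) (nat_lit 0) (nat_lit 9529425754) (nat_lit 1748) (nat_lit 3008999206) (nat_lit 440) (nat_lit 5) (nat_lit 439) (nat_lit 5) (nat_lit 462) (nat_lit 5) (nat_lit 444) (nat_lit 435) (nat_lit 261)) (XT.nd (nat_lit 78) (nat_lit 0) (nat_lit 76) (XT.lf (nat_lit 76) (nat_lit 7757516316) (nat_lit 0) (nat_lit 3602243982) (nat_lit 1748) (nat_lit 2277905954) (nat_lit 440) (nat_lit 5) (nat_lit 439) (nat_lit 5) (nat_lit 462) (nat_lit 5) (nat_lit 445) (nat_lit 435) (nat_lit 260)) (XT.lf (nat_lit 76) (nat_lit 900906513) (nat_lit 0) (nat_lit 11351288470) (nat_lit 1748) (nat_lit 1519821656) (nat_lit 441) (nat_lit 5) (nat_lit 440) (nat_lit 5) (nat_lit 463) (nat_lit 5) (nat_lit 446) (nat_lit 435) (nat_lit 259)))) (XT.nd (nat_lit 78) (nat_lit 1672) (nat_lit 0) (XT.lf (nat_lit 76) (nat_lit 7866824875) (nat_lit 0) (nat_lit 5349374457) (nat_lit 1748)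 (nat_lit 691783655) (nat_lit 441) (nat_lit 5) (nat_lit 440) (nat_lit 5) (nat_lit 463) (nat_lit 5) (nat_lit 447) (nat_lit 435) (nat_lit 258)) (XT.nd (nat_lit 78) (nat_lit 0) (nat_lit 0) (XT.lf (nat_lit 0) (nat_lit 152616928) (nat_lit 1748) (nat_lit 13121494871) (nat_lit 1824) (nat_lit 772504141) (nat_lit 418) (nat_lit 5) (nat_lit 441) (nat_lit 5) (nat_lit 442) (nat_lit 5) (nat_lit 448) (nat_lit 435) (nat_lit 257)) (XT.lf (nat_lit 0) (nat_lit 1071729955) (nat_lit 1748) (nat_lit 6121332673) (nat_lit 1824) (nat_lit 6993528902) (nat_lit 418) (nat_lit 5) (nat_lit 441) (nat_lit 5) (nat_lit 442) (nat_lit 5) (nat_lit 449) (nat_lit 435) (nat_lit 256)))))) (XT.nd (nat_lit 390) (nat_lit 1368) (nat_lit 0) (XT.nd (nat_lit 156) (nat_lit 0) (nat_lit 76) (XT.nd (nat_lit 78) (nat_lit 0) (nat_lit 76) (XT.lf (nat_lit 76) (nat_lit 1025953937) (nat_lit 0) (nat_lit 980956606) (nat_lit 1824) (nat_lit 12322505498) (nat_lit 419) (nat_lit 5) (nat_lit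 418) (nat_lit 5) (nat_lit 442) (nat_lit 5) (nat_lit 450) (nat_lit 435) (nat_lit 255)) (XT.lf (nat_lit 0) (nat_lit 3028090710) (nat_lit 1748) (nat_lit 6116644871) (nat_lit 1824) (nat_lit 5329018597) (nat_lit 419) (nat_lit 5) (nat_lit 442) (nat_lit 5) (nat_lit 443) (nat_lit 5) (nat_lit 451) (nat_lit 435) (nat_lit 254))) (XT.nd (nat_lit 78) (nat_lit 0) (nat_lit 76) (XT.lf (nat_lit 76) (nat_lit 1217011729) (nat_lit 0) (nat_lit 2858429634) (nat_lit 1824) (nat_lit 10545425772) (nat_lit 420) (nat_lit 5) (nat_lit 419) (nat_lit 5) (nat_lit 443) (nat_lit 5) (nat_lit 452) (nat_lit 435) (nat_lit 253)) (XT.nd (nat_lit 78) (nat_lit 0) (nat_lit 0) (XT.lf (nat_lit 0) (nat_lit 5199620841) (nat_lit 1748) (nat_lit 6019699149) (nat_lit 1824) (nat_lit 3550487662) (nat_lit 420) (nat_lit 5) (nat_lit 443) (nat_lit 5) (nat_lit 444) (nat_lit 5) (nat_lit 453) (nat_lit 435) (nat_lit 252)) (XT.lf (nat_lit 76) (nat_lit 1506589292) (nat_lit 0) (nat_lit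 4860064952) (nat_lit 1824) (nat_lit 8554668207) (nat_lit 421) (nat_lit 5) (nat_lit 420) (nat_lit 5) (nat_lit 444) (nat_lit 5) (nat_lit 454) (nat_lit 435) (nat_lit 251))))) (XT.nd (nat_lit 234) (nat_lit 1596) (nat_lit 0) (XT.nd (nat_lit 78) (nat_lit 0) (nat_lit 0) (XT.lf (nat_lit 0) (nat_lit 7600043870) (nat_lit 1748) (nat_lit 5827402132) (nat_lit 1824) (nat_lit 1647564056) (nat_lit 421) (nat_lit 5) (nat_lit 444) (nat_lit 5) (nat_lit 445) (nat_lit 5) (nat_lit 455) (nat_lit 435) (nat_lit 250)) (XT.nd (nat_lit 78) (nat_lit 0) (nat_lit 0) (XT.lf (nat_lit 76) (nat_lit 1897992388) (nat_lit 0) (nat_lit 6996571883) (nat_lit 1824) (nat_lit 6336480653) (nat_lit 422) (nat_lit 5) (nat_lit 421) (nat_lit 5) (nat_lit 445) (nat_lit 5) (nat_lit 456) (nat_lit 435) (nat_lit 249)) (XT.lf (nat_lit 76) (nat_lit 9850539028) (nat_lit 0) (nat_lit 395611634) (nat_lit 1824) (nat_lit 5143429026) (nat_lit 422) (nat_lit 5) (nat_lit 421) (nat_lit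 5) (nat_lit 445) (nat_lit 5) (nat_lit 457) (nat_lit 435) (nat_lit 248)))) (XT.nd (nat_lit 78) (nat_lit 1672) (nat_lit 0) (XT.lf (nat_lit 76) (nat_lit 2394720769) (nat_lit 0) (nat_lit 9278978715) (nat_lit 1824) (nat_lit 3876609710) (nat_lit 423) (nat_lit 5) (nat_lit 422) (nat_lit 5) (nat_lit 446) (nat_lit 5) (nat_lit 458) (nat_lit 435) (nat_lit 247)) (XT.nd (nat_lit 78) (nat_lit 1672) (nat_lit 0) (XT.lf (nat_lit 76) (nat_lit 10553236389) (nat_lit 0) (nat_lit 2608682678) (nat_lit 1824) (nat_lit 2551694435) (nat_lit 423) (nat_lit 5) (nat_lit 422) (nat_lit 5) (nat_lit 446) (nat_lit 5) (nat_lit 459) (nat_lit 435) (nat_lit 246)) (XT.lf (nat_lit 0) (nat_lit 3000467407) (nat_lit 1748) (nat_lit 11718659057) (nat_lit 1824) (nat_lit 1160275520) (nat_lit 400) (nat_lit 5) (nat_lit 423) (nat_lit 5) (nat_lit 424) (nat_lit 5) (nat_lit 460) (nat_lit 435) (nat_lit 245))))))) (XT.nd (nat_lit 858) (nat_lit 4560) (nat_lit 0) (XT.nd (nat_lit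 390) (nat_lit 2584) (nat_lit 0) (XT.nd (nat_lit 156) (nat_lit 912) (nat_lit 0) (XT.nd (nat_lit 78) (nat_lit 1140) (nat_lit 0) (XT.lf (nat_lit 0) (nat_lit 300269438) (nat_lit 1824) (nat_lit 4678966521) (nat_lit 76) (nat_lit 11068345222) (nat_lit 399) (nat_lit 5) (nat_lit 423) (nat_lit 5) (nat_lit 400) (nat_lit 5) (nat_lit 461) (nat_lit 435) (nat_lit 244)) (XT.lf (nat_lit 0) (nat_lit 1803881424) (nat_lit 1216) (nat_lit 12511372352) (nat_lit 76) (nat_lit 1903131362) (nat_lit 384) (nat_lit 5) (nat_lit 400) (nat_lit 5) (nat_lit 385) (nat_lit 5) (nat_lit 462) (nat_lit 435) (nat_lit 243))) (XT.nd (nat_lit 78) (nat_lit 912) (nat_lit 0) (XT.lf (nat_lit 0) (nat_lit 3394960984) (nat_lit 1216) (nat_lit 4107453265) (nat_lit 76) (nat_lit 8889045381) (nat_lit 384) (nat_lit 5) (nat_lit 400) (nat_lit 5) (nat_lit 385) (nat_lit 5) (nat_lit 463) (nat_lit 435) (nat_lit 242)) (XT.nd (nat_lit 78) (nat_lit 0) (nat_lit 0) (XT.lf (nat_lit 0)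 (nat_lit 4517488590) (nat_lit 912) (nat_lit 522658977) (nat_lit 988) (nat_lit 11527404652) (nat_lit 372) (nat_lit 5) (nat_lit 384) (nat_lit 5) (nat_lit 385) (nat_lit 5) (nat_lit 464) (nat_lit 435) (nat_lit 241)) (XT.lf (nat_lit 0) (nat_lit 6781870525) (nat_lit 988) (nat_lit 3425428629) (nat_lit 76) (nat_lit 6538597122) (nat_lit 372) (nat_lit 5) (nat_lit 385) (nat_lit 5) (nat_lit 373) (nat_lit 5) (nat_lit 465) (nat_lit 435) (nat_lit 240))))) (XT.nd (nat_lit 234) (nat_lit 912) (nat_lit 0) (XT.nd (nat_lit 78) (nat_lit 836) (nat_lit 0) (XT.lf (nat_lit 0) (nat_lit 5433213468) (nat_lit 836) (nat_lit 3157144792) (nat_lit 912) (nat_lit 8336812574) (nat_lit 361) (nat_lit 5) (nat_lit 372) (nat_lit 5) (nat_lit 373) (nat_lit 5) (nat_lit 466) (nat_lit 435) (nat_lit 239)) (XT.nd (nat_lit 78) (nat_lit 836) (nat_lit 0) (XT.lf (nat_lit 0) (nat_lit 10477634897) (nat_lit 912) (nat_lit 2628873940) (nat_lit 76) (nat_lit 4004711845) (nat_lit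 361) (nat_lit 5) (nat_lit 373) (nat_lit 5) (nat_lit 362) (nat_lit 5) (nat_lit 467) (nat_lit 435) (nat_lit 238)) (XT.lf (nat_lit 0) (nat_lit 6471219147) (nat_lit 836) (nat_lit 5987782202) (nat_lit 912) (nat_lit 4838825431) (nat_lit 350) (nat_lit 5) (nat_lit 361) (nat_lit 5) (nat_lit 362) (nat_lit 5) (nat_lit 468) (nat_lit 435) (nat_lit 237)))) (XT.nd (nat_lit 78) (nat_lit 912) (nat_lit 0) (XT.lf (nat_lit 0) (nat_lit 14499531372) (nat_lit 912) (nat_lit 1713594589) (nat_lit 76) (nat_lit 1274650411) (nat_lit 350) (nat_lit 5) (nat_lit 362) (nat_lit 5) (nat_lit 351) (nat_lit 5) (nat_lit 469) (nat_lit 435) (nat_lit 236)) (XT.nd (nat_lit 78) (nat_lit 76) (nat_lit 0) (XT.lf (nat_lit 0) (nat_lit 7635948301) (nat_lit 836) (nat_lit 9027793811) (nat_lit 912) (nat_lit 1016127499) (nat_lit 339) (nat_lit 5) (nat_lit 350) (nat_lit 5) (nat_lit 351) (nat_lit 5) (nat_lit 470) (nat_lit 435) (nat_lit 235)) (XT.lf (nat_lit 0) (nat_lit 987631681)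 (nat_lit 912) (nat_lit 692671715) (nat_lit 76) (nat_lit 16195268941) (nat_lit 338) (nat_lit 5) (nat_lit 350) (nat_lit 5) (nat_lit 339) (nat_lit 5) (nat_lit 471) (nat_lit 435) (nat_lit 234)))))) (XT.nd (nat_lit 390) (nat_lit 2204) (nat_lit 0) (XT.nd (nat_lit 156) (nat_lit 760) (nat_lit 0) (XT.nd (nat_lit 78) (nat_lit 760) (nat_lit 0) (XT.lf (nat_lit 0) (nat_lit 3107965104) (nat_lit 912) (nat_lit 9162086502) (nat_lit 76) (nat_lit 5803203017) (nat_lit 327) (nat_lit 5) (nat_lit 339) (nat_lit 5) (nat_lit 328) (nat_lit 5) (nat_lit 472) (nat_lit 435) (nat_lit 233)) (XT.lf (nat_lit 0) (nat_lit 429927439) (nat_lit 760) (nat_lit 4853261140) (nat_lit 836) (nat_lit 12991454209) (nat_lit 317) (nat_lit 5) (nat_lit 327) (nat_lit 5) (nat_lit 328) (nat_lit 5) (nat_lit 473) (nat_lit 435) (nat_lit 232))) (XT.nd (nat_lit 78) (nat_lit 760) (nat_lit 0) (XT.lf (nat_lit 0) (nat_lit 7575377268) (nat_lit 836) (nat_lit 8165176927) (nat_lit 76)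 (nat_lit 2738037167) (nat_lit 317) (nat_lit 5) (nat_lit 328) (nat_lit 5) (nat_lit 318) (nat_lit 5) (nat_lit 474) (nat_lit 435) (nat_lit 231)) (XT.nd (nat_lit 78) (nat_lit 0) (nat_lit 0) (XT.lf (nat_lit 0) (nat_lit 1691814007) (nat_lit 760) (nat_lit 8258803185) (nat_lit 836) (nat_lit 8735259393) (nat_lit 307) (nat_lit 5) (nat_lit 317) (nat_lit 5) (nat_lit 318) (nat_lit 5) (nat_lit 475) (nat_lit 435) (nat_lit 230)) (XT.lf (nat_lit 0) (nat_lit 11850480679) (nat_lit 760) (nat_lit 571832286) (nat_lit 836) (nat_lit 6474017315) (nat_lit 307) (nat_lit 5) (nat_lit 317) (nat_lit 5) (nat_lit 318) (nat_lit 5) (nat_lit 476) (nat_lit 435) (nat_lit 229))))) (XT.nd (nat_lit 234) (nat_lit 684) (nat_lit 0) (XT.nd (nat_lit 78) (nat_lit 836) (nat_lit 0) (XT.lf (nat_lit 0) (nat_lit 3088500423) (nat_lit 684) (nat_lit 11916460225) (nat_lit 760) (nat_lit 4104803796) (nat_lit 298) (nat_lit 5) (nat_lit 307) (nat_lit 5) (nat_lit 308) (nat_lit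 5) (nat_lit 477) (nat_lit 435) (nat_lit 228)) (XT.nd (nat_lit 78) (nat_lit 836) (nat_lit 0) (XT.lf (nat_lit 0) (nat_lit 13511109817) (nat_lit 684) (nat_lit 4173538642) (nat_lit 760) (nat_lit 1641912811) (nat_lit 298) (nat_lit 5) (nat_lit 307) (nat_lit 5) (nat_lit 308) (nat_lit 5) (nat_lit 478) (nat_lit 435) (nat_lit 227)) (XT.lf (nat_lit 0) (nat_lit 907803060) (nat_lit 836) (nat_lit 14927830743) (nat_lit 76) (nat_lit 3710969272) (nat_lit 287) (nat_lit 5) (nat_lit 298) (nat_lit 5) (nat_lit 288) (nat_lit 5) (nat_lit 479) (nat_lit 435) (nat_lit 226)))) (XT.nd (nat_lit 78) (nat_lit 684) (nat_lit 0) (XT.lf (nat_lit 0) (nat_lit 3547954548) (nat_lit 836) (nat_lit 4474649770) (nat_lit 76) (nat_lit 11746997426) (nat_lit 287) (nat_lit 5) (nat_lit 298) (nat_lit 5) (nat_lit 288) (nat_lit 5) (nat_lit 480) (nat_lit 435) (nat_lit 225)) (XT.nd (nat_lit 78) (nat_lit 0) (nat_lit 0) (XT.lf (nat_lit 0) (nat_lit 6263741234) (nat_lit 684)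 (nat_lit 12427812) (nat_lit 760) (nat_lit 13720187732) (nat_lit 278) (nat_lit 5) (nat_lit 287) (nat_lit 5) (nat_lit 288) (nat_lit 5) (nat_lit 481) (nat_lit 435) (nat_lit 224)) (XT.lf (nat_lit 0) (nat_lit 9136795680) (nat_lit 760) (nat_lit 3008725461) (nat_lit 76) (nat_lit 8080570374) (nat_lit 278) (nat_lit 5) (nat_lit 288) (nat_lit 5) (nat_lit 279) (nat_lit 5) (nat_lit 482) (nat_lit 435) (nat_lit 223))))))))
noncomputable def xc216 : XT := (XT.nd (nat_lit 55770) (nat_lit 0) (nat_lit 17328) (XT.nd (nat_lit 780) (nat_lit 2888) (nat_lit 0) (XT.nd (nat_lit 390) (nat_lit 1748) (nat_lit 0) (XT.nd (nat_lit 156) (nat_lit 1368) (nat_lit 0) (XT.nd (nat_lit 78) (nat_lit 0) (nat_lit 0) (XT.lf (nat_lit 0) (nat_lit 8028911210) (nat_lit 684) (nat_lit 4072694656) (nat_lit 760) (nat_lit 8357877186) (nat_lit 269) (nat_lit 5) (nat_lit 278) (nat_lit 5) (nat_lit 279) (nat_lit 5) (nat_lit 483) (nat_lit 435) (nat_lit 222)) (XT.lf (nat_lit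 0) (nat_lit 15167875201) (nat_lit 760) (nat_lit 1402218069) (nat_lit 76) (nat_lit 4126607390) (nat_lit 269) (nat_lit 5) (nat_lit 279) (nat_lit 5) (nat_lit 270) (nat_lit 5) (nat_lit 484) (nat_lit 435) (nat_lit 221))) (XT.nd (nat_lit 78) (nat_lit 760) (nat_lit 0) (XT.lf (nat_lit 0) (nat_lit 9944259266) (nat_lit 608) (nat_lit 8437667762) (nat_lit 684) (nat_lit 2555007918) (nat_lit 261) (nat_lit 5) (nat_lit 269) (nat_lit 5) (nat_lit 270) (nat_lit 5) (nat_lit 485) (nat_lit 435) (nat_lit 220)) (XT.nd (nat_lit 78) (nat_lit 0) (nat_lit 0) (XT.lf (nat_lit 0) (nat_lit 350393102) (nat_lit 684) (nat_lit 128314811) (nat_lit 760) (nat_lit 20703071413) (nat_lit 251) (nat_lit 5) (nat_lit 260) (nat_lit 5) (nat_lit 261) (nat_lit 5) (nat_lit 486) (nat_lit 435) (nat_lit 219)) (XT.lf (nat_lit 0) (nat_lit 3662372263) (nat_lit 760) (nat_lit 9438297227) (nat_lit 76) (nat_lit 8328045001) (nat_lit 251) (nat_lit 5) (nat_lit 261) (nat_lit 5) (nat_lit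 252) (nat_lit 5) (nat_lit 487) (nat_lit 435) (nat_lit 218))))) (XT.nd (nat_lit 156) (nat_lit 1140) (nat_lit 0) (XT.nd (nat_lit 78) (nat_lit 0) (nat_lit 0) (XT.lf (nat_lit 0) (nat_lit 2204859131) (nat_lit 608) (nat_lit 4715116818) (nat_lit 684) (nat_lit 14760408446) (nat_lit 243) (nat_lit 5) (nat_lit 251) (nat_lit 5) (nat_lit 252) (nat_lit 5) (nat_lit 488) (nat_lit 435) (nat_lit 217)) (XT.lf (nat_lit 0) (nat_lit 10326559643) (nat_lit 684) (nat_lit 7758257977) (nat_lit 76) (nat_lit 3850594848) (nat_lit 243) (nat_lit 5) (nat_lit 252) (nat_lit 5) (nat_lit 244) (nat_lit 5) (nat_lit 489) (nat_lit 435) (nat_lit 216))) (XT.nd (nat_lit 78) (nat_lit 532) (nat_lit 0) (XT.lf (nat_lit 0) (nat_lit 4211565150) (nat_lit 608) (nat_lit 9643527868) (nat_lit 684) (nat_lit 8339373028) (nat_lit 235) (nat_lit 5) (nat_lit 243) (nat_lit 5) (nat_lit 244) (nat_lit 5) (nat_lit 490) (nat_lit 435) (nat_lit 215)) (XT.nd (nat_lit 78) (nat_lit 532)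 (nat_lit 0) (XT.lf (nat_lit 0) (nat_lit 16520189120) (nat_lit 608) (nat_lit 981373509) (nat_lit 684) (nat_lit 4956192034) (nat_lit 235) (nat_lit 5) (nat_lit 243) (nat_lit 5) (nat_lit 244) (nat_lit 5) (nat_lit 491) (nat_lit 435) (nat_lit 214)) (XT.lf (nat_lit 0) (nat_lit 6375565211) (nat_lit 532) (nat_lit 14933173235) (nat_lit 608) (nat_lit 1415816323) (nat_lit 228) (nat_lit 5) (nat_lit 235) (nat_lit 5) (nat_lit 236) (nat_lit 5) (nat_lit 492) (nat_lit 435) (nat_lit 213)))))) (XT.nd (nat_lit 390) (nat_lit 1140) (nat_lit 0) (XT.nd (nat_lit 156) (nat_lit 1064) (nat_lit 0) (XT.nd (nat_lit 78) (nat_lit 608) (nat_lit 0) (XT.lf (nat_lit 0) (nat_lit 2208592407) (nat_lit 608) (nat_lit 4007225877) (nat_lit 76) (nat_lit 16779748359) (nat_lit 227) (nat_lit 5) (nat_lit 235) (nat_lit 5) (nat_lit 228) (nat_lit 5) (nat_lit 493) (nat_lit 435) (nat_lit 212)) (XT.lf (nat_lit 0) (nat_lit 5956209210) (nat_lit 684) (nat_lit 14608383628) (nat_lit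 76) (nat_lit 2705826373) (nat_lit 219) (nat_lit 5) (nat_lit 228) (nat_lit 5) (nat_lit 220) (nat_lit 5) (nat_lit 494) (nat_lit 435) (nat_lit 211))) (XT.nd (nat_lit 78) (nat_lit 1064) (nat_lit 0) (XT.lf (nat_lit 0) (nat_lit 9842556544) (nat_lit 684) (nat_lit 1958263605) (nat_lit 76) (nat_lit 11748674276) (nat_lit 219) (nat_lit 5) (nat_lit 228) (nat_lit 5) (nat_lit 220) (nat_lit 5) (nat_lit 495) (nat_lit 435) (nat_lit 210)) (XT.nd (nat_lit 78) (nat_lit 532) (nat_lit 0) (XT.lf (nat_lit 0) (nat_lit 11084656258) (nat_lit 532) (nat_lit 2789576014) (nat_lit 608) (nat_lit 9958567976) (nat_lit 212) (nat_lit 5) (nat_lit 219) (nat_lit 5) (nat_lit 220) (nat_lit 5) (nat_lit 496) (nat_lit 435) (nat_lit 209)) (XT.lf (nat_lit 0) (nat_lit 249466739) (nat_lit 532) (nat_lit 17789162020) (nat_lit 608) (nat_lit 6082102798) (nat_lit 205) (nat_lit 5) (nat_lit 212) (nat_lit 5) (nat_lit 213) (nat_lit 5) (nat_lit 497) (nat_lit 435) (nat_lit 208)))))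 (XT.nd (nat_lit 234) (nat_lit 532) (nat_lit 0) (XT.nd (nat_lit 78) (nat_lit 608) (nat_lit 0) (XT.lf (nat_lit 0) (nat_lit 13655528973) (nat_lit 532) (nat_lit 8730406186) (nat_lit 608) (nat_lit 2026494984) (nat_lit 205) (nat_lit 5) (nat_lit 212) (nat_lit 5) (nat_lit 213) (nat_lit 5) (nat_lit 498) (nat_lit 435) (nat_lit 207)) (XT.nd (nat_lit 78) (nat_lit 0) (nat_lit 0) (XT.lf (nat_lit 0) (nat_lit 2098939152) (nat_lit 608) (nat_lit 22077860719) (nat_lit 76) (nat_lit 532562055) (nat_lit 197) (nat_lit 5) (nat_lit 205) (nat_lit 5) (nat_lit 198) (nat_lit 5) (nat_lit 499) (nat_lit 435) (nat_lit 206)) (XT.lf (nat_lit 0) (nat_lit 6406068651) (nat_lit 608) (nat_lit 8654593013) (nat_lit 76) (nat_lit 9948777378) (nat_lit 197) (nat_lit 5) (nat_lit 205) (nat_lit 5) (nat_lit 198) (nat_lit 5) (nat_lit 500) (nat_lit 435) (nat_lit 205)))) (XT.nd (nat_lit 78) (nat_lit 0) (nat_lit 0) (XT.lf (nat_lit 0) (nat_lit 5098544831) (nat_lit 532) (nat_lit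 5729797388) (nat_lit 608) (nat_lit 14486596459) (nat_lit 190) (nat_lit 5) (nat_lit 197) (nat_lit 5) (nat_lit 198) (nat_lit 5) (nat_lit 501) (nat_lit 435) (nat_lit 204)) (XT.nd (nat_lit 54210) (nat_lit 0) (nat_lit 18620) (XT.lf (nat_lit 0) (nat_lit 15418049533) (nat_lit 608) (nat_lit 6411803642) (nat_lit 76) (nat_lit 3795116354) (nat_lit 190) (nat_lit 5) (nat_lit 198) (nat_lit 5) (nat_lit 191) (nat_lit 5) (nat_lit 502) (nat_lit 435) (nat_lit 203)) (XT.lf (nat_lit 0) (nat_lit 2814116297) (nat_lit 1748) (nat_lit 1751688965) (nat_lit 1748) (nat_lit 1751688965) (nat_lit 435) (nat_lit 3) (nat_lit 458) (nat_lit 3) (nat_lit 458) (nat_lit 5) (nat_lit 436) (nat_lit 436) (nat_lit 268))))))) (XT.nd (nat_lit 858) (nat_lit 1292) (nat_lit 0) (XT.nd (nat_lit 390) (nat_lit 0) (nat_lit 152) (XT.nd (nat_lit 156) (nat_lit 0) (nat_lit 76) (XT.nd (nat_lit 78) (nat_lit 0) (nat_lit 76) (XT.lf (nat_lit 76) (nat_lit 2578348686) (nat_lit 0) (nat_lit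 3540536124) (nat_lit 1748) (nat_lit 6633615461) (nat_lit 436) (nat_lit 5) (nat_lit 435) (nat_lit 3) (nat_lit 458) (nat_lit 5) (nat_lit 437) (nat_lit 436) (nat_lit 267)) (XT.lf (nat_lit 0) (nat_lit 6646097998) (nat_lit 1672) (nat_lit 4062809710) (nat_lit 1748) (nat_lit 2162923609) (nat_lit 436) (nat_lit 5) (nat_lit 458) (nat_lit 5) (nat_lit 459) (nat_lit 5) (nat_lit 438) (nat_lit 436) (nat_lit 266))) (XT.nd (nat_lit 78) (nat_lit 0) (nat_lit 76) (XT.lf (nat_lit 76) (nat_lit 2169965889) (nat_lit 0) (nat_lit 5040683769) (nat_lit 1748) (nat_lit 5782367317) (nat_lit 437) (nat_lit 5) (nat_lit 436) (nat_lit 5) (nat_lit 459) (nat_lit 5) (nat_lit 439) (nat_lit 436) (nat_lit 265)) (XT.nd (nat_lit 78) (nat_lit 0) (nat_lit 0) (XT.lf (nat_lit 0) (nat_lit 7808209389) (nat_lit 1672) (nat_lit 4544616120) (nat_lit 1748) (nat_lit 763370295) (nat_lit 437) (nat_lit 5) (nat_lit 459) (nat_lit 5) (nat_lit 460) (nat_lit 5) (nat_lit 440) (nat_lit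 436) (nat_lit 264)) (XT.lf (nat_lit 76) (nat_lit 1844298247) (nat_lit 0) (nat_lit 6608447553) (nat_lit 1748) (nat_lit 4788395625) (nat_lit 438) (nat_lit 5) (nat_lit 437) (nat_lit 5) (nat_lit 460) (nat_lit 5) (nat_lit 441) (nat_lit 436) (nat_lit 263))))) (XT.nd (nat_lit 234) (nat_lit 0) (nat_lit 152) (XT.nd (nat_lit 78) (nat_lit 0) (nat_lit 76) (XT.lf (nat_lit 76) (nat_lit 8416737565) (nat_lit 0) (nat_lit 713765747) (nat_lit 1748) (nat_lit 4237679688) (nat_lit 438) (nat_lit 5) (nat_lit 437) (nat_lit 5) (nat_lit 460) (nat_lit 5) (nat_lit 442) (nat_lit 436) (nat_lit 262)) (XT.nd (nat_lit 78) (nat_lit 0) (nat_lit 0) (XT.lf (nat_lit 76) (nat_lit 1603514943) (nat_lit 0) (nat_lit 8253175881) (nat_lit 1748) (nat_lit 3640380665) (nat_lit 439) (nat_lit 5) (nat_lit 438) (nat_lit 5) (nat_lit 461) (nat_lit 5) (nat_lit 443) (nat_lit 436) (nat_lit 261)) (XT.lf (nat_lit 76) (nat_lit 8345969907) (nat_lit 0) (nat_lit 2279571567) (nat_lit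 1748) (nat_lit 3002436997) (nat_lit 439) (nat_lit 5) (nat_lit 438) (nat_lit 5) (nat_lit 461) (nat_lit 5) (nat_lit 444) (nat_lit 436) (nat_lit 260)))) (XT.nd (nat_lit 78) (nat_lit 0) (nat_lit 0) (XT.lf (nat_lit 76) (nat_lit 1449990997) (nat_lit 0) (nat_lit 9984385336) (nat_lit 1748) (nat_lit 2326638556) (nat_lit 440) (nat_lit 5) (nat_lit 439) (nat_lit 5) (nat_lit 462) (nat_lit 5) (nat_lit 445) (nat_lit 436) (nat_lit 259)) (XT.nd (nat_lit 78) (nat_lit 0) (nat_lit 76) (XT.lf (nat_lit 76) (nat_lit 8366935687) (nat_lit 0) (nat_lit 3933476183) (nat_lit 1748) (nat_lit 1595483059) (nat_lit 440) (nat_lit 5) (nat_lit 439) (nat_lit 5) (nat_lit 462) (nat_lit 5) (nat_lit 446) (nat_lit 436) (nat_lit 258)) (XT.lf (nat_lit 76) (nat_lit 1386305913) (nat_lit 0) (nat_lit 11811784725) (nat_lit 1748) (nat_lit 835098788) (nat_lit 441) (nat_lit 5) (nat_lit 440) (nat_lit 5) (nat_lit 463) (nat_lit 5) (nat_lit 447) (nat_lit 436) (nat_lit 257))))))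 (XT.nd (nat_lit 390) (nat_lit 0) (nat_lit 76) (XT.nd (nat_lit 156) (nat_lit 0) (nat_lit 0) (XT.nd (nat_lit 78) (nat_lit 1672) (nat_lit 0) (XT.lf (nat_lit 76) (nat_lit 8482378303) (nat_lit 0) (nat_lit 5685254580) (nat_lit 1748) (nat_lit 4521974) (nat_lit 441) (nat_lit 5) (nat_lit 440) (nat_lit 5) (nat_lit 463) (nat_lit 5) (nat_lit 448) (nat_lit 436) (nat_lit 256)) (XT.lf (nat_lit 0) (nat_lit 835613774) (nat_lit 1748) (nat_lit 12904078145) (nat_lit 1824) (nat_lit 574021389) (nat_lit 418) (nat_lit 5) (nat_lit 441) (nat_lit 5) (nat_lit 442) (nat_lit 5) (nat_lit 449) (nat_lit 436) (nat_lit 255))) (XT.nd (nat_lit 78) (nat_lit 0) (nat_lit 0) (XT.lf (nat_lit 0) (nat_lit 1759776815) (nat_lit 1748) (nat_lit 5773321460) (nat_lit 1824) (nat_lit 6923661406) (nat_lit 418) (nat_lit 5) (nat_lit 441) (nat_lit 5) (nat_lit 442) (nat_lit 5) (nat_lit 450) (nat_lit 436) (nat_lit 254)) (XT.nd (nat_lit 78) (nat_lit 0) (nat_lit 76) (XT.lf (nat_lit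 76) (nat_lit 1513815896) (nat_lit 0) (nat_lit 1189808591) (nat_lit 1824) (nat_lit 11899021465) (nat_lit 419) (nat_lit 5) (nat_lit 418) (nat_lit 5) (nat_lit 442) (nat_lit 5) (nat_lit 451) (nat_lit 436) (nat_lit 253)) (XT.lf (nat_lit 0) (nat_lit 3731149688) (nat_lit 1748) (nat_lit 5766497459) (nat_lit 1824) (nat_lit 5252509724) (nat_lit 419) (nat_lit 5) (nat_lit 442) (nat_lit 5) (nat_lit 443) (nat_lit 5) (nat_lit 452) (nat_lit 436) (nat_lit 252))))) (XT.nd (nat_lit 234) (nat_lit 0) (nat_lit 152) (XT.nd (nat_lit 78) (nat_lit 0) (nat_lit 76) (XT.lf (nat_lit 76) (nat_lit 1710723850) (nat_lit 0) (nat_lit 3079172995) (nat_lit 1824) (nat_lit 10110510615) (nat_lit 420) (nat_lit 5) (nat_lit 419) (nat_lit 5) (nat_lit 443) (nat_lit 5) (nat_lit 453) (nat_lit 436) (nat_lit 251)) (XT.nd (nat_lit 78) (nat_lit 0) (nat_lit 0) (XT.lf (nat_lit 0) (nat_lit 5923107982) (nat_lit 1748) (nat_lit 5666258876) (nat_lit 1824) (nat_lit 3463233243)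 (nat_lit 420) (nat_lit 5) (nat_lit 443) (nat_lit 5) (nat_lit 444) (nat_lit 5) (nat_lit 454) (nat_lit 436) (nat_lit 250)) (XT.lf (nat_lit 76) (nat_lit 2007438003) (nat_lit 0) (nat_lit 5096953301) (nat_lit 1824) (nat_lit 8102939900) (nat_lit 421) (nat_lit 5) (nat_lit 420) (nat_lit 5) (nat_lit 444) (nat_lit 5) (nat_lit 455) (nat_lit 436) (nat_lit 249)))) (XT.nd (nat_lit 78) (nat_lit 0) (nat_lit 0) (XT.lf (nat_lit 0) (nat_lit 8349590859) (nat_lit 1748) (nat_lit 5469399623) (nat_lit 1824) (nat_lit 1545363348) (nat_lit 421) (nat_lit 5) (nat_lit 444) (nat_lit 5) (nat_lit 445) (nat_lit 5) (nat_lit 456) (nat_lit 436) (nat_lit 248)) (XT.nd (nat_lit 78) (nat_lit 0) (nat_lit 0) (XT.lf (nat_lit 76) (nat_lit 2407380744) (nat_lit 0) (nat_lit 7253965160) (nat_lit 1824) (nat_lit 5862340634) (nat_lit 422) (nat_lit 5) (nat_lit 421) (nat_lit 5) (nat_lit 445) (nat_lit 5) (nat_lit 457) (nat_lit 436) (nat_lit 247)) (XT.lf (nat_lit 76) (nat_lit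 10509734620) (nat_lit 0) (nat_lit 518682534) (nat_lit 1824) (nat_lit 4657209732) (nat_lit 422) (nat_lit 5) (nat_lit 421) (nat_lit 5) (nat_lit 445) (nat_lit 5) (nat_lit 458) (nat_lit 436) (nat_lit 246))))))))
noncomputable def xc217 : XT := (XT.nd (nat_lit 1716) (nat_lit 7372) (nat_lit 0) (XT.nd (nat_lit 858) (nat_lit 4788) (nat_lit 0) (XT.nd (nat_lit 390) (nat_lit 2584) (nat_lit 0) (XT.nd (nat_lit 156) (nat_lit 2888) (nat_lit 0) (XT.nd (nat_lit 78) (nat_lit 0) (nat_lit 0) (XT.lf (nat_lit 76) (nat_lit 2914169204) (nat_lit 0) (nat_lit 9561355903) (nat_lit 1824) (nat_lit 3374229585) (nat_lit 423) (nat_lit 5) (nat_lit 422) (nat_lit 5) (nat_lit 446) (nat_lit 5) (nat_lit 459) (nat_lit 436) (nat_lit 245)) (XT.lf (nat_lit 76) (nat_lit 11226608979) (nat_lit 0) (nat_lit 2755755953) (nat_lit 1824) (nat_lit 2034186834) (nat_lit 423) (nat_lit 5) (nat_lit 422) (nat_lit 5) (nat_lit 446) (nat_lit 5) (nat_lit 460) (nat_lit 436) (nat_lit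 244))) (XT.nd (nat_lit 78) (nat_lit 1216) (nat_lit 0) (XT.lf (nat_lit 0) (nat_lit 3531614656) (nat_lit 1748) (nat_lit 12030631053) (nat_lit 1824) (nat_lit 623583446) (nat_lit 400) (nat_lit 5) (nat_lit 423) (nat_lit 5) (nat_lit 424) (nat_lit 5) (nat_lit 461) (nat_lit 436) (nat_lit 243)) (XT.nd (nat_lit 78) (nat_lit 1140) (nat_lit 0) (XT.lf (nat_lit 0) (nat_lit 847994853) (nat_lit 1824) (nat_lit 4303267869) (nat_lit 76) (nat_lit 11206256777) (nat_lit 399) (nat_lit 5) (nat_lit 423) (nat_lit 5) (nat_lit 400) (nat_lit 5) (nat_lit 462) (nat_lit 436) (nat_lit 242)) (XT.lf (nat_lit 0) (nat_lit 2373642863) (nat_lit 1216) (nat_lit 12284110201) (nat_lit 76) (nat_lit 1874150703) (nat_lit 384) (nat_lit 5) (nat_lit 400) (nat_lit 5) (nat_lit 385) (nat_lit 5) (nat_lit 463) (nat_lit 436) (nat_lit 241))))) (XT.nd (nat_lit 234) (nat_lit 1672) (nat_lit 0) (XT.nd (nat_lit 78) (nat_lit 912) (nat_lit 0) (XT.lf (nat_lit 0) (nat_lit 3986079626)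 (nat_lit 1216) (nat_lit 3721475274) (nat_lit 76) (nat_lit 9001097576) (nat_lit 384) (nat_lit 5) (nat_lit 400) (nat_lit 5) (nat_lit 385) (nat_lit 5) (nat_lit 464) (nat_lit 436) (nat_lit 240)) (XT.nd (nat_lit 78) (nat_lit 0) (nat_lit 0) (XT.lf (nat_lit 0) (nat_lit 5072885635) (nat_lit 912) (nat_lit 584044496) (nat_lit 988) (nat_lit 11231484953) (nat_lit 372) (nat_lit 5) (nat_lit 384) (nat_lit 5) (nat_lit 385) (nat_lit 5) (nat_lit 465) (nat_lit 436) (nat_lit 239)) (XT.lf (nat_lit 0) (nat_lit 7423046098) (nat_lit 988) (nat_lit 3027401771) (nat_lit 76) (nat_lit 6620090288) (nat_lit 372) (nat_lit 5) (nat_lit 385) (nat_lit 5) (nat_lit 373) (nat_lit 5) (nat_lit 466) (nat_lit 436) (nat_lit 238)))) (XT.nd (nat_lit 78) (nat_lit 836) (nat_lit 0) (XT.lf (nat_lit 0) (nat_lit 6005343856) (nat_lit 836) (nat_lit 3255456348) (nat_lit 912) (nat_lit 7994779311) (nat_lit 361) (nat_lit 5) (nat_lit 372) (nat_lit 5) (nat_lit 373) (nat_lit 5)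 (nat_lit 467) (nat_lit 436) (nat_lit 237)) (XT.nd (nat_lit 78) (nat_lit 836) (nat_lit 0) (XT.lf (nat_lit 0) (nat_lit 11175821361) (nat_lit 912) (nat_lit 2216912995) (nat_lit 76) (nat_lit 4050779202) (nat_lit 361) (nat_lit 5) (nat_lit 373) (nat_lit 5) (nat_lit 362) (nat_lit 5) (nat_lit 468) (nat_lit 436) (nat_lit 236)) (XT.lf (nat_lit 0) (nat_lit 7062125780) (nat_lit 836) (nat_lit 6128104556) (nat_lit 912) (nat_lit 4443756252) (nat_lit 350) (nat_lit 5) (nat_lit 361) (nat_lit 5) (nat_lit 362) (nat_lit 5) (nat_lit 469) (nat_lit 436) (nat_lit 235)))))) (XT.nd (nat_lit 390) (nat_lit 2280) (nat_lit 0) (XT.nd (nat_lit 156) (nat_lit 1672) (nat_lit 0) (XT.nd (nat_lit 78) (nat_lit 836) (nat_lit 0) (XT.lf (nat_lit 0) (nat_lit 15261988105) (nat_lit 912) (nat_lit 1285697352) (nat_lit 76) (nat_lit 1280244426) (nat_lit 350) (nat_lit 5) (nat_lit 362) (nat_lit 5) (nat_lit 351) (nat_lit 5) (nat_lit 470) (nat_lit 436) (nat_lit 234)) (XT.lf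 (nat_lit 0) (nat_lit 8247795808) (nat_lit 836) (nat_lit 9215404176) (nat_lit 912) (nat_lit 560793657) (nat_lit 339) (nat_lit 5) (nat_lit 350) (nat_lit 5) (nat_lit 351) (nat_lit 5) (nat_lit 471) (nat_lit 436) (nat_lit 233))) (XT.nd (nat_lit 78) (nat_lit 1596) (nat_lit 0) (XT.lf (nat_lit 0) (nat_lit 1467598112) (nat_lit 912) (nat_lit 250139241) (nat_lit 76) (nat_lit 16505998267) (nat_lit 338) (nat_lit 5) (nat_lit 350) (nat_lit 5) (nat_lit 339) (nat_lit 5) (nat_lit 472) (nat_lit 436) (nat_lit 232)) (XT.nd (nat_lit 78) (nat_lit 760) (nat_lit 0) (XT.lf (nat_lit 0) (nat_lit 3624253197) (nat_lit 912) (nat_lit 8882716253) (nat_lit 76) (nat_lit 5918526624) (nat_lit 327) (nat_lit 5) (nat_lit 339) (nat_lit 5) (nat_lit 328) (nat_lit 5) (nat_lit 473) (nat_lit 436) (nat_lit 231)) (XT.lf (nat_lit 0) (nat_lit 898094467) (nat_lit 760) (nat_lit 4938966012) (nat_lit 836) (nat_lit 12793972702) (nat_lit 317) (nat_lit 5) (nat_lit 327) (nat_lit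 5) (nat_lit 328) (nat_lit 5) (nat_lit 474) (nat_lit 436) (nat_lit 230))))) (XT.nd (nat_lit 234) (nat_lit 1520) (nat_lit 0) (XT.nd (nat_lit 78) (nat_lit 760) (nat_lit 0) (XT.lf (nat_lit 0) (nat_lit 8166376860) (nat_lit 836) (nat_lit 7869071462) (nat_lit 76) (nat_lit 2803789438) (nat_lit 317) (nat_lit 5) (nat_lit 328) (nat_lit 5) (nat_lit 318) (nat_lit 5) (nat_lit 475) (nat_lit 436) (nat_lit 229)) (XT.nd (nat_lit 78) (nat_lit 0) (nat_lit 0) (XT.lf (nat_lit 0) (nat_lit 2182036862) (nat_lit 760) (nat_lit 8401430393) (nat_lit 836) (nat_lit 8467317177) (nat_lit 307) (nat_lit 5) (nat_lit 317) (nat_lit 5) (nat_lit 318) (nat_lit 5) (nat_lit 476) (nat_lit 436) (nat_lit 228)) (XT.lf (nat_lit 0) (nat_lit 12534928112) (nat_lit 760) (nat_lit 561162210) (nat_lit 836) (nat_lit 6169529619) (nat_lit 307) (nat_lit 5) (nat_lit 317) (nat_lit 5) (nat_lit 318) (nat_lit 5) (nat_lit 477) (nat_lit 436) (nat_lit 227)))) (XT.nd (nat_lit 78) (nat_lit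 836) (nat_lit 0) (XT.lf (nat_lit 0) (nat_lit 3603202117) (nat_lit 684) (nat_lit 12121930467) (nat_lit 760) (nat_lit 3758297928) (nat_lit 298) (nat_lit 5) (nat_lit 307) (nat_lit 5) (nat_lit 308) (nat_lit 5) (nat_lit 478) (nat_lit 436) (nat_lit 226)) (XT.nd (nat_lit 78) (nat_lit 836) (nat_lit 0) (XT.lf (nat_lit 0) (nat_lit 14225382685) (nat_lit 684) (nat_lit 4224794746) (nat_lit 760) (nat_lit 1254553082) (nat_lit 298) (nat_lit 5) (nat_lit 307) (nat_lit 5) (nat_lit 308) (nat_lit 5) (nat_lit 479) (nat_lit 436) (nat_lit 225)) (XT.lf (nat_lit 0) (nat_lit 1335657437) (nat_lit 836) (nat_lit 14771593812) (nat_lit 76) (nat_lit 3821969522) (nat_lit 287) (nat_lit 5) (nat_lit 298) (nat_lit 5) (nat_lit 288) (nat_lit 5) (nat_lit 480) (nat_lit 436) (nat_lit 224))))))) (XT.nd (nat_lit 858) (nat_lit 3420) (nat_lit 0) (XT.nd (nat_lit 390) (nat_lit 2584) (nat_lit 0) (XT.nd (nat_lit 156) (nat_lit 684) (nat_lit 0) (XT.nd (nat_lit 78) (nat_lit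 684) (nat_lit 0) (XT.lf (nat_lit 0) (nat_lit 4020578655) (nat_lit 836) (nat_lit 4118266741) (nat_lit 76) (nat_lit 12017997046) (nat_lit 287) (nat_lit 5) (nat_lit 298) (nat_lit 5) (nat_lit 288) (nat_lit 5) (nat_lit 481) (nat_lit 436) (nat_lit 223)) (XT.lf (nat_lit 0) (nat_lit 6798575697) (nat_lit 760) (nat_lit 13556494361) (nat_lit 76) (nat_lit 33160467) (nat_lit 278) (nat_lit 5) (nat_lit 288) (nat_lit 5) (nat_lit 279) (nat_lit 5) (nat_lit 482) (nat_lit 436) (nat_lit 222))) (XT.nd (nat_lit 78) (nat_lit 684) (nat_lit 0) (XT.lf (nat_lit 0) (nat_lit 9708713527) (nat_lit 760) (nat_lit 2627045861) (nat_lit 76) (nat_lit 8286956864) (nat_lit 278) (nat_lit 5) (nat_lit 288) (nat_lit 5) (nat_lit 279) (nat_lit 5) (nat_lit 483) (nat_lit 436) (nat_lit 221)) (XT.nd (nat_lit 78) (nat_lit 0) (nat_lit 0) (XT.lf (nat_lit 0) (nat_lit 8628436609) (nat_lit 684) (nat_lit 4099602227) (nat_lit 760) (nat_lit 8132834631) (nat_lit 269) (nat_lit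 5) (nat_lit 278) (nat_lit 5) (nat_lit 279) (nat_lit 5) (nat_lit 484) (nat_lit 436) (nat_lit 220)) (XT.lf (nat_lit 0) (nat_lit 15848443492) (nat_lit 760) (nat_lit 992622950) (nat_lit 76) (nat_lit 4261914967) (nat_lit 269) (nat_lit 5) (nat_lit 279) (nat_lit 5) (nat_lit 270) (nat_lit 5) (nat_lit 485) (nat_lit 436) (nat_lit 219))))) (XT.nd (nat_lit 234) (nat_lit 1216) (nat_lit 0) (XT.nd (nat_lit 78) (nat_lit 760) (nat_lit 0) (XT.lf (nat_lit 0) (nat_lit 10577904724) (nat_lit 608) (nat_lit 8544298094) (nat_lit 684) (nat_lit 2225911171) (nat_lit 261) (nat_lit 5) (nat_lit 269) (nat_lit 5) (nat_lit 270) (nat_lit 5) (nat_lit 486) (nat_lit 436) (nat_lit 218)) (XT.nd (nat_lit 78) (nat_lit 0) (nat_lit 0) (XT.lf (nat_lit 0) (nat_lit 794358642) (nat_lit 684) (nat_lit 64613932) (nat_lit 760) (nat_lit 20738925770) (nat_lit 251) (nat_lit 5) (nat_lit 260) (nat_lit 5) (nat_lit 261) (nat_lit 5) (nat_lit 487) (nat_lit 436) (nat_lit 217))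 (XT.lf (nat_lit 0) (nat_lit 4099463584) (nat_lit 760) (nat_lit 9191725920) (nat_lit 76) (nat_lit 8558721656) (nat_lit 251) (nat_lit 5) (nat_lit 261) (nat_lit 5) (nat_lit 252) (nat_lit 5) (nat_lit 488) (nat_lit 436) (nat_lit 216)))) (XT.nd (nat_lit 78) (nat_lit 608) (nat_lit 0) (XT.lf (nat_lit 0) (nat_lit 2681429505) (nat_lit 608) (nat_lit 4736463548) (nat_lit 684) (nat_lit 14688809909) (nat_lit 243) (nat_lit 5) (nat_lit 251) (nat_lit 5) (nat_lit 252) (nat_lit 5) (nat_lit 489) (nat_lit 436) (nat_lit 215)) (XT.nd (nat_lit 78) (nat_lit 608) (nat_lit 0) (XT.lf (nat_lit 0) (nat_lit 10886023445) (nat_lit 684) (nat_lit 7482748004) (nat_lit 76) (nat_lit 3998193785) (nat_lit 243) (nat_lit 5) (nat_lit 252) (nat_lit 5) (nat_lit 244) (nat_lit 5) (nat_lit 490) (nat_lit 436) (nat_lit 214)) (XT.lf (nat_lit 0) (nat_lit 4723638197) (nat_lit 608) (nat_lit 9757346876) (nat_lit 684) (nat_lit 8150299557) (nat_lit 235) (nat_lit 5) (nat_lit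 243) (nat_lit 5) (nat_lit 244) (nat_lit 5) (nat_lit 491) (nat_lit 436) (nat_lit 213)))))) (XT.nd (nat_lit 390) (nat_lit 2204) (nat_lit 0) (XT.nd (nat_lit 156) (nat_lit 684) (nat_lit 0) (XT.nd (nat_lit 78) (nat_lit 532) (nat_lit 0) (XT.lf (nat_lit 0) (nat_lit 17270045592) (nat_lit 608) (nat_lit 923499460) (nat_lit 684) (nat_lit 4706432609) (nat_lit 235) (nat_lit 5) (nat_lit 243) (nat_lit 5) (nat_lit 244) (nat_lit 5) (nat_lit 492) (nat_lit 436) (nat_lit 212)) (XT.lf (nat_lit 0) (nat_lit 6926156257) (nat_lit 532) (nat_lit 15147243443) (nat_lit 608) (nat_lit 1098785187) (nat_lit 228) (nat_lit 5) (nat_lit 235) (nat_lit 5) (nat_lit 236) (nat_lit 5) (nat_lit 493) (nat_lit 436) (nat_lit 211))) (XT.nd (nat_lit 78) (nat_lit 608) (nat_lit 0) (XT.lf (nat_lit 0) (nat_lit 2586899714) (nat_lit 608) (nat_lit 3668058147) (nat_lit 76) (nat_lit 17193749703) (nat_lit 227) (nat_lit 5) (nat_lit 235) (nat_lit 5) (nat_lit 228) (nat_lit 5) (nat_lit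 494) (nat_lit 436) (nat_lit 210)) (XT.nd (nat_lit 78) (nat_lit 0) (nat_lit 0) (XT.lf (nat_lit 0) (nat_lit 6406181811) (nat_lit 684) (nat_lit 14477866027) (nat_lit 76) (nat_lit 2845076805) (nat_lit 219) (nat_lit 5) (nat_lit 228) (nat_lit 5) (nat_lit 220) (nat_lit 5) (nat_lit 495) (nat_lit 436) (nat_lit 209)) (XT.lf (nat_lit 0) (nat_lit 10363768868) (nat_lit 684) (nat_lit 1583031549) (nat_lit 76) (nat_lit 12067112374) (nat_lit 219) (nat_lit 5) (nat_lit 228) (nat_lit 5) (nat_lit 220) (nat_lit 5) (nat_lit 496) (nat_lit 436) (nat_lit 208))))) (XT.nd (nat_lit 234) (nat_lit 1140) (nat_lit 0) (XT.nd (nat_lit 78) (nat_lit 532) (nat_lit 0) (XT.lf (nat_lit 0) (nat_lit 11718020413) (nat_lit 532) (nat_lit 2754370516) (nat_lit 608) (nat_lit 9830569200) (nat_lit 212) (nat_lit 5) (nat_lit 219) (nat_lit 5) (nat_lit 220) (nat_lit 5) (nat_lit 497) (nat_lit 436) (nat_lit 207)) (XT.nd (nat_lit 78) (nat_lit 0) (nat_lit 0) (XT.lf (nat_lit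 0) (nat_lit 669285203) (nat_lit 532) (nat_lit 18047774991) (nat_lit 608) (nat_lit 5879651792) (nat_lit 205) (nat_lit 5) (nat_lit 212) (nat_lit 5) (nat_lit 213) (nat_lit 5) (nat_lit 498) (nat_lit 436) (nat_lit 206)) (XT.lf (nat_lit 0) (nat_lit 14335334777) (nat_lit 532) (nat_lit 8809749339) (nat_lit 608) (nat_lit 1749286588) (nat_lit 205) (nat_lit 5) (nat_lit 212) (nat_lit 5) (nat_lit 213) (nat_lit 5) (nat_lit 499) (nat_lit 436) (nat_lit 205)))) (XT.nd (nat_lit 78) (nat_lit 532) (nat_lit 0) (XT.lf (nat_lit 0) (nat_lit 2451628469) (nat_lit 608) (nat_lit 22105540717) (nat_lit 76) (nat_lit 640089416) (nat_lit 197) (nat_lit 5) (nat_lit 205) (nat_lit 5) (nat_lit 198) (nat_lit 5) (nat_lit 500) (nat_lit 436) (nat_lit 204)) (XT.nd (nat_lit 156) (nat_lit 532) (nat_lit 0) (XT.lf (nat_lit 0) (nat_lit 6838808194) (nat_lit 608) (nat_lit 8421922897) (nat_lit 76) (nat_lit 10242729513) (nat_lit 197) (nat_lit 5) (nat_lit 205) (nat_lit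 5) (nat_lit 198) (nat_lit 5) (nat_lit 501) (nat_lit 436) (nat_lit 203)) (XT.lf (nat_lit 0) (nat_lit 16022414012) (nat_lit 608) (nat_lit 6139520131) (nat_lit 76) (nat_lit 3969542760) (nat_lit 190) (nat_lit 5) (nat_lit 198) (nat_lit 5) (nat_lit 191) (nat_lit 5) (nat_lit 503) (nat_lit 436) (nat_lit 201))))))))
noncomputable def xc218 : XT := (XT.nd (nat_lit 1716) (nat_lit 9044) (nat_lit 0) (XT.nd (nat_lit 858) (nat_lit 1368) (nat_lit 0) (XT.nd (nat_lit 390) (nat_lit 0) (nat_lit 152) (XT.nd (nat_lit 156) (nat_lit 0) (nat_lit 76) (XT.nd (nat_lit 78) (nat_lit 0) (nat_lit 0) (XT.lf (nat_lit 0) (nat_lit 3285316635) (nat_lit 1748) (nat_lit 1575039712) (nat_lit 1748) (nat_lit 1575039712) (nat_lit 435) (nat_lit 3) (nat_lit 458) (nat_lit 3) (nat_lit 458) (nat_lit 5) (nat_lit 437) (nat_lit 437) (nat_lit 266)) (XT.lf (nat_lit 76) (nat_lit 3050496420) (nat_lit 0) (nat_lit 4007061503) (nat_lit 1748) (nat_lit 5933372931) (nat_lit 436)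 (nat_lit 5) (nat_lit 435) (nat_lit 3) (nat_lit 458) (nat_lit 5) (nat_lit 438) (nat_lit 437) (nat_lit 265))) (XT.nd (nat_lit 78) (nat_lit 0) (nat_lit 0) (XT.lf (nat_lit 0) (nat_lit 7576790718) (nat_lit 1672) (nat_lit 3712919410) (nat_lit 1748) (nat_lit 1823314642) (nat_lit 436) (nat_lit 5) (nat_lit 458) (nat_lit 5) (nat_lit 459) (nat_lit 5) (nat_lit 439) (nat_lit 437) (nat_lit 264)) (XT.nd (nat_lit 78) (nat_lit 0) (nat_lit 76) (XT.lf (nat_lit 76) (nat_lit 2641675211) (nat_lit 0) (nat_lit 5498096508) (nat_lit 1748) (nat_lit 5097125298) (nat_lit 437) (nat_lit 5) (nat_lit 436) (nat_lit 5) (nat_lit 459) (nat_lit 5) (nat_lit 440) (nat_lit 437) (nat_lit 263)) (XT.lf (nat_lit 0) (nat_lit 8731622391) (nat_lit 1672) (nat_lit 4197659834) (nat_lit 1748) (nat_lit 433615934) (nat_lit 437) (nat_lit 5) (nat_lit 459) (nat_lit 5) (nat_lit 460) (nat_lit 5) (nat_lit 441) (nat_lit 437) (nat_lit 262))))) (XT.nd (nat_lit 234) (nat_lit 0) (nat_lit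 76) (XT.nd (nat_lit 78) (nat_lit 0) (nat_lit 0) (XT.lf (nat_lit 76) (nat_lit 2316152236) (nat_lit 0) (nat_lit 7060677300) (nat_lit 1748) (nat_lit 4113762978) (nat_lit 438) (nat_lit 5) (nat_lit 437) (nat_lit 5) (nat_lit 460) (nat_lit 5) (nat_lit 442) (nat_lit 437) (nat_lit 261)) (XT.nd (nat_lit 78) (nat_lit 0) (nat_lit 76) (XT.lf (nat_lit 76) (nat_lit 9011511556) (nat_lit 0) (nat_lit 1041826156) (nat_lit 1748) (nat_lit 3567138617) (nat_lit 438) (nat_lit 5) (nat_lit 437) (nat_lit 5) (nat_lit 460) (nat_lit 5) (nat_lit 443) (nat_lit 437) (nat_lit 260)) (XT.lf (nat_lit 76) (nat_lit 2076214043) (nat_lit 0) (nat_lit 8704184231) (nat_lit 1748) (nat_lit 2971822542) (nat_lit 439) (nat_lit 5) (nat_lit 438) (nat_lit 5) (nat_lit 461) (nat_lit 5) (nat_lit 444) (nat_lit 437) (nat_lit 259)))) (XT.nd (nat_lit 78) (nat_lit 0) (nat_lit 76) (XT.lf (nat_lit 76) (nat_lit 8944878325) (nat_lit 0) (nat_lit 2605501069) (nat_lit 1748) (nat_lit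 2335656583) (nat_lit 439) (nat_lit 5) (nat_lit 438) (nat_lit 5) (nat_lit 461) (nat_lit 5) (nat_lit 445) (nat_lit 437) (nat_lit 258)) (XT.nd (nat_lit 78) (nat_lit 0) (nat_lit 0) (XT.lf (nat_lit 76) (nat_lit 1924352625) (nat_lit 0) (nat_lit 10438178260) (nat_lit 1748) (nat_lit 1659464450) (nat_lit 440) (nat_lit 5) (nat_lit 439) (nat_lit 5) (nat_lit 462) (nat_lit 5) (nat_lit 446) (nat_lit 437) (nat_lit 257)) (XT.lf (nat_lit 76) (nat_lit 8970903625) (nat_lit 0) (nat_lit 4261268468) (nat_lit 1748) (nat_lit 927680096) (nat_lit 440) (nat_lit 5) (nat_lit 439) (nat_lit 5) (nat_lit 462) (nat_lit 5) (nat_lit 447) (nat_lit 437) (nat_lit 256)))))) (XT.nd (nat_lit 390) (nat_lit 0) (nat_lit 152) (XT.nd (nat_lit 156) (nat_lit 0) (nat_lit 76) (XT.nd (nat_lit 78) (nat_lit 1748) (nat_lit 0) (XT.lf (nat_lit 76) (nat_lit 1863264316) (nat_lit 0) (nat_lit 12272424961) (nat_lit 1748) (nat_lit 164450417) (nat_lit 441) (nat_lit 5) (nat_lit 440)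 (nat_lit 5) (nat_lit 463) (nat_lit 5) (nat_lit 448) (nat_lit 437) (nat_lit 255)) (XT.lf (nat_lit 0) (nat_lit 660483003) (nat_lit 1748) (nat_lit 5354048932) (nat_lit 1824) (nat_lit 8427534486) (nat_lit 417) (nat_lit 5) (nat_lit 440) (nat_lit 5) (nat_lit 441) (nat_lit 5) (nat_lit 449) (nat_lit 437) (nat_lit 254))) (XT.nd (nat_lit 78) (nat_lit 0) (nat_lit 0) (XT.lf (nat_lit 0) (nat_lit 1505867482) (nat_lit 1748) (nat_lit 12700946113) (nat_lit 1824) (nat_lit 379876254) (nat_lit 418) (nat_lit 5) (nat_lit 441) (nat_lit 5) (nat_lit 442) (nat_lit 5) (nat_lit 450) (nat_lit 437) (nat_lit 253)) (XT.nd (nat_lit 78) (nat_lit 0) (nat_lit 0) (XT.lf (nat_lit 0) (nat_lit 2435699247) (nat_lit 1748) (nat_lit 5436617699) (nat_lit 1824) (nat_lit 6860540945) (nat_lit 418) (nat_lit 5) (nat_lit 441) (nat_lit 5) (nat_lit 442) (nat_lit 5) (nat_lit 451) (nat_lit 437) (nat_lit 252)) (XT.lf (nat_lit 76) (nat_lit 1993287601) (nat_lit 0) (nat_lit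 1395489473) (nat_lit 1824) (nat_lit 11493082110) (nat_lit 419) (nat_lit 5) (nat_lit 418) (nat_lit 5) (nat_lit 442) (nat_lit 5) (nat_lit 452) (nat_lit 437) (nat_lit 251))))) (XT.nd (nat_lit 234) (nat_lit 0) (nat_lit 76) (XT.nd (nat_lit 78) (nat_lit 0) (nat_lit 0) (XT.lf (nat_lit 0) (nat_lit 4423320898) (nat_lit 1748) (nat_lit 5427694085) (nat_lit 1824) (nat_lit 5181580253) (nat_lit 419) (nat_lit 5) (nat_lit 442) (nat_lit 5) (nat_lit 443) (nat_lit 5) (nat_lit 453) (nat_lit 437) (nat_lit 250)) (XT.nd (nat_lit 78) (nat_lit 0) (nat_lit 76) (XT.lf (nat_lit 76) (nat_lit 2196083932) (nat_lit 0) (nat_lit 3297979415) (nat_lit 1824) (nat_lit 9691975275) (nat_lit 420) (nat_lit 5) (nat_lit 419) (nat_lit 5) (nat_lit 443) (nat_lit 5) (nat_lit 454) (nat_lit 437) (nat_lit 249)) (XT.lf (nat_lit 0) (nat_lit 6637009131) (nat_lit 1748) (nat_lit 5324149359) (nat_lit 1824) (nat_lit 3380379327) (nat_lit 420) (nat_lit 5) (nat_lit 443) (nat_lit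 5) (nat_lit 444) (nat_lit 5) (nat_lit 455) (nat_lit 437) (nat_lit 248)))) (XT.nd (nat_lit 78) (nat_lit 0) (nat_lit 76) (XT.lf (nat_lit 76) (nat_lit 2500025176) (nat_lit 0) (nat_lit 5333155199) (nat_lit 1824) (nat_lit 7666361951) (nat_lit 421) (nat_lit 5) (nat_lit 420) (nat_lit 5) (nat_lit 444) (nat_lit 5) (nat_lit 456) (nat_lit 437) (nat_lit 247)) (XT.nd (nat_lit 78) (nat_lit 0) (nat_lit 0) (XT.lf (nat_lit 0) (nat_lit 9090925344) (nat_lit 1748) (nat_lit 5122664441) (nat_lit 1824) (nat_lit 1446366742) (nat_lit 421) (nat_lit 5) (nat_lit 444) (nat_lit 5) (nat_lit 445) (nat_lit 5) (nat_lit 457) (nat_lit 437) (nat_lit 246)) (XT.lf (nat_lit 76) (nat_lit 2908650723) (nat_lit 0) (nat_lit 7511945117) (nat_lit 1824) (nat_lit 5402050315) (nat_lit 422) (nat_lit 5) (nat_lit 421) (nat_lit 5) (nat_lit 445) (nat_lit 5) (nat_lit 458) (nat_lit 437) (nat_lit 245))))))) (XT.nd (nat_lit 858) (nat_lit 4788) (nat_lit 0) (XT.nd (nat_lit 390)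 (nat_lit 2888) (nat_lit 0) (XT.nd (nat_lit 156) (nat_lit 1672) (nat_lit 0) (XT.nd (nat_lit 78) (nat_lit 0) (nat_lit 76) (XT.lf (nat_lit 76) (nat_lit 11164166925) (nat_lit 0) (nat_lit 639743099) (nat_lit 1824) (nat_lit 4184141053) (nat_lit 422) (nat_lit 5) (nat_lit 421) (nat_lit 5) (nat_lit 445) (nat_lit 5) (nat_lit 459) (nat_lit 437) (nat_lit 244)) (XT.lf (nat_lit 76) (nat_lit 3425695591) (nat_lit 0) (nat_lit 9845621866) (nat_lit 1824) (nat_lit 2884320559) (nat_lit 423) (nat_lit 5) (nat_lit 422) (nat_lit 5) (nat_lit 446) (nat_lit 5) (nat_lit 460) (nat_lit 437) (nat_lit 243))) (XT.nd (nat_lit 78) (nat_lit 1748) (nat_lit 0) (XT.lf (nat_lit 76) (nat_lit 11895497044) (nat_lit 0) (nat_lit 2902085625) (nat_lit 1824) (nat_lit 1528406240) (nat_lit 423) (nat_lit 5) (nat_lit 422) (nat_lit 5) (nat_lit 446) (nat_lit 5) (nat_lit 461) (nat_lit 437) (nat_lit 242)) (XT.nd (nat_lit 78) (nat_lit 76) (nat_lit 0) (XT.lf (nat_lit 0) (nat_lit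 4055089992) (nat_lit 1748) (nat_lit 12345829233) (nat_lit 1824) (nat_lit 97899036) (nat_lit 400) (nat_lit 5) (nat_lit 423) (nat_lit 5) (nat_lit 424) (nat_lit 5) (nat_lit 462) (nat_lit 437) (nat_lit 241)) (XT.lf (nat_lit 0) (nat_lit 1385639128) (nat_lit 1824) (nat_lit 3938277879) (nat_lit 76) (nat_lit 11350167235) (nat_lit 399) (nat_lit 5) (nat_lit 423) (nat_lit 5) (nat_lit 400) (nat_lit 5) (nat_lit 463) (nat_lit 437) (nat_lit 240))))) (XT.nd (nat_lit 234) (nat_lit 836) (nat_lit 0) (XT.nd (nat_lit 78) (nat_lit 912) (nat_lit 0) (XT.lf (nat_lit 0) (nat_lit 2934075937) (nat_lit 1216) (nat_lit 12070844311) (nat_lit 76) (nat_lit 1847193804) (nat_lit 384) (nat_lit 5) (nat_lit 400) (nat_lit 5) (nat_lit 385) (nat_lit 5) (nat_lit 464) (nat_lit 437) (nat_lit 239)) (XT.nd (nat_lit 78) (nat_lit 912) (nat_lit 0) (XT.lf (nat_lit 0) (nat_lit 4568703392) (nat_lit 1216) (nat_lit 3345955667) (nat_lit 76) (nat_lit 9117943142) (nat_lit 384)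 (nat_lit 5) (nat_lit 400) (nat_lit 5) (nat_lit 385) (nat_lit 5) (nat_lit 465) (nat_lit 437) (nat_lit 238)) (XT.lf (nat_lit 0) (nat_lit 5621332269) (nat_lit 912) (nat_lit 644679960) (nat_lit 988) (nat_lit 10950090247) (nat_lit 372) (nat_lit 5) (nat_lit 384) (nat_lit 5) (nat_lit 385) (nat_lit 5) (nat_lit 466) (nat_lit 437) (nat_lit 237)))) (XT.nd (nat_lit 78) (nat_lit 836) (nat_lit 0) (XT.lf (nat_lit 0) (nat_lit 8057414520) (nat_lit 988) (nat_lit 2639530516) (nat_lit 76) (nat_lit 6705126872) (nat_lit 372) (nat_lit 5) (nat_lit 385) (nat_lit 5) (nat_lit 373) (nat_lit 5) (nat_lit 467) (nat_lit 437) (nat_lit 236)) (XT.nd (nat_lit 78) (nat_lit 0) (nat_lit 0) (XT.lf (nat_lit 0) (nat_lit 6570919897) (nat_lit 836) (nat_lit 3354368494) (nat_lit 912) (nat_lit 7665661522) (nat_lit 361) (nat_lit 5) (nat_lit 372) (nat_lit 5) (nat_lit 373) (nat_lit 5) (nat_lit 468) (nat_lit 437) (nat_lit 235)) (XT.lf (nat_lit 0) (nat_lit 11868997309)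 (nat_lit 912) (nat_lit 1814751424) (nat_lit 76) (nat_lit 4099089211) (nat_lit 361) (nat_lit 5) (nat_lit 373) (nat_lit 5) (nat_lit 362) (nat_lit 5) (nat_lit 469) (nat_lit 437) (nat_lit 234)))))) (XT.nd (nat_lit 390) (nat_lit 2204) (nat_lit 0) (XT.nd (nat_lit 156) (nat_lit 1748) (nat_lit 0) (XT.nd (nat_lit 78) (nat_lit 0) (nat_lit 0) (XT.lf (nat_lit 0) (nat_lit 7646930628) (nat_lit 836) (nat_lit 6270434727) (nat_lit 912) (nat_lit 4059884657) (nat_lit 350) (nat_lit 5) (nat_lit 361) (nat_lit 5) (nat_lit 362) (nat_lit 5) (nat_lit 470) (nat_lit 437) (nat_lit 233)) (XT.lf (nat_lit 0) (nat_lit 16021347538) (nat_lit 912) (nat_lit 867188762) (nat_lit 76) (nat_lit 1286723022) (nat_lit 350) (nat_lit 5) (nat_lit 362) (nat_lit 5) (nat_lit 351) (nat_lit 5) (nat_lit 471) (nat_lit 437) (nat_lit 232))) (XT.nd (nat_lit 78) (nat_lit 912) (nat_lit 0) (XT.lf (nat_lit 0) (nat_lit 8854051745) (nat_lit 836) (nat_lit 9406492815) (nat_lit 912)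 (nat_lit 114823455) (nat_lit 339) (nat_lit 5) (nat_lit 350) (nat_lit 5) (nat_lit 351) (nat_lit 5) (nat_lit 472) (nat_lit 437) (nat_lit 231)) (XT.nd (nat_lit 78) (nat_lit 0) (nat_lit 0) (XT.lf (nat_lit 0) (nat_lit 185960768) (nat_lit 836) (nat_lit 1754539821) (nat_lit 912) (nat_lit 16638700434) (nat_lit 327) (nat_lit 5) (nat_lit 338) (nat_lit 5) (nat_lit 339) (nat_lit 5) (nat_lit 473) (nat_lit 437) (nat_lit 230)) (XT.lf (nat_lit 0) (nat_lit 4133232678) (nat_lit 912) (nat_lit 8615722386) (nat_lit 76) (nat_lit 6036185455) (nat_lit 327) (nat_lit 5) (nat_lit 339) (nat_lit 5) (nat_lit 328) (nat_lit 5) (nat_lit 474) (nat_lit 437) (nat_lit 229))))) (XT.nd (nat_lit 234) (nat_lit 684) (nat_lit 0) (XT.nd (nat_lit 78) (nat_lit 760) (nat_lit 0) (XT.lf (nat_lit 0) (nat_lit 1357779232) (nat_lit 760) (nat_lit 5026826117) (nat_lit 836) (nat_lit 12610299492) (nat_lit 317) (nat_lit 5) (nat_lit 327) (nat_lit 5) (nat_lit 328) (nat_lit 5)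 (nat_lit 475) (nat_lit 437) (nat_lit 228)) (XT.nd (nat_lit 78) (nat_lit 760) (nat_lit 0) (XT.lf (nat_lit 0) (nat_lit 8752130432) (nat_lit 836) (nat_lit 7584883300) (nat_lit 76) (nat_lit 2870429940) (nat_lit 317) (nat_lit 5) (nat_lit 328) (nat_lit 5) (nat_lit 318) (nat_lit 5) (nat_lit 476) (nat_lit 437) (nat_lit 227)) (XT.lf (nat_lit 0) (nat_lit 2664342128) (nat_lit 760) (nat_lit 8547785745) (nat_lit 836) (nat_lit 8211204654) (nat_lit 307) (nat_lit 5) (nat_lit 317) (nat_lit 5) (nat_lit 318) (nat_lit 5) (nat_lit 477) (nat_lit 437) (nat_lit 226)))) (XT.nd (nat_lit 78) (nat_lit 684) (nat_lit 0) (XT.lf (nat_lit 0) (nat_lit 13215689937) (nat_lit 760) (nat_lit 551137164) (nat_lit 836) (nat_lit 5875803676) (nat_lit 307) (nat_lit 5) (nat_lit 317) (nat_lit 5) (nat_lit 318) (nat_lit 5) (nat_lit 478) (nat_lit 437) (nat_lit 225)) (XT.nd (nat_lit 78) (nat_lit 0) (nat_lit 0) (XT.lf (nat_lit 0) (nat_lit 4110609955) (nat_lit 684) (nat_lit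 12332786067) (nat_lit 760) (nat_lit 3421505077) (nat_lit 298) (nat_lit 5) (nat_lit 307) (nat_lit 5) (nat_lit 308) (nat_lit 5) (nat_lit 479) (nat_lit 437) (nat_lit 224)) (XT.lf (nat_lit 0) (nat_lit 14936697981) (nat_lit 684) (nat_lit 4278326906) (nat_lit 760) (nat_lit 875762958) (nat_lit 298) (nat_lit 5) (nat_lit 307) (nat_lit 5) (nat_lit 308) (nat_lit 5) (nat_lit 480) (nat_lit 437) (nat_lit 223))))))))
noncomputable def xc219 : XT := (XT.nd (nat_lit 56004) (nat_lit 0) (nat_lit 17252) (XT.nd (nat_lit 858) (nat_lit 4028) (nat_lit 0) (XT.nd (nat_lit 390) (nat_lit 1976) (nat_lit 0) (XT.nd (nat_lit 156) (nat_lit 1368) (nat_lit 0) (XT.nd (nat_lit 78) (nat_lit 0) (nat_lit 0) (XT.lf (nat_lit 0) (nat_lit 1756159816) (nat_lit 836) (nat_lit 14629892330) (nat_lit 76) (nat_lit 3933761532) (nat_lit 287) (nat_lit 5) (nat_lit 298) (nat_lit 5) (nat_lit 288) (nat_lit 5) (nat_lit 481) (nat_lit 437) (nat_lit 222)) (XT.lf (nat_lit 0) (nat_lit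 4487058101) (nat_lit 836) (nat_lit 3772069960) (nat_lit 76) (nat_lit 12293016418) (nat_lit 287) (nat_lit 5) (nat_lit 298) (nat_lit 5) (nat_lit 288) (nat_lit 5) (nat_lit 482) (nat_lit 437) (nat_lit 221))) (XT.nd (nat_lit 78) (nat_lit 684) (nat_lit 0) (XT.lf (nat_lit 0) (nat_lit 7316098127) (nat_lit 760) (nat_lit 13394433945) (nat_lit 76) (nat_lit 77720816) (nat_lit 278) (nat_lit 5) (nat_lit 288) (nat_lit 5) (nat_lit 279) (nat_lit 5) (nat_lit 483) (nat_lit 437) (nat_lit 220)) (XT.nd (nat_lit 78) (nat_lit 684) (nat_lit 0) (XT.lf (nat_lit 0) (nat_lit 10276957323) (nat_lit 760) (nat_lit 2254890403) (nat_lit 76) (nat_lit 8495732412) (nat_lit 278) (nat_lit 5) (nat_lit 288) (nat_lit 5) (nat_lit 279) (nat_lit 5) (nat_lit 484) (nat_lit 437) (nat_lit 219)) (XT.lf (nat_lit 0) (nat_lit 9222907661) (nat_lit 684) (nat_lit 4129166050) (nat_lit 760) (nat_lit 7918520833) (nat_lit 269) (nat_lit 5) (nat_lit 278) (nat_lit 5) (nat_lit 279)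 (nat_lit 5) (nat_lit 485) (nat_lit 437) (nat_lit 218))))) (XT.nd (nat_lit 234) (nat_lit 608) (nat_lit 0) (XT.nd (nat_lit 78) (nat_lit 1368) (nat_lit 0) (XT.lf (nat_lit 0) (nat_lit 16527975595) (nat_lit 760) (nat_lit 591830003) (nat_lit 76) (nat_lit 4397879361) (nat_lit 269) (nat_lit 5) (nat_lit 279) (nat_lit 5) (nat_lit 270) (nat_lit 5) (nat_lit 486) (nat_lit 437) (nat_lit 217)) (XT.nd (nat_lit 78) (nat_lit 760) (nat_lit 0) (XT.lf (nat_lit 0) (nat_lit 11207340821) (nat_lit 608) (nat_lit 8655473344) (nat_lit 684) (nat_lit 1904995999) (nat_lit 261) (nat_lit 5) (nat_lit 269) (nat_lit 5) (nat_lit 270) (nat_lit 5) (nat_lit 487) (nat_lit 437) (nat_lit 216)) (XT.lf (nat_lit 0) (nat_lit 1230235894) (nat_lit 684) (nat_lit 2212271) (nat_lit 760) (nat_lit 20790183454) (nat_lit 251) (nat_lit 5) (nat_lit 260) (nat_lit 5) (nat_lit 261) (nat_lit 5) (nat_lit 488) (nat_lit 437) (nat_lit 215)))) (XT.nd (nat_lit 78) (nat_lit 608) (nat_lit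 0) (XT.lf (nat_lit 0) (nat_lit 4531168230) (nat_lit 760) (nat_lit 8957127862) (nat_lit 76) (nat_lit 8791522151) (nat_lit 251) (nat_lit 5) (nat_lit 261) (nat_lit 5) (nat_lit 252) (nat_lit 5) (nat_lit 489) (nat_lit 437) (nat_lit 214)) (XT.nd (nat_lit 78) (nat_lit 0) (nat_lit 0) (XT.lf (nat_lit 0) (nat_lit 3150737825) (nat_lit 608) (nat_lit 4761070168) (nat_lit 684) (nat_lit 14630022953) (nat_lit 243) (nat_lit 5) (nat_lit 251) (nat_lit 5) (nat_lit 252) (nat_lit 5) (nat_lit 490) (nat_lit 437) (nat_lit 213)) (XT.lf (nat_lit 0) (nat_lit 11442971720) (nat_lit 684) (nat_lit 7218451471) (nat_lit 76) (nat_lit 4146003719) (nat_lit 243) (nat_lit 5) (nat_lit 252) (nat_lit 5) (nat_lit 244) (nat_lit 5) (nat_lit 491) (nat_lit 437) (nat_lit 212)))))) (XT.nd (nat_lit 390) (nat_lit 2204) (nat_lit 0) (XT.nd (nat_lit 156) (nat_lit 1216) (nat_lit 0) (XT.nd (nat_lit 78) (nat_lit 0) (nat_lit 0) (XT.lf (nat_lit 0) (nat_lit 5229339088) (nat_lit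 608) (nat_lit 9876511933) (nat_lit 684) (nat_lit 7971263130) (nat_lit 235) (nat_lit 5) (nat_lit 243) (nat_lit 5) (nat_lit 244) (nat_lit 5) (nat_lit 492) (nat_lit 437) (nat_lit 211)) (XT.lf (nat_lit 0) (nat_lit 18018611335) (nat_lit 608) (nat_lit 867477409) (nat_lit 684) (nat_lit 4465225557) (nat_lit 235) (nat_lit 5) (nat_lit 243) (nat_lit 5) (nat_lit 244) (nat_lit 5) (nat_lit 493) (nat_lit 437) (nat_lit 210))) (XT.nd (nat_lit 78) (nat_lit 684) (nat_lit 0) (XT.lf (nat_lit 0) (nat_lit 7471330421) (nat_lit 532) (nat_lit 15368879915) (nat_lit 608) (nat_lit 788823692) (nat_lit 228) (nat_lit 5) (nat_lit 235) (nat_lit 5) (nat_lit 236) (nat_lit 5) (nat_lit 494) (nat_lit 437) (nat_lit 209)) (XT.nd (nat_lit 78) (nat_lit 608) (nat_lit 0) (XT.lf (nat_lit 0) (nat_lit 2959798279) (nat_lit 608) (nat_lit 3338389467) (nat_lit 76) (nat_lit 17612986459) (nat_lit 227) (nat_lit 5) (nat_lit 235) (nat_lit 5) (nat_lit 228) (nat_lit 5) (nat_lit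 495) (nat_lit 437) (nat_lit 208)) (XT.lf (nat_lit 0) (nat_lit 6852306617) (nat_lit 684) (nat_lit 14361151458) (nat_lit 76) (nat_lit 2983806393) (nat_lit 219) (nat_lit 5) (nat_lit 228) (nat_lit 5) (nat_lit 220) (nat_lit 5) (nat_lit 496) (nat_lit 437) (nat_lit 207))))) (XT.nd (nat_lit 234) (nat_lit 1140) (nat_lit 0) (XT.nd (nat_lit 78) (nat_lit 1064) (nat_lit 0) (XT.lf (nat_lit 0) (nat_lit 10882810098) (nat_lit 684) (nat_lit 1216386406) (nat_lit 76) (nat_lit 12388678202) (nat_lit 219) (nat_lit 5) (nat_lit 228) (nat_lit 5) (nat_lit 220) (nat_lit 5) (nat_lit 497) (nat_lit 437) (nat_lit 206)) (XT.nd (nat_lit 78) (nat_lit 532) (nat_lit 0) (XT.lf (nat_lit 0) (nat_lit 12348066162) (nat_lit 532) (nat_lit 2721994433) (nat_lit 608) (nat_lit 9712714863) (nat_lit 212) (nat_lit 5) (nat_lit 219) (nat_lit 5) (nat_lit 220) (nat_lit 5) (nat_lit 498) (nat_lit 437) (nat_lit 205)) (XT.lf (nat_lit 0) (nat_lit 1081391716) (nat_lit 532) (nat_lit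 18315333461) (nat_lit 608) (nat_lit 5685736695) (nat_lit 205) (nat_lit 5) (nat_lit 212) (nat_lit 5) (nat_lit 213) (nat_lit 5) (nat_lit 499) (nat_lit 437) (nat_lit 204)))) (XT.nd (nat_lit 78) (nat_lit 1140) (nat_lit 0) (XT.lf (nat_lit 0) (nat_lit 15012944226) (nat_lit 532) (nat_lit 8894378611) (nat_lit 608) (nat_lit 1478872190) (nat_lit 205) (nat_lit 5) (nat_lit 212) (nat_lit 5) (nat_lit 213) (nat_lit 5) (nat_lit 500) (nat_lit 437) (nat_lit 203)) (XT.nd (nat_lit 156) (nat_lit 532) (nat_lit 0) (XT.lf (nat_lit 0) (nat_lit 2799306304) (nat_lit 608) (nat_lit 22149845673) (nat_lit 76) (nat_lit 746005506) (nat_lit 197) (nat_lit 5) (nat_lit 205) (nat_lit 5) (nat_lit 198) (nat_lit 5) (nat_lit 501) (nat_lit 437) (nat_lit 202)) (XT.lf (nat_lit 0) (nat_lit 6103120298) (nat_lit 532) (nat_lit 5759538626) (nat_lit 608) (nat_lit 14462920851) (nat_lit 190) (nat_lit 5) (nat_lit 197) (nat_lit 5) (nat_lit 198) (nat_lit 5) (nat_lit 503)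 (nat_lit 437) (nat_lit 200))))))) (XT.nd (nat_lit 858) (nat_lit 1368) (nat_lit 0) (XT.nd (nat_lit 390) (nat_lit 0) (nat_lit 152) (XT.nd (nat_lit 156) (nat_lit 0) (nat_lit 76) (XT.nd (nat_lit 78) (nat_lit 0) (nat_lit 0) (XT.lf (nat_lit 0) (nat_lit 3749829206) (nat_lit 1748) (nat_lit 1403077385) (nat_lit 1748) (nat_lit 1403077385) (nat_lit 435) (nat_lit 3) (nat_lit 458) (nat_lit 3) (nat_lit 458) (nat_lit 5) (nat_lit 438) (nat_lit 438) (nat_lit 264)) (XT.lf (nat_lit 76) (nat_lit 3515755445) (nat_lit 0) (nat_lit 4467551307) (nat_lit 1748) (nat_lit 5251468649) (nat_lit 436) (nat_lit 5) (nat_lit 435) (nat_lit 3) (nat_lit 458) (nat_lit 5) (nat_lit 439) (nat_lit 438) (nat_lit 263))) (XT.nd (nat_lit 78) (nat_lit 0) (nat_lit 0) (XT.lf (nat_lit 0) (nat_lit 8495118881) (nat_lit 1672) (nat_lit 3372773247) (nat_lit 1748) (nat_lit 1491780706) (nat_lit 436) (nat_lit 5) (nat_lit 458) (nat_lit 5) (nat_lit 459) (nat_lit 5) (nat_lit 440)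 (nat_lit 438) (nat_lit 262)) (XT.nd (nat_lit 78) (nat_lit 0) (nat_lit 76) (XT.lf (nat_lit 76) (nat_lit 3106186920) (nat_lit 0) (nat_lit 5950810326) (nat_lit 1748) (nat_lit 4429277948) (nat_lit 437) (nat_lit 5) (nat_lit 436) (nat_lit 5) (nat_lit 459) (nat_lit 5) (nat_lit 441) (nat_lit 438) (nat_lit 261)) (XT.lf (nat_lit 0) (nat_lit 9643710447) (nat_lit 1672) (nat_lit 3860766618) (nat_lit 1748) (nat_lit 110664101) (nat_lit 437) (nat_lit 5) (nat_lit 459) (nat_lit 5) (nat_lit 460) (nat_lit 5) (nat_lit 442) (nat_lit 438) (nat_lit 260))))) (XT.nd (nat_lit 234) (nat_lit 0) (nat_lit 76) (XT.nd (nat_lit 78) (nat_lit 0) (nat_lit 0) (XT.lf (nat_lit 76) (nat_lit 2780552967) (nat_lit 0) (nat_lit 7509523291) (nat_lit 1748) (nat_lit 3455553272) (nat_lit 438) (nat_lit 5) (nat_lit 437) (nat_lit 5) (nat_lit 460) (nat_lit 5) (nat_lit 443) (nat_lit 438) (nat_lit 259)) (XT.nd (nat_lit 78) (nat_lit 0) (nat_lit 76) (XT.lf (nat_lit 76) (nat_lit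 9601621872) (nat_lit 0) (nat_lit 1364263116) (nat_lit 1748) (nat_lit 2912515736) (nat_lit 438) (nat_lit 5) (nat_lit 437) (nat_lit 5) (nat_lit 460) (nat_lit 5) (nat_lit 444) (nat_lit 438) (nat_lit 258)) (XT.lf (nat_lit 76) (nat_lit 2541256971) (nat_lit 0) (nat_lit 9153109160) (nat_lit 1748) (nat_lit 2318681391) (nat_lit 439) (nat_lit 5) (nat_lit 438) (nat_lit 5) (nat_lit 461) (nat_lit 5) (nat_lit 445) (nat_lit 438) (nat_lit 257)))) (XT.nd (nat_lit 78) (nat_lit 0) (nat_lit 76) (XT.lf (nat_lit 76) (nat_lit 9538990252) (nat_lit 0) (nat_lit 2927063291) (nat_lit 1748) (nat_lit 1683764223) (nat_lit 439) (nat_lit 5) (nat_lit 438) (nat_lit 5) (nat_lit 461) (nat_lit 5) (nat_lit 446) (nat_lit 438) (nat_lit 256)) (XT.nd (nat_lit 78) (nat_lit 0) (nat_lit 0) (XT.lf (nat_lit 76) (nat_lit 2390907544) (nat_lit 0) (nat_lit 10891179826) (nat_lit 1748) (nat_lit 1006660970) (nat_lit 440) (nat_lit 5) (nat_lit 439) (nat_lit 5) (nat_lit 462)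 (nat_lit 5) (nat_lit 447) (nat_lit 438) (nat_lit 255)) (XT.lf (nat_lit 76) (nat_lit 9569996076) (nat_lit 0) (nat_lit 4585942858) (nat_lit 1748) (nat_lit 273691767) (nat_lit 440) (nat_lit 5) (nat_lit 439) (nat_lit 5) (nat_lit 462) (nat_lit 5) (nat_lit 448) (nat_lit 438) (nat_lit 254)))))) (XT.nd (nat_lit 390) (nat_lit 0) (nat_lit 152) (XT.nd (nat_lit 156) (nat_lit 0) (nat_lit 76) (XT.nd (nat_lit 78) (nat_lit 0) (nat_lit 0) (XT.lf (nat_lit 0) (nat_lit 486455531) (nat_lit 1748) (nat_lit 12243844197) (nat_lit 1824) (nat_lit 1842597746) (nat_lit 417) (nat_lit 5) (nat_lit 440) (nat_lit 5) (nat_lit 441) (nat_lit 5) (nat_lit 449) (nat_lit 438) (nat_lit 253)) (XT.lf (nat_lit 0) (nat_lit 1312903472) (nat_lit 1748) (nat_lit 5029091073) (nat_lit 1824) (nat_lit 8375906541) (nat_lit 417) (nat_lit 5) (nat_lit 440) (nat_lit 5) (nat_lit 441) (nat_lit 5) (nat_lit 450) (nat_lit 438) (nat_lit 252))) (XT.nd (nat_lit 78) (nat_lit 0) (nat_lit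 0) (XT.lf (nat_lit 0) (nat_lit 2164148454) (nat_lit 1748) (nat_lit 12511660927) (nat_lit 1824) (nat_lit 189832907) (nat_lit 418) (nat_lit 5) (nat_lit 441) (nat_lit 5) (nat_lit 442) (nat_lit 5) (nat_lit 451) (nat_lit 438) (nat_lit 251)) (XT.nd (nat_lit 78) (nat_lit 0) (nat_lit 0) (XT.lf (nat_lit 0) (nat_lit 3100259920) (nat_lit 1748) (nat_lit 5110738182) (nat_lit 1824) (nat_lit 6803986204) (nat_lit 418) (nat_lit 5) (nat_lit 441) (nat_lit 5) (nat_lit 442) (nat_lit 5) (nat_lit 452) (nat_lit 438) (nat_lit 250)) (XT.lf (nat_lit 76) (nat_lit 2464905935) (nat_lit 0) (nat_lit 1598221167) (nat_lit 1824) (nat_lit 11104028158) (nat_lit 419) (nat_lit 5) (nat_lit 418) (nat_lit 5) (nat_lit 442) (nat_lit 5) (nat_lit 453) (nat_lit 438) (nat_lit 249))))) (XT.nd (nat_lit 234) (nat_lit 0) (nat_lit 76) (XT.nd (nat_lit 78) (nat_lit 0) (nat_lit 0) (XT.lf (nat_lit 0) (nat_lit 5105355383) (nat_lit 1748) (nat_lit 5099749193) (nat_lit 1824) (nat_lit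 5116065697) (nat_lit 419) (nat_lit 5) (nat_lit 442) (nat_lit 5) (nat_lit 443) (nat_lit 5) (nat_lit 454) (nat_lit 438) (nat_lit 248)) (XT.nd (nat_lit 78) (nat_lit 0) (nat_lit 76) (XT.lf (nat_lit 76) (nat_lit 2673632681) (nat_lit 0) (nat_lit 3515056804) (nat_lit 1824) (nat_lit 9289173534) (nat_lit 420) (nat_lit 5) (nat_lit 419) (nat_lit 5) (nat_lit 443) (nat_lit 5) (nat_lit 455) (nat_lit 438) (nat_lit 247)) (XT.lf (nat_lit 0) (nat_lit 7342066680) (nat_lit 1748) (nat_lit 4992882737) (nat_lit 1824) (nat_lit 3301775283) (nat_lit 420) (nat_lit 5) (nat_lit 443) (nat_lit 5) (nat_lit 444) (nat_lit 5) (nat_lit 456) (nat_lit 438) (nat_lit 246)))) (XT.nd (nat_lit 78) (nat_lit 0) (nat_lit 76) (XT.lf (nat_lit 76) (nat_lit 2984895358) (nat_lit 0) (nat_lit 5568867545) (nat_lit 1824) (nat_lit 7244298238) (nat_lit 421) (nat_lit 5) (nat_lit 420) (nat_lit 5) (nat_lit 444) (nat_lit 5) (nat_lit 457) (nat_lit 438) (nat_lit 245)) (XT.nd (nat_lit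 78) (nat_lit 0) (nat_lit 0) (XT.lf (nat_lit 0) (nat_lit 9824784094) (nat_lit 1748) (nat_lit 4786706373) (nat_lit 1824) (nat_lit 1350434529) (nat_lit 421) (nat_lit 5) (nat_lit 444) (nat_lit 5) (nat_lit 445) (nat_lit 5) (nat_lit 458) (nat_lit 438) (nat_lit 244)) (XT.lf (nat_lit 76) (nat_lit 3402350809) (nat_lit 0) (nat_lit 7770700603) (nat_lit 1824) (nat_lit 4954980660) (nat_lit 422) (nat_lit 5) (nat_lit 421) (nat_lit 5) (nat_lit 445) (nat_lit 5) (nat_lit 459) (nat_lit 438) (nat_lit 243))))))))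
noncomputable def xc220 : XT := (XT.nd (nat_lit 1716) (nat_lit 7676) (nat_lit 0) (XT.nd (nat_lit 858) (nat_lit 4788) (nat_lit 0) (XT.nd (nat_lit 390) (nat_lit 2888) (nat_lit 0) (XT.nd (nat_lit 156) (nat_lit 1672) (nat_lit 0) (XT.nd (nat_lit 78) (nat_lit 0) (nat_lit 76) (XT.lf (nat_lit 76) (nat_lit 11814437588) (nat_lit 0) (nat_lit 758926769) (nat_lit 1824) (nat_lit 3723597735) (nat_lit 422) (nat_lit 5) (nat_lit 421) (nat_lit 5) (nat_lit 445) (nat_lit 5) (nat_lit 460) (nat_lit 438) (nat_lit 242)) (XT.lf (nat_lit 76) (nat_lit 3929852527) (nat_lit 0) (nat_lit 10131960335) (nat_lit 1824) (nat_lit 2406257626) (nat_lit 423) (nat_lit 5) (nat_lit 422) (nat_lit 5) (nat_lit 446) (nat_lit 5) (nat_lit 461) (nat_lit 438) (nat_lit 241))) (XT.nd (nat_lit 78) (nat_lit 1748) (nat_lit 0) (XT.lf (nat_lit 76) (nat_lit 12560507989) (nat_lit 0) (nat_lit 3047799918) (nat_lit 1824) (nat_lit 1033729909) (nat_lit 423) (nat_lit 5) (nat_lit 422)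 (nat_lit 5) (nat_lit 446) (nat_lit 5) (nat_lit 462) (nat_lit 438) (nat_lit 240)) (XT.nd (nat_lit 78) (nat_lit 0) (nat_lit 0) (XT.lf (nat_lit 0) (nat_lit 411927506) (nat_lit 1824) (nat_lit 12249743372) (nat_lit 76) (nat_lit 4156758630) (nat_lit 399) (nat_lit 5) (nat_lit 423) (nat_lit 5) (nat_lit 400) (nat_lit 5) (nat_lit 463) (nat_lit 438) (nat_lit 239)) (XT.lf (nat_lit 0) (nat_lit 1913817479) (nat_lit 1824) (nat_lit 3583503118) (nat_lit 76) (nat_lit 11500070737) (nat_lit 399) (nat_lit 5) (nat_lit 423) (nat_lit 5) (nat_lit 400) (nat_lit 5) (nat_lit 464) (nat_lit 438) (nat_lit 238))))) (XT.nd (nat_lit 234) (nat_lit 836) (nat_lit 0) (XT.nd (nat_lit 78) (nat_lit 912) (nat_lit 0) (XT.lf (nat_lit 0) (nat_lit 3485798803) (nat_lit 1216) (nat_lit 11871134616) (nat_lit 76) (nat_lit 1822200047) (nat_lit 384) (nat_lit 5) (nat_lit 400) (nat_lit 5) (nat_lit 385) (nat_lit 5) (nat_lit 465) (nat_lit 438) (nat_lit 237)) (XT.nd (nat_lit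 78) (nat_lit 912) (nat_lit 0) (XT.lf (nat_lit 0) (nat_lit 5143451329) (nat_lit 1216) (nat_lit 2980397740) (nat_lit 76) (nat_lit 9239578835) (nat_lit 384) (nat_lit 5) (nat_lit 400) (nat_lit 5) (nat_lit 385) (nat_lit 5) (nat_lit 466) (nat_lit 438) (nat_lit 236)) (XT.lf (nat_lit 0) (nat_lit 6163390711) (nat_lit 912) (nat_lit 704627168) (nat_lit 988) (nat_lit 10682717190) (nat_lit 372) (nat_lit 5) (nat_lit 384) (nat_lit 5) (nat_lit 385) (nat_lit 5) (nat_lit 467) (nat_lit 438) (nat_lit 235)))) (XT.nd (nat_lit 78) (nat_lit 836) (nat_lit 0) (XT.lf (nat_lit 0) (nat_lit 8685601929) (nat_lit 988) (nat_lit 2261314503) (nat_lit 76) (nat_lit 6793703437) (nat_lit 372) (nat_lit 5) (nat_lit 385) (nat_lit 5) (nat_lit 373) (nat_lit 5) (nat_lit 468) (nat_lit 438) (nat_lit 234)) (XT.nd (nat_lit 78) (nat_lit 0) (nat_lit 0) (XT.lf (nat_lit 0) (nat_lit 7130509348) (nat_lit 836) (nat_lit 3453946271) (nat_lit 912) (nat_lit 7348950363) (nat_lit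 361) (nat_lit 5) (nat_lit 372) (nat_lit 5) (nat_lit 373) (nat_lit 5) (nat_lit 469) (nat_lit 438) (nat_lit 233)) (XT.lf (nat_lit 0) (nat_lit 12557799324) (nat_lit 912) (nat_lit 1421884754) (nat_lit 76) (nat_lit 4149635418) (nat_lit 361) (nat_lit 5) (nat_lit 373) (nat_lit 5) (nat_lit 362) (nat_lit 5) (nat_lit 470) (nat_lit 438) (nat_lit 232)))))) (XT.nd (nat_lit 390) (nat_lit 2204) (nat_lit 0) (XT.nd (nat_lit 156) (nat_lit 1748) (nat_lit 0) (XT.nd (nat_lit 78) (nat_lit 0) (nat_lit 0) (XT.lf (nat_lit 0) (nat_lit 8226207507) (nat_lit 836) (nat_lit 6414843882) (nat_lit 912) (nat_lit 3686692961) (nat_lit 350) (nat_lit 5) (nat_lit 361) (nat_lit 5) (nat_lit 362) (nat_lit 5) (nat_lit 471) (nat_lit 438) (nat_lit 231)) (XT.lf (nat_lit 0) (nat_lit 16778260139) (nat_lit 912) (nat_lit 457559702) (nat_lit 76) (nat_lit 1294073888) (nat_lit 350) (nat_lit 5) (nat_lit 362) (nat_lit 5) (nat_lit 351) (nat_lit 5) (nat_lit 472) (nat_lit 438)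 (nat_lit 230))) (XT.nd (nat_lit 78) (nat_lit 836) (nat_lit 0) (XT.lf (nat_lit 0) (nat_lit 318085863) (nat_lit 912) (nat_lit 9280919542) (nat_lit 76) (nat_lit 9135076196) (nat_lit 338) (nat_lit 5) (nat_lit 350) (nat_lit 5) (nat_lit 339) (nat_lit 5) (nat_lit 473) (nat_lit 438) (nat_lit 229)) (XT.nd (nat_lit 78) (nat_lit 0) (nat_lit 0) (XT.lf (nat_lit 0) (nat_lit 616913258) (nat_lit 836) (nat_lit 1790337636) (nat_lit 912) (nat_lit 16534842414) (nat_lit 327) (nat_lit 5) (nat_lit 338) (nat_lit 5) (nat_lit 339) (nat_lit 5) (nat_lit 474) (nat_lit 438) (nat_lit 228)) (XT.lf (nat_lit 0) (nat_lit 4635442138) (nat_lit 912) (nat_lit 8360654872) (nat_lit 76) (nat_lit 6156225100) (nat_lit 327) (nat_lit 5) (nat_lit 339) (nat_lit 5) (nat_lit 328) (nat_lit 5) (nat_lit 475) (nat_lit 438) (nat_lit 227))))) (XT.nd (nat_lit 234) (nat_lit 684) (nat_lit 0) (XT.nd (nat_lit 78) (nat_lit 760) (nat_lit 0) (XT.lf (nat_lit 0) (nat_lit 1809505054)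 (nat_lit 760) (nat_lit 5116867432) (nat_lit 836) (nat_lit 12440021184) (nat_lit 317) (nat_lit 5) (nat_lit 327) (nat_lit 5) (nat_lit 328) (nat_lit 5) (nat_lit 476) (nat_lit 438) (nat_lit 226)) (XT.nd (nat_lit 78) (nat_lit 760) (nat_lit 0) (XT.lf (nat_lit 0) (nat_lit 9333195758) (nat_lit 836) (nat_lit 7312158060) (nat_lit 76) (nat_lit 2937993011) (nat_lit 317) (nat_lit 5) (nat_lit 328) (nat_lit 5) (nat_lit 318) (nat_lit 5) (nat_lit 477) (nat_lit 438) (nat_lit 225)) (XT.lf (nat_lit 0) (nat_lit 3139259621) (nat_lit 760) (nat_lit 8697909803) (nat_lit 836) (nat_lit 7966490968) (nat_lit 307) (nat_lit 5) (nat_lit 317) (nat_lit 5) (nat_lit 318) (nat_lit 5) (nat_lit 478) (nat_lit 438) (nat_lit 224)))) (XT.nd (nat_lit 78) (nat_lit 684) (nat_lit 0) (XT.lf (nat_lit 0) (nat_lit 13893367119) (nat_lit 760) (nat_lit 541736714) (nat_lit 836) (nat_lit 5592400358) (nat_lit 307) (nat_lit 5) (nat_lit 317) (nat_lit 5) (nat_lit 318) (nat_lit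 5) (nat_lit 479) (nat_lit 438) (nat_lit 223)) (XT.nd (nat_lit 78) (nat_lit 0) (nat_lit 0) (XT.lf (nat_lit 0) (nat_lit 4611261020) (nat_lit 684) (nat_lit 12549085186) (nat_lit 760) (nat_lit 3093973233) (nat_lit 298) (nat_lit 5) (nat_lit 307) (nat_lit 5) (nat_lit 308) (nat_lit 5) (nat_lit 480) (nat_lit 438) (nat_lit 222)) (XT.lf (nat_lit 0) (nat_lit 15645666123) (nat_lit 684) (nat_lit 4334132070) (nat_lit 760) (nat_lit 505080231) (nat_lit 298) (nat_lit 5) (nat_lit 307) (nat_lit 5) (nat_lit 308) (nat_lit 5) (nat_lit 481) (nat_lit 438) (nat_lit 221))))))) (XT.nd (nat_lit 858) (nat_lit 3496) (nat_lit 0) (XT.nd (nat_lit 390) (nat_lit 1976) (nat_lit 0) (XT.nd (nat_lit 156) (nat_lit 1368) (nat_lit 0) (XT.nd (nat_lit 78) (nat_lit 0) (nat_lit 0) (XT.lf (nat_lit 0) (nat_lit 2169780928) (nat_lit 836) (nat_lit 14502331240) (nat_lit 76) (nat_lit 4046416596) (nat_lit 287) (nat_lit 5) (nat_lit 298) (nat_lit 5) (nat_lit 288) (nat_lit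 5) (nat_lit 482) (nat_lit 438) (nat_lit 220)) (XT.lf (nat_lit 0) (nat_lit 4947875651) (nat_lit 836) (nat_lit 3435590833) (nat_lit 76) (nat_lit 12572190309) (nat_lit 287) (nat_lit 5) (nat_lit 298) (nat_lit 5) (nat_lit 288) (nat_lit 5) (nat_lit 483) (nat_lit 438) (nat_lit 219))) (XT.nd (nat_lit 78) (nat_lit 684) (nat_lit 0) (XT.lf (nat_lit 0) (nat_lit 7829154918) (nat_lit 760) (nat_lit 13245953629) (nat_lit 76) (nat_lit 121467792) (nat_lit 278) (nat_lit 5) (nat_lit 288) (nat_lit 5) (nat_lit 279) (nat_lit 5) (nat_lit 484) (nat_lit 438) (nat_lit 218)) (XT.nd (nat_lit 78) (nat_lit 684) (nat_lit 0) (XT.lf (nat_lit 0) (nat_lit 10842040419) (nat_lit 760) (nat_lit 1891783313) (nat_lit 76) (nat_lit 8707012315) (nat_lit 278) (nat_lit 5) (nat_lit 288) (nat_lit 5) (nat_lit 279) (nat_lit 5) (nat_lit 485) (nat_lit 438) (nat_lit 217)) (XT.lf (nat_lit 0) (nat_lit 9812885154) (nat_lit 684) (nat_lit 4161357000) (nat_lit 760) (nat_lit 7714558982)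 (nat_lit 269) (nat_lit 5) (nat_lit 278) (nat_lit 5) (nat_lit 279) (nat_lit 5) (nat_lit 486) (nat_lit 438) (nat_lit 216))))) (XT.nd (nat_lit 234) (nat_lit 608) (nat_lit 0) (XT.nd (nat_lit 78) (nat_lit 1368) (nat_lit 0) (XT.lf (nat_lit 0) (nat_lit 17207019567) (nat_lit 760) (nat_lit 199355371) (nat_lit 76) (nat_lit 4534593286) (nat_lit 269) (nat_lit 5) (nat_lit 279) (nat_lit 5) (nat_lit 270) (nat_lit 5) (nat_lit 487) (nat_lit 438) (nat_lit 215)) (XT.nd (nat_lit 78) (nat_lit 760) (nat_lit 0) (XT.lf (nat_lit 0) (nat_lit 11833138927) (nat_lit 608) (nat_lit 8771190740) (nat_lit 684) (nat_lit 1591852748) (nat_lit 261) (nat_lit 5) (nat_lit 269) (nat_lit 5) (nat_lit 270) (nat_lit 5) (nat_lit 488) (nat_lit 438) (nat_lit 214)) (XT.lf (nat_lit 0) (nat_lit 1599940689) (nat_lit 760) (nat_lit 20798000974) (nat_lit 76) (nat_lit 58190785) (nat_lit 251) (nat_lit 5) (nat_lit 261) (nat_lit 5) (nat_lit 252) (nat_lit 5) (nat_lit 489) (nat_lit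 438) (nat_lit 213)))) (XT.nd (nat_lit 78) (nat_lit 608) (nat_lit 0) (XT.lf (nat_lit 0) (nat_lit 4957927096) (nat_lit 760) (nat_lit 8734086090) (nat_lit 76) (nat_lit 9026585640) (nat_lit 251) (nat_lit 5) (nat_lit 261) (nat_lit 5) (nat_lit 252) (nat_lit 5) (nat_lit 490) (nat_lit 438) (nat_lit 212)) (XT.nd (nat_lit 78) (nat_lit 0) (nat_lit 0) (XT.lf (nat_lit 0) (nat_lit 3613290961) (nat_lit 608) (nat_lit 4788891869) (nat_lit 684) (nat_lit 14583750715) (nat_lit 243) (nat_lit 5) (nat_lit 251) (nat_lit 5) (nat_lit 252) (nat_lit 5) (nat_lit 491) (nat_lit 438) (nat_lit 211)) (XT.lf (nat_lit 0) (nat_lit 11997886331) (nat_lit 684) (nat_lit 6964943249) (nat_lit 76) (nat_lit 4294135307) (nat_lit 243) (nat_lit 5) (nat_lit 252) (nat_lit 5) (nat_lit 244) (nat_lit 5) (nat_lit 492) (nat_lit 438) (nat_lit 210)))))) (XT.nd (nat_lit 390) (nat_lit 1672) (nat_lit 0) (XT.nd (nat_lit 156) (nat_lit 1216) (nat_lit 0) (XT.nd (nat_lit 78) (nat_lit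 0) (nat_lit 0) (XT.lf (nat_lit 0) (nat_lit 5729185508) (nat_lit 608) (nat_lit 10001010759) (nat_lit 684) (nat_lit 7801927899) (nat_lit 235) (nat_lit 5) (nat_lit 243) (nat_lit 5) (nat_lit 244) (nat_lit 5) (nat_lit 493) (nat_lit 438) (nat_lit 209)) (XT.lf (nat_lit 0) (nat_lit 18766493010) (nat_lit 608) (nat_lit 813227533) (nat_lit 684) (nat_lit 4232215858) (nat_lit 235) (nat_lit 5) (nat_lit 243) (nat_lit 5) (nat_lit 244) (nat_lit 5) (nat_lit 494) (nat_lit 438) (nat_lit 208))) (XT.nd (nat_lit 78) (nat_lit 684) (nat_lit 0) (XT.lf (nat_lit 0) (nat_lit 8011617314) (nat_lit 532) (nat_lit 15598106421) (nat_lit 608) (nat_lit 485552493) (nat_lit 228) (nat_lit 5) (nat_lit 235) (nat_lit 5) (nat_lit 236) (nat_lit 5) (nat_lit 495) (nat_lit 438) (nat_lit 207)) (XT.nd (nat_lit 78) (nat_lit 608) (nat_lit 0) (XT.lf (nat_lit 0) (nat_lit 3327683760) (nat_lit 608) (nat_lit 3017777554) (nat_lit 76) (nat_lit 18037681560) (nat_lit 227) (nat_lit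 5) (nat_lit 235) (nat_lit 5) (nat_lit 228) (nat_lit 5) (nat_lit 496) (nat_lit 438) (nat_lit 206)) (XT.lf (nat_lit 0) (nat_lit 7295005546) (nat_lit 684) (nat_lit 14257878630) (nat_lit 76) (nat_lit 3122133090) (nat_lit 219) (nat_lit 5) (nat_lit 228) (nat_lit 5) (nat_lit 220) (nat_lit 5) (nat_lit 497) (nat_lit 438) (nat_lit 205))))) (XT.nd (nat_lit 234) (nat_lit 608) (nat_lit 0) (XT.nd (nat_lit 78) (nat_lit 1064) (nat_lit 0) (XT.lf (nat_lit 0) (nat_lit 11400125904) (nat_lit 684) (nat_lit 857875058) (nat_lit 76) (nat_lit 12713560167) (nat_lit 219) (nat_lit 5) (nat_lit 228) (nat_lit 5) (nat_lit 220) (nat_lit 5) (nat_lit 498) (nat_lit 438) (nat_lit 204)) (XT.nd (nat_lit 78) (nat_lit 532) (nat_lit 0) (XT.lf (nat_lit 0) (nat_lit 12975347883) (nat_lit 532) (nat_lit 2692367142) (nat_lit 608) (nat_lit 9604714526) (nat_lit 212) (nat_lit 5) (nat_lit 219) (nat_lit 5) (nat_lit 220) (nat_lit 5) (nat_lit 499) (nat_lit 438) (nat_lit 203))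 (XT.lf (nat_lit 0) (nat_lit 1486257543) (nat_lit 532) (nat_lit 18591869821) (nat_lit 608) (nat_lit 5500039537) (nat_lit 205) (nat_lit 5) (nat_lit 212) (nat_lit 5) (nat_lit 213) (nat_lit 5) (nat_lit 500) (nat_lit 438) (nat_lit 202)))) (XT.nd (nat_lit 156) (nat_lit 608) (nat_lit 0) (XT.lf (nat_lit 0) (nat_lit 15688926633) (nat_lit 532) (nat_lit 8984256076) (nat_lit 608) (nat_lit 1214908562) (nat_lit 205) (nat_lit 5) (nat_lit 212) (nat_lit 5) (nat_lit 213) (nat_lit 5) (nat_lit 501) (nat_lit 438) (nat_lit 201)) (XT.nd (nat_lit 54366) (nat_lit 0) (nat_lit 18088) (XT.lf (nat_lit 0) (nat_lit 7695161415) (nat_lit 608) (nat_lit 7989501378) (nat_lit 76) (nat_lit 10837393773) (nat_lit 197) (nat_lit 5) (nat_lit 205) (nat_lit 5) (nat_lit 198) (nat_lit 5) (nat_lit 503) (nat_lit 438) (nat_lit 199)) (XT.lf (nat_lit 0) (nat_lit 4208145897) (nat_lit 1748) (nat_lit 1235576532) (nat_lit 1748) (nat_lit 1235576532) (nat_lit 435) (nat_lit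 3) (nat_lit 458) (nat_lit 3) (nat_lit 458) (nat_lit 5) (nat_lit 439) (nat_lit 439) (nat_lit 262))))))))
noncomputable def xc221 : XT := (XT.nd (nat_lit 1716) (nat_lit 9804) (nat_lit 0) (XT.nd (nat_lit 858) (nat_lit 0) (nat_lit 76) (XT.nd (nat_lit 390) (nat_lit 1444) (nat_lit 0) (XT.nd (nat_lit 156) (nat_lit 0) (nat_lit 76) (XT.nd (nat_lit 78) (nat_lit 0) (nat_lit 76) (XT.lf (nat_lit 76) (nat_lit 3974622166) (nat_lit 0) (nat_lit 4922481509) (nat_lit 1748) (nat_lit 4587013458) (nat_lit 436) (nat_lit 5) (nat_lit 435) (nat_lit 3) (nat_lit 458) (nat_lit 5) (nat_lit 440) (nat_lit 439) (nat_lit 261)) (XT.lf (nat_lit 0) (nat_lit 9402038126) (nat_lit 1672) (nat_lit 3041915995) (nat_lit 1748) (nat_lit 1167905988) (nat_lit 436) (nat_lit 5) (nat_lit 458) (nat_lit 5) (nat_lit 459) (nat_lit 5) (nat_lit 441) (nat_lit 439) (nat_lit 260))) (XT.nd (nat_lit 78) (nat_lit 0) (nat_lit 0) (XT.lf (nat_lit 76) (nat_lit 3564002897) (nat_lit 0)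 (nat_lit 6399268947) (nat_lit 1748) (nat_lit 3777965529) (nat_lit 437) (nat_lit 5) (nat_lit 436) (nat_lit 5) (nat_lit 459) (nat_lit 5) (nat_lit 442) (nat_lit 439) (nat_lit 259)) (XT.nd (nat_lit 78) (nat_lit 0) (nat_lit 76) (XT.lf (nat_lit 76) (nat_lit 10338153073) (nat_lit 0) (nat_lit 208605294) (nat_lit 1748) (nat_lit 3326226626) (nat_lit 437) (nat_lit 5) (nat_lit 436) (nat_lit 5) (nat_lit 459) (nat_lit 5) (nat_lit 443) (nat_lit 439) (nat_lit 258)) (XT.lf (nat_lit 76) (nat_lit 3238007247) (nat_lit 0) (nat_lit 7955400459) (nat_lit 1748) (nat_lit 2812933305) (nat_lit 438) (nat_lit 5) (nat_lit 437) (nat_lit 5) (nat_lit 460) (nat_lit 5) (nat_lit 444) (nat_lit 439) (nat_lit 257))))) (XT.nd (nat_lit 234) (nat_lit 1596) (nat_lit 0) (XT.nd (nat_lit 78) (nat_lit 0) (nat_lit 76) (XT.lf (nat_lit 76) (nat_lit 10187618251) (nat_lit 0) (nat_lit 1681437302) (nat_lit 1748) (nat_lit 2272990529) (nat_lit 438) (nat_lit 5) (nat_lit 437)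 (nat_lit 5) (nat_lit 460) (nat_lit 5) (nat_lit 445) (nat_lit 439) (nat_lit 256)) (XT.nd (nat_lit 78) (nat_lit 0) (nat_lit 0) (XT.lf (nat_lit 76) (nat_lit 2999155013) (nat_lit 0) (nat_lit 9600340168) (nat_lit 1748) (nat_lit 1680147674) (nat_lit 439) (nat_lit 5) (nat_lit 438) (nat_lit 5) (nat_lit 461) (nat_lit 5) (nat_lit 446) (nat_lit 439) (nat_lit 255)) (XT.lf (nat_lit 76) (nat_lit 10128861138) (nat_lit 0) (nat_lit 3244593601) (nat_lit 1748) (nat_lit 1045961719) (nat_lit 439) (nat_lit 5) (nat_lit 438) (nat_lit 5) (nat_lit 461) (nat_lit 5) (nat_lit 447) (nat_lit 439) (nat_lit 254)))) (XT.nd (nat_lit 78) (nat_lit 1748) (nat_lit 0) (XT.lf (nat_lit 76) (nat_lit 2850171165) (nat_lit 0) (nat_lit 11343757365) (nat_lit 1748) (nat_lit 367439356) (nat_lit 440) (nat_lit 5) (nat_lit 439) (nat_lit 5) (nat_lit 462) (nat_lit 5) (nat_lit 448) (nat_lit 439) (nat_lit 253)) (XT.nd (nat_lit 78) (nat_lit 0) (nat_lit 76) (XT.lf (nat_lit 0)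 (nat_lit 362444014) (nat_lit 1748) (nat_lit 4542936435) (nat_lit 1824) (nat_lit 9799897705) (nat_lit 416) (nat_lit 5) (nat_lit 439) (nat_lit 5) (nat_lit 440) (nat_lit 5) (nat_lit 449) (nat_lit 439) (nat_lit 252)) (XT.lf (nat_lit 0) (nat_lit 1122861905) (nat_lit 1748) (nat_lit 12065153593) (nat_lit 1824) (nat_lit 1663588295) (nat_lit 417) (nat_lit 5) (nat_lit 440) (nat_lit 5) (nat_lit 441) (nat_lit 5) (nat_lit 450) (nat_lit 439) (nat_lit 251)))))) (XT.nd (nat_lit 390) (nat_lit 0) (nat_lit 152) (XT.nd (nat_lit 156) (nat_lit 0) (nat_lit 76) (XT.nd (nat_lit 78) (nat_lit 0) (nat_lit 76) (XT.lf (nat_lit 0) (nat_lit 1953551015) (nat_lit 1748) (nat_lit 4714410652) (nat_lit 1824) (nat_lit 8331795843) (nat_lit 417) (nat_lit 5) (nat_lit 440) (nat_lit 5) (nat_lit 441) (nat_lit 5) (nat_lit 451) (nat_lit 439) (nat_lit 250)) (XT.lf (nat_lit 0) (nat_lit 2811202687) (nat_lit 1748) (nat_lit 12335804076) (nat_lit 1824) (nat_lit 3663330)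 (nat_lit 418) (nat_lit 5) (nat_lit 441) (nat_lit 5) (nat_lit 442) (nat_lit 5) (nat_lit 452) (nat_lit 439) (nat_lit 249))) (XT.nd (nat_lit 78) (nat_lit 0) (nat_lit 0) (XT.lf (nat_lit 0) (nat_lit 3754197730) (nat_lit 1748) (nat_lit 4795217583) (nat_lit 1824) (nat_lit 6753824520) (nat_lit 418) (nat_lit 5) (nat_lit 441) (nat_lit 5) (nat_lit 442) (nat_lit 5) (nat_lit 453) (nat_lit 439) (nat_lit 248)) (XT.nd (nat_lit 78) (nat_lit 0) (nat_lit 76) (XT.lf (nat_lit 76) (nat_lit 2929191157) (nat_lit 0) (nat_lit 1798218948) (nat_lit 1824) (nat_lit 10731226374) (nat_lit 419) (nat_lit 5) (nat_lit 418) (nat_lit 5) (nat_lit 442) (nat_lit 5) (nat_lit 454) (nat_lit 439) (nat_lit 247)) (XT.lf (nat_lit 0) (nat_lit 5777981586) (nat_lit 1748) (nat_lit 4782195183) (nat_lit 1824) (nat_lit 5055809001) (nat_lit 419) (nat_lit 5) (nat_lit 442) (nat_lit 5) (nat_lit 443) (nat_lit 5) (nat_lit 455) (nat_lit 439) (nat_lit 246))))) (XT.nd (nat_lit 234)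 (nat_lit 0) (nat_lit 152) (XT.nd (nat_lit 78) (nat_lit 0) (nat_lit 76) (XT.lf (nat_lit 76) (nat_lit 3143894138) (nat_lit 0) (nat_lit 3730607652) (nat_lit 1824) (nat_lit 8901484066) (nat_lit 420) (nat_lit 5) (nat_lit 419) (nat_lit 5) (nat_lit 443) (nat_lit 5) (nat_lit 456) (nat_lit 439) (nat_lit 245)) (XT.nd (nat_lit 78) (nat_lit 0) (nat_lit 0) (XT.lf (nat_lit 0) (nat_lit 8039001600) (nat_lit 1748) (nat_lit 4671989132) (nat_lit 1824) (nat_lit 3227276733) (nat_lit 420) (nat_lit 5) (nat_lit 443) (nat_lit 5) (nat_lit 444) (nat_lit 5) (nat_lit 457) (nat_lit 439) (nat_lit 244)) (XT.lf (nat_lit 76) (nat_lit 3462576423) (nat_lit 0) (nat_lit 5804282999) (nat_lit 1824) (nat_lit 6836136383) (nat_lit 421) (nat_lit 5) (nat_lit 420) (nat_lit 5) (nat_lit 444) (nat_lit 5) (nat_lit 458) (nat_lit 439) (nat_lit 243)))) (XT.nd (nat_lit 78) (nat_lit 0) (nat_lit 0) (XT.lf (nat_lit 0) (nat_lit 10551883622) (nat_lit 1748) (nat_lit 4461053192)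 (nat_lit 1824) (nat_lit 1257432121) (nat_lit 421) (nat_lit 5) (nat_lit 444) (nat_lit 5) (nat_lit 445) (nat_lit 5) (nat_lit 459) (nat_lit 439) (nat_lit 242)) (XT.nd (nat_lit 78) (nat_lit 0) (nat_lit 0) (XT.lf (nat_lit 76) (nat_lit 3889012849) (nat_lit 0) (nat_lit 8030417367) (nat_lit 1824) (nat_lit 4520525236) (nat_lit 422) (nat_lit 5) (nat_lit 421) (nat_lit 5) (nat_lit 445) (nat_lit 5) (nat_lit 460) (nat_lit 439) (nat_lit 241)) (XT.lf (nat_lit 76) (nat_lit 12461133226) (nat_lit 0) (nat_lit 876362905) (nat_lit 1824) (nat_lit 3274976516) (nat_lit 422) (nat_lit 5) (nat_lit 421) (nat_lit 5) (nat_lit 445) (nat_lit 5) (nat_lit 461) (nat_lit 439) (nat_lit 240))))))) (XT.nd (nat_lit 858) (nat_lit 4788) (nat_lit 0) (XT.nd (nat_lit 390) (nat_lit 2584) (nat_lit 0) (XT.nd (nat_lit 156) (nat_lit 2888) (nat_lit 0) (XT.nd (nat_lit 78) (nat_lit 0) (nat_lit 0) (XT.lf (nat_lit 76) (nat_lit 4427176053) (nat_lit 0) (nat_lit 10420553053)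 (nat_lit 1824) (nat_lit 1939437235) (nat_lit 423) (nat_lit 5) (nat_lit 422) (nat_lit 5) (nat_lit 446) (nat_lit 5) (nat_lit 462) (nat_lit 439) (nat_lit 239)) (XT.lf (nat_lit 76) (nat_lit 13222234301) (nat_lit 0) (nat_lit 3193024065) (nat_lit 1824) (nat_lit 549555935) (nat_lit 423) (nat_lit 5) (nat_lit 422) (nat_lit 5) (nat_lit 446) (nat_lit 5) (nat_lit 463) (nat_lit 439) (nat_lit 238))) (XT.nd (nat_lit 78) (nat_lit 1140) (nat_lit 0) (XT.lf (nat_lit 0) (nat_lit 910818574) (nat_lit 1824) (nat_lit 12069698712) (nat_lit 76) (nat_lit 4164305721) (nat_lit 399) (nat_lit 5) (nat_lit 423) (nat_lit 5) (nat_lit 400) (nat_lit 5) (nat_lit 464) (nat_lit 439) (nat_lit 237)) (XT.nd (nat_lit 78) (nat_lit 1140) (nat_lit 0) (XT.lf (nat_lit 0) (nat_lit 2433125710) (nat_lit 1824) (nat_lit 3238467761) (nat_lit 76) (nat_lit 11655966189) (nat_lit 399) (nat_lit 5) (nat_lit 423) (nat_lit 5) (nat_lit 400) (nat_lit 5) (nat_lit 465) (nat_lit 439)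 (nat_lit 236)) (XT.lf (nat_lit 0) (nat_lit 4029410729) (nat_lit 1216) (nat_lit 11684560210) (nat_lit 76) (nat_lit 1799111528) (nat_lit 384) (nat_lit 5) (nat_lit 400) (nat_lit 5) (nat_lit 385) (nat_lit 5) (nat_lit 466) (nat_lit 439) (nat_lit 235))))) (XT.nd (nat_lit 234) (nat_lit 1672) (nat_lit 0) (XT.nd (nat_lit 78) (nat_lit 912) (nat_lit 0) (XT.lf (nat_lit 0) (nat_lit 5710924229) (nat_lit 1216) (nat_lit 2624322266) (nat_lit 76) (nat_lit 9366005196) (nat_lit 384) (nat_lit 5) (nat_lit 400) (nat_lit 5) (nat_lit 385) (nat_lit 5) (nat_lit 467) (nat_lit 439) (nat_lit 234)) (XT.nd (nat_lit 78) (nat_lit 0) (nat_lit 0) (XT.lf (nat_lit 0) (nat_lit 6699607195) (nat_lit 912) (nat_lit 763946171) (nat_lit 988) (nat_lit 10428883201) (nat_lit 372) (nat_lit 5) (nat_lit 384) (nat_lit 5) (nat_lit 385) (nat_lit 5) (nat_lit 468) (nat_lit 439) (nat_lit 233)) (XT.lf (nat_lit 0) (nat_lit 9308217389) (nat_lit 988) (nat_lit 1892270682) (nat_lit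 76) (nat_lit 6885819362) (nat_lit 372) (nat_lit 5) (nat_lit 385) (nat_lit 5) (nat_lit 373) (nat_lit 5) (nat_lit 469) (nat_lit 439) (nat_lit 232)))) (XT.nd (nat_lit 78) (nat_lit 836) (nat_lit 0) (XT.lf (nat_lit 0) (nat_lit 7684664185) (nat_lit 836) (nat_lit 3554253961) (nat_lit 912) (nat_lit 7044156600) (nat_lit 361) (nat_lit 5) (nat_lit 372) (nat_lit 5) (nat_lit 373) (nat_lit 5) (nat_lit 470) (nat_lit 439) (nat_lit 231)) (XT.nd (nat_lit 78) (nat_lit 836) (nat_lit 0) (XT.lf (nat_lit 0) (nat_lit 13242848111) (nat_lit 912) (nat_lit 1037825622) (nat_lit 76) (nat_lit 4202413231) (nat_lit 361) (nat_lit 5) (nat_lit 373) (nat_lit 5) (nat_lit 362) (nat_lit 5) (nat_lit 471) (nat_lit 439) (nat_lit 230)) (XT.lf (nat_lit 0) (nat_lit 8800514689) (nat_lit 836) (nat_lit 6561403409) (nat_lit 912) (nat_lit 3323681925) (nat_lit 350) (nat_lit 5) (nat_lit 361) (nat_lit 5) (nat_lit 362) (nat_lit 5) (nat_lit 472) (nat_lit 439) (nat_lit 229))))))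 (XT.nd (nat_lit 390) (nat_lit 2280) (nat_lit 0) (XT.nd (nat_lit 156) (nat_lit 1596) (nat_lit 0) (XT.nd (nat_lit 78) (nat_lit 912) (nat_lit 0) (XT.lf (nat_lit 0) (nat_lit 17533361723) (nat_lit 912) (nat_lit 56317937) (nat_lit 76) (nat_lit 1302285629) (nat_lit 350) (nat_lit 5) (nat_lit 362) (nat_lit 5) (nat_lit 351) (nat_lit 5) (nat_lit 473) (nat_lit 439) (nat_lit 228)) (XT.lf (nat_lit 0) (nat_lit 741277395) (nat_lit 912) (nat_lit 9053175155) (nat_lit 76) (nat_lit 9305843763) (nat_lit 338) (nat_lit 5) (nat_lit 350) (nat_lit 5) (nat_lit 339) (nat_lit 5) (nat_lit 474) (nat_lit 439) (nat_lit 227))) (XT.nd (nat_lit 78) (nat_lit 760) (nat_lit 0) (XT.lf (nat_lit 0) (nat_lit 1039894809) (nat_lit 836) (nat_lit 1826823953) (nat_lit 912) (nat_lit 16445862187) (nat_lit 327) (nat_lit 5) (nat_lit 338) (nat_lit 5) (nat_lit 339) (nat_lit 5) (nat_lit 475) (nat_lit 439) (nat_lit 226)) (XT.nd (nat_lit 78) (nat_lit 760) (nat_lit 0) (XT.lf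 (nat_lit 0) (nat_lit 5131404352) (nat_lit 912) (nat_lit 8117081771) (nat_lit 76) (nat_lit 6278692100) (nat_lit 327) (nat_lit 5) (nat_lit 339) (nat_lit 5) (nat_lit 328) (nat_lit 5) (nat_lit 476) (nat_lit 439) (nat_lit 225)) (XT.lf (nat_lit 0) (nat_lit 2253778813) (nat_lit 760) (nat_lit 5209117114) (nat_lit 836) (nat_lit 12282742890) (nat_lit 317) (nat_lit 5) (nat_lit 327) (nat_lit 5) (nat_lit 328) (nat_lit 5) (nat_lit 477) (nat_lit 439) (nat_lit 224))))) (XT.nd (nat_lit 234) (nat_lit 1520) (nat_lit 0) (XT.nd (nat_lit 78) (nat_lit 760) (nat_lit 0) (XT.lf (nat_lit 0) (nat_lit 9910116033) (nat_lit 836) (nat_lit 7050459173) (nat_lit 76) (nat_lit 3006513033) (nat_lit 317) (nat_lit 5) (nat_lit 328) (nat_lit 5) (nat_lit 318) (nat_lit 5) (nat_lit 478) (nat_lit 439) (nat_lit 223)) (XT.nd (nat_lit 78) (nat_lit 0) (nat_lit 0) (XT.lf (nat_lit 0) (nat_lit 3607303031) (nat_lit 760) (nat_lit 8851845260) (nat_lit 836) (nat_lit 7732762561)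 (nat_lit 307) (nat_lit 5) (nat_lit 317) (nat_lit 5) (nat_lit 318) (nat_lit 5) (nat_lit 479) (nat_lit 439) (nat_lit 222)) (XT.lf (nat_lit 0) (nat_lit 14568546440) (nat_lit 760) (nat_lit 532941313) (nat_lit 836) (nat_lit 5318897162) (nat_lit 307) (nat_lit 5) (nat_lit 317) (nat_lit 5) (nat_lit 318) (nat_lit 5) (nat_lit 480) (nat_lit 439) (nat_lit 221)))) (XT.nd (nat_lit 78) (nat_lit 836) (nat_lit 0) (XT.lf (nat_lit 0) (nat_lit 5105676615) (nat_lit 684) (nat_lit 12770889072) (nat_lit 760) (nat_lit 2775266436) (nat_lit 298) (nat_lit 5) (nat_lit 307) (nat_lit 5) (nat_lit 308) (nat_lit 5) (nat_lit 481) (nat_lit 439) (nat_lit 220)) (XT.nd (nat_lit 78) (nat_lit 836) (nat_lit 0) (XT.lf (nat_lit 0) (nat_lit 16352883734) (nat_lit 684) (nat_lit 4392209007) (nat_lit 760) (nat_lit 142058050) (nat_lit 298) (nat_lit 5) (nat_lit 307) (nat_lit 5) (nat_lit 308) (nat_lit 5) (nat_lit 482) (nat_lit 439) (nat_lit 219)) (XT.lf (nat_lit 0) (nat_lit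 2576976926) (nat_lit 836) (nat_lit 14388534212) (nat_lit 76) (nat_lit 4160005284) (nat_lit 287) (nat_lit 5) (nat_lit 298) (nat_lit 5) (nat_lit 288) (nat_lit 5) (nat_lit 483) (nat_lit 439) (nat_lit 218))))))))
noncomputable def xc222 : XT := (XT.nd (nat_lit 56160) (nat_lit 0) (nat_lit 16644) (XT.nd (nat_lit 858) (nat_lit 2888) (nat_lit 0) (XT.nd (nat_lit 390) (nat_lit 1976) (nat_lit 0) (XT.nd (nat_lit 156) (nat_lit 1292) (nat_lit 0) (XT.nd (nat_lit 78) (nat_lit 684) (nat_lit 0) (XT.lf (nat_lit 0) (nat_lit 5403500203) (nat_lit 836) (nat_lit 3108377499) (nat_lit 76) (nat_lit 12855654072) (nat_lit 287) (nat_lit 5) (nat_lit 298) (nat_lit 5) (nat_lit 288) (nat_lit 5) (nat_lit 484) (nat_lit 439) (nat_lit 217)) (XT.lf (nat_lit 0) (nat_lit 8338232085) (nat_lit 760) (nat_lit 13110671821) (nat_lit 76) (nat_lit 164451320) (nat_lit 278) (nat_lit 5) (nat_lit 288) (nat_lit 5) (nat_lit 279) (nat_lit 5) (nat_lit 485) (nat_lit 439) (nat_lit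 216))) (XT.nd (nat_lit 78) (nat_lit 1292) (nat_lit 0) (XT.lf (nat_lit 0) (nat_lit 11404463647) (nat_lit 760) (nat_lit 1537265175) (nat_lit 76) (nat_lit 8920911553) (nat_lit 278) (nat_lit 5) (nat_lit 288) (nat_lit 5) (nat_lit 279) (nat_lit 5) (nat_lit 486) (nat_lit 439) (nat_lit 215)) (XT.nd (nat_lit 78) (nat_lit 608) (nat_lit 0) (XT.lf (nat_lit 0) (nat_lit 10398915386) (nat_lit 684) (nat_lit 4196148567) (nat_lit 760) (nat_lit 7520587699) (nat_lit 269) (nat_lit 5) (nat_lit 278) (nat_lit 5) (nat_lit 279) (nat_lit 5) (nat_lit 487) (nat_lit 439) (nat_lit 214)) (XT.lf (nat_lit 0) (nat_lit 187730980) (nat_lit 608) (nat_lit 17699600235) (nat_lit 684) (nat_lit 4485636116) (nat_lit 261) (nat_lit 5) (nat_lit 269) (nat_lit 5) (nat_lit 270) (nat_lit 5) (nat_lit 488) (nat_lit 439) (nat_lit 213))))) (XT.nd (nat_lit 234) (nat_lit 1216) (nat_lit 0) (XT.nd (nat_lit 78) (nat_lit 760) (nat_lit 0) (XT.lf (nat_lit 0) (nat_lit 12455856386)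 (nat_lit 608) (nat_lit 8891451087) (nat_lit 684) (nat_lit 1286085832) (nat_lit 261) (nat_lit 5) (nat_lit 269) (nat_lit 5) (nat_lit 270) (nat_lit 5) (nat_lit 489) (nat_lit 439) (nat_lit 212)) (XT.nd (nat_lit 78) (nat_lit 0) (nat_lit 0) (XT.lf (nat_lit 0) (nat_lit 1961484111) (nat_lit 760) (nat_lit 20819662631) (nat_lit 76) (nat_lit 117426215) (nat_lit 251) (nat_lit 5) (nat_lit 261) (nat_lit 5) (nat_lit 252) (nat_lit 5) (nat_lit 490) (nat_lit 439) (nat_lit 211)) (XT.lf (nat_lit 0) (nat_lit 5380168587) (nat_lit 760) (nat_lit 8522200791) (nat_lit 76) (nat_lit 9264050308) (nat_lit 251) (nat_lit 5) (nat_lit 261) (nat_lit 5) (nat_lit 252) (nat_lit 5) (nat_lit 491) (nat_lit 439) (nat_lit 210)))) (XT.nd (nat_lit 78) (nat_lit 608) (nat_lit 0) (XT.lf (nat_lit 0) (nat_lit 4069580598) (nat_lit 608) (nat_lit 4819887216) (nat_lit 684) (nat_lit 14549711872) (nat_lit 243) (nat_lit 5) (nat_lit 251) (nat_lit 5) (nat_lit 252) (nat_lit 5)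 (nat_lit 492) (nat_lit 439) (nat_lit 209)) (XT.nd (nat_lit 78) (nat_lit 608) (nat_lit 0) (XT.lf (nat_lit 0) (nat_lit 12551238114) (nat_lit 684) (nat_lit 6721814921) (nat_lit 76) (nat_lit 4442697284) (nat_lit 243) (nat_lit 5) (nat_lit 252) (nat_lit 5) (nat_lit 244) (nat_lit 5) (nat_lit 493) (nat_lit 439) (nat_lit 208)) (XT.lf (nat_lit 0) (nat_lit 6223680442) (nat_lit 608) (nat_lit 10130835461) (nat_lit 684) (nat_lit 7641972134) (nat_lit 235) (nat_lit 5) (nat_lit 243) (nat_lit 5) (nat_lit 244) (nat_lit 5) (nat_lit 494) (nat_lit 439) (nat_lit 207)))))) (XT.nd (nat_lit 390) (nat_lit 1672) (nat_lit 0) (XT.nd (nat_lit 156) (nat_lit 684) (nat_lit 0) (XT.nd (nat_lit 78) (nat_lit 532) (nat_lit 0) (XT.lf (nat_lit 0) (nat_lit 19514284855) (nat_lit 608) (nat_lit 760672953) (nat_lit 684) (nat_lit 4007061819) (nat_lit 235) (nat_lit 5) (nat_lit 243) (nat_lit 5) (nat_lit 244) (nat_lit 5) (nat_lit 495) (nat_lit 439) (nat_lit 206)) (XT.lf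 (nat_lit 0) (nat_lit 8547532363) (nat_lit 532) (nat_lit 15834952159) (nat_lit 608) (nat_lit 188604880) (nat_lit 228) (nat_lit 5) (nat_lit 235) (nat_lit 5) (nat_lit 236) (nat_lit 5) (nat_lit 496) (nat_lit 439) (nat_lit 205))) (XT.nd (nat_lit 78) (nat_lit 608) (nat_lit 0) (XT.lf (nat_lit 0) (nat_lit 3690940160) (nat_lit 608) (nat_lit 2705795828) (nat_lit 76) (nat_lit 18468057810) (nat_lit 227) (nat_lit 5) (nat_lit 235) (nat_lit 5) (nat_lit 228) (nat_lit 5) (nat_lit 497) (nat_lit 439) (nat_lit 204)) (XT.nd (nat_lit 78) (nat_lit 0) (nat_lit 0) (XT.lf (nat_lit 0) (nat_lit 7734689583) (nat_lit 684) (nat_lit 14167703775) (nat_lit 76) (nat_lit 3260172223) (nat_lit 219) (nat_lit 5) (nat_lit 228) (nat_lit 5) (nat_lit 220) (nat_lit 5) (nat_lit 498) (nat_lit 439) (nat_lit 203)) (XT.lf (nat_lit 0) (nat_lit 11916151879) (nat_lit 684) (nat_lit 507059591) (nat_lit 76) (nat_lit 13041945558) (nat_lit 219) (nat_lit 5) (nat_lit 228) (nat_lit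 5) (nat_lit 220) (nat_lit 5) (nat_lit 499) (nat_lit 439) (nat_lit 202))))) (XT.nd (nat_lit 54678) (nat_lit 0) (nat_lit 18088) (XT.nd (nat_lit 78) (nat_lit 1140) (nat_lit 0) (XT.lf (nat_lit 0) (nat_lit 13600406934) (nat_lit 532) (nat_lit 2665411737) (nat_lit 608) (nat_lit 9506291098) (nat_lit 212) (nat_lit 5) (nat_lit 219) (nat_lit 5) (nat_lit 220) (nat_lit 5) (nat_lit 500) (nat_lit 439) (nat_lit 201)) (XT.nd (nat_lit 156) (nat_lit 608) (nat_lit 0) (XT.lf (nat_lit 0) (nat_lit 1884339089) (nat_lit 532) (nat_lit 18877422799) (nat_lit 608) (nat_lit 5322254964) (nat_lit 205) (nat_lit 5) (nat_lit 212) (nat_lit 5) (nat_lit 213) (nat_lit 5) (nat_lit 501) (nat_lit 439) (nat_lit 200)) (XT.lf (nat_lit 0) (nat_lit 3481089817) (nat_lit 608) (nat_lit 22287182571) (nat_lit 76) (nat_lit 953455881) (nat_lit 197) (nat_lit 5) (nat_lit 205) (nat_lit 5) (nat_lit 198) (nat_lit 5) (nat_lit 503) (nat_lit 439) (nat_lit 198)))) (XT.nd (nat_lit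 78) (nat_lit 0) (nat_lit 0) (XT.lf (nat_lit 0) (nat_lit 4660744135) (nat_lit 1748) (nat_lit 1072319588) (nat_lit 1748) (nat_lit 1072319588) (nat_lit 435) (nat_lit 3) (nat_lit 458) (nat_lit 3) (nat_lit 458) (nat_lit 5) (nat_lit 440) (nat_lit 440) (nat_lit 260)) (XT.nd (nat_lit 78) (nat_lit 0) (nat_lit 76) (XT.lf (nat_lit 76) (nat_lit 4427578288) (nat_lit 0) (nat_lit 5372314429) (nat_lit 1748) (nat_lit 3939149186) (nat_lit 436) (nat_lit 5) (nat_lit 435) (nat_lit 3) (nat_lit 458) (nat_lit 5) (nat_lit 441) (nat_lit 440) (nat_lit 259)) (XT.lf (nat_lit 0) (nat_lit 10298476492) (nat_lit 1672) (nat_lit 2719908566) (nat_lit 1748) (nat_lit 851288779) (nat_lit 436) (nat_lit 5) (nat_lit 458) (nat_lit 5) (nat_lit 459) (nat_lit 5) (nat_lit 442) (nat_lit 440) (nat_lit 258))))))) (XT.nd (nat_lit 858) (nat_lit 0) (nat_lit 152) (XT.nd (nat_lit 390) (nat_lit 1520) (nat_lit 0) (XT.nd (nat_lit 156) (nat_lit 0) (nat_lit 76) (XT.nd (nat_lit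 78) (nat_lit 0) (nat_lit 0) (XT.lf (nat_lit 76) (nat_lit 4015609982) (nat_lit 0) (nat_lit 6843904089) (nat_lit 1748) (nat_lit 3142358002) (nat_lit 437) (nat_lit 5) (nat_lit 436) (nat_lit 5) (nat_lit 459) (nat_lit 5) (nat_lit 443) (nat_lit 440) (nat_lit 257)) (XT.lf (nat_lit 76) (nat_lit 10917785768) (nat_lit 0) (nat_lit 523218345) (nat_lit 1748) (nat_lit 2695528769) (nat_lit 437) (nat_lit 5) (nat_lit 436) (nat_lit 5) (nat_lit 459) (nat_lit 5) (nat_lit 444) (nat_lit 440) (nat_lit 256))) (XT.nd (nat_lit 78) (nat_lit 0) (nat_lit 0) (XT.lf (nat_lit 76) (nat_lit 3689006550) (nat_lit 0) (nat_lit 8398713296) (nat_lit 1748) (nat_lit 2185098322) (nat_lit 438) (nat_lit 5) (nat_lit 437) (nat_lit 5) (nat_lit 460) (nat_lit 5) (nat_lit 445) (nat_lit 440) (nat_lit 255)) (XT.nd (nat_lit 78) (nat_lit 0) (nat_lit 76) (XT.lf (nat_lit 76) (nat_lit 10770036457) (nat_lit 0) (nat_lit 1993698232) (nat_lit 1748) (nat_lit 1647770291) (nat_lit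 438) (nat_lit 5) (nat_lit 437) (nat_lit 5) (nat_lit 460) (nat_lit 5) (nat_lit 446) (nat_lit 440) (nat_lit 254)) (XT.lf (nat_lit 76) (nat_lit 3450403878) (nat_lit 0) (nat_lit 10046257799) (nat_lit 1748) (nat_lit 1055439069) (nat_lit 439) (nat_lit 5) (nat_lit 438) (nat_lit 5) (nat_lit 461) (nat_lit 5) (nat_lit 447) (nat_lit 440) (nat_lit 253))))) (XT.nd (nat_lit 234) (nat_lit 0) (nat_lit 76) (XT.nd (nat_lit 78) (nat_lit 1672) (nat_lit 0) (XT.lf (nat_lit 76) (nat_lit 10715032248) (nat_lit 0) (nat_lit 3558417656) (nat_lit 1748) (nat_lit 421477465) (nat_lit 439) (nat_lit 5) (nat_lit 438) (nat_lit 5) (nat_lit 461) (nat_lit 5) (nat_lit 448) (nat_lit 440) (nat_lit 252)) (XT.nd (nat_lit 78) (nat_lit 0) (nat_lit 0) (XT.lf (nat_lit 0) (nat_lit 255566790) (nat_lit 1748) (nat_lit 11538988895) (nat_lit 1824) (nat_lit 3045361351) (nat_lit 416) (nat_lit 5) (nat_lit 439) (nat_lit 5) (nat_lit 440) (nat_lit 5) (nat_lit 449) (nat_lit 440)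 (nat_lit 251)) (XT.lf (nat_lit 0) (nat_lit 982868894) (nat_lit 1748) (nat_lit 4237718313) (nat_lit 1824) (nat_lit 9766319181) (nat_lit 416) (nat_lit 5) (nat_lit 439) (nat_lit 5) (nat_lit 440) (nat_lit 5) (nat_lit 450) (nat_lit 440) (nat_lit 250)))) (XT.nd (nat_lit 78) (nat_lit 0) (nat_lit 0) (XT.lf (nat_lit 0) (nat_lit 1747661764) (nat_lit 1748) (nat_lit 11899336819) (nat_lit 1824) (nat_lit 1489380816) (nat_lit 417) (nat_lit 5) (nat_lit 440) (nat_lit 5) (nat_lit 441) (nat_lit 5) (nat_lit 451) (nat_lit 440) (nat_lit 249)) (XT.nd (nat_lit 78) (nat_lit 0) (nat_lit 0) (XT.lf (nat_lit 0) (nat_lit 2583154017) (nat_lit 1748) (nat_lit 4409561761) (nat_lit 1824) (nat_lit 8295020736) (nat_lit 417) (nat_lit 5) (nat_lit 440) (nat_lit 5) (nat_lit 441) (nat_lit 5) (nat_lit 452) (nat_lit 440) (nat_lit 248)) (XT.lf (nat_lit 76) (nat_lit 3267699614) (nat_lit 0) (nat_lit 181229880) (nat_lit 1824) (nat_lit 11992922468) (nat_lit 418) (nat_lit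 5) (nat_lit 417) (nat_lit 5) (nat_lit 441) (nat_lit 5) (nat_lit 453) (nat_lit 440) (nat_lit 247)))))) (XT.nd (nat_lit 390) (nat_lit 0) (nat_lit 152) (XT.nd (nat_lit 156) (nat_lit 0) (nat_lit 76) (XT.nd (nat_lit 78) (nat_lit 0) (nat_lit 0) (XT.lf (nat_lit 0) (nat_lit 4398228831) (nat_lit 1748) (nat_lit 4489607745) (nat_lit 1824) (nat_lit 6709891584) (nat_lit 418) (nat_lit 5) (nat_lit 441) (nat_lit 5) (nat_lit 442) (nat_lit 5) (nat_lit 454) (nat_lit 440) (nat_lit 246)) (XT.lf (nat_lit 76) (nat_lit 3386647629) (nat_lit 0) (nat_lit 1995691745) (nat_lit 1824) (nat_lit 10374068561) (nat_lit 419) (nat_lit 5) (nat_lit 418) (nat_lit 5) (nat_lit 442) (nat_lit 5) (nat_lit 455) (nat_lit 440) (nat_lit 245))) (XT.nd (nat_lit 78) (nat_lit 0) (nat_lit 0) (XT.lf (nat_lit 0) (nat_lit 6441906361) (nat_lit 1748) (nat_lit 4474581692) (nat_lit 1824) (nat_lit 5000660274) (nat_lit 419) (nat_lit 5) (nat_lit 442) (nat_lit 5) (nat_lit 443) (nat_lit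 5) (nat_lit 456) (nat_lit 440) (nat_lit 244)) (XT.nd (nat_lit 78) (nat_lit 0) (nat_lit 76) (XT.lf (nat_lit 76) (nat_lit 3607376406) (nat_lit 0) (nat_lit 3944829294) (nat_lit 1824) (nat_lit 8528309461) (nat_lit 420) (nat_lit 5) (nat_lit 419) (nat_lit 5) (nat_lit 443) (nat_lit 5) (nat_lit 457) (nat_lit 440) (nat_lit 243)) (XT.lf (nat_lit 0) (nat_lit 8728514414) (nat_lit 1748) (nat_lit 4361015940) (nat_lit 1824) (nat_lit 3156745321) (nat_lit 420) (nat_lit 5) (nat_lit 443) (nat_lit 5) (nat_lit 444) (nat_lit 5) (nat_lit 458) (nat_lit 440) (nat_lit 242))))) (XT.nd (nat_lit 234) (nat_lit 0) (nat_lit 76) (XT.nd (nat_lit 78) (nat_lit 0) (nat_lit 76) (XT.lf (nat_lit 76) (nat_lit 3933580315) (nat_lit 0) (nat_lit 6039590211) (nat_lit 1824) (nat_lit 6441286811) (nat_lit 421) (nat_lit 5) (nat_lit 420) (nat_lit 5) (nat_lit 444) (nat_lit 5) (nat_lit 459) (nat_lit 440) (nat_lit 241)) (XT.nd (nat_lit 78) (nat_lit 0) (nat_lit 0) (XT.lf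 (nat_lit 0) (nat_lit 11272921148) (nat_lit 1748) (nat_lit 4145249930) (nat_lit 1824) (nat_lit 1167229842) (nat_lit 421) (nat_lit 5) (nat_lit 444) (nat_lit 5) (nat_lit 445) (nat_lit 5) (nat_lit 460) (nat_lit 440) (nat_lit 240)) (XT.lf (nat_lit 76) (nat_lit 4369152798) (nat_lit 0) (nat_lit 8291278264) (nat_lit 1824) (nat_lit 4098099295) (nat_lit 422) (nat_lit 5) (nat_lit 421) (nat_lit 5) (nat_lit 445) (nat_lit 5) (nat_lit 461) (nat_lit 440) (nat_lit 239)))) (XT.nd (nat_lit 78) (nat_lit 0) (nat_lit 76) (XT.lf (nat_lit 76) (nat_lit 13104826177) (nat_lit 0) (nat_lit 992176976) (nat_lit 1824) (nat_lit 2837695218) (nat_lit 422) (nat_lit 5) (nat_lit 421) (nat_lit 5) (nat_lit 445) (nat_lit 5) (nat_lit 462) (nat_lit 440) (nat_lit 238)) (XT.nd (nat_lit 78) (nat_lit 0) (nat_lit 0) (XT.lf (nat_lit 76) (nat_lit 4918186389) (nat_lit 0) (nat_lit 10711579945) (nat_lit 1824) (nat_lit 1483276398) (nat_lit 423) (nat_lit 5) (nat_lit 422)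 (nat_lit 5) (nat_lit 446) (nat_lit 5) (nat_lit 463) (nat_lit 440) (nat_lit 237)) (XT.lf (nat_lit 76) (nat_lit 13881254296) (nat_lit 0) (nat_lit 3337880459) (nat_lit 1824) (nat_lit 75302367) (nat_lit 423) (nat_lit 5) (nat_lit 422) (nat_lit 5) (nat_lit 446) (nat_lit 5) (nat_lit 464) (nat_lit 440) (nat_lit 236))))))))
noncomputable def xc223 : XT := (XT.nd (nat_lit 1716) (nat_lit 5548) (nat_lit 0) (XT.nd (nat_lit 858) (nat_lit 4560) (nat_lit 0) (XT.nd (nat_lit 390) (nat_lit 2584) (nat_lit 0) (XT.nd (nat_lit 156) (nat_lit 2052) (nat_lit 0) (XT.nd (nat_lit 78) (nat_lit 0) (nat_lit 0) (XT.lf (nat_lit 0) (nat_lit 1400634829) (nat_lit 1824) (nat_lit 11902557961) (nat_lit 76) (nat_lit 4174938931) (nat_lit 399) (nat_lit 5) (nat_lit 423) (nat_lit 5) (nat_lit 400) (nat_lit 5) (nat_lit 465) (nat_lit 440) (nat_lit 235)) (XT.lf (nat_lit 0) (nat_lit 2944141051) (nat_lit 1824) (nat_lit 2902712877) (nat_lit 76) (nat_lit 11817857175) (nat_lit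 399) (nat_lit 5) (nat_lit 423) (nat_lit 5) (nat_lit 400) (nat_lit 5) (nat_lit 466) (nat_lit 440) (nat_lit 234))) (XT.nd (nat_lit 78) (nat_lit 912) (nat_lit 0) (XT.lf (nat_lit 0) (nat_lit 4565492937) (nat_lit 1216) (nat_lit 11510718640) (nat_lit 76) (nat_lit 1777872959) (nat_lit 384) (nat_lit 5) (nat_lit 400) (nat_lit 5) (nat_lit 385) (nat_lit 5) (nat_lit 467) (nat_lit 440) (nat_lit 233)) (XT.nd (nat_lit 78) (nat_lit 912) (nat_lit 0) (XT.lf (nat_lit 0) (nat_lit 6271705451) (nat_lit 1216) (nat_lit 2277266776) (nat_lit 76) (nat_lit 9497226477) (nat_lit 384) (nat_lit 5) (nat_lit 400) (nat_lit 5) (nat_lit 385) (nat_lit 5) (nat_lit 468) (nat_lit 440) (nat_lit 232)) (XT.lf (nat_lit 0) (nat_lit 7230512709) (nat_lit 912) (nat_lit 822695355) (nat_lit 988) (nat_lit 10188125675) (nat_lit 372) (nat_lit 5) (nat_lit 384) (nat_lit 5) (nat_lit 385) (nat_lit 5) (nat_lit 469) (nat_lit 440) (nat_lit 231))))) (XT.nd (nat_lit 234) (nat_lit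 1748) (nat_lit 0) (XT.nd (nat_lit 78) (nat_lit 836) (nat_lit 0) (XT.lf (nat_lit 0) (nat_lit 9925853691) (nat_lit 988) (nat_lit 1531932598) (nat_lit 76) (nat_lit 6981476788) (nat_lit 372) (nat_lit 5) (nat_lit 385) (nat_lit 5) (nat_lit 373) (nat_lit 5) (nat_lit 470) (nat_lit 440) (nat_lit 230)) (XT.nd (nat_lit 78) (nat_lit 0) (nat_lit 0) (XT.lf (nat_lit 0) (nat_lit 8233921338) (nat_lit 836) (nat_lit 3655355153) (nat_lit 912) (nat_lit 6750809850) (nat_lit 361) (nat_lit 5) (nat_lit 372) (nat_lit 5) (nat_lit 373) (nat_lit 5) (nat_lit 471) (nat_lit 440) (nat_lit 229)) (XT.lf (nat_lit 0) (nat_lit 13924749287) (nat_lit 912) (nat_lit 662103062) (nat_lit 76) (nat_lit 4257419881) (nat_lit 361) (nat_lit 5) (nat_lit 373) (nat_lit 5) (nat_lit 362) (nat_lit 5) (nat_lit 472) (nat_lit 440) (nat_lit 228)))) (XT.nd (nat_lit 78) (nat_lit 912) (nat_lit 0) (XT.lf (nat_lit 0) (nat_lit 9370395639) (nat_lit 836) (nat_lit 6710184967) (nat_lit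 912) (nat_lit 2970370005) (nat_lit 350) (nat_lit 5) (nat_lit 361) (nat_lit 5) (nat_lit 362) (nat_lit 5) (nat_lit 473) (nat_lit 440) (nat_lit 227)) (XT.nd (nat_lit 78) (nat_lit 76) (nat_lit 0) (XT.lf (nat_lit 0) (nat_lit 341491324) (nat_lit 836) (nat_lit 17948000093) (nat_lit 912) (nat_lit 972073606) (nat_lit 339) (nat_lit 5) (nat_lit 350) (nat_lit 5) (nat_lit 351) (nat_lit 5) (nat_lit 474) (nat_lit 440) (nat_lit 226)) (XT.lf (nat_lit 0) (nat_lit 1156746749) (nat_lit 912) (nat_lit 8836927261) (nat_lit 76) (nat_lit 9480490091) (nat_lit 338) (nat_lit 5) (nat_lit 350) (nat_lit 5) (nat_lit 339) (nat_lit 5) (nat_lit 475) (nat_lit 440) (nat_lit 225)))))) (XT.nd (nat_lit 390) (nat_lit 2204) (nat_lit 0) (XT.nd (nat_lit 156) (nat_lit 1520) (nat_lit 0) (XT.nd (nat_lit 78) (nat_lit 0) (nat_lit 0) (XT.lf (nat_lit 0) (nat_lit 1455390212) (nat_lit 836) (nat_lit 1864013608) (nat_lit 912) (nat_lit 16371398928) (nat_lit 327) (nat_lit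 5) (nat_lit 338) (nat_lit 5) (nat_lit 339) (nat_lit 5) (nat_lit 476) (nat_lit 440) (nat_lit 224)) (XT.lf (nat_lit 0) (nat_lit 5621626989) (nat_lit 912) (nat_lit 7884588536) (nat_lit 76) (nat_lit 6403633972) (nat_lit 327) (nat_lit 5) (nat_lit 339) (nat_lit 5) (nat_lit 328) (nat_lit 5) (nat_lit 477) (nat_lit 440) (nat_lit 223))) (XT.nd (nat_lit 78) (nat_lit 760) (nat_lit 0) (XT.lf (nat_lit 0) (nat_lit 2691091661) (nat_lit 760) (nat_lit 5303603506) (nat_lit 836) (nat_lit 12138087562) (nat_lit 317) (nat_lit 5) (nat_lit 327) (nat_lit 5) (nat_lit 328) (nat_lit 5) (nat_lit 478) (nat_lit 440) (nat_lit 222)) (XT.nd (nat_lit 78) (nat_lit 760) (nat_lit 0) (XT.lf (nat_lit 0) (nat_lit 10483420583) (nat_lit 836) (nat_lit 6799367196) (nat_lit 76) (nat_lit 3076024456) (nat_lit 317) (nat_lit 5) (nat_lit 328) (nat_lit 5) (nat_lit 318) (nat_lit 5) (nat_lit 479) (nat_lit 440) (nat_lit 221)) (XT.lf (nat_lit 0) (nat_lit 4068970640) (nat_lit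 760) (nat_lit 9009636935) (nat_lit 836) (nat_lit 7509622515) (nat_lit 307) (nat_lit 5) (nat_lit 317) (nat_lit 5) (nat_lit 318) (nat_lit 5) (nat_lit 480) (nat_lit 440) (nat_lit 220))))) (XT.nd (nat_lit 234) (nat_lit 1444) (nat_lit 0) (XT.nd (nat_lit 78) (nat_lit 760) (nat_lit 0) (XT.lf (nat_lit 0) (nat_lit 15241801239) (nat_lit 760) (nat_lit 524732265) (nat_lit 836) (nat_lit 5054887559) (nat_lit 307) (nat_lit 5) (nat_lit 317) (nat_lit 5) (nat_lit 318) (nat_lit 5) (nat_lit 481) (nat_lit 440) (nat_lit 219)) (XT.nd (nat_lit 78) (nat_lit 76) (nat_lit 0) (XT.lf (nat_lit 0) (nat_lit 5594362979) (nat_lit 684) (nat_lit 12998262045) (nat_lit 760) (nat_lit 2464964132) (nat_lit 298) (nat_lit 5) (nat_lit 307) (nat_lit 5) (nat_lit 308) (nat_lit 5) (nat_lit 482) (nat_lit 440) (nat_lit 218)) (XT.lf (nat_lit 0) (nat_lit 210932540) (nat_lit 760) (nat_lit 4240210268) (nat_lit 76) (nat_lit 16846586373) (nat_lit 297) (nat_lit 5) (nat_lit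 307) (nat_lit 5) (nat_lit 298) (nat_lit 5) (nat_lit 483) (nat_lit 440) (nat_lit 217)))) (XT.nd (nat_lit 78) (nat_lit 684) (nat_lit 0) (XT.lf (nat_lit 0) (nat_lit 2978190033) (nat_lit 836) (nat_lit 14288142984) (nat_lit 76) (nat_lit 4274597504) (nat_lit 287) (nat_lit 5) (nat_lit 298) (nat_lit 5) (nat_lit 288) (nat_lit 5) (nat_lit 484) (nat_lit 440) (nat_lit 216)) (XT.nd (nat_lit 78) (nat_lit 684) (nat_lit 0) (XT.lf (nat_lit 0) (nat_lit 5854387430) (nat_lit 836) (nat_lit 2789994155) (nat_lit 76) (nat_lit 13143543736) (nat_lit 287) (nat_lit 5) (nat_lit 298) (nat_lit 5) (nat_lit 288) (nat_lit 5) (nat_lit 485) (nat_lit 440) (nat_lit 215)) (XT.lf (nat_lit 0) (nat_lit 8843803020) (nat_lit 760) (nat_lit 12988224665) (nat_lit 76) (nat_lit 206719750) (nat_lit 278) (nat_lit 5) (nat_lit 288) (nat_lit 5) (nat_lit 279) (nat_lit 5) (nat_lit 486) (nat_lit 440) (nat_lit 214))))))) (XT.nd (nat_lit 858) (nat_lit 1672) (nat_lit 0) (XT.nd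 (nat_lit 390) (nat_lit 1824) (nat_lit 0) (XT.nd (nat_lit 156) (nat_lit 1368) (nat_lit 0) (XT.nd (nat_lit 78) (nat_lit 684) (nat_lit 0) (XT.lf (nat_lit 0) (nat_lit 11964715954) (nat_lit 760) (nat_lit 1190892251) (nat_lit 76) (nat_lit 9137544886) (nat_lit 278) (nat_lit 5) (nat_lit 288) (nat_lit 5) (nat_lit 279) (nat_lit 5) (nat_lit 487) (nat_lit 440) (nat_lit 213)) (XT.lf (nat_lit 0) (nat_lit 10981530880) (nat_lit 684) (nat_lit 4233516778) (nat_lit 760) (nat_lit 7336260445) (nat_lit 269) (nat_lit 5) (nat_lit 278) (nat_lit 5) (nat_lit 279) (nat_lit 5) (nat_lit 488) (nat_lit 440) (nat_lit 212))) (XT.nd (nat_lit 78) (nat_lit 760) (nat_lit 0) (XT.lf (nat_lit 0) (nat_lit 569970581) (nat_lit 608) (nat_lit 17999510409) (nat_lit 684) (nat_lit 4244364553) (nat_lit 261) (nat_lit 5) (nat_lit 269) (nat_lit 5) (nat_lit 270) (nat_lit 5) (nat_lit 489) (nat_lit 440) (nat_lit 211)) (XT.nd (nat_lit 78) (nat_lit 760) (nat_lit 0) (XT.lf (nat_lit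 0) (nat_lit 13076037221) (nat_lit 608) (nat_lit 9016258706) (nat_lit 684) (nat_lit 987313152) (nat_lit 261) (nat_lit 5) (nat_lit 269) (nat_lit 5) (nat_lit 270) (nat_lit 5) (nat_lit 490) (nat_lit 440) (nat_lit 210)) (XT.lf (nat_lit 0) (nat_lit 2317461783) (nat_lit 760) (nat_lit 20857068608) (nat_lit 76) (nat_lit 175591362) (nat_lit 251) (nat_lit 5) (nat_lit 261) (nat_lit 5) (nat_lit 252) (nat_lit 5) (nat_lit 491) (nat_lit 440) (nat_lit 209))))) (XT.nd (nat_lit 234) (nat_lit 1216) (nat_lit 0) (XT.nd (nat_lit 78) (nat_lit 608) (nat_lit 0) (XT.lf (nat_lit 0) (nat_lit 5798309204) (nat_lit 760) (nat_lit 8321088654) (nat_lit 76) (nat_lit 9504053493) (nat_lit 251) (nat_lit 5) (nat_lit 261) (nat_lit 5) (nat_lit 252) (nat_lit 5) (nat_lit 492) (nat_lit 440) (nat_lit 208)) (XT.nd (nat_lit 78) (nat_lit 0) (nat_lit 0) (XT.lf (nat_lit 0) (nat_lit 4520083914) (nat_lit 608) (nat_lit 4854018053) (nat_lit 684) (nat_lit 14527640118) (nat_lit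 243) (nat_lit 5) (nat_lit 251) (nat_lit 5) (nat_lit 252) (nat_lit 5) (nat_lit 493) (nat_lit 440) (nat_lit 207)) (XT.lf (nat_lit 0) (nat_lit 13103487460) (nat_lit 684) (nat_lit 6488674141) (nat_lit 76) (nat_lit 4591796588) (nat_lit 243) (nat_lit 5) (nat_lit 252) (nat_lit 5) (nat_lit 244) (nat_lit 5) (nat_lit 494) (nat_lit 440) (nat_lit 206)))) (XT.nd (nat_lit 78) (nat_lit 608) (nat_lit 0) (XT.lf (nat_lit 0) (nat_lit 6713312860) (nat_lit 608) (nat_lit 10265982434) (nat_lit 684) (nat_lit 7491087698) (nat_lit 235) (nat_lit 5) (nat_lit 243) (nat_lit 5) (nat_lit 244) (nat_lit 5) (nat_lit 495) (nat_lit 440) (nat_lit 205)) (XT.nd (nat_lit 78) (nat_lit 608) (nat_lit 0) (XT.lf (nat_lit 0) (nat_lit 20262569384) (nat_lit 608) (nat_lit 709739612) (nat_lit 684) (nat_lit 3789434547) (nat_lit 235) (nat_lit 5) (nat_lit 243) (nat_lit 5) (nat_lit 244) (nat_lit 5) (nat_lit 496) (nat_lit 440) (nat_lit 204)) (XT.lf (nat_lit 0) (nat_lit 101031105)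 (nat_lit 608) (nat_lit 15977742595) (nat_lit 76) (nat_lit 8977868418) (nat_lit 227) (nat_lit 5) (nat_lit 235) (nat_lit 5) (nat_lit 228) (nat_lit 5) (nat_lit 497) (nat_lit 440) (nat_lit 203)))))) (XT.nd (nat_lit 54912) (nat_lit 0) (nat_lit 17480) (XT.nd (nat_lit 156) (nat_lit 1064) (nat_lit 0) (XT.nd (nat_lit 78) (nat_lit 608) (nat_lit 0) (XT.lf (nat_lit 0) (nat_lit 4049940360) (nat_lit 608) (nat_lit 2402032778) (nat_lit 76) (nat_lit 18904338054) (nat_lit 227) (nat_lit 5) (nat_lit 235) (nat_lit 5) (nat_lit 228) (nat_lit 5) (nat_lit 498) (nat_lit 440) (nat_lit 202)) (XT.lf (nat_lit 0) (nat_lit 8171759312) (nat_lit 684) (nat_lit 14090300039) (nat_lit 76) (nat_lit 3398036635) (nat_lit 219) (nat_lit 5) (nat_lit 228) (nat_lit 5) (nat_lit 220) (nat_lit 5) (nat_lit 499) (nat_lit 440) (nat_lit 201))) (XT.nd (nat_lit 78) (nat_lit 1064) (nat_lit 0) (XT.lf (nat_lit 0) (nat_lit 12431314072) (nat_lit 684) (nat_lit 163516654) (nat_lit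 76) (nat_lit 13374020712) (nat_lit 219) (nat_lit 5) (nat_lit 228) (nat_lit 5) (nat_lit 220) (nat_lit 5) (nat_lit 500) (nat_lit 440) (nat_lit 200)) (XT.nd (nat_lit 78) (nat_lit 532) (nat_lit 0) (XT.lf (nat_lit 0) (nat_lit 14223772332) (nat_lit 532) (nat_lit 2641054892) (nat_lit 608) (nat_lit 9417180359) (nat_lit 212) (nat_lit 5) (nat_lit 219) (nat_lit 5) (nat_lit 220) (nat_lit 5) (nat_lit 501) (nat_lit 440) (nat_lit 199)) (XT.lf (nat_lit 0) (nat_lit 2276078539) (nat_lit 532) (nat_lit 19172037365) (nat_lit 608) (nat_lit 5152089756) (nat_lit 205) (nat_lit 5) (nat_lit 212) (nat_lit 5) (nat_lit 213) (nat_lit 5) (nat_lit 502) (nat_lit 440) (nat_lit 198))))) (XT.nd (nat_lit 234) (nat_lit 0) (nat_lit 76) (XT.nd (nat_lit 78) (nat_lit 0) (nat_lit 0) (XT.lf (nat_lit 0) (nat_lit 5108087545) (nat_lit 1748) (nat_lit 913096551) (nat_lit 1748) (nat_lit 913096551) (nat_lit 435) (nat_lit 3) (nat_lit 458) (nat_lit 3) (nat_lit 458) (nat_lit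 5) (nat_lit 441) (nat_lit 441) (nat_lit 258)) (XT.nd (nat_lit 78) (nat_lit 0) (nat_lit 76) (XT.lf (nat_lit 76) (nat_lit 4875091483) (nat_lit 0) (nat_lit 5817499367) (nat_lit 1748) (nat_lit 3307047375) (nat_lit 436) (nat_lit 5) (nat_lit 435) (nat_lit 3) (nat_lit 458) (nat_lit 5) (nat_lit 442) (nat_lit 441) (nat_lit 257)) (XT.lf (nat_lit 0) (nat_lit 11185335684) (nat_lit 1672) (nat_lit 2406327356) (nat_lit 1748) (nat_lit 541540882) (nat_lit 436) (nat_lit 5) (nat_lit 458) (nat_lit 5) (nat_lit 459) (nat_lit 5) (nat_lit 443) (nat_lit 441) (nat_lit 256)))) (XT.nd (nat_lit 78) (nat_lit 0) (nat_lit 0) (XT.lf (nat_lit 76) (nat_lit 4461480647) (nat_lit 0) (nat_lit 7285136038) (nat_lit 1748) (nat_lit 2521653800) (nat_lit 437) (nat_lit 5) (nat_lit 436) (nat_lit 5) (nat_lit 459) (nat_lit 5) (nat_lit 444) (nat_lit 441) (nat_lit 255)) (XT.nd (nat_lit 78) (nat_lit 0) (nat_lit 76) (XT.lf (nat_lit 76) (nat_lit 11494532135) (nat_lit 0)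 (nat_lit 832068856) (nat_lit 1748) (nat_lit 2079290950) (nat_lit 437) (nat_lit 5) (nat_lit 436) (nat_lit 5) (nat_lit 459) (nat_lit 5) (nat_lit 445) (nat_lit 441) (nat_lit 254)) (XT.lf (nat_lit 76) (nat_lit 4134027702) (nat_lit 0) (nat_lit 8839856370) (nat_lit 1748) (nat_lit 1571270830) (nat_lit 438) (nat_lit 5) (nat_lit 437) (nat_lit 5) (nat_lit 460) (nat_lit 5) (nat_lit 446) (nat_lit 441) (nat_lit 253))))))))
noncomputable def xc224 : XT := (XT.nd (nat_lit 1638) (nat_lit 9804) (nat_lit 0) (XT.nd (nat_lit 780) (nat_lit 1292) (nat_lit 0) (XT.nd (nat_lit 390) (nat_lit 0) (nat_lit 152) (XT.nd (nat_lit 156) (nat_lit 1672) (nat_lit 0) (XT.nd (nat_lit 78) (nat_lit 0) (nat_lit 76) (XT.lf (nat_lit 76) (nat_lit 11349398972) (nat_lit 0) (nat_lit 2301384753) (nat_lit 1748) (nat_lit 1036088972) (nat_lit 438) (nat_lit 5) (nat_lit 437) (nat_lit 5) (nat_lit 460) (nat_lit 5) (nat_lit 447) (nat_lit 441) (nat_lit 252)) (XT.lf (nat_lit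 76) (nat_lit 3895484394) (nat_lit 0) (nat_lit 10491234115) (nat_lit 1748) (nat_lit 443799333) (nat_lit 439) (nat_lit 5) (nat_lit 438) (nat_lit 5) (nat_lit 461) (nat_lit 5) (nat_lit 448) (nat_lit 441) (nat_lit 251))) (XT.nd (nat_lit 78) (nat_lit 0) (nat_lit 76) (XT.lf (nat_lit 0) (nat_lit 187937084) (nat_lit 1748) (nat_lit 3679653612) (nat_lit 1824) (nat_lit 11108833121) (nat_lit 415) (nat_lit 5) (nat_lit 438) (nat_lit 5) (nat_lit 439) (nat_lit 5) (nat_lit 449) (nat_lit 441) (nat_lit 250)) (XT.nd (nat_lit 78) (nat_lit 0) (nat_lit 0) (XT.lf (nat_lit 0) (nat_lit 861831067) (nat_lit 1748) (nat_lit 11381458035) (nat_lit 1824) (nat_lit 2881193599) (nat_lit 416) (nat_lit 5) (nat_lit 439) (nat_lit 5) (nat_lit 440) (nat_lit 5) (nat_lit 450) (nat_lit 441) (nat_lit 249)) (XT.lf (nat_lit 0) (nat_lit 1591891901) (nat_lit 1748) (nat_lit 3941775975) (nat_lit 1824) (nat_lit 9740983821) (nat_lit 416) (nat_lit 5) (nat_lit 439) (nat_lit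 5) (nat_lit 440) (nat_lit 5) (nat_lit 451) (nat_lit 441) (nat_lit 248))))) (XT.nd (nat_lit 156) (nat_lit 0) (nat_lit 0) (XT.nd (nat_lit 78) (nat_lit 0) (nat_lit 0) (XT.lf (nat_lit 0) (nat_lit 2361567923) (nat_lit 1748) (nat_lit 11746012669) (nat_lit 1824) (nat_lit 1319745860) (nat_lit 417) (nat_lit 5) (nat_lit 440) (nat_lit 5) (nat_lit 441) (nat_lit 5) (nat_lit 452) (nat_lit 441) (nat_lit 247)) (XT.lf (nat_lit 0) (nat_lit 3202418002) (nat_lit 1748) (nat_lit 4114114873) (nat_lit 1824) (nat_lit 8265408825) (nat_lit 417) (nat_lit 5) (nat_lit 440) (nat_lit 5) (nat_lit 441) (nat_lit 5) (nat_lit 453) (nat_lit 441) (nat_lit 246))) (XT.nd (nat_lit 78) (nat_lit 0) (nat_lit 76) (XT.lf (nat_lit 76) (nat_lit 3714167794) (nat_lit 0) (nat_lit 362686211) (nat_lit 1824) (nat_lit 11662462424) (nat_lit 418) (nat_lit 5) (nat_lit 417) (nat_lit 5) (nat_lit 441) (nat_lit 5) (nat_lit 454) (nat_lit 441) (nat_lit 245)) (XT.nd (nat_lit 78) (nat_lit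 0) (nat_lit 0) (XT.lf (nat_lit 0) (nat_lit 5033047643) (nat_lit 1748) (nat_lit 4193476996) (nat_lit 1824) (nat_lit 6672031143) (nat_lit 418) (nat_lit 5) (nat_lit 441) (nat_lit 5) (nat_lit 442) (nat_lit 5) (nat_lit 455) (nat_lit 441) (nat_lit 244)) (XT.lf (nat_lit 76) (nat_lit 3837764519) (nat_lit 0) (nat_lit 2190842428) (nat_lit 1824) (nat_lit 10031970597) (nat_lit 419) (nat_lit 5) (nat_lit 418) (nat_lit 5) (nat_lit 442) (nat_lit 5) (nat_lit 456) (nat_lit 441) (nat_lit 243)))))) (XT.nd (nat_lit 390) (nat_lit 1596) (nat_lit 0) (XT.nd (nat_lit 156) (nat_lit 0) (nat_lit 76) (XT.nd (nat_lit 78) (nat_lit 0) (nat_lit 0) (XT.lf (nat_lit 0) (nat_lit 7097815944) (nat_lit 1748) (nat_lit 4176474907) (nat_lit 1824) (nat_lit 4950476529) (nat_lit 419) (nat_lit 5) (nat_lit 442) (nat_lit 5) (nat_lit 443) (nat_lit 5) (nat_lit 457) (nat_lit 441) (nat_lit 242)) (XT.lf (nat_lit 76) (nat_lit 4064572364) (nat_lit 0) (nat_lit 4157914163) (nat_lit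 1824) (nat_lit 8169075299) (nat_lit 420) (nat_lit 5) (nat_lit 419) (nat_lit 5) (nat_lit 443) (nat_lit 5) (nat_lit 458) (nat_lit 441) (nat_lit 241))) (XT.nd (nat_lit 78) (nat_lit 0) (nat_lit 0) (XT.lf (nat_lit 0) (nat_lit 9411286146) (nat_lit 1748) (nat_lit 4059527133) (nat_lit 1824) (nat_lit 3090048484) (nat_lit 420) (nat_lit 5) (nat_lit 443) (nat_lit 5) (nat_lit 444) (nat_lit 5) (nat_lit 459) (nat_lit 441) (nat_lit 240)) (XT.nd (nat_lit 78) (nat_lit 0) (nat_lit 76) (XT.lf (nat_lit 76) (nat_lit 4398403751) (nat_lit 0) (nat_lit 6274974049) (nat_lit 1824) (nat_lit 6059181848) (nat_lit 421) (nat_lit 5) (nat_lit 420) (nat_lit 5) (nat_lit 444) (nat_lit 5) (nat_lit 460) (nat_lit 441) (nat_lit 239)) (XT.lf (nat_lit 0) (nat_lit 11988575507) (nat_lit 1748) (nat_lit 3838858191) (nat_lit 1824) (nat_lit 1079702734) (nat_lit 421) (nat_lit 5) (nat_lit 444) (nat_lit 5) (nat_lit 445) (nat_lit 5) (nat_lit 461) (nat_lit 441) (nat_lit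 238))))) (XT.nd (nat_lit 234) (nat_lit 1748) (nat_lit 0) (XT.nd (nat_lit 78) (nat_lit 0) (nat_lit 0) (XT.lf (nat_lit 76) (nat_lit 4843271429) (nat_lit 0) (nat_lit 8553463450) (nat_lit 1824) (nat_lit 3687138900) (nat_lit 422) (nat_lit 5) (nat_lit 421) (nat_lit 5) (nat_lit 445) (nat_lit 5) (nat_lit 462) (nat_lit 441) (nat_lit 237)) (XT.nd (nat_lit 78) (nat_lit 0) (nat_lit 76) (XT.lf (nat_lit 76) (nat_lit 13746075225) (nat_lit 0) (nat_lit 1106490732) (nat_lit 1824) (nat_lit 2411191886) (nat_lit 422) (nat_lit 5) (nat_lit 421) (nat_lit 5) (nat_lit 445) (nat_lit 5) (nat_lit 463) (nat_lit 441) (nat_lit 236)) (XT.lf (nat_lit 76) (nat_lit 5403388656) (nat_lit 0) (nat_lit 11005219302) (nat_lit 1824) (nat_lit 1037211841) (nat_lit 423) (nat_lit 5) (nat_lit 422) (nat_lit 5) (nat_lit 446) (nat_lit 5) (nat_lit 464) (nat_lit 441) (nat_lit 235)))) (XT.nd (nat_lit 78) (nat_lit 0) (nat_lit 76) (XT.lf (nat_lit 0) (nat_lit 384484039) (nat_lit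 1824) (nat_lit 3095424681) (nat_lit 1900) (nat_lit 14151068721) (nat_lit 398) (nat_lit 5) (nat_lit 422) (nat_lit 5) (nat_lit 423) (nat_lit 5) (nat_lit 465) (nat_lit 441) (nat_lit 234)) (XT.nd (nat_lit 78) (nat_lit 0) (nat_lit 0) (XT.lf (nat_lit 0) (nat_lit 1881934611) (nat_lit 1824) (nat_lit 11747938297) (nat_lit 76) (nat_lit 4188606006) (nat_lit 399) (nat_lit 5) (nat_lit 423) (nat_lit 5) (nat_lit 400) (nat_lit 5) (nat_lit 466) (nat_lit 441) (nat_lit 233)) (XT.lf (nat_lit 0) (nat_lit 3447422975) (nat_lit 1824) (nat_lit 2575795738) (nat_lit 76) (nat_lit 11985751864) (nat_lit 399) (nat_lit 5) (nat_lit 423) (nat_lit 5) (nat_lit 400) (nat_lit 5) (nat_lit 467) (nat_lit 441) (nat_lit 232))))))) (XT.nd (nat_lit 858) (nat_lit 4408) (nat_lit 0) (XT.nd (nat_lit 390) (nat_lit 2584) (nat_lit 0) (XT.nd (nat_lit 156) (nat_lit 1748) (nat_lit 0) (XT.nd (nat_lit 78) (nat_lit 0) (nat_lit 0) (XT.lf (nat_lit 0) (nat_lit 5094609401) (nat_lit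 1216) (nat_lit 11349225234) (nat_lit 76) (nat_lit 1758431573) (nat_lit 384) (nat_lit 5) (nat_lit 400) (nat_lit 5) (nat_lit 385) (nat_lit 5) (nat_lit 468) (nat_lit 441) (nat_lit 231)) (XT.lf (nat_lit 0) (nat_lit 6826361723) (nat_lit 1216) (nat_lit 1938784876) (nat_lit 76) (nat_lit 9633250570) (nat_lit 384) (nat_lit 5) (nat_lit 400) (nat_lit 5) (nat_lit 385) (nat_lit 5) (nat_lit 469) (nat_lit 441) (nat_lit 230))) (XT.nd (nat_lit 78) (nat_lit 836) (nat_lit 0) (XT.lf (nat_lit 0) (nat_lit 7756623703) (nat_lit 912) (nat_lit 880931520) (nat_lit 988) (nat_lit 9960001230) (nat_lit 372) (nat_lit 5) (nat_lit 384) (nat_lit 5) (nat_lit 385) (nat_lit 5) (nat_lit 470) (nat_lit 441) (nat_lit 229)) (XT.nd (nat_lit 78) (nat_lit 836) (nat_lit 0) (XT.lf (nat_lit 0) (nat_lit 10539088137) (nat_lit 988) (nat_lit 1179849703) (nat_lit 76) (nat_lit 7080680562) (nat_lit 372) (nat_lit 5) (nat_lit 385) (nat_lit 5) (nat_lit 373) (nat_lit 5) (nat_lit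 471) (nat_lit 441) (nat_lit 228)) (XT.lf (nat_lit 0) (nat_lit 8778803407) (nat_lit 836) (nat_lit 3757312807) (nat_lit 912) (nat_lit 6468457840) (nat_lit 361) (nat_lit 5) (nat_lit 372) (nat_lit 5) (nat_lit 373) (nat_lit 5) (nat_lit 472) (nat_lit 441) (nat_lit 227))))) (XT.nd (nat_lit 234) (nat_lit 912) (nat_lit 0) (XT.nd (nat_lit 78) (nat_lit 1672) (nat_lit 0) (XT.lf (nat_lit 0) (nat_lit 14604094152) (nat_lit 912) (nat_lit 294261817) (nat_lit 76) (nat_lit 4314654385) (nat_lit 361) (nat_lit 5) (nat_lit 373) (nat_lit 5) (nat_lit 362) (nat_lit 5) (nat_lit 473) (nat_lit 441) (nat_lit 226)) (XT.nd (nat_lit 78) (nat_lit 836) (nat_lit 0) (XT.lf (nat_lit 0) (nat_lit 9936379732) (nat_lit 836) (nat_lit 6861260531) (nat_lit 912) (nat_lit 2626292632) (nat_lit 350) (nat_lit 5) (nat_lit 361) (nat_lit 5) (nat_lit 362) (nat_lit 5) (nat_lit 474) (nat_lit 441) (nat_lit 225)) (XT.lf (nat_lit 0) (nat_lit 732499375) (nat_lit 836) (nat_lit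 18312862976) (nat_lit 912) (nat_lit 593507087) (nat_lit 339) (nat_lit 5) (nat_lit 350) (nat_lit 5) (nat_lit 351) (nat_lit 5) (nat_lit 475) (nat_lit 441) (nat_lit 224)))) (XT.nd (nat_lit 78) (nat_lit 836) (nat_lit 0) (XT.lf (nat_lit 0) (nat_lit 1564968002) (nat_lit 912) (nat_lit 8631782495) (nat_lit 76) (nat_lit 9659074762) (nat_lit 338) (nat_lit 5) (nat_lit 350) (nat_lit 5) (nat_lit 339) (nat_lit 5) (nat_lit 476) (nat_lit 441) (nat_lit 223)) (XT.nd (nat_lit 78) (nat_lit 0) (nat_lit 0) (XT.lf (nat_lit 0) (nat_lit 1863868937) (nat_lit 836) (nat_lit 1901921692) (nat_lit 912) (nat_lit 16311110161) (nat_lit 327) (nat_lit 5) (nat_lit 338) (nat_lit 5) (nat_lit 339) (nat_lit 5) (nat_lit 477) (nat_lit 441) (nat_lit 222)) (XT.lf (nat_lit 0) (nat_lit 6106603311) (nat_lit 912) (nat_lit 7662777356) (nat_lit 76) (nat_lit 6531099221) (nat_lit 327) (nat_lit 5) (nat_lit 339) (nat_lit 5) (nat_lit 328) (nat_lit 5) (nat_lit 478) (nat_lit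 441) (nat_lit 221)))))) (XT.nd (nat_lit 390) (nat_lit 2204) (nat_lit 0) (XT.nd (nat_lit 156) (nat_lit 1444) (nat_lit 0) (XT.nd (nat_lit 78) (nat_lit 0) (nat_lit 0) (XT.lf (nat_lit 0) (nat_lit 3121919715) (nat_lit 760) (nat_lit 5400356131) (nat_lit 836) (nat_lit 12005695347) (nat_lit 317) (nat_lit 5) (nat_lit 327) (nat_lit 5) (nat_lit 328) (nat_lit 5) (nat_lit 479) (nat_lit 441) (nat_lit 220)) (XT.lf (nat_lit 0) (nat_lit 11053625548) (nat_lit 836) (nat_lit 6558479146) (nat_lit 76) (nat_lit 3146561826) (nat_lit 317) (nat_lit 5) (nat_lit 328) (nat_lit 5) (nat_lit 318) (nat_lit 5) (nat_lit 480) (nat_lit 441) (nat_lit 219))) (XT.nd (nat_lit 78) (nat_lit 684) (nat_lit 0) (XT.lf (nat_lit 0) (nat_lit 4524746004) (nat_lit 760) (nat_lit 9171331758) (nat_lit 836) (nat_lit 7296689920) (nat_lit 307) (nat_lit 5) (nat_lit 317) (nat_lit 5) (nat_lit 318) (nat_lit 5) (nat_lit 481) (nat_lit 441) (nat_lit 218)) (XT.nd (nat_lit 78) (nat_lit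 684) (nat_lit 0) (XT.lf (nat_lit 0) (nat_lit 15913692118) (nat_lit 760) (nat_lit 517091700) (nat_lit 836) (nat_lit 4799980364) (nat_lit 307) (nat_lit 5) (nat_lit 317) (nat_lit 5) (nat_lit 318) (nat_lit 5) (nat_lit 482) (nat_lit 441) (nat_lit 217)) (XT.lf (nat_lit 0) (nat_lit 6077811976) (nat_lit 684) (nat_lit 13231271492) (nat_lit 760) (nat_lit 2162660538) (nat_lit 298) (nat_lit 5) (nat_lit 307) (nat_lit 5) (nat_lit 308) (nat_lit 5) (nat_lit 483) (nat_lit 441) (nat_lit 216))))) (XT.nd (nat_lit 234) (nat_lit 1368) (nat_lit 0) (XT.nd (nat_lit 78) (nat_lit 760) (nat_lit 0) (XT.lf (nat_lit 0) (nat_lit 555338977) (nat_lit 760) (nat_lit 3956116600) (nat_lit 76) (nat_lit 17205323689) (nat_lit 297) (nat_lit 5) (nat_lit 307) (nat_lit 5) (nat_lit 298) (nat_lit 5) (nat_lit 484) (nat_lit 441) (nat_lit 215)) (XT.nd (nat_lit 78) (nat_lit 0) (nat_lit 0) (XT.lf (nat_lit 0) (nat_lit 3373849150) (nat_lit 836) (nat_lit 14200816731) (nat_lit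 76) (nat_lit 4390262574) (nat_lit 287) (nat_lit 5) (nat_lit 298) (nat_lit 5) (nat_lit 288) (nat_lit 5) (nat_lit 485) (nat_lit 441) (nat_lit 214)) (XT.lf (nat_lit 0) (nat_lit 6300980391) (nat_lit 836) (nat_lit 2480020399) (nat_lit 76) (nat_lit 13435996101) (nat_lit 287) (nat_lit 5) (nat_lit 298) (nat_lit 5) (nat_lit 288) (nat_lit 5) (nat_lit 486) (nat_lit 441) (nat_lit 213)))) (XT.nd (nat_lit 78) (nat_lit 684) (nat_lit 0) (XT.lf (nat_lit 0) (nat_lit 9346329114) (nat_lit 760) (nat_lit 12878265406) (nat_lit 76) (nat_lit 248319931) (nat_lit 278) (nat_lit 5) (nat_lit 288) (nat_lit 5) (nat_lit 279) (nat_lit 5) (nat_lit 487) (nat_lit 441) (nat_lit 212)) (XT.nd (nat_lit 78) (nat_lit 684) (nat_lit 0) (XT.lf (nat_lit 0) (nat_lit 12523275011) (nat_lit 760) (nat_lit 852235829) (nat_lit 76) (nat_lit 9357026946) (nat_lit 278) (nat_lit 5) (nat_lit 288) (nat_lit 5) (nat_lit 279) (nat_lit 5) (nat_lit 488) (nat_lit 441) (nat_lit 211))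 (XT.lf (nat_lit 0) (nat_lit 11561251066) (nat_lit 684) (nat_lit 4273440130) (nat_lit 760) (nat_lit 7161244970) (nat_lit 269) (nat_lit 5) (nat_lit 278) (nat_lit 5) (nat_lit 279) (nat_lit 5) (nat_lit 489) (nat_lit 441) (nat_lit 210))))))))
noncomputable def xc225 : XT := (XT.nd (nat_lit 56394) (nat_lit 0) (nat_lit 11324) (XT.nd (nat_lit 936) (nat_lit 532) (nat_lit 0) (XT.nd (nat_lit 390) (nat_lit 1824) (nat_lit 0) (XT.nd (nat_lit 156) (nat_lit 1368) (nat_lit 0) (XT.nd (nat_lit 78) (nat_lit 0) (nat_lit 0) (XT.lf (nat_lit 0) (nat_lit 945157941) (nat_lit 608) (nat_lit 18307518850) (nat_lit 684) (nat_lit 4011120082) (nat_lit 261) (nat_lit 5) (nat_lit 269) (nat_lit 5) (nat_lit 270) (nat_lit 5) (nat_lit 490) (nat_lit 441) (nat_lit 209)) (XT.lf (nat_lit 0) (nat_lit 13694212816) (nat_lit 608) (nat_lit 9145621363) (nat_lit 684) (nat_lit 695165531) (nat_lit 261) (nat_lit 5) (nat_lit 269) (nat_lit 5) (nat_lit 270) (nat_lit 5) (nat_lit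 491) (nat_lit 441) (nat_lit 208))) (XT.nd (nat_lit 78) (nat_lit 608) (nat_lit 0) (XT.lf (nat_lit 0) (nat_lit 2668259298) (nat_lit 760) (nat_lit 20909939242) (nat_lit 76) (nat_lit 232752384) (nat_lit 251) (nat_lit 5) (nat_lit 261) (nat_lit 5) (nat_lit 252) (nat_lit 5) (nat_lit 492) (nat_lit 441) (nat_lit 207)) (XT.nd (nat_lit 78) (nat_lit 608) (nat_lit 0) (XT.lf (nat_lit 0) (nat_lit 6212754093) (nat_lit 760) (nat_lit 8130382252) (nat_lit 76) (nat_lit 9746731813) (nat_lit 251) (nat_lit 5) (nat_lit 261) (nat_lit 5) (nat_lit 252) (nat_lit 5) (nat_lit 493) (nat_lit 441) (nat_lit 206)) (XT.lf (nat_lit 0) (nat_lit 4965264240) (nat_lit 608) (nat_lit 4891249407) (nat_lit 684) (nat_lit 14517283663) (nat_lit 243) (nat_lit 5) (nat_lit 251) (nat_lit 5) (nat_lit 252) (nat_lit 5) (nat_lit 494) (nat_lit 441) (nat_lit 205))))) (XT.nd (nat_lit 234) (nat_lit 1216) (nat_lit 0) (XT.nd (nat_lit 78) (nat_lit 608) (nat_lit 0) (XT.lf (nat_lit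 0) (nat_lit 13655084875) (nat_lit 684) (nat_lit 6265144011) (nat_lit 76) (nat_lit 4741538477) (nat_lit 243) (nat_lit 5) (nat_lit 252) (nat_lit 5) (nat_lit 244) (nat_lit 5) (nat_lit 495) (nat_lit 441) (nat_lit 204)) (XT.nd (nat_lit 78) (nat_lit 0) (nat_lit 0) (XT.lf (nat_lit 0) (nat_lit 7198558364) (nat_lit 608) (nat_lit 10406452278) (nat_lit 684) (nat_lit 7348979541) (nat_lit 235) (nat_lit 5) (nat_lit 243) (nat_lit 5) (nat_lit 244) (nat_lit 5) (nat_lit 496) (nat_lit 441) (nat_lit 203)) (XT.lf (nat_lit 0) (nat_lit 21011918073) (nat_lit 608) (nat_lit 660356165) (nat_lit 684) (nat_lit 3579017444) (nat_lit 235) (nat_lit 5) (nat_lit 243) (nat_lit 5) (nat_lit 244) (nat_lit 5) (nat_lit 497) (nat_lit 441) (nat_lit 202)))) (XT.nd (nat_lit 78) (nat_lit 608) (nat_lit 0) (XT.lf (nat_lit 0) (nat_lit 382641331) (nat_lit 608) (nat_lit 15946435715) (nat_lit 76) (nat_lit 9223032735) (nat_lit 227) (nat_lit 5) (nat_lit 235) (nat_lit 5)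 (nat_lit 228) (nat_lit 5) (nat_lit 498) (nat_lit 441) (nat_lit 201)) (XT.nd (nat_lit 78) (nat_lit 608) (nat_lit 0) (XT.lf (nat_lit 0) (nat_lit 4405046623) (nat_lit 608) (nat_lit 2106091344) (nat_lit 76) (nat_lit 19346745353) (nat_lit 227) (nat_lit 5) (nat_lit 235) (nat_lit 5) (nat_lit 228) (nat_lit 5) (nat_lit 499) (nat_lit 441) (nat_lit 200)) (XT.lf (nat_lit 0) (nat_lit 8606605435) (nat_lit 684) (nat_lit 14025356894) (nat_lit 76) (nat_lit 3535836822) (nat_lit 219) (nat_lit 5) (nat_lit 228) (nat_lit 5) (nat_lit 220) (nat_lit 5) (nat_lit 500) (nat_lit 441) (nat_lit 199)))))) (XT.nd (nat_lit 54990) (nat_lit 0) (nat_lit 15428) (XT.nd (nat_lit 54756) (nat_lit 0) (nat_lit 16948) (XT.nd (nat_lit 54678) (nat_lit 0) (nat_lit 16948) (XT.lf (nat_lit 0) (nat_lit 14845961408) (nat_lit 532) (nat_lit 2619226741) (nat_lit 608) (nat_lit 9337130501) (nat_lit 212) (nat_lit 5) (nat_lit 219) (nat_lit 5) (nat_lit 220) (nat_lit 5) (nat_lit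 502) (nat_lit 441) (nat_lit 197)) (XT.lf (nat_lit 0) (nat_lit 5550626581) (nat_lit 1748) (nat_lit 757704667) (nat_lit 1748) (nat_lit 757704667) (nat_lit 435) (nat_lit 3) (nat_lit 458) (nat_lit 3) (nat_lit 458) (nat_lit 5) (nat_lit 442) (nat_lit 442) (nat_lit 256))) (XT.nd (nat_lit 78) (nat_lit 0) (nat_lit 76) (XT.lf (nat_lit 76) (nat_lit 5317616024) (nat_lit 0) (nat_lit 6258473200) (nat_lit 1748) (nat_lit 2689908050) (nat_lit 436) (nat_lit 5) (nat_lit 435) (nat_lit 3) (nat_lit 458) (nat_lit 5) (nat_lit 443) (nat_lit 442) (nat_lit 255)) (XT.nd (nat_lit 78) (nat_lit 0) (nat_lit 0) (XT.lf (nat_lit 0) (nat_lit 12063492284) (nat_lit 1672) (nat_lit 2100763609) (nat_lit 1748) (nat_lit 238287047) (nat_lit 436) (nat_lit 5) (nat_lit 458) (nat_lit 5) (nat_lit 459) (nat_lit 5) (nat_lit 444) (nat_lit 442) (nat_lit 254)) (XT.lf (nat_lit 76) (nat_lit 4902073644) (nat_lit 0) (nat_lit 7723374195) (nat_lit 1748) (nat_lit 1915078646) (nat_lit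 437) (nat_lit 5) (nat_lit 436) (nat_lit 5) (nat_lit 459) (nat_lit 5) (nat_lit 445) (nat_lit 442) (nat_lit 253))))) (XT.nd (nat_lit 234) (nat_lit 1596) (nat_lit 0) (XT.nd (nat_lit 78) (nat_lit 0) (nat_lit 76) (XT.lf (nat_lit 76) (nat_lit 12068896684) (nat_lit 0) (nat_lit 1135509680) (nat_lit 1748) (nat_lit 1476751054) (nat_lit 437) (nat_lit 5) (nat_lit 436) (nat_lit 5) (nat_lit 459) (nat_lit 5) (nat_lit 446) (nat_lit 442) (nat_lit 252)) (XT.nd (nat_lit 78) (nat_lit 0) (nat_lit 0) (XT.lf (nat_lit 76) (nat_lit 4573533536) (nat_lit 0) (nat_lit 9279214827) (nat_lit 1748) (nat_lit 970699458) (nat_lit 438) (nat_lit 5) (nat_lit 437) (nat_lit 5) (nat_lit 460) (nat_lit 5) (nat_lit 447) (nat_lit 442) (nat_lit 251)) (XT.lf (nat_lit 76) (nat_lit 11926215657) (nat_lit 0) (nat_lit 2604825517) (nat_lit 1748) (nat_lit 437206057) (nat_lit 438) (nat_lit 5) (nat_lit 437) (nat_lit 5) (nat_lit 460) (nat_lit 5) (nat_lit 448) (nat_lit 442)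 (nat_lit 250)))) (XT.nd (nat_lit 78) (nat_lit 0) (nat_lit 0) (XT.lf (nat_lit 0) (nat_lit 153463354) (nat_lit 1748) (nat_lit 10781139980) (nat_lit 1824) (nat_lit 4180369996) (nat_lit 415) (nat_lit 5) (nat_lit 438) (nat_lit 5) (nat_lit 439) (nat_lit 5) (nat_lit 449) (nat_lit 442) (nat_lit 249)) (XT.nd (nat_lit 78) (nat_lit 0) (nat_lit 76) (XT.lf (nat_lit 0) (nat_lit 780128920) (nat_lit 1748) (nat_lit 3390839753) (nat_lit 1824) (nat_lit 11093009452) (nat_lit 415) (nat_lit 5) (nat_lit 438) (nat_lit 5) (nat_lit 439) (nat_lit 5) (nat_lit 450) (nat_lit 442) (nat_lit 248)) (XT.lf (nat_lit 0) (nat_lit 1456877128) (nat_lit 1748) (nat_lit 11235855133) (nat_lit 1824) (nat_lit 2722482428) (nat_lit 416) (nat_lit 5) (nat_lit 439) (nat_lit 5) (nat_lit 440) (nat_lit 5) (nat_lit 451) (nat_lit 442) (nat_lit 247))))))) (XT.nd (nat_lit 858) (nat_lit 4180) (nat_lit 0) (XT.nd (nat_lit 390) (nat_lit 0) (nat_lit 152) (XT.nd (nat_lit 156) (nat_lit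 0) (nat_lit 76) (XT.nd (nat_lit 78) (nat_lit 0) (nat_lit 76) (XT.lf (nat_lit 0) (nat_lit 2190209581) (nat_lit 1748) (nat_lit 3654697708) (nat_lit 1824) (nat_lit 9723710318) (nat_lit 416) (nat_lit 5) (nat_lit 439) (nat_lit 5) (nat_lit 440) (nat_lit 5) (nat_lit 452) (nat_lit 442) (nat_lit 246)) (XT.lf (nat_lit 0) (nat_lit 2965270757) (nat_lit 1748) (nat_lit 11604817115) (nat_lit 1824) (nat_lit 1154462026) (nat_lit 417) (nat_lit 5) (nat_lit 440) (nat_lit 5) (nat_lit 441) (nat_lit 5) (nat_lit 453) (nat_lit 442) (nat_lit 245))) (XT.nd (nat_lit 78) (nat_lit 0) (nat_lit 0) (XT.lf (nat_lit 0) (nat_lit 3812026632) (nat_lit 1748) (nat_lit 3827656182) (nat_lit 1824) (nat_lit 8242796657) (nat_lit 417) (nat_lit 5) (nat_lit 440) (nat_lit 5) (nat_lit 441) (nat_lit 5) (nat_lit 454) (nat_lit 442) (nat_lit 244)) (XT.nd (nat_lit 78) (nat_lit 0) (nat_lit 76) (XT.lf (nat_lit 76) (nat_lit 4154766211) (nat_lit 0) (nat_lit 540866245) (nat_lit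 1824) (nat_lit 11347539341) (nat_lit 418) (nat_lit 5) (nat_lit 417) (nat_lit 5) (nat_lit 441) (nat_lit 5) (nat_lit 455) (nat_lit 442) (nat_lit 243)) (XT.lf (nat_lit 0) (nat_lit 5659327815) (nat_lit 1748) (nat_lit 3906409489) (nat_lit 1824) (nat_lit 6640094726) (nat_lit 418) (nat_lit 5) (nat_lit 441) (nat_lit 5) (nat_lit 442) (nat_lit 5) (nat_lit 456) (nat_lit 442) (nat_lit 242))))) (XT.nd (nat_lit 234) (nat_lit 0) (nat_lit 152) (XT.nd (nat_lit 78) (nat_lit 0) (nat_lit 76) (XT.lf (nat_lit 76) (nat_lit 4283016481) (nat_lit 0) (nat_lit 2383868089) (nat_lit 1824) (nat_lit 9704371509) (nat_lit 419) (nat_lit 5) (nat_lit 418) (nat_lit 5) (nat_lit 442) (nat_lit 5) (nat_lit 457) (nat_lit 442) (nat_lit 241)) (XT.nd (nat_lit 78) (nat_lit 0) (nat_lit 0) (XT.lf (nat_lit 0) (nat_lit 7746376893) (nat_lit 1748) (nat_lit 3887456905) (nat_lit 1824) (nat_lit 4905121439) (nat_lit 419) (nat_lit 5) (nat_lit 442) (nat_lit 5) (nat_lit 443)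 (nat_lit 5) (nat_lit 458) (nat_lit 442) (nat_lit 240)) (XT.lf (nat_lit 76) (nat_lit 4515960341) (nat_lit 0) (nat_lit 4370050034) (nat_lit 1824) (nat_lit 7823229246) (nat_lit 420) (nat_lit 5) (nat_lit 419) (nat_lit 5) (nat_lit 443) (nat_lit 5) (nat_lit 459) (nat_lit 442) (nat_lit 239)))) (XT.nd (nat_lit 78) (nat_lit 0) (nat_lit 0) (XT.lf (nat_lit 0) (nat_lit 10087979231) (nat_lit 1748) (nat_lit 3767102598) (nat_lit 1824) (nat_lit 3027059234) (nat_lit 420) (nat_lit 5) (nat_lit 443) (nat_lit 5) (nat_lit 444) (nat_lit 5) (nat_lit 460) (nat_lit 442) (nat_lit 238)) (XT.nd (nat_lit 78) (nat_lit 0) (nat_lit 76) (XT.lf (nat_lit 76) (nat_lit 4857528909) (nat_lit 0) (nat_lit 6510615816) (nat_lit 1824) (nat_lit 5689274848) (nat_lit 421) (nat_lit 5) (nat_lit 420) (nat_lit 5) (nat_lit 444) (nat_lit 5) (nat_lit 461) (nat_lit 442) (nat_lit 237)) (XT.lf (nat_lit 0) (nat_lit 12699508049) (nat_lit 1748) (nat_lit 3541455483) (nat_lit 1824)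 (nat_lit 994730367) (nat_lit 421) (nat_lit 5) (nat_lit 444) (nat_lit 5) (nat_lit 445) (nat_lit 5) (nat_lit 462) (nat_lit 442) (nat_lit 236)))))) (XT.nd (nat_lit 390) (nat_lit 2812) (nat_lit 0) (XT.nd (nat_lit 156) (nat_lit 1748) (nat_lit 0) (XT.nd (nat_lit 78) (nat_lit 0) (nat_lit 0) (XT.lf (nat_lit 76) (nat_lit 5311855019) (nat_lit 0) (nat_lit 8817150578) (nat_lit 1824) (nat_lit 3287100074) (nat_lit 422) (nat_lit 5) (nat_lit 421) (nat_lit 5) (nat_lit 445) (nat_lit 5) (nat_lit 463) (nat_lit 442) (nat_lit 235)) (XT.lf (nat_lit 76) (nat_lit 14385426300) (nat_lit 0) (nat_lit 1219422369) (nat_lit 1824) (nat_lit 1994923955) (nat_lit 422) (nat_lit 5) (nat_lit 421) (nat_lit 5) (nat_lit 445) (nat_lit 5) (nat_lit 464) (nat_lit 442) (nat_lit 234))) (XT.nd (nat_lit 78) (nat_lit 1824) (nat_lit 0) (XT.lf (nat_lit 76) (nat_lit 5883273555) (nat_lit 0) (nat_lit 11301647946) (nat_lit 1824) (nat_lit 600699171) (nat_lit 423) (nat_lit 5)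 (nat_lit 422) (nat_lit 5) (nat_lit 446) (nat_lit 5) (nat_lit 465) (nat_lit 442) (nat_lit 233)) (XT.nd (nat_lit 78) (nat_lit 0) (nat_lit 76) (XT.lf (nat_lit 0) (nat_lit 834585387) (nat_lit 1824) (nat_lit 2786780397) (nat_lit 1900) (nat_lit 14353236209) (nat_lit 398) (nat_lit 5) (nat_lit 422) (nat_lit 5) (nat_lit 423) (nat_lit 5) (nat_lit 466) (nat_lit 442) (nat_lit 232)) (XT.lf (nat_lit 0) (nat_lit 2355258698) (nat_lit 1824) (nat_lit 11605474126) (nat_lit 76) (nat_lit 4205258073) (nat_lit 399) (nat_lit 5) (nat_lit 423) (nat_lit 5) (nat_lit 400) (nat_lit 5) (nat_lit 467) (nat_lit 442) (nat_lit 231))))) (XT.nd (nat_lit 234) (nat_lit 1748) (nat_lit 0) (XT.nd (nat_lit 78) (nat_lit 1140) (nat_lit 0) (XT.lf (nat_lit 0) (nat_lit 3943513978) (nat_lit 1824) (nat_lit 2257289166) (nat_lit 76) (nat_lit 12159662928) (nat_lit 399) (nat_lit 5) (nat_lit 423) (nat_lit 5) (nat_lit 400) (nat_lit 5) (nat_lit 468) (nat_lit 442) (nat_lit 230))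 (XT.nd (nat_lit 78) (nat_lit 0) (nat_lit 0) (XT.lf (nat_lit 0) (nat_lit 5617307632) (nat_lit 1216) (nat_lit 11199712449) (nat_lit 76) (nat_lit 1740737030) (nat_lit 384) (nat_lit 5) (nat_lit 400) (nat_lit 5) (nat_lit 385) (nat_lit 5) (nat_lit 469) (nat_lit 442) (nat_lit 229)) (XT.lf (nat_lit 0) (nat_lit 7375443901) (nat_lit 1216) (nat_lit 1608445584) (nat_lit 76) (nat_lit 9774088940) (nat_lit 384) (nat_lit 5) (nat_lit 400) (nat_lit 5) (nat_lit 385) (nat_lit 5) (nat_lit 470) (nat_lit 442) (nat_lit 228)))) (XT.nd (nat_lit 78) (nat_lit 836) (nat_lit 0) (XT.lf (nat_lit 0) (nat_lit 8278442778) (nat_lit 912) (nat_lit 938709953) (nat_lit 988) (nat_lit 9744084994) (nat_lit 372) (nat_lit 5) (nat_lit 384) (nat_lit 5) (nat_lit 385) (nat_lit 5) (nat_lit 471) (nat_lit 442) (nat_lit 227)) (XT.nd (nat_lit 78) (nat_lit 836) (nat_lit 0) (XT.lf (nat_lit 0) (nat_lit 11148483291) (nat_lit 988) (nat_lit 835586694) (nat_lit 76) (nat_lit 7183438194)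 (nat_lit 372) (nat_lit 5) (nat_lit 385) (nat_lit 5) (nat_lit 373) (nat_lit 5) (nat_lit 472) (nat_lit 442) (nat_lit 226)) (XT.lf (nat_lit 0) (nat_lit 9319819347) (nat_lit 836) (nat_lit 3860189313) (nat_lit 912) (nat_lit 6196665706) (nat_lit 361) (nat_lit 5) (nat_lit 372) (nat_lit 5) (nat_lit 373) (nat_lit 5) (nat_lit 473) (nat_lit 442) (nat_lit 225))))))))
noncomputable def xc226 : XT := (XT.nd (nat_lit 1716) (nat_lit 2356) (nat_lit 0) (XT.nd (nat_lit 858) (nat_lit 4180) (nat_lit 0) (XT.nd (nat_lit 390) (nat_lit 2204) (nat_lit 0) (XT.nd (nat_lit 156) (nat_lit 1748) (nat_lit 0) (XT.nd (nat_lit 78) (nat_lit 0) (nat_lit 0) (XT.lf (nat_lit 0) (nat_lit 67017266) (nat_lit 836) (nat_lit 15214878278) (nat_lit 912) (nat_lit 4307535364) (nat_lit 350) (nat_lit 5) (nat_lit 361) (nat_lit 5) (nat_lit 362) (nat_lit 5) (nat_lit 474) (nat_lit 442) (nat_lit 224)) (XT.lf (nat_lit 0) (nat_lit 10498982931) (nat_lit 836) (nat_lit 7014702452)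 (nat_lit 912) (nat_lit 2291001516) (nat_lit 350) (nat_lit 5) (nat_lit 361) (nat_lit 5) (nat_lit 362) (nat_lit 5) (nat_lit 475) (nat_lit 442) (nat_lit 223))) (XT.nd (nat_lit 78) (nat_lit 912) (nat_lit 0) (XT.lf (nat_lit 0) (nat_lit 1116409479) (nat_lit 836) (nat_lit 18684793901) (nat_lit 912) (nat_lit 222824373) (nat_lit 339) (nat_lit 5) (nat_lit 350) (nat_lit 5) (nat_lit 351) (nat_lit 5) (nat_lit 476) (nat_lit 442) (nat_lit 222)) (XT.nd (nat_lit 78) (nat_lit 836) (nat_lit 0) (XT.lf (nat_lit 0) (nat_lit 1966400309) (nat_lit 912) (nat_lit 8437363828) (nat_lit 76) (nat_lit 9841659245) (nat_lit 338) (nat_lit 5) (nat_lit 350) (nat_lit 5) (nat_lit 339) (nat_lit 5) (nat_lit 477) (nat_lit 442) (nat_lit 221)) (XT.lf (nat_lit 0) (nat_lit 2265785802) (nat_lit 836) (nat_lit 1940563560) (nat_lit 912) (nat_lit 16264671132) (nat_lit 327) (nat_lit 5) (nat_lit 338) (nat_lit 5) (nat_lit 339) (nat_lit 5) (nat_lit 478) (nat_lit 442) (nat_lit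 220))))) (XT.nd (nat_lit 234) (nat_lit 1444) (nat_lit 0) (XT.nd (nat_lit 78) (nat_lit 760) (nat_lit 0) (XT.lf (nat_lit 0) (nat_lit 6586812830) (nat_lit 912) (nat_lit 7451266515) (nat_lit 76) (nat_lit 6661137363) (nat_lit 327) (nat_lit 5) (nat_lit 339) (nat_lit 5) (nat_lit 328) (nat_lit 5) (nat_lit 479) (nat_lit 442) (nat_lit 219)) (XT.nd (nat_lit 78) (nat_lit 0) (nat_lit 0) (XT.lf (nat_lit 0) (nat_lit 3546724720) (nat_lit 760) (nat_lit 5499405695) (nat_lit 836) (nat_lit 11885222974) (nat_lit 317) (nat_lit 5) (nat_lit 327) (nat_lit 5) (nat_lit 328) (nat_lit 5) (nat_lit 480) (nat_lit 442) (nat_lit 218)) (XT.lf (nat_lit 0) (nat_lit 11621234539) (nat_lit 836) (nat_lit 6327407865) (nat_lit 76) (nat_lit 3218159807) (nat_lit 317) (nat_lit 5) (nat_lit 328) (nat_lit 5) (nat_lit 318) (nat_lit 5) (nat_lit 481) (nat_lit 442) (nat_lit 217)))) (XT.nd (nat_lit 78) (nat_lit 684) (nat_lit 0) (XT.lf (nat_lit 0) (nat_lit 4975098624) (nat_lit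 760) (nat_lit 9336978774) (nat_lit 836) (nat_lit 7093599261) (nat_lit 307) (nat_lit 5) (nat_lit 317) (nat_lit 5) (nat_lit 318) (nat_lit 5) (nat_lit 482) (nat_lit 442) (nat_lit 216)) (XT.nd (nat_lit 78) (nat_lit 684) (nat_lit 0) (XT.lf (nat_lit 0) (nat_lit 16584767627) (nat_lit 760) (nat_lit 510002535) (nat_lit 836) (nat_lit 4553799131) (nat_lit 307) (nat_lit 5) (nat_lit 317) (nat_lit 5) (nat_lit 318) (nat_lit 5) (nat_lit 483) (nat_lit 442) (nat_lit 215)) (XT.lf (nat_lit 0) (nat_lit 6556501758) (nat_lit 684) (nat_lit 13469987854) (nat_lit 760) (nat_lit 1867964040) (nat_lit 298) (nat_lit 5) (nat_lit 307) (nat_lit 5) (nat_lit 308) (nat_lit 5) (nat_lit 484) (nat_lit 442) (nat_lit 214)))))) (XT.nd (nat_lit 390) (nat_lit 2660) (nat_lit 0) (XT.nd (nat_lit 156) (nat_lit 684) (nat_lit 0) (XT.nd (nat_lit 78) (nat_lit 760) (nat_lit 0) (XT.lf (nat_lit 0) (nat_lit 893423636) (nat_lit 760) (nat_lit 3680665811) (nat_lit 76) (nat_lit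 17570389013) (nat_lit 297) (nat_lit 5) (nat_lit 307) (nat_lit 5) (nat_lit 298) (nat_lit 5) (nat_lit 485) (nat_lit 442) (nat_lit 213)) (XT.lf (nat_lit 0) (nat_lit 3764370459) (nat_lit 836) (nat_lit 14126231459) (nat_lit 76) (nat_lit 4507069286) (nat_lit 287) (nat_lit 5) (nat_lit 298) (nat_lit 5) (nat_lit 288) (nat_lit 5) (nat_lit 486) (nat_lit 442) (nat_lit 212))) (XT.nd (nat_lit 78) (nat_lit 684) (nat_lit 0) (XT.lf (nat_lit 0) (nat_lit 6743710123) (nat_lit 836) (nat_lit 2178050604) (nat_lit 76) (nat_lit 13733148828) (nat_lit 287) (nat_lit 5) (nat_lit 298) (nat_lit 5) (nat_lit 288) (nat_lit 5) (nat_lit 487) (nat_lit 442) (nat_lit 211)) (XT.nd (nat_lit 78) (nat_lit 0) (nat_lit 0) (XT.lf (nat_lit 0) (nat_lit 9846260341) (nat_lit 760) (nat_lit 12780463786) (nat_lit 76) (nat_lit 289297273) (nat_lit 278) (nat_lit 5) (nat_lit 288) (nat_lit 5) (nat_lit 279) (nat_lit 5) (nat_lit 488) (nat_lit 442) (nat_lit 210)) (XT.lf (nat_lit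 0) (nat_lit 13080607810) (nat_lit 760) (nat_lit 520881596) (nat_lit 76) (nat_lit 9579472332) (nat_lit 278) (nat_lit 5) (nat_lit 288) (nat_lit 5) (nat_lit 279) (nat_lit 5) (nat_lit 489) (nat_lit 442) (nat_lit 209))))) (XT.nd (nat_lit 234) (nat_lit 1368) (nat_lit 0) (XT.nd (nat_lit 78) (nat_lit 608) (nat_lit 0) (XT.lf (nat_lit 0) (nat_lit 12138582939) (nat_lit 684) (nat_lit 4315899530) (nat_lit 760) (nat_lit 6995222768) (nat_lit 269) (nat_lit 5) (nat_lit 278) (nat_lit 5) (nat_lit 279) (nat_lit 5) (nat_lit 490) (nat_lit 442) (nat_lit 208)) (XT.nd (nat_lit 78) (nat_lit 0) (nat_lit 0) (XT.lf (nat_lit 0) (nat_lit 1313722718) (nat_lit 608) (nat_lit 18623705975) (nat_lit 684) (nat_lit 3785564166) (nat_lit 261) (nat_lit 5) (nat_lit 269) (nat_lit 5) (nat_lit 270) (nat_lit 5) (nat_lit 491) (nat_lit 442) (nat_lit 207)) (XT.lf (nat_lit 0) (nat_lit 14310902581) (nat_lit 608) (nat_lit 9279550210) (nat_lit 684) (nat_lit 409286177) (nat_lit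 261) (nat_lit 5) (nat_lit 269) (nat_lit 5) (nat_lit 270) (nat_lit 5) (nat_lit 492) (nat_lit 442) (nat_lit 206)))) (XT.nd (nat_lit 78) (nat_lit 608) (nat_lit 0) (XT.lf (nat_lit 0) (nat_lit 3014250666) (nat_lit 760) (nat_lit 20978012365) (nat_lit 76) (nat_lit 288973363) (nat_lit 251) (nat_lit 5) (nat_lit 261) (nat_lit 5) (nat_lit 252) (nat_lit 5) (nat_lit 493) (nat_lit 442) (nat_lit 205)) (XT.nd (nat_lit 78) (nat_lit 608) (nat_lit 0) (XT.lf (nat_lit 0) (nat_lit 6623897588) (nat_lit 760) (nat_lit 7949729445) (nat_lit 76) (nat_lit 9992221284) (nat_lit 251) (nat_lit 5) (nat_lit 261) (nat_lit 5) (nat_lit 252) (nat_lit 5) (nat_lit 494) (nat_lit 442) (nat_lit 204)) (XT.lf (nat_lit 0) (nat_lit 5405571685) (nat_lit 608) (nat_lit 4931549398) (nat_lit 684) (nat_lit 14518404752) (nat_lit 243) (nat_lit 5) (nat_lit 251) (nat_lit 5) (nat_lit 252) (nat_lit 5) (nat_lit 495) (nat_lit 442) (nat_lit 203))))))) (XT.nd (nat_lit 55614) (nat_lit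 0) (nat_lit 15352) (XT.nd (nat_lit 468) (nat_lit 1140) (nat_lit 0) (XT.nd (nat_lit 156) (nat_lit 608) (nat_lit 0) (XT.nd (nat_lit 78) (nat_lit 608) (nat_lit 0) (XT.lf (nat_lit 0) (nat_lit 14206471527) (nat_lit 684) (nat_lit 6050862488) (nat_lit 76) (nat_lit 4892026645) (nat_lit 243) (nat_lit 5) (nat_lit 252) (nat_lit 5) (nat_lit 244) (nat_lit 5) (nat_lit 496) (nat_lit 442) (nat_lit 202)) (XT.lf (nat_lit 0) (nat_lit 7679879827) (nat_lit 608) (nat_lit 10552249717) (nat_lit 684) (nat_lit 7215365216) (nat_lit 235) (nat_lit 5) (nat_lit 243) (nat_lit 5) (nat_lit 244) (nat_lit 5) (nat_lit 497) (nat_lit 442) (nat_lit 201))) (XT.nd (nat_lit 78) (nat_lit 608) (nat_lit 0) (XT.lf (nat_lit 0) (nat_lit 21762892018) (nat_lit 608) (nat_lit 612453869) (nat_lit 684) (nat_lit 3375505718) (nat_lit 235) (nat_lit 5) (nat_lit 243) (nat_lit 5) (nat_lit 244) (nat_lit 5) (nat_lit 498) (nat_lit 442) (nat_lit 200)) (XT.nd (nat_lit 78) (nat_lit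 0) (nat_lit 0) (XT.lf (nat_lit 0) (nat_lit 659026957) (nat_lit 608) (nat_lit 15928127086) (nat_lit 76) (nat_lit 9470552741) (nat_lit 227) (nat_lit 5) (nat_lit 235) (nat_lit 5) (nat_lit 228) (nat_lit 5) (nat_lit 499) (nat_lit 442) (nat_lit 199)) (XT.lf (nat_lit 0) (nat_lit 4756611084) (nat_lit 608) (nat_lit 1817588324) (nat_lit 76) (nat_lit 19795503153) (nat_lit 227) (nat_lit 5) (nat_lit 235) (nat_lit 5) (nat_lit 228) (nat_lit 5) (nat_lit 500) (nat_lit 442) (nat_lit 198))))) (XT.nd (nat_lit 54912) (nat_lit 0) (nat_lit 16948) (XT.nd (nat_lit 54756) (nat_lit 0) (nat_lit 16948) (XT.lf (nat_lit 0) (nat_lit 510065483) (nat_lit 532) (nat_lit 12953952883) (nat_lit 608) (nat_lit 13543228080) (nat_lit 212) (nat_lit 5) (nat_lit 219) (nat_lit 5) (nat_lit 220) (nat_lit 5) (nat_lit 502) (nat_lit 442) (nat_lit 196)) (XT.nd (nat_lit 78) (nat_lit 0) (nat_lit 0) (XT.lf (nat_lit 0) (nat_lit 5988799132) (nat_lit 1748) (nat_lit 605948134)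 (nat_lit 1748) (nat_lit 605948134) (nat_lit 435) (nat_lit 3) (nat_lit 458) (nat_lit 3) (nat_lit 458) (nat_lit 5) (nat_lit 443) (nat_lit 443) (nat_lit 254)) (XT.lf (nat_lit 76) (nat_lit 5755593404) (nat_lit 0) (nat_lit 6695660970) (nat_lit 1748) (nat_lit 2086958545) (nat_lit 436) (nat_lit 5) (nat_lit 435) (nat_lit 3) (nat_lit 458) (nat_lit 5) (nat_lit 444) (nat_lit 443) (nat_lit 253)))) (XT.nd (nat_lit 78) (nat_lit 0) (nat_lit 76) (XT.lf (nat_lit 76) (nat_lit 12874568537) (nat_lit 0) (nat_lit 59617468) (nat_lit 1748) (nat_lit 1743592420) (nat_lit 436) (nat_lit 5) (nat_lit 435) (nat_lit 3) (nat_lit 458) (nat_lit 5) (nat_lit 445) (nat_lit 443) (nat_lit 252)) (XT.nd (nat_lit 78) (nat_lit 0) (nat_lit 0) (XT.lf (nat_lit 76) (nat_lit 5337834632) (nat_lit 0) (nat_lit 8159017607) (nat_lit 1748) (nat_lit 1321884420) (nat_lit 437) (nat_lit 5) (nat_lit 436) (nat_lit 5) (nat_lit 459) (nat_lit 5) (nat_lit 446) (nat_lit 443) (nat_lit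 251)) (XT.lf (nat_lit 76) (nat_lit 12641372182) (nat_lit 0) (nat_lit 1433882548) (nat_lit 1748) (nat_lit 887172546) (nat_lit 437) (nat_lit 5) (nat_lit 436) (nat_lit 5) (nat_lit 459) (nat_lit 5) (nat_lit 447) (nat_lit 443) (nat_lit 250)))))) (XT.nd (nat_lit 390) (nat_lit 0) (nat_lit 152) (XT.nd (nat_lit 156) (nat_lit 0) (nat_lit 76) (XT.nd (nat_lit 78) (nat_lit 1748) (nat_lit 0) (XT.lf (nat_lit 76) (nat_lit 5007973526) (nat_lit 0) (nat_lit 9717164877) (nat_lit 1748) (nat_lit 382657864) (nat_lit 438) (nat_lit 5) (nat_lit 437) (nat_lit 5) (nat_lit 460) (nat_lit 5) (nat_lit 448) (nat_lit 443) (nat_lit 249)) (XT.lf (nat_lit 0) (nat_lit 147632551) (nat_lit 1748) (nat_lit 2755716189) (nat_lit 1824) (nat_lit 12352361157) (nat_lit 414) (nat_lit 5) (nat_lit 437) (nat_lit 5) (nat_lit 438) (nat_lit 5) (nat_lit 449) (nat_lit 443) (nat_lit 248))) (XT.nd (nat_lit 78) (nat_lit 0) (nat_lit 0) (XT.lf (nat_lit 0) (nat_lit 733427811) (nat_lit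 1748) (nat_lit 10641461866) (nat_lit 1824) (nat_lit 4030643737) (nat_lit 415) (nat_lit 5) (nat_lit 438) (nat_lit 5) (nat_lit 439) (nat_lit 5) (nat_lit 450) (nat_lit 443) (nat_lit 247)) (XT.nd (nat_lit 78) (nat_lit 0) (nat_lit 76) (XT.lf (nat_lit 0) (nat_lit 1361315019) (nat_lit 1748) (nat_lit 3110322320) (nat_lit 1824) (nat_lit 11086111152) (nat_lit 415) (nat_lit 5) (nat_lit 438) (nat_lit 5) (nat_lit 439) (nat_lit 5) (nat_lit 451) (nat_lit 443) (nat_lit 246)) (XT.lf (nat_lit 0) (nat_lit 2041387065) (nat_lit 1748) (nat_lit 11101833229) (nat_lit 1824) (nat_lit 2568997588) (nat_lit 416) (nat_lit 5) (nat_lit 439) (nat_lit 5) (nat_lit 440) (nat_lit 5) (nat_lit 452) (nat_lit 443) (nat_lit 245))))) (XT.nd (nat_lit 234) (nat_lit 0) (nat_lit 76) (XT.nd (nat_lit 78) (nat_lit 0) (nat_lit 76) (XT.lf (nat_lit 0) (nat_lit 2778496513) (nat_lit 1748) (nat_lit 3376086753) (nat_lit 1824) (nat_lit 9714327182) (nat_lit 416) (nat_lit 5)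 (nat_lit 439) (nat_lit 5) (nat_lit 440) (nat_lit 5) (nat_lit 453) (nat_lit 443) (nat_lit 244)) (XT.nd (nat_lit 78) (nat_lit 0) (nat_lit 0) (XT.lf (nat_lit 0) (nat_lit 3559439182) (nat_lit 1748) (nat_lit 11475402685) (nat_lit 1824) (nat_lit 993315636) (nat_lit 417) (nat_lit 5) (nat_lit 440) (nat_lit 5) (nat_lit 441) (nat_lit 5) (nat_lit 454) (nat_lit 443) (nat_lit 243)) (XT.lf (nat_lit 0) (nat_lit 4412642665) (nat_lit 1748) (nat_lit 3549786980) (nat_lit 1824) (nat_lit 8227029422) (nat_lit 417) (nat_lit 5) (nat_lit 440) (nat_lit 5) (nat_lit 441) (nat_lit 5) (nat_lit 455) (nat_lit 443) (nat_lit 242)))) (XT.nd (nat_lit 78) (nat_lit 0) (nat_lit 76) (XT.lf (nat_lit 76) (nat_lit 4589952135) (nat_lit 0) (nat_lit 715972604) (nat_lit 1824) (nat_lit 11047603997) (nat_lit 418) (nat_lit 5) (nat_lit 417) (nat_lit 5) (nat_lit 441) (nat_lit 5) (nat_lit 456) (nat_lit 443) (nat_lit 241)) (XT.nd (nat_lit 78) (nat_lit 0) (nat_lit 0) (XT.lf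 (nat_lit 0) (nat_lit 6277723155) (nat_lit 1748) (nat_lit 3628004569) (nat_lit 1824) (nat_lit 6613941373) (nat_lit 418) (nat_lit 5) (nat_lit 441) (nat_lit 5) (nat_lit 442) (nat_lit 5) (nat_lit 457) (nat_lit 443) (nat_lit 240)) (XT.lf (nat_lit 76) (nat_lit 4722864308) (nat_lit 0) (nat_lit 2574960304) (nat_lit 1824) (nat_lit 9390732584) (nat_lit 419) (nat_lit 5) (nat_lit 418) (nat_lit 5) (nat_lit 442) (nat_lit 5) (nat_lit 458) (nat_lit 443) (nat_lit 239))))))))
noncomputable def xc227 : XT := (XT.nd (nat_lit 1716) (nat_lit 8208) (nat_lit 0) (XT.nd (nat_lit 858) (nat_lit 5396) (nat_lit 0) (XT.nd (nat_lit 390) (nat_lit 1596) (nat_lit 0) (XT.nd (nat_lit 156) (nat_lit 0) (nat_lit 76) (XT.nd (nat_lit 78) (nat_lit 0) (nat_lit 0) (XT.lf (nat_lit 0) (nat_lit 8388236985) (nat_lit 1748) (nat_lit 3607125017) (nat_lit 1824) (nat_lit 4864465102) (nat_lit 419) (nat_lit 5) (nat_lit 442) (nat_lit 5) (nat_lit 443) (nat_lit 5) (nat_lit 459)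 (nat_lit 443) (nat_lit 238)) (XT.lf (nat_lit 76) (nat_lit 4962004778) (nat_lit 0) (nat_lit 4581420266) (nat_lit 1824) (nat_lit 7490240199) (nat_lit 420) (nat_lit 5) (nat_lit 419) (nat_lit 5) (nat_lit 443) (nat_lit 5) (nat_lit 460) (nat_lit 443) (nat_lit 237))) (XT.nd (nat_lit 78) (nat_lit 0) (nat_lit 0) (XT.lf (nat_lit 0) (nat_lit 10759238395) (nat_lit 1748) (nat_lit 3483337502) (nat_lit 1824) (nat_lit 2967655956) (nat_lit 420) (nat_lit 5) (nat_lit 443) (nat_lit 5) (nat_lit 444) (nat_lit 5) (nat_lit 461) (nat_lit 443) (nat_lit 236)) (XT.nd (nat_lit 78) (nat_lit 0) (nat_lit 76) (XT.lf (nat_lit 76) (nat_lit 5311424088) (nat_lit 0) (nat_lit 6746693459) (nat_lit 1824) (nat_lit 5331039355) (nat_lit 421) (nat_lit 5) (nat_lit 420) (nat_lit 5) (nat_lit 444) (nat_lit 5) (nat_lit 462) (nat_lit 443) (nat_lit 235)) (XT.lf (nat_lit 0) (nat_lit 13406363484) (nat_lit 1748) (nat_lit 3252634582) (nat_lit 1824) (nat_lit 912196658) (nat_lit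 421) (nat_lit 5) (nat_lit 444) (nat_lit 5) (nat_lit 445) (nat_lit 5) (nat_lit 463) (nat_lit 443) (nat_lit 234))))) (XT.nd (nat_lit 234) (nat_lit 1748) (nat_lit 0) (XT.nd (nat_lit 78) (nat_lit 0) (nat_lit 0) (XT.lf (nat_lit 76) (nat_lit 5775376012) (nat_lit 0) (nat_lit 9082514985) (nat_lit 1824) (nat_lit 2897457989) (nat_lit 422) (nat_lit 5) (nat_lit 421) (nat_lit 5) (nat_lit 445) (nat_lit 5) (nat_lit 464) (nat_lit 443) (nat_lit 233)) (XT.nd (nat_lit 78) (nat_lit 0) (nat_lit 76) (XT.lf (nat_lit 76) (nat_lit 15023413151) (nat_lit 0) (nat_lit 1331086694) (nat_lit 1824) (nat_lit 1588367447) (nat_lit 422) (nat_lit 5) (nat_lit 421) (nat_lit 5) (nat_lit 445) (nat_lit 5) (nat_lit 465) (nat_lit 443) (nat_lit 232)) (XT.lf (nat_lit 76) (nat_lit 6358318041) (nat_lit 0) (nat_lit 11601041398) (nat_lit 1824) (nat_lit 173212091) (nat_lit 423) (nat_lit 5) (nat_lit 422) (nat_lit 5) (nat_lit 446) (nat_lit 5) (nat_lit 466) (nat_lit 443)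 (nat_lit 231)))) (XT.nd (nat_lit 78) (nat_lit 0) (nat_lit 76) (XT.lf (nat_lit 0) (nat_lit 1276509377) (nat_lit 1824) (nat_lit 2486352243) (nat_lit 1900) (nat_lit 14562586701) (nat_lit 398) (nat_lit 5) (nat_lit 422) (nat_lit 5) (nat_lit 423) (nat_lit 5) (nat_lit 467) (nat_lit 443) (nat_lit 230)) (XT.nd (nat_lit 78) (nat_lit 0) (nat_lit 0) (XT.lf (nat_lit 0) (nat_lit 2821131072) (nat_lit 1824) (nat_lit 11474816464) (nat_lit 76) (nat_lit 4224849535) (nat_lit 399) (nat_lit 5) (nat_lit 423) (nat_lit 5) (nat_lit 400) (nat_lit 5) (nat_lit 468) (nat_lit 443) (nat_lit 229)) (XT.lf (nat_lit 0) (nat_lit 4432940337) (nat_lit 1824) (nat_lit 1946780886) (nat_lit 76) (nat_lit 12339607461) (nat_lit 399) (nat_lit 5) (nat_lit 423) (nat_lit 5) (nat_lit 400) (nat_lit 5) (nat_lit 469) (nat_lit 443) (nat_lit 228)))))) (XT.nd (nat_lit 390) (nat_lit 2584) (nat_lit 0) (XT.nd (nat_lit 156) (nat_lit 1748) (nat_lit 0) (XT.nd (nat_lit 78) (nat_lit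 0) (nat_lit 0) (XT.lf (nat_lit 0) (nat_lit 6134119415) (nat_lit 1216) (nat_lit 11061829257) (nat_lit 76) (nat_lit 1724741339) (nat_lit 384) (nat_lit 5) (nat_lit 400) (nat_lit 5) (nat_lit 385) (nat_lit 5) (nat_lit 470) (nat_lit 443) (nat_lit 227)) (XT.lf (nat_lit 0) (nat_lit 7919487711) (nat_lit 1216) (nat_lit 1285832692) (nat_lit 76) (nat_lit 9919756570) (nat_lit 384) (nat_lit 5) (nat_lit 400) (nat_lit 5) (nat_lit 385) (nat_lit 5) (nat_lit 471) (nat_lit 443) (nat_lit 226))) (XT.nd (nat_lit 78) (nat_lit 836) (nat_lit 0) (XT.lf (nat_lit 0) (nat_lit 8796459348) (nat_lit 912) (nat_lit 996084499) (nat_lit 988) (nat_lit 9539969903) (nat_lit 372) (nat_lit 5) (nat_lit 384) (nat_lit 5) (nat_lit 385) (nat_lit 5) (nat_lit 472) (nat_lit 443) (nat_lit 225)) (XT.nd (nat_lit 78) (nat_lit 836) (nat_lit 0) (XT.lf (nat_lit 0) (nat_lit 11754587705) (nat_lit 988) (nat_lit 498722877) (nat_lit 76) (nat_lit 7289759804) (nat_lit 372) (nat_lit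 5) (nat_lit 385) (nat_lit 5) (nat_lit 373) (nat_lit 5) (nat_lit 473) (nat_lit 443) (nat_lit 224)) (XT.lf (nat_lit 0) (nat_lit 9857465130) (nat_lit 836) (nat_lit 3964046549) (nat_lit 912) (nat_lit 5935015312) (nat_lit 361) (nat_lit 5) (nat_lit 372) (nat_lit 5) (nat_lit 373) (nat_lit 5) (nat_lit 474) (nat_lit 443) (nat_lit 223))))) (XT.nd (nat_lit 234) (nat_lit 836) (nat_lit 0) (XT.nd (nat_lit 78) (nat_lit 912) (nat_lit 0) (XT.lf (nat_lit 0) (nat_lit 425098401) (nat_lit 836) (nat_lit 15535074580) (nat_lit 912) (nat_lit 4013473358) (nat_lit 350) (nat_lit 5) (nat_lit 361) (nat_lit 5) (nat_lit 362) (nat_lit 5) (nat_lit 475) (nat_lit 443) (nat_lit 222)) (XT.nd (nat_lit 78) (nat_lit 912) (nat_lit 0) (XT.lf (nat_lit 0) (nat_lit 11058708462) (nat_lit 836) (nat_lit 7170583497) (nat_lit 912) (nat_lit 1964063984) (nat_lit 350) (nat_lit 5) (nat_lit 361) (nat_lit 5) (nat_lit 362) (nat_lit 5) (nat_lit 476) (nat_lit 443) (nat_lit 221))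 (XT.lf (nat_lit 0) (nat_lit 138575406) (nat_lit 912) (nat_lit 18924437808) (nat_lit 76) (nat_lit 1354153644) (nat_lit 338) (nat_lit 5) (nat_lit 350) (nat_lit 5) (nat_lit 339) (nat_lit 5) (nat_lit 477) (nat_lit 443) (nat_lit 220)))) (XT.nd (nat_lit 78) (nat_lit 836) (nat_lit 0) (XT.lf (nat_lit 0) (nat_lit 2361488549) (nat_lit 912) (nat_lit 8253309954) (nat_lit 76) (nat_lit 10028306913) (nat_lit 338) (nat_lit 5) (nat_lit 350) (nat_lit 5) (nat_lit 339) (nat_lit 5) (nat_lit 478) (nat_lit 443) (nat_lit 219)) (XT.nd (nat_lit 78) (nat_lit 0) (nat_lit 0) (XT.lf (nat_lit 0) (nat_lit 2661581608) (nat_lit 836) (nat_lit 1979954833) (nat_lit 912) (nat_lit 16231774212) (nat_lit 327) (nat_lit 5) (nat_lit 338) (nat_lit 5) (nat_lit 339) (nat_lit 5) (nat_lit 479) (nat_lit 443) (nat_lit 218)) (XT.lf (nat_lit 0) (nat_lit 7062721955) (nat_lit 912) (nat_lit 7249689780) (nat_lit 76) (nat_lit 6793798939) (nat_lit 327) (nat_lit 5) (nat_lit 339)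 (nat_lit 5) (nat_lit 328) (nat_lit 5) (nat_lit 480) (nat_lit 443) (nat_lit 217))))))) (XT.nd (nat_lit 858) (nat_lit 3800) (nat_lit 0) (XT.nd (nat_lit 390) (nat_lit 2204) (nat_lit 0) (XT.nd (nat_lit 156) (nat_lit 1444) (nat_lit 0) (XT.nd (nat_lit 78) (nat_lit 0) (nat_lit 0) (XT.lf (nat_lit 0) (nat_lit 3965954687) (nat_lit 760) (nat_lit 5600784082) (nat_lit 836) (nat_lit 11776343158) (nat_lit 317) (nat_lit 5) (nat_lit 327) (nat_lit 5) (nat_lit 328) (nat_lit 5) (nat_lit 481) (nat_lit 443) (nat_lit 216)) (XT.lf (nat_lit 0) (nat_lit 12186739275) (nat_lit 836) (nat_lit 6105781413) (nat_lit 76) (nat_lit 3290853207) (nat_lit 317) (nat_lit 5) (nat_lit 328) (nat_lit 5) (nat_lit 318) (nat_lit 5) (nat_lit 482) (nat_lit 443) (nat_lit 215))) (XT.nd (nat_lit 78) (nat_lit 684) (nat_lit 0) (XT.lf (nat_lit 0) (nat_lit 5420484584) (nat_lit 760) (nat_lit 9506629135) (nat_lit 836) (nat_lit 6899999834) (nat_lit 307) (nat_lit 5) (nat_lit 317)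 (nat_lit 5) (nat_lit 318) (nat_lit 5) (nat_lit 483) (nat_lit 443) (nat_lit 214)) (XT.nd (nat_lit 78) (nat_lit 684) (nat_lit 0) (XT.lf (nat_lit 0) (nat_lit 17255564928) (nat_lit 760) (nat_lit 503448454) (nat_lit 836) (nat_lit 4315981573) (nat_lit 307) (nat_lit 5) (nat_lit 317) (nat_lit 5) (nat_lit 318) (nat_lit 5) (nat_lit 484) (nat_lit 443) (nat_lit 213)) (XT.lf (nat_lit 0) (nat_lit 7030897406) (nat_lit 684) (nat_lit 13714484624) (nat_lit 760) (nat_lit 1580496612) (nat_lit 298) (nat_lit 5) (nat_lit 307) (nat_lit 5) (nat_lit 308) (nat_lit 5) (nat_lit 485) (nat_lit 443) (nat_lit 212))))) (XT.nd (nat_lit 234) (nat_lit 1368) (nat_lit 0) (XT.nd (nat_lit 78) (nat_lit 760) (nat_lit 0) (XT.lf (nat_lit 0) (nat_lit 1225573039) (nat_lit 760) (nat_lit 3413474514) (nat_lit 76) (nat_lit 17941941787) (nat_lit 297) (nat_lit 5) (nat_lit 307) (nat_lit 5) (nat_lit 298) (nat_lit 5) (nat_lit 486) (nat_lit 443) (nat_lit 211)) (XT.nd (nat_lit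 78) (nat_lit 0) (nat_lit 0) (XT.lf (nat_lit 0) (nat_lit 4150157990) (nat_lit 836) (nat_lit 14064079419) (nat_lit 76) (nat_lit 4625085971) (nat_lit 287) (nat_lit 5) (nat_lit 298) (nat_lit 5) (nat_lit 288) (nat_lit 5) (nat_lit 487) (nat_lit 443) (nat_lit 210)) (XT.lf (nat_lit 0) (nat_lit 7182996209) (nat_lit 836) (nat_lit 1883693312) (nat_lit 76) (nat_lit 14035140529) (nat_lit 287) (nat_lit 5) (nat_lit 298) (nat_lit 5) (nat_lit 288) (nat_lit 5) (nat_lit 488) (nat_lit 443) (nat_lit 209)))) (XT.nd (nat_lit 78) (nat_lit 684) (nat_lit 0) (XT.lf (nat_lit 0) (nat_lit 10344035841) (nat_lit 760) (nat_lit 12694505464) (nat_lit 76) (nat_lit 329695814) (nat_lit 278) (nat_lit 5) (nat_lit 288) (nat_lit 5) (nat_lit 279) (nat_lit 5) (nat_lit 489) (nat_lit 443) (nat_lit 208)) (XT.nd (nat_lit 78) (nat_lit 684) (nat_lit 0) (XT.lf (nat_lit 0) (nat_lit 13637171234) (nat_lit 760) (nat_lit 196429034) (nat_lit 76) (nat_lit 9804995695) (nat_lit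 278) (nat_lit 5) (nat_lit 288) (nat_lit 5) (nat_lit 279) (nat_lit 5) (nat_lit 490) (nat_lit 443) (nat_lit 207)) (XT.lf (nat_lit 0) (nat_lit 12714021698) (nat_lit 684) (nat_lit 4360878225) (nat_lit 760) (nat_lit 6837888564) (nat_lit 269) (nat_lit 5) (nat_lit 278) (nat_lit 5) (nat_lit 279) (nat_lit 5) (nat_lit 491) (nat_lit 443) (nat_lit 206)))))) (XT.nd (nat_lit 390) (nat_lit 1824) (nat_lit 0) (XT.nd (nat_lit 156) (nat_lit 1368) (nat_lit 0) (XT.nd (nat_lit 78) (nat_lit 0) (nat_lit 0) (XT.lf (nat_lit 0) (nat_lit 1676081004) (nat_lit 608) (nat_lit 18948156976) (nat_lit 684) (nat_lit 3567370876) (nat_lit 261) (nat_lit 5) (nat_lit 269) (nat_lit 5) (nat_lit 270) (nat_lit 5) (nat_lit 492) (nat_lit 443) (nat_lit 205)) (XT.lf (nat_lit 0) (nat_lit 14926614585) (nat_lit 608) (nat_lit 9418059725) (nat_lit 684) (nat_lit 129330162) (nat_lit 261) (nat_lit 5) (nat_lit 269) (nat_lit 5) (nat_lit 270) (nat_lit 5) (nat_lit 493) (nat_lit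 443) (nat_lit 204))) (XT.nd (nat_lit 78) (nat_lit 608) (nat_lit 0) (XT.lf (nat_lit 0) (nat_lit 3355798829) (nat_lit 760) (nat_lit 21061042758) (nat_lit 76) (nat_lit 344316394) (nat_lit 251) (nat_lit 5) (nat_lit 261) (nat_lit 5) (nat_lit 252) (nat_lit 5) (nat_lit 494) (nat_lit 443) (nat_lit 203)) (XT.nd (nat_lit 78) (nat_lit 608) (nat_lit 0) (XT.lf (nat_lit 0) (nat_lit 7032123727) (nat_lit 760) (nat_lit 7778792803) (nat_lit 76) (nat_lit 10240657439) (nat_lit 251) (nat_lit 5) (nat_lit 261) (nat_lit 5) (nat_lit 252) (nat_lit 5) (nat_lit 495) (nat_lit 443) (nat_lit 202)) (XT.lf (nat_lit 0) (nat_lit 5841443749) (nat_lit 608) (nat_lit 4974889154) (nat_lit 684) (nat_lit 14530779206) (nat_lit 243) (nat_lit 5) (nat_lit 251) (nat_lit 5) (nat_lit 252) (nat_lit 5) (nat_lit 496) (nat_lit 443) (nat_lit 201))))) (XT.nd (nat_lit 234) (nat_lit 1216) (nat_lit 0) (XT.nd (nat_lit 78) (nat_lit 608) (nat_lit 0) (XT.lf (nat_lit 0) (nat_lit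 14758079767) (nat_lit 684) (nat_lit 5845481811) (nat_lit 76) (nat_lit 5043363332) (nat_lit 243) (nat_lit 5) (nat_lit 252) (nat_lit 5) (nat_lit 244) (nat_lit 5) (nat_lit 497) (nat_lit 443) (nat_lit 200)) (XT.nd (nat_lit 78) (nat_lit 0) (nat_lit 0) (XT.lf (nat_lit 0) (nat_lit 8157727995) (nat_lit 608) (nat_lit 10703383516) (nat_lit 684) (nat_lit 7089974408) (nat_lit 235) (nat_lit 5) (nat_lit 243) (nat_lit 5) (nat_lit 244) (nat_lit 5) (nat_lit 498) (nat_lit 443) (nat_lit 199)) (XT.lf (nat_lit 0) (nat_lit 22516042576) (nat_lit 608) (nat_lit 565966481) (nat_lit 684) (nat_lit 3178605919) (nat_lit 235) (nat_lit 5) (nat_lit 243) (nat_lit 5) (nat_lit 244) (nat_lit 5) (nat_lit 499) (nat_lit 443) (nat_lit 198)))) (XT.nd (nat_lit 78) (nat_lit 608) (nat_lit 0) (XT.lf (nat_lit 0) (nat_lit 930505074) (nat_lit 608) (nat_lit 15922547622) (nat_lit 76) (nat_lit 9720574475) (nat_lit 227) (nat_lit 5) (nat_lit 235) (nat_lit 5) (nat_lit 228)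 (nat_lit 5) (nat_lit 500) (nat_lit 443) (nat_lit 197)) (XT.nd (nat_lit 78) (nat_lit 608) (nat_lit 0) (XT.lf (nat_lit 0) (nat_lit 5104976224) (nat_lit 608) (nat_lit 1536153810) (nat_lit 76) (nat_lit 20250835451) (nat_lit 227) (nat_lit 5) (nat_lit 235) (nat_lit 5) (nat_lit 228) (nat_lit 5) (nat_lit 501) (nat_lit 443) (nat_lit 196)) (XT.lf (nat_lit 0) (nat_lit 9471143199) (nat_lit 684) (nat_lit 13931688556) (nat_lit 76) (nat_lit 3811675544) (nat_lit 219) (nat_lit 5) (nat_lit 228) (nat_lit 5) (nat_lit 220) (nat_lit 5) (nat_lit 502) (nat_lit 443) (nat_lit 195))))))))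
noncomputable def xc228 : XT := (XT.nd (nat_lit 1638) (nat_lit 8816) (nat_lit 0) (XT.nd (nat_lit 780) (nat_lit 0) (nat_lit 152) (XT.nd (nat_lit 390) (nat_lit 1596) (nat_lit 0) (XT.nd (nat_lit 156) (nat_lit 0) (nat_lit 0) (XT.nd (nat_lit 78) (nat_lit 0) (nat_lit 0) (XT.lf (nat_lit 0) (nat_lit 6423031113) (nat_lit 1748) (nat_lit 457637814) (nat_lit 1748) (nat_lit 457637814) (nat_lit 435) (nat_lit 3) (nat_lit 458) (nat_lit 3) (nat_lit 458) (nat_lit 5) (nat_lit 444) (nat_lit 444) (nat_lit 252)) (XT.lf (nat_lit 76) (nat_lit 6189452926) (nat_lit 0) (nat_lit 7129476445) (nat_lit 1748) (nat_lit 1497452362) (nat_lit 436) (nat_lit 5) (nat_lit 435) (nat_lit 3) (nat_lit 458) (nat_lit 5) (nat_lit 445) (nat_lit 444) (nat_lit 251))) (XT.nd (nat_lit 78) (nat_lit 0) (nat_lit 76) (XT.lf (nat_lit 76) (nat_lit 13444557608) (nat_lit 0) (nat_lit 354831636) (nat_lit 1748) (nat_lit 1159596274) (nat_lit 436) (nat_lit 5) (nat_lit 435) (nat_lit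 3) (nat_lit 458) (nat_lit 5) (nat_lit 446) (nat_lit 444) (nat_lit 250)) (XT.nd (nat_lit 78) (nat_lit 0) (nat_lit 0) (XT.lf (nat_lit 76) (nat_lit 5769196780) (nat_lit 0) (nat_lit 8592455483) (nat_lit 1748) (nat_lit 741348060) (nat_lit 437) (nat_lit 5) (nat_lit 436) (nat_lit 5) (nat_lit 459) (nat_lit 5) (nat_lit 447) (nat_lit 444) (nat_lit 249)) (XT.lf (nat_lit 76) (nat_lit 13212440268) (nat_lit 0) (nat_lit 1727518556) (nat_lit 1748) (nat_lit 309843401) (nat_lit 437) (nat_lit 5) (nat_lit 436) (nat_lit 5) (nat_lit 459) (nat_lit 5) (nat_lit 448) (nat_lit 444) (nat_lit 248))))) (XT.nd (nat_lit 156) (nat_lit 0) (nat_lit 76) (XT.nd (nat_lit 78) (nat_lit 0) (nat_lit 0) (XT.lf (nat_lit 0) (nat_lit 191017795) (nat_lit 1748) (nat_lit 9961774633) (nat_lit 1824) (nat_lit 5245484774) (nat_lit 414) (nat_lit 5) (nat_lit 437) (nat_lit 5) (nat_lit 438) (nat_lit 5) (nat_lit 449) (nat_lit 444) (nat_lit 247)) (XT.lf (nat_lit 0) (nat_lit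 715496788) (nat_lit 1748) (nat_lit 2479937959) (nat_lit 1824) (nat_lit 12353893590) (nat_lit 414) (nat_lit 5) (nat_lit 437) (nat_lit 5) (nat_lit 438) (nat_lit 5) (nat_lit 450) (nat_lit 444) (nat_lit 246))) (XT.nd (nat_lit 78) (nat_lit 0) (nat_lit 0) (XT.lf (nat_lit 0) (nat_lit 1302590015) (nat_lit 1748) (nat_lit 10512786959) (nat_lit 1824) (nat_lit 3886983583) (nat_lit 415) (nat_lit 5) (nat_lit 438) (nat_lit 5) (nat_lit 439) (nat_lit 5) (nat_lit 451) (nat_lit 444) (nat_lit 245)) (XT.nd (nat_lit 78) (nat_lit 0) (nat_lit 76) (XT.lf (nat_lit 0) (nat_lit 1932162542) (nat_lit 1748) (nat_lit 2837720781) (nat_lit 1824) (nat_lit 11087957857) (nat_lit 415) (nat_lit 5) (nat_lit 438) (nat_lit 5) (nat_lit 439) (nat_lit 5) (nat_lit 452) (nat_lit 444) (nat_lit 244)) (XT.lf (nat_lit 0) (nat_lit 2616021414) (nat_lit 1748) (nat_lit 10979061160) (nat_lit 1824) (nat_lit 2420517400) (nat_lit 416) (nat_lit 5) (nat_lit 439) (nat_lit 5) (nat_lit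 440) (nat_lit 5) (nat_lit 453) (nat_lit 444) (nat_lit 243)))))) (XT.nd (nat_lit 390) (nat_lit 0) (nat_lit 152) (XT.nd (nat_lit 156) (nat_lit 0) (nat_lit 76) (XT.nd (nat_lit 78) (nat_lit 0) (nat_lit 76) (XT.lf (nat_lit 0) (nat_lit 3357406255) (nat_lit 1748) (nat_lit 3105560710) (nat_lit 1824) (nat_lit 9712672412) (nat_lit 416) (nat_lit 5) (nat_lit 439) (nat_lit 5) (nat_lit 440) (nat_lit 5) (nat_lit 454) (nat_lit 444) (nat_lit 242)) (XT.lf (nat_lit 0) (nat_lit 4144721593) (nat_lit 1748) (nat_lit 11357437870) (nat_lit 1824) (nat_lit 836100411) (nat_lit 417) (nat_lit 5) (nat_lit 440) (nat_lit 5) (nat_lit 441) (nat_lit 5) (nat_lit 455) (nat_lit 444) (nat_lit 241))) (XT.nd (nat_lit 78) (nat_lit 0) (nat_lit 0) (XT.lf (nat_lit 0) (nat_lit 5004908879) (nat_lit 1748) (nat_lit 3280123045) (nat_lit 1824) (nat_lit 8217960660) (nat_lit 417) (nat_lit 5) (nat_lit 440) (nat_lit 5) (nat_lit 441) (nat_lit 5) (nat_lit 456) (nat_lit 444)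 (nat_lit 240)) (XT.nd (nat_lit 78) (nat_lit 0) (nat_lit 76) (XT.lf (nat_lit 76) (nat_lit 5020169670) (nat_lit 0) (nat_lit 888201545) (nat_lit 1824) (nat_lit 10762129576) (nat_lit 418) (nat_lit 5) (nat_lit 417) (nat_lit 5) (nat_lit 441) (nat_lit 5) (nat_lit 457) (nat_lit 444) (nat_lit 239)) (XT.lf (nat_lit 0) (nat_lit 6888868530) (nat_lit 1748) (nat_lit 3357876166) (nat_lit 1824) (nat_lit 6593437378) (nat_lit 418) (nat_lit 5) (nat_lit 441) (nat_lit 5) (nat_lit 442) (nat_lit 5) (nat_lit 458) (nat_lit 444) (nat_lit 238))))) (XT.nd (nat_lit 234) (nat_lit 0) (nat_lit 152) (XT.nd (nat_lit 78) (nat_lit 0) (nat_lit 76) (XT.lf (nat_lit 76) (nat_lit 5157755559) (nat_lit 0) (nat_lit 2764305389) (nat_lit 1824) (nat_lit 9090536514) (nat_lit 419) (nat_lit 5) (nat_lit 418) (nat_lit 5) (nat_lit 442) (nat_lit 5) (nat_lit 459) (nat_lit 444) (nat_lit 237)) (XT.nd (nat_lit 78) (nat_lit 0) (nat_lit 0) (XT.lf (nat_lit 0) (nat_lit 9024026094)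 (nat_lit 1748) (nat_lit 3335091213) (nat_lit 1824) (nat_lit 4828383811) (nat_lit 419) (nat_lit 5) (nat_lit 442) (nat_lit 5) (nat_lit 443) (nat_lit 5) (nat_lit 460) (nat_lit 444) (nat_lit 236)) (XT.lf (nat_lit 76) (nat_lit 5403156859) (nat_lit 0) (nat_lit 4792204026) (nat_lit 1824) (nat_lit 7169597453) (nat_lit 420) (nat_lit 5) (nat_lit 419) (nat_lit 5) (nat_lit 443) (nat_lit 5) (nat_lit 461) (nat_lit 444) (nat_lit 235)))) (XT.nd (nat_lit 78) (nat_lit 0) (nat_lit 0) (XT.lf (nat_lit 0) (nat_lit 11425691501) (nat_lit 1748) (nat_lit 3207841672) (nat_lit 1824) (nat_lit 2911722202) (nat_lit 420) (nat_lit 5) (nat_lit 443) (nat_lit 5) (nat_lit 444) (nat_lit 5) (nat_lit 462) (nat_lit 444) (nat_lit 234)) (XT.nd (nat_lit 78) (nat_lit 0) (nat_lit 76) (XT.lf (nat_lit 76) (nat_lit 5760544343) (nat_lit 0) (nat_lit 6983381775) (nat_lit 1824) (nat_lit 4983968303) (nat_lit 421) (nat_lit 5) (nat_lit 420) (nat_lit 5) (nat_lit 444) (nat_lit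 5) (nat_lit 463) (nat_lit 444) (nat_lit 233)) (XT.lf (nat_lit 0) (nat_lit 14109770718) (nat_lit 1748) (nat_lit 2972002912) (nat_lit 1824) (nat_lit 831989690) (nat_lit 421) (nat_lit 5) (nat_lit 444) (nat_lit 5) (nat_lit 445) (nat_lit 5) (nat_lit 464) (nat_lit 444) (nat_lit 232))))))) (XT.nd (nat_lit 858) (nat_lit 4788) (nat_lit 0) (XT.nd (nat_lit 390) (nat_lit 2812) (nat_lit 0) (XT.nd (nat_lit 156) (nat_lit 1748) (nat_lit 0) (XT.nd (nat_lit 78) (nat_lit 0) (nat_lit 0) (XT.lf (nat_lit 76) (nat_lit 6234293655) (nat_lit 0) (nat_lit 9349729870) (nat_lit 1824) (nat_lit 2517706180) (nat_lit 422) (nat_lit 5) (nat_lit 421) (nat_lit 5) (nat_lit 445) (nat_lit 5) (nat_lit 465) (nat_lit 444) (nat_lit 231)) (XT.lf (nat_lit 76) (nat_lit 15660558006) (nat_lit 0) (nat_lit 1441595276) (nat_lit 1824) (nat_lit 1191016200) (nat_lit 422) (nat_lit 5) (nat_lit 421) (nat_lit 5) (nat_lit 445) (nat_lit 5) (nat_lit 466) (nat_lit 444) (nat_lit 230)))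 (XT.nd (nat_lit 78) (nat_lit 0) (nat_lit 0) (XT.lf (nat_lit 0) (nat_lit 242535202) (nat_lit 1824) (nat_lit 11659411301) (nat_lit 1900) (nat_lit 6584823212) (nat_lit 398) (nat_lit 5) (nat_lit 422) (nat_lit 5) (nat_lit 423) (nat_lit 5) (nat_lit 467) (nat_lit 444) (nat_lit 229)) (XT.nd (nat_lit 78) (nat_lit 0) (nat_lit 76) (XT.lf (nat_lit 0) (nat_lit 1710759559) (nat_lit 1824) (nat_lit 2193745798) (nat_lit 1900) (nat_lit 14779141942) (nat_lit 398) (nat_lit 5) (nat_lit 422) (nat_lit 5) (nat_lit 423) (nat_lit 5) (nat_lit 468) (nat_lit 444) (nat_lit 228)) (XT.lf (nat_lit 0) (nat_lit 3280059653) (nat_lit 1824) (nat_lit 11355632340) (nat_lit 76) (nat_lit 4247337971) (nat_lit 399) (nat_lit 5) (nat_lit 423) (nat_lit 5) (nat_lit 400) (nat_lit 5) (nat_lit 469) (nat_lit 444) (nat_lit 227))))) (XT.nd (nat_lit 234) (nat_lit 1748) (nat_lit 0) (XT.nd (nat_lit 78) (nat_lit 1140) (nat_lit 0) (XT.lf (nat_lit 0) (nat_lit 4916212829) (nat_lit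 1824) (nat_lit 1643872922) (nat_lit 76) (nat_lit 12525606910) (nat_lit 399) (nat_lit 5) (nat_lit 423) (nat_lit 5) (nat_lit 400) (nat_lit 5) (nat_lit 470) (nat_lit 444) (nat_lit 226)) (XT.nd (nat_lit 78) (nat_lit 0) (nat_lit 0) (XT.lf (nat_lit 0) (nat_lit 6645561540) (nat_lit 1216) (nat_lit 10935240544) (nat_lit 76) (nat_lit 1710398765) (nat_lit 384) (nat_lit 5) (nat_lit 400) (nat_lit 5) (nat_lit 385) (nat_lit 5) (nat_lit 471) (nat_lit 444) (nat_lit 225)) (XT.lf (nat_lit 0) (nat_lit 8459014462) (nat_lit 1216) (nat_lit 970544151) (nat_lit 76) (nat_lit 10070271896) (nat_lit 384) (nat_lit 5) (nat_lit 400) (nat_lit 5) (nat_lit 385) (nat_lit 5) (nat_lit 472) (nat_lit 444) (nat_lit 224)))) (XT.nd (nat_lit 78) (nat_lit 836) (nat_lit 0) (XT.lf (nat_lit 0) (nat_lit 9311150274) (nat_lit 912) (nat_lit 1053107639) (nat_lit 988) (nat_lit 9347266042) (nat_lit 372) (nat_lit 5) (nat_lit 384) (nat_lit 5) (nat_lit 385) (nat_lit 5) (nat_lit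 473) (nat_lit 444) (nat_lit 223)) (XT.nd (nat_lit 78) (nat_lit 836) (nat_lit 0) (XT.lf (nat_lit 0) (nat_lit 12357936617) (nat_lit 988) (nat_lit 168851553) (nat_lit 76) (nat_lit 7399658081) (nat_lit 372) (nat_lit 5) (nat_lit 385) (nat_lit 5) (nat_lit 373) (nat_lit 5) (nat_lit 474) (nat_lit 444) (nat_lit 222)) (XT.lf (nat_lit 0) (nat_lit 10392224386) (nat_lit 836) (nat_lit 4068945943) (nat_lit 912) (nat_lit 5683104594) (nat_lit 361) (nat_lit 5) (nat_lit 372) (nat_lit 5) (nat_lit 373) (nat_lit 5) (nat_lit 475) (nat_lit 444) (nat_lit 221)))))) (XT.nd (nat_lit 390) (nat_lit 2204) (nat_lit 0) (XT.nd (nat_lit 156) (nat_lit 1748) (nat_lit 0) (XT.nd (nat_lit 78) (nat_lit 0) (nat_lit 0) (XT.lf (nat_lit 0) (nat_lit 776488478) (nat_lit 836) (nat_lit 15861057440) (nat_lit 912) (nat_lit 3728294234) (nat_lit 350) (nat_lit 5) (nat_lit 361) (nat_lit 5) (nat_lit 362) (nat_lit 5) (nat_lit 476) (nat_lit 444) (nat_lit 220)) (XT.lf (nat_lit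 0) (nat_lit 11616047445) (nat_lit 836) (nat_lit 7328976901) (nat_lit 912) (nat_lit 1645062331) (nat_lit 350) (nat_lit 5) (nat_lit 361) (nat_lit 5) (nat_lit 362) (nat_lit 5) (nat_lit 477) (nat_lit 444) (nat_lit 219))) (XT.nd (nat_lit 78) (nat_lit 836) (nat_lit 0) (XT.lf (nat_lit 0) (nat_lit 490131457) (nat_lit 912) (nat_lit 18957043083) (nat_lit 76) (nat_lit 1371250916) (nat_lit 338) (nat_lit 5) (nat_lit 350) (nat_lit 5) (nat_lit 339) (nat_lit 5) (nat_lit 478) (nat_lit 444) (nat_lit 218)) (XT.nd (nat_lit 78) (nat_lit 836) (nat_lit 0) (XT.lf (nat_lit 0) (nat_lit 2750663950) (nat_lit 912) (nat_lit 8079274701) (nat_lit 76) (nat_lit 10219083050) (nat_lit 338) (nat_lit 5) (nat_lit 350) (nat_lit 5) (nat_lit 339) (nat_lit 5) (nat_lit 479) (nat_lit 444) (nat_lit 217)) (XT.lf (nat_lit 0) (nat_lit 3051683762) (nat_lit 836) (nat_lit 2020111409) (nat_lit 912) (nat_lit 16212128321) (nat_lit 327) (nat_lit 5) (nat_lit 338) (nat_lit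 5) (nat_lit 339) (nat_lit 5) (nat_lit 480) (nat_lit 444) (nat_lit 216))))) (XT.nd (nat_lit 234) (nat_lit 1444) (nat_lit 0) (XT.nd (nat_lit 78) (nat_lit 760) (nat_lit 0) (XT.lf (nat_lit 0) (nat_lit 7534784611) (nat_lit 912) (nat_lit 7057695816) (nat_lit 76) (nat_lit 6929135537) (nat_lit 327) (nat_lit 5) (nat_lit 339) (nat_lit 5) (nat_lit 328) (nat_lit 5) (nat_lit 481) (nat_lit 444) (nat_lit 215)) (XT.nd (nat_lit 78) (nat_lit 0) (nat_lit 0) (XT.lf (nat_lit 0) (nat_lit 4380044515) (nat_lit 760) (nat_lit 5704524364) (nat_lit 836) (nat_lit 11678744036) (nat_lit 317) (nat_lit 5) (nat_lit 327) (nat_lit 5) (nat_lit 328) (nat_lit 5) (nat_lit 482) (nat_lit 444) (nat_lit 214)) (XT.lf (nat_lit 0) (nat_lit 12750620202) (nat_lit 836) (nat_lit 5893242476) (nat_lit 76) (nat_lit 3364677003) (nat_lit 317) (nat_lit 5) (nat_lit 328) (nat_lit 5) (nat_lit 318) (nat_lit 5) (nat_lit 483) (nat_lit 444) (nat_lit 213)))) (XT.nd (nat_lit 78) (nat_lit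 684) (nat_lit 0) (XT.lf (nat_lit 0) (nat_lit 5861347166) (nat_lit 760) (nat_lit 9680336099) (nat_lit 836) (nat_lit 6715555183) (nat_lit 307) (nat_lit 5) (nat_lit 317) (nat_lit 5) (nat_lit 318) (nat_lit 5) (nat_lit 484) (nat_lit 444) (nat_lit 212)) (XT.nd (nat_lit 78) (nat_lit 684) (nat_lit 0) (XT.lf (nat_lit 0) (nat_lit 17926610432) (nat_lit 760) (nat_lit 497413874) (nat_lit 836) (nat_lit 4086179000) (nat_lit 307) (nat_lit 5) (nat_lit 317) (nat_lit 5) (nat_lit 318) (nat_lit 5) (nat_lit 485) (nat_lit 444) (nat_lit 211)) (XT.lf (nat_lit 0) (nat_lit 7501451544) (nat_lit 684) (nat_lit 13964838343) (nat_lit 760) (nat_lit 1299893251) (nat_lit 298) (nat_lit 5) (nat_lit 307) (nat_lit 5) (nat_lit 308) (nat_lit 5) (nat_lit 486) (nat_lit 444) (nat_lit 210))))))))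
noncomputable def xc229 : XT := (XT.nd (nat_lit 56550) (nat_lit 0) (nat_lit 11932) (XT.nd (nat_lit 858) (nat_lit 1216) (nat_lit 0) (XT.nd (nat_lit 390) (nat_lit 1976) (nat_lit 0) (XT.nd (nat_lit 156) (nat_lit 1368) (nat_lit 0) (XT.nd (nat_lit 78) (nat_lit 760) (nat_lit 0) (XT.lf (nat_lit 0) (nat_lit 1552161518) (nat_lit 760) (nat_lit 3154173249) (nat_lit 76) (nat_lit 18320143361) (nat_lit 297) (nat_lit 5) (nat_lit 307) (nat_lit 5) (nat_lit 298) (nat_lit 5) (nat_lit 487) (nat_lit 444) (nat_lit 209)) (XT.lf (nat_lit 0) (nat_lit 4531604173) (nat_lit 836) (nat_lit 14014068552) (nat_lit 76) (nat_lit 4744380558) (nat_lit 287) (nat_lit 5) (nat_lit 298) (nat_lit 5) (nat_lit 288) (nat_lit 5) (nat_lit 488) (nat_lit 444) (nat_lit 208))) (XT.nd (nat_lit 78) (nat_lit 1368) (nat_lit 0) (XT.lf (nat_lit 0) (nat_lit 7619247332) (nat_lit 836) (nat_lit 1596570654) (nat_lit 76) (nat_lit 14342110856) (nat_lit 287) (nat_lit 5) (nat_lit 298)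 (nat_lit 5) (nat_lit 288) (nat_lit 5) (nat_lit 489) (nat_lit 444) (nat_lit 207)) (XT.nd (nat_lit 78) (nat_lit 684) (nat_lit 0) (XT.lf (nat_lit 0) (nat_lit 10840084467) (nat_lit 760) (nat_lit 12620091461) (nat_lit 76) (nat_lit 369558276) (nat_lit 278) (nat_lit 5) (nat_lit 288) (nat_lit 5) (nat_lit 279) (nat_lit 5) (nat_lit 490) (nat_lit 444) (nat_lit 206)) (XT.lf (nat_lit 0) (nat_lit 123123953) (nat_lit 684) (nat_lit 14071088058) (nat_lit 760) (nat_lit 9911387280) (nat_lit 269) (nat_lit 5) (nat_lit 278) (nat_lit 5) (nat_lit 279) (nat_lit 5) (nat_lit 491) (nat_lit 444) (nat_lit 205))))) (XT.nd (nat_lit 234) (nat_lit 1292) (nat_lit 0) (XT.nd (nat_lit 78) (nat_lit 684) (nat_lit 0) (XT.lf (nat_lit 0) (nat_lit 13288051363) (nat_lit 684) (nat_lit 4408361750) (nat_lit 760) (nat_lit 6688949816) (nat_lit 269) (nat_lit 5) (nat_lit 278) (nat_lit 5) (nat_lit 279) (nat_lit 5) (nat_lit 492) (nat_lit 444) (nat_lit 204)) (XT.nd (nat_lit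 78) (nat_lit 76) (nat_lit 0) (XT.lf (nat_lit 0) (nat_lit 2032635911) (nat_lit 608) (nat_lit 19280961794) (nat_lit 684) (nat_lit 3356226393) (nat_lit 261) (nat_lit 5) (nat_lit 269) (nat_lit 5) (nat_lit 270) (nat_lit 5) (nat_lit 493) (nat_lit 444) (nat_lit 203)) (XT.lf (nat_lit 0) (nat_lit 143133903) (nat_lit 684) (nat_lit 9417073256) (nat_lit 76) (nat_lit 15397751770) (nat_lit 260) (nat_lit 5) (nat_lit 269) (nat_lit 5) (nat_lit 261) (nat_lit 5) (nat_lit 494) (nat_lit 444) (nat_lit 202)))) (XT.nd (nat_lit 78) (nat_lit 608) (nat_lit 0) (XT.lf (nat_lit 0) (nat_lit 3693256165) (nat_lit 760) (nat_lit 21158801622) (nat_lit 76) (nat_lit 398841672) (nat_lit 251) (nat_lit 5) (nat_lit 261) (nat_lit 5) (nat_lit 252) (nat_lit 5) (nat_lit 495) (nat_lit 444) (nat_lit 201)) (XT.nd (nat_lit 78) (nat_lit 608) (nat_lit 0) (XT.lf (nat_lit 0) (nat_lit 7437806750) (nat_lit 760) (nat_lit 7617249060) (nat_lit 76) (nat_lit 10492175441) (nat_lit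 251) (nat_lit 5) (nat_lit 261) (nat_lit 5) (nat_lit 252) (nat_lit 5) (nat_lit 496) (nat_lit 444) (nat_lit 200)) (XT.lf (nat_lit 0) (nat_lit 6273305909) (nat_lit 608) (nat_lit 5021242731) (nat_lit 684) (nat_lit 14554195981) (nat_lit 243) (nat_lit 5) (nat_lit 251) (nat_lit 5) (nat_lit 252) (nat_lit 5) (nat_lit 497) (nat_lit 444) (nat_lit 199)))))) (XT.nd (nat_lit 55224) (nat_lit 0) (nat_lit 14136) (XT.nd (nat_lit 156) (nat_lit 608) (nat_lit 0) (XT.nd (nat_lit 78) (nat_lit 608) (nat_lit 0) (XT.lf (nat_lit 0) (nat_lit 15310333644) (nat_lit 684) (nat_lit 5648667950) (nat_lit 76) (nat_lit 5195649432) (nat_lit 243) (nat_lit 5) (nat_lit 252) (nat_lit 5) (nat_lit 244) (nat_lit 5) (nat_lit 498) (nat_lit 444) (nat_lit 198)) (XT.lf (nat_lit 0) (nat_lit 8632542082) (nat_lit 608) (nat_lit 10859866416) (nat_lit 684) (nat_lit 6972548490) (nat_lit 235) (nat_lit 5) (nat_lit 243) (nat_lit 5) (nat_lit 244) (nat_lit 5) (nat_lit 499) (nat_lit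 444) (nat_lit 197))) (XT.nd (nat_lit 78) (nat_lit 608) (nat_lit 0) (XT.lf (nat_lit 0) (nat_lit 23271911984) (nat_lit 608) (nat_lit 520830154) (nat_lit 684) (nat_lit 2988035482) (nat_lit 235) (nat_lit 5) (nat_lit 243) (nat_lit 5) (nat_lit 244) (nat_lit 5) (nat_lit 500) (nat_lit 444) (nat_lit 196)) (XT.nd (nat_lit 78) (nat_lit 0) (nat_lit 0) (XT.lf (nat_lit 0) (nat_lit 1197382743) (nat_lit 608) (nat_lit 15929443397) (nat_lit 76) (nat_lit 9973243058) (nat_lit 227) (nat_lit 5) (nat_lit 235) (nat_lit 5) (nat_lit 228) (nat_lit 5) (nat_lit 501) (nat_lit 444) (nat_lit 195)) (XT.lf (nat_lit 0) (nat_lit 5450475325) (nat_lit 608) (nat_lit 1261430635) (nat_lit 76) (nat_lit 20712966957) (nat_lit 227) (nat_lit 5) (nat_lit 235) (nat_lit 5) (nat_lit 228) (nat_lit 5) (nat_lit 502) (nat_lit 444) (nat_lit 194))))) (XT.nd (nat_lit 234) (nat_lit 1672) (nat_lit 0) (XT.nd (nat_lit 78) (nat_lit 0) (nat_lit 0) (XT.lf (nat_lit 0) (nat_lit 6853737023)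 (nat_lit 1748) (nat_lit 312590952) (nat_lit 1748) (nat_lit 312590952) (nat_lit 435) (nat_lit 3) (nat_lit 458) (nat_lit 3) (nat_lit 458) (nat_lit 5) (nat_lit 445) (nat_lit 445) (nat_lit 250)) (XT.nd (nat_lit 78) (nat_lit 0) (nat_lit 0) (XT.lf (nat_lit 76) (nat_lit 6619612279) (nat_lit 0) (nat_lit 7560322659) (nat_lit 1748) (nat_lit 920668081) (nat_lit 436) (nat_lit 5) (nat_lit 435) (nat_lit 3) (nat_lit 458) (nat_lit 5) (nat_lit 446) (nat_lit 445) (nat_lit 249)) (XT.lf (nat_lit 76) (nat_lit 14013811794) (nat_lit 0) (nat_lit 644532862) (nat_lit 1748) (nat_lit 587951604) (nat_lit 436) (nat_lit 5) (nat_lit 435) (nat_lit 3) (nat_lit 458) (nat_lit 5) (nat_lit 447) (nat_lit 445) (nat_lit 248)))) (XT.nd (nat_lit 78) (nat_lit 1748) (nat_lit 0) (XT.lf (nat_lit 76) (nat_lit 6196581345) (nat_lit 0) (nat_lit 9024067688) (nat_lit 1748) (nat_lit 172770515) (nat_lit 437) (nat_lit 5) (nat_lit 436) (nat_lit 5) (nat_lit 459) (nat_lit 5)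 (nat_lit 448) (nat_lit 445) (nat_lit 247)) (XT.nd (nat_lit 78) (nat_lit 0) (nat_lit 76) (XT.lf (nat_lit 0) (nat_lit 252568431) (nat_lit 1748) (nat_lit 1762475331) (nat_lit 1824) (nat_lit 13528308745) (nat_lit 413) (nat_lit 5) (nat_lit 436) (nat_lit 5) (nat_lit 437) (nat_lit 5) (nat_lit 449) (nat_lit 445) (nat_lit 246)) (XT.lf (nat_lit 0) (nat_lit 748673038) (nat_lit 1748) (nat_lit 9836605662) (nat_lit 1824) (nat_lit 5109693695) (nat_lit 414) (nat_lit 5) (nat_lit 437) (nat_lit 5) (nat_lit 438) (nat_lit 5) (nat_lit 450) (nat_lit 445) (nat_lit 245))))))) (XT.nd (nat_lit 858) (nat_lit 2280) (nat_lit 0) (XT.nd (nat_lit 390) (nat_lit 0) (nat_lit 228) (XT.nd (nat_lit 156) (nat_lit 0) (nat_lit 76) (XT.nd (nat_lit 78) (nat_lit 0) (nat_lit 76) (XT.lf (nat_lit 0) (nat_lit 1272782103) (nat_lit 1748) (nat_lit 2211493126) (nat_lit 1824) (nat_lit 12364990310) (nat_lit 414) (nat_lit 5) (nat_lit 437) (nat_lit 5) (nat_lit 438) (nat_lit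 5) (nat_lit 451) (nat_lit 445) (nat_lit 244)) (XT.lf (nat_lit 0) (nat_lit 1861603798) (nat_lit 1748) (nat_lit 10394799575) (nat_lit 1824) (nat_lit 3749159022) (nat_lit 415) (nat_lit 5) (nat_lit 438) (nat_lit 5) (nat_lit 439) (nat_lit 5) (nat_lit 452) (nat_lit 445) (nat_lit 243))) (XT.nd (nat_lit 78) (nat_lit 0) (nat_lit 76) (XT.lf (nat_lit 0) (nat_lit 2493317541) (nat_lit 1748) (nat_lit 2572668213) (nat_lit 1824) (nat_lit 11098379531) (nat_lit 415) (nat_lit 5) (nat_lit 438) (nat_lit 5) (nat_lit 439) (nat_lit 5) (nat_lit 453) (nat_lit 445) (nat_lit 242)) (XT.nd (nat_lit 78) (nat_lit 0) (nat_lit 0) (XT.lf (nat_lit 0) (nat_lit 3181420090) (nat_lit 1748) (nat_lit 10867222992) (nat_lit 1824) (nat_lit 2276828421) (nat_lit 416) (nat_lit 5) (nat_lit 439) (nat_lit 5) (nat_lit 440) (nat_lit 5) (nat_lit 454) (nat_lit 445) (nat_lit 241)) (XT.lf (nat_lit 0) (nat_lit 3927572269) (nat_lit 1748) (nat_lit 2842750953) (nat_lit 1824) (nat_lit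 9718593186) (nat_lit 416) (nat_lit 5) (nat_lit 439) (nat_lit 5) (nat_lit 440) (nat_lit 5) (nat_lit 455) (nat_lit 445) (nat_lit 240))))) (XT.nd (nat_lit 234) (nat_lit 0) (nat_lit 76) (XT.nd (nat_lit 78) (nat_lit 0) (nat_lit 0) (XT.lf (nat_lit 0) (nat_lit 4721746770) (nat_lit 1748) (nat_lit 11250606554) (nat_lit 1824) (nat_lit 682617174) (nat_lit 417) (nat_lit 5) (nat_lit 440) (nat_lit 5) (nat_lit 441) (nat_lit 5) (nat_lit 456) (nat_lit 445) (nat_lit 239)) (XT.nd (nat_lit 78) (nat_lit 0) (nat_lit 0) (XT.lf (nat_lit 0) (nat_lit 5589448963) (nat_lit 1748) (nat_lit 3018294061) (nat_lit 1824) (nat_lit 8215451986) (nat_lit 417) (nat_lit 5) (nat_lit 440) (nat_lit 5) (nat_lit 441) (nat_lit 5) (nat_lit 457) (nat_lit 445) (nat_lit 238)) (XT.lf (nat_lit 76) (nat_lit 5445850354) (nat_lit 0) (nat_lit 1057743248) (nat_lit 1824) (nat_lit 10490610825) (nat_lit 418) (nat_lit 5) (nat_lit 417) (nat_lit 5) (nat_lit 441) (nat_lit 5) (nat_lit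 458) (nat_lit 445) (nat_lit 237)))) (XT.nd (nat_lit 78) (nat_lit 0) (nat_lit 0) (XT.lf (nat_lit 0) (nat_lit 7493380725) (nat_lit 1748) (nat_lit 3095652207) (nat_lit 1824) (nat_lit 6578456047) (nat_lit 418) (nat_lit 5) (nat_lit 441) (nat_lit 5) (nat_lit 442) (nat_lit 5) (nat_lit 459) (nat_lit 445) (nat_lit 236)) (XT.nd (nat_lit 78) (nat_lit 0) (nat_lit 76) (XT.lf (nat_lit 76) (nat_lit 5588125169) (nat_lit 0) (nat_lit 2952084653) (nat_lit 1824) (nat_lit 8803286573) (nat_lit 419) (nat_lit 5) (nat_lit 418) (nat_lit 5) (nat_lit 442) (nat_lit 5) (nat_lit 460) (nat_lit 445) (nat_lit 235)) (XT.lf (nat_lit 0) (nat_lit 9654357029) (nat_lit 1748) (nat_lit 3070981519) (nat_lit 1824) (nat_lit 4796759836) (nat_lit 419) (nat_lit 5) (nat_lit 442) (nat_lit 5) (nat_lit 443) (nat_lit 5) (nat_lit 461) (nat_lit 445) (nat_lit 234)))))) (XT.nd (nat_lit 390) (nat_lit 2660) (nat_lit 0) (XT.nd (nat_lit 156) (nat_lit 0) (nat_lit 76) (XT.nd (nat_lit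 78) (nat_lit 0) (nat_lit 76) (XT.lf (nat_lit 76) (nat_lit 5839855123) (nat_lit 0) (nat_lit 5002576513) (nat_lit 1824) (nat_lit 6860809903) (nat_lit 420) (nat_lit 5) (nat_lit 419) (nat_lit 5) (nat_lit 443) (nat_lit 5) (nat_lit 462) (nat_lit 445) (nat_lit 233)) (XT.lf (nat_lit 0) (nat_lit 12087950370) (nat_lit 1748) (nat_lit 2940239009) (nat_lit 1824) (nat_lit 2859146502) (nat_lit 420) (nat_lit 5) (nat_lit 443) (nat_lit 5) (nat_lit 444) (nat_lit 5) (nat_lit 463) (nat_lit 445) (nat_lit 232))) (XT.nd (nat_lit 78) (nat_lit 0) (nat_lit 76) (XT.lf (nat_lit 76) (nat_lit 6205332098) (nat_lit 0) (nat_lit 7220852608) (nat_lit 1824) (nat_lit 4647573238) (nat_lit 421) (nat_lit 5) (nat_lit 420) (nat_lit 5) (nat_lit 444) (nat_lit 5) (nat_lit 464) (nat_lit 445) (nat_lit 231)) (XT.nd (nat_lit 78) (nat_lit 0) (nat_lit 0) (XT.lf (nat_lit 0) (nat_lit 14810343644) (nat_lit 1748) (nat_lit 2699181952) (nat_lit 1824) (nat_lit 754001551) (nat_lit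 421) (nat_lit 5) (nat_lit 444) (nat_lit 5) (nat_lit 445) (nat_lit 5) (nat_lit 465) (nat_lit 445) (nat_lit 230)) (XT.lf (nat_lit 76) (nat_lit 6689054618) (nat_lit 0) (nat_lit 9618966476) (nat_lit 1824) (nat_lit 2147355798) (nat_lit 422) (nat_lit 5) (nat_lit 421) (nat_lit 5) (nat_lit 445) (nat_lit 5) (nat_lit 466) (nat_lit 445) (nat_lit 229))))) (XT.nd (nat_lit 234) (nat_lit 1064) (nat_lit 0) (XT.nd (nat_lit 78) (nat_lit 1748) (nat_lit 0) (XT.lf (nat_lit 76) (nat_lit 16297372195) (nat_lit 0) (nat_lit 1551056602) (nat_lit 1824) (nat_lit 802381126) (nat_lit 422) (nat_lit 5) (nat_lit 421) (nat_lit 5) (nat_lit 445) (nat_lit 5) (nat_lit 467) (nat_lit 445) (nat_lit 228)) (XT.nd (nat_lit 78) (nat_lit 0) (nat_lit 0) (XT.lf (nat_lit 0) (nat_lit 648091784) (nat_lit 1824) (nat_lit 11556978459) (nat_lit 1900) (nat_lit 6643287820) (nat_lit 398) (nat_lit 5) (nat_lit 422) (nat_lit 5) (nat_lit 423) (nat_lit 5) (nat_lit 468) (nat_lit 445)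 (nat_lit 227)) (XT.lf (nat_lit 0) (nat_lit 2137823649) (nat_lit 1824) (nat_lit 1908580452) (nat_lit 1900) (nat_lit 15002928843) (nat_lit 398) (nat_lit 5) (nat_lit 422) (nat_lit 5) (nat_lit 423) (nat_lit 5) (nat_lit 469) (nat_lit 445) (nat_lit 226)))) (XT.nd (nat_lit 78) (nat_lit 1140) (nat_lit 0) (XT.lf (nat_lit 0) (nat_lit 3732537008) (nat_lit 1824) (nat_lit 11247604219) (nat_lit 76) (nat_lit 4272684044) (nat_lit 399) (nat_lit 5) (nat_lit 423) (nat_lit 5) (nat_lit 400) (nat_lit 5) (nat_lit 470) (nat_lit 445) (nat_lit 225)) (XT.nd (nat_lit 78) (nat_lit 1140) (nat_lit 0) (XT.lf (nat_lit 0) (nat_lit 5393827441) (nat_lit 1824) (nat_lit 1348181001) (nat_lit 76) (nat_lit 12717687002) (nat_lit 399) (nat_lit 5) (nat_lit 423) (nat_lit 5) (nat_lit 400) (nat_lit 5) (nat_lit 471) (nat_lit 445) (nat_lit 224)) (XT.lf (nat_lit 0) (nat_lit 7152136494) (nat_lit 1216) (nat_lit 10819626537) (nat_lit 76) (nat_lit 1697665754) (nat_lit 384)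 (nat_lit 5) (nat_lit 400) (nat_lit 5) (nat_lit 385) (nat_lit 5) (nat_lit 472) (nat_lit 445) (nat_lit 223))))))))
noncomputable def xc230 : XT := (XT.nd (nat_lit 1716) (nat_lit 1976) (nat_lit 0) (XT.nd (nat_lit 858) (nat_lit 4256) (nat_lit 0) (XT.nd (nat_lit 390) (nat_lit 2508) (nat_lit 0) (XT.nd (nat_lit 156) (nat_lit 1672) (nat_lit 0) (XT.nd (nat_lit 78) (nat_lit 912) (nat_lit 0) (XT.lf (nat_lit 0) (nat_lit 8994531735) (nat_lit 1216) (nat_lit 662191486) (nat_lit 76) (nat_lit 10225656760) (nat_lit 384) (nat_lit 5) (nat_lit 400) (nat_lit 5) (nat_lit 385) (nat_lit 5) (nat_lit 473) (nat_lit 445) (nat_lit 222)) (XT.lf (nat_lit 0) (nat_lit 9822980488) (nat_lit 912) (nat_lit 1109830546) (nat_lit 988) (nat_lit 9165600003) (nat_lit 372) (nat_lit 5) (nat_lit 384) (nat_lit 5) (nat_lit 385) (nat_lit 5) (nat_lit 474) (nat_lit 445) (nat_lit 221))) (XT.nd (nat_lit 78) (nat_lit 836) (nat_lit 0) (XT.lf (nat_lit 0) (nat_lit 156472738)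 (nat_lit 836) (nat_lit 12803595819) (nat_lit 912) (nat_lit 7357691431) (nat_lit 361) (nat_lit 5) (nat_lit 372) (nat_lit 5) (nat_lit 373) (nat_lit 5) (nat_lit 475) (nat_lit 445) (nat_lit 220)) (XT.nd (nat_lit 78) (nat_lit 836) (nat_lit 0) (XT.lf (nat_lit 0) (nat_lit 10924569021) (nat_lit 836) (nat_lit 4174948530) (nat_lit 912) (nat_lit 5440546940) (nat_lit 361) (nat_lit 5) (nat_lit 372) (nat_lit 5) (nat_lit 373) (nat_lit 5) (nat_lit 476) (nat_lit 445) (nat_lit 219)) (XT.lf (nat_lit 0) (nat_lit 1121591595) (nat_lit 836) (nat_lit 16192966563) (nat_lit 912) (nat_lit 3451602342) (nat_lit 350) (nat_lit 5) (nat_lit 361) (nat_lit 5) (nat_lit 362) (nat_lit 5) (nat_lit 477) (nat_lit 445) (nat_lit 218))))) (XT.nd (nat_lit 234) (nat_lit 1596) (nat_lit 0) (XT.nd (nat_lit 78) (nat_lit 912) (nat_lit 0) (XT.lf (nat_lit 0) (nat_lit 12171479517) (nat_lit 836) (nat_lit 7489956414) (nat_lit 912) (nat_lit 1333593209) (nat_lit 350) (nat_lit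 5) (nat_lit 361) (nat_lit 5) (nat_lit 362) (nat_lit 5) (nat_lit 478) (nat_lit 445) (nat_lit 217)) (XT.nd (nat_lit 78) (nat_lit 0) (nat_lit 0) (XT.lf (nat_lit 0) (nat_lit 835174900) (nat_lit 912) (nat_lit 19003731541) (nat_lit 76) (nat_lit 1389077894) (nat_lit 338) (nat_lit 5) (nat_lit 350) (nat_lit 5) (nat_lit 339) (nat_lit 5) (nat_lit 479) (nat_lit 445) (nat_lit 216)) (XT.lf (nat_lit 0) (nat_lit 3134344693) (nat_lit 912) (nat_lit 7914926466) (nat_lit 76) (nat_lit 10414054867) (nat_lit 338) (nat_lit 5) (nat_lit 350) (nat_lit 5) (nat_lit 339) (nat_lit 5) (nat_lit 480) (nat_lit 445) (nat_lit 215)))) (XT.nd (nat_lit 78) (nat_lit 760) (nat_lit 0) (XT.lf (nat_lit 0) (nat_lit 3436506866) (nat_lit 836) (nat_lit 2061049469) (nat_lit 912) (nat_lit 16205458378) (nat_lit 327) (nat_lit 5) (nat_lit 338) (nat_lit 5) (nat_lit 339) (nat_lit 5) (nat_lit 481) (nat_lit 445) (nat_lit 214)) (XT.nd (nat_lit 78) (nat_lit 760) (nat_lit 0) (XT.lf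 (nat_lit 0) (nat_lit 8003442834) (nat_lit 912) (nat_lit 6874947618) (nat_lit 76) (nat_lit 7067199813) (nat_lit 327) (nat_lit 5) (nat_lit 339) (nat_lit 5) (nat_lit 328) (nat_lit 5) (nat_lit 482) (nat_lit 445) (nat_lit 213)) (XT.lf (nat_lit 0) (nat_lit 4789416585) (nat_lit 760) (nat_lit 5810660795) (nat_lit 836) (nat_lit 11592128619) (nat_lit 317) (nat_lit 5) (nat_lit 327) (nat_lit 5) (nat_lit 328) (nat_lit 5) (nat_lit 483) (nat_lit 445) (nat_lit 212)))))) (XT.nd (nat_lit 390) (nat_lit 2736) (nat_lit 0) (XT.nd (nat_lit 156) (nat_lit 760) (nat_lit 0) (XT.nd (nat_lit 78) (nat_lit 760) (nat_lit 0) (XT.lf (nat_lit 0) (nat_lit 13313347083) (nat_lit 836) (nat_lit 5689447805) (nat_lit 76) (nat_lit 3439666364) (nat_lit 317) (nat_lit 5) (nat_lit 328) (nat_lit 5) (nat_lit 318) (nat_lit 5) (nat_lit 484) (nat_lit 445) (nat_lit 211)) (XT.lf (nat_lit 0) (nat_lit 6298117448) (nat_lit 760) (nat_lit 9858155028) (nat_lit 836) (nat_lit 6539942557)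 (nat_lit 307) (nat_lit 5) (nat_lit 317) (nat_lit 5) (nat_lit 318) (nat_lit 5) (nat_lit 485) (nat_lit 445) (nat_lit 210))) (XT.nd (nat_lit 78) (nat_lit 760) (nat_lit 0) (XT.lf (nat_lit 0) (nat_lit 18598420425) (nat_lit 760) (nat_lit 491883924) (nat_lit 836) (nat_lit 3864055786) (nat_lit 307) (nat_lit 5) (nat_lit 317) (nat_lit 5) (nat_lit 318) (nat_lit 5) (nat_lit 486) (nat_lit 445) (nat_lit 209)) (XT.nd (nat_lit 78) (nat_lit 76) (nat_lit 0) (XT.lf (nat_lit 0) (nat_lit 7968604940) (nat_lit 684) (nat_lit 14221128599) (nat_lit 760) (nat_lit 1025801447) (nat_lit 298) (nat_lit 5) (nat_lit 307) (nat_lit 5) (nat_lit 308) (nat_lit 5) (nat_lit 487) (nat_lit 445) (nat_lit 208)) (XT.lf (nat_lit 0) (nat_lit 1873551748) (nat_lit 760) (nat_lit 2902405930) (nat_lit 76) (nat_lit 18705157088) (nat_lit 297) (nat_lit 5) (nat_lit 307) (nat_lit 5) (nat_lit 298) (nat_lit 5) (nat_lit 488) (nat_lit 445) (nat_lit 207))))) (XT.nd (nat_lit 234)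 (nat_lit 1292) (nat_lit 0) (XT.nd (nat_lit 78) (nat_lit 684) (nat_lit 0) (XT.lf (nat_lit 0) (nat_lit 4909090373) (nat_lit 836) (nat_lit 13975921959) (nat_lit 76) (nat_lit 4865020636) (nat_lit 287) (nat_lit 5) (nat_lit 298) (nat_lit 5) (nat_lit 288) (nat_lit 5) (nat_lit 489) (nat_lit 445) (nat_lit 206)) (XT.nd (nat_lit 78) (nat_lit 684) (nat_lit 0) (XT.lf (nat_lit 0) (nat_lit 8052861805) (nat_lit 836) (nat_lit 1316317788) (nat_lit 76) (nat_lit 14654200590) (nat_lit 287) (nat_lit 5) (nat_lit 298) (nat_lit 5) (nat_lit 288) (nat_lit 5) (nat_lit 490) (nat_lit 445) (nat_lit 205)) (XT.lf (nat_lit 0) (nat_lit 11334825324) (nat_lit 760) (nat_lit 12556937628) (nat_lit 76) (nat_lit 408926129) (nat_lit 278) (nat_lit 5) (nat_lit 288) (nat_lit 5) (nat_lit 279) (nat_lit 5) (nat_lit 491) (nat_lit 445) (nat_lit 204)))) (XT.nd (nat_lit 78) (nat_lit 608) (nat_lit 0) (XT.lf (nat_lit 0) (nat_lit 439066071) (nat_lit 684) (nat_lit 14313554878)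 (nat_lit 760) (nat_lit 9829520398) (nat_lit 269) (nat_lit 5) (nat_lit 278) (nat_lit 5) (nat_lit 279) (nat_lit 5) (nat_lit 492) (nat_lit 445) (nat_lit 203)) (XT.nd (nat_lit 78) (nat_lit 608) (nat_lit 0) (XT.lf (nat_lit 0) (nat_lit 13861145370) (nat_lit 684) (nat_lit 4458337866) (nat_lit 760) (nat_lit 6548126236) (nat_lit 269) (nat_lit 5) (nat_lit 278) (nat_lit 5) (nat_lit 279) (nat_lit 5) (nat_lit 493) (nat_lit 445) (nat_lit 202)) (XT.lf (nat_lit 0) (nat_lit 2383778140) (nat_lit 608) (nat_lit 19622215092) (nat_lit 684) (nat_lit 3151828526) (nat_lit 261) (nat_lit 5) (nat_lit 269) (nat_lit 5) (nat_lit 270) (nat_lit 5) (nat_lit 494) (nat_lit 445) (nat_lit 201))))))) (XT.nd (nat_lit 55848) (nat_lit 0) (nat_lit 13528) (XT.nd (nat_lit 390) (nat_lit 608) (nat_lit 0) (XT.nd (nat_lit 156) (nat_lit 608) (nat_lit 0) (XT.nd (nat_lit 78) (nat_lit 684) (nat_lit 0) (XT.lf (nat_lit 0) (nat_lit 408703768) (nat_lit 684) (nat_lit 9297448613)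 (nat_lit 76) (nat_lit 15745638196) (nat_lit 260) (nat_lit 5) (nat_lit 269) (nat_lit 5) (nat_lit 261) (nat_lit 5) (nat_lit 495) (nat_lit 445) (nat_lit 200)) (XT.lf (nat_lit 0) (nat_lit 4026964963) (nat_lit 760) (nat_lit 21271076087) (nat_lit 76) (nat_lit 452607577) (nat_lit 251) (nat_lit 5) (nat_lit 261) (nat_lit 5) (nat_lit 252) (nat_lit 5) (nat_lit 496) (nat_lit 445) (nat_lit 199))) (XT.nd (nat_lit 78) (nat_lit 608) (nat_lit 0) (XT.lf (nat_lit 0) (nat_lit 7841311585) (nat_lit 760) (nat_lit 7464788583) (nat_lit 76) (nat_lit 10746910196) (nat_lit 251) (nat_lit 5) (nat_lit 261) (nat_lit 5) (nat_lit 252) (nat_lit 5) (nat_lit 497) (nat_lit 445) (nat_lit 198)) (XT.nd (nat_lit 78) (nat_lit 0) (nat_lit 0) (XT.lf (nat_lit 0) (nat_lit 6701572187) (nat_lit 608) (nat_lit 5070587035) (nat_lit 684) (nat_lit 14588456747) (nat_lit 243) (nat_lit 5) (nat_lit 251) (nat_lit 5) (nat_lit 252) (nat_lit 5) (nat_lit 498) (nat_lit 445) (nat_lit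 197)) (XT.lf (nat_lit 0) (nat_lit 15863649392) (nat_lit 684) (nat_lit 5460100077) (nat_lit 76) (nat_lit 5348984598) (nat_lit 243) (nat_lit 5) (nat_lit 252) (nat_lit 5) (nat_lit 244) (nat_lit 5) (nat_lit 499) (nat_lit 445) (nat_lit 196))))) (XT.nd (nat_lit 55224) (nat_lit 0) (nat_lit 13528) (XT.nd (nat_lit 78) (nat_lit 0) (nat_lit 0) (XT.lf (nat_lit 0) (nat_lit 9104750332) (nat_lit 608) (nat_lit 11021715061) (nat_lit 684) (nat_lit 6862840093) (nat_lit 235) (nat_lit 5) (nat_lit 243) (nat_lit 5) (nat_lit 244) (nat_lit 5) (nat_lit 500) (nat_lit 445) (nat_lit 195)) (XT.nd (nat_lit 55068) (nat_lit 0) (nat_lit 15200) (XT.lf (nat_lit 0) (nat_lit 24031033957) (nat_lit 608) (nat_lit 476983342) (nat_lit 684) (nat_lit 2803522302) (nat_lit 235) (nat_lit 5) (nat_lit 243) (nat_lit 5) (nat_lit 244) (nat_lit 5) (nat_lit 501) (nat_lit 445) (nat_lit 194)) (XT.lf (nat_lit 0) (nat_lit 7281320499) (nat_lit 1748) (nat_lit 170630912) (nat_lit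 1748) (nat_lit 170630912) (nat_lit 435) (nat_lit 3) (nat_lit 458) (nat_lit 3) (nat_lit 458) (nat_lit 5) (nat_lit 446) (nat_lit 446) (nat_lit 248)))) (XT.nd (nat_lit 78) (nat_lit 1672) (nat_lit 0) (XT.lf (nat_lit 76) (nat_lit 7046478087) (nat_lit 0) (nat_lit 7988592438) (nat_lit 1748) (nat_lit 355908310) (nat_lit 436) (nat_lit 5) (nat_lit 435) (nat_lit 3) (nat_lit 458) (nat_lit 5) (nat_lit 447) (nat_lit 446) (nat_lit 247)) (XT.nd (nat_lit 78) (nat_lit 1672) (nat_lit 0) (XT.lf (nat_lit 76) (nat_lit 14582787600) (nat_lit 0) (nat_lit 929054231) (nat_lit 1748) (nat_lit 27972270) (nat_lit 436) (nat_lit 5) (nat_lit 435) (nat_lit 3) (nat_lit 458) (nat_lit 5) (nat_lit 448) (nat_lit 446) (nat_lit 246)) (XT.lf (nat_lit 0) (nat_lit 379481166) (nat_lit 1748) (nat_lit 9072197534) (nat_lit 1824) (nat_lit 6238370552) (nat_lit 413) (nat_lit 5) (nat_lit 436) (nat_lit 5) (nat_lit 437) (nat_lit 5) (nat_lit 449) (nat_lit 446) (nat_lit 245))))))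 (XT.nd (nat_lit 390) (nat_lit 0) (nat_lit 228) (XT.nd (nat_lit 156) (nat_lit 0) (nat_lit 76) (XT.nd (nat_lit 78) (nat_lit 0) (nat_lit 76) (XT.lf (nat_lit 0) (nat_lit 800164758) (nat_lit 1748) (nat_lit 1496319682) (nat_lit 1824) (nat_lit 13546694361) (nat_lit 413) (nat_lit 5) (nat_lit 436) (nat_lit 5) (nat_lit 437) (nat_lit 5) (nat_lit 450) (nat_lit 446) (nat_lit 244)) (XT.lf (nat_lit 0) (nat_lit 1295975303) (nat_lit 1748) (nat_lit 9721530331) (nat_lit 1824) (nat_lit 4980533498) (nat_lit 414) (nat_lit 5) (nat_lit 437) (nat_lit 5) (nat_lit 438) (nat_lit 5) (nat_lit 451) (nat_lit 446) (nat_lit 243))) (XT.nd (nat_lit 78) (nat_lit 0) (nat_lit 76) (XT.lf (nat_lit 0) (nat_lit 1820128730) (nat_lit 1748) (nat_lit 1950029416) (nat_lit 1824) (nat_lit 12385472400) (nat_lit 414) (nat_lit 5) (nat_lit 437) (nat_lit 5) (nat_lit 438) (nat_lit 5) (nat_lit 452) (nat_lit 446) (nat_lit 242)) (XT.nd (nat_lit 78) (nat_lit 0) (nat_lit 0) (XT.lf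 (nat_lit 0) (nat_lit 2411102294) (nat_lit 1748) (nat_lit 10287198524) (nat_lit 1824) (nat_lit 3616948591) (nat_lit 415) (nat_lit 5) (nat_lit 438) (nat_lit 5) (nat_lit 439) (nat_lit 5) (nat_lit 453) (nat_lit 446) (nat_lit 241)) (XT.lf (nat_lit 0) (nat_lit 3045405872) (nat_lit 1748) (nat_lit 2314810751) (nat_lit 1824) (nat_lit 11117216130) (nat_lit 415) (nat_lit 5) (nat_lit 438) (nat_lit 5) (nat_lit 439) (nat_lit 5) (nat_lit 454) (nat_lit 446) (nat_lit 240))))) (XT.nd (nat_lit 234) (nat_lit 0) (nat_lit 76) (XT.nd (nat_lit 78) (nat_lit 0) (nat_lit 0) (XT.lf (nat_lit 0) (nat_lit 3738203284) (nat_lit 1748) (nat_lit 10766017481) (nat_lit 1824) (nat_lit 2137725113) (nat_lit 416) (nat_lit 5) (nat_lit 439) (nat_lit 5) (nat_lit 440) (nat_lit 5) (nat_lit 455) (nat_lit 446) (nat_lit 239)) (XT.nd (nat_lit 78) (nat_lit 0) (nat_lit 76) (XT.lf (nat_lit 0) (nat_lit 4489608806) (nat_lit 1748) (nat_lit 2587302079) (nat_lit 1824) (nat_lit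 9731945564) (nat_lit 416) (nat_lit 5) (nat_lit 439) (nat_lit 5) (nat_lit 440) (nat_lit 5) (nat_lit 456) (nat_lit 446) (nat_lit 238)) (XT.lf (nat_lit 0) (nat_lit 5291124752) (nat_lit 1748) (nat_lit 11154607465) (nat_lit 1824) (nat_lit 532673549) (nat_lit 417) (nat_lit 5) (nat_lit 440) (nat_lit 5) (nat_lit 441) (nat_lit 5) (nat_lit 457) (nat_lit 446) (nat_lit 237)))) (XT.nd (nat_lit 78) (nat_lit 0) (nat_lit 0) (XT.lf (nat_lit 0) (nat_lit 6166868380) (nat_lit 1748) (nat_lit 2763943060) (nat_lit 1824) (nat_lit 8219372821) (nat_lit 417) (nat_lit 5) (nat_lit 440) (nat_lit 5) (nat_lit 441) (nat_lit 5) (nat_lit 458) (nat_lit 446) (nat_lit 236)) (XT.nd (nat_lit 78) (nat_lit 0) (nat_lit 76) (XT.lf (nat_lit 76) (nat_lit 5867413738) (nat_lit 0) (nat_lit 1224782073) (nat_lit 1824) (nat_lit 10232563235) (nat_lit 418) (nat_lit 5) (nat_lit 417) (nat_lit 5) (nat_lit 441) (nat_lit 5) (nat_lit 459) (nat_lit 446) (nat_lit 235)) (XT.lf (nat_lit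 0) (nat_lit 8091859281) (nat_lit 1748) (nat_lit 2840974053) (nat_lit 1824) (nat_lit 6568877457) (nat_lit 418) (nat_lit 5) (nat_lit 441) (nat_lit 5) (nat_lit 442) (nat_lit 5) (nat_lit 460) (nat_lit 446) (nat_lit 234))))))))
noncomputable def xc231 : XT := (XT.nd (nat_lit 1716) (nat_lit 6992) (nat_lit 0) (XT.nd (nat_lit 858) (nat_lit 5396) (nat_lit 0) (XT.nd (nat_lit 390) (nat_lit 1520) (nat_lit 0) (XT.nd (nat_lit 156) (nat_lit 0) (nat_lit 76) (XT.nd (nat_lit 78) (nat_lit 0) (nat_lit 76) (XT.lf (nat_lit 76) (nat_lit 6014396034) (nat_lit 0) (nat_lit 3138474631) (nat_lit 1824) (nat_lit 8528505831) (nat_lit 419) (nat_lit 5) (nat_lit 418) (nat_lit 5) (nat_lit 442) (nat_lit 5) (nat_lit 461) (nat_lit 446) (nat_lit 233)) (XT.lf (nat_lit 0) (nat_lit 10279826343) (nat_lit 1748) (nat_lit 2814435445) (nat_lit 1824) (nat_lit 4769481219) (nat_lit 419) (nat_lit 5) (nat_lit 442) (nat_lit 5) (nat_lit 443) (nat_lit 5) (nat_lit 462) (nat_lit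 446) (nat_lit 232))) (XT.nd (nat_lit 78) (nat_lit 0) (nat_lit 76) (XT.lf (nat_lit 76) (nat_lit 6272526050) (nat_lit 0) (nat_lit 5212709173) (nat_lit 1824) (nat_lit 6563405283) (nat_lit 420) (nat_lit 5) (nat_lit 419) (nat_lit 5) (nat_lit 443) (nat_lit 5) (nat_lit 463) (nat_lit 446) (nat_lit 231)) (XT.nd (nat_lit 78) (nat_lit 0) (nat_lit 0) (XT.lf (nat_lit 0) (nat_lit 12746611568) (nat_lit 1748) (nat_lit 2680166919) (nat_lit 1824) (nat_lit 2809822182) (nat_lit 420) (nat_lit 5) (nat_lit 443) (nat_lit 5) (nat_lit 444) (nat_lit 5) (nat_lit 464) (nat_lit 446) (nat_lit 230)) (XT.lf (nat_lit 76) (nat_lit 6646217737) (nat_lit 0) (nat_lit 7459275040) (nat_lit 1824) (nat_lit 4321383572) (nat_lit 421) (nat_lit 5) (nat_lit 420) (nat_lit 5) (nat_lit 444) (nat_lit 5) (nat_lit 465) (nat_lit 446) (nat_lit 229))))) (XT.nd (nat_lit 234) (nat_lit 1748) (nat_lit 0) (XT.nd (nat_lit 78) (nat_lit 0) (nat_lit 0) (XT.lf (nat_lit 0) (nat_lit 15508681921)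 (nat_lit 1748) (nat_lit 2433806674) (nat_lit 1824) (nat_lit 678128168) (nat_lit 421) (nat_lit 5) (nat_lit 444) (nat_lit 5) (nat_lit 445) (nat_lit 5) (nat_lit 466) (nat_lit 446) (nat_lit 228)) (XT.nd (nat_lit 78) (nat_lit 0) (nat_lit 0) (XT.lf (nat_lit 76) (nat_lit 7140093582) (nat_lit 0) (nat_lit 9890394256) (nat_lit 1824) (nat_lit 1785934877) (nat_lit 422) (nat_lit 5) (nat_lit 421) (nat_lit 5) (nat_lit 445) (nat_lit 5) (nat_lit 467) (nat_lit 446) (nat_lit 227)) (XT.lf (nat_lit 76) (nat_lit 16934356768) (nat_lit 0) (nat_lit 1659576215) (nat_lit 1824) (nat_lit 421989496) (nat_lit 422) (nat_lit 5) (nat_lit 421) (nat_lit 5) (nat_lit 445) (nat_lit 5) (nat_lit 468) (nat_lit 446) (nat_lit 226)))) (XT.nd (nat_lit 78) (nat_lit 0) (nat_lit 0) (XT.lf (nat_lit 0) (nat_lit 1046199599) (nat_lit 1824) (nat_lit 11465529536) (nat_lit 1900) (nat_lit 6705765402) (nat_lit 398) (nat_lit 5) (nat_lit 422) (nat_lit 5) (nat_lit 423) (nat_lit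 5) (nat_lit 469) (nat_lit 446) (nat_lit 225)) (XT.nd (nat_lit 78) (nat_lit 0) (nat_lit 76) (XT.lf (nat_lit 0) (nat_lit 2558174220) (nat_lit 1824) (nat_lit 1630488833) (nat_lit 1900) (nat_lit 15233979406) (nat_lit 398) (nat_lit 5) (nat_lit 422) (nat_lit 5) (nat_lit 423) (nat_lit 5) (nat_lit 470) (nat_lit 446) (nat_lit 224)) (XT.lf (nat_lit 0) (nat_lit 4179041038) (nat_lit 1824) (nat_lit 11150429461) (nat_lit 76) (nat_lit 4300851406) (nat_lit 399) (nat_lit 5) (nat_lit 423) (nat_lit 5) (nat_lit 400) (nat_lit 5) (nat_lit 471) (nat_lit 446) (nat_lit 223)))))) (XT.nd (nat_lit 390) (nat_lit 2584) (nat_lit 0) (XT.nd (nat_lit 156) (nat_lit 1748) (nat_lit 0) (XT.nd (nat_lit 78) (nat_lit 1140) (nat_lit 0) (XT.lf (nat_lit 0) (nat_lit 5866266038) (nat_lit 1824) (nat_lit 1059333991) (nat_lit 76) (nat_lit 12915877684) (nat_lit 399) (nat_lit 5) (nat_lit 423) (nat_lit 5) (nat_lit 400) (nat_lit 5) (nat_lit 472) (nat_lit 446) (nat_lit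 222)) (XT.lf (nat_lit 0) (nat_lit 7654333129) (nat_lit 1216) (nat_lit 10714682256) (nat_lit 76) (nat_lit 1686500860) (nat_lit 384) (nat_lit 5) (nat_lit 400) (nat_lit 5) (nat_lit 385) (nat_lit 5) (nat_lit 473) (nat_lit 446) (nat_lit 221))) (XT.nd (nat_lit 78) (nat_lit 1748) (nat_lit 0) (XT.lf (nat_lit 0) (nat_lit 9526534041) (nat_lit 1216) (nat_lit 360399227) (nat_lit 76) (nat_lit 10385936357) (nat_lit 384) (nat_lit 5) (nat_lit 400) (nat_lit 5) (nat_lit 385) (nat_lit 5) (nat_lit 474) (nat_lit 446) (nat_lit 220)) (XT.nd (nat_lit 78) (nat_lit 836) (nat_lit 0) (XT.lf (nat_lit 0) (nat_lit 10332403581) (nat_lit 912) (nat_lit 1166303161) (nat_lit 988) (nat_lit 8994614272) (nat_lit 372) (nat_lit 5) (nat_lit 384) (nat_lit 5) (nat_lit 385) (nat_lit 5) (nat_lit 475) (nat_lit 446) (nat_lit 219)) (XT.lf (nat_lit 0) (nat_lit 477739593) (nat_lit 836) (nat_lit 13083808586) (nat_lit 912) (nat_lit 7155610215) (nat_lit 361) (nat_lit 5)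 (nat_lit 372) (nat_lit 5) (nat_lit 373) (nat_lit 5) (nat_lit 476) (nat_lit 446) (nat_lit 218))))) (XT.nd (nat_lit 234) (nat_lit 1748) (nat_lit 0) (XT.nd (nat_lit 78) (nat_lit 836) (nat_lit 0) (XT.lf (nat_lit 0) (nat_lit 11454959813) (nat_lit 836) (nat_lit 4282115001) (nat_lit 912) (nat_lit 5206970580) (nat_lit 361) (nat_lit 5) (nat_lit 372) (nat_lit 5) (nat_lit 373) (nat_lit 5) (nat_lit 477) (nat_lit 446) (nat_lit 217)) (XT.nd (nat_lit 78) (nat_lit 0) (nat_lit 0) (XT.lf (nat_lit 0) (nat_lit 1460799038) (nat_lit 836) (nat_lit 16530943516) (nat_lit 912) (nat_lit 3183016380) (nat_lit 350) (nat_lit 5) (nat_lit 361) (nat_lit 5) (nat_lit 362) (nat_lit 5) (nat_lit 478) (nat_lit 446) (nat_lit 216)) (XT.lf (nat_lit 0) (nat_lit 12725473433) (nat_lit 836) (nat_lit 7653596348) (nat_lit 912) (nat_lit 1029267025) (nat_lit 350) (nat_lit 5) (nat_lit 361) (nat_lit 5) (nat_lit 362) (nat_lit 5) (nat_lit 479) (nat_lit 446) (nat_lit 215))))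 (XT.nd (nat_lit 78) (nat_lit 836) (nat_lit 0) (XT.lf (nat_lit 0) (nat_lit 1174101402) (nat_lit 912) (nat_lit 19064263300) (nat_lit 76) (nat_lit 1407634115) (nat_lit 338) (nat_lit 5) (nat_lit 350) (nat_lit 5) (nat_lit 339) (nat_lit 5) (nat_lit 480) (nat_lit 446) (nat_lit 214)) (XT.nd (nat_lit 78) (nat_lit 836) (nat_lit 0) (XT.lf (nat_lit 0) (nat_lit 3512936494) (nat_lit 912) (nat_lit 7759947670) (nat_lit 76) (nat_lit 10613291516) (nat_lit 338) (nat_lit 5) (nat_lit 350) (nat_lit 5) (nat_lit 339) (nat_lit 5) (nat_lit 481) (nat_lit 446) (nat_lit 213)) (XT.lf (nat_lit 0) (nat_lit 3816453293) (nat_lit 836) (nat_lit 2102785483) (nat_lit 912) (nat_lit 16211504773) (nat_lit 327) (nat_lit 5) (nat_lit 338) (nat_lit 5) (nat_lit 339) (nat_lit 5) (nat_lit 482) (nat_lit 446) (nat_lit 212))))))) (XT.nd (nat_lit 858) (nat_lit 2584) (nat_lit 0) (XT.nd (nat_lit 390) (nat_lit 2888) (nat_lit 0) (XT.nd (nat_lit 156) (nat_lit 760) (nat_lit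 0) (XT.nd (nat_lit 78) (nat_lit 760) (nat_lit 0) (XT.lf (nat_lit 0) (nat_lit 8469127349) (nat_lit 912) (nat_lit 6701121970) (nat_lit 76) (nat_lit 7208045505) (nat_lit 327) (nat_lit 5) (nat_lit 339) (nat_lit 5) (nat_lit 328) (nat_lit 5) (nat_lit 483) (nat_lit 446) (nat_lit 211)) (XT.lf (nat_lit 0) (nat_lit 5194481329) (nat_lit 760) (nat_lit 5919228820) (nat_lit 836) (nat_lit 11516214273) (nat_lit 317) (nat_lit 5) (nat_lit 327) (nat_lit 5) (nat_lit 328) (nat_lit 5) (nat_lit 484) (nat_lit 446) (nat_lit 210))) (XT.nd (nat_lit 78) (nat_lit 760) (nat_lit 0) (XT.lf (nat_lit 0) (nat_lit 13875379573) (nat_lit 836) (nat_lit 5494067672) (nat_lit 76) (nat_lit 3515856674) (nat_lit 317) (nat_lit 5) (nat_lit 328) (nat_lit 5) (nat_lit 318) (nat_lit 5) (nat_lit 485) (nat_lit 446) (nat_lit 209)) (XT.nd (nat_lit 78) (nat_lit 0) (nat_lit 0) (XT.lf (nat_lit 0) (nat_lit 6731214879) (nat_lit 760) (nat_lit 10040143395) (nat_lit 836) (nat_lit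 6372852394) (nat_lit 307) (nat_lit 5) (nat_lit 317) (nat_lit 5) (nat_lit 318) (nat_lit 5) (nat_lit 486) (nat_lit 446) (nat_lit 208)) (XT.lf (nat_lit 0) (nat_lit 19271501659) (nat_lit 760) (nat_lit 486844413) (nat_lit 836) (nat_lit 3649288850) (nat_lit 307) (nat_lit 5) (nat_lit 317) (nat_lit 5) (nat_lit 318) (nat_lit 5) (nat_lit 487) (nat_lit 446) (nat_lit 207))))) (XT.nd (nat_lit 234) (nat_lit 1368) (nat_lit 0) (XT.nd (nat_lit 78) (nat_lit 836) (nat_lit 0) (XT.lf (nat_lit 0) (nat_lit 8432787079) (nat_lit 684) (nat_lit 14483438031) (nat_lit 760) (nat_lit 757880653) (nat_lit 298) (nat_lit 5) (nat_lit 307) (nat_lit 5) (nat_lit 308) (nat_lit 5) (nat_lit 488) (nat_lit 446) (nat_lit 206)) (XT.nd (nat_lit 78) (nat_lit 760) (nat_lit 0) (XT.lf (nat_lit 0) (nat_lit 2190095255) (nat_lit 760) (nat_lit 2657829305) (nat_lit 76) (nat_lit 19097148407) (nat_lit 297) (nat_lit 5) (nat_lit 307) (nat_lit 5) (nat_lit 298) (nat_lit 5) (nat_lit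 489) (nat_lit 446) (nat_lit 205)) (XT.lf (nat_lit 0) (nat_lit 5282987402) (nat_lit 836) (nat_lit 13949377379) (nat_lit 76) (nat_lit 4987073517) (nat_lit 287) (nat_lit 5) (nat_lit 298) (nat_lit 5) (nat_lit 288) (nat_lit 5) (nat_lit 490) (nat_lit 446) (nat_lit 204)))) (XT.nd (nat_lit 78) (nat_lit 1368) (nat_lit 0) (XT.lf (nat_lit 0) (nat_lit 8484228082) (nat_lit 836) (nat_lit 1042582361) (nat_lit 76) (nat_lit 14971551727) (nat_lit 287) (nat_lit 5) (nat_lit 298) (nat_lit 5) (nat_lit 288) (nat_lit 5) (nat_lit 491) (nat_lit 446) (nat_lit 203)) (XT.nd (nat_lit 78) (nat_lit 684) (nat_lit 0) (XT.lf (nat_lit 0) (nat_lit 11828668281) (nat_lit 760) (nat_lit 12504774129) (nat_lit 76) (nat_lit 447839645) (nat_lit 278) (nat_lit 5) (nat_lit 288) (nat_lit 5) (nat_lit 279) (nat_lit 5) (nat_lit 492) (nat_lit 446) (nat_lit 202)) (XT.lf (nat_lit 0) (nat_lit 749154234) (nat_lit 684) (nat_lit 14562383702) (nat_lit 760) (nat_lit 9756892594)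 (nat_lit 269) (nat_lit 5) (nat_lit 278) (nat_lit 5) (nat_lit 279) (nat_lit 5) (nat_lit 493) (nat_lit 446) (nat_lit 201)))))) (XT.nd (nat_lit 390) (nat_lit 1216) (nat_lit 0) (XT.nd (nat_lit 156) (nat_lit 760) (nat_lit 0) (XT.nd (nat_lit 78) (nat_lit 608) (nat_lit 0) (XT.lf (nat_lit 0) (nat_lit 14433767142) (nat_lit 684) (nat_lit 4510796512) (nat_lit 760) (nat_lit 6415149338) (nat_lit 269) (nat_lit 5) (nat_lit 278) (nat_lit 5) (nat_lit 279) (nat_lit 5) (nat_lit 494) (nat_lit 446) (nat_lit 200)) (XT.lf (nat_lit 0) (nat_lit 2729886528) (nat_lit 608) (nat_lit 19972016239) (nat_lit 684) (nat_lit 2953886246) (nat_lit 261) (nat_lit 5) (nat_lit 269) (nat_lit 5) (nat_lit 270) (nat_lit 5) (nat_lit 495) (nat_lit 446) (nat_lit 199))) (XT.nd (nat_lit 78) (nat_lit 684) (nat_lit 0) (XT.lf (nat_lit 0) (nat_lit 669383790) (nat_lit 684) (nat_lit 9187390177) (nat_lit 76) (nat_lit 16098931767) (nat_lit 260) (nat_lit 5) (nat_lit 269) (nat_lit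 5) (nat_lit 261) (nat_lit 5) (nat_lit 496) (nat_lit 446) (nat_lit 198)) (XT.nd (nat_lit 78) (nat_lit 0) (nat_lit 0) (XT.lf (nat_lit 0) (nat_lit 4357257891) (nat_lit 760) (nat_lit 21397668728) (nat_lit 76) (nat_lit 505670755) (nat_lit 251) (nat_lit 5) (nat_lit 261) (nat_lit 5) (nat_lit 252) (nat_lit 5) (nat_lit 497) (nat_lit 446) (nat_lit 197)) (XT.lf (nat_lit 0) (nat_lit 8242994315) (nat_lit 760) (nat_lit 7321114864) (nat_lit 76) (nat_lit 11004996465) (nat_lit 251) (nat_lit 5) (nat_lit 261) (nat_lit 5) (nat_lit 252) (nat_lit 5) (nat_lit 498) (nat_lit 446) (nat_lit 196))))) (XT.nd (nat_lit 55302) (nat_lit 0) (nat_lit 13452) (XT.nd (nat_lit 78) (nat_lit 608) (nat_lit 0) (XT.lf (nat_lit 0) (nat_lit 7126645691) (nat_lit 608) (nat_lit 5122901744) (nat_lit 684) (nat_lit 14633375484) (nat_lit 243) (nat_lit 5) (nat_lit 251) (nat_lit 5) (nat_lit 252) (nat_lit 5) (nat_lit 499) (nat_lit 446) (nat_lit 195)) (XT.nd (nat_lit 78) (nat_lit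 608) (nat_lit 0) (XT.lf (nat_lit 0) (nat_lit 16418435909) (nat_lit 684) (nat_lit 5279470060) (nat_lit 76) (nat_lit 5503467344) (nat_lit 243) (nat_lit 5) (nat_lit 252) (nat_lit 5) (nat_lit 244) (nat_lit 5) (nat_lit 500) (nat_lit 446) (nat_lit 194)) (XT.lf (nat_lit 0) (nat_lit 9574770567) (nat_lit 608) (nat_lit 11188949936) (nat_lit 684) (nat_lit 6760612689) (nat_lit 235) (nat_lit 5) (nat_lit 243) (nat_lit 5) (nat_lit 244) (nat_lit 5) (nat_lit 501) (nat_lit 446) (nat_lit 193)))) (XT.nd (nat_lit 78) (nat_lit 1748) (nat_lit 0) (XT.lf (nat_lit 0) (nat_lit 7706174836) (nat_lit 1748) (nat_lit 31586918) (nat_lit 1748) (nat_lit 31586918) (nat_lit 435) (nat_lit 3) (nat_lit 458) (nat_lit 3) (nat_lit 458) (nat_lit 5) (nat_lit 447) (nat_lit 447) (nat_lit 246)) (XT.nd (nat_lit 78) (nat_lit 0) (nat_lit 0) (XT.lf (nat_lit 0) (nat_lit 194911067) (nat_lit 1748) (nat_lit 8218449884) (nat_lit 1824) (nat_lit 7274227420) (nat_lit 412) (nat_lit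 5) (nat_lit 435) (nat_lit 3) (nat_lit 436) (nat_lit 5) (nat_lit 448) (nat_lit 447) (nat_lit 245)) (XT.lf (nat_lit 0) (nat_lit 514172272) (nat_lit 1748) (nat_lit 691095637) (nat_lit 1824) (nat_lit 14634309728) (nat_lit 412) (nat_lit 5) (nat_lit 435) (nat_lit 3) (nat_lit 436) (nat_lit 5) (nat_lit 449) (nat_lit 447) (nat_lit 244))))))))
noncomputable def xc232 : XT := (XT.nd (nat_lit 1638) (nat_lit 8436) (nat_lit 0) (XT.nd (nat_lit 780) (nat_lit 1140) (nat_lit 0) (XT.nd (nat_lit 390) (nat_lit 0) (nat_lit 152) (XT.nd (nat_lit 156) (nat_lit 0) (nat_lit 76) (XT.nd (nat_lit 78) (nat_lit 0) (nat_lit 0) (XT.lf (nat_lit 0) (nat_lit 918977612) (nat_lit 1748) (nat_lit 8958146235) (nat_lit 1824) (nat_lit 6115902120) (nat_lit 413) (nat_lit 5) (nat_lit 436) (nat_lit 5) (nat_lit 437) (nat_lit 5) (nat_lit 450) (nat_lit 447) (nat_lit 243)) (XT.lf (nat_lit 0) (nat_lit 1337645331) (nat_lit 1748) (nat_lit 1236544850) (nat_lit 1824) (nat_lit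 13575240167) (nat_lit 413) (nat_lit 5) (nat_lit 436) (nat_lit 5) (nat_lit 437) (nat_lit 5) (nat_lit 451) (nat_lit 447) (nat_lit 242))) (XT.nd (nat_lit 78) (nat_lit 0) (nat_lit 0) (XT.lf (nat_lit 0) (nat_lit 1833552637) (nat_lit 1748) (nat_lit 9616261357) (nat_lit 1824) (nat_lit 4857773859) (nat_lit 414) (nat_lit 5) (nat_lit 437) (nat_lit 5) (nat_lit 438) (nat_lit 5) (nat_lit 452) (nat_lit 447) (nat_lit 241)) (XT.nd (nat_lit 78) (nat_lit 0) (nat_lit 76) (XT.lf (nat_lit 0) (nat_lit 2358156626) (nat_lit 1748) (nat_lit 1695206886) (nat_lit 1824) (nat_lit 12415171741) (nat_lit 414) (nat_lit 5) (nat_lit 437) (nat_lit 5) (nat_lit 438) (nat_lit 5) (nat_lit 453) (nat_lit 447) (nat_lit 240)) (XT.lf (nat_lit 0) (nat_lit 2951698830) (nat_lit 1748) (nat_lit 10189696586) (nat_lit 1824) (nat_lit 3490139532) (nat_lit 415) (nat_lit 5) (nat_lit 438) (nat_lit 5) (nat_lit 439) (nat_lit 5) (nat_lit 454) (nat_lit 447) (nat_lit 239))))) (XT.nd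 (nat_lit 156) (nat_lit 0) (nat_lit 76) (XT.nd (nat_lit 78) (nat_lit 0) (nat_lit 76) (XT.lf (nat_lit 0) (nat_lit 3589034078) (nat_lit 1748) (nat_lit 2063807057) (nat_lit 1824) (nat_lit 11144317285) (nat_lit 415) (nat_lit 5) (nat_lit 438) (nat_lit 5) (nat_lit 439) (nat_lit 5) (nat_lit 455) (nat_lit 447) (nat_lit 238)) (XT.lf (nat_lit 0) (nat_lit 4286972342) (nat_lit 1748) (nat_lit 10675157542) (nat_lit 1824) (nat_lit 2003009531) (nat_lit 416) (nat_lit 5) (nat_lit 439) (nat_lit 5) (nat_lit 440) (nat_lit 5) (nat_lit 456) (nat_lit 447) (nat_lit 237))) (XT.nd (nat_lit 78) (nat_lit 0) (nat_lit 76) (XT.lf (nat_lit 0) (nat_lit 5044111758) (nat_lit 1748) (nat_lit 2338871367) (nat_lit 1824) (nat_lit 9752594196) (nat_lit 416) (nat_lit 5) (nat_lit 439) (nat_lit 5) (nat_lit 440) (nat_lit 5) (nat_lit 457) (nat_lit 447) (nat_lit 236)) (XT.nd (nat_lit 78) (nat_lit 0) (nat_lit 0) (XT.lf (nat_lit 0) (nat_lit 5853447676) (nat_lit 1748)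 (nat_lit 11069153651) (nat_lit 1824) (nat_lit 386083682) (nat_lit 417) (nat_lit 5) (nat_lit 440) (nat_lit 5) (nat_lit 441) (nat_lit 5) (nat_lit 458) (nat_lit 447) (nat_lit 235)) (XT.lf (nat_lit 0) (nat_lit 6737755188) (nat_lit 1748) (nat_lit 2516725879) (nat_lit 1824) (nat_lit 8229600143) (nat_lit 417) (nat_lit 5) (nat_lit 440) (nat_lit 5) (nat_lit 441) (nat_lit 5) (nat_lit 459) (nat_lit 447) (nat_lit 234)))))) (XT.nd (nat_lit 390) (nat_lit 1444) (nat_lit 0) (XT.nd (nat_lit 156) (nat_lit 0) (nat_lit 76) (XT.nd (nat_lit 78) (nat_lit 0) (nat_lit 76) (XT.lf (nat_lit 76) (nat_lit 6285267949) (nat_lit 0) (nat_lit 1389496823) (nat_lit 1824) (nat_lit 9987522259) (nat_lit 418) (nat_lit 5) (nat_lit 417) (nat_lit 5) (nat_lit 441) (nat_lit 5) (nat_lit 460) (nat_lit 447) (nat_lit 233)) (XT.lf (nat_lit 0) (nat_lit 8684887300) (nat_lit 1748) (nat_lit 2593495958) (nat_lit 1824) (nat_lit 6564588232) (nat_lit 418) (nat_lit 5) (nat_lit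 441) (nat_lit 5) (nat_lit 442) (nat_lit 5) (nat_lit 461) (nat_lit 447) (nat_lit 232))) (XT.nd (nat_lit 78) (nat_lit 0) (nat_lit 76) (XT.lf (nat_lit 76) (nat_lit 6436979573) (nat_lit 0) (nat_lit 3323647319) (nat_lit 1824) (nat_lit 8265736392) (nat_lit 419) (nat_lit 5) (nat_lit 418) (nat_lit 5) (nat_lit 442) (nat_lit 5) (nat_lit 462) (nat_lit 447) (nat_lit 231)) (XT.nd (nat_lit 78) (nat_lit 0) (nat_lit 0) (XT.lf (nat_lit 0) (nat_lit 10901015116) (nat_lit 1748) (nat_lit 2565105446) (nat_lit 1824) (nat_lit 4746441573) (nat_lit 419) (nat_lit 5) (nat_lit 442) (nat_lit 5) (nat_lit 443) (nat_lit 5) (nat_lit 463) (nat_lit 447) (nat_lit 230)) (XT.lf (nat_lit 76) (nat_lit 6701584630) (nat_lit 0) (nat_lit 5422769901) (nat_lit 1824) (nat_lit 6276929427) (nat_lit 420) (nat_lit 5) (nat_lit 419) (nat_lit 5) (nat_lit 443) (nat_lit 5) (nat_lit 464) (nat_lit 447) (nat_lit 229))))) (XT.nd (nat_lit 234) (nat_lit 1672) (nat_lit 0) (XT.nd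 (nat_lit 78) (nat_lit 0) (nat_lit 0) (XT.lf (nat_lit 0) (nat_lit 13402257169) (nat_lit 1748) (nat_lit 2427275764) (nat_lit 1824) (nat_lit 2763647181) (nat_lit 420) (nat_lit 5) (nat_lit 443) (nat_lit 5) (nat_lit 444) (nat_lit 5) (nat_lit 465) (nat_lit 447) (nat_lit 228)) (XT.nd (nat_lit 78) (nat_lit 0) (nat_lit 76) (XT.lf (nat_lit 76) (nat_lit 7083620174) (nat_lit 0) (nat_lit 7698815578) (nat_lit 1824) (nat_lit 4004945874) (nat_lit 421) (nat_lit 5) (nat_lit 420) (nat_lit 5) (nat_lit 444) (nat_lit 5) (nat_lit 466) (nat_lit 447) (nat_lit 227)) (XT.lf (nat_lit 0) (nat_lit 16205371710) (nat_lit 1748) (nat_lit 2175524987) (nat_lit 1824) (nat_lit 604269149) (nat_lit 421) (nat_lit 5) (nat_lit 444) (nat_lit 5) (nat_lit 445) (nat_lit 5) (nat_lit 467) (nat_lit 447) (nat_lit 226)))) (XT.nd (nat_lit 78) (nat_lit 1748) (nat_lit 0) (XT.lf (nat_lit 76) (nat_lit 7587833815) (nat_lit 0) (nat_lit 10164181045) (nat_lit 1824) (nat_lit 1432987641)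 (nat_lit 422) (nat_lit 5) (nat_lit 421) (nat_lit 5) (nat_lit 445) (nat_lit 5) (nat_lit 468) (nat_lit 447) (nat_lit 225)) (XT.nd (nat_lit 78) (nat_lit 1748) (nat_lit 0) (XT.lf (nat_lit 76) (nat_lit 17572003081) (nat_lit 0) (nat_lit 1767256860) (nat_lit 1824) (nat_lit 49384253) (nat_lit 422) (nat_lit 5) (nat_lit 421) (nat_lit 5) (nat_lit 445) (nat_lit 5) (nat_lit 469) (nat_lit 447) (nat_lit 224)) (XT.lf (nat_lit 0) (nat_lit 1437313882) (nat_lit 1824) (nat_lit 11384778138) (nat_lit 1900) (nat_lit 6772225794) (nat_lit 398) (nat_lit 5) (nat_lit 422) (nat_lit 5) (nat_lit 423) (nat_lit 5) (nat_lit 470) (nat_lit 447) (nat_lit 223))))))) (XT.nd (nat_lit 858) (nat_lit 3876) (nat_lit 0) (XT.nd (nat_lit 390) (nat_lit 3496) (nat_lit 0) (XT.nd (nat_lit 156) (nat_lit 1064) (nat_lit 0) (XT.nd (nat_lit 78) (nat_lit 0) (nat_lit 76) (XT.lf (nat_lit 0) (nat_lit 2972269363) (nat_lit 1824) (nat_lit 1359116268) (nat_lit 1900) (nat_lit 15472330645)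 (nat_lit 398) (nat_lit 5) (nat_lit 422) (nat_lit 5) (nat_lit 423) (nat_lit 5) (nat_lit 471) (nat_lit 447) (nat_lit 222)) (XT.lf (nat_lit 0) (nat_lit 4620035632) (nat_lit 1824) (nat_lit 11063819786) (nat_lit 76) (nat_lit 4331806612) (nat_lit 399) (nat_lit 5) (nat_lit 423) (nat_lit 5) (nat_lit 400) (nat_lit 5) (nat_lit 472) (nat_lit 447) (nat_lit 221))) (XT.nd (nat_lit 78) (nat_lit 1140) (nat_lit 0) (XT.lf (nat_lit 0) (nat_lit 6333997019) (nat_lit 1824) (nat_lit 776973353) (nat_lit 76) (nat_lit 13120213060) (nat_lit 399) (nat_lit 5) (nat_lit 423) (nat_lit 5) (nat_lit 400) (nat_lit 5) (nat_lit 473) (nat_lit 447) (nat_lit 220)) (XT.nd (nat_lit 78) (nat_lit 0) (nat_lit 0) (XT.lf (nat_lit 0) (nat_lit 8152627313) (nat_lit 1216) (nat_lit 10620116990) (nat_lit 76) (nat_lit 1676864662) (nat_lit 384) (nat_lit 5) (nat_lit 400) (nat_lit 5) (nat_lit 385) (nat_lit 5) (nat_lit 474) (nat_lit 447) (nat_lit 219)) (XT.lf (nat_lit 0) (nat_lit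 10055503468) (nat_lit 1216) (nat_lit 64804357) (nat_lit 76) (nat_lit 10551139187) (nat_lit 384) (nat_lit 5) (nat_lit 400) (nat_lit 5) (nat_lit 385) (nat_lit 5) (nat_lit 475) (nat_lit 447) (nat_lit 218))))) (XT.nd (nat_lit 234) (nat_lit 1748) (nat_lit 0) (XT.nd (nat_lit 78) (nat_lit 836) (nat_lit 0) (XT.lf (nat_lit 0) (nat_lit 10839862383) (nat_lit 912) (nat_lit 1222574250) (nat_lit 988) (nat_lit 8833966638) (nat_lit 372) (nat_lit 5) (nat_lit 384) (nat_lit 5) (nat_lit 385) (nat_lit 5) (nat_lit 476) (nat_lit 447) (nat_lit 217)) (XT.nd (nat_lit 78) (nat_lit 0) (nat_lit 0) (XT.lf (nat_lit 0) (nat_lit 793078122) (nat_lit 836) (nat_lit 13368688190) (nat_lit 912) (nat_lit 6963048597) (nat_lit 361) (nat_lit 5) (nat_lit 372) (nat_lit 5) (nat_lit 373) (nat_lit 5) (nat_lit 477) (nat_lit 447) (nat_lit 216)) (XT.lf (nat_lit 0) (nat_lit 11983846987) (nat_lit 836) (nat_lit 4390505764) (nat_lit 912) (nat_lit 4982018009) (nat_lit 361)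 (nat_lit 5) (nat_lit 372) (nat_lit 5) (nat_lit 373) (nat_lit 5) (nat_lit 478) (nat_lit 447) (nat_lit 215)))) (XT.nd (nat_lit 78) (nat_lit 912) (nat_lit 0) (XT.lf (nat_lit 0) (nat_lit 1794489848) (nat_lit 836) (nat_lit 16875131804) (nat_lit 912) (nat_lit 2922168817) (nat_lit 350) (nat_lit 5) (nat_lit 361) (nat_lit 5) (nat_lit 362) (nat_lit 5) (nat_lit 479) (nat_lit 447) (nat_lit 214)) (XT.nd (nat_lit 78) (nat_lit 912) (nat_lit 0) (XT.lf (nat_lit 0) (nat_lit 13278487636) (nat_lit 836) (nat_lit 7819971626) (nat_lit 912) (nat_lit 731707375) (nat_lit 350) (nat_lit 5) (nat_lit 361) (nat_lit 5) (nat_lit 362) (nat_lit 5) (nat_lit 480) (nat_lit 447) (nat_lit 213)) (XT.lf (nat_lit 0) (nat_lit 1507294123) (nat_lit 912) (nat_lit 19138413934) (nat_lit 76) (nat_lit 1426919691) (nat_lit 338) (nat_lit 5) (nat_lit 350) (nat_lit 5) (nat_lit 339) (nat_lit 5) (nat_lit 481) (nat_lit 447) (nat_lit 212)))))) (XT.nd (nat_lit 390) (nat_lit 2280)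 (nat_lit 0) (XT.nd (nat_lit 156) (nat_lit 760) (nat_lit 0) (XT.nd (nat_lit 78) (nat_lit 836) (nat_lit 0) (XT.lf (nat_lit 0) (nat_lit 3886833157) (nat_lit 912) (nat_lit 7614034238) (nat_lit 76) (nat_lit 10816864106) (nat_lit 338) (nat_lit 5) (nat_lit 350) (nat_lit 5) (nat_lit 339) (nat_lit 5) (nat_lit 482) (nat_lit 447) (nat_lit 211)) (XT.lf (nat_lit 0) (nat_lit 4191913741) (nat_lit 836) (nat_lit 2145336219) (nat_lit 912) (nat_lit 16230022860) (nat_lit 327) (nat_lit 5) (nat_lit 338) (nat_lit 5) (nat_lit 339) (nat_lit 5) (nat_lit 483) (nat_lit 447) (nat_lit 210))) (XT.nd (nat_lit 78) (nat_lit 760) (nat_lit 0) (XT.lf (nat_lit 0) (nat_lit 8932258126) (nat_lit 912) (nat_lit 6535908922) (nat_lit 76) (nat_lit 7351727460) (nat_lit 327) (nat_lit 5) (nat_lit 339) (nat_lit 5) (nat_lit 328) (nat_lit 5) (nat_lit 484) (nat_lit 447) (nat_lit 209)) (XT.nd (nat_lit 78) (nat_lit 0) (nat_lit 0) (XT.lf (nat_lit 0) (nat_lit 5595637788) (nat_lit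 760) (nat_lit 6030265078) (nat_lit 836) (nat_lit 11450732217) (nat_lit 317) (nat_lit 5) (nat_lit 327) (nat_lit 5) (nat_lit 328) (nat_lit 5) (nat_lit 485) (nat_lit 447) (nat_lit 208)) (XT.lf (nat_lit 0) (nat_lit 14437167776) (nat_lit 836) (nat_lit 5306785349) (nat_lit 76) (nat_lit 3593283557) (nat_lit 317) (nat_lit 5) (nat_lit 328) (nat_lit 5) (nat_lit 318) (nat_lit 5) (nat_lit 486) (nat_lit 447) (nat_lit 207))))) (XT.nd (nat_lit 234) (nat_lit 836) (nat_lit 0) (XT.nd (nat_lit 78) (nat_lit 684) (nat_lit 0) (XT.lf (nat_lit 0) (nat_lit 7161047829) (nat_lit 760) (nat_lit 10226360783) (nat_lit 836) (nat_lit 6213987822) (nat_lit 307) (nat_lit 5) (nat_lit 317) (nat_lit 5) (nat_lit 318) (nat_lit 5) (nat_lit 487) (nat_lit 447) (nat_lit 206)) (XT.nd (nat_lit 78) (nat_lit 684) (nat_lit 0) (XT.lf (nat_lit 0) (nat_lit 19946351939) (nat_lit 760) (nat_lit 482281811) (nat_lit 836) (nat_lit 3441567156) (nat_lit 307) (nat_lit 5) (nat_lit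 317) (nat_lit 5) (nat_lit 318) (nat_lit 5) (nat_lit 488) (nat_lit 447) (nat_lit 205)) (XT.lf (nat_lit 0) (nat_lit 8894416715) (nat_lit 684) (nat_lit 14751852332) (nat_lit 760) (nat_lit 495801798) (nat_lit 298) (nat_lit 5) (nat_lit 307) (nat_lit 5) (nat_lit 308) (nat_lit 5) (nat_lit 489) (nat_lit 447) (nat_lit 204)))) (XT.nd (nat_lit 78) (nat_lit 760) (nat_lit 0) (XT.lf (nat_lit 0) (nat_lit 2502132908) (nat_lit 760) (nat_lit 2420112435) (nat_lit 76) (nat_lit 19496284933) (nat_lit 297) (nat_lit 5) (nat_lit 307) (nat_lit 5) (nat_lit 298) (nat_lit 5) (nat_lit 490) (nat_lit 447) (nat_lit 203)) (XT.nd (nat_lit 78) (nat_lit 0) (nat_lit 0) (XT.lf (nat_lit 0) (nat_lit 5653656014) (nat_lit 836) (nat_lit 13934186708) (nat_lit 76) (nat_lit 5110606286) (nat_lit 287) (nat_lit 5) (nat_lit 298) (nat_lit 5) (nat_lit 288) (nat_lit 5) (nat_lit 491) (nat_lit 447) (nat_lit 202)) (XT.lf (nat_lit 0) (nat_lit 8913725255) (nat_lit 836) (nat_lit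 775023990) (nat_lit 76) (nat_lit 15294307565) (nat_lit 287) (nat_lit 5) (nat_lit 298) (nat_lit 5) (nat_lit 288) (nat_lit 5) (nat_lit 492) (nat_lit 447) (nat_lit 201))))))))
noncomputable def xc233 : XT := (XT.nd (nat_lit 56862) (nat_lit 0) (nat_lit 7220) (XT.nd (nat_lit 56004) (nat_lit 0) (nat_lit 12844) (XT.nd (nat_lit 390) (nat_lit 1292) (nat_lit 0) (XT.nd (nat_lit 156) (nat_lit 684) (nat_lit 0) (XT.nd (nat_lit 78) (nat_lit 684) (nat_lit 0) (XT.lf (nat_lit 0) (nat_lit 12322014475) (nat_lit 760) (nat_lit 12463344955) (nat_lit 76) (nat_lit 486337954) (nat_lit 278) (nat_lit 5) (nat_lit 288) (nat_lit 5) (nat_lit 279) (nat_lit 5) (nat_lit 493) (nat_lit 447) (nat_lit 200)) (XT.lf (nat_lit 0) (nat_lit 1053744049) (nat_lit 684) (nat_lit 14817643032) (nat_lit 760) (nat_lit 9693266306) (nat_lit 269) (nat_lit 5) (nat_lit 278) (nat_lit 5) (nat_lit 279) (nat_lit 5) (nat_lit 494) (nat_lit 447) (nat_lit 199))) (XT.nd (nat_lit 78)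 (nat_lit 684) (nat_lit 0) (XT.lf (nat_lit 0) (nat_lit 15006370652) (nat_lit 684) (nat_lit 4565729751) (nat_lit 760) (nat_lit 6289761991) (nat_lit 269) (nat_lit 5) (nat_lit 278) (nat_lit 5) (nat_lit 279) (nat_lit 5) (nat_lit 495) (nat_lit 447) (nat_lit 198)) (XT.nd (nat_lit 78) (nat_lit 76) (nat_lit 0) (XT.lf (nat_lit 0) (nat_lit 3071328573) (nat_lit 608) (nat_lit 20330469295) (nat_lit 684) (nat_lit 2762119248) (nat_lit 261) (nat_lit 5) (nat_lit 269) (nat_lit 5) (nat_lit 270) (nat_lit 5) (nat_lit 496) (nat_lit 447) (nat_lit 197)) (XT.lf (nat_lit 0) (nat_lit 925472299) (nat_lit 684) (nat_lit 9086624900) (nat_lit 76) (nat_lit 16457800835) (nat_lit 260) (nat_lit 5) (nat_lit 269) (nat_lit 5) (nat_lit 261) (nat_lit 5) (nat_lit 497) (nat_lit 447) (nat_lit 196))))) (XT.nd (nat_lit 234) (nat_lit 0) (nat_lit 0) (XT.nd (nat_lit 78) (nat_lit 608) (nat_lit 0) (XT.lf (nat_lit 0) (nat_lit 4684458439) (nat_lit 760) (nat_lit 21538397111)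 (nat_lit 76) (nat_lit 558086194) (nat_lit 251) (nat_lit 5) (nat_lit 261) (nat_lit 5) (nat_lit 252) (nat_lit 5) (nat_lit 498) (nat_lit 447) (nat_lit 195)) (XT.nd (nat_lit 78) (nat_lit 608) (nat_lit 0) (XT.lf (nat_lit 0) (nat_lit 8643202624) (nat_lit 760) (nat_lit 7185944033) (nat_lit 76) (nat_lit 11266568967) (nat_lit 251) (nat_lit 5) (nat_lit 261) (nat_lit 5) (nat_lit 252) (nat_lit 5) (nat_lit 499) (nat_lit 447) (nat_lit 194)) (XT.lf (nat_lit 0) (nat_lit 7548919147) (nat_lit 608) (nat_lit 5178169245) (nat_lit 684) (nat_lit 14688778098) (nat_lit 243) (nat_lit 5) (nat_lit 251) (nat_lit 5) (nat_lit 252) (nat_lit 5) (nat_lit 500) (nat_lit 447) (nat_lit 193)))) (XT.nd (nat_lit 55224) (nat_lit 0) (nat_lit 12844) (XT.lf (nat_lit 0) (nat_lit 16975095216) (nat_lit 684) (nat_lit 5106481974) (nat_lit 76) (nat_lit 5659195144) (nat_lit 243) (nat_lit 5) (nat_lit 252) (nat_lit 5) (nat_lit 244) (nat_lit 5) (nat_lit 501) (nat_lit 447)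 (nat_lit 192)) (XT.nd (nat_lit 78) (nat_lit 0) (nat_lit 0) (XT.lf (nat_lit 0) (nat_lit 104017334) (nat_lit 0) (nat_lit 104017334) (nat_lit 1748) (nat_lit 7711181880) (nat_lit 412) (nat_lit 5) (nat_lit 412) (nat_lit 3) (nat_lit 435) (nat_lit 3) (nat_lit 448) (nat_lit 448) (nat_lit 244)) (XT.lf (nat_lit 0) (nat_lit 730505162) (nat_lit 1748) (nat_lit 8103518736) (nat_lit 1824) (nat_lit 7156496190) (nat_lit 412) (nat_lit 5) (nat_lit 435) (nat_lit 3) (nat_lit 436) (nat_lit 5) (nat_lit 449) (nat_lit 448) (nat_lit 243)))))) (XT.nd (nat_lit 390) (nat_lit 0) (nat_lit 228) (XT.nd (nat_lit 156) (nat_lit 0) (nat_lit 76) (XT.nd (nat_lit 78) (nat_lit 0) (nat_lit 76) (XT.lf (nat_lit 0) (nat_lit 1045726182) (nat_lit 1748) (nat_lit 431093878) (nat_lit 1824) (nat_lit 14668941237) (nat_lit 412) (nat_lit 5) (nat_lit 435) (nat_lit 3) (nat_lit 436) (nat_lit 5) (nat_lit 450) (nat_lit 448) (nat_lit 242)) (XT.lf (nat_lit 0) (nat_lit 1448609397)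 (nat_lit 1748) (nat_lit 8853288350) (nat_lit 1824) (nat_lit 6000584789) (nat_lit 413) (nat_lit 5) (nat_lit 436) (nat_lit 5) (nat_lit 437) (nat_lit 5) (nat_lit 451) (nat_lit 448) (nat_lit 241))) (XT.nd (nat_lit 78) (nat_lit 0) (nat_lit 76) (XT.lf (nat_lit 0) (nat_lit 1865625916) (nat_lit 1748) (nat_lit 982823973) (nat_lit 1824) (nat_lit 13613769114) (nat_lit 413) (nat_lit 5) (nat_lit 436) (nat_lit 5) (nat_lit 437) (nat_lit 5) (nat_lit 452) (nat_lit 448) (nat_lit 240)) (XT.nd (nat_lit 78) (nat_lit 0) (nat_lit 0) (XT.lf (nat_lit 0) (nat_lit 2362013220) (nat_lit 1748) (nat_lit 9520524704) (nat_lit 1824) (nat_lit 4741193937) (nat_lit 414) (nat_lit 5) (nat_lit 437) (nat_lit 5) (nat_lit 438) (nat_lit 5) (nat_lit 453) (nat_lit 448) (nat_lit 239)) (XT.lf (nat_lit 0) (nat_lit 2887466357) (nat_lit 1748) (nat_lit 1446697415) (nat_lit 1824) (nat_lit 12453930667) (nat_lit 414) (nat_lit 5) (nat_lit 437) (nat_lit 5) (nat_lit 438) (nat_lit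 5) (nat_lit 454) (nat_lit 448) (nat_lit 238))))) (XT.nd (nat_lit 234) (nat_lit 0) (nat_lit 76) (XT.nd (nat_lit 78) (nat_lit 0) (nat_lit 0) (XT.lf (nat_lit 0) (nat_lit 3483987796) (nat_lit 1748) (nat_lit 10102020018) (nat_lit 1824) (nat_lit 3368527453) (nat_lit 415) (nat_lit 5) (nat_lit 438) (nat_lit 5) (nat_lit 439) (nat_lit 5) (nat_lit 455) (nat_lit 448) (nat_lit 237)) (XT.nd (nat_lit 78) (nat_lit 0) (nat_lit 76) (XT.lf (nat_lit 0) (nat_lit 4124790238) (nat_lit 1748) (nat_lit 1819327806) (nat_lit 1824) (nat_lit 11179541993) (nat_lit 415) (nat_lit 5) (nat_lit 438) (nat_lit 5) (nat_lit 439) (nat_lit 5) (nat_lit 456) (nat_lit 448) (nat_lit 236)) (XT.lf (nat_lit 0) (nat_lit 4828310589) (nat_lit 1748) (nat_lit 10594369759) (nat_lit 1824) (nat_lit 1872491016) (nat_lit 416) (nat_lit 5) (nat_lit 439) (nat_lit 5) (nat_lit 440) (nat_lit 5) (nat_lit 457) (nat_lit 448) (nat_lit 235)))) (XT.nd (nat_lit 78) (nat_lit 0) (nat_lit 76)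 (XT.lf (nat_lit 0) (nat_lit 5591659484) (nat_lit 1748) (nat_lit 2097128271) (nat_lit 1824) (nat_lit 9780412056) (nat_lit 416) (nat_lit 5) (nat_lit 439) (nat_lit 5) (nat_lit 440) (nat_lit 5) (nat_lit 458) (nat_lit 448) (nat_lit 234)) (XT.nd (nat_lit 78) (nat_lit 0) (nat_lit 0) (XT.lf (nat_lit 0) (nat_lit 6409290590) (nat_lit 1748) (nat_lit 10993971977) (nat_lit 1824) (nat_lit 242667969) (nat_lit 417) (nat_lit 5) (nat_lit 440) (nat_lit 5) (nat_lit 441) (nat_lit 5) (nat_lit 459) (nat_lit 448) (nat_lit 233)) (XT.lf (nat_lit 0) (nat_lit 7302680841) (nat_lit 1748) (nat_lit 2276310644) (nat_lit 1824) (nat_lit 8246018237) (nat_lit 417) (nat_lit 5) (nat_lit 440) (nat_lit 5) (nat_lit 441) (nat_lit 5) (nat_lit 460) (nat_lit 448) (nat_lit 232))))))) (XT.nd (nat_lit 858) (nat_lit 4484) (nat_lit 0) (XT.nd (nat_lit 390) (nat_lit 1520) (nat_lit 0) (XT.nd (nat_lit 156) (nat_lit 0) (nat_lit 76) (XT.nd (nat_lit 78) (nat_lit 0) (nat_lit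 76) (XT.lf (nat_lit 76) (nat_lit 6699810233) (nat_lit 0) (nat_lit 1552060988) (nat_lit 1824) (nat_lit 9755042562) (nat_lit 418) (nat_lit 5) (nat_lit 417) (nat_lit 5) (nat_lit 441) (nat_lit 5) (nat_lit 461) (nat_lit 448) (nat_lit 231)) (XT.lf (nat_lit 0) (nat_lit 9273032213) (nat_lit 1748) (nat_lit 2352884547) (nat_lit 1824) (nat_lit 6565481329) (nat_lit 418) (nat_lit 5) (nat_lit 441) (nat_lit 5) (nat_lit 442) (nat_lit 5) (nat_lit 462) (nat_lit 448) (nat_lit 230))) (XT.nd (nat_lit 78) (nat_lit 0) (nat_lit 76) (XT.lf (nat_lit 76) (nat_lit 6856276275) (nat_lit 0) (nat_lit 3507770396) (nat_lit 1824) (nat_lit 8014538668) (nat_lit 419) (nat_lit 5) (nat_lit 418) (nat_lit 5) (nat_lit 442) (nat_lit 5) (nat_lit 463) (nat_lit 448) (nat_lit 229)) (XT.nd (nat_lit 78) (nat_lit 0) (nat_lit 0) (XT.lf (nat_lit 0) (nat_lit 11518489711) (nat_lit 1748) (nat_lit 2322656394) (nat_lit 1824) (nat_lit 4727539887) (nat_lit 419) (nat_lit 5) (nat_lit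 442) (nat_lit 5) (nat_lit 443) (nat_lit 5) (nat_lit 464) (nat_lit 448) (nat_lit 228)) (XT.lf (nat_lit 76) (nat_lit 7127434910) (nat_lit 0) (nat_lit 5632923247) (nat_lit 1824) (nat_lit 6000945561) (nat_lit 420) (nat_lit 5) (nat_lit 419) (nat_lit 5) (nat_lit 443) (nat_lit 5) (nat_lit 465) (nat_lit 448) (nat_lit 227))))) (XT.nd (nat_lit 234) (nat_lit 1748) (nat_lit 0) (XT.nd (nat_lit 78) (nat_lit 0) (nat_lit 0) (XT.lf (nat_lit 0) (nat_lit 14055455494) (nat_lit 1748) (nat_lit 2181228341) (nat_lit 1824) (nat_lit 2720523888) (nat_lit 420) (nat_lit 5) (nat_lit 443) (nat_lit 5) (nat_lit 444) (nat_lit 5) (nat_lit 466) (nat_lit 448) (nat_lit 226)) (XT.nd (nat_lit 78) (nat_lit 0) (nat_lit 76) (XT.lf (nat_lit 76) (nat_lit 7517947404) (nat_lit 0) (nat_lit 7939638330) (nat_lit 1824) (nat_lit 3697823175) (nat_lit 421) (nat_lit 5) (nat_lit 420) (nat_lit 5) (nat_lit 444) (nat_lit 5) (nat_lit 467) (nat_lit 448) (nat_lit 225)) (XT.lf (nat_lit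 0) (nat_lit 16900986402) (nat_lit 1748) (nat_lit 1923997212) (nat_lit 1824) (nat_lit 532327636) (nat_lit 421) (nat_lit 5) (nat_lit 444) (nat_lit 5) (nat_lit 445) (nat_lit 5) (nat_lit 468) (nat_lit 448) (nat_lit 224)))) (XT.nd (nat_lit 78) (nat_lit 1824) (nat_lit 0) (XT.lf (nat_lit 76) (nat_lit 8032687725) (nat_lit 0) (nat_lit 10440493215) (nat_lit 1824) (nat_lit 1088073832) (nat_lit 422) (nat_lit 5) (nat_lit 421) (nat_lit 5) (nat_lit 445) (nat_lit 5) (nat_lit 469) (nat_lit 448) (nat_lit 223)) (XT.nd (nat_lit 78) (nat_lit 0) (nat_lit 76) (XT.lf (nat_lit 0) (nat_lit 311733872) (nat_lit 1824) (nat_lit 1560372844) (nat_lit 1900) (nat_lit 17896967601) (nat_lit 397) (nat_lit 5) (nat_lit 421) (nat_lit 5) (nat_lit 422) (nat_lit 5) (nat_lit 470) (nat_lit 448) (nat_lit 222)) (XT.lf (nat_lit 0) (nat_lit 1821875512) (nat_lit 1824) (nat_lit 11314451798) (nat_lit 1900) (nat_lit 6842642517) (nat_lit 398) (nat_lit 5) (nat_lit 422) (nat_lit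 5) (nat_lit 423) (nat_lit 5) (nat_lit 471) (nat_lit 448) (nat_lit 221)))))) (XT.nd (nat_lit 390) (nat_lit 2584) (nat_lit 0) (XT.nd (nat_lit 156) (nat_lit 1976) (nat_lit 0) (XT.nd (nat_lit 78) (nat_lit 0) (nat_lit 76) (XT.lf (nat_lit 0) (nat_lit 3380553330) (nat_lit 1824) (nat_lit 1094120257) (nat_lit 1900) (nat_lit 15718024520) (nat_lit 398) (nat_lit 5) (nat_lit 422) (nat_lit 5) (nat_lit 423) (nat_lit 5) (nat_lit 472) (nat_lit 448) (nat_lit 220)) (XT.lf (nat_lit 0) (nat_lit 5055971305) (nat_lit 1824) (nat_lit 10987500772) (nat_lit 76) (nat_lit 4365519041) (nat_lit 399) (nat_lit 5) (nat_lit 423) (nat_lit 5) (nat_lit 400) (nat_lit 5) (nat_lit 473) (nat_lit 448) (nat_lit 219))) (XT.nd (nat_lit 78) (nat_lit 2052) (nat_lit 0) (XT.lf (nat_lit 0) (nat_lit 6797475940) (nat_lit 1824) (nat_lit 500752614) (nat_lit 76) (nat_lit 13330731337) (nat_lit 399) (nat_lit 5) (nat_lit 423) (nat_lit 5) (nat_lit 400) (nat_lit 5) (nat_lit 474)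 (nat_lit 448) (nat_lit 218)) (XT.nd (nat_lit 78) (nat_lit 912) (nat_lit 0) (XT.lf (nat_lit 0) (nat_lit 8647482551) (nat_lit 1216) (nat_lit 10535653787) (nat_lit 76) (nat_lit 1668719704) (nat_lit 384) (nat_lit 5) (nat_lit 400) (nat_lit 5) (nat_lit 385) (nat_lit 5) (nat_lit 475) (nat_lit 448) (nat_lit 217)) (XT.lf (nat_lit 0) (nat_lit 227933595) (nat_lit 912) (nat_lit 10355456596) (nat_lit 988) (nat_lit 10494843319) (nat_lit 372) (nat_lit 5) (nat_lit 384) (nat_lit 5) (nat_lit 385) (nat_lit 5) (nat_lit 476) (nat_lit 448) (nat_lit 216))))) (XT.nd (nat_lit 234) (nat_lit 1748) (nat_lit 0) (XT.nd (nat_lit 78) (nat_lit 836) (nat_lit 0) (XT.lf (nat_lit 0) (nat_lit 11345789513) (nat_lit 912) (nat_lit 1278691465) (nat_lit 988) (nat_lit 8683329632) (nat_lit 372) (nat_lit 5) (nat_lit 384) (nat_lit 5) (nat_lit 385) (nat_lit 5) (nat_lit 477) (nat_lit 448) (nat_lit 215)) (XT.nd (nat_lit 78) (nat_lit 0) (nat_lit 0) (XT.lf (nat_lit 0)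 (nat_lit 1102849466) (nat_lit 836) (nat_lit 13658364368) (nat_lit 912) (nat_lit 6779670370) (nat_lit 361) (nat_lit 5) (nat_lit 372) (nat_lit 5) (nat_lit 373) (nat_lit 5) (nat_lit 478) (nat_lit 448) (nat_lit 214)) (XT.lf (nat_lit 0) (nat_lit 12511670771) (nat_lit 836) (nat_lit 4500180991) (nat_lit 912) (nat_lit 4765345429) (nat_lit 361) (nat_lit 5) (nat_lit 372) (nat_lit 5) (nat_lit 373) (nat_lit 5) (nat_lit 479) (nat_lit 448) (nat_lit 213)))) (XT.nd (nat_lit 78) (nat_lit 912) (nat_lit 0) (XT.lf (nat_lit 0) (nat_lit 2123031344) (nat_lit 836) (nat_lit 17225676941) (nat_lit 912) (nat_lit 2668705340) (nat_lit 350) (nat_lit 5) (nat_lit 361) (nat_lit 5) (nat_lit 362) (nat_lit 5) (nat_lit 480) (nat_lit 448) (nat_lit 212)) (XT.nd (nat_lit 78) (nat_lit 912) (nat_lit 0) (XT.lf (nat_lit 0) (nat_lit 13830970820) (nat_lit 836) (nat_lit 7989157824) (nat_lit 912) (nat_lit 440550489) (nat_lit 350) (nat_lit 5) (nat_lit 361) (nat_lit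 5) (nat_lit 362) (nat_lit 5) (nat_lit 481) (nat_lit 448) (nat_lit 211)) (XT.lf (nat_lit 0) (nat_lit 1835124254) (nat_lit 912) (nat_lit 19225973992) (nat_lit 76) (nat_lit 1446935300) (nat_lit 338) (nat_lit 5) (nat_lit 350) (nat_lit 5) (nat_lit 339) (nat_lit 5) (nat_lit 482) (nat_lit 448) (nat_lit 210))))))))
noncomputable def xc234 : XT := (XT.nd (nat_lit 57018) (nat_lit 0) (nat_lit 11096) (XT.nd (nat_lit 858) (nat_lit 2736) (nat_lit 0) (XT.nd (nat_lit 390) (nat_lit 2280) (nat_lit 0) (XT.nd (nat_lit 156) (nat_lit 760) (nat_lit 0) (XT.nd (nat_lit 78) (nat_lit 836) (nat_lit 0) (XT.lf (nat_lit 0) (nat_lit 4256417123) (nat_lit 912) (nat_lit 7476895099) (nat_lit 76) (nat_lit 11024845716) (nat_lit 338) (nat_lit 5) (nat_lit 350) (nat_lit 5) (nat_lit 339) (nat_lit 5) (nat_lit 483) (nat_lit 448) (nat_lit 209)) (XT.lf (nat_lit 0) (nat_lit 4563267763) (nat_lit 836) (nat_lit 2188718746) (nat_lit 912) (nat_lit 16260782479) (nat_lit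 327) (nat_lit 5) (nat_lit 338) (nat_lit 5) (nat_lit 339) (nat_lit 5) (nat_lit 484) (nat_lit 448) (nat_lit 208))) (XT.nd (nat_lit 78) (nat_lit 760) (nat_lit 0) (XT.lf (nat_lit 0) (nat_lit 9393244916) (nat_lit 912) (nat_lit 6379011292) (nat_lit 76) (nat_lit 7498301654) (nat_lit 327) (nat_lit 5) (nat_lit 339) (nat_lit 5) (nat_lit 328) (nat_lit 5) (nat_lit 485) (nat_lit 448) (nat_lit 207)) (XT.nd (nat_lit 78) (nat_lit 0) (nat_lit 0) (XT.lf (nat_lit 0) (nat_lit 5993274143) (nat_lit 760) (nat_lit 6143807406) (nat_lit 836) (nat_lit 11395427040) (nat_lit 317) (nat_lit 5) (nat_lit 327) (nat_lit 5) (nat_lit 328) (nat_lit 5) (nat_lit 486) (nat_lit 448) (nat_lit 206)) (XT.lf (nat_lit 0) (nat_lit 14999152781) (nat_lit 836) (nat_lit 5127296607) (nat_lit 76) (nat_lit 3671982897) (nat_lit 317) (nat_lit 5) (nat_lit 328) (nat_lit 5) (nat_lit 318) (nat_lit 5) (nat_lit 487) (nat_lit 448) (nat_lit 205))))) (XT.nd (nat_lit 234) (nat_lit 836)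 (nat_lit 0) (XT.nd (nat_lit 78) (nat_lit 684) (nat_lit 0) (XT.lf (nat_lit 0) (nat_lit 7588014127) (nat_lit 760) (nat_lit 10416868891) (nat_lit 836) (nat_lit 6063064176) (nat_lit 307) (nat_lit 5) (nat_lit 317) (nat_lit 5) (nat_lit 318) (nat_lit 5) (nat_lit 488) (nat_lit 448) (nat_lit 204)) (XT.nd (nat_lit 78) (nat_lit 684) (nat_lit 0) (XT.lf (nat_lit 0) (nat_lit 20623460685) (nat_lit 760) (nat_lit 478183223) (nat_lit 836) (nat_lit 3240591242) (nat_lit 307) (nat_lit 5) (nat_lit 317) (nat_lit 5) (nat_lit 318) (nat_lit 5) (nat_lit 489) (nat_lit 448) (nat_lit 203)) (XT.lf (nat_lit 0) (nat_lit 9353902410) (nat_lit 684) (nat_lit 15026460255) (nat_lit 760) (nat_lit 239246795) (nat_lit 298) (nat_lit 5) (nat_lit 307) (nat_lit 5) (nat_lit 308) (nat_lit 5) (nat_lit 490) (nat_lit 448) (nat_lit 202)))) (XT.nd (nat_lit 78) (nat_lit 760) (nat_lit 0) (XT.lf (nat_lit 0) (nat_lit 2809995393) (nat_lit 760) (nat_lit 2188936198) (nat_lit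 76) (nat_lit 19902736542) (nat_lit 297) (nat_lit 5) (nat_lit 307) (nat_lit 5) (nat_lit 298) (nat_lit 5) (nat_lit 491) (nat_lit 448) (nat_lit 201)) (XT.nd (nat_lit 78) (nat_lit 0) (nat_lit 0) (XT.lf (nat_lit 0) (nat_lit 6021447381) (nat_lit 836) (nat_lit 13930115522) (nat_lit 76) (nat_lit 5235685866) (nat_lit 287) (nat_lit 5) (nat_lit 298) (nat_lit 5) (nat_lit 288) (nat_lit 5) (nat_lit 492) (nat_lit 448) (nat_lit 200)) (XT.lf (nat_lit 0) (nat_lit 9341723531) (nat_lit 836) (nat_lit 513313764) (nat_lit 76) (nat_lit 15622612789) (nat_lit 287) (nat_lit 5) (nat_lit 298) (nat_lit 5) (nat_lit 288) (nat_lit 5) (nat_lit 493) (nat_lit 448) (nat_lit 199)))))) (XT.nd (nat_lit 390) (nat_lit 684) (nat_lit 0) (XT.nd (nat_lit 156) (nat_lit 684) (nat_lit 0) (XT.nd (nat_lit 78) (nat_lit 684) (nat_lit 0) (XT.lf (nat_lit 0) (nat_lit 12815256791) (nat_lit 760) (nat_lit 12432407457) (nat_lit 76) (nat_lit 524459097) (nat_lit 278) (nat_lit 5)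 (nat_lit 288) (nat_lit 5) (nat_lit 279) (nat_lit 5) (nat_lit 494) (nat_lit 448) (nat_lit 198)) (XT.lf (nat_lit 0) (nat_lit 1353179878) (nat_lit 684) (nat_lit 15079405019) (nat_lit 760) (nat_lit 9638415619) (nat_lit 269) (nat_lit 5) (nat_lit 278) (nat_lit 5) (nat_lit 279) (nat_lit 5) (nat_lit 495) (nat_lit 448) (nat_lit 197))) (XT.nd (nat_lit 78) (nat_lit 684) (nat_lit 0) (XT.lf (nat_lit 0) (nat_lit 15579400955) (nat_lit 684) (nat_lit 4623131726) (nat_lit 760) (nat_lit 6171718002) (nat_lit 269) (nat_lit 5) (nat_lit 278) (nat_lit 5) (nat_lit 279) (nat_lit 5) (nat_lit 496) (nat_lit 448) (nat_lit 196)) (XT.nd (nat_lit 78) (nat_lit 76) (nat_lit 0) (XT.lf (nat_lit 0) (nat_lit 3408460944) (nat_lit 608) (nat_lit 20697682997) (nat_lit 684) (nat_lit 2576257516) (nat_lit 261) (nat_lit 5) (nat_lit 269) (nat_lit 5) (nat_lit 270) (nat_lit 5) (nat_lit 497) (nat_lit 448) (nat_lit 195)) (XT.lf (nat_lit 0) (nat_lit 1177258208) (nat_lit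 684) (nat_lit 8994892307) (nat_lit 76) (nat_lit 16822414784) (nat_lit 260) (nat_lit 5) (nat_lit 269) (nat_lit 5) (nat_lit 261) (nat_lit 5) (nat_lit 498) (nat_lit 448) (nat_lit 194))))) (XT.nd (nat_lit 55536) (nat_lit 0) (nat_lit 12236) (XT.nd (nat_lit 78) (nat_lit 0) (nat_lit 0) (XT.lf (nat_lit 0) (nat_lit 5008881355) (nat_lit 760) (nat_lit 21693093359) (nat_lit 76) (nat_lit 609907303) (nat_lit 251) (nat_lit 5) (nat_lit 261) (nat_lit 5) (nat_lit 252) (nat_lit 5) (nat_lit 499) (nat_lit 448) (nat_lit 193)) (XT.nd (nat_lit 55380) (nat_lit 0) (nat_lit 12236) (XT.lf (nat_lit 0) (nat_lit 9042276232) (nat_lit 760) (nat_lit 7059004390) (nat_lit 76) (nat_lit 11531762488) (nat_lit 251) (nat_lit 5) (nat_lit 261) (nat_lit 5) (nat_lit 252) (nat_lit 5) (nat_lit 500) (nat_lit 448) (nat_lit 192)) (XT.lf (nat_lit 0) (nat_lit 236839729) (nat_lit 0) (nat_lit 236839729) (nat_lit 1748) (nat_lit 7598600498) (nat_lit 412) (nat_lit 5) (nat_lit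 412) (nat_lit 3) (nat_lit 435) (nat_lit 3) (nat_lit 449) (nat_lit 449) (nat_lit 242)))) (XT.nd (nat_lit 78) (nat_lit 0) (nat_lit 0) (XT.lf (nat_lit 0) (nat_lit 1256164739) (nat_lit 1748) (nat_lit 7997134530) (nat_lit 1824) (nat_lit 7046631324) (nat_lit 412) (nat_lit 5) (nat_lit 435) (nat_lit 3) (nat_lit 436) (nat_lit 5) (nat_lit 450) (nat_lit 449) (nat_lit 241)) (XT.nd (nat_lit 78) (nat_lit 0) (nat_lit 76) (XT.lf (nat_lit 0) (nat_lit 1567669602) (nat_lit 1748) (nat_lit 176524990) (nat_lit 1824) (nat_lit 14714285954) (nat_lit 412) (nat_lit 5) (nat_lit 435) (nat_lit 3) (nat_lit 436) (nat_lit 5) (nat_lit 451) (nat_lit 449) (nat_lit 240)) (XT.lf (nat_lit 0) (nat_lit 1968981270) (nat_lit 1748) (nat_lit 8757362182) (nat_lit 1824) (nat_lit 5892188783) (nat_lit 413) (nat_lit 5) (nat_lit 436) (nat_lit 5) (nat_lit 437) (nat_lit 5) (nat_lit 452) (nat_lit 449) (nat_lit 239))))))) (XT.nd (nat_lit 858) (nat_lit 1216) (nat_lit 0) (XT.nd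 (nat_lit 390) (nat_lit 0) (nat_lit 228) (XT.nd (nat_lit 156) (nat_lit 0) (nat_lit 76) (XT.nd (nat_lit 78) (nat_lit 0) (nat_lit 76) (XT.lf (nat_lit 0) (nat_lit 2384702832) (nat_lit 1748) (nat_lit 734841301) (nat_lit 1824) (nat_lit 13662115376) (nat_lit 413) (nat_lit 5) (nat_lit 436) (nat_lit 5) (nat_lit 437) (nat_lit 5) (nat_lit 453) (nat_lit 449) (nat_lit 238)) (XT.lf (nat_lit 0) (nat_lit 2881946229) (nat_lit 1748) (nat_lit 9434059111) (nat_lit 1824) (nat_lit 4630582022) (nat_lit 414) (nat_lit 5) (nat_lit 437) (nat_lit 5) (nat_lit 438) (nat_lit 5) (nat_lit 454) (nat_lit 449) (nat_lit 237))) (XT.nd (nat_lit 78) (nat_lit 0) (nat_lit 76) (XT.lf (nat_lit 0) (nat_lit 3408639943) (nat_lit 1748) (nat_lit 1204184220) (nat_lit 1824) (nat_lit 12501601639) (nat_lit 414) (nat_lit 5) (nat_lit 437) (nat_lit 5) (nat_lit 438) (nat_lit 5) (nat_lit 455) (nat_lit 449) (nat_lit 236)) (XT.nd (nat_lit 78) (nat_lit 0) (nat_lit 0) (XT.lf (nat_lit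 0) (nat_lit 4008545472) (nat_lit 1748) (nat_lit 10023908074) (nat_lit 1824) (nat_lit 3251916004) (nat_lit 415) (nat_lit 5) (nat_lit 438) (nat_lit 5) (nat_lit 439) (nat_lit 5) (nat_lit 456) (nat_lit 449) (nat_lit 235)) (XT.lf (nat_lit 0) (nat_lit 4653244789) (nat_lit 1748) (nat_lit 1581055200) (nat_lit 1824) (nat_lit 11222758326) (nat_lit 415) (nat_lit 5) (nat_lit 438) (nat_lit 5) (nat_lit 439) (nat_lit 5) (nat_lit 457) (nat_lit 449) (nat_lit 234))))) (XT.nd (nat_lit 234) (nat_lit 0) (nat_lit 76) (XT.nd (nat_lit 78) (nat_lit 0) (nat_lit 0) (XT.lf (nat_lit 0) (nat_lit 5362784144) (nat_lit 1748) (nat_lit 10523393895) (nat_lit 1824) (nat_lit 1745985911) (nat_lit 416) (nat_lit 5) (nat_lit 439) (nat_lit 5) (nat_lit 440) (nat_lit 5) (nat_lit 458) (nat_lit 449) (nat_lit 233)) (XT.nd (nat_lit 78) (nat_lit 0) (nat_lit 76) (XT.lf (nat_lit 0) (nat_lit 6132813598) (nat_lit 1748) (nat_lit 1861753916) (nat_lit 1824) (nat_lit 9815280173)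 (nat_lit 416) (nat_lit 5) (nat_lit 439) (nat_lit 5) (nat_lit 440) (nat_lit 5) (nat_lit 459) (nat_lit 449) (nat_lit 232)) (XT.lf (nat_lit 0) (nat_lit 6959212235) (nat_lit 1748) (nat_lit 10928802640) (nat_lit 1824) (nat_lit 102252790) (nat_lit 417) (nat_lit 5) (nat_lit 440) (nat_lit 5) (nat_lit 441) (nat_lit 5) (nat_lit 460) (nat_lit 449) (nat_lit 231)))) (XT.nd (nat_lit 78) (nat_lit 0) (nat_lit 0) (XT.lf (nat_lit 0) (nat_lit 7862200961) (nat_lit 1748) (nat_lit 2042377272) (nat_lit 1824) (nat_lit 8268518466) (nat_lit 417) (nat_lit 5) (nat_lit 440) (nat_lit 5) (nat_lit 441) (nat_lit 5) (nat_lit 461) (nat_lit 449) (nat_lit 230)) (XT.nd (nat_lit 78) (nat_lit 0) (nat_lit 76) (XT.lf (nat_lit 76) (nat_lit 7111427473) (nat_lit 0) (nat_lit 1712642989) (nat_lit 1824) (nat_lit 9534697294) (nat_lit 418) (nat_lit 5) (nat_lit 417) (nat_lit 5) (nat_lit 441) (nat_lit 5) (nat_lit 462) (nat_lit 449) (nat_lit 229)) (XT.lf (nat_lit 0) (nat_lit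 9856846536) (nat_lit 1748) (nat_lit 2118818314) (nat_lit 1824) (nat_lit 6571455828) (nat_lit 418) (nat_lit 5) (nat_lit 441) (nat_lit 5) (nat_lit 442) (nat_lit 5) (nat_lit 463) (nat_lit 449) (nat_lit 228)))))) (XT.nd (nat_lit 390) (nat_lit 1596) (nat_lit 0) (XT.nd (nat_lit 156) (nat_lit 0) (nat_lit 76) (XT.nd (nat_lit 78) (nat_lit 0) (nat_lit 76) (XT.lf (nat_lit 76) (nat_lit 7272676225) (nat_lit 0) (nat_lit 3691007436) (nat_lit 1824) (nat_lit 7774490675) (nat_lit 419) (nat_lit 5) (nat_lit 418) (nat_lit 5) (nat_lit 442) (nat_lit 5) (nat_lit 464) (nat_lit 449) (nat_lit 227)) (XT.lf (nat_lit 0) (nat_lit 12132802501) (nat_lit 1748) (nat_lit 2086765076) (nat_lit 1824) (nat_lit 4712680345) (nat_lit 419) (nat_lit 5) (nat_lit 442) (nat_lit 5) (nat_lit 443) (nat_lit 5) (nat_lit 465) (nat_lit 449) (nat_lit 226))) (XT.nd (nat_lit 78) (nat_lit 0) (nat_lit 76) (XT.lf (nat_lit 76) (nat_lit 7550470525) (nat_lit 0) (nat_lit 5843330605)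 (nat_lit 1824) (nat_lit 5735033624) (nat_lit 420) (nat_lit 5) (nat_lit 419) (nat_lit 5) (nat_lit 443) (nat_lit 5) (nat_lit 466) (nat_lit 449) (nat_lit 225)) (XT.nd (nat_lit 78) (nat_lit 0) (nat_lit 0) (XT.lf (nat_lit 0) (nat_lit 14706761818) (nat_lit 1748) (nat_lit 1941699372) (nat_lit 1824) (nat_lit 2680358976) (nat_lit 420) (nat_lit 5) (nat_lit 443) (nat_lit 5) (nat_lit 444) (nat_lit 5) (nat_lit 467) (nat_lit 449) (nat_lit 224)) (XT.lf (nat_lit 76) (nat_lit 7949597036) (nat_lit 0) (nat_lit 8181905184) (nat_lit 1824) (nat_lit 3399594310) (nat_lit 421) (nat_lit 5) (nat_lit 420) (nat_lit 5) (nat_lit 444) (nat_lit 5) (nat_lit 468) (nat_lit 449) (nat_lit 223))))) (XT.nd (nat_lit 234) (nat_lit 0) (nat_lit 76) (XT.nd (nat_lit 78) (nat_lit 1824) (nat_lit 0) (XT.lf (nat_lit 0) (nat_lit 17596087308) (nat_lit 1748) (nat_lit 1678895577) (nat_lit 1824) (nat_lit 462210159) (nat_lit 421) (nat_lit 5) (nat_lit 444) (nat_lit 5) (nat_lit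 445) (nat_lit 5) (nat_lit 469) (nat_lit 449) (nat_lit 222)) (XT.nd (nat_lit 78) (nat_lit 1824) (nat_lit 0) (XT.lf (nat_lit 76) (nat_lit 8475057390) (nat_lit 0) (nat_lit 10719495842) (nat_lit 1824) (nat_lit 750768064) (nat_lit 422) (nat_lit 5) (nat_lit 421) (nat_lit 5) (nat_lit 445) (nat_lit 5) (nat_lit 470) (nat_lit 449) (nat_lit 221)) (XT.lf (nat_lit 0) (nat_lit 665378366) (nat_lit 1824) (nat_lit 1310655615) (nat_lit 1900) (nat_lit 18181357903) (nat_lit 397) (nat_lit 5) (nat_lit 421) (nat_lit 5) (nat_lit 422) (nat_lit 5) (nat_lit 471) (nat_lit 449) (nat_lit 220)))) (XT.nd (nat_lit 78) (nat_lit 0) (nat_lit 0) (XT.lf (nat_lit 0) (nat_lit 2200311630) (nat_lit 1824) (nat_lit 11254291484) (nat_lit 1900) (nat_lit 6916992683) (nat_lit 398) (nat_lit 5) (nat_lit 422) (nat_lit 5) (nat_lit 423) (nat_lit 5) (nat_lit 472) (nat_lit 449) (nat_lit 219)) (XT.nd (nat_lit 78) (nat_lit 0) (nat_lit 76) (XT.lf (nat_lit 0) (nat_lit 3783457149)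 (nat_lit 1824) (nat_lit 835169966) (nat_lit 1900) (nat_lit 15971107869) (nat_lit 398) (nat_lit 5) (nat_lit 422) (nat_lit 5) (nat_lit 423) (nat_lit 5) (nat_lit 473) (nat_lit 449) (nat_lit 218)) (XT.lf (nat_lit 0) (nat_lit 5487285811) (nat_lit 1824) (nat_lit 10921211370) (nat_lit 76) (nat_lit 4401960809) (nat_lit 399) (nat_lit 5) (nat_lit 423) (nat_lit 5) (nat_lit 400) (nat_lit 5) (nat_lit 474) (nat_lit 449) (nat_lit 217))))))))
noncomputable def xc235 : XT := (XT.nd (nat_lit 1716) (nat_lit 1368) (nat_lit 0) (XT.nd (nat_lit 858) (nat_lit 4408) (nat_lit 0) (XT.nd (nat_lit 390) (nat_lit 2584) (nat_lit 0) (XT.nd (nat_lit 156) (nat_lit 1748) (nat_lit 0) (XT.nd (nat_lit 78) (nat_lit 1140) (nat_lit 0) (XT.lf (nat_lit 0) (nat_lit 7257146125) (nat_lit 1824) (nat_lit 230336865) (nat_lit 76) (nat_lit 13547474775) (nat_lit 399) (nat_lit 5) (nat_lit 423) (nat_lit 5) (nat_lit 400) (nat_lit 5) (nat_lit 475) (nat_lit 449) (nat_lit 216))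 (XT.lf (nat_lit 0) (nat_lit 9139350592) (nat_lit 1216) (nat_lit 10461028970) (nat_lit 76) (nat_lit 1662030419) (nat_lit 384) (nat_lit 5) (nat_lit 400) (nat_lit 5) (nat_lit 385) (nat_lit 5) (nat_lit 476) (nat_lit 449) (nat_lit 215))) (XT.nd (nat_lit 78) (nat_lit 836) (nat_lit 0) (XT.lf (nat_lit 0) (nat_lit 515952936) (nat_lit 912) (nat_lit 10593610561) (nat_lit 988) (nat_lit 10383841814) (nat_lit 372) (nat_lit 5) (nat_lit 384) (nat_lit 5) (nat_lit 385) (nat_lit 5) (nat_lit 477) (nat_lit 449) (nat_lit 214)) (XT.nd (nat_lit 78) (nat_lit 836) (nat_lit 0) (XT.lf (nat_lit 0) (nat_lit 11850607920) (nat_lit 912) (nat_lit 1334701405) (nat_lit 988) (nat_lit 8542389979) (nat_lit 372) (nat_lit 5) (nat_lit 384) (nat_lit 5) (nat_lit 385) (nat_lit 5) (nat_lit 478) (nat_lit 449) (nat_lit 213)) (XT.lf (nat_lit 0) (nat_lit 1407403361) (nat_lit 836) (nat_lit 13952968040) (nat_lit 912) (nat_lit 6605153052) (nat_lit 361) (nat_lit 5) (nat_lit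 372) (nat_lit 5) (nat_lit 373) (nat_lit 5) (nat_lit 479) (nat_lit 449) (nat_lit 212))))) (XT.nd (nat_lit 234) (nat_lit 1748) (nat_lit 0) (XT.nd (nat_lit 78) (nat_lit 836) (nat_lit 0) (XT.lf (nat_lit 0) (nat_lit 13038861938) (nat_lit 836) (nat_lit 4611200674) (nat_lit 912) (nat_lit 4556622215) (nat_lit 361) (nat_lit 5) (nat_lit 372) (nat_lit 5) (nat_lit 373) (nat_lit 5) (nat_lit 480) (nat_lit 449) (nat_lit 211)) (XT.nd (nat_lit 78) (nat_lit 0) (nat_lit 0) (XT.lf (nat_lit 0) (nat_lit 2446779649) (nat_lit 836) (nat_lit 17582726525) (nat_lit 912) (nat_lit 2422284317) (nat_lit 350) (nat_lit 5) (nat_lit 361) (nat_lit 5) (nat_lit 362) (nat_lit 5) (nat_lit 481) (nat_lit 449) (nat_lit 210)) (XT.lf (nat_lit 0) (nat_lit 14383362469) (nat_lit 836) (nat_lit 8161231220) (nat_lit 912) (nat_lit 155444705) (nat_lit 350) (nat_lit 5) (nat_lit 361) (nat_lit 5) (nat_lit 362) (nat_lit 5) (nat_lit 482) (nat_lit 449) (nat_lit 209)))) (XT.nd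 (nat_lit 78) (nat_lit 836) (nat_lit 0) (XT.lf (nat_lit 0) (nat_lit 2157951546) (nat_lit 912) (nat_lit 19326748546) (nat_lit 76) (nat_lit 1467682171) (nat_lit 338) (nat_lit 5) (nat_lit 350) (nat_lit 5) (nat_lit 339) (nat_lit 5) (nat_lit 483) (nat_lit 449) (nat_lit 208)) (XT.nd (nat_lit 78) (nat_lit 836) (nat_lit 0) (XT.lf (nat_lit 0) (nat_lit 4622059982) (nat_lit 912) (nat_lit 7348251702) (nat_lit 76) (nat_lit 11237311420) (nat_lit 338) (nat_lit 5) (nat_lit 350) (nat_lit 5) (nat_lit 339) (nat_lit 5) (nat_lit 484) (nat_lit 449) (nat_lit 207)) (XT.lf (nat_lit 0) (nat_lit 4930884277) (nat_lit 836) (nat_lit 2232950449) (nat_lit 912) (nat_lit 16303567488) (nat_lit 327) (nat_lit 5) (nat_lit 338) (nat_lit 5) (nat_lit 339) (nat_lit 5) (nat_lit 485) (nat_lit 449) (nat_lit 206)))))) (XT.nd (nat_lit 390) (nat_lit 2888) (nat_lit 0) (XT.nd (nat_lit 156) (nat_lit 760) (nat_lit 0) (XT.nd (nat_lit 78) (nat_lit 760) (nat_lit 0) (XT.lf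 (nat_lit 0) (nat_lit 9852487773) (nat_lit 912) (nat_lit 6230144183) (nat_lit 76) (nat_lit 7647825207) (nat_lit 327) (nat_lit 5) (nat_lit 339) (nat_lit 5) (nat_lit 328) (nat_lit 5) (nat_lit 486) (nat_lit 449) (nat_lit 205)) (XT.lf (nat_lit 0) (nat_lit 6387768229) (nat_lit 760) (nat_lit 6259894843) (nat_lit 836) (nat_lit 11350056245) (nat_lit 317) (nat_lit 5) (nat_lit 327) (nat_lit 5) (nat_lit 328) (nat_lit 5) (nat_lit 487) (nat_lit 449) (nat_lit 204))) (XT.nd (nat_lit 78) (nat_lit 760) (nat_lit 0) (XT.lf (nat_lit 0) (nat_lit 15561767179) (nat_lit 836) (nat_lit 4955309235) (nat_lit 76) (nat_lit 3751990864) (nat_lit 317) (nat_lit 5) (nat_lit 328) (nat_lit 5) (nat_lit 318) (nat_lit 5) (nat_lit 488) (nat_lit 449) (nat_lit 203)) (XT.nd (nat_lit 78) (nat_lit 0) (nat_lit 0) (XT.lf (nat_lit 0) (nat_lit 8012501573) (nat_lit 760) (nat_lit 10611731539) (nat_lit 836) (nat_lit 5919808541) (nat_lit 307) (nat_lit 5) (nat_lit 317) (nat_lit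 5) (nat_lit 318) (nat_lit 5) (nat_lit 489) (nat_lit 449) (nat_lit 202)) (XT.lf (nat_lit 0) (nat_lit 21303309470) (nat_lit 760) (nat_lit 474536369) (nat_lit 836) (nat_lit 3046072754) (nat_lit 307) (nat_lit 5) (nat_lit 317) (nat_lit 5) (nat_lit 318) (nat_lit 5) (nat_lit 490) (nat_lit 449) (nat_lit 201))))) (XT.nd (nat_lit 234) (nat_lit 1368) (nat_lit 0) (XT.nd (nat_lit 78) (nat_lit 760) (nat_lit 0) (XT.lf (nat_lit 0) (nat_lit 11933324) (nat_lit 760) (nat_lit 15295340222) (nat_lit 76) (nat_lit 9799629647) (nat_lit 297) (nat_lit 5) (nat_lit 307) (nat_lit 5) (nat_lit 298) (nat_lit 5) (nat_lit 491) (nat_lit 449) (nat_lit 200)) (XT.nd (nat_lit 78) (nat_lit 760) (nat_lit 0) (XT.lf (nat_lit 0) (nat_lit 3114003669) (nat_lit 760) (nat_lit 1963992810) (nat_lit 76) (nat_lit 20316675463) (nat_lit 297) (nat_lit 5) (nat_lit 307) (nat_lit 5) (nat_lit 298) (nat_lit 5) (nat_lit 492) (nat_lit 449) (nat_lit 199)) (XT.lf (nat_lit 0) (nat_lit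 6386703555) (nat_lit 836) (nat_lit 13936942631) (nat_lit 76) (nat_lit 5362379067) (nat_lit 287) (nat_lit 5) (nat_lit 298) (nat_lit 5) (nat_lit 288) (nat_lit 5) (nat_lit 493) (nat_lit 449) (nat_lit 198)))) (XT.nd (nat_lit 78) (nat_lit 1368) (nat_lit 0) (XT.lf (nat_lit 0) (nat_lit 9768584695) (nat_lit 836) (nat_lit 257133763) (nat_lit 76) (nat_lit 15956613558) (nat_lit 287) (nat_lit 5) (nat_lit 298) (nat_lit 5) (nat_lit 288) (nat_lit 5) (nat_lit 494) (nat_lit 449) (nat_lit 197)) (XT.nd (nat_lit 78) (nat_lit 684) (nat_lit 0) (XT.lf (nat_lit 0) (nat_lit 13308780330) (nat_lit 760) (nat_lit 12411731886) (nat_lit 76) (nat_lit 562240074) (nat_lit 278) (nat_lit 5) (nat_lit 288) (nat_lit 5) (nat_lit 279) (nat_lit 5) (nat_lit 495) (nat_lit 449) (nat_lit 196)) (XT.lf (nat_lit 0) (nat_lit 1647795329) (nat_lit 684) (nat_lit 15347745453) (nat_lit 760) (nat_lit 9592125864) (nat_lit 269) (nat_lit 5) (nat_lit 278) (nat_lit 5) (nat_lit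 279) (nat_lit 5) (nat_lit 496) (nat_lit 449) (nat_lit 195))))))) (XT.nd (nat_lit 56238) (nat_lit 0) (nat_lit 12464) (XT.nd (nat_lit 55770) (nat_lit 0) (nat_lit 12236) (XT.nd (nat_lit 156) (nat_lit 760) (nat_lit 0) (XT.nd (nat_lit 78) (nat_lit 608) (nat_lit 0) (XT.lf (nat_lit 0) (nat_lit 16153294713) (nat_lit 684) (nat_lit 4682998608) (nat_lit 760) (nat_lit 6060781708) (nat_lit 269) (nat_lit 5) (nat_lit 278) (nat_lit 5) (nat_lit 279) (nat_lit 5) (nat_lit 497) (nat_lit 449) (nat_lit 194)) (XT.lf (nat_lit 0) (nat_lit 3741629971) (nat_lit 608) (nat_lit 21073770756) (nat_lit 684) (nat_lit 2396040916) (nat_lit 261) (nat_lit 5) (nat_lit 269) (nat_lit 5) (nat_lit 270) (nat_lit 5) (nat_lit 498) (nat_lit 449) (nat_lit 193))) (XT.nd (nat_lit 78) (nat_lit 684) (nat_lit 0) (XT.lf (nat_lit 0) (nat_lit 1425021427) (nat_lit 684) (nat_lit 8911944046) (nat_lit 76) (nat_lit 17192944137) (nat_lit 260) (nat_lit 5) (nat_lit 269) (nat_lit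 5) (nat_lit 261) (nat_lit 5) (nat_lit 499) (nat_lit 449) (nat_lit 192)) (XT.nd (nat_lit 55458) (nat_lit 0) (nat_lit 12236) (XT.lf (nat_lit 0) (nat_lit 5330833057) (nat_lit 760) (nat_lit 21861603732) (nat_lit 76) (nat_lit 661185981) (nat_lit 251) (nat_lit 5) (nat_lit 261) (nat_lit 5) (nat_lit 252) (nat_lit 5) (nat_lit 500) (nat_lit 449) (nat_lit 191)) (XT.lf (nat_lit 0) (nat_lit 367241698) (nat_lit 0) (nat_lit 367241698) (nat_lit 1748) (nat_lit 7494127852) (nat_lit 412) (nat_lit 5) (nat_lit 412) (nat_lit 3) (nat_lit 435) (nat_lit 3) (nat_lit 450) (nat_lit 450) (nat_lit 240))))) (XT.nd (nat_lit 234) (nat_lit 0) (nat_lit 76) (XT.nd (nat_lit 78) (nat_lit 0) (nat_lit 0) (XT.lf (nat_lit 0) (nat_lit 1772492835) (nat_lit 1748) (nat_lit 7899047059) (nat_lit 1824) (nat_lit 6944393257) (nat_lit 412) (nat_lit 5) (nat_lit 435) (nat_lit 3) (nat_lit 436) (nat_lit 5) (nat_lit 451) (nat_lit 450) (nat_lit 239)) (XT.nd (nat_lit 78) (nat_lit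 0) (nat_lit 76) (XT.lf (nat_lit 76) (nat_lit 73884261) (nat_lit 0) (nat_lit 2007191772) (nat_lit 1824) (nat_lit 14696764477) (nat_lit 413) (nat_lit 5) (nat_lit 412) (nat_lit 5) (nat_lit 436) (nat_lit 5) (nat_lit 452) (nat_lit 450) (nat_lit 238)) (XT.lf (nat_lit 0) (nat_lit 2480678932) (nat_lit 1748) (nat_lit 8670118100) (nat_lit 1824) (nat_lit 5790494205) (nat_lit 413) (nat_lit 5) (nat_lit 436) (nat_lit 5) (nat_lit 437) (nat_lit 5) (nat_lit 453) (nat_lit 450) (nat_lit 237)))) (XT.nd (nat_lit 78) (nat_lit 0) (nat_lit 76) (XT.lf (nat_lit 0) (nat_lit 2895453787) (nat_lit 1748) (nat_lit 492291729) (nat_lit 1824) (nat_lit 13720124005) (nat_lit 413) (nat_lit 5) (nat_lit 436) (nat_lit 5) (nat_lit 437) (nat_lit 5) (nat_lit 454) (nat_lit 450) (nat_lit 236)) (XT.nd (nat_lit 78) (nat_lit 0) (nat_lit 0) (XT.lf (nat_lit 0) (nat_lit 3393922662) (nat_lit 1748) (nat_lit 9356615643) (nat_lit 1824) (nat_lit 4525735191) (nat_lit 414) (nat_lit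 5) (nat_lit 437) (nat_lit 5) (nat_lit 438) (nat_lit 5) (nat_lit 455) (nat_lit 450) (nat_lit 235)) (XT.lf (nat_lit 0) (nat_lit 3922241672) (nat_lit 1748) (nat_lit 967361384) (nat_lit 1824) (nat_lit 12558046936) (nat_lit 414) (nat_lit 5) (nat_lit 437) (nat_lit 5) (nat_lit 438) (nat_lit 5) (nat_lit 456) (nat_lit 450) (nat_lit 234)))))) (XT.nd (nat_lit 390) (nat_lit 0) (nat_lit 152) (XT.nd (nat_lit 156) (nat_lit 0) (nat_lit 76) (XT.nd (nat_lit 78) (nat_lit 0) (nat_lit 0) (XT.lf (nat_lit 0) (nat_lit 4525930838) (nat_lit 1748) (nat_lit 9955112547) (nat_lit 1824) (nat_lit 3140116572) (nat_lit 415) (nat_lit 5) (nat_lit 438) (nat_lit 5) (nat_lit 439) (nat_lit 5) (nat_lit 457) (nat_lit 450) (nat_lit 233)) (XT.lf (nat_lit 0) (nat_lit 5174951309) (nat_lit 1748) (nat_lit 1348682492) (nat_lit 1824) (nat_lit 11273843147) (nat_lit 415) (nat_lit 5) (nat_lit 438) (nat_lit 5) (nat_lit 439) (nat_lit 5) (nat_lit 458) (nat_lit 450) (nat_lit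 232))) (XT.nd (nat_lit 78) (nat_lit 0) (nat_lit 0) (XT.lf (nat_lit 0) (nat_lit 5890942694) (nat_lit 1748) (nat_lit 10461982440) (nat_lit 1824) (nat_lit 1623317273) (nat_lit 416) (nat_lit 5) (nat_lit 439) (nat_lit 5) (nat_lit 440) (nat_lit 5) (nat_lit 459) (nat_lit 450) (nat_lit 231)) (XT.nd (nat_lit 78) (nat_lit 0) (nat_lit 0) (XT.lf (nat_lit 0) (nat_lit 6668119740) (nat_lit 1748) (nat_lit 1632440628) (nat_lit 1824) (nat_lit 9857087388) (nat_lit 416) (nat_lit 5) (nat_lit 439) (nat_lit 5) (nat_lit 440) (nat_lit 5) (nat_lit 460) (nat_lit 450) (nat_lit 230)) (XT.lf (nat_lit 76) (nat_lit 7468188979) (nat_lit 0) (nat_lit 35799250) (nat_lit 1824) (nat_lit 10837831889) (nat_lit 417) (nat_lit 5) (nat_lit 416) (nat_lit 5) (nat_lit 440) (nat_lit 5) (nat_lit 461) (nat_lit 450) (nat_lit 229))))) (XT.nd (nat_lit 234) (nat_lit 0) (nat_lit 76) (XT.nd (nat_lit 78) (nat_lit 0) (nat_lit 0) (XT.lf (nat_lit 0) (nat_lit 8416856076) (nat_lit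 1748) (nat_lit 1814616988) (nat_lit 1824) (nat_lit 8296999048) (nat_lit 417) (nat_lit 5) (nat_lit 440) (nat_lit 5) (nat_lit 441) (nat_lit 5) (nat_lit 462) (nat_lit 450) (nat_lit 228)) (XT.nd (nat_lit 78) (nat_lit 0) (nat_lit 76) (XT.lf (nat_lit 76) (nat_lit 7520496695) (nat_lit 0) (nat_lit 1871406404) (nat_lit 1824) (nat_lit 9326077400) (nat_lit 418) (nat_lit 5) (nat_lit 417) (nat_lit 5) (nat_lit 441) (nat_lit 5) (nat_lit 463) (nat_lit 450) (nat_lit 227)) (XT.lf (nat_lit 0) (nat_lit 10436868586) (nat_lit 1748) (nat_lit 1890987141) (nat_lit 1824) (nat_lit 6582416732) (nat_lit 418) (nat_lit 5) (nat_lit 441) (nat_lit 5) (nat_lit 442) (nat_lit 5) (nat_lit 464) (nat_lit 450) (nat_lit 226)))) (XT.nd (nat_lit 78) (nat_lit 0) (nat_lit 76) (XT.lf (nat_lit 76) (nat_lit 7686559607) (nat_lit 0) (nat_lit 3873518120) (nat_lit 1824) (nat_lit 7545187364) (nat_lit 419) (nat_lit 5) (nat_lit 418) (nat_lit 5) (nat_lit 442) (nat_lit 5) (nat_lit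 465) (nat_lit 450) (nat_lit 225)) (XT.nd (nat_lit 78) (nat_lit 0) (nat_lit 0) (XT.lf (nat_lit 0) (nat_lit 12744492573) (nat_lit 1748) (nat_lit 1857119711) (nat_lit 1824) (nat_lit 4701772149) (nat_lit 419) (nat_lit 5) (nat_lit 442) (nat_lit 5) (nat_lit 443) (nat_lit 5) (nat_lit 466) (nat_lit 450) (nat_lit 224)) (XT.lf (nat_lit 76) (nat_lit 7971075203) (nat_lit 0) (nat_lit 6054150401) (nat_lit 1824) (nat_lit 5478789613) (nat_lit 420) (nat_lit 5) (nat_lit 419) (nat_lit 5) (nat_lit 443) (nat_lit 5) (nat_lit 467) (nat_lit 450) (nat_lit 223))))))))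
noncomputable def xc236 : XT := (XT.nd (nat_lit 1716) (nat_lit 4332) (nat_lit 0) (XT.nd (nat_lit 858) (nat_lit 4180) (nat_lit 0) (XT.nd (nat_lit 390) (nat_lit 1900) (nat_lit 0) (XT.nd (nat_lit 156) (nat_lit 1748) (nat_lit 0) (XT.nd (nat_lit 78) (nat_lit 0) (nat_lit 0) (XT.lf (nat_lit 0) (nat_lit 15356719059) (nat_lit 1748) (nat_lit 1708375021) (nat_lit 1824) (nat_lit 2643063242) (nat_lit 420) (nat_lit 5) (nat_lit 443) (nat_lit 5) (nat_lit 444) (nat_lit 5) (nat_lit 468) (nat_lit 450) (nat_lit 222)) (XT.lf (nat_lit 76) (nat_lit 8378956800) (nat_lit 0) (nat_lit 8425775974) (nat_lit 1824) (nat_lit 3109853277) (nat_lit 421) (nat_lit 5) (nat_lit 420) (nat_lit 5) (nat_lit 444) (nat_lit 5) (nat_lit 469) (nat_lit 450) (nat_lit 221))) (XT.nd (nat_lit 78) (nat_lit 1824) (nat_lit 0) (XT.lf (nat_lit 0) (nat_lit 18291224335) (nat_lit 1748) (nat_lit 1439903728) (nat_lit 1824) (nat_lit 393826499) (nat_lit 421) (nat_lit 5) (nat_lit 444)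 (nat_lit 5) (nat_lit 445) (nat_lit 5) (nat_lit 470) (nat_lit 450) (nat_lit 220)) (XT.nd (nat_lit 78) (nat_lit 1824) (nat_lit 0) (XT.lf (nat_lit 76) (nat_lit 8915335077) (nat_lit 0) (nat_lit 11001352851) (nat_lit 1824) (nat_lit 420659199) (nat_lit 422) (nat_lit 5) (nat_lit 421) (nat_lit 5) (nat_lit 445) (nat_lit 5) (nat_lit 471) (nat_lit 450) (nat_lit 219)) (XT.lf (nat_lit 0) (nat_lit 1012605404) (nat_lit 1824) (nat_lit 1066852689) (nat_lit 1900) (nat_lit 18474292010) (nat_lit 397) (nat_lit 5) (nat_lit 421) (nat_lit 5) (nat_lit 422) (nat_lit 5) (nat_lit 472) (nat_lit 450) (nat_lit 218))))) (XT.nd (nat_lit 234) (nat_lit 1976) (nat_lit 0) (XT.nd (nat_lit 78) (nat_lit 0) (nat_lit 0) (XT.lf (nat_lit 0) (nat_lit 2573036247) (nat_lit 1824) (nat_lit 11204051141) (nat_lit 1900) (nat_lit 6995256908) (nat_lit 398) (nat_lit 5) (nat_lit 422) (nat_lit 5) (nat_lit 423) (nat_lit 5) (nat_lit 473) (nat_lit 450) (nat_lit 217)) (XT.nd (nat_lit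 78) (nat_lit 0) (nat_lit 76) (XT.lf (nat_lit 0) (nat_lit 4181399218) (nat_lit 1824) (nat_lit 581945745) (nat_lit 1900) (nat_lit 16231632351) (nat_lit 398) (nat_lit 5) (nat_lit 422) (nat_lit 5) (nat_lit 423) (nat_lit 5) (nat_lit 474) (nat_lit 450) (nat_lit 216)) (XT.lf (nat_lit 0) (nat_lit 5914404729) (nat_lit 1824) (nat_lit 10864703439) (nat_lit 76) (nat_lit 4441106704) (nat_lit 399) (nat_lit 5) (nat_lit 423) (nat_lit 5) (nat_lit 400) (nat_lit 5) (nat_lit 475) (nat_lit 450) (nat_lit 215)))) (XT.nd (nat_lit 78) (nat_lit 912) (nat_lit 0) (XT.lf (nat_lit 0) (nat_lit 35057515) (nat_lit 1140) (nat_lit 7678609348) (nat_lit 1216) (nat_lit 13735659743) (nat_lit 384) (nat_lit 5) (nat_lit 399) (nat_lit 5) (nat_lit 400) (nat_lit 5) (nat_lit 476) (nat_lit 450) (nat_lit 214)) (XT.nd (nat_lit 78) (nat_lit 912) (nat_lit 0) (XT.lf (nat_lit 0) (nat_lit 9628672003) (nat_lit 1216) (nat_lit 10395991675) (nat_lit 76) (nat_lit 1656763070)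 (nat_lit 384) (nat_lit 5) (nat_lit 400) (nat_lit 5) (nat_lit 385) (nat_lit 5) (nat_lit 477) (nat_lit 450) (nat_lit 213)) (XT.lf (nat_lit 0) (nat_lit 798725541) (nat_lit 912) (nat_lit 10835322096) (nat_lit 988) (nat_lit 10283081154) (nat_lit 372) (nat_lit 5) (nat_lit 384) (nat_lit 5) (nat_lit 385) (nat_lit 5) (nat_lit 478) (nat_lit 450) (nat_lit 212)))))) (XT.nd (nat_lit 390) (nat_lit 2432) (nat_lit 0) (XT.nd (nat_lit 156) (nat_lit 912) (nat_lit 0) (XT.nd (nat_lit 78) (nat_lit 836) (nat_lit 0) (XT.lf (nat_lit 0) (nat_lit 12354731398) (nat_lit 912) (nat_lit 1390649672) (nat_lit 988) (nat_lit 8410848076) (nat_lit 372) (nat_lit 5) (nat_lit 384) (nat_lit 5) (nat_lit 385) (nat_lit 5) (nat_lit 479) (nat_lit 450) (nat_lit 211)) (XT.lf (nat_lit 0) (nat_lit 1707078636) (nat_lit 836) (nat_lit 14252631384) (nat_lit 912) (nat_lit 6439187365) (nat_lit 361) (nat_lit 5) (nat_lit 372) (nat_lit 5) (nat_lit 373) (nat_lit 5) (nat_lit 480)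 (nat_lit 450) (nat_lit 210))) (XT.nd (nat_lit 78) (nat_lit 912) (nat_lit 0) (XT.lf (nat_lit 0) (nat_lit 13565842321) (nat_lit 836) (nat_lit 4723624671) (nat_lit 912) (nat_lit 4355530396) (nat_lit 361) (nat_lit 5) (nat_lit 372) (nat_lit 5) (nat_lit 373) (nat_lit 5) (nat_lit 481) (nat_lit 450) (nat_lit 209)) (XT.nd (nat_lit 78) (nat_lit 76) (nat_lit 0) (XT.lf (nat_lit 0) (nat_lit 2766080177) (nat_lit 836) (nat_lit 17946430310) (nat_lit 912) (nat_lit 2182576283) (nat_lit 350) (nat_lit 5) (nat_lit 361) (nat_lit 5) (nat_lit 362) (nat_lit 5) (nat_lit 482) (nat_lit 450) (nat_lit 208)) (XT.lf (nat_lit 0) (nat_lit 122324420) (nat_lit 912) (nat_lit 8213123558) (nat_lit 76) (nat_lit 14812948098) (nat_lit 349) (nat_lit 5) (nat_lit 361) (nat_lit 5) (nat_lit 350) (nat_lit 5) (nat_lit 483) (nat_lit 450) (nat_lit 207))))) (XT.nd (nat_lit 234) (nat_lit 760) (nat_lit 0) (XT.nd (nat_lit 78) (nat_lit 836) (nat_lit 0) (XT.lf (nat_lit 0)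 (nat_lit 2476124809) (nat_lit 912) (nat_lit 19440556753) (nat_lit 76) (nat_lit 1489162078) (nat_lit 338) (nat_lit 5) (nat_lit 350) (nat_lit 5) (nat_lit 339) (nat_lit 5) (nat_lit 484) (nat_lit 450) (nat_lit 206)) (XT.nd (nat_lit 78) (nat_lit 836) (nat_lit 0) (XT.lf (nat_lit 0) (nat_lit 4984122978) (nat_lit 912) (nat_lit 7227837555) (nat_lit 76) (nat_lit 11454338299) (nat_lit 338) (nat_lit 5) (nat_lit 350) (nat_lit 5) (nat_lit 339) (nat_lit 5) (nat_lit 485) (nat_lit 450) (nat_lit 205)) (XT.lf (nat_lit 0) (nat_lit 5295122070) (nat_lit 836) (nat_lit 2278049026) (nat_lit 912) (nat_lit 16358175323) (nat_lit 327) (nat_lit 5) (nat_lit 338) (nat_lit 5) (nat_lit 339) (nat_lit 5) (nat_lit 486) (nat_lit 450) (nat_lit 204)))) (XT.nd (nat_lit 78) (nat_lit 760) (nat_lit 0) (XT.lf (nat_lit 0) (nat_lit 10310377549) (nat_lit 912) (nat_lit 6089034517) (nat_lit 76) (nat_lit 7800356413) (nat_lit 327) (nat_lit 5) (nat_lit 339) (nat_lit 5)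 (nat_lit 328) (nat_lit 5) (nat_lit 487) (nat_lit 450) (nat_lit 203)) (XT.nd (nat_lit 78) (nat_lit 0) (nat_lit 0) (XT.lf (nat_lit 0) (nat_lit 6779488033) (nat_lit 760) (nat_lit 6378567644) (nat_lit 836) (nat_lit 11314389803) (nat_lit 317) (nat_lit 5) (nat_lit 327) (nat_lit 5) (nat_lit 328) (nat_lit 5) (nat_lit 488) (nat_lit 450) (nat_lit 202)) (XT.lf (nat_lit 0) (nat_lit 16125435571) (nat_lit 836) (nat_lit 4790542579) (nat_lit 76) (nat_lit 3833343935) (nat_lit 317) (nat_lit 5) (nat_lit 328) (nat_lit 5) (nat_lit 318) (nat_lit 5) (nat_lit 489) (nat_lit 450) (nat_lit 201))))))) (XT.nd (nat_lit 56316) (nat_lit 0) (nat_lit 11552) (XT.nd (nat_lit 390) (nat_lit 2052) (nat_lit 0) (XT.nd (nat_lit 156) (nat_lit 1520) (nat_lit 0) (XT.nd (nat_lit 78) (nat_lit 0) (nat_lit 0) (XT.lf (nat_lit 0) (nat_lit 8434888439) (nat_lit 760) (nat_lit 10811014681) (nat_lit 836) (nat_lit 5783959307) (nat_lit 307) (nat_lit 5) (nat_lit 317) (nat_lit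 5) (nat_lit 318) (nat_lit 5) (nat_lit 490) (nat_lit 450) (nat_lit 200)) (XT.lf (nat_lit 0) (nat_lit 21986372557) (nat_lit 760) (nat_lit 471329558) (nat_lit 836) (nat_lit 2857734008) (nat_lit 307) (nat_lit 5) (nat_lit 317) (nat_lit 5) (nat_lit 318) (nat_lit 5) (nat_lit 491) (nat_lit 450) (nat_lit 199))) (XT.nd (nat_lit 78) (nat_lit 760) (nat_lit 0) (XT.lf (nat_lit 0) (nat_lit 255121372) (nat_lit 760) (nat_lit 15337793975) (nat_lit 76) (nat_lit 10011194975) (nat_lit 297) (nat_lit 5) (nat_lit 307) (nat_lit 5) (nat_lit 298) (nat_lit 5) (nat_lit 492) (nat_lit 450) (nat_lit 198)) (XT.nd (nat_lit 78) (nat_lit 760) (nat_lit 0) (XT.lf (nat_lit 0) (nat_lit 3414469410) (nat_lit 760) (nat_lit 1744985361) (nat_lit 76) (nat_lit 20738276359) (nat_lit 297) (nat_lit 5) (nat_lit 307) (nat_lit 5) (nat_lit 298) (nat_lit 5) (nat_lit 493) (nat_lit 450) (nat_lit 197)) (XT.lf (nat_lit 0) (nat_lit 6749757913) (nat_lit 836) (nat_lit 13954459644)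 (nat_lit 76) (nat_lit 5490752641) (nat_lit 287) (nat_lit 5) (nat_lit 298) (nat_lit 5) (nat_lit 288) (nat_lit 5) (nat_lit 494) (nat_lit 450) (nat_lit 196))))) (XT.nd (nat_lit 234) (nat_lit 684) (nat_lit 0) (XT.nd (nat_lit 78) (nat_lit 1368) (nat_lit 0) (XT.lf (nat_lit 0) (nat_lit 10194662552) (nat_lit 836) (nat_lit 6176596) (nat_lit 76) (nat_lit 16296457587) (nat_lit 287) (nat_lit 5) (nat_lit 298) (nat_lit 5) (nat_lit 288) (nat_lit 5) (nat_lit 495) (nat_lit 450) (nat_lit 195)) (XT.nd (nat_lit 78) (nat_lit 684) (nat_lit 0) (XT.lf (nat_lit 0) (nat_lit 13802962860) (nat_lit 760) (nat_lit 12401100972) (nat_lit 76) (nat_lit 599716896) (nat_lit 278) (nat_lit 5) (nat_lit 288) (nat_lit 5) (nat_lit 279) (nat_lit 5) (nat_lit 496) (nat_lit 450) (nat_lit 194)) (XT.lf (nat_lit 0) (nat_lit 1937913724) (nat_lit 684) (nat_lit 15622743742) (nat_lit 760) (nat_lit 9554193230) (nat_lit 269) (nat_lit 5) (nat_lit 278) (nat_lit 5) (nat_lit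 279) (nat_lit 5) (nat_lit 497) (nat_lit 450) (nat_lit 193)))) (XT.nd (nat_lit 78) (nat_lit 684) (nat_lit 0) (XT.lf (nat_lit 0) (nat_lit 16728480694) (nat_lit 684) (nat_lit 4745328561) (nat_lit 760) (nat_lit 5956727586) (nat_lit 269) (nat_lit 5) (nat_lit 278) (nat_lit 5) (nat_lit 279) (nat_lit 5) (nat_lit 498) (nat_lit 450) (nat_lit 192)) (XT.nd (nat_lit 78) (nat_lit 76) (nat_lit 0) (XT.lf (nat_lit 0) (nat_lit 4071172112) (nat_lit 608) (nat_lit 21458850650) (nat_lit 684) (nat_lit 2221218799) (nat_lit 261) (nat_lit 5) (nat_lit 269) (nat_lit 5) (nat_lit 270) (nat_lit 5) (nat_lit 499) (nat_lit 450) (nat_lit 191)) (XT.lf (nat_lit 0) (nat_lit 1669033250) (nat_lit 684) (nat_lit 8837543454) (nat_lit 76) (nat_lit 17569560668) (nat_lit 260) (nat_lit 5) (nat_lit 269) (nat_lit 5) (nat_lit 261) (nat_lit 5) (nat_lit 500) (nat_lit 450) (nat_lit 190)))))) (XT.nd (nat_lit 390) (nat_lit 0) (nat_lit 152) (XT.nd (nat_lit 156) (nat_lit 0)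 (nat_lit 0) (XT.nd (nat_lit 78) (nat_lit 0) (nat_lit 0) (XT.lf (nat_lit 0) (nat_lit 495371975) (nat_lit 0) (nat_lit 495371975) (nat_lit 1748) (nat_lit 7397523811) (nat_lit 412) (nat_lit 5) (nat_lit 412) (nat_lit 3) (nat_lit 435) (nat_lit 3) (nat_lit 451) (nat_lit 451) (nat_lit 238)) (XT.lf (nat_lit 0) (nat_lit 2280073411) (nat_lit 1748) (nat_lit 7809017464) (nat_lit 1824) (nat_lit 6849553044) (nat_lit 412) (nat_lit 5) (nat_lit 435) (nat_lit 3) (nat_lit 436) (nat_lit 5) (nat_lit 452) (nat_lit 451) (nat_lit 237))) (XT.nd (nat_lit 78) (nat_lit 0) (nat_lit 76) (XT.lf (nat_lit 76) (nat_lit 321740834) (nat_lit 0) (nat_lit 2265429629) (nat_lit 1824) (nat_lit 14516775358) (nat_lit 413) (nat_lit 5) (nat_lit 412) (nat_lit 5) (nat_lit 436) (nat_lit 5) (nat_lit 453) (nat_lit 451) (nat_lit 236)) (XT.nd (nat_lit 78) (nat_lit 0) (nat_lit 0) (XT.lf (nat_lit 0) (nat_lit 2984269862) (nat_lit 1748) (nat_lit 8591318111) (nat_lit 1824) (nat_lit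 5695290678) (nat_lit 413) (nat_lit 5) (nat_lit 436) (nat_lit 5) (nat_lit 437) (nat_lit 5) (nat_lit 454) (nat_lit 451) (nat_lit 235)) (XT.lf (nat_lit 0) (nat_lit 3398438697) (nat_lit 1748) (nat_lit 254880357) (nat_lit 1824) (nat_lit 13787650591) (nat_lit 413) (nat_lit 5) (nat_lit 436) (nat_lit 5) (nat_lit 437) (nat_lit 5) (nat_lit 455) (nat_lit 451) (nat_lit 234))))) (XT.nd (nat_lit 234) (nat_lit 0) (nat_lit 76) (XT.nd (nat_lit 78) (nat_lit 0) (nat_lit 0) (XT.lf (nat_lit 0) (nat_lit 3898496145) (nat_lit 1748) (nat_lit 9287957249) (nat_lit 1824) (nat_lit 4426458977) (nat_lit 414) (nat_lit 5) (nat_lit 437) (nat_lit 5) (nat_lit 438) (nat_lit 5) (nat_lit 456) (nat_lit 451) (nat_lit 233)) (XT.nd (nat_lit 78) (nat_lit 0) (nat_lit 76) (XT.lf (nat_lit 0) (nat_lit 4428818887) (nat_lit 1748) (nat_lit 735933409) (nat_lit 1824) (nat_lit 12623138347) (nat_lit 414) (nat_lit 5) (nat_lit 437) (nat_lit 5) (nat_lit 438) (nat_lit 5) (nat_lit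 457) (nat_lit 451) (nat_lit 232)) (XT.lf (nat_lit 0) (nat_lit 5036686342) (nat_lit 1748) (nat_lit 9895397336) (nat_lit 1824) (nat_lit 3032947977) (nat_lit 415) (nat_lit 5) (nat_lit 438) (nat_lit 5) (nat_lit 439) (nat_lit 5) (nat_lit 458) (nat_lit 451) (nat_lit 231)))) (XT.nd (nat_lit 78) (nat_lit 0) (nat_lit 76) (XT.lf (nat_lit 0) (nat_lit 5690447283) (nat_lit 1748) (nat_lit 1121913532) (nat_lit 1824) (nat_lit 11332681846) (nat_lit 415) (nat_lit 5) (nat_lit 438) (nat_lit 5) (nat_lit 439) (nat_lit 5) (nat_lit 459) (nat_lit 451) (nat_lit 230)) (XT.nd (nat_lit 78) (nat_lit 0) (nat_lit 0) (XT.lf (nat_lit 0) (nat_lit 6413320244) (nat_lit 1748) (nat_lit 10409900161) (nat_lit 1824) (nat_lit 1504314610) (nat_lit 416) (nat_lit 5) (nat_lit 439) (nat_lit 5) (nat_lit 440) (nat_lit 5) (nat_lit 460) (nat_lit 451) (nat_lit 229)) (XT.lf (nat_lit 0) (nat_lit 7198108308) (nat_lit 1748) (nat_lit 1408891472) (nat_lit 1824) (nat_lit 9905730108)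 (nat_lit 416) (nat_lit 5) (nat_lit 439) (nat_lit 5) (nat_lit 440) (nat_lit 5) (nat_lit 461) (nat_lit 451) (nat_lit 228))))))))
noncomputable def xc237 : XT := (XT.nd (nat_lit 1716) (nat_lit 6764) (nat_lit 0) (XT.nd (nat_lit 858) (nat_lit 5016) (nat_lit 0) (XT.nd (nat_lit 390) (nat_lit 0) (nat_lit 228) (XT.nd (nat_lit 156) (nat_lit 0) (nat_lit 76) (XT.nd (nat_lit 78) (nat_lit 0) (nat_lit 76) (XT.lf (nat_lit 76) (nat_lit 7872065214) (nat_lit 0) (nat_lit 172504432) (nat_lit 1824) (nat_lit 10656141253) (nat_lit 417) (nat_lit 5) (nat_lit 416) (nat_lit 5) (nat_lit 440) (nat_lit 5) (nat_lit 462) (nat_lit 451) (nat_lit 227)) (XT.lf (nat_lit 0) (nat_lit 8967172335) (nat_lit 1748) (nat_lit 1592731869) (nat_lit 1824) (nat_lit 8331364838) (nat_lit 417) (nat_lit 5) (nat_lit 440) (nat_lit 5) (nat_lit 441) (nat_lit 5) (nat_lit 463) (nat_lit 451) (nat_lit 226))) (XT.nd (nat_lit 78) (nat_lit 0) (nat_lit 76) (XT.lf (nat_lit 76) (nat_lit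 7927385552) (nat_lit 0) (nat_lit 2028510191) (nat_lit 1824) (nat_lit 9128790952) (nat_lit 418) (nat_lit 5) (nat_lit 417) (nat_lit 5) (nat_lit 441) (nat_lit 5) (nat_lit 464) (nat_lit 451) (nat_lit 225)) (XT.nd (nat_lit 78) (nat_lit 0) (nat_lit 0) (XT.lf (nat_lit 0) (nat_lit 11013623182) (nat_lit 1748) (nat_lit 1669091833) (nat_lit 1824) (nat_lit 6598274781) (nat_lit 418) (nat_lit 5) (nat_lit 441) (nat_lit 5) (nat_lit 442) (nat_lit 5) (nat_lit 465) (nat_lit 451) (nat_lit 224)) (XT.lf (nat_lit 76) (nat_lit 8098297199) (nat_lit 0) (nat_lit 4055458432) (nat_lit 1824) (nat_lit 7326239973) (nat_lit 419) (nat_lit 5) (nat_lit 418) (nat_lit 5) (nat_lit 442) (nat_lit 5) (nat_lit 466) (nat_lit 451) (nat_lit 223))))) (XT.nd (nat_lit 234) (nat_lit 0) (nat_lit 76) (XT.nd (nat_lit 78) (nat_lit 0) (nat_lit 0) (XT.lf (nat_lit 0) (nat_lit 13354086405) (nat_lit 1748) (nat_lit 1633419480) (nat_lit 1824) (nat_lit 4694729350) (nat_lit 419)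 (nat_lit 5) (nat_lit 442) (nat_lit 5) (nat_lit 443) (nat_lit 5) (nat_lit 467) (nat_lit 451) (nat_lit 222)) (XT.nd (nat_lit 78) (nat_lit 0) (nat_lit 76) (XT.lf (nat_lit 76) (nat_lit 8389623262) (nat_lit 0) (nat_lit 6265538276) (nat_lit 1824) (nat_lit 5231824956) (nat_lit 420) (nat_lit 5) (nat_lit 419) (nat_lit 5) (nat_lit 443) (nat_lit 5) (nat_lit 468) (nat_lit 451) (nat_lit 221)) (XT.lf (nat_lit 0) (nat_lit 16005858444) (nat_lit 1748) (nat_lit 1480952422) (nat_lit 1824) (nat_lit 2608551465) (nat_lit 420) (nat_lit 5) (nat_lit 443) (nat_lit 5) (nat_lit 444) (nat_lit 5) (nat_lit 469) (nat_lit 451) (nat_lit 220)))) (XT.nd (nat_lit 78) (nat_lit 0) (nat_lit 76) (XT.lf (nat_lit 76) (nat_lit 8806405047) (nat_lit 0) (nat_lit 8671408648) (nat_lit 1824) (nat_lit 2828208629) (nat_lit 421) (nat_lit 5) (nat_lit 420) (nat_lit 5) (nat_lit 444) (nat_lit 5) (nat_lit 470) (nat_lit 451) (nat_lit 219)) (XT.nd (nat_lit 78) (nat_lit 0) (nat_lit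 0) (XT.lf (nat_lit 0) (nat_lit 18986936635) (nat_lit 1748) (nat_lit 1206716258) (nat_lit 1824) (nat_lit 327089550) (nat_lit 421) (nat_lit 5) (nat_lit 444) (nat_lit 5) (nat_lit 445) (nat_lit 5) (nat_lit 471) (nat_lit 451) (nat_lit 218)) (XT.lf (nat_lit 76) (nat_lit 9353903734) (nat_lit 0) (nat_lit 11286227170) (nat_lit 1824) (nat_lit 97349751) (nat_lit 422) (nat_lit 5) (nat_lit 421) (nat_lit 5) (nat_lit 445) (nat_lit 5) (nat_lit 472) (nat_lit 451) (nat_lit 217)))))) (XT.nd (nat_lit 390) (nat_lit 2584) (nat_lit 0) (XT.nd (nat_lit 156) (nat_lit 988) (nat_lit 0) (XT.nd (nat_lit 78) (nat_lit 0) (nat_lit 76) (XT.lf (nat_lit 0) (nat_lit 1353810483) (nat_lit 1824) (nat_lit 828658757) (nat_lit 1900) (nat_lit 18775829896) (nat_lit 397) (nat_lit 5) (nat_lit 421) (nat_lit 5) (nat_lit 422) (nat_lit 5) (nat_lit 473) (nat_lit 451) (nat_lit 216)) (XT.lf (nat_lit 0) (nat_lit 2940450822) (nat_lit 1824) (nat_lit 11163497243) (nat_lit 1900)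 (nat_lit 7077419227) (nat_lit 398) (nat_lit 5) (nat_lit 422) (nat_lit 5) (nat_lit 423) (nat_lit 5) (nat_lit 474) (nat_lit 451) (nat_lit 215))) (XT.nd (nat_lit 78) (nat_lit 1064) (nat_lit 0) (XT.lf (nat_lit 0) (nat_lit 4574785879) (nat_lit 1824) (nat_lit 334138659) (nat_lit 1900) (nat_lit 16499654391) (nat_lit 398) (nat_lit 5) (nat_lit 422) (nat_lit 5) (nat_lit 423) (nat_lit 5) (nat_lit 475) (nat_lit 451) (nat_lit 214)) (XT.nd (nat_lit 78) (nat_lit 1140) (nat_lit 0) (XT.lf (nat_lit 0) (nat_lit 6337742038) (nat_lit 1824) (nat_lit 10817741300) (nat_lit 76) (nat_lit 4482934103) (nat_lit 399) (nat_lit 5) (nat_lit 423) (nat_lit 5) (nat_lit 400) (nat_lit 5) (nat_lit 476) (nat_lit 451) (nat_lit 213)) (XT.lf (nat_lit 0) (nat_lit 298276345) (nat_lit 1140) (nat_lit 7870436150) (nat_lit 1216) (nat_lit 13703486428) (nat_lit 384) (nat_lit 5) (nat_lit 399) (nat_lit 5) (nat_lit 400) (nat_lit 5) (nat_lit 477) (nat_lit 451) (nat_lit 212)))))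 (XT.nd (nat_lit 234) (nat_lit 1672) (nat_lit 0) (XT.nd (nat_lit 78) (nat_lit 912) (nat_lit 0) (XT.lf (nat_lit 0) (nat_lit 10115876739) (nat_lit 1216) (nat_lit 10340303402) (nat_lit 76) (nat_lit 1652885685) (nat_lit 384) (nat_lit 5) (nat_lit 400) (nat_lit 5) (nat_lit 385) (nat_lit 5) (nat_lit 478) (nat_lit 451) (nat_lit 211)) (XT.nd (nat_lit 78) (nat_lit 0) (nat_lit 0) (XT.lf (nat_lit 0) (nat_lit 1076573894) (nat_lit 912) (nat_lit 11080709165) (nat_lit 988) (nat_lit 10192282284) (nat_lit 372) (nat_lit 5) (nat_lit 384) (nat_lit 5) (nat_lit 385) (nat_lit 5) (nat_lit 479) (nat_lit 451) (nat_lit 210)) (XT.lf (nat_lit 0) (nat_lit 12858565088) (nat_lit 912) (nat_lit 1446580928) (nat_lit 988) (nat_lit 8288417495) (nat_lit 372) (nat_lit 5) (nat_lit 384) (nat_lit 5) (nat_lit 385) (nat_lit 5) (nat_lit 480) (nat_lit 451) (nat_lit 209)))) (XT.nd (nat_lit 78) (nat_lit 836) (nat_lit 0) (XT.lf (nat_lit 0) (nat_lit 2002203684) (nat_lit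 836) (nat_lit 14557487918) (nat_lit 912) (nat_lit 6281476737) (nat_lit 361) (nat_lit 5) (nat_lit 372) (nat_lit 5) (nat_lit 373) (nat_lit 5) (nat_lit 481) (nat_lit 451) (nat_lit 208)) (XT.nd (nat_lit 78) (nat_lit 836) (nat_lit 0) (XT.lf (nat_lit 0) (nat_lit 14093025320) (nat_lit 836) (nat_lit 4837512759) (nat_lit 912) (nat_lit 4161764166) (nat_lit 361) (nat_lit 5) (nat_lit 372) (nat_lit 5) (nat_lit 373) (nat_lit 5) (nat_lit 482) (nat_lit 451) (nat_lit 207)) (XT.lf (nat_lit 0) (nat_lit 3081268115) (nat_lit 836) (nat_lit 18316940284) (nat_lit 912) (nat_lit 1949263449) (nat_lit 350) (nat_lit 5) (nat_lit 361) (nat_lit 5) (nat_lit 362) (nat_lit 5) (nat_lit 483) (nat_lit 451) (nat_lit 206))))))) (XT.nd (nat_lit 858) (nat_lit 2736) (nat_lit 0) (XT.nd (nat_lit 390) (nat_lit 2280) (nat_lit 0) (XT.nd (nat_lit 156) (nat_lit 836) (nat_lit 0) (XT.nd (nat_lit 78) (nat_lit 836) (nat_lit 0) (XT.lf (nat_lit 0) (nat_lit 392743381) (nat_lit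 912) (nat_lit 8118969601) (nat_lit 76) (nat_lit 15094207267) (nat_lit 349) (nat_lit 5) (nat_lit 361) (nat_lit 5) (nat_lit 350) (nat_lit 5) (nat_lit 484) (nat_lit 451) (nat_lit 205)) (XT.lf (nat_lit 0) (nat_lit 2789982399) (nat_lit 912) (nat_lit 19567231436) (nat_lit 76) (nat_lit 1511377330) (nat_lit 338) (nat_lit 5) (nat_lit 350) (nat_lit 5) (nat_lit 339) (nat_lit 5) (nat_lit 485) (nat_lit 451) (nat_lit 204))) (XT.nd (nat_lit 78) (nat_lit 836) (nat_lit 0) (XT.lf (nat_lit 0) (nat_lit 5342957490) (nat_lit 912) (nat_lit 7115397785) (nat_lit 76) (nat_lit 11676005468) (nat_lit 338) (nat_lit 5) (nat_lit 350) (nat_lit 5) (nat_lit 339) (nat_lit 5) (nat_lit 486) (nat_lit 451) (nat_lit 203)) (XT.nd (nat_lit 78) (nat_lit 0) (nat_lit 0) (XT.lf (nat_lit 0) (nat_lit 5656330266) (nat_lit 836) (nat_lit 2324032507) (nat_lit 912) (nat_lit 16424416574) (nat_lit 327) (nat_lit 5) (nat_lit 338) (nat_lit 5) (nat_lit 339) (nat_lit 5) (nat_lit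 487) (nat_lit 451) (nat_lit 202)) (XT.lf (nat_lit 0) (nat_lit 10767296386) (nat_lit 912) (nat_lit 5955420601) (nat_lit 76) (nat_lit 7955954759) (nat_lit 327) (nat_lit 5) (nat_lit 339) (nat_lit 5) (nat_lit 328) (nat_lit 5) (nat_lit 488) (nat_lit 451) (nat_lit 201))))) (XT.nd (nat_lit 234) (nat_lit 760) (nat_lit 0) (XT.nd (nat_lit 78) (nat_lit 760) (nat_lit 0) (XT.lf (nat_lit 0) (nat_lit 7168792173) (nat_lit 760) (nat_lit 6499867278) (nat_lit 836) (nat_lit 11288209735) (nat_lit 317) (nat_lit 5) (nat_lit 327) (nat_lit 5) (nat_lit 328) (nat_lit 5) (nat_lit 489) (nat_lit 451) (nat_lit 200)) (XT.nd (nat_lit 78) (nat_lit 760) (nat_lit 0) (XT.lf (nat_lit 0) (nat_lit 16690575047) (nat_lit 836) (nat_lit 4632727094) (nat_lit 76) (nat_lit 3916078916) (nat_lit 317) (nat_lit 5) (nat_lit 328) (nat_lit 5) (nat_lit 318) (nat_lit 5) (nat_lit 490) (nat_lit 451) (nat_lit 199)) (XT.lf (nat_lit 0) (nat_lit 8855543950) (nat_lit 760) (nat_lit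 11014786408) (nat_lit 836) (nat_lit 5655265747) (nat_lit 307) (nat_lit 5) (nat_lit 317) (nat_lit 5) (nat_lit 318) (nat_lit 5) (nat_lit 491) (nat_lit 451) (nat_lit 198)))) (XT.nd (nat_lit 78) (nat_lit 760) (nat_lit 0) (XT.lf (nat_lit 0) (nat_lit 22673117403) (nat_lit 760) (nat_lit 468551672) (nat_lit 836) (nat_lit 2675307565) (nat_lit 307) (nat_lit 5) (nat_lit 317) (nat_lit 5) (nat_lit 318) (nat_lit 5) (nat_lit 492) (nat_lit 451) (nat_lit 197)) (XT.nd (nat_lit 78) (nat_lit 0) (nat_lit 0) (XT.lf (nat_lit 0) (nat_lit 493739160) (nat_lit 760) (nat_lit 15391327006) (nat_lit 76) (nat_lit 10226386902) (nat_lit 297) (nat_lit 5) (nat_lit 307) (nat_lit 5) (nat_lit 298) (nat_lit 5) (nat_lit 493) (nat_lit 451) (nat_lit 196)) (XT.lf (nat_lit 0) (nat_lit 3711695426) (nat_lit 760) (nat_lit 1531627374) (nat_lit 76) (nat_lit 21167716422) (nat_lit 297) (nat_lit 5) (nat_lit 307) (nat_lit 5) (nat_lit 298) (nat_lit 5) (nat_lit 494) (nat_lit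 451) (nat_lit 195)))))) (XT.nd (nat_lit 390) (nat_lit 608) (nat_lit 0) (XT.nd (nat_lit 156) (nat_lit 684) (nat_lit 0) (XT.nd (nat_lit 78) (nat_lit 684) (nat_lit 0) (XT.lf (nat_lit 0) (nat_lit 7110935585) (nat_lit 836) (nat_lit 13982470560) (nat_lit 76) (nat_lit 5620873339) (nat_lit 287) (nat_lit 5) (nat_lit 298) (nat_lit 5) (nat_lit 288) (nat_lit 5) (nat_lit 495) (nat_lit 451) (nat_lit 194)) (XT.lf (nat_lit 0) (nat_lit 243042592) (nat_lit 684) (nat_lit 10378838767) (nat_lit 760) (nat_lit 16400829634) (nat_lit 278) (nat_lit 5) (nat_lit 287) (nat_lit 5) (nat_lit 288) (nat_lit 5) (nat_lit 496) (nat_lit 451) (nat_lit 193))) (XT.nd (nat_lit 78) (nat_lit 684) (nat_lit 0) (XT.lf (nat_lit 0) (nat_lit 14298175253) (nat_lit 760) (nat_lit 12400309505) (nat_lit 76) (nat_lit 636924634) (nat_lit 278) (nat_lit 5) (nat_lit 288) (nat_lit 5) (nat_lit 279) (nat_lit 5) (nat_lit 497) (nat_lit 451) (nat_lit 192)) (XT.nd (nat_lit 78) (nat_lit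 0) (nat_lit 0) (XT.lf (nat_lit 0) (nat_lit 2223848555) (nat_lit 684) (nat_lit 15904482911) (nat_lit 760) (nat_lit 9524424392) (nat_lit 269) (nat_lit 5) (nat_lit 278) (nat_lit 5) (nat_lit 279) (nat_lit 5) (nat_lit 498) (nat_lit 451) (nat_lit 191)) (XT.lf (nat_lit 0) (nat_lit 17305380265) (nat_lit 684) (nat_lit 4810121695) (nat_lit 760) (nat_lit 5859339880) (nat_lit 269) (nat_lit 5) (nat_lit 278) (nat_lit 5) (nat_lit 279) (nat_lit 5) (nat_lit 499) (nat_lit 451) (nat_lit 190))))) (XT.nd (nat_lit 55770) (nat_lit 0) (nat_lit 11476) (XT.nd (nat_lit 55614) (nat_lit 0) (nat_lit 11476) (XT.lf (nat_lit 0) (nat_lit 4397414415) (nat_lit 608) (nat_lit 21853045423) (nat_lit 684) (nat_lit 2051549619) (nat_lit 261) (nat_lit 5) (nat_lit 269) (nat_lit 5) (nat_lit 270) (nat_lit 5) (nat_lit 500) (nat_lit 451) (nat_lit 189)) (XT.nd (nat_lit 78) (nat_lit 0) (nat_lit 0) (XT.lf (nat_lit 0) (nat_lit 621374612) (nat_lit 0) (nat_lit 621374612)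 (nat_lit 1748) (nat_lit 7308559065) (nat_lit 412) (nat_lit 5) (nat_lit 412) (nat_lit 3) (nat_lit 435) (nat_lit 3) (nat_lit 452) (nat_lit 452) (nat_lit 236)) (XT.lf (nat_lit 0) (nat_lit 2779472187) (nat_lit 1748) (nat_lit 7726817829) (nat_lit 1824) (nat_lit 6761891972) (nat_lit 412) (nat_lit 5) (nat_lit 435) (nat_lit 3) (nat_lit 436) (nat_lit 5) (nat_lit 453) (nat_lit 452) (nat_lit 235)))) (XT.nd (nat_lit 78) (nat_lit 0) (nat_lit 76) (XT.lf (nat_lit 76) (nat_lit 564987347) (nat_lit 0) (nat_lit 2520363387) (nat_lit 1824) (nat_lit 14351589520) (nat_lit 413) (nat_lit 5) (nat_lit 412) (nat_lit 5) (nat_lit 436) (nat_lit 5) (nat_lit 454) (nat_lit 452) (nat_lit 234)) (XT.nd (nat_lit 78) (nat_lit 0) (nat_lit 0) (XT.lf (nat_lit 0) (nat_lit 3480304117) (nat_lit 1748) (nat_lit 8520735448) (nat_lit 1824) (nat_lit 5606376989) (nat_lit 413) (nat_lit 5) (nat_lit 436) (nat_lit 5) (nat_lit 437) (nat_lit 5) (nat_lit 455) (nat_lit 452)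 (nat_lit 233)) (XT.lf (nat_lit 0) (nat_lit 3894200469) (nat_lit 1748) (nat_lit 22322057) (nat_lit 1824) (nat_lit 13864560953) (nat_lit 413) (nat_lit 5) (nat_lit 436) (nat_lit 5) (nat_lit 437) (nat_lit 5) (nat_lit 456) (nat_lit 452) (nat_lit 232))))))))
noncomputable def xc238 : XT := (XT.nd (nat_lit 1716) (nat_lit 8740) (nat_lit 0) (XT.nd (nat_lit 858) (nat_lit 2280) (nat_lit 0) (XT.nd (nat_lit 390) (nat_lit 0) (nat_lit 152) (XT.nd (nat_lit 156) (nat_lit 0) (nat_lit 76) (XT.nd (nat_lit 78) (nat_lit 0) (nat_lit 0) (XT.lf (nat_lit 0) (nat_lit 4396203697) (nat_lit 1748) (nat_lit 9227858353) (nat_lit 1824) (nat_lit 4332567051) (nat_lit 414) (nat_lit 5) (nat_lit 437) (nat_lit 5) (nat_lit 438) (nat_lit 5) (nat_lit 457) (nat_lit 452) (nat_lit 231)) (XT.lf (nat_lit 0) (nat_lit 4928902745) (nat_lit 1748) (nat_lit 509614782) (nat_lit 1824) (nat_lit 12696756893) (nat_lit 414) (nat_lit 5) (nat_lit 437) (nat_lit 5) (nat_lit 438)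 (nat_lit 5) (nat_lit 458) (nat_lit 452) (nat_lit 230))) (XT.nd (nat_lit 78) (nat_lit 0) (nat_lit 0) (XT.lf (nat_lit 0) (nat_lit 5541338645) (nat_lit 1748) (nat_lit 9844538017) (nat_lit 1824) (nat_lit 2930236188) (nat_lit 415) (nat_lit 5) (nat_lit 438) (nat_lit 5) (nat_lit 439) (nat_lit 5) (nat_lit 459) (nat_lit 452) (nat_lit 229)) (XT.nd (nat_lit 78) (nat_lit 0) (nat_lit 76) (XT.lf (nat_lit 0) (nat_lit 6200254832) (nat_lit 1748) (nat_lit 900462327) (nat_lit 1824) (nat_lit 11399168083) (nat_lit 415) (nat_lit 5) (nat_lit 438) (nat_lit 5) (nat_lit 439) (nat_lit 5) (nat_lit 460) (nat_lit 452) (nat_lit 228)) (XT.lf (nat_lit 0) (nat_lit 6930435838) (nat_lit 1748) (nat_lit 10366923685) (nat_lit 1824) (nat_lit 1388813620) (nat_lit 416) (nat_lit 5) (nat_lit 439) (nat_lit 5) (nat_lit 440) (nat_lit 5) (nat_lit 461) (nat_lit 452) (nat_lit 227))))) (XT.nd (nat_lit 234) (nat_lit 0) (nat_lit 76) (XT.nd (nat_lit 78) (nat_lit 0) (nat_lit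 0) (XT.lf (nat_lit 0) (nat_lit 7723295169) (nat_lit 1748) (nat_lit 1190819813) (nat_lit 1824) (nat_lit 9961112081) (nat_lit 416) (nat_lit 5) (nat_lit 439) (nat_lit 5) (nat_lit 440) (nat_lit 5) (nat_lit 462) (nat_lit 452) (nat_lit 226)) (XT.nd (nat_lit 78) (nat_lit 0) (nat_lit 76) (XT.lf (nat_lit 76) (nat_lit 8274135944) (nat_lit 0) (nat_lit 306663092) (nat_lit 1824) (nat_lit 10486288997) (nat_lit 417) (nat_lit 5) (nat_lit 416) (nat_lit 5) (nat_lit 440) (nat_lit 5) (nat_lit 463) (nat_lit 452) (nat_lit 225)) (XT.lf (nat_lit 0) (nat_lit 9513662204) (nat_lit 1748) (nat_lit 1376434392) (nat_lit 1824) (nat_lit 8371527130) (nat_lit 417) (nat_lit 5) (nat_lit 440) (nat_lit 5) (nat_lit 441) (nat_lit 5) (nat_lit 464) (nat_lit 452) (nat_lit 224)))) (XT.nd (nat_lit 78) (nat_lit 0) (nat_lit 76) (XT.lf (nat_lit 76) (nat_lit 8332452798) (nat_lit 0) (nat_lit 2184108901) (nat_lit 1824) (nat_lit 8942462506) (nat_lit 418) (nat_lit 5) (nat_lit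 417) (nat_lit 5) (nat_lit 441) (nat_lit 5) (nat_lit 465) (nat_lit 452) (nat_lit 223)) (XT.nd (nat_lit 78) (nat_lit 0) (nat_lit 0) (XT.lf (nat_lit 0) (nat_lit 11587622312) (nat_lit 1748) (nat_lit 1452843671) (nat_lit 1824) (nat_lit 6618946270) (nat_lit 418) (nat_lit 5) (nat_lit 441) (nat_lit 5) (nat_lit 442) (nat_lit 5) (nat_lit 466) (nat_lit 452) (nat_lit 222)) (XT.lf (nat_lit 76) (nat_lit 8508250839) (nat_lit 0) (nat_lit 4236980854) (nat_lit 1824) (nat_lit 7117275405) (nat_lit 419) (nat_lit 5) (nat_lit 418) (nat_lit 5) (nat_lit 442) (nat_lit 5) (nat_lit 467) (nat_lit 452) (nat_lit 221)))))) (XT.nd (nat_lit 390) (nat_lit 2660) (nat_lit 0) (XT.nd (nat_lit 156) (nat_lit 0) (nat_lit 76) (XT.nd (nat_lit 78) (nat_lit 0) (nat_lit 0) (XT.lf (nat_lit 0) (nat_lit 13962098526) (nat_lit 1748) (nat_lit 1415374082) (nat_lit 1824) (nat_lit 4691470686) (nat_lit 419) (nat_lit 5) (nat_lit 442) (nat_lit 5) (nat_lit 443) (nat_lit 5) (nat_lit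 468) (nat_lit 452) (nat_lit 220)) (XT.lf (nat_lit 76) (nat_lit 8806480082) (nat_lit 0) (nat_lit 6477647261) (nat_lit 1824) (nat_lit 4993765907) (nat_lit 420) (nat_lit 5) (nat_lit 419) (nat_lit 5) (nat_lit 443) (nat_lit 5) (nat_lit 469) (nat_lit 452) (nat_lit 219))) (XT.nd (nat_lit 78) (nat_lit 0) (nat_lit 0) (XT.lf (nat_lit 0) (nat_lit 16654700144) (nat_lit 1748) (nat_lit 1259139234) (nat_lit 1824) (nat_lit 2576742254) (nat_lit 420) (nat_lit 5) (nat_lit 443) (nat_lit 5) (nat_lit 444) (nat_lit 5) (nat_lit 470) (nat_lit 452) (nat_lit 218)) (XT.nd (nat_lit 78) (nat_lit 0) (nat_lit 76) (XT.lf (nat_lit 76) (nat_lit 9232311225) (nat_lit 0) (nat_lit 8918959421) (nat_lit 1824) (nat_lit 2554282881) (nat_lit 421) (nat_lit 5) (nat_lit 420) (nat_lit 5) (nat_lit 444) (nat_lit 5) (nat_lit 471) (nat_lit 452) (nat_lit 217)) (XT.lf (nat_lit 0) (nat_lit 19683753235) (nat_lit 1748) (nat_lit 979038256) (nat_lit 1824) (nat_lit 261915194)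 (nat_lit 421) (nat_lit 5) (nat_lit 444) (nat_lit 5) (nat_lit 445) (nat_lit 5) (nat_lit 472) (nat_lit 452) (nat_lit 216))))) (XT.nd (nat_lit 234) (nat_lit 988) (nat_lit 0) (XT.nd (nat_lit 78) (nat_lit 0) (nat_lit 0) (XT.lf (nat_lit 0) (nat_lit 216665323) (nat_lit 1824) (nat_lit 11356161616) (nat_lit 1900) (nat_lit 9573018214) (nat_lit 397) (nat_lit 5) (nat_lit 421) (nat_lit 5) (nat_lit 422) (nat_lit 5) (nat_lit 473) (nat_lit 452) (nat_lit 215)) (XT.nd (nat_lit 78) (nat_lit 0) (nat_lit 76) (XT.lf (nat_lit 0) (nat_lit 1689376668) (nat_lit 1824) (nat_lit 595778850) (nat_lit 1900) (nat_lit 19086037042) (nat_lit 397) (nat_lit 5) (nat_lit 421) (nat_lit 5) (nat_lit 422) (nat_lit 5) (nat_lit 474) (nat_lit 452) (nat_lit 214)) (XT.lf (nat_lit 0) (nat_lit 3302944815) (nat_lit 1824) (nat_lit 11132408363) (nat_lit 1900) (nat_lit 7163467017) (nat_lit 398) (nat_lit 5) (nat_lit 422) (nat_lit 5) (nat_lit 423) (nat_lit 5) (nat_lit 475)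 (nat_lit 452) (nat_lit 213)))) (XT.nd (nat_lit 78) (nat_lit 1064) (nat_lit 0) (XT.lf (nat_lit 0) (nat_lit 4964011965) (nat_lit 1824) (nat_lit 91450035) (nat_lit 1900) (nat_lit 16775235131) (nat_lit 398) (nat_lit 5) (nat_lit 422) (nat_lit 5) (nat_lit 423) (nat_lit 5) (nat_lit 476) (nat_lit 452) (nat_lit 212)) (XT.nd (nat_lit 78) (nat_lit 1140) (nat_lit 0) (XT.lf (nat_lit 0) (nat_lit 6757700659) (nat_lit 1824) (nat_lit 10780101309) (nat_lit 76) (nat_lit 4527422913) (nat_lit 399) (nat_lit 5) (nat_lit 423) (nat_lit 5) (nat_lit 400) (nat_lit 5) (nat_lit 477) (nat_lit 452) (nat_lit 211)) (XT.lf (nat_lit 0) (nat_lit 556565670) (nat_lit 1140) (nat_lit 8064614016) (nat_lit 1216) (nat_lit 13682586423) (nat_lit 384) (nat_lit 5) (nat_lit 399) (nat_lit 5) (nat_lit 400) (nat_lit 5) (nat_lit 478) (nat_lit 452) (nat_lit 210))))))) (XT.nd (nat_lit 858) (nat_lit 4408) (nat_lit 0) (XT.nd (nat_lit 390) (nat_lit 2584) (nat_lit 0) (XT.nd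 (nat_lit 156) (nat_lit 836) (nat_lit 0) (XT.nd (nat_lit 78) (nat_lit 912) (nat_lit 0) (XT.lf (nat_lit 0) (nat_lit 10601384677) (nat_lit 1216) (nat_lit 10293737588) (nat_lit 76) (nat_lit 1650367998) (nat_lit 384) (nat_lit 5) (nat_lit 400) (nat_lit 5) (nat_lit 385) (nat_lit 5) (nat_lit 479) (nat_lit 452) (nat_lit 209)) (XT.lf (nat_lit 0) (nat_lit 1349810335) (nat_lit 912) (nat_lit 11329890272) (nat_lit 988) (nat_lit 10111179360) (nat_lit 372) (nat_lit 5) (nat_lit 384) (nat_lit 5) (nat_lit 385) (nat_lit 5) (nat_lit 480) (nat_lit 452) (nat_lit 208))) (XT.nd (nat_lit 78) (nat_lit 836) (nat_lit 0) (XT.lf (nat_lit 0) (nat_lit 13362505961) (nat_lit 912) (nat_lit 1502538942) (nat_lit 988) (nat_lit 8174824502) (nat_lit 372) (nat_lit 5) (nat_lit 384) (nat_lit 5) (nat_lit 385) (nat_lit 5) (nat_lit 481) (nat_lit 452) (nat_lit 207)) (XT.nd (nat_lit 78) (nat_lit 0) (nat_lit 0) (XT.lf (nat_lit 0) (nat_lit 2293096926) (nat_lit 836) (nat_lit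 14867672572) (nat_lit 912) (nat_lit 6131736822) (nat_lit 361) (nat_lit 5) (nat_lit 372) (nat_lit 5) (nat_lit 373) (nat_lit 5) (nat_lit 482) (nat_lit 452) (nat_lit 206)) (XT.lf (nat_lit 0) (nat_lit 14620816384) (nat_lit 836) (nat_lit 4952924677) (nat_lit 912) (nat_lit 3975029400) (nat_lit 361) (nat_lit 5) (nat_lit 372) (nat_lit 5) (nat_lit 373) (nat_lit 5) (nat_lit 483) (nat_lit 452) (nat_lit 205))))) (XT.nd (nat_lit 234) (nat_lit 836) (nat_lit 0) (XT.nd (nat_lit 78) (nat_lit 912) (nat_lit 0) (XT.lf (nat_lit 0) (nat_lit 3392668885) (nat_lit 836) (nat_lit 18694410738) (nat_lit 912) (nat_lit 1722039222) (nat_lit 350) (nat_lit 5) (nat_lit 361) (nat_lit 5) (nat_lit 362) (nat_lit 5) (nat_lit 484) (nat_lit 452) (nat_lit 204)) (XT.nd (nat_lit 78) (nat_lit 836) (nat_lit 0) (XT.lf (nat_lit 0) (nat_lit 658165024) (nat_lit 912) (nat_lit 8032967191) (nat_lit 76) (nat_lit 15381674080) (nat_lit 349) (nat_lit 5) (nat_lit 361) (nat_lit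 5) (nat_lit 350) (nat_lit 5) (nat_lit 485) (nat_lit 452) (nat_lit 203)) (XT.lf (nat_lit 0) (nat_lit 3099852687) (nat_lit 912) (nat_lit 19706618691) (nat_lit 76) (nat_lit 1534330762) (nat_lit 338) (nat_lit 5) (nat_lit 350) (nat_lit 5) (nat_lit 339) (nat_lit 5) (nat_lit 486) (nat_lit 452) (nat_lit 202)))) (XT.nd (nat_lit 78) (nat_lit 836) (nat_lit 0) (XT.lf (nat_lit 0) (nat_lit 5698905503) (nat_lit 912) (nat_lit 7010688708) (nat_lit 76) (nat_lit 11902394091) (nat_lit 338) (nat_lit 5) (nat_lit 350) (nat_lit 5) (nat_lit 339) (nat_lit 5) (nat_lit 487) (nat_lit 452) (nat_lit 201)) (XT.nd (nat_lit 78) (nat_lit 0) (nat_lit 0) (XT.lf (nat_lit 0) (nat_lit 6014848792) (nat_lit 836) (nat_lit 2370919250) (nat_lit 912) (nat_lit 16502114579) (nat_lit 327) (nat_lit 5) (nat_lit 338) (nat_lit 5) (nat_lit 339) (nat_lit 5) (nat_lit 488) (nat_lit 452) (nat_lit 200)) (XT.lf (nat_lit 0) (nat_lit 11223618174) (nat_lit 912) (nat_lit 5829051690)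 (nat_lit 76) (nat_lit 8114680945) (nat_lit 327) (nat_lit 5) (nat_lit 339) (nat_lit 5) (nat_lit 328) (nat_lit 5) (nat_lit 489) (nat_lit 452) (nat_lit 199)))))) (XT.nd (nat_lit 390) (nat_lit 2128) (nat_lit 0) (XT.nd (nat_lit 156) (nat_lit 1520) (nat_lit 0) (XT.nd (nat_lit 78) (nat_lit 0) (nat_lit 0) (XT.lf (nat_lit 0) (nat_lit 7556030357) (nat_lit 760) (nat_lit 6623836443) (nat_lit 836) (nat_lit 11271309700) (nat_lit 317) (nat_lit 5) (nat_lit 327) (nat_lit 5) (nat_lit 328) (nat_lit 5) (nat_lit 490) (nat_lit 452) (nat_lit 198)) (XT.lf (nat_lit 0) (nat_lit 17257595664) (nat_lit 836) (nat_lit 4481603919) (nat_lit 76) (nat_lit 4000232964) (nat_lit 317) (nat_lit 5) (nat_lit 328) (nat_lit 5) (nat_lit 318) (nat_lit 5) (nat_lit 491) (nat_lit 452) (nat_lit 197))) (XT.nd (nat_lit 78) (nat_lit 760) (nat_lit 0) (XT.lf (nat_lit 0) (nat_lit 9274828746) (nat_lit 760) (nat_lit 11223116963) (nat_lit 836) (nat_lit 5533487608) (nat_lit 307)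 (nat_lit 5) (nat_lit 317) (nat_lit 5) (nat_lit 318) (nat_lit 5) (nat_lit 492) (nat_lit 452) (nat_lit 196)) (XT.nd (nat_lit 78) (nat_lit 760) (nat_lit 0) (XT.lf (nat_lit 0) (nat_lit 23364005159) (nat_lit 760) (nat_lit 466192143) (nat_lit 836) (nat_lit 2498535820) (nat_lit 307) (nat_lit 5) (nat_lit 317) (nat_lit 5) (nat_lit 318) (nat_lit 5) (nat_lit 493) (nat_lit 452) (nat_lit 195)) (XT.lf (nat_lit 0) (nat_lit 728061617) (nat_lit 760) (nat_lit 15455763650) (nat_lit 76) (nat_lit 10445301439) (nat_lit 297) (nat_lit 5) (nat_lit 307) (nat_lit 5) (nat_lit 298) (nat_lit 5) (nat_lit 494) (nat_lit 452) (nat_lit 194))))) (XT.nd (nat_lit 234) (nat_lit 684) (nat_lit 0) (XT.nd (nat_lit 78) (nat_lit 1444) (nat_lit 0) (XT.lf (nat_lit 0) (nat_lit 4005976074) (nat_lit 760) (nat_lit 1323642376) (nat_lit 76) (nat_lit 21605175457) (nat_lit 297) (nat_lit 5) (nat_lit 307) (nat_lit 5) (nat_lit 298) (nat_lit 5) (nat_lit 495) (nat_lit 452) (nat_lit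 193)) (XT.nd (nat_lit 78) (nat_lit 684) (nat_lit 0) (XT.lf (nat_lit 0) (nat_lit 7470553867) (nat_lit 836) (nat_lit 14020791370) (nat_lit 76) (nat_lit 5752807957) (nat_lit 287) (nat_lit 5) (nat_lit 298) (nat_lit 5) (nat_lit 288) (nat_lit 5) (nat_lit 496) (nat_lit 452) (nat_lit 192)) (XT.lf (nat_lit 0) (nat_lit 487644357) (nat_lit 684) (nat_lit 10561368020) (nat_lit 760) (nat_lit 16509796333) (nat_lit 278) (nat_lit 5) (nat_lit 287) (nat_lit 5) (nat_lit 288) (nat_lit 5) (nat_lit 497) (nat_lit 452) (nat_lit 191)))) (XT.nd (nat_lit 78) (nat_lit 684) (nat_lit 0) (XT.lf (nat_lit 0) (nat_lit 14794781912) (nat_lit 760) (nat_lit 12409163939) (nat_lit 76) (nat_lit 673897460) (nat_lit 278) (nat_lit 5) (nat_lit 288) (nat_lit 5) (nat_lit 279) (nat_lit 5) (nat_lit 498) (nat_lit 452) (nat_lit 190)) (XT.nd (nat_lit 55770) (nat_lit 0) (nat_lit 10868) (XT.lf (nat_lit 0) (nat_lit 2505903915) (nat_lit 684) (nat_lit 16193049592) (nat_lit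 760) (nat_lit 9502636157) (nat_lit 269) (nat_lit 5) (nat_lit 278) (nat_lit 5) (nat_lit 279) (nat_lit 5) (nat_lit 499) (nat_lit 452) (nat_lit 189)) (XT.lf (nat_lit 0) (nat_lit 745389183) (nat_lit 0) (nat_lit 745389183) (nat_lit 1748) (nat_lit 7227014731) (nat_lit 412) (nat_lit 5) (nat_lit 412) (nat_lit 3) (nat_lit 435) (nat_lit 3) (nat_lit 453) (nat_lit 453) (nat_lit 234))))))))
noncomputable def xc239 : XT := (XT.nd (nat_lit 1716) (nat_lit 8360) (nat_lit 0) (XT.nd (nat_lit 858) (nat_lit 1140) (nat_lit 0) (XT.nd (nat_lit 390) (nat_lit 0) (nat_lit 152) (XT.nd (nat_lit 156) (nat_lit 0) (nat_lit 76) (XT.nd (nat_lit 78) (nat_lit 0) (nat_lit 0) (XT.lf (nat_lit 0) (nat_lit 3271237437) (nat_lit 1748) (nat_lit 7652230786) (nat_lit 1824) (nat_lit 6681201194) (nat_lit 412) (nat_lit 5) (nat_lit 435) (nat_lit 3) (nat_lit 436) (nat_lit 5) (nat_lit 454) (nat_lit 453) (nat_lit 233)) (XT.lf (nat_lit 76) (nat_lit 803903102) (nat_lit 0)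 (nat_lit 2772255819) (nat_lit 1824) (nat_lit 14200788413) (nat_lit 413) (nat_lit 5) (nat_lit 412) (nat_lit 5) (nat_lit 436) (nat_lit 5) (nat_lit 455) (nat_lit 453) (nat_lit 232))) (XT.nd (nat_lit 78) (nat_lit 0) (nat_lit 0) (XT.lf (nat_lit 0) (nat_lit 3969315099) (nat_lit 1748) (nat_lit 8458154168) (nat_lit 1824) (nat_lit 5523560754) (nat_lit 413) (nat_lit 5) (nat_lit 436) (nat_lit 5) (nat_lit 437) (nat_lit 5) (nat_lit 456) (nat_lit 453) (nat_lit 231)) (XT.nd (nat_lit 78) (nat_lit 0) (nat_lit 76) (XT.lf (nat_lit 76) (nat_lit 208392040) (nat_lit 0) (nat_lit 4176226732) (nat_lit 1824) (nat_lit 13743691804) (nat_lit 414) (nat_lit 5) (nat_lit 413) (nat_lit 5) (nat_lit 437) (nat_lit 5) (nat_lit 457) (nat_lit 453) (nat_lit 230)) (XT.lf (nat_lit 0) (nat_lit 4887566476) (nat_lit 1748) (nat_lit 9176104446) (nat_lit 1824) (nat_lit 4243880920) (nat_lit 414) (nat_lit 5) (nat_lit 437) (nat_lit 5) (nat_lit 438) (nat_lit 5) (nat_lit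 458) (nat_lit 453) (nat_lit 229))))) (XT.nd (nat_lit 234) (nat_lit 0) (nat_lit 152) (XT.nd (nat_lit 78) (nat_lit 0) (nat_lit 76) (XT.lf (nat_lit 0) (nat_lit 5423008942) (nat_lit 1748) (nat_lit 288129554) (nat_lit 1824) (nat_lit 12778792549) (nat_lit 414) (nat_lit 5) (nat_lit 437) (nat_lit 5) (nat_lit 438) (nat_lit 5) (nat_lit 459) (nat_lit 453) (nat_lit 228)) (XT.nd (nat_lit 78) (nat_lit 0) (nat_lit 0) (XT.lf (nat_lit 0) (nat_lit 6040399343) (nat_lit 1748) (nat_lit 9802321449) (nat_lit 1824) (nat_lit 2831814048) (nat_lit 415) (nat_lit 5) (nat_lit 438) (nat_lit 5) (nat_lit 439) (nat_lit 5) (nat_lit 460) (nat_lit 453) (nat_lit 227)) (XT.lf (nat_lit 0) (nat_lit 6704881425) (nat_lit 1748) (nat_lit 684052624) (nat_lit 1824) (nat_lit 11473203539) (nat_lit 415) (nat_lit 5) (nat_lit 438) (nat_lit 5) (nat_lit 439) (nat_lit 5) (nat_lit 461) (nat_lit 453) (nat_lit 226)))) (XT.nd (nat_lit 78) (nat_lit 0) (nat_lit 0) (XT.lf (nat_lit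 0) (nat_lit 7442794256) (nat_lit 1748) (nat_lit 10332841092) (nat_lit 1824) (nat_lit 1276655942) (nat_lit 416) (nat_lit 5) (nat_lit 439) (nat_lit 5) (nat_lit 440) (nat_lit 5) (nat_lit 462) (nat_lit 453) (nat_lit 225)) (XT.nd (nat_lit 78) (nat_lit 0) (nat_lit 0) (XT.lf (nat_lit 0) (nat_lit 8244182348) (nat_lit 1748) (nat_lit 977948888) (nat_lit 1824) (nat_lit 10023144175) (nat_lit 416) (nat_lit 5) (nat_lit 439) (nat_lit 5) (nat_lit 440) (nat_lit 5) (nat_lit 463) (nat_lit 453) (nat_lit 224)) (XT.lf (nat_lit 76) (nat_lit 8674748831) (nat_lit 0) (nat_lit 438429352) (nat_lit 1824) (nat_lit 10327911086) (nat_lit 417) (nat_lit 5) (nat_lit 416) (nat_lit 5) (nat_lit 440) (nat_lit 5) (nat_lit 464) (nat_lit 453) (nat_lit 223)))))) (XT.nd (nat_lit 390) (nat_lit 1520) (nat_lit 0) (XT.nd (nat_lit 156) (nat_lit 0) (nat_lit 76) (XT.nd (nat_lit 78) (nat_lit 0) (nat_lit 0) (XT.lf (nat_lit 0) (nat_lit 10056825127) (nat_lit 1748) (nat_lit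 1165447015) (nat_lit 1824) (nat_lit 8417403459) (nat_lit 417) (nat_lit 5) (nat_lit 440) (nat_lit 5) (nat_lit 441) (nat_lit 5) (nat_lit 465) (nat_lit 453) (nat_lit 222)) (XT.lf (nat_lit 76) (nat_lit 8736048734) (nat_lit 0) (nat_lit 2338352889) (nat_lit 1824) (nat_lit 8766732494) (nat_lit 418) (nat_lit 5) (nat_lit 417) (nat_lit 5) (nat_lit 441) (nat_lit 5) (nat_lit 466) (nat_lit 453) (nat_lit 221))) (XT.nd (nat_lit 78) (nat_lit 0) (nat_lit 0) (XT.lf (nat_lit 0) (nat_lit 12159365787) (nat_lit 1748) (nat_lit 1241963982) (nat_lit 1824) (nat_lit 6644352870) (nat_lit 418) (nat_lit 5) (nat_lit 441) (nat_lit 5) (nat_lit 442) (nat_lit 5) (nat_lit 467) (nat_lit 453) (nat_lit 220)) (XT.nd (nat_lit 78) (nat_lit 0) (nat_lit 76) (XT.lf (nat_lit 76) (nat_lit 8916773888) (nat_lit 0) (nat_lit 4418234556) (nat_lit 1824) (nat_lit 6917935631) (nat_lit 419) (nat_lit 5) (nat_lit 418) (nat_lit 5) (nat_lit 442) (nat_lit 5) (nat_lit 468) (nat_lit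 453) (nat_lit 219)) (XT.lf (nat_lit 0) (nat_lit 14569032147) (nat_lit 1748) (nat_lit 1202703298) (nat_lit 1824) (nat_lit 4691919428) (nat_lit 419) (nat_lit 5) (nat_lit 442) (nat_lit 5) (nat_lit 443) (nat_lit 5) (nat_lit 469) (nat_lit 453) (nat_lit 218))))) (XT.nd (nat_lit 234) (nat_lit 1672) (nat_lit 0) (XT.nd (nat_lit 78) (nat_lit 0) (nat_lit 76) (XT.lf (nat_lit 76) (nat_lit 9222002566) (nat_lit 0) (nat_lit 6690627945) (nat_lit 1824) (nat_lit 4764252962) (nat_lit 420) (nat_lit 5) (nat_lit 419) (nat_lit 5) (nat_lit 443) (nat_lit 5) (nat_lit 470) (nat_lit 453) (nat_lit 217)) (XT.nd (nat_lit 78) (nat_lit 0) (nat_lit 0) (XT.lf (nat_lit 0) (nat_lit 17303753905) (nat_lit 1748) (nat_lit 1042653203) (nat_lit 1824) (nat_lit 2547557914) (nat_lit 420) (nat_lit 5) (nat_lit 443) (nat_lit 5) (nat_lit 444) (nat_lit 5) (nat_lit 471) (nat_lit 453) (nat_lit 216)) (XT.lf (nat_lit 76) (nat_lit 9657036340) (nat_lit 0) (nat_lit 9168582940)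 (nat_lit 1824) (nat_lit 2287711944) (nat_lit 421) (nat_lit 5) (nat_lit 420) (nat_lit 5) (nat_lit 444) (nat_lit 5) (nat_lit 472) (nat_lit 453) (nat_lit 215)))) (XT.nd (nat_lit 78) (nat_lit 1824) (nat_lit 0) (XT.lf (nat_lit 0) (nat_lit 20382193647) (nat_lit 1748) (nat_lit 756584874) (nat_lit 1824) (nat_lit 198222177) (nat_lit 421) (nat_lit 5) (nat_lit 444) (nat_lit 5) (nat_lit 445) (nat_lit 5) (nat_lit 473) (nat_lit 453) (nat_lit 214)) (XT.nd (nat_lit 78) (nat_lit 0) (nat_lit 0) (XT.lf (nat_lit 0) (nat_lit 523439781) (nat_lit 1824) (nat_lit 11338723003) (nat_lit 1900) (nat_lit 9700449703) (nat_lit 397) (nat_lit 5) (nat_lit 421) (nat_lit 5) (nat_lit 422) (nat_lit 5) (nat_lit 474) (nat_lit 453) (nat_lit 213)) (XT.lf (nat_lit 0) (nat_lit 2019675135) (nat_lit 1824) (nat_lit 367927912) (nat_lit 1900) (nat_lit 19404984377) (nat_lit 397) (nat_lit 5) (nat_lit 421) (nat_lit 5) (nat_lit 422) (nat_lit 5) (nat_lit 475) (nat_lit 453)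 (nat_lit 212))))))) (XT.nd (nat_lit 858) (nat_lit 4712) (nat_lit 0) (XT.nd (nat_lit 390) (nat_lit 2660) (nat_lit 0) (XT.nd (nat_lit 156) (nat_lit 1064) (nat_lit 0) (XT.nd (nat_lit 78) (nat_lit 0) (nat_lit 0) (XT.lf (nat_lit 0) (nat_lit 3660896229) (nat_lit 1824) (nat_lit 11110574768) (nat_lit 1900) (nat_lit 7253390918) (nat_lit 398) (nat_lit 5) (nat_lit 422) (nat_lit 5) (nat_lit 423) (nat_lit 5) (nat_lit 476) (nat_lit 453) (nat_lit 211)) (XT.lf (nat_lit 76) (nat_lit 148354663) (nat_lit 0) (nat_lit 5202069894) (nat_lit 1900) (nat_lit 16911048936) (nat_lit 399) (nat_lit 5) (nat_lit 398) (nat_lit 5) (nat_lit 423) (nat_lit 5) (nat_lit 477) (nat_lit 453) (nat_lit 210))) (XT.nd (nat_lit 78) (nat_lit 1140) (nat_lit 0) (XT.lf (nat_lit 0) (nat_lit 7174672994) (nat_lit 1824) (nat_lit 10751571446) (nat_lit 76) (nat_lit 4574555501) (nat_lit 399) (nat_lit 5) (nat_lit 423) (nat_lit 5) (nat_lit 400) (nat_lit 5) (nat_lit 478) (nat_lit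 453) (nat_lit 209)) (XT.nd (nat_lit 78) (nat_lit 0) (nat_lit 0) (XT.lf (nat_lit 0) (nat_lit 810222741) (nat_lit 1140) (nat_lit 8261247648) (nat_lit 1216) (nat_lit 13672722453) (nat_lit 384) (nat_lit 5) (nat_lit 399) (nat_lit 5) (nat_lit 400) (nat_lit 5) (nat_lit 479) (nat_lit 453) (nat_lit 208)) (XT.lf (nat_lit 0) (nat_lit 11085606145) (nat_lit 1216) (nat_lit 10256079196) (nat_lit 76) (nat_lit 1649181394) (nat_lit 384) (nat_lit 5) (nat_lit 400) (nat_lit 5) (nat_lit 385) (nat_lit 5) (nat_lit 480) (nat_lit 453) (nat_lit 207))))) (XT.nd (nat_lit 234) (nat_lit 912) (nat_lit 0) (XT.nd (nat_lit 78) (nat_lit 836) (nat_lit 0) (XT.lf (nat_lit 0) (nat_lit 1618737493) (nat_lit 912) (nat_lit 11582984543) (nat_lit 988) (nat_lit 10039519277) (nat_lit 372) (nat_lit 5) (nat_lit 384) (nat_lit 5) (nat_lit 385) (nat_lit 5) (nat_lit 481) (nat_lit 453) (nat_lit 206)) (XT.nd (nat_lit 78) (nat_lit 836) (nat_lit 0) (XT.lf (nat_lit 0) (nat_lit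 13866943288) (nat_lit 912) (nat_lit 1558566648) (nat_lit 988) (nat_lit 8069807590) (nat_lit 372) (nat_lit 5) (nat_lit 384) (nat_lit 5) (nat_lit 385) (nat_lit 5) (nat_lit 482) (nat_lit 453) (nat_lit 205)) (XT.lf (nat_lit 0) (nat_lit 2580067254) (nat_lit 836) (nat_lit 15183321771) (nat_lit 912) (nat_lit 5989695040) (nat_lit 361) (nat_lit 5) (nat_lit 372) (nat_lit 5) (nat_lit 373) (nat_lit 5) (nat_lit 483) (nat_lit 453) (nat_lit 204)))) (XT.nd (nat_lit 78) (nat_lit 912) (nat_lit 0) (XT.lf (nat_lit 0) (nat_lit 15149613486) (nat_lit 836) (nat_lit 5069920178) (nat_lit 912) (nat_lit 3795043206) (nat_lit 361) (nat_lit 5) (nat_lit 372) (nat_lit 5) (nat_lit 373) (nat_lit 5) (nat_lit 484) (nat_lit 453) (nat_lit 203)) (XT.nd (nat_lit 78) (nat_lit 76) (nat_lit 0) (XT.lf (nat_lit 0) (nat_lit 3700598587) (nat_lit 836) (nat_lit 19078998346) (nat_lit 912) (nat_lit 1500607749) (nat_lit 350) (nat_lit 5) (nat_lit 361) (nat_lit 5) (nat_lit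 362) (nat_lit 5) (nat_lit 485) (nat_lit 453) (nat_lit 202)) (XT.lf (nat_lit 0) (nat_lit 918893468) (nat_lit 912) (nat_lit 7954889700) (nat_lit 76) (nat_lit 15675450071) (nat_lit 349) (nat_lit 5) (nat_lit 361) (nat_lit 5) (nat_lit 350) (nat_lit 5) (nat_lit 486) (nat_lit 453) (nat_lit 201)))))) (XT.nd (nat_lit 390) (nat_lit 2280) (nat_lit 0) (XT.nd (nat_lit 156) (nat_lit 1596) (nat_lit 0) (XT.nd (nat_lit 78) (nat_lit 0) (nat_lit 0) (XT.lf (nat_lit 0) (nat_lit 3406054508) (nat_lit 912) (nat_lit 19858577503) (nat_lit 76) (nat_lit 1558025725) (nat_lit 338) (nat_lit 5) (nat_lit 350) (nat_lit 5) (nat_lit 339) (nat_lit 5) (nat_lit 487) (nat_lit 453) (nat_lit 200)) (XT.lf (nat_lit 0) (nat_lit 6052300052) (nat_lit 912) (nat_lit 6913477421) (nat_lit 76) (nat_lit 12133587412) (nat_lit 338) (nat_lit 5) (nat_lit 350) (nat_lit 5) (nat_lit 339) (nat_lit 5) (nat_lit 488) (nat_lit 453) (nat_lit 199))) (XT.nd (nat_lit 78) (nat_lit 760)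 (nat_lit 0) (XT.lf (nat_lit 0) (nat_lit 6371008822) (nat_lit 836) (nat_lit 2418727960) (nat_lit 912) (nat_lit 16591105038) (nat_lit 327) (nat_lit 5) (nat_lit 338) (nat_lit 5) (nat_lit 339) (nat_lit 5) (nat_lit 489) (nat_lit 453) (nat_lit 198)) (XT.nd (nat_lit 78) (nat_lit 760) (nat_lit 0) (XT.lf (nat_lit 0) (nat_lit 11679709012) (nat_lit 912) (nat_lit 5709687585) (nat_lit 76) (nat_lit 8276596911) (nat_lit 327) (nat_lit 5) (nat_lit 339) (nat_lit 5) (nat_lit 328) (nat_lit 5) (nat_lit 490) (nat_lit 453) (nat_lit 197)) (XT.lf (nat_lit 0) (nat_lit 7941543833) (nat_lit 760) (nat_lit 6750519073) (nat_lit 836) (nat_lit 11263494612) (nat_lit 317) (nat_lit 5) (nat_lit 327) (nat_lit 5) (nat_lit 328) (nat_lit 5) (nat_lit 491) (nat_lit 453) (nat_lit 196))))) (XT.nd (nat_lit 234) (nat_lit 1520) (nat_lit 0) (XT.nd (nat_lit 78) (nat_lit 760) (nat_lit 0) (XT.lf (nat_lit 0) (nat_lit 17826900900) (nat_lit 836) (nat_lit 4336924466) (nat_lit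 76) (nat_lit 4085843612) (nat_lit 317) (nat_lit 5) (nat_lit 328) (nat_lit 5) (nat_lit 318) (nat_lit 5) (nat_lit 492) (nat_lit 453) (nat_lit 195)) (XT.nd (nat_lit 78) (nat_lit 0) (nat_lit 0) (XT.lf (nat_lit 0) (nat_lit 9693095328) (nat_lit 760) (nat_lit 11436078750) (nat_lit 836) (nat_lit 5418394717) (nat_lit 307) (nat_lit 5) (nat_lit 317) (nat_lit 5) (nat_lit 318) (nat_lit 5) (nat_lit 493) (nat_lit 453) (nat_lit 194)) (XT.lf (nat_lit 0) (nat_lit 24059491152) (nat_lit 760) (nat_lit 464240936) (nat_lit 836) (nat_lit 2327170612) (nat_lit 307) (nat_lit 5) (nat_lit 317) (nat_lit 5) (nat_lit 318) (nat_lit 5) (nat_lit 494) (nat_lit 453) (nat_lit 193)))) (XT.nd (nat_lit 78) (nat_lit 760) (nat_lit 0) (XT.lf (nat_lit 0) (nat_lit 958354947) (nat_lit 760) (nat_lit 15530940153) (nat_lit 76) (nat_lit 10668035611) (nat_lit 297) (nat_lit 5) (nat_lit 307) (nat_lit 5) (nat_lit 298) (nat_lit 5) (nat_lit 495) (nat_lit 453) (nat_lit 192))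 (XT.nd (nat_lit 78) (nat_lit 760) (nat_lit 0) (XT.lf (nat_lit 0) (nat_lit 4297597652) (nat_lit 760) (nat_lit 1120763489) (nat_lit 76) (nat_lit 22050835969) (nat_lit 297) (nat_lit 5) (nat_lit 307) (nat_lit 5) (nat_lit 298) (nat_lit 5) (nat_lit 496) (nat_lit 453) (nat_lit 191)) (XT.lf (nat_lit 0) (nat_lit 7828922625) (nat_lit 836) (nat_lit 14069249679) (nat_lit 76) (nat_lit 5886623394) (nat_lit 287) (nat_lit 5) (nat_lit 298) (nat_lit 5) (nat_lit 288) (nat_lit 5) (nat_lit 497) (nat_lit 453) (nat_lit 190))))))))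
noncomputable def xc240 : XT := (XT.nd (nat_lit 57408) (nat_lit 0) (nat_lit 2204) (XT.nd (nat_lit 56550) (nat_lit 0) (nat_lit 10412) (XT.nd (nat_lit 56160) (nat_lit 0) (nat_lit 10260) (XT.nd (nat_lit 55926) (nat_lit 0) (nat_lit 10184) (XT.nd (nat_lit 78) (nat_lit 0) (nat_lit 0) (XT.lf (nat_lit 0) (nat_lit 727828726) (nat_lit 684) (nat_lit 10748520484) (nat_lit 760) (nat_lit 16629448341) (nat_lit 278) (nat_lit 5) (nat_lit 287) (nat_lit 5) (nat_lit 288) (nat_lit 5) (nat_lit 498) (nat_lit 453) (nat_lit 189)) (XT.lf (nat_lit 0) (nat_lit 15293141173) (nat_lit 760) (nat_lit 12427482017) (nat_lit 76) (nat_lit 710668693) (nat_lit 278) (nat_lit 5) (nat_lit 288) (nat_lit 5) (nat_lit 279) (nat_lit 5) (nat_lit 499) (nat_lit 453) (nat_lit 188))) (XT.nd (nat_lit 78) (nat_lit 0) (nat_lit 0) (XT.lf (nat_lit 0) (nat_lit 867550984) (nat_lit 0) (nat_lit 867550984) (nat_lit 1748) (nat_lit 7152681981) (nat_lit 412) (nat_lit 5) (nat_lit 412)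 (nat_lit 3) (nat_lit 435) (nat_lit 3) (nat_lit 454) (nat_lit 454) (nat_lit 232)) (XT.nd (nat_lit 78) (nat_lit 0) (nat_lit 0) (XT.lf (nat_lit 0) (nat_lit 3755900753) (nat_lit 1748) (nat_lit 7585049143) (nat_lit 1824) (nat_lit 6607281373) (nat_lit 412) (nat_lit 5) (nat_lit 435) (nat_lit 3) (nat_lit 436) (nat_lit 5) (nat_lit 455) (nat_lit 454) (nat_lit 231)) (XT.lf (nat_lit 76) (nat_lit 1038758566) (nat_lit 0) (nat_lit 3021362185) (nat_lit 1824) (nat_lit 14063972870) (nat_lit 413) (nat_lit 5) (nat_lit 412) (nat_lit 5) (nat_lit 436) (nat_lit 5) (nat_lit 456) (nat_lit 454) (nat_lit 230))))) (XT.nd (nat_lit 156) (nat_lit 0) (nat_lit 76) (XT.nd (nat_lit 78) (nat_lit 0) (nat_lit 0) (XT.lf (nat_lit 0) (nat_lit 4451820297) (nat_lit 1748) (nat_lit 8403368782) (nat_lit 1824) (nat_lit 5446658099) (nat_lit 413) (nat_lit 5) (nat_lit 436) (nat_lit 5) (nat_lit 437) (nat_lit 5) (nat_lit 457) (nat_lit 454) (nat_lit 229)) (XT.lf (nat_lit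 76) (nat_lit 435035005) (nat_lit 0) (nat_lit 4433935202) (nat_lit 1824) (nat_lit 13613835098) (nat_lit 414) (nat_lit 5) (nat_lit 413) (nat_lit 5) (nat_lit 437) (nat_lit 5) (nat_lit 458) (nat_lit 454) (nat_lit 228))) (XT.nd (nat_lit 78) (nat_lit 0) (nat_lit 0) (XT.lf (nat_lit 0) (nat_lit 5373090494) (nat_lit 1748) (nat_lit 9132491708) (nat_lit 1824) (nat_lit 4160229635) (nat_lit 414) (nat_lit 5) (nat_lit 437) (nat_lit 5) (nat_lit 438) (nat_lit 5) (nat_lit 459) (nat_lit 454) (nat_lit 227)) (XT.nd (nat_lit 78) (nat_lit 0) (nat_lit 76) (XT.lf (nat_lit 0) (nat_lit 5911638424) (nat_lit 1748) (nat_lit 71210943) (nat_lit 1824) (nat_lit 12869143984) (nat_lit 414) (nat_lit 5) (nat_lit 437) (nat_lit 5) (nat_lit 438) (nat_lit 5) (nat_lit 460) (nat_lit 454) (nat_lit 226)) (XT.lf (nat_lit 0) (nat_lit 6534365659) (nat_lit 1748) (nat_lit 9768545378) (nat_lit 1824) (nat_lit 2737521010) (nat_lit 415) (nat_lit 5) (nat_lit 438) (nat_lit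 5) (nat_lit 439) (nat_lit 5) (nat_lit 461) (nat_lit 454) (nat_lit 225)))))) (XT.nd (nat_lit 390) (nat_lit 0) (nat_lit 152) (XT.nd (nat_lit 156) (nat_lit 0) (nat_lit 76) (XT.nd (nat_lit 78) (nat_lit 0) (nat_lit 76) (XT.lf (nat_lit 0) (nat_lit 7204820552) (nat_lit 1748) (nat_lit 472417500) (nat_lit 1824) (nat_lit 11554697690) (nat_lit 415) (nat_lit 5) (nat_lit 438) (nat_lit 5) (nat_lit 439) (nat_lit 5) (nat_lit 462) (nat_lit 454) (nat_lit 224)) (XT.lf (nat_lit 0) (nat_lit 7950886685) (nat_lit 1748) (nat_lit 10307451520) (nat_lit 1824) (nat_lit 1167688916) (nat_lit 416) (nat_lit 5) (nat_lit 439) (nat_lit 5) (nat_lit 440) (nat_lit 5) (nat_lit 463) (nat_lit 454) (nat_lit 223))) (XT.nd (nat_lit 78) (nat_lit 0) (nat_lit 0) (XT.lf (nat_lit 0) (nat_lit 8761258685) (nat_lit 1748) (nat_lit 770011402) (nat_lit 1824) (nat_lit 10091744171) (nat_lit 416) (nat_lit 5) (nat_lit 439) (nat_lit 5) (nat_lit 440) (nat_lit 5) (nat_lit 464)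 (nat_lit 454) (nat_lit 222)) (XT.nd (nat_lit 78) (nat_lit 0) (nat_lit 76) (XT.lf (nat_lit 76) (nat_lit 9074243584) (nat_lit 0) (nat_lit 567952454) (nat_lit 1824) (nat_lit 10180659531) (nat_lit 417) (nat_lit 5) (nat_lit 416) (nat_lit 5) (nat_lit 440) (nat_lit 5) (nat_lit 465) (nat_lit 454) (nat_lit 221)) (XT.lf (nat_lit 0) (nat_lit 10597148173) (nat_lit 1748) (nat_lit 959501760) (nat_lit 1824) (nat_lit 8468917412) (nat_lit 417) (nat_lit 5) (nat_lit 440) (nat_lit 5) (nat_lit 441) (nat_lit 5) (nat_lit 466) (nat_lit 454) (nat_lit 220))))) (XT.nd (nat_lit 234) (nat_lit 0) (nat_lit 152) (XT.nd (nat_lit 78) (nat_lit 0) (nat_lit 76) (XT.lf (nat_lit 76) (nat_lit 9138515653) (nat_lit 0) (nat_lit 2491388507) (nat_lit 1824) (nat_lit 8601256626) (nat_lit 418) (nat_lit 5) (nat_lit 417) (nat_lit 5) (nat_lit 441) (nat_lit 5) (nat_lit 467) (nat_lit 454) (nat_lit 219)) (XT.nd (nat_lit 78) (nat_lit 0) (nat_lit 0) (XT.lf (nat_lit 0) (nat_lit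 12729341865) (nat_lit 1748) (nat_lit 1036183729) (nat_lit 1824) (nat_lit 6674421468) (nat_lit 418) (nat_lit 5) (nat_lit 441) (nat_lit 5) (nat_lit 442) (nat_lit 5) (nat_lit 468) (nat_lit 454) (nat_lit 218)) (XT.lf (nat_lit 76) (nat_lit 9324211665) (nat_lit 0) (nat_lit 4599365572) (nat_lit 1824) (nat_lit 6727877118) (nat_lit 419) (nat_lit 5) (nat_lit 418) (nat_lit 5) (nat_lit 442) (nat_lit 5) (nat_lit 469) (nat_lit 454) (nat_lit 217)))) (XT.nd (nat_lit 78) (nat_lit 0) (nat_lit 0) (XT.lf (nat_lit 0) (nat_lit 15175379774) (nat_lit 1748) (nat_lit 995136578) (nat_lit 1824) (nat_lit 4696003231) (nat_lit 419) (nat_lit 5) (nat_lit 442) (nat_lit 5) (nat_lit 443) (nat_lit 5) (nat_lit 470) (nat_lit 454) (nat_lit 216)) (XT.nd (nat_lit 78) (nat_lit 0) (nat_lit 76) (XT.lf (nat_lit 76) (nat_lit 9636539582) (nat_lit 0) (nat_lit 6904628642) (nat_lit 1824) (nat_lit 4542940306) (nat_lit 420) (nat_lit 5) (nat_lit 419) (nat_lit 5) (nat_lit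 443) (nat_lit 5) (nat_lit 471) (nat_lit 454) (nat_lit 215)) (XT.lf (nat_lit 0) (nat_lit 17953519638) (nat_lit 1748) (nat_lit 831221745) (nat_lit 1824) (nat_lit 2520924312) (nat_lit 420) (nat_lit 5) (nat_lit 443) (nat_lit 5) (nat_lit 444) (nat_lit 5) (nat_lit 472) (nat_lit 454) (nat_lit 214))))))) (XT.nd (nat_lit 858) (nat_lit 4940) (nat_lit 0) (XT.nd (nat_lit 390) (nat_lit 1900) (nat_lit 0) (XT.nd (nat_lit 156) (nat_lit 1748) (nat_lit 0) (XT.nd (nat_lit 78) (nat_lit 0) (nat_lit 76) (XT.lf (nat_lit 76) (nat_lit 10080933400) (nat_lit 0) (nat_lit 9420432424) (nat_lit 1824) (nat_lit 2028144581) (nat_lit 421) (nat_lit 5) (nat_lit 420) (nat_lit 5) (nat_lit 444) (nat_lit 5) (nat_lit 473) (nat_lit 454) (nat_lit 213)) (XT.lf (nat_lit 0) (nat_lit 21082768458) (nat_lit 1748) (nat_lit 539080906) (nat_lit 1824) (nat_lit 135931986) (nat_lit 421) (nat_lit 5) (nat_lit 444) (nat_lit 5) (nat_lit 445) (nat_lit 5) (nat_lit 474) (nat_lit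 454) (nat_lit 212))) (XT.nd (nat_lit 78) (nat_lit 0) (nat_lit 0) (XT.lf (nat_lit 0) (nat_lit 824605571) (nat_lit 1824) (nat_lit 11330432253) (nat_lit 1900) (nat_lit 9832916142) (nat_lit 397) (nat_lit 5) (nat_lit 421) (nat_lit 5) (nat_lit 422) (nat_lit 5) (nat_lit 475) (nat_lit 454) (nat_lit 211)) (XT.nd (nat_lit 78) (nat_lit 0) (nat_lit 76) (XT.lf (nat_lit 0) (nat_lit 2345065690) (nat_lit 1824) (nat_lit 144830382) (nat_lit 1900) (nat_lit 19732748226) (nat_lit 397) (nat_lit 5) (nat_lit 421) (nat_lit 5) (nat_lit 422) (nat_lit 5) (nat_lit 476) (nat_lit 454) (nat_lit 210)) (XT.lf (nat_lit 0) (nat_lit 4014672131) (nat_lit 1824) (nat_lit 11097798026) (nat_lit 1900) (nat_lit 7347184765) (nat_lit 398) (nat_lit 5) (nat_lit 422) (nat_lit 5) (nat_lit 423) (nat_lit 5) (nat_lit 477) (nat_lit 454) (nat_lit 209))))) (XT.nd (nat_lit 234) (nat_lit 912) (nat_lit 0) (XT.nd (nat_lit 78) (nat_lit 1064) (nat_lit 0) (XT.lf (nat_lit 76) (nat_lit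 384764018) (nat_lit 0) (nat_lit 5349241532) (nat_lit 1900) (nat_lit 16967074716) (nat_lit 399) (nat_lit 5) (nat_lit 398) (nat_lit 5) (nat_lit 423) (nat_lit 5) (nat_lit 478) (nat_lit 454) (nat_lit 208)) (XT.nd (nat_lit 78) (nat_lit 1140) (nat_lit 0) (XT.lf (nat_lit 0) (nat_lit 7589041426) (nat_lit 1824) (nat_lit 10731950925) (nat_lit 76) (nat_lit 4624316632) (nat_lit 399) (nat_lit 5) (nat_lit 423) (nat_lit 5) (nat_lit 400) (nat_lit 5) (nat_lit 479) (nat_lit 454) (nat_lit 207)) (XT.lf (nat_lit 0) (nat_lit 1059535383) (nat_lit 1140) (nat_lit 8460441605) (nat_lit 1216) (nat_lit 13673670464) (nat_lit 384) (nat_lit 5) (nat_lit 399) (nat_lit 5) (nat_lit 400) (nat_lit 5) (nat_lit 480) (nat_lit 454) (nat_lit 206)))) (XT.nd (nat_lit 78) (nat_lit 912) (nat_lit 0) (XT.lf (nat_lit 0) (nat_lit 11568942426) (nat_lit 1216) (nat_lit 10227124325) (nat_lit 76) (nat_lit 1649298850) (nat_lit 384) (nat_lit 5) (nat_lit 400) (nat_lit 5) (nat_lit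 385) (nat_lit 5) (nat_lit 481) (nat_lit 454) (nat_lit 205)) (XT.nd (nat_lit 78) (nat_lit 0) (nat_lit 0) (XT.lf (nat_lit 0) (nat_lit 1883648721) (nat_lit 912) (nat_lit 11840111810) (nat_lit 988) (nat_lit 9977061229) (nat_lit 372) (nat_lit 5) (nat_lit 384) (nat_lit 5) (nat_lit 385) (nat_lit 5) (nat_lit 482) (nat_lit 454) (nat_lit 204)) (XT.lf (nat_lit 0) (nat_lit 14372259093) (nat_lit 912) (nat_lit 1614706193) (nat_lit 988) (nat_lit 7973117042) (nat_lit 372) (nat_lit 5) (nat_lit 384) (nat_lit 5) (nat_lit 385) (nat_lit 5) (nat_lit 483) (nat_lit 454) (nat_lit 203)))))) (XT.nd (nat_lit 390) (nat_lit 2356) (nat_lit 0) (XT.nd (nat_lit 156) (nat_lit 1748) (nat_lit 0) (XT.nd (nat_lit 78) (nat_lit 0) (nat_lit 0) (XT.lf (nat_lit 0) (nat_lit 2863414456) (nat_lit 836) (nat_lit 15504573508) (nat_lit 912) (nat_lit 5855090135) (nat_lit 361) (nat_lit 5) (nat_lit 372) (nat_lit 5) (nat_lit 373) (nat_lit 5) (nat_lit 484) (nat_lit 454) (nat_lit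 202)) (XT.lf (nat_lit 0) (nat_lit 15679807576) (nat_lit 836) (nat_lit 5188559073) (nat_lit 912) (nat_lit 3621533475) (nat_lit 361) (nat_lit 5) (nat_lit 372) (nat_lit 5) (nat_lit 373) (nat_lit 5) (nat_lit 485) (nat_lit 454) (nat_lit 201))) (XT.nd (nat_lit 78) (nat_lit 912) (nat_lit 0) (XT.lf (nat_lit 0) (nat_lit 4005364427) (nat_lit 836) (nat_lit 19470862236) (nat_lit 912) (nat_lit 1284683479) (nat_lit 350) (nat_lit 5) (nat_lit 361) (nat_lit 5) (nat_lit 362) (nat_lit 5) (nat_lit 486) (nat_lit 454) (nat_lit 200)) (XT.nd (nat_lit 78) (nat_lit 836) (nat_lit 0) (XT.lf (nat_lit 0) (nat_lit 1175223225) (nat_lit 912) (nat_lit 7884521102) (nat_lit 76) (nat_lit 15975639685) (nat_lit 349) (nat_lit 5) (nat_lit 361) (nat_lit 5) (nat_lit 350) (nat_lit 5) (nat_lit 487) (nat_lit 454) (nat_lit 199)) (XT.lf (nat_lit 0) (nat_lit 3708897597) (nat_lit 912) (nat_lit 20022979386) (nat_lit 76) (nat_lit 1582466081) (nat_lit 338) (nat_lit 5)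 (nat_lit 350) (nat_lit 5) (nat_lit 339) (nat_lit 5) (nat_lit 488) (nat_lit 454) (nat_lit 198))))) (XT.nd (nat_lit 234) (nat_lit 1520) (nat_lit 0) (XT.nd (nat_lit 78) (nat_lit 836) (nat_lit 0) (XT.lf (nat_lit 0) (nat_lit 6403465659) (nat_lit 912) (nat_lit 6823541413) (nat_lit 76) (nat_lit 12369670770) (nat_lit 338) (nat_lit 5) (nat_lit 350) (nat_lit 5) (nat_lit 339) (nat_lit 5) (nat_lit 489) (nat_lit 454) (nat_lit 197)) (XT.nd (nat_lit 78) (nat_lit 0) (nat_lit 0) (XT.lf (nat_lit 0) (nat_lit 6725133202) (nat_lit 836) (nat_lit 2467477687) (nat_lit 912) (nat_lit 16691235643) (nat_lit 327) (nat_lit 5) (nat_lit 338) (nat_lit 5) (nat_lit 339) (nat_lit 5) (nat_lit 490) (nat_lit 454) (nat_lit 196)) (XT.lf (nat_lit 0) (nat_lit 12135927639) (nat_lit 912) (nat_lit 5597098235) (nat_lit 76) (nat_lit 8441765862) (nat_lit 327) (nat_lit 5) (nat_lit 339) (nat_lit 5) (nat_lit 328) (nat_lit 5) (nat_lit 491) (nat_lit 454) (nat_lit 195))))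 (XT.nd (nat_lit 78) (nat_lit 760) (nat_lit 0) (XT.lf (nat_lit 0) (nat_lit 8325665817) (nat_lit 760) (nat_lit 6879960347) (nat_lit 836) (nat_lit 11264580265) (nat_lit 317) (nat_lit 5) (nat_lit 327) (nat_lit 5) (nat_lit 328) (nat_lit 5) (nat_lit 492) (nat_lit 454) (nat_lit 194)) (XT.nd (nat_lit 78) (nat_lit 760) (nat_lit 0) (XT.lf (nat_lit 0) (nat_lit 18398888094) (nat_lit 836) (nat_lit 4198450027) (nat_lit 76) (nat_lit 4172948786) (nat_lit 317) (nat_lit 5) (nat_lit 328) (nat_lit 5) (nat_lit 318) (nat_lit 5) (nat_lit 493) (nat_lit 454) (nat_lit 193)) (XT.lf (nat_lit 0) (nat_lit 10110688500) (nat_lit 760) (nat_lit 11653746354) (nat_lit 836) (nat_lit 5309766606) (nat_lit 307) (nat_lit 5) (nat_lit 317) (nat_lit 5) (nat_lit 318) (nat_lit 5) (nat_lit 494) (nat_lit 454) (nat_lit 192))))))))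
noncomputable def xc241 : XT := (XT.nd (nat_lit 57642) (nat_lit 0) (nat_lit 2280) (XT.nd (nat_lit 56784) (nat_lit 0) (nat_lit 9728) (XT.nd (nat_lit 56316) (nat_lit 0) (nat_lit 9500) (XT.nd (nat_lit 156) (nat_lit 760) (nat_lit 0) (XT.nd (nat_lit 78) (nat_lit 760) (nat_lit 0) (XT.lf (nat_lit 0) (nat_lit 24760025352) (nat_lit 760) (nat_lit 462688528) (nat_lit 836) (nat_lit 2160972843) (nat_lit 307) (nat_lit 5) (nat_lit 317) (nat_lit 5) (nat_lit 318) (nat_lit 5) (nat_lit 495) (nat_lit 454) (nat_lit 191)) (XT.lf (nat_lit 0) (nat_lit 1184877003) (nat_lit 760) (nat_lit 15616704314) (nat_lit 76) (nat_lit 10894687503) (nat_lit 297) (nat_lit 5) (nat_lit 307) (nat_lit 5) (nat_lit 298) (nat_lit 5) (nat_lit 496) (nat_lit 454) (nat_lit 190))) (XT.nd (nat_lit 78) (nat_lit 760) (nat_lit 0) (XT.lf (nat_lit 0) (nat_lit 4586838779) (nat_lit 760) (nat_lit 922733031) (nat_lit 76) (nat_lit 22504883256) (nat_lit 297) (nat_lit 5) (nat_lit 307)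 (nat_lit 5) (nat_lit 298) (nat_lit 5) (nat_lit 497) (nat_lit 454) (nat_lit 189)) (XT.nd (nat_lit 56004) (nat_lit 0) (nat_lit 9500) (XT.lf (nat_lit 0) (nat_lit 8186344677) (nat_lit 836) (nat_lit 14127684348) (nat_lit 76) (nat_lit 6022386693) (nat_lit 287) (nat_lit 5) (nat_lit 298) (nat_lit 5) (nat_lit 288) (nat_lit 5) (nat_lit 498) (nat_lit 454) (nat_lit 188)) (XT.lf (nat_lit 0) (nat_lit 987991216) (nat_lit 0) (nat_lit 987991216) (nat_lit 1748) (nat_lit 7085361683) (nat_lit 412) (nat_lit 5) (nat_lit 412) (nat_lit 3) (nat_lit 435) (nat_lit 3) (nat_lit 455) (nat_lit 455) (nat_lit 230))))) (XT.nd (nat_lit 234) (nat_lit 0) (nat_lit 76) (XT.nd (nat_lit 78) (nat_lit 0) (nat_lit 0) (XT.lf (nat_lit 0) (nat_lit 4233977791) (nat_lit 1748) (nat_lit 7525075521) (nat_lit 1824) (nat_lit 6539942336) (nat_lit 412) (nat_lit 5) (nat_lit 435) (nat_lit 3) (nat_lit 436) (nat_lit 5) (nat_lit 456) (nat_lit 455) (nat_lit 229)) (XT.nd (nat_lit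 78) (nat_lit 0) (nat_lit 76) (XT.lf (nat_lit 76) (nat_lit 1269815746) (nat_lit 0) (nat_lit 3267930576) (nat_lit 1824) (nat_lit 13940762408) (nat_lit 413) (nat_lit 5) (nat_lit 412) (nat_lit 5) (nat_lit 436) (nat_lit 5) (nat_lit 457) (nat_lit 455) (nat_lit 228)) (XT.lf (nat_lit 0) (nat_lit 4928322002) (nat_lit 1748) (nat_lit 8356183880) (nat_lit 1824) (nat_lit 5375493346) (nat_lit 413) (nat_lit 5) (nat_lit 436) (nat_lit 5) (nat_lit 437) (nat_lit 5) (nat_lit 458) (nat_lit 455) (nat_lit 227)))) (XT.nd (nat_lit 78) (nat_lit 0) (nat_lit 76) (XT.lf (nat_lit 76) (nat_lit 657571850) (nat_lit 0) (nat_lit 4690034067) (nat_lit 1824) (nat_lit 13497097439) (nat_lit 414) (nat_lit 5) (nat_lit 413) (nat_lit 5) (nat_lit 437) (nat_lit 5) (nat_lit 459) (nat_lit 455) (nat_lit 226)) (XT.nd (nat_lit 78) (nat_lit 0) (nat_lit 0) (XT.lf (nat_lit 0) (nat_lit 5853267307) (nat_lit 1748) (nat_lit 9096826638) (nat_lit 1824) (nat_lit 4081449507) (nat_lit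 414) (nat_lit 5) (nat_lit 437) (nat_lit 5) (nat_lit 438) (nat_lit 5) (nat_lit 460) (nat_lit 455) (nat_lit 225)) (XT.lf (nat_lit 76) (nat_lit 143278177) (nat_lit 0) (nat_lit 6252930137) (nat_lit 1824) (nat_lit 12825370393) (nat_lit 415) (nat_lit 5) (nat_lit 414) (nat_lit 5) (nat_lit 438) (nat_lit 5) (nat_lit 461) (nat_lit 455) (nat_lit 224)))))) (XT.nd (nat_lit 390) (nat_lit 0) (nat_lit 152) (XT.nd (nat_lit 156) (nat_lit 0) (nat_lit 76) (XT.nd (nat_lit 78) (nat_lit 0) (nat_lit 0) (XT.lf (nat_lit 0) (nat_lit 7023721108) (nat_lit 1748) (nat_lit 9743018073) (nat_lit 1824) (nat_lit 2647202881) (nat_lit 415) (nat_lit 5) (nat_lit 438) (nat_lit 5) (nat_lit 439) (nat_lit 5) (nat_lit 462) (nat_lit 455) (nat_lit 223)) (XT.lf (nat_lit 0) (nat_lit 7700552391) (nat_lit 1748) (nat_lit 265298975) (nat_lit 1824) (nat_lit 11643567575) (nat_lit 415) (nat_lit 5) (nat_lit 438) (nat_lit 5) (nat_lit 439) (nat_lit 5) (nat_lit 463) (nat_lit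 455) (nat_lit 222))) (XT.nd (nat_lit 78) (nat_lit 0) (nat_lit 0) (XT.lf (nat_lit 0) (nat_lit 8455191371) (nat_lit 1748) (nat_lit 10290564801) (nat_lit 1824) (nat_lit 1061765354) (nat_lit 416) (nat_lit 5) (nat_lit 439) (nat_lit 5) (nat_lit 440) (nat_lit 5) (nat_lit 464) (nat_lit 455) (nat_lit 221)) (XT.nd (nat_lit 78) (nat_lit 0) (nat_lit 0) (XT.lf (nat_lit 0) (nat_lit 9275000478) (nat_lit 1748) (nat_lit 566749131) (nat_lit 1824) (nat_lit 10166836564) (nat_lit 416) (nat_lit 5) (nat_lit 439) (nat_lit 5) (nat_lit 440) (nat_lit 5) (nat_lit 465) (nat_lit 455) (nat_lit 220)) (XT.lf (nat_lit 76) (nat_lit 9472952386) (nat_lit 0) (nat_lit 695376974) (nat_lit 1824) (nat_lit 10044201810) (nat_lit 417) (nat_lit 5) (nat_lit 416) (nat_lit 5) (nat_lit 440) (nat_lit 5) (nat_lit 466) (nat_lit 455) (nat_lit 219))))) (XT.nd (nat_lit 234) (nat_lit 0) (nat_lit 76) (XT.nd (nat_lit 78) (nat_lit 0) (nat_lit 0) (XT.lf (nat_lit 0) (nat_lit 11135106652)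 (nat_lit 1748) (nat_lit 758339819) (nat_lit 1824) (nat_lit 8525998456) (nat_lit 417) (nat_lit 5) (nat_lit 440) (nat_lit 5) (nat_lit 441) (nat_lit 5) (nat_lit 467) (nat_lit 455) (nat_lit 218)) (XT.nd (nat_lit 78) (nat_lit 0) (nat_lit 76) (XT.lf (nat_lit 76) (nat_lit 9540188258) (nat_lit 0) (nat_lit 2643358299) (nat_lit 1824) (nat_lit 8445705329) (nat_lit 418) (nat_lit 5) (nat_lit 417) (nat_lit 5) (nat_lit 441) (nat_lit 5) (nat_lit 468) (nat_lit 455) (nat_lit 217)) (XT.lf (nat_lit 0) (nat_lit 13298027860) (nat_lit 1748) (nat_lit 835243108) (nat_lit 1824) (nat_lit 6709084004) (nat_lit 418) (nat_lit 5) (nat_lit 441) (nat_lit 5) (nat_lit 442) (nat_lit 5) (nat_lit 469) (nat_lit 455) (nat_lit 216)))) (XT.nd (nat_lit 78) (nat_lit 0) (nat_lit 76) (XT.lf (nat_lit 76) (nat_lit 9730901876) (nat_lit 0) (nat_lit 4780516979) (nat_lit 1824) (nat_lit 6546770275) (nat_lit 419) (nat_lit 5) (nat_lit 418) (nat_lit 5) (nat_lit 442) (nat_lit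 5) (nat_lit 470) (nat_lit 455) (nat_lit 215)) (XT.nd (nat_lit 78) (nat_lit 0) (nat_lit 0) (XT.lf (nat_lit 0) (nat_lit 15781623801) (nat_lit 1748) (nat_lit 792412641) (nat_lit 1824) (nat_lit 4703653989) (nat_lit 419) (nat_lit 5) (nat_lit 442) (nat_lit 5) (nat_lit 443) (nat_lit 5) (nat_lit 471) (nat_lit 455) (nat_lit 214)) (XT.lf (nat_lit 76) (nat_lit 10050432393) (nat_lit 0) (nat_lit 7119795549) (nat_lit 1824) (nat_lit 4329495271) (nat_lit 420) (nat_lit 5) (nat_lit 419) (nat_lit 5) (nat_lit 443) (nat_lit 5) (nat_lit 472) (nat_lit 455) (nat_lit 213))))))) (XT.nd (nat_lit 858) (nat_lit 4180) (nat_lit 0) (XT.nd (nat_lit 390) (nat_lit 1900) (nat_lit 0) (XT.nd (nat_lit 156) (nat_lit 1748) (nat_lit 0) (XT.nd (nat_lit 78) (nat_lit 0) (nat_lit 0) (XT.lf (nat_lit 0) (nat_lit 18604488008) (nat_lit 1748) (nat_lit 624581549) (nat_lit 1824) (nat_lit 2496770748) (nat_lit 420) (nat_lit 5) (nat_lit 443) (nat_lit 5) (nat_lit 444) (nat_lit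 5) (nat_lit 473) (nat_lit 455) (nat_lit 212)) (XT.lf (nat_lit 76) (nat_lit 10504347853) (nat_lit 0) (nat_lit 9674659821) (nat_lit 1824) (nat_lit 1775241881) (nat_lit 421) (nat_lit 5) (nat_lit 420) (nat_lit 5) (nat_lit 444) (nat_lit 5) (nat_lit 474) (nat_lit 455) (nat_lit 211))) (XT.nd (nat_lit 78) (nat_lit 1824) (nat_lit 0) (XT.lf (nat_lit 0) (nat_lit 21785979899) (nat_lit 1748) (nat_lit 326260384) (nat_lit 1824) (nat_lit 74968740) (nat_lit 421) (nat_lit 5) (nat_lit 444) (nat_lit 5) (nat_lit 445) (nat_lit 5) (nat_lit 475) (nat_lit 455) (nat_lit 210)) (XT.nd (nat_lit 78) (nat_lit 0) (nat_lit 0) (XT.lf (nat_lit 0) (nat_lit 1120506558) (nat_lit 1824) (nat_lit 11331103556) (nat_lit 1900) (nat_lit 9970421682) (nat_lit 397) (nat_lit 5) (nat_lit 421) (nat_lit 5) (nat_lit 422) (nat_lit 5) (nat_lit 476) (nat_lit 455) (nat_lit 209)) (XT.lf (nat_lit 76) (nat_lit 74760708) (nat_lit 0) (nat_lit 2591621962) (nat_lit 1900) (nat_lit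 19995134954) (nat_lit 398) (nat_lit 5) (nat_lit 397) (nat_lit 5) (nat_lit 422) (nat_lit 5) (nat_lit 477) (nat_lit 455) (nat_lit 208))))) (XT.nd (nat_lit 234) (nat_lit 1976) (nat_lit 0) (XT.nd (nat_lit 78) (nat_lit 0) (nat_lit 0) (XT.lf (nat_lit 0) (nat_lit 4364629141) (nat_lit 1824) (nat_lit 11093890630) (nat_lit 1900) (nat_lit 7444845520) (nat_lit 398) (nat_lit 5) (nat_lit 422) (nat_lit 5) (nat_lit 423) (nat_lit 5) (nat_lit 478) (nat_lit 455) (nat_lit 207)) (XT.nd (nat_lit 78) (nat_lit 0) (nat_lit 76) (XT.lf (nat_lit 76) (nat_lit 616836713) (nat_lit 0) (nat_lit 5497681803) (nat_lit 1900) (nat_lit 17035178996) (nat_lit 399) (nat_lit 5) (nat_lit 398) (nat_lit 5) (nat_lit 423) (nat_lit 5) (nat_lit 479) (nat_lit 455) (nat_lit 206)) (XT.lf (nat_lit 0) (nat_lit 8001178821) (nat_lit 1824) (nat_lit 10721049815) (nat_lit 76) (nat_lit 4676693411) (nat_lit 399) (nat_lit 5) (nat_lit 423) (nat_lit 5) (nat_lit 400) (nat_lit 5) (nat_lit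 480) (nat_lit 455) (nat_lit 205)))) (XT.nd (nat_lit 78) (nat_lit 912) (nat_lit 0) (XT.lf (nat_lit 0) (nat_lit 1304782403) (nat_lit 1140) (nat_lit 8662300383) (nat_lit 1216) (nat_lit 13685219191) (nat_lit 384) (nat_lit 5) (nat_lit 399) (nat_lit 5) (nat_lit 400) (nat_lit 5) (nat_lit 481) (nat_lit 455) (nat_lit 204)) (XT.nd (nat_lit 78) (nat_lit 912) (nat_lit 0) (XT.lf (nat_lit 0) (nat_lit 12051786249) (nat_lit 1216) (nat_lit 10206679831) (nat_lit 76) (nat_lit 1650694890) (nat_lit 384) (nat_lit 5) (nat_lit 400) (nat_lit 5) (nat_lit 385) (nat_lit 5) (nat_lit 482) (nat_lit 455) (nat_lit 203)) (XT.lf (nat_lit 0) (nat_lit 2144828499) (nat_lit 912) (nat_lit 12101392686) (nat_lit 988) (nat_lit 9923576278) (nat_lit 372) (nat_lit 5) (nat_lit 384) (nat_lit 5) (nat_lit 385) (nat_lit 5) (nat_lit 483) (nat_lit 455) (nat_lit 202)))))) (XT.nd (nat_lit 390) (nat_lit 2432) (nat_lit 0) (XT.nd (nat_lit 156) (nat_lit 912) (nat_lit 0) (XT.nd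 (nat_lit 78) (nat_lit 836) (nat_lit 0) (XT.lf (nat_lit 0) (nat_lit 14878828592) (nat_lit 912) (nat_lit 1670998982) (nat_lit 988) (nat_lit 7884514505) (nat_lit 372) (nat_lit 5) (nat_lit 384) (nat_lit 5) (nat_lit 385) (nat_lit 5) (nat_lit 484) (nat_lit 455) (nat_lit 201)) (XT.lf (nat_lit 0) (nat_lit 3143429629) (nat_lit 836) (nat_lit 15831567421) (nat_lit 912) (nat_lit 5727671747) (nat_lit 361) (nat_lit 5) (nat_lit 372) (nat_lit 5) (nat_lit 373) (nat_lit 5) (nat_lit 485) (nat_lit 455) (nat_lit 200))) (XT.nd (nat_lit 78) (nat_lit 912) (nat_lit 0) (XT.lf (nat_lit 0) (nat_lit 16211783024) (nat_lit 836) (nat_lit 5308901277) (nat_lit 912) (nat_lit 3454238468) (nat_lit 361) (nat_lit 5) (nat_lit 372) (nat_lit 5) (nat_lit 373) (nat_lit 5) (nat_lit 486) (nat_lit 455) (nat_lit 199)) (XT.nd (nat_lit 78) (nat_lit 76) (nat_lit 0) (XT.lf (nat_lit 0) (nat_lit 4307265130) (nat_lit 836) (nat_lit 19870164066) (nat_lit 912) (nat_lit 1073990734)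 (nat_lit 350) (nat_lit 5) (nat_lit 361) (nat_lit 5) (nat_lit 362) (nat_lit 5) (nat_lit 487) (nat_lit 455) (nat_lit 198)) (XT.lf (nat_lit 0) (nat_lit 1427439614) (nat_lit 912) (nat_lit 7821655592) (nat_lit 76) (nat_lit 16282350300) (nat_lit 349) (nat_lit 5) (nat_lit 361) (nat_lit 5) (nat_lit 350) (nat_lit 5) (nat_lit 488) (nat_lit 455) (nat_lit 197))))) (XT.nd (nat_lit 234) (nat_lit 760) (nat_lit 0) (XT.nd (nat_lit 78) (nat_lit 836) (nat_lit 0) (XT.lf (nat_lit 0) (nat_lit 4008683006) (nat_lit 912) (nat_lit 20199708036) (nat_lit 76) (nat_lit 1607656197) (nat_lit 338) (nat_lit 5) (nat_lit 350) (nat_lit 5) (nat_lit 339) (nat_lit 5) (nat_lit 489) (nat_lit 455) (nat_lit 196)) (XT.nd (nat_lit 78) (nat_lit 836) (nat_lit 0) (XT.lf (nat_lit 0) (nat_lit 6752718754) (nat_lit 912) (nat_lit 6740668185) (nat_lit 76) (nat_lit 12610731631) (nat_lit 338) (nat_lit 5) (nat_lit 350) (nat_lit 5) (nat_lit 339) (nat_lit 5) (nat_lit 490) (nat_lit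 455) (nat_lit 195)) (XT.lf (nat_lit 0) (nat_lit 7077536869) (nat_lit 836) (nat_lit 2517187840) (nat_lit 912) (nat_lit 16802365724) (nat_lit 327) (nat_lit 5) (nat_lit 338) (nat_lit 5) (nat_lit 339) (nat_lit 5) (nat_lit 491) (nat_lit 455) (nat_lit 194)))) (XT.nd (nat_lit 78) (nat_lit 760) (nat_lit 0) (XT.lf (nat_lit 0) (nat_lit 12592625860) (nat_lit 912) (nat_lit 5491063362) (nat_lit 76) (nat_lit 8610252287) (nat_lit 327) (nat_lit 5) (nat_lit 339) (nat_lit 5) (nat_lit 328) (nat_lit 5) (nat_lit 492) (nat_lit 455) (nat_lit 193)) (XT.nd (nat_lit 78) (nat_lit 0) (nat_lit 0) (XT.lf (nat_lit 0) (nat_lit 8708721913) (nat_lit 760) (nat_lit 7012206702) (nat_lit 836) (nat_lit 11274392979) (nat_lit 317) (nat_lit 5) (nat_lit 327) (nat_lit 5) (nat_lit 328) (nat_lit 5) (nat_lit 493) (nat_lit 455) (nat_lit 192)) (XT.lf (nat_lit 0) (nat_lit 18973948877) (nat_lit 836) (nat_lit 4065951391) (nat_lit 76) (nat_lit 4261586828) (nat_lit 317)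 (nat_lit 5) (nat_lit 328) (nat_lit 5) (nat_lit 318) (nat_lit 5) (nat_lit 494) (nat_lit 455) (nat_lit 191))))))))
noncomputable def xc242 : XT := (XT.nd (nat_lit 57720) (nat_lit 0) (nat_lit 1520) (XT.nd (nat_lit 56862) (nat_lit 0) (nat_lit 8968) (XT.nd (nat_lit 56394) (nat_lit 0) (nat_lit 8740) (XT.nd (nat_lit 156) (nat_lit 760) (nat_lit 0) (XT.nd (nat_lit 78) (nat_lit 0) (nat_lit 0) (XT.lf (nat_lit 0) (nat_lit 10527945777) (nat_lit 760) (nat_lit 11876196550) (nat_lit 836) (nat_lit 5207392153) (nat_lit 307) (nat_lit 5) (nat_lit 317) (nat_lit 5) (nat_lit 318) (nat_lit 5) (nat_lit 495) (nat_lit 455) (nat_lit 190)) (XT.lf (nat_lit 0) (nat_lit 25466052827) (nat_lit 760) (nat_lit 461525895) (nat_lit 836) (nat_lit 1999712118) (nat_lit 307) (nat_lit 5) (nat_lit 317) (nat_lit 5) (nat_lit 318) (nat_lit 5) (nat_lit 496) (nat_lit 455) (nat_lit 189))) (XT.nd (nat_lit 78) (nat_lit 0) (nat_lit 0) (XT.lf (nat_lit 0) (nat_lit 1407877655)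 (nat_lit 760) (nat_lit 15712915138) (nat_lit 76) (nat_lit 11125356319) (nat_lit 297) (nat_lit 5) (nat_lit 307) (nat_lit 5) (nat_lit 298) (nat_lit 5) (nat_lit 497) (nat_lit 455) (nat_lit 188)) (XT.nd (nat_lit 56082) (nat_lit 0) (nat_lit 8740) (XT.lf (nat_lit 0) (nat_lit 4873970762) (nat_lit 760) (nat_lit 729302140) (nat_lit 76) (nat_lit 22967505496) (nat_lit 297) (nat_lit 5) (nat_lit 307) (nat_lit 5) (nat_lit 298) (nat_lit 5) (nat_lit 498) (nat_lit 455) (nat_lit 187)) (XT.lf (nat_lit 0) (nat_lit 1106837173) (nat_lit 0) (nat_lit 1106837173) (nat_lit 1748) (nat_lit 7024864056) (nat_lit 412) (nat_lit 5) (nat_lit 412) (nat_lit 3) (nat_lit 435) (nat_lit 3) (nat_lit 456) (nat_lit 456) (nat_lit 228))))) (XT.nd (nat_lit 234) (nat_lit 0) (nat_lit 76) (XT.nd (nat_lit 78) (nat_lit 0) (nat_lit 0) (XT.lf (nat_lit 0) (nat_lit 4705968980) (nat_lit 1748) (nat_lit 7472122010) (nat_lit 1824) (nat_lit 6479002750) (nat_lit 412) (nat_lit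 5) (nat_lit 435) (nat_lit 3) (nat_lit 436) (nat_lit 5) (nat_lit 457) (nat_lit 456) (nat_lit 227)) (XT.nd (nat_lit 78) (nat_lit 0) (nat_lit 76) (XT.lf (nat_lit 76) (nat_lit 1497328562) (nat_lit 0) (nat_lit 3512202247) (nat_lit 1824) (nat_lit 13830794574) (nat_lit 413) (nat_lit 5) (nat_lit 412) (nat_lit 5) (nat_lit 436) (nat_lit 5) (nat_lit 458) (nat_lit 456) (nat_lit 226)) (XT.lf (nat_lit 0) (nat_lit 5399307990) (nat_lit 1748) (nat_lit 8316413788) (nat_lit 1824) (nat_lit 5309898720) (nat_lit 413) (nat_lit 5) (nat_lit 436) (nat_lit 5) (nat_lit 437) (nat_lit 5) (nat_lit 459) (nat_lit 456) (nat_lit 225)))) (XT.nd (nat_lit 78) (nat_lit 0) (nat_lit 76) (XT.lf (nat_lit 76) (nat_lit 876255913) (nat_lit 0) (nat_lit 4944753781) (nat_lit 1824) (nat_lit 13393130928) (nat_lit 414) (nat_lit 5) (nat_lit 413) (nat_lit 5) (nat_lit 437) (nat_lit 5) (nat_lit 460) (nat_lit 456) (nat_lit 224)) (XT.nd (nat_lit 78) (nat_lit 0) (nat_lit 0)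 (XT.lf (nat_lit 0) (nat_lit 6328574678) (nat_lit 1748) (nat_lit 9068925699) (nat_lit 1824) (nat_lit 4007383840) (nat_lit 414) (nat_lit 5) (nat_lit 437) (nat_lit 5) (nat_lit 438) (nat_lit 5) (nat_lit 461) (nat_lit 456) (nat_lit 223)) (XT.lf (nat_lit 76) (nat_lit 354600702) (nat_lit 0) (nat_lit 6522102891) (nat_lit 1824) (nat_lit 12722132460) (nat_lit 415) (nat_lit 5) (nat_lit 414) (nat_lit 5) (nat_lit 438) (nat_lit 5) (nat_lit 462) (nat_lit 456) (nat_lit 222)))))) (XT.nd (nat_lit 390) (nat_lit 0) (nat_lit 152) (XT.nd (nat_lit 156) (nat_lit 0) (nat_lit 76) (XT.nd (nat_lit 78) (nat_lit 0) (nat_lit 0) (XT.lf (nat_lit 0) (nat_lit 7508936146) (nat_lit 1748) (nat_lit 9725557969) (nat_lit 1824) (nat_lit 2560711578) (nat_lit 415) (nat_lit 5) (nat_lit 438) (nat_lit 5) (nat_lit 439) (nat_lit 5) (nat_lit 463) (nat_lit 456) (nat_lit 221)) (XT.lf (nat_lit 0) (nat_lit 8192544434) (nat_lit 1748) (nat_lit 62447636) (nat_lit 1824) (nat_lit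 11739737593) (nat_lit 415) (nat_lit 5) (nat_lit 438) (nat_lit 5) (nat_lit 439) (nat_lit 5) (nat_lit 464) (nat_lit 456) (nat_lit 220))) (XT.nd (nat_lit 78) (nat_lit 0) (nat_lit 0) (XT.lf (nat_lit 0) (nat_lit 8956174237) (nat_lit 1748) (nat_lit 10282001098) (nat_lit 1824) (nat_lit 958743317) (nat_lit 416) (nat_lit 5) (nat_lit 439) (nat_lit 5) (nat_lit 440) (nat_lit 5) (nat_lit 465) (nat_lit 456) (nat_lit 219)) (XT.nd (nat_lit 78) (nat_lit 0) (nat_lit 0) (XT.lf (nat_lit 0) (nat_lit 9785872094) (nat_lit 1748) (nat_lit 367912546) (nat_lit 1824) (nat_lit 10248352371) (nat_lit 416) (nat_lit 5) (nat_lit 439) (nat_lit 5) (nat_lit 440) (nat_lit 5) (nat_lit 466) (nat_lit 456) (nat_lit 218)) (XT.lf (nat_lit 76) (nat_lit 9871200294) (nat_lit 0) (nat_lit 820843020) (nat_lit 1824) (nat_lit 9918220302) (nat_lit 417) (nat_lit 5) (nat_lit 416) (nat_lit 5) (nat_lit 440) (nat_lit 5) (nat_lit 467) (nat_lit 456) (nat_lit 217))))) (XT.nd (nat_lit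 234) (nat_lit 0) (nat_lit 76) (XT.nd (nat_lit 78) (nat_lit 0) (nat_lit 0) (XT.lf (nat_lit 0) (nat_lit 11671164722) (nat_lit 1748) (nat_lit 561711175) (nat_lit 1824) (nat_lit 8588581761) (nat_lit 417) (nat_lit 5) (nat_lit 440) (nat_lit 5) (nat_lit 441) (nat_lit 5) (nat_lit 468) (nat_lit 456) (nat_lit 216)) (XT.nd (nat_lit 78) (nat_lit 0) (nat_lit 76) (XT.lf (nat_lit 76) (nat_lit 9941394072) (nat_lit 0) (nat_lit 2794401188) (nat_lit 1824) (nat_lit 8299763198) (nat_lit 418) (nat_lit 5) (nat_lit 417) (nat_lit 5) (nat_lit 441) (nat_lit 5) (nat_lit 469) (nat_lit 456) (nat_lit 215)) (XT.lf (nat_lit 0) (nat_lit 13865890721) (nat_lit 1748) (nat_lit 638891170) (nat_lit 1824) (nat_lit 6748277321) (nat_lit 418) (nat_lit 5) (nat_lit 441) (nat_lit 5) (nat_lit 442) (nat_lit 5) (nat_lit 470) (nat_lit 456) (nat_lit 214)))) (XT.nd (nat_lit 78) (nat_lit 0) (nat_lit 76) (XT.lf (nat_lit 76) (nat_lit 10137175025) (nat_lit 0) (nat_lit 4961829063)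 (nat_lit 1824) (nat_lit 6374298928) (nat_lit 419) (nat_lit 5) (nat_lit 418) (nat_lit 5) (nat_lit 442) (nat_lit 5) (nat_lit 471) (nat_lit 456) (nat_lit 213)) (XT.nd (nat_lit 78) (nat_lit 0) (nat_lit 0) (XT.lf (nat_lit 0) (nat_lit 16388237085) (nat_lit 1748) (nat_lit 594279090) (nat_lit 1824) (nat_lit 4714807705) (nat_lit 419) (nat_lit 5) (nat_lit 442) (nat_lit 5) (nat_lit 443) (nat_lit 5) (nat_lit 472) (nat_lit 456) (nat_lit 212)) (XT.lf (nat_lit 76) (nat_lit 10464015070) (nat_lit 0) (nat_lit 7336272905) (nat_lit 1824) (nat_lit 4123597826) (nat_lit 420) (nat_lit 5) (nat_lit 419) (nat_lit 5) (nat_lit 443) (nat_lit 5) (nat_lit 473) (nat_lit 456) (nat_lit 211))))))) (XT.nd (nat_lit 858) (nat_lit 4180) (nat_lit 0) (XT.nd (nat_lit 390) (nat_lit 1900) (nat_lit 0) (XT.nd (nat_lit 156) (nat_lit 1748) (nat_lit 0) (XT.nd (nat_lit 78) (nat_lit 0) (nat_lit 0) (XT.lf (nat_lit 0) (nat_lit 19257140991) (nat_lit 1748) (nat_lit 422478188)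 (nat_lit 1824) (nat_lit 2475029837) (nat_lit 420) (nat_lit 5) (nat_lit 443) (nat_lit 5) (nat_lit 444) (nat_lit 5) (nat_lit 474) (nat_lit 456) (nat_lit 210)) (XT.lf (nat_lit 76) (nat_lit 10927617993) (nat_lit 0) (nat_lit 9931415943) (nat_lit 1824) (nat_lit 1528676753) (nat_lit 421) (nat_lit 5) (nat_lit 420) (nat_lit 5) (nat_lit 444) (nat_lit 5) (nat_lit 475) (nat_lit 456) (nat_lit 209))) (XT.nd (nat_lit 78) (nat_lit 1824) (nat_lit 0) (XT.lf (nat_lit 0) (nat_lit 22492322404) (nat_lit 1748) (nat_lit 117866195) (nat_lit 1824) (nat_lit 15259075) (nat_lit 421) (nat_lit 5) (nat_lit 444) (nat_lit 5) (nat_lit 445) (nat_lit 5) (nat_lit 476) (nat_lit 456) (nat_lit 208)) (XT.nd (nat_lit 78) (nat_lit 0) (nat_lit 0) (XT.lf (nat_lit 0) (nat_lit 1411475777) (nat_lit 1824) (nat_lit 11340561708) (nat_lit 1900) (nat_lit 10112974308) (nat_lit 397) (nat_lit 5) (nat_lit 421) (nat_lit 5) (nat_lit 422) (nat_lit 5) (nat_lit 477) (nat_lit 456)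 (nat_lit 207)) (XT.lf (nat_lit 76) (nat_lit 291991131) (nat_lit 0) (nat_lit 2692413111) (nat_lit 1900) (nat_lit 20124962151) (nat_lit 398) (nat_lit 5) (nat_lit 397) (nat_lit 5) (nat_lit 422) (nat_lit 5) (nat_lit 478) (nat_lit 456) (nat_lit 206))))) (XT.nd (nat_lit 234) (nat_lit 1976) (nat_lit 0) (XT.nd (nat_lit 78) (nat_lit 0) (nat_lit 0) (XT.lf (nat_lit 0) (nat_lit 4711113928) (nat_lit 1824) (nat_lit 11098675634) (nat_lit 1900) (nat_lit 7546373207) (nat_lit 398) (nat_lit 5) (nat_lit 422) (nat_lit 5) (nat_lit 423) (nat_lit 5) (nat_lit 479) (nat_lit 456) (nat_lit 205)) (XT.nd (nat_lit 78) (nat_lit 0) (nat_lit 76) (XT.lf (nat_lit 76) (nat_lit 844838013) (nat_lit 0) (nat_lit 5647481113) (nat_lit 1900) (nat_lit 17115177832) (nat_lit 399) (nat_lit 5) (nat_lit 398) (nat_lit 5) (nat_lit 423) (nat_lit 5) (nat_lit 480) (nat_lit 456) (nat_lit 204)) (XT.lf (nat_lit 0) (nat_lit 8411449001) (nat_lit 1824) (nat_lit 10718688681) (nat_lit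 76) (nat_lit 4731675228) (nat_lit 399) (nat_lit 5) (nat_lit 423) (nat_lit 5) (nat_lit 400) (nat_lit 5) (nat_lit 481) (nat_lit 456) (nat_lit 203)))) (XT.nd (nat_lit 78) (nat_lit 912) (nat_lit 0) (XT.lf (nat_lit 0) (nat_lit 1546233983) (nat_lit 1140) (nat_lit 8866928500) (nat_lit 1216) (nat_lit 13707169748) (nat_lit 384) (nat_lit 5) (nat_lit 399) (nat_lit 5) (nat_lit 400) (nat_lit 5) (nat_lit 482) (nat_lit 456) (nat_lit 202)) (XT.nd (nat_lit 78) (nat_lit 912) (nat_lit 0) (XT.lf (nat_lit 0) (nat_lit 12534522256) (nat_lit 1216) (nat_lit 10194562965) (nat_lit 76) (nat_lit 1653345526) (nat_lit 384) (nat_lit 5) (nat_lit 400) (nat_lit 5) (nat_lit 385) (nat_lit 5) (nat_lit 483) (nat_lit 456) (nat_lit 201)) (XT.lf (nat_lit 0) (nat_lit 2402552831) (nat_lit 912) (nat_lit 12366948643) (nat_lit 988) (nat_lit 9878846942) (nat_lit 372) (nat_lit 5) (nat_lit 384) (nat_lit 5) (nat_lit 385) (nat_lit 5) (nat_lit 484) (nat_lit 456) (nat_lit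 200)))))) (XT.nd (nat_lit 390) (nat_lit 2432) (nat_lit 0) (XT.nd (nat_lit 156) (nat_lit 912) (nat_lit 0) (XT.nd (nat_lit 78) (nat_lit 836) (nat_lit 0) (XT.lf (nat_lit 0) (nat_lit 15387020616) (nat_lit 912) (nat_lit 1727485730) (nat_lit 988) (nat_lit 7803772578) (nat_lit 372) (nat_lit 5) (nat_lit 384) (nat_lit 5) (nat_lit 385) (nat_lit 5) (nat_lit 485) (nat_lit 456) (nat_lit 199)) (XT.lf (nat_lit 0) (nat_lit 3420395571) (nat_lit 836) (nat_lit 16164444870) (nat_lit 912) (nat_lit 5607200008) (nat_lit 361) (nat_lit 5) (nat_lit 372) (nat_lit 5) (nat_lit 373) (nat_lit 5) (nat_lit 486) (nat_lit 456) (nat_lit 198))) (XT.nd (nat_lit 78) (nat_lit 912) (nat_lit 0) (XT.lf (nat_lit 0) (nat_lit 16745918048) (nat_lit 836) (nat_lit 5431006852) (nat_lit 912) (nat_lit 3292906400) (nat_lit 361) (nat_lit 5) (nat_lit 372) (nat_lit 5) (nat_lit 373) (nat_lit 5) (nat_lit 487) (nat_lit 456) (nat_lit 197)) (XT.nd (nat_lit 78) (nat_lit 76) (nat_lit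 0) (XT.lf (nat_lit 0) (nat_lit 4606591338) (nat_lit 836) (nat_lit 20277068103) (nat_lit 912) (nat_lit 868263307) (nat_lit 350) (nat_lit 5) (nat_lit 361) (nat_lit 5) (nat_lit 362) (nat_lit 5) (nat_lit 488) (nat_lit 456) (nat_lit 196)) (XT.lf (nat_lit 0) (nat_lit 1675819169) (nat_lit 912) (nat_lit 7766097226) (nat_lit 76) (nat_lit 16595692252) (nat_lit 349) (nat_lit 5) (nat_lit 361) (nat_lit 5) (nat_lit 350) (nat_lit 5) (nat_lit 489) (nat_lit 456) (nat_lit 195))))) (XT.nd (nat_lit 234) (nat_lit 760) (nat_lit 0) (XT.nd (nat_lit 78) (nat_lit 836) (nat_lit 0) (XT.lf (nat_lit 0) (nat_lit 4305703511) (nat_lit 912) (nat_lit 20388659005) (nat_lit 76) (nat_lit 1633600933) (nat_lit 338) (nat_lit 5) (nat_lit 350) (nat_lit 5) (nat_lit 339) (nat_lit 5) (nat_lit 490) (nat_lit 456) (nat_lit 194)) (XT.nd (nat_lit 78) (nat_lit 836) (nat_lit 0) (XT.lf (nat_lit 0) (nat_lit 7100368075) (nat_lit 912) (nat_lit 6664654890) (nat_lit 76) (nat_lit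 12856859609) (nat_lit 338) (nat_lit 5) (nat_lit 350) (nat_lit 5) (nat_lit 339) (nat_lit 5) (nat_lit 491) (nat_lit 456) (nat_lit 193)) (XT.lf (nat_lit 0) (nat_lit 7428527249) (nat_lit 836) (nat_lit 2567878194) (nat_lit 912) (nat_lit 16924365909) (nat_lit 327) (nat_lit 5) (nat_lit 338) (nat_lit 5) (nat_lit 339) (nat_lit 5) (nat_lit 492) (nat_lit 456) (nat_lit 192)))) (XT.nd (nat_lit 78) (nat_lit 760) (nat_lit 0) (XT.lf (nat_lit 0) (nat_lit 13050148954) (nat_lit 912) (nat_lit 5391372097) (nat_lit 76) (nat_lit 8782121988) (nat_lit 327) (nat_lit 5) (nat_lit 339) (nat_lit 5) (nat_lit 328) (nat_lit 5) (nat_lit 493) (nat_lit 456) (nat_lit 191)) (XT.nd (nat_lit 78) (nat_lit 0) (nat_lit 0) (XT.lf (nat_lit 0) (nat_lit 9091030511) (nat_lit 760) (nat_lit 7147305842) (nat_lit 836) (nat_lit 11292769255) (nat_lit 317) (nat_lit 5) (nat_lit 327) (nat_lit 5) (nat_lit 328) (nat_lit 5) (nat_lit 494) (nat_lit 456) (nat_lit 190)) (XT.lf (nat_lit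 0) (nat_lit 19552469590) (nat_lit 836) (nat_lit 3939208485) (nat_lit 76) (nat_lit 4351796522) (nat_lit 317) (nat_lit 5) (nat_lit 328) (nat_lit 5) (nat_lit 318) (nat_lit 5) (nat_lit 495) (nat_lit 456) (nat_lit 189))))))))
noncomputable def xc243 : XT := (XT.nd (nat_lit 57798) (nat_lit 0) (nat_lit 760) (XT.nd (nat_lit 56940) (nat_lit 0) (nat_lit 8968) (XT.nd (nat_lit 56472) (nat_lit 0) (nat_lit 8740) (XT.nd (nat_lit 156) (nat_lit 760) (nat_lit 0) (XT.nd (nat_lit 78) (nat_lit 0) (nat_lit 0) (XT.lf (nat_lit 0) (nat_lit 10945197798) (nat_lit 760) (nat_lit 12103508320) (nat_lit 836) (nat_lit 5111069230) (nat_lit 307) (nat_lit 5) (nat_lit 317) (nat_lit 5) (nat_lit 318) (nat_lit 5) (nat_lit 496) (nat_lit 456) (nat_lit 188)) (XT.lf (nat_lit 0) (nat_lit 26178014183) (nat_lit 760) (nat_lit 460744491) (nat_lit 836) (nat_lit 1843166393) (nat_lit 307) (nat_lit 5) (nat_lit 317) (nat_lit 5) (nat_lit 318) (nat_lit 5) (nat_lit 497) (nat_lit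 456) (nat_lit 187))) (XT.nd (nat_lit 56160) (nat_lit 0) (nat_lit 8740) (XT.lf (nat_lit 0) (nat_lit 1627599137) (nat_lit 760) (nat_lit 15819442507) (nat_lit 76) (nat_lit 11360142441) (nat_lit 297) (nat_lit 5) (nat_lit 307) (nat_lit 5) (nat_lit 298) (nat_lit 5) (nat_lit 498) (nat_lit 456) (nat_lit 186)) (XT.nd (nat_lit 78) (nat_lit 0) (nat_lit 0) (XT.lf (nat_lit 0) (nat_lit 1224212414) (nat_lit 0) (nat_lit 1224212414) (nat_lit 1748) (nat_lit 6971008337) (nat_lit 412) (nat_lit 5) (nat_lit 412) (nat_lit 3) (nat_lit 435) (nat_lit 3) (nat_lit 457) (nat_lit 457) (nat_lit 226)) (XT.lf (nat_lit 0) (nat_lit 5172360210) (nat_lit 1748) (nat_lit 7426009835) (nat_lit 1824) (nat_lit 6424289810) (nat_lit 412) (nat_lit 5) (nat_lit 435) (nat_lit 3) (nat_lit 436) (nat_lit 5) (nat_lit 458) (nat_lit 457) (nat_lit 225))))) (XT.nd (nat_lit 234) (nat_lit 0) (nat_lit 152) (XT.nd (nat_lit 78) (nat_lit 0) (nat_lit 76) (XT.lf (nat_lit 76) (nat_lit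 1721543205) (nat_lit 0) (nat_lit 3754411940) (nat_lit 1824) (nat_lit 13733724304) (nat_lit 413) (nat_lit 5) (nat_lit 412) (nat_lit 5) (nat_lit 436) (nat_lit 5) (nat_lit 459) (nat_lit 457) (nat_lit 224)) (XT.nd (nat_lit 78) (nat_lit 0) (nat_lit 0) (XT.lf (nat_lit 0) (nat_lit 5865252194) (nat_lit 1748) (nat_lit 8283882231) (nat_lit 1824) (nat_lit 5249714060) (nat_lit 413) (nat_lit 5) (nat_lit 436) (nat_lit 5) (nat_lit 437) (nat_lit 5) (nat_lit 460) (nat_lit 457) (nat_lit 223)) (XT.lf (nat_lit 76) (nat_lit 1091332575) (nat_lit 0) (nat_lit 5198319206) (nat_lit 1824) (nat_lit 13301604409) (nat_lit 414) (nat_lit 5) (nat_lit 413) (nat_lit 5) (nat_lit 437) (nat_lit 5) (nat_lit 461) (nat_lit 457) (nat_lit 222)))) (XT.nd (nat_lit 78) (nat_lit 0) (nat_lit 0) (XT.lf (nat_lit 0) (nat_lit 6799477222) (nat_lit 1748) (nat_lit 9048614987) (nat_lit 1824) (nat_lit 3937882673) (nat_lit 414) (nat_lit 5) (nat_lit 437) (nat_lit 5) (nat_lit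 438) (nat_lit 5) (nat_lit 462) (nat_lit 457) (nat_lit 221)) (XT.nd (nat_lit 78) (nat_lit 0) (nat_lit 76) (XT.lf (nat_lit 76) (nat_lit 562055039) (nat_lit 0) (nat_lit 6791062972) (nat_lit 1824) (nat_lit 12630799118) (nat_lit 415) (nat_lit 5) (nat_lit 414) (nat_lit 5) (nat_lit 438) (nat_lit 5) (nat_lit 463) (nat_lit 457) (nat_lit 220)) (XT.lf (nat_lit 0) (nat_lit 7990468786) (nat_lit 1748) (nat_lit 9715993326) (nat_lit 1824) (nat_lit 2477904894) (nat_lit 415) (nat_lit 5) (nat_lit 438) (nat_lit 5) (nat_lit 439) (nat_lit 5) (nat_lit 464) (nat_lit 457) (nat_lit 219)))))) (XT.nd (nat_lit 390) (nat_lit 0) (nat_lit 152) (XT.nd (nat_lit 156) (nat_lit 0) (nat_lit 76) (XT.nd (nat_lit 78) (nat_lit 0) (nat_lit 76) (XT.lf (nat_lit 76) (nat_lit 138190115) (nat_lit 0) (nat_lit 8543959211) (nat_lit 1824) (nat_lit 11705846396) (nat_lit 416) (nat_lit 5) (nat_lit 415) (nat_lit 5) (nat_lit 439) (nat_lit 5) (nat_lit 465) (nat_lit 457) (nat_lit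 218)) (XT.lf (nat_lit 0) (nat_lit 9454289493) (nat_lit 1748) (nat_lit 10281590564) (nat_lit 1824) (nat_lit 858485904) (nat_lit 416) (nat_lit 5) (nat_lit 439) (nat_lit 5) (nat_lit 440) (nat_lit 5) (nat_lit 466) (nat_lit 457) (nat_lit 217))) (XT.nd (nat_lit 78) (nat_lit 0) (nat_lit 0) (XT.lf (nat_lit 0) (nat_lit 10294326567) (nat_lit 1748) (nat_lit 173260447) (nat_lit 1824) (nat_lit 10336228948) (nat_lit 416) (nat_lit 5) (nat_lit 439) (nat_lit 5) (nat_lit 440) (nat_lit 5) (nat_lit 467) (nat_lit 457) (nat_lit 216)) (XT.nd (nat_lit 78) (nat_lit 0) (nat_lit 76) (XT.lf (nat_lit 76) (nat_lit 10269305634) (nat_lit 0) (nat_lit 944486434) (nat_lit 1824) (nat_lit 9802411752) (nat_lit 417) (nat_lit 5) (nat_lit 416) (nat_lit 5) (nat_lit 440) (nat_lit 5) (nat_lit 468) (nat_lit 457) (nat_lit 215)) (XT.lf (nat_lit 0) (nat_lit 12205775959) (nat_lit 1748) (nat_lit 369374234) (nat_lit 1824) (nat_lit 8656608045) (nat_lit 417) (nat_lit 5)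 (nat_lit 440) (nat_lit 5) (nat_lit 441) (nat_lit 5) (nat_lit 469) (nat_lit 457) (nat_lit 214))))) (XT.nd (nat_lit 234) (nat_lit 0) (nat_lit 152) (XT.nd (nat_lit 78) (nat_lit 0) (nat_lit 76) (XT.lf (nat_lit 76) (nat_lit 10342453834) (nat_lit 0) (nat_lit 2944652652) (nat_lit 1824) (nat_lit 8163128476) (nat_lit 418) (nat_lit 5) (nat_lit 417) (nat_lit 5) (nat_lit 441) (nat_lit 5) (nat_lit 470) (nat_lit 457) (nat_lit 213)) (XT.nd (nat_lit 78) (nat_lit 0) (nat_lit 0) (XT.lf (nat_lit 0) (nat_lit 14433387605) (nat_lit 1748) (nat_lit 446885448) (nat_lit 1824) (nat_lit 6791943018) (nat_lit 418) (nat_lit 5) (nat_lit 441) (nat_lit 5) (nat_lit 442) (nat_lit 5) (nat_lit 471) (nat_lit 457) (nat_lit 212)) (XT.lf (nat_lit 76) (nat_lit 10543354810) (nat_lit 0) (nat_lit 5143439487) (nat_lit 1824) (nat_lit 6210159809) (nat_lit 419) (nat_lit 5) (nat_lit 418) (nat_lit 5) (nat_lit 442) (nat_lit 5) (nat_lit 472) (nat_lit 457) (nat_lit 211))))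 (XT.nd (nat_lit 78) (nat_lit 0) (nat_lit 0) (XT.lf (nat_lit 0) (nat_lit 16995683495) (nat_lit 1748) (nat_lit 400492043) (nat_lit 1824) (nat_lit 4729404355) (nat_lit 419) (nat_lit 5) (nat_lit 442) (nat_lit 5) (nat_lit 443) (nat_lit 5) (nat_lit 473) (nat_lit 457) (nat_lit 210)) (XT.nd (nat_lit 78) (nat_lit 0) (nat_lit 76) (XT.lf (nat_lit 76) (nat_lit 10877614891) (nat_lit 0) (nat_lit 7554203134) (nat_lit 1824) (nat_lit 3924940071) (nat_lit 420) (nat_lit 5) (nat_lit 419) (nat_lit 5) (nat_lit 443) (nat_lit 5) (nat_lit 474) (nat_lit 457) (nat_lit 209)) (XT.lf (nat_lit 0) (nat_lit 19911952422) (nat_lit 1748) (nat_lit 224665744) (nat_lit 1824) (nat_lit 2455637386) (nat_lit 420) (nat_lit 5) (nat_lit 443) (nat_lit 5) (nat_lit 444) (nat_lit 5) (nat_lit 475) (nat_lit 457) (nat_lit 208))))))) (XT.nd (nat_lit 858) (nat_lit 4940) (nat_lit 0) (XT.nd (nat_lit 390) (nat_lit 1824) (nat_lit 0) (XT.nd (nat_lit 156) (nat_lit 0) (nat_lit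 76) (XT.nd (nat_lit 78) (nat_lit 1824) (nat_lit 0) (XT.lf (nat_lit 76) (nat_lit 11351075374) (nat_lit 0) (nat_lit 10190850612) (nat_lit 1824) (nat_lit 1288133443) (nat_lit 421) (nat_lit 5) (nat_lit 420) (nat_lit 5) (nat_lit 444) (nat_lit 5) (nat_lit 476) (nat_lit 457) (nat_lit 207)) (XT.lf (nat_lit 76) (nat_lit 86354741) (nat_lit 0) (nat_lit 42410763) (nat_lit 1900) (nat_lit 22943865604) (nat_lit 397) (nat_lit 5) (nat_lit 396) (nat_lit 5) (nat_lit 421) (nat_lit 5) (nat_lit 477) (nat_lit 457) (nat_lit 206))) (XT.nd (nat_lit 78) (nat_lit 0) (nat_lit 0) (XT.lf (nat_lit 0) (nat_lit 1697835904) (nat_lit 1824) (nat_lit 11358641762) (nat_lit 1900) (nat_lit 10260585766) (nat_lit 397) (nat_lit 5) (nat_lit 421) (nat_lit 5) (nat_lit 422) (nat_lit 5) (nat_lit 478) (nat_lit 457) (nat_lit 205)) (XT.nd (nat_lit 78) (nat_lit 0) (nat_lit 76) (XT.lf (nat_lit 76) (nat_lit 505188902) (nat_lit 0) (nat_lit 2793318958) (nat_lit 1900) (nat_lit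 20267873253) (nat_lit 398) (nat_lit 5) (nat_lit 397) (nat_lit 5) (nat_lit 422) (nat_lit 5) (nat_lit 479) (nat_lit 457) (nat_lit 204)) (XT.lf (nat_lit 0) (nat_lit 5054463660) (nat_lit 1824) (nat_lit 11111986317) (nat_lit 1900) (nat_lit 7651770853) (nat_lit 398) (nat_lit 5) (nat_lit 422) (nat_lit 5) (nat_lit 423) (nat_lit 5) (nat_lit 480) (nat_lit 457) (nat_lit 203))))) (XT.nd (nat_lit 234) (nat_lit 912) (nat_lit 0) (XT.nd (nat_lit 78) (nat_lit 1064) (nat_lit 0) (XT.lf (nat_lit 76) (nat_lit 1069024821) (nat_lit 0) (nat_lit 5798729154) (nat_lit 1900) (nat_lit 17206900128) (nat_lit 399) (nat_lit 5) (nat_lit 398) (nat_lit 5) (nat_lit 423) (nat_lit 5) (nat_lit 481) (nat_lit 457) (nat_lit 202)) (XT.nd (nat_lit 78) (nat_lit 1140) (nat_lit 0) (XT.lf (nat_lit 0) (nat_lit 8820207205) (nat_lit 1824) (nat_lit 10724698238) (nat_lit 76) (nat_lit 4789253706) (nat_lit 399) (nat_lit 5) (nat_lit 423) (nat_lit 5) (nat_lit 400) (nat_lit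 5) (nat_lit 482) (nat_lit 457) (nat_lit 201)) (XT.lf (nat_lit 0) (nat_lit 1784152062) (nat_lit 1140) (nat_lit 9074430573) (nat_lit 1216) (nat_lit 13739335224) (nat_lit 384) (nat_lit 5) (nat_lit 399) (nat_lit 5) (nat_lit 400) (nat_lit 5) (nat_lit 483) (nat_lit 457) (nat_lit 200)))) (XT.nd (nat_lit 78) (nat_lit 912) (nat_lit 0) (XT.lf (nat_lit 0) (nat_lit 13017527467) (nat_lit 1216) (nat_lit 10190601031) (nat_lit 76) (nat_lit 1657228217) (nat_lit 384) (nat_lit 5) (nat_lit 400) (nat_lit 5) (nat_lit 385) (nat_lit 5) (nat_lit 484) (nat_lit 457) (nat_lit 199)) (XT.nd (nat_lit 78) (nat_lit 0) (nat_lit 0) (XT.lf (nat_lit 0) (nat_lit 2657089625) (nat_lit 912) (nat_lit 12636902094) (nat_lit 988) (nat_lit 9842666806) (nat_lit 372) (nat_lit 5) (nat_lit 384) (nat_lit 5) (nat_lit 385) (nat_lit 5) (nat_lit 485) (nat_lit 457) (nat_lit 198)) (XT.lf (nat_lit 0) (nat_lit 15897198027) (nat_lit 912) (nat_lit 1784206502) (nat_lit 988) (nat_lit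 7730674427) (nat_lit 372) (nat_lit 5) (nat_lit 384) (nat_lit 5) (nat_lit 385) (nat_lit 5) (nat_lit 486) (nat_lit 457) (nat_lit 197)))))) (XT.nd (nat_lit 390) (nat_lit 2356) (nat_lit 0) (XT.nd (nat_lit 156) (nat_lit 1748) (nat_lit 0) (XT.nd (nat_lit 78) (nat_lit 0) (nat_lit 0) (XT.lf (nat_lit 0) (nat_lit 3694587172) (nat_lit 836) (nat_lit 16503349012) (nat_lit 912) (nat_lit 5493445148) (nat_lit 361) (nat_lit 5) (nat_lit 372) (nat_lit 5) (nat_lit 373) (nat_lit 5) (nat_lit 487) (nat_lit 457) (nat_lit 196)) (XT.lf (nat_lit 0) (nat_lit 17282585123) (nat_lit 836) (nat_lit 5554936052) (nat_lit 912) (nat_lit 3137295057) (nat_lit 361) (nat_lit 5) (nat_lit 372) (nat_lit 5) (nat_lit 373) (nat_lit 5) (nat_lit 488) (nat_lit 457) (nat_lit 195))) (XT.nd (nat_lit 78) (nat_lit 912) (nat_lit 0) (XT.lf (nat_lit 0) (nat_lit 4903625997) (nat_lit 836) (nat_lit 20691741294) (nat_lit 912) (nat_lit 667244066) (nat_lit 350) (nat_lit 5) (nat_lit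 361) (nat_lit 5) (nat_lit 362) (nat_lit 5) (nat_lit 489) (nat_lit 457) (nat_lit 194)) (XT.nd (nat_lit 78) (nat_lit 836) (nat_lit 0) (XT.lf (nat_lit 0) (nat_lit 1920630019) (nat_lit 912) (nat_lit 7717659582) (nat_lit 76) (nat_lit 16915778862) (nat_lit 349) (nat_lit 5) (nat_lit 361) (nat_lit 5) (nat_lit 350) (nat_lit 5) (nat_lit 490) (nat_lit 457) (nat_lit 193)) (XT.lf (nat_lit 0) (nat_lit 4600243999) (nat_lit 912) (nat_lit 20589739382) (nat_lit 76) (nat_lit 1660305644) (nat_lit 338) (nat_lit 5) (nat_lit 350) (nat_lit 5) (nat_lit 339) (nat_lit 5) (nat_lit 491) (nat_lit 457) (nat_lit 192))))) (XT.nd (nat_lit 234) (nat_lit 1520) (nat_lit 0) (XT.nd (nat_lit 78) (nat_lit 836) (nat_lit 0) (XT.lf (nat_lit 0) (nat_lit 7446715062) (nat_lit 912) (nat_lit 6595307985) (nat_lit 76) (nat_lit 13108146499) (nat_lit 338) (nat_lit 5) (nat_lit 350) (nat_lit 5) (nat_lit 339) (nat_lit 5) (nat_lit 492) (nat_lit 457) (nat_lit 191)) (XT.nd (nat_lit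 78) (nat_lit 0) (nat_lit 0) (XT.lf (nat_lit 0) (nat_lit 7778404639) (nat_lit 836) (nat_lit 2619568896) (nat_lit 912) (nat_lit 17057117810) (nat_lit 327) (nat_lit 5) (nat_lit 338) (nat_lit 5) (nat_lit 339) (nat_lit 5) (nat_lit 493) (nat_lit 457) (nat_lit 190)) (XT.lf (nat_lit 0) (nat_lit 13508836071) (nat_lit 912) (nat_lit 5297822635) (nat_lit 76) (nat_lit 8957442105) (nat_lit 327) (nat_lit 5) (nat_lit 339) (nat_lit 5) (nat_lit 328) (nat_lit 5) (nat_lit 494) (nat_lit 457) (nat_lit 189)))) (XT.nd (nat_lit 78) (nat_lit 760) (nat_lit 0) (XT.lf (nat_lit 0) (nat_lit 9472903178) (nat_lit 760) (nat_lit 7285306751) (nat_lit 836) (nat_lit 11319555452) (nat_lit 317) (nat_lit 5) (nat_lit 327) (nat_lit 5) (nat_lit 328) (nat_lit 5) (nat_lit 495) (nat_lit 457) (nat_lit 188)) (XT.nd (nat_lit 78) (nat_lit 760) (nat_lit 0) (XT.lf (nat_lit 0) (nat_lit 20134831684) (nat_lit 836) (nat_lit 3818010019) (nat_lit 76) (nat_lit 4443617110) (nat_lit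 317) (nat_lit 5) (nat_lit 328) (nat_lit 5) (nat_lit 318) (nat_lit 5) (nat_lit 496) (nat_lit 457) (nat_lit 187)) (XT.lf (nat_lit 0) (nat_lit 11362768714) (nat_lit 760) (nat_lit 12335762877) (nat_lit 836) (nat_lit 5020604372) (nat_lit 307) (nat_lit 5) (nat_lit 317) (nat_lit 5) (nat_lit 318) (nat_lit 5) (nat_lit 497) (nat_lit 457) (nat_lit 186))))))))
noncomputable def xc244 : XT := (XT.nd (nat_lit 1638) (nat_lit 6004) (nat_lit 0) (XT.nd (nat_lit 780) (nat_lit 1216) (nat_lit 0) (XT.nd (nat_lit 390) (nat_lit 0) (nat_lit 152) (XT.nd (nat_lit 156) (nat_lit 0) (nat_lit 0) (XT.nd (nat_lit 78) (nat_lit 0) (nat_lit 0) (XT.lf (nat_lit 0) (nat_lit 1340236933) (nat_lit 0) (nat_lit 1340236933) (nat_lit 1748) (nat_lit 6923622468) (nat_lit 412) (nat_lit 5) (nat_lit 412) (nat_lit 3) (nat_lit 435) (nat_lit 3) (nat_lit 458) (nat_lit 458) (nat_lit 224)) (XT.lf (nat_lit 0) (nat_lit 5633623495) (nat_lit 1748) (nat_lit 7386569040) (nat_lit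 1824) (nat_lit 6375638933) (nat_lit 412) (nat_lit 5) (nat_lit 435) (nat_lit 3) (nat_lit 436) (nat_lit 5) (nat_lit 459) (nat_lit 458) (nat_lit 223))) (XT.nd (nat_lit 78) (nat_lit 0) (nat_lit 76) (XT.lf (nat_lit 76) (nat_lit 1942698475) (nat_lit 0) (nat_lit 3994788191) (nat_lit 1824) (nat_lit 13649223317) (nat_lit 413) (nat_lit 5) (nat_lit 412) (nat_lit 5) (nat_lit 436) (nat_lit 5) (nat_lit 460) (nat_lit 458) (nat_lit 222)) (XT.nd (nat_lit 78) (nat_lit 0) (nat_lit 0) (XT.lf (nat_lit 0) (nat_lit 6326615334) (nat_lit 1748) (nat_lit 8258422013) (nat_lit 1824) (nat_lit 5194786547) (nat_lit 413) (nat_lit 5) (nat_lit 436) (nat_lit 5) (nat_lit 437) (nat_lit 5) (nat_lit 461) (nat_lit 458) (nat_lit 221)) (XT.lf (nat_lit 76) (nat_lit 1303039603) (nat_lit 0) (nat_lit 5450949902) (nat_lit 1824) (nat_lit 13222202877) (nat_lit 414) (nat_lit 5) (nat_lit 413) (nat_lit 5) (nat_lit 437) (nat_lit 5) (nat_lit 462) (nat_lit 458) (nat_lit 220)))))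 (XT.nd (nat_lit 156) (nat_lit 0) (nat_lit 76) (XT.nd (nat_lit 78) (nat_lit 0) (nat_lit 0) (XT.lf (nat_lit 0) (nat_lit 7266427023) (nat_lit 1748) (nat_lit 9035729899) (nat_lit 1824) (nat_lit 3872802530) (nat_lit 414) (nat_lit 5) (nat_lit 437) (nat_lit 5) (nat_lit 438) (nat_lit 5) (nat_lit 463) (nat_lit 458) (nat_lit 219)) (XT.lf (nat_lit 76) (nat_lit 765878150) (nat_lit 0) (nat_lit 7060023430) (nat_lit 1824) (nat_lit 12551066013) (nat_lit 415) (nat_lit 5) (nat_lit 414) (nat_lit 5) (nat_lit 438) (nat_lit 5) (nat_lit 464) (nat_lit 458) (nat_lit 218))) (XT.nd (nat_lit 78) (nat_lit 0) (nat_lit 0) (XT.lf (nat_lit 0) (nat_lit 8468765202) (nat_lit 1748) (nat_lit 9714161902) (nat_lit 1824) (nat_lit 2398646271) (nat_lit 415) (nat_lit 5) (nat_lit 438) (nat_lit 5) (nat_lit 439) (nat_lit 5) (nat_lit 465) (nat_lit 458) (nat_lit 217)) (XT.nd (nat_lit 78) (nat_lit 0) (nat_lit 76) (XT.lf (nat_lit 76) (nat_lit 335814739) (nat_lit 0) (nat_lit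 8833484936) (nat_lit 1824) (nat_lit 11620076766) (nat_lit 416) (nat_lit 5) (nat_lit 415) (nat_lit 5) (nat_lit 439) (nat_lit 5) (nat_lit 466) (nat_lit 458) (nat_lit 216)) (XT.lf (nat_lit 0) (nat_lit 9949980214) (nat_lit 1748) (nat_lit 10289173013) (nat_lit 1824) (nat_lit 760861044) (nat_lit 416) (nat_lit 5) (nat_lit 439) (nat_lit 5) (nat_lit 440) (nat_lit 5) (nat_lit 467) (nat_lit 458) (nat_lit 215)))))) (XT.nd (nat_lit 390) (nat_lit 1520) (nat_lit 0) (XT.nd (nat_lit 156) (nat_lit 0) (nat_lit 76) (XT.nd (nat_lit 78) (nat_lit 0) (nat_lit 0) (XT.lf (nat_lit 76) (nat_lit 17672158) (nat_lit 0) (nat_lit 10783248749) (nat_lit 1824) (nat_lit 10412852403) (nat_lit 417) (nat_lit 5) (nat_lit 416) (nat_lit 5) (nat_lit 440) (nat_lit 5) (nat_lit 468) (nat_lit 458) (nat_lit 214)) (XT.lf (nat_lit 76) (nat_lit 10667580380) (nat_lit 0) (nat_lit 1066438979) (nat_lit 1824) (nat_lit 9696486750) (nat_lit 417) (nat_lit 5) (nat_lit 416) (nat_lit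 5) (nat_lit 440) (nat_lit 5) (nat_lit 469) (nat_lit 458) (nat_lit 213))) (XT.nd (nat_lit 78) (nat_lit 0) (nat_lit 0) (XT.lf (nat_lit 0) (nat_lit 12739383927) (nat_lit 1748) (nat_lit 181095470) (nat_lit 1824) (nat_lit 8730023413) (nat_lit 417) (nat_lit 5) (nat_lit 440) (nat_lit 5) (nat_lit 441) (nat_lit 5) (nat_lit 470) (nat_lit 458) (nat_lit 212)) (XT.nd (nat_lit 78) (nat_lit 0) (nat_lit 76) (XT.lf (nat_lit 76) (nat_lit 10743681882) (nat_lit 0) (nat_lit 3094244897) (nat_lit 1824) (nat_lit 8035512550) (nat_lit 418) (nat_lit 5) (nat_lit 417) (nat_lit 5) (nat_lit 441) (nat_lit 5) (nat_lit 471) (nat_lit 458) (nat_lit 211)) (XT.lf (nat_lit 0) (nat_lit 15000966419) (nat_lit 1748) (nat_lit 258991606) (nat_lit 1824) (nat_lit 6840027313) (nat_lit 418) (nat_lit 5) (nat_lit 441) (nat_lit 5) (nat_lit 442) (nat_lit 5) (nat_lit 472) (nat_lit 458) (nat_lit 210))))) (XT.nd (nat_lit 234) (nat_lit 1672) (nat_lit 0) (XT.nd (nat_lit 78)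 (nat_lit 0) (nat_lit 76) (XT.lf (nat_lit 76) (nat_lit 10949758513) (nat_lit 0) (nat_lit 5325483441) (nat_lit 1824) (nat_lit 6054062064) (nat_lit 419) (nat_lit 5) (nat_lit 418) (nat_lit 5) (nat_lit 442) (nat_lit 5) (nat_lit 473) (nat_lit 458) (nat_lit 209)) (XT.nd (nat_lit 78) (nat_lit 0) (nat_lit 0) (XT.lf (nat_lit 0) (nat_lit 17604418453) (nat_lit 1748) (nat_lit 210815773) (nat_lit 1824) (nat_lit 4747387767) (nat_lit 419) (nat_lit 5) (nat_lit 442) (nat_lit 5) (nat_lit 443) (nat_lit 5) (nat_lit 474) (nat_lit 458) (nat_lit 208)) (XT.lf (nat_lit 76) (nat_lit 11291552733) (nat_lit 0) (nat_lit 7773727001) (nat_lit 1824) (nat_lit 3733225771) (nat_lit 420) (nat_lit 5) (nat_lit 419) (nat_lit 5) (nat_lit 443) (nat_lit 5) (nat_lit 475) (nat_lit 458) (nat_lit 207)))) (XT.nd (nat_lit 78) (nat_lit 1824) (nat_lit 0) (XT.lf (nat_lit 0) (nat_lit 20569388520) (nat_lit 1748) (nat_lit 30906456) (nat_lit 1824) (nat_lit 2438532287) (nat_lit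 420) (nat_lit 5) (nat_lit 443) (nat_lit 5) (nat_lit 444) (nat_lit 5) (nat_lit 476) (nat_lit 458) (nat_lit 206)) (XT.nd (nat_lit 78) (nat_lit 1824) (nat_lit 0) (XT.lf (nat_lit 76) (nat_lit 11775045191) (nat_lit 0) (nat_lit 10453112789) (nat_lit 1824) (nat_lit 1053307065) (nat_lit 421) (nat_lit 5) (nat_lit 420) (nat_lit 5) (nat_lit 444) (nat_lit 5) (nat_lit 477) (nat_lit 458) (nat_lit 205)) (XT.lf (nat_lit 76) (nat_lit 287215038) (nat_lit 0) (nat_lit 97547479) (nat_lit 1900) (nat_lit 23144168480) (nat_lit 397) (nat_lit 5) (nat_lit 396) (nat_lit 5) (nat_lit 421) (nat_lit 5) (nat_lit 478) (nat_lit 458) (nat_lit 204))))))) (XT.nd (nat_lit 858) (nat_lit 3344) (nat_lit 0) (XT.nd (nat_lit 390) (nat_lit 2736) (nat_lit 0) (XT.nd (nat_lit 156) (nat_lit 0) (nat_lit 76) (XT.nd (nat_lit 78) (nat_lit 0) (nat_lit 0) (XT.lf (nat_lit 0) (nat_lit 1979899707) (nat_lit 1824) (nat_lit 11385188704) (nat_lit 1900) (nat_lit 10413271503) (nat_lit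 397) (nat_lit 5) (nat_lit 421) (nat_lit 5) (nat_lit 422) (nat_lit 5) (nat_lit 479) (nat_lit 458) (nat_lit 203)) (XT.lf (nat_lit 76) (nat_lit 714598667) (nat_lit 0) (nat_lit 2894415617) (nat_lit 1900) (nat_lit 20423722701) (nat_lit 398) (nat_lit 5) (nat_lit 397) (nat_lit 5) (nat_lit 422) (nat_lit 5) (nat_lit 480) (nat_lit 458) (nat_lit 202))) (XT.nd (nat_lit 78) (nat_lit 0) (nat_lit 0) (XT.lf (nat_lit 0) (nat_lit 5395006465) (nat_lit 1824) (nat_lit 11133665846) (nat_lit 1900) (nat_lit 7761044429) (nat_lit 398) (nat_lit 5) (nat_lit 422) (nat_lit 5) (nat_lit 423) (nat_lit 5) (nat_lit 481) (nat_lit 458) (nat_lit 201)) (XT.nd (nat_lit 78) (nat_lit 0) (nat_lit 76) (XT.lf (nat_lit 76) (nat_lit 1289646040) (nat_lit 0) (nat_lit 5951514982) (nat_lit 1900) (nat_lit 17310187246) (nat_lit 399) (nat_lit 5) (nat_lit 398) (nat_lit 5) (nat_lit 423) (nat_lit 5) (nat_lit 482) (nat_lit 458) (nat_lit 200)) (XT.lf (nat_lit 0) (nat_lit 9227800529)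 (nat_lit 1824) (nat_lit 10738919023) (nat_lit 76) (nat_lit 4849422644) (nat_lit 399) (nat_lit 5) (nat_lit 423) (nat_lit 5) (nat_lit 400) (nat_lit 5) (nat_lit 483) (nat_lit 458) (nat_lit 199))))) (XT.nd (nat_lit 234) (nat_lit 836) (nat_lit 0) (XT.nd (nat_lit 78) (nat_lit 912) (nat_lit 0) (XT.lf (nat_lit 0) (nat_lit 2018790697) (nat_lit 1140) (nat_lit 9284911402) (nat_lit 1216) (nat_lit 13781540307) (nat_lit 384) (nat_lit 5) (nat_lit 399) (nat_lit 5) (nat_lit 400) (nat_lit 5) (nat_lit 484) (nat_lit 458) (nat_lit 198)) (XT.nd (nat_lit 78) (nat_lit 912) (nat_lit 0) (XT.lf (nat_lit 0) (nat_lit 13501171716) (nat_lit 1216) (nat_lit 10194631052) (nat_lit 76) (nat_lit 1662321821) (nat_lit 384) (nat_lit 5) (nat_lit 400) (nat_lit 5) (nat_lit 385) (nat_lit 5) (nat_lit 485) (nat_lit 458) (nat_lit 197)) (XT.lf (nat_lit 0) (nat_lit 2908699063) (nat_lit 912) (nat_lit 12911376467) (nat_lit 988) (nat_lit 9814840139) (nat_lit 372) (nat_lit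 5) (nat_lit 384) (nat_lit 5) (nat_lit 385) (nat_lit 5) (nat_lit 486) (nat_lit 458) (nat_lit 196)))) (XT.nd (nat_lit 78) (nat_lit 836) (nat_lit 0) (XT.lf (nat_lit 0) (nat_lit 16409718110) (nat_lit 912) (nat_lit 1841200761) (nat_lit 988) (nat_lit 7665013402) (nat_lit 372) (nat_lit 5) (nat_lit 384) (nat_lit 5) (nat_lit 385) (nat_lit 5) (nat_lit 487) (nat_lit 458) (nat_lit 195)) (XT.nd (nat_lit 78) (nat_lit 0) (nat_lit 0) (XT.lf (nat_lit 0) (nat_lit 3966271773) (nat_lit 836) (nat_lit 16848424878) (nat_lit 912) (nat_lit 5386187119) (nat_lit 361) (nat_lit 5) (nat_lit 372) (nat_lit 5) (nat_lit 373) (nat_lit 5) (nat_lit 488) (nat_lit 458) (nat_lit 194)) (XT.lf (nat_lit 0) (nat_lit 17822151392) (nat_lit 836) (nat_lit 5680749367) (nat_lit 912) (nat_lit 2987171418) (nat_lit 361) (nat_lit 5) (nat_lit 372) (nat_lit 5) (nat_lit 373) (nat_lit 5) (nat_lit 489) (nat_lit 458) (nat_lit 193)))))) (XT.nd (nat_lit 390) (nat_lit 760) (nat_lit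 0) (XT.nd (nat_lit 156) (nat_lit 1672) (nat_lit 0) (XT.nd (nat_lit 78) (nat_lit 76) (nat_lit 0) (XT.lf (nat_lit 0) (nat_lit 5198644721) (nat_lit 836) (nat_lit 21114353349) (nat_lit 912) (nat_lit 470684576) (nat_lit 350) (nat_lit 5) (nat_lit 361) (nat_lit 5) (nat_lit 362) (nat_lit 5) (nat_lit 490) (nat_lit 458) (nat_lit 192)) (XT.lf (nat_lit 0) (nat_lit 2162132264) (nat_lit 912) (nat_lit 7676165417) (nat_lit 76) (nat_lit 17242726471) (nat_lit 349) (nat_lit 5) (nat_lit 361) (nat_lit 5) (nat_lit 350) (nat_lit 5) (nat_lit 491) (nat_lit 458) (nat_lit 191))) (XT.nd (nat_lit 78) (nat_lit 836) (nat_lit 0) (XT.lf (nat_lit 0) (nat_lit 4892581845) (nat_lit 912) (nat_lit 20802867500) (nat_lit 76) (nat_lit 1687776167) (nat_lit 338) (nat_lit 5) (nat_lit 350) (nat_lit 5) (nat_lit 339) (nat_lit 5) (nat_lit 492) (nat_lit 458) (nat_lit 190)) (XT.nd (nat_lit 78) (nat_lit 836) (nat_lit 0) (XT.lf (nat_lit 0) (nat_lit 7792054232) (nat_lit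 912) (nat_lit 6532442899) (nat_lit 76) (nat_lit 13364686302) (nat_lit 338) (nat_lit 5) (nat_lit 350) (nat_lit 5) (nat_lit 339) (nat_lit 5) (nat_lit 493) (nat_lit 458) (nat_lit 189)) (XT.lf (nat_lit 0) (nat_lit 8127462587) (nat_lit 836) (nat_lit 2672280476) (nat_lit 912) (nat_lit 17200513705) (nat_lit 327) (nat_lit 5) (nat_lit 338) (nat_lit 5) (nat_lit 339) (nat_lit 5) (nat_lit 494) (nat_lit 458) (nat_lit 188))))) (XT.nd (nat_lit 56550) (nat_lit 0) (nat_lit 7220) (XT.nd (nat_lit 78) (nat_lit 760) (nat_lit 0) (XT.lf (nat_lit 0) (nat_lit 13969020614) (nat_lit 912) (nat_lit 5210221894) (nat_lit 76) (nat_lit 9136281141) (nat_lit 327) (nat_lit 5) (nat_lit 339) (nat_lit 5) (nat_lit 328) (nat_lit 5) (nat_lit 495) (nat_lit 458) (nat_lit 187)) (XT.nd (nat_lit 78) (nat_lit 0) (nat_lit 0) (XT.lf (nat_lit 0) (nat_lit 9854645032) (nat_lit 760) (nat_lit 7426259707) (nat_lit 836) (nat_lit 11354607472) (nat_lit 317) (nat_lit 5) (nat_lit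 327) (nat_lit 5) (nat_lit 328) (nat_lit 5) (nat_lit 496) (nat_lit 458) (nat_lit 186)) (XT.lf (nat_lit 0) (nat_lit 20721412115) (nat_lit 836) (nat_lit 3702153153) (nat_lit 76) (nat_lit 4537088315) (nat_lit 317) (nat_lit 5) (nat_lit 328) (nat_lit 5) (nat_lit 318) (nat_lit 5) (nat_lit 497) (nat_lit 458) (nat_lit 185)))) (XT.nd (nat_lit 78) (nat_lit 0) (nat_lit 0) (XT.lf (nat_lit 0) (nat_lit 1455027322) (nat_lit 0) (nat_lit 1455027322) (nat_lit 1748) (nat_lit 6882542788) (nat_lit 412) (nat_lit 5) (nat_lit 412) (nat_lit 3) (nat_lit 435) (nat_lit 3) (nat_lit 459) (nat_lit 459) (nat_lit 222)) (XT.nd (nat_lit 78) (nat_lit 0) (nat_lit 0) (XT.lf (nat_lit 0) (nat_lit 6090217611) (nat_lit 1748) (nat_lit 7353638184) (nat_lit 1824) (nat_lit 6332893471) (nat_lit 412) (nat_lit 5) (nat_lit 435) (nat_lit 3) (nat_lit 436) (nat_lit 5) (nat_lit 460) (nat_lit 459) (nat_lit 221)) (XT.lf (nat_lit 76) (nat_lit 2161026114) (nat_lit 0) (nat_lit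 4233553632) (nat_lit 1824) (nat_lit 13576979532) (nat_lit 413) (nat_lit 5) (nat_lit 412) (nat_lit 5) (nat_lit 436) (nat_lit 5) (nat_lit 461) (nat_lit 459) (nat_lit 220))))))))
noncomputable def xc245 : XT := (XT.nd (nat_lit 1716) (nat_lit 5244) (nat_lit 0) (XT.nd (nat_lit 858) (nat_lit 1292) (nat_lit 0) (XT.nd (nat_lit 390) (nat_lit 0) (nat_lit 152) (XT.nd (nat_lit 156) (nat_lit 0) (nat_lit 76) (XT.nd (nat_lit 78) (nat_lit 0) (nat_lit 0) (XT.lf (nat_lit 0) (nat_lit 6783845542) (nat_lit 1748) (nat_lit 8239874707) (nat_lit 1824) (nat_lit 5144970442) (nat_lit 413) (nat_lit 5) (nat_lit 436) (nat_lit 5) (nat_lit 437) (nat_lit 5) (nat_lit 462) (nat_lit 459) (nat_lit 219)) (XT.lf (nat_lit 76) (nat_lit 1511607486) (nat_lit 0) (nat_lit 5702860396) (nat_lit 1824) (nat_lit 13154626923) (nat_lit 414) (nat_lit 5) (nat_lit 413) (nat_lit 5) (nat_lit 437) (nat_lit 5) (nat_lit 463) (nat_lit 459) (nat_lit 218))) (XT.nd (nat_lit 78) (nat_lit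 0) (nat_lit 0) (XT.lf (nat_lit 0) (nat_lit 7729864229) (nat_lit 1748) (nat_lit 9030114828) (nat_lit 1824) (nat_lit 3812006180) (nat_lit 414) (nat_lit 5) (nat_lit 437) (nat_lit 5) (nat_lit 438) (nat_lit 5) (nat_lit 464) (nat_lit 459) (nat_lit 217)) (XT.nd (nat_lit 78) (nat_lit 0) (nat_lit 76) (XT.lf (nat_lit 76) (nat_lit 966299529) (nat_lit 0) (nat_lit 7329193141) (nat_lit 1824) (nat_lit 12482643765) (nat_lit 415) (nat_lit 5) (nat_lit 414) (nat_lit 5) (nat_lit 438) (nat_lit 5) (nat_lit 465) (nat_lit 459) (nat_lit 216)) (XT.lf (nat_lit 0) (nat_lit 8944260307) (nat_lit 1748) (nat_lit 9719910643) (nat_lit 1824) (nat_lit 2322804587) (nat_lit 415) (nat_lit 5) (nat_lit 438) (nat_lit 5) (nat_lit 439) (nat_lit 5) (nat_lit 466) (nat_lit 459) (nat_lit 215))))) (XT.nd (nat_lit 234) (nat_lit 0) (nat_lit 76) (XT.nd (nat_lit 78) (nat_lit 0) (nat_lit 76) (XT.lf (nat_lit 76) (nat_lit 529825172) (nat_lit 0) (nat_lit 9124193985) (nat_lit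 1824) (nat_lit 11545013328) (nat_lit 416) (nat_lit 5) (nat_lit 415) (nat_lit 5) (nat_lit 439) (nat_lit 5) (nat_lit 467) (nat_lit 459) (nat_lit 214)) (XT.nd (nat_lit 78) (nat_lit 0) (nat_lit 0) (XT.lf (nat_lit 0) (nat_lit 10443678907) (nat_lit 1748) (nat_lit 10304597609) (nat_lit 1824) (nat_lit 665741300) (nat_lit 416) (nat_lit 5) (nat_lit 439) (nat_lit 5) (nat_lit 440) (nat_lit 5) (nat_lit 468) (nat_lit 459) (nat_lit 213)) (XT.lf (nat_lit 76) (nat_lit 207132105) (nat_lit 0) (nat_lit 11099955701) (nat_lit 1824) (nat_lit 10325057258) (nat_lit 417) (nat_lit 5) (nat_lit 416) (nat_lit 5) (nat_lit 440) (nat_lit 5) (nat_lit 469) (nat_lit 459) (nat_lit 212)))) (XT.nd (nat_lit 78) (nat_lit 0) (nat_lit 76) (XT.lf (nat_lit 76) (nat_lit 11066330520) (nat_lit 0) (nat_lit 1186828520) (nat_lit 1824) (nat_lit 9600169236) (nat_lit 417) (nat_lit 5) (nat_lit 416) (nat_lit 5) (nat_lit 440) (nat_lit 5) (nat_lit 470) (nat_lit 459) (nat_lit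 211)) (XT.nd (nat_lit 78) (nat_lit 0) (nat_lit 0) (XT.lf (nat_lit 76) (nat_lit 3395441) (nat_lit 0) (nat_lit 13269049314) (nat_lit 1824) (nat_lit 8805405817) (nat_lit 418) (nat_lit 5) (nat_lit 417) (nat_lit 5) (nat_lit 441) (nat_lit 5) (nat_lit 471) (nat_lit 459) (nat_lit 210)) (XT.lf (nat_lit 76) (nat_lit 11145386517) (nat_lit 0) (nat_lit 3243307028) (nat_lit 1824) (nat_lit 7916639473) (nat_lit 418) (nat_lit 5) (nat_lit 417) (nat_lit 5) (nat_lit 441) (nat_lit 5) (nat_lit 472) (nat_lit 459) (nat_lit 209)))))) (XT.nd (nat_lit 390) (nat_lit 1672) (nat_lit 0) (XT.nd (nat_lit 156) (nat_lit 0) (nat_lit 76) (XT.nd (nat_lit 78) (nat_lit 0) (nat_lit 0) (XT.lf (nat_lit 0) (nat_lit 15569066354) (nat_lit 1748) (nat_lit 74983096) (nat_lit 1824) (nat_lit 6892480911) (nat_lit 418) (nat_lit 5) (nat_lit 441) (nat_lit 5) (nat_lit 442) (nat_lit 5) (nat_lit 473) (nat_lit 459) (nat_lit 208)) (XT.lf (nat_lit 76) (nat_lit 11356697365) (nat_lit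 0) (nat_lit 5508093807) (nat_lit 1824) (nat_lit 5905726793) (nat_lit 419) (nat_lit 5) (nat_lit 418) (nat_lit 5) (nat_lit 442) (nat_lit 5) (nat_lit 474) (nat_lit 459) (nat_lit 207))) (XT.nd (nat_lit 78) (nat_lit 0) (nat_lit 0) (XT.lf (nat_lit 0) (nat_lit 18214889452) (nat_lit 1748) (nat_lit 25022371) (nat_lit 1824) (nat_lit 4768705500) (nat_lit 419) (nat_lit 5) (nat_lit 442) (nat_lit 5) (nat_lit 443) (nat_lit 5) (nat_lit 475) (nat_lit 459) (nat_lit 206)) (XT.nd (nat_lit 78) (nat_lit 0) (nat_lit 76) (XT.lf (nat_lit 76) (nat_lit 11706143442) (nat_lit 0) (nat_lit 7994983743) (nat_lit 1824) (nat_lit 3548169889) (nat_lit 420) (nat_lit 5) (nat_lit 419) (nat_lit 5) (nat_lit 443) (nat_lit 5) (nat_lit 476) (nat_lit 459) (nat_lit 205)) (XT.lf (nat_lit 76) (nat_lit 161143046) (nat_lit 0) (nat_lit 21069811604) (nat_lit 1824) (nat_lit 2263559607) (nat_lit 421) (nat_lit 5) (nat_lit 420) (nat_lit 5) (nat_lit 444) (nat_lit 5) (nat_lit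 477) (nat_lit 459) (nat_lit 204))))) (XT.nd (nat_lit 234) (nat_lit 0) (nat_lit 76) (XT.nd (nat_lit 78) (nat_lit 1824) (nat_lit 0) (XT.lf (nat_lit 76) (nat_lit 12199846661) (nat_lit 0) (nat_lit 10718350713) (nat_lit 1824) (nat_lit 823903149) (nat_lit 421) (nat_lit 5) (nat_lit 420) (nat_lit 5) (nat_lit 444) (nat_lit 5) (nat_lit 478) (nat_lit 459) (nat_lit 203)) (XT.nd (nat_lit 78) (nat_lit 0) (nat_lit 76) (XT.lf (nat_lit 76) (nat_lit 484359957) (nat_lit 0) (nat_lit 151678842) (nat_lit 1900) (nat_lit 23358518174) (nat_lit 397) (nat_lit 5) (nat_lit 396) (nat_lit 5) (nat_lit 421) (nat_lit 5) (nat_lit 479) (nat_lit 459) (nat_lit 202)) (XT.lf (nat_lit 0) (nat_lit 2257970486) (nat_lit 1824) (nat_lit 11420057132) (nat_lit 1900) (nat_lit 10571050602) (nat_lit 397) (nat_lit 5) (nat_lit 421) (nat_lit 5) (nat_lit 422) (nat_lit 5) (nat_lit 480) (nat_lit 459) (nat_lit 201)))) (XT.nd (nat_lit 78) (nat_lit 0) (nat_lit 76) (XT.lf (nat_lit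 76) (nat_lit 920457333) (nat_lit 0) (nat_lit 2995777863) (nat_lit 1900) (nat_lit 20592377838) (nat_lit 398) (nat_lit 5) (nat_lit 397) (nat_lit 5) (nat_lit 422) (nat_lit 5) (nat_lit 481) (nat_lit 459) (nat_lit 200)) (XT.nd (nat_lit 78) (nat_lit 0) (nat_lit 0) (XT.lf (nat_lit 0) (nat_lit 5733061853) (nat_lit 1824) (nat_lit 11163566962) (nat_lit 1900) (nat_lit 7874202803) (nat_lit 398) (nat_lit 5) (nat_lit 422) (nat_lit 5) (nat_lit 423) (nat_lit 5) (nat_lit 482) (nat_lit 459) (nat_lit 199)) (XT.lf (nat_lit 76) (nat_lit 1506942923) (nat_lit 0) (nat_lit 6105927101) (nat_lit 1900) (nat_lit 17424892639) (nat_lit 399) (nat_lit 5) (nat_lit 398) (nat_lit 5) (nat_lit 423) (nat_lit 5) (nat_lit 483) (nat_lit 459) (nat_lit 198))))))) (XT.nd (nat_lit 858) (nat_lit 836) (nat_lit 0) (XT.nd (nat_lit 390) (nat_lit 2584) (nat_lit 0) (XT.nd (nat_lit 156) (nat_lit 912) (nat_lit 0) (XT.nd (nat_lit 78) (nat_lit 1140) (nat_lit 0) (XT.lf (nat_lit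 0) (nat_lit 9634568363) (nat_lit 1824) (nat_lit 10761201075) (nat_lit 76) (nat_lit 4912177979) (nat_lit 399) (nat_lit 5) (nat_lit 423) (nat_lit 5) (nat_lit 400) (nat_lit 5) (nat_lit 484) (nat_lit 459) (nat_lit 197)) (XT.lf (nat_lit 0) (nat_lit 2250396415) (nat_lit 1140) (nat_lit 9498476045) (nat_lit 1216) (nat_lit 13833620920) (nat_lit 384) (nat_lit 5) (nat_lit 399) (nat_lit 5) (nat_lit 400) (nat_lit 5) (nat_lit 485) (nat_lit 459) (nat_lit 196))) (XT.nd (nat_lit 78) (nat_lit 912) (nat_lit 0) (XT.lf (nat_lit 0) (nat_lit 13985818084) (nat_lit 1216) (nat_lit 10206499451) (nat_lit 76) (nat_lit 1668606550) (nat_lit 384) (nat_lit 5) (nat_lit 400) (nat_lit 5) (nat_lit 385) (nat_lit 5) (nat_lit 486) (nat_lit 459) (nat_lit 195)) (XT.nd (nat_lit 78) (nat_lit 0) (nat_lit 0) (XT.lf (nat_lit 0) (nat_lit 3157633949) (nat_lit 912) (nat_lit 13190496279) (nat_lit 988) (nat_lit 9795181537) (nat_lit 372) (nat_lit 5) (nat_lit 384) (nat_lit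 5) (nat_lit 385) (nat_lit 5) (nat_lit 487) (nat_lit 459) (nat_lit 194)) (XT.lf (nat_lit 0) (nat_lit 16924932967) (nat_lit 912) (nat_lit 1898507406) (nat_lit 988) (nat_lit 7606592685) (nat_lit 372) (nat_lit 5) (nat_lit 384) (nat_lit 5) (nat_lit 385) (nat_lit 5) (nat_lit 488) (nat_lit 459) (nat_lit 193))))) (XT.nd (nat_lit 234) (nat_lit 912) (nat_lit 0) (XT.nd (nat_lit 78) (nat_lit 836) (nat_lit 0) (XT.lf (nat_lit 0) (nat_lit 4235709528) (nat_lit 836) (nat_lit 17199819448) (nat_lit 912) (nat_lit 5285215234) (nat_lit 361) (nat_lit 5) (nat_lit 372) (nat_lit 5) (nat_lit 373) (nat_lit 5) (nat_lit 489) (nat_lit 459) (nat_lit 192)) (XT.nd (nat_lit 78) (nat_lit 836) (nat_lit 0) (XT.lf (nat_lit 0) (nat_lit 18364979047) (nat_lit 836) (nat_lit 5808507562) (nat_lit 912) (nat_lit 2842311289) (nat_lit 361) (nat_lit 5) (nat_lit 372) (nat_lit 5) (nat_lit 373) (nat_lit 5) (nat_lit 490) (nat_lit 459) (nat_lit 191)) (XT.lf (nat_lit 0) (nat_lit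 5491916159) (nat_lit 836) (nat_lit 21545076815) (nat_lit 912) (nat_lit 278344739) (nat_lit 350) (nat_lit 5) (nat_lit 361) (nat_lit 5) (nat_lit 362) (nat_lit 5) (nat_lit 491) (nat_lit 459) (nat_lit 190)))) (XT.nd (nat_lit 78) (nat_lit 836) (nat_lit 0) (XT.lf (nat_lit 0) (nat_lit 2400578335) (nat_lit 912) (nat_lit 7641446360) (nat_lit 76) (nat_lit 17576654464) (nat_lit 349) (nat_lit 5) (nat_lit 361) (nat_lit 5) (nat_lit 350) (nat_lit 5) (nat_lit 492) (nat_lit 459) (nat_lit 189)) (XT.nd (nat_lit 78) (nat_lit 0) (nat_lit 0) (XT.lf (nat_lit 0) (nat_lit 5182987274) (nat_lit 912) (nat_lit 21027972649) (nat_lit 76) (nat_lit 1716018820) (nat_lit 338) (nat_lit 5) (nat_lit 350) (nat_lit 5) (nat_lit 339) (nat_lit 5) (nat_lit 493) (nat_lit 459) (nat_lit 188)) (XT.lf (nat_lit 0) (nat_lit 8136673544) (nat_lit 912) (nat_lit 6475883717) (nat_lit 76) (nat_lit 13626575253) (nat_lit 338) (nat_lit 5) (nat_lit 350) (nat_lit 5) (nat_lit 339)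 (nat_lit 5) (nat_lit 494) (nat_lit 459) (nat_lit 187)))))) (XT.nd (nat_lit 56862) (nat_lit 0) (nat_lit 6536) (XT.nd (nat_lit 56628) (nat_lit 0) (nat_lit 6460) (XT.nd (nat_lit 78) (nat_lit 0) (nat_lit 0) (XT.lf (nat_lit 0) (nat_lit 8475988246) (nat_lit 836) (nat_lit 2726033853) (nat_lit 912) (nat_lit 17354456255) (nat_lit 327) (nat_lit 5) (nat_lit 338) (nat_lit 5) (nat_lit 339) (nat_lit 5) (nat_lit 495) (nat_lit 459) (nat_lit 186)) (XT.lf (nat_lit 0) (nat_lit 14431030613) (nat_lit 912) (nat_lit 5128385200) (nat_lit 76) (nat_lit 9318708988) (nat_lit 327) (nat_lit 5) (nat_lit 339) (nat_lit 5) (nat_lit 328) (nat_lit 5) (nat_lit 496) (nat_lit 459) (nat_lit 185))) (XT.nd (nat_lit 78) (nat_lit 0) (nat_lit 0) (XT.lf (nat_lit 0) (nat_lit 1568696929) (nat_lit 0) (nat_lit 1568696929) (nat_lit 1748) (nat_lit 6847613741) (nat_lit 412) (nat_lit 5) (nat_lit 412) (nat_lit 3) (nat_lit 435) (nat_lit 3) (nat_lit 460) (nat_lit 460) (nat_lit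 220)) (XT.nd (nat_lit 78) (nat_lit 0) (nat_lit 0) (XT.lf (nat_lit 0) (nat_lit 6542588712) (nat_lit 1748) (nat_lit 7327064046) (nat_lit 1824) (nat_lit 6295904434) (nat_lit 412) (nat_lit 5) (nat_lit 435) (nat_lit 3) (nat_lit 436) (nat_lit 5) (nat_lit 461) (nat_lit 460) (nat_lit 219)) (XT.lf (nat_lit 76) (nat_lit 2376751125) (nat_lit 0) (nat_lit 4470925278) (nat_lit 1824) (nat_lit 13516696505) (nat_lit 413) (nat_lit 5) (nat_lit 412) (nat_lit 5) (nat_lit 436) (nat_lit 5) (nat_lit 462) (nat_lit 460) (nat_lit 218))))) (XT.nd (nat_lit 234) (nat_lit 0) (nat_lit 76) (XT.nd (nat_lit 78) (nat_lit 0) (nat_lit 0) (XT.lf (nat_lit 0) (nat_lit 7237378951) (nat_lit 1748) (nat_lit 8228090361) (nat_lit 1824) (nat_lit 5100126833) (nat_lit 413) (nat_lit 5) (nat_lit 436) (nat_lit 5) (nat_lit 437) (nat_lit 5) (nat_lit 463) (nat_lit 460) (nat_lit 217)) (XT.nd (nat_lit 78) (nat_lit 0) (nat_lit 76) (XT.lf (nat_lit 76) (nat_lit 1717259753) (nat_lit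 0) (nat_lit 5954260448) (nat_lit 1824) (nat_lit 13098592191) (nat_lit 414) (nat_lit 5) (nat_lit 413) (nat_lit 5) (nat_lit 437) (nat_lit 5) (nat_lit 464) (nat_lit 460) (nat_lit 216)) (XT.lf (nat_lit 0) (nat_lit 8190217633) (nat_lit 1748) (nat_lit 9031622863) (nat_lit 1824) (nat_lit 3755362413) (nat_lit 414) (nat_lit 5) (nat_lit 437) (nat_lit 5) (nat_lit 438) (nat_lit 5) (nat_lit 465) (nat_lit 460) (nat_lit 215)))) (XT.nd (nat_lit 78) (nat_lit 0) (nat_lit 76) (XT.lf (nat_lit 76) (nat_lit 1163541529) (nat_lit 0) (nat_lit 7598777044) (nat_lit 1824) (nat_lit 12425257456) (nat_lit 415) (nat_lit 5) (nat_lit 414) (nat_lit 5) (nat_lit 438) (nat_lit 5) (nat_lit 466) (nat_lit 460) (nat_lit 214)) (XT.nd (nat_lit 78) (nat_lit 0) (nat_lit 0) (XT.lf (nat_lit 0) (nat_lit 9417378309) (nat_lit 1748) (nat_lit 9733095383) (nat_lit 1824) (nat_lit 2250253940) (nat_lit 415) (nat_lit 5) (nat_lit 438) (nat_lit 5) (nat_lit 439) (nat_lit 5) (nat_lit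 467) (nat_lit 460) (nat_lit 213)) (XT.lf (nat_lit 76) (nat_lit 720442955) (nat_lit 0) (nat_lit 9416288929) (nat_lit 1824) (nat_lit 11480387861) (nat_lit 416) (nat_lit 5) (nat_lit 415) (nat_lit 5) (nat_lit 439) (nat_lit 5) (nat_lit 468) (nat_lit 460) (nat_lit 212))))))))
noncomputable def xc246 : XT := (XT.nd (nat_lit 1716) (nat_lit 2584) (nat_lit 0) (XT.nd (nat_lit 858) (nat_lit 4180) (nat_lit 0) (XT.nd (nat_lit 390) (nat_lit 0) (nat_lit 152) (XT.nd (nat_lit 156) (nat_lit 0) (nat_lit 0) (XT.nd (nat_lit 78) (nat_lit 0) (nat_lit 0) (XT.lf (nat_lit 0) (nat_lit 10935808049) (nat_lit 1748) (nat_lit 10327722563) (nat_lit 1824) (nat_lit 573003680) (nat_lit 416) (nat_lit 5) (nat_lit 439) (nat_lit 5) (nat_lit 440) (nat_lit 5) (nat_lit 469) (nat_lit 460) (nat_lit 211)) (XT.lf (nat_lit 76) (nat_lit 393038014) (nat_lit 0) (nat_lit 11419073209) (nat_lit 1824) (nat_lit 10247002277) (nat_lit 417) (nat_lit 5) (nat_lit 416) (nat_lit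 5) (nat_lit 440) (nat_lit 5) (nat_lit 470) (nat_lit 460) (nat_lit 210))) (XT.nd (nat_lit 78) (nat_lit 0) (nat_lit 76) (XT.lf (nat_lit 76) (nat_lit 11465856412) (nat_lit 0) (nat_lit 1305779202) (nat_lit 1824) (nat_lit 9513196027) (nat_lit 417) (nat_lit 5) (nat_lit 416) (nat_lit 5) (nat_lit 440) (nat_lit 5) (nat_lit 471) (nat_lit 460) (nat_lit 209)) (XT.nd (nat_lit 78) (nat_lit 0) (nat_lit 0) (XT.lf (nat_lit 76) (nat_lit 186630995) (nat_lit 0) (nat_lit 13619898175) (nat_lit 1824) (nat_lit 8707412631) (nat_lit 418) (nat_lit 5) (nat_lit 417) (nat_lit 5) (nat_lit 441) (nat_lit 5) (nat_lit 472) (nat_lit 460) (nat_lit 208)) (XT.lf (nat_lit 76) (nat_lit 11547870371) (nat_lit 0) (nat_lit 3391965203) (nat_lit 1824) (nat_lit 7806245495) (nat_lit 418) (nat_lit 5) (nat_lit 417) (nat_lit 5) (nat_lit 441) (nat_lit 5) (nat_lit 473) (nat_lit 460) (nat_lit 207))))) (XT.nd (nat_lit 234) (nat_lit 0) (nat_lit 76) (XT.nd (nat_lit 78) (nat_lit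 0) (nat_lit 0) (XT.lf (nat_lit 76) (nat_lit 106759337) (nat_lit 0) (nat_lit 16032052206) (nat_lit 1824) (nat_lit 6843192691) (nat_lit 419) (nat_lit 5) (nat_lit 418) (nat_lit 5) (nat_lit 442) (nat_lit 5) (nat_lit 474) (nat_lit 460) (nat_lit 206)) (XT.nd (nat_lit 78) (nat_lit 0) (nat_lit 76) (XT.lf (nat_lit 76) (nat_lit 11764476912) (nat_lit 0) (nat_lit 5691401298) (nat_lit 1824) (nat_lit 5764886587) (nat_lit 419) (nat_lit 5) (nat_lit 418) (nat_lit 5) (nat_lit 442) (nat_lit 5) (nat_lit 475) (nat_lit 460) (nat_lit 205)) (XT.lf (nat_lit 76) (nat_lit 159196481) (nat_lit 0) (nat_lit 18669373686) (nat_lit 1824) (nat_lit 4635145859) (nat_lit 420) (nat_lit 5) (nat_lit 419) (nat_lit 5) (nat_lit 443) (nat_lit 5) (nat_lit 476) (nat_lit 460) (nat_lit 204)))) (XT.nd (nat_lit 78) (nat_lit 0) (nat_lit 76) (XT.lf (nat_lit 76) (nat_lit 12121696198) (nat_lit 0) (nat_lit 8218111218) (nat_lit 1824) (nat_lit 3369498149) (nat_lit 420) (nat_lit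 5) (nat_lit 419) (nat_lit 5) (nat_lit 443) (nat_lit 5) (nat_lit 477) (nat_lit 460) (nat_lit 203)) (XT.nd (nat_lit 78) (nat_lit 0) (nat_lit 0) (XT.lf (nat_lit 76) (nat_lit 349954698) (nat_lit 0) (nat_lit 21546282020) (nat_lit 1824) (nat_lit 2063271920) (nat_lit 421) (nat_lit 5) (nat_lit 420) (nat_lit 5) (nat_lit 444) (nat_lit 5) (nat_lit 478) (nat_lit 460) (nat_lit 202)) (XT.lf (nat_lit 76) (nat_lit 12625793389) (nat_lit 0) (nat_lit 10986712025) (nat_lit 1824) (nat_lit 599637213) (nat_lit 421) (nat_lit 5) (nat_lit 420) (nat_lit 5) (nat_lit 444) (nat_lit 5) (nat_lit 479) (nat_lit 460) (nat_lit 201)))))) (XT.nd (nat_lit 390) (nat_lit 2660) (nat_lit 0) (XT.nd (nat_lit 156) (nat_lit 0) (nat_lit 76) (XT.nd (nat_lit 78) (nat_lit 0) (nat_lit 76) (XT.lf (nat_lit 76) (nat_lit 678015454) (nat_lit 0) (nat_lit 204866602) (nat_lit 1900) (nat_lit 23586805728) (nat_lit 397) (nat_lit 5) (nat_lit 396) (nat_lit 5) (nat_lit 421) (nat_lit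 5) (nat_lit 480) (nat_lit 460) (nat_lit 200)) (XT.lf (nat_lit 0) (nat_lit 2532342492) (nat_lit 1824) (nat_lit 11463110960) (nat_lit 1900) (nat_lit 10733945730) (nat_lit 397) (nat_lit 5) (nat_lit 421) (nat_lit 5) (nat_lit 422) (nat_lit 5) (nat_lit 481) (nat_lit 460) (nat_lit 199))) (XT.nd (nat_lit 78) (nat_lit 0) (nat_lit 76) (XT.lf (nat_lit 76) (nat_lit 1122994403) (nat_lit 0) (nat_lit 3097479208) (nat_lit 1900) (nat_lit 20773718555) (nat_lit 398) (nat_lit 5) (nat_lit 397) (nat_lit 5) (nat_lit 422) (nat_lit 5) (nat_lit 482) (nat_lit 460) (nat_lit 198)) (XT.nd (nat_lit 78) (nat_lit 0) (nat_lit 0) (XT.lf (nat_lit 0) (nat_lit 6068941140) (nat_lit 1824) (nat_lit 11201551680) (nat_lit 1900) (nat_lit 7991257683) (nat_lit 398) (nat_lit 5) (nat_lit 422) (nat_lit 5) (nat_lit 423) (nat_lit 5) (nat_lit 483) (nat_lit 460) (nat_lit 197)) (XT.lf (nat_lit 76) (nat_lit 1721149412) (nat_lit 0) (nat_lit 6262053542) (nat_lit 1900) (nat_lit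 17550881504) (nat_lit 399) (nat_lit 5) (nat_lit 398) (nat_lit 5) (nat_lit 423) (nat_lit 5) (nat_lit 484) (nat_lit 460) (nat_lit 196))))) (XT.nd (nat_lit 234) (nat_lit 1748) (nat_lit 0) (XT.nd (nat_lit 78) (nat_lit 1140) (nat_lit 0) (XT.lf (nat_lit 0) (nat_lit 10040842797) (nat_lit 1824) (nat_lit 10791403636) (nat_lit 76) (nat_lit 4977517735) (nat_lit 399) (nat_lit 5) (nat_lit 423) (nat_lit 5) (nat_lit 400) (nat_lit 5) (nat_lit 485) (nat_lit 460) (nat_lit 195)) (XT.nd (nat_lit 78) (nat_lit 0) (nat_lit 0) (XT.lf (nat_lit 0) (nat_lit 2479208558) (nat_lit 1140) (nat_lit 9715229894) (nat_lit 1216) (nat_lit 13895423871) (nat_lit 384) (nat_lit 5) (nat_lit 399) (nat_lit 5) (nat_lit 400) (nat_lit 5) (nat_lit 486) (nat_lit 460) (nat_lit 194)) (XT.lf (nat_lit 0) (nat_lit 14471823310) (nat_lit 1216) (nat_lit 10226061753) (nat_lit 76) (nat_lit 1676063930) (nat_lit 384) (nat_lit 5) (nat_lit 400) (nat_lit 5) (nat_lit 385) (nat_lit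 5) (nat_lit 487) (nat_lit 460) (nat_lit 193)))) (XT.nd (nat_lit 78) (nat_lit 836) (nat_lit 0) (XT.lf (nat_lit 0) (nat_lit 3404140054) (nat_lit 912) (nat_lit 13474387215) (nat_lit 988) (nat_lit 9783515574) (nat_lit 372) (nat_lit 5) (nat_lit 384) (nat_lit 5) (nat_lit 385) (nat_lit 5) (nat_lit 488) (nat_lit 460) (nat_lit 192)) (XT.nd (nat_lit 78) (nat_lit 836) (nat_lit 0) (XT.lf (nat_lit 0) (nat_lit 17443189887) (nat_lit 912) (nat_lit 1956164819) (nat_lit 988) (nat_lit 7555224938) (nat_lit 372) (nat_lit 5) (nat_lit 384) (nat_lit 5) (nat_lit 385) (nat_lit 5) (nat_lit 489) (nat_lit 460) (nat_lit 191)) (XT.lf (nat_lit 0) (nat_lit 4503153745) (nat_lit 836) (nat_lit 17557681727) (nat_lit 912) (nat_lit 5190327815) (nat_lit 361) (nat_lit 5) (nat_lit 372) (nat_lit 5) (nat_lit 373) (nat_lit 5) (nat_lit 490) (nat_lit 460) (nat_lit 190))))))) (XT.nd (nat_lit 57408) (nat_lit 0) (nat_lit 6612) (XT.nd (nat_lit 390) (nat_lit 836) (nat_lit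 0) (XT.nd (nat_lit 156) (nat_lit 912) (nat_lit 0) (XT.nd (nat_lit 78) (nat_lit 836) (nat_lit 0) (XT.lf (nat_lit 0) (nat_lit 18911425713) (nat_lit 836) (nat_lit 5938271724) (nat_lit 912) (nat_lit 2702498963) (nat_lit 361) (nat_lit 5) (nat_lit 372) (nat_lit 5) (nat_lit 373) (nat_lit 5) (nat_lit 491) (nat_lit 460) (nat_lit 189)) (XT.lf (nat_lit 0) (nat_lit 5783702333) (nat_lit 836) (nat_lit 21984087154) (nat_lit 912) (nat_lit 89992441) (nat_lit 350) (nat_lit 5) (nat_lit 361) (nat_lit 5) (nat_lit 362) (nat_lit 5) (nat_lit 492) (nat_lit 460) (nat_lit 188))) (XT.nd (nat_lit 78) (nat_lit 836) (nat_lit 0) (XT.lf (nat_lit 0) (nat_lit 2636213341) (nat_lit 912) (nat_lit 7613342603) (nat_lit 76) (nat_lit 17917685307) (nat_lit 349) (nat_lit 5) (nat_lit 361) (nat_lit 5) (nat_lit 350) (nat_lit 5) (nat_lit 493) (nat_lit 460) (nat_lit 187)) (XT.nd (nat_lit 78) (nat_lit 0) (nat_lit 0) (XT.lf (nat_lit 0) (nat_lit 5471723714) (nat_lit 912)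 (nat_lit 21264994808) (nat_lit 76) (nat_lit 1745040398) (nat_lit 338) (nat_lit 5) (nat_lit 350) (nat_lit 5) (nat_lit 339) (nat_lit 5) (nat_lit 494) (nat_lit 460) (nat_lit 186)) (XT.lf (nat_lit 0) (nat_lit 8480854754) (nat_lit 912) (nat_lit 6425462868) (nat_lit 76) (nat_lit 13893911858) (nat_lit 338) (nat_lit 5) (nat_lit 350) (nat_lit 5) (nat_lit 339) (nat_lit 5) (nat_lit 495) (nat_lit 460) (nat_lit 185))))) (XT.nd (nat_lit 56784) (nat_lit 0) (nat_lit 6460) (XT.nd (nat_lit 56628) (nat_lit 0) (nat_lit 6460) (XT.lf (nat_lit 0) (nat_lit 8824262729) (nat_lit 836) (nat_lit 2780850348) (nat_lit 912) (nat_lit 17518858217) (nat_lit 327) (nat_lit 5) (nat_lit 338) (nat_lit 5) (nat_lit 339) (nat_lit 5) (nat_lit 496) (nat_lit 460) (nat_lit 184)) (XT.nd (nat_lit 78) (nat_lit 0) (nat_lit 0) (XT.lf (nat_lit 0) (nat_lit 1681356008) (nat_lit 0) (nat_lit 1681356008) (nat_lit 1748) (nat_lit 6818687602) (nat_lit 412) (nat_lit 5) (nat_lit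 412) (nat_lit 3) (nat_lit 435) (nat_lit 3) (nat_lit 461) (nat_lit 461) (nat_lit 218)) (XT.lf (nat_lit 0) (nat_lit 6991170926) (nat_lit 1748) (nat_lit 7306701346) (nat_lit 1824) (nat_lit 6264530226) (nat_lit 412) (nat_lit 5) (nat_lit 435) (nat_lit 3) (nat_lit 436) (nat_lit 5) (nat_lit 462) (nat_lit 461) (nat_lit 217)))) (XT.nd (nat_lit 78) (nat_lit 0) (nat_lit 76) (XT.lf (nat_lit 76) (nat_lit 2590092076) (nat_lit 0) (nat_lit 4707114808) (nat_lit 1824) (nat_lit 13468092895) (nat_lit 413) (nat_lit 5) (nat_lit 412) (nat_lit 5) (nat_lit 436) (nat_lit 5) (nat_lit 463) (nat_lit 461) (nat_lit 216)) (XT.nd (nat_lit 78) (nat_lit 0) (nat_lit 0) (XT.lf (nat_lit 0) (nat_lit 7687640274) (nat_lit 1748) (nat_lit 8222927216) (nat_lit 1824) (nat_lit 5060123393) (nat_lit 413) (nat_lit 5) (nat_lit 436) (nat_lit 5) (nat_lit 437) (nat_lit 5) (nat_lit 464) (nat_lit 461) (nat_lit 215)) (XT.lf (nat_lit 76) (nat_lit 1920213289) (nat_lit 0) (nat_lit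 6205355312) (nat_lit 1824) (nat_lit 13053828866) (nat_lit 414) (nat_lit 5) (nat_lit 413) (nat_lit 5) (nat_lit 437) (nat_lit 5) (nat_lit 465) (nat_lit 461) (nat_lit 214)))))) (XT.nd (nat_lit 390) (nat_lit 0) (nat_lit 152) (XT.nd (nat_lit 156) (nat_lit 0) (nat_lit 76) (XT.nd (nat_lit 78) (nat_lit 0) (nat_lit 0) (XT.lf (nat_lit 0) (nat_lit 8647905222) (nat_lit 1748) (nat_lit 9040115508) (nat_lit 1824) (nat_lit 3702745814) (nat_lit 414) (nat_lit 5) (nat_lit 437) (nat_lit 5) (nat_lit 438) (nat_lit 5) (nat_lit 466) (nat_lit 461) (nat_lit 213)) (XT.lf (nat_lit 76) (nat_lit 1357819674) (nat_lit 0) (nat_lit 7868976384) (nat_lit 1824) (nat_lit 12378646126) (nat_lit 415) (nat_lit 5) (nat_lit 414) (nat_lit 5) (nat_lit 438) (nat_lit 5) (nat_lit 467) (nat_lit 461) (nat_lit 212))) (XT.nd (nat_lit 78) (nat_lit 0) (nat_lit 0) (XT.lf (nat_lit 0) (nat_lit 9888533253) (nat_lit 1748) (nat_lit 9753580558) (nat_lit 1824) (nat_lit 2180873458)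 (nat_lit 415) (nat_lit 5) (nat_lit 438) (nat_lit 5) (nat_lit 439) (nat_lit 5) (nat_lit 468) (nat_lit 461) (nat_lit 211)) (XT.nd (nat_lit 78) (nat_lit 0) (nat_lit 76) (XT.lf (nat_lit 76) (nat_lit 907882647) (nat_lit 0) (nat_lit 9709969440) (nat_lit 1824) (nat_lit 11425945508) (nat_lit 416) (nat_lit 5) (nat_lit 415) (nat_lit 5) (nat_lit 439) (nat_lit 5) (nat_lit 469) (nat_lit 461) (nat_lit 210)) (XT.lf (nat_lit 0) (nat_lit 11426780615) (nat_lit 1748) (nat_lit 10358414849) (nat_lit 1824) (nat_lit 482529453) (nat_lit 416) (nat_lit 5) (nat_lit 439) (nat_lit 5) (nat_lit 440) (nat_lit 5) (nat_lit 470) (nat_lit 461) (nat_lit 209))))) (XT.nd (nat_lit 234) (nat_lit 0) (nat_lit 76) (XT.nd (nat_lit 78) (nat_lit 0) (nat_lit 0) (XT.lf (nat_lit 76) (nat_lit 575603952) (nat_lit 0) (nat_lit 11740801841) (nat_lit 1824) (nat_lit 10178435857) (nat_lit 417) (nat_lit 5) (nat_lit 416) (nat_lit 5) (nat_lit 440) (nat_lit 5) (nat_lit 471) (nat_lit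 461) (nat_lit 208)) (XT.nd (nat_lit 78) (nat_lit 0) (nat_lit 76) (XT.lf (nat_lit 76) (nat_lit 11866453127) (nat_lit 0) (nat_lit 1423411617) (nat_lit 1824) (nat_lit 9435316354) (nat_lit 417) (nat_lit 5) (nat_lit 416) (nat_lit 5) (nat_lit 440) (nat_lit 5) (nat_lit 472) (nat_lit 461) (nat_lit 207)) (XT.lf (nat_lit 76) (nat_lit 366418637) (nat_lit 0) (nat_lit 13974445191) (nat_lit 1824) (nat_lit 8618103269) (nat_lit 418) (nat_lit 5) (nat_lit 417) (nat_lit 5) (nat_lit 441) (nat_lit 5) (nat_lit 473) (nat_lit 461) (nat_lit 206)))) (XT.nd (nat_lit 78) (nat_lit 0) (nat_lit 76) (XT.lf (nat_lit 76) (nat_lit 11951430741) (nat_lit 0) (nat_lit 3540342794) (nat_lit 1824) (nat_lit 7704078626) (nat_lit 418) (nat_lit 5) (nat_lit 417) (nat_lit 5) (nat_lit 441) (nat_lit 5) (nat_lit 474) (nat_lit 461) (nat_lit 205)) (XT.nd (nat_lit 78) (nat_lit 0) (nat_lit 0) (XT.lf (nat_lit 76) (nat_lit 285998052) (nat_lit 0) (nat_lit 16424404636) (nat_lit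 1824) (nat_lit 6726179347) (nat_lit 419) (nat_lit 5) (nat_lit 418) (nat_lit 5) (nat_lit 442) (nat_lit 5) (nat_lit 475) (nat_lit 461) (nat_lit 204)) (XT.lf (nat_lit 76) (nat_lit 12173397360) (nat_lit 0) (nat_lit 5875534605) (nat_lit 1824) (nat_lit 5631285105) (nat_lit 419) (nat_lit 5) (nat_lit 418) (nat_lit 5) (nat_lit 442) (nat_lit 5) (nat_lit 476) (nat_lit 461) (nat_lit 203))))))))
noncomputable def xc247 : XT := (XT.nd (nat_lit 58344) (nat_lit 0) (nat_lit 4408) (XT.nd (nat_lit 858) (nat_lit 3496) (nat_lit 0) (XT.nd (nat_lit 390) (nat_lit 912) (nat_lit 0) (XT.nd (nat_lit 156) (nat_lit 1748) (nat_lit 0) (XT.nd (nat_lit 78) (nat_lit 0) (nat_lit 0) (XT.lf (nat_lit 76) (nat_lit 340252848) (nat_lit 0) (nat_lit 19104749199) (nat_lit 1824) (nat_lit 4483108445) (nat_lit 420) (nat_lit 5) (nat_lit 419) (nat_lit 5) (nat_lit 443) (nat_lit 5) (nat_lit 477) (nat_lit 461) (nat_lit 202)) (XT.lf (nat_lit 76) (nat_lit 12538514865) (nat_lit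 0) (nat_lit 8443246029) (nat_lit 1824) (nat_lit 3196946611) (nat_lit 420) (nat_lit 5) (nat_lit 419) (nat_lit 5) (nat_lit 443) (nat_lit 5) (nat_lit 478) (nat_lit 461) (nat_lit 201))) (XT.nd (nat_lit 78) (nat_lit 1824) (nat_lit 0) (XT.lf (nat_lit 76) (nat_lit 535335943) (nat_lit 0) (nat_lit 22030143247) (nat_lit 1824) (nat_lit 1868513830) (nat_lit 421) (nat_lit 5) (nat_lit 420) (nat_lit 5) (nat_lit 444) (nat_lit 5) (nat_lit 479) (nat_lit 461) (nat_lit 200)) (XT.nd (nat_lit 78) (nat_lit 1824) (nat_lit 0) (XT.lf (nat_lit 76) (nat_lit 13053193719) (nat_lit 0) (nat_lit 11258343900) (nat_lit 1824) (nat_lit 380234341) (nat_lit 421) (nat_lit 5) (nat_lit 420) (nat_lit 5) (nat_lit 444) (nat_lit 5) (nat_lit 480) (nat_lit 461) (nat_lit 199)) (XT.lf (nat_lit 76) (nat_lit 868400348) (nat_lit 0) (nat_lit 257170570) (nat_lit 1900) (nat_lit 23828935143) (nat_lit 397) (nat_lit 5) (nat_lit 396) (nat_lit 5) (nat_lit 421) (nat_lit 5) (nat_lit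 481) (nat_lit 461) (nat_lit 198))))) (XT.nd (nat_lit 234) (nat_lit 988) (nat_lit 0) (XT.nd (nat_lit 78) (nat_lit 0) (nat_lit 0) (XT.lf (nat_lit 0) (nat_lit 2803301333) (nat_lit 1824) (nat_lit 11514223127) (nat_lit 1900) (nat_lit 10901983079) (nat_lit 397) (nat_lit 5) (nat_lit 421) (nat_lit 5) (nat_lit 422) (nat_lit 5) (nat_lit 482) (nat_lit 461) (nat_lit 197)) (XT.nd (nat_lit 78) (nat_lit 0) (nat_lit 76) (XT.lf (nat_lit 76) (nat_lit 1322432304) (nat_lit 0) (nat_lit 3199591987) (nat_lit 1900) (nat_lit 20967636947) (nat_lit 398) (nat_lit 5) (nat_lit 397) (nat_lit 5) (nat_lit 422) (nat_lit 5) (nat_lit 483) (nat_lit 461) (nat_lit 196)) (XT.lf (nat_lit 0) (nat_lit 6402947846) (nat_lit 1824) (nat_lit 11247490998) (nat_lit 1900) (nat_lit 8112223575) (nat_lit 398) (nat_lit 5) (nat_lit 422) (nat_lit 5) (nat_lit 423) (nat_lit 5) (nat_lit 484) (nat_lit 461) (nat_lit 195)))) (XT.nd (nat_lit 78) (nat_lit 1064) (nat_lit 0) (XT.lf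 (nat_lit 76) (nat_lit 1932492460) (nat_lit 0) (nat_lit 6419981945) (nat_lit 1900) (nat_lit 17688030441) (nat_lit 399) (nat_lit 5) (nat_lit 398) (nat_lit 5) (nat_lit 423) (nat_lit 5) (nat_lit 485) (nat_lit 461) (nat_lit 194)) (XT.nd (nat_lit 78) (nat_lit 1140) (nat_lit 0) (XT.lf (nat_lit 0) (nat_lit 10446949029) (nat_lit 1824) (nat_lit 10829394856) (nat_lit 76) (nat_lit 5045441980) (nat_lit 399) (nat_lit 5) (nat_lit 423) (nat_lit 5) (nat_lit 400) (nat_lit 5) (nat_lit 486) (nat_lit 461) (nat_lit 193)) (XT.lf (nat_lit 0) (nat_lit 2705459603) (nat_lit 1140) (nat_lit 9935278752) (nat_lit 1216) (nat_lit 13966806525) (nat_lit 384) (nat_lit 5) (nat_lit 399) (nat_lit 5) (nat_lit 400) (nat_lit 5) (nat_lit 487) (nat_lit 461) (nat_lit 192)))))) (XT.nd (nat_lit 390) (nat_lit 1748) (nat_lit 0) (XT.nd (nat_lit 156) (nat_lit 836) (nat_lit 0) (XT.nd (nat_lit 78) (nat_lit 912) (nat_lit 0) (XT.lf (nat_lit 0) (nat_lit 14959538191) (nat_lit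 1216) (nat_lit 10253182289) (nat_lit 76) (nat_lit 1684676758) (nat_lit 384) (nat_lit 5) (nat_lit 400) (nat_lit 5) (nat_lit 385) (nat_lit 5) (nat_lit 488) (nat_lit 461) (nat_lit 191)) (XT.lf (nat_lit 0) (nat_lit 3648456444) (nat_lit 912) (nat_lit 13763176199) (nat_lit 988) (nat_lit 9779676473) (nat_lit 372) (nat_lit 5) (nat_lit 384) (nat_lit 5) (nat_lit 385) (nat_lit 5) (nat_lit 489) (nat_lit 461) (nat_lit 190))) (XT.nd (nat_lit 78) (nat_lit 836) (nat_lit 0) (XT.lf (nat_lit 0) (nat_lit 17964831713) (nat_lit 912) (nat_lit 2014210899) (nat_lit 988) (nat_lit 7510731973) (nat_lit 372) (nat_lit 5) (nat_lit 384) (nat_lit 5) (nat_lit 385) (nat_lit 5) (nat_lit 490) (nat_lit 461) (nat_lit 189)) (XT.nd (nat_lit 78) (nat_lit 0) (nat_lit 0) (XT.lf (nat_lit 0) (nat_lit 4768851217) (nat_lit 836) (nat_lit 17922162822) (nat_lit 912) (nat_lit 5101331870) (nat_lit 361) (nat_lit 5) (nat_lit 372) (nat_lit 5) (nat_lit 373) (nat_lit 5) (nat_lit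 491) (nat_lit 461) (nat_lit 188)) (XT.lf (nat_lit 0) (nat_lit 19461844813) (nat_lit 836) (nat_lit 6070103296) (nat_lit 912) (nat_lit 2567526882) (nat_lit 361) (nat_lit 5) (nat_lit 372) (nat_lit 5) (nat_lit 373) (nat_lit 5) (nat_lit 492) (nat_lit 461) (nat_lit 187))))) (XT.nd (nat_lit 234) (nat_lit 0) (nat_lit 0) (XT.nd (nat_lit 78) (nat_lit 836) (nat_lit 0) (XT.lf (nat_lit 0) (nat_lit 93356130) (nat_lit 912) (nat_lit 22337580227) (nat_lit 76) (nat_lit 5980276374) (nat_lit 349) (nat_lit 5) (nat_lit 361) (nat_lit 5) (nat_lit 350) (nat_lit 5) (nat_lit 493) (nat_lit 461) (nat_lit 186)) (XT.nd (nat_lit 78) (nat_lit 836) (nat_lit 0) (XT.lf (nat_lit 0) (nat_lit 2869275400) (nat_lit 912) (nat_lit 7591702608) (nat_lit 76) (nat_lit 18265944583) (nat_lit 349) (nat_lit 5) (nat_lit 361) (nat_lit 5) (nat_lit 350) (nat_lit 5) (nat_lit 494) (nat_lit 461) (nat_lit 185)) (XT.lf (nat_lit 0) (nat_lit 5759048129) (nat_lit 912) (nat_lit 21513884386)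 (nat_lit 76) (nat_lit 1774848166) (nat_lit 338) (nat_lit 5) (nat_lit 350) (nat_lit 5) (nat_lit 339) (nat_lit 5) (nat_lit 495) (nat_lit 461) (nat_lit 184)))) (XT.nd (nat_lit 56706) (nat_lit 0) (nat_lit 5624) (XT.lf (nat_lit 0) (nat_lit 8824873752) (nat_lit 912) (nat_lit 6381020834) (nat_lit 76) (nat_lit 14166796918) (nat_lit 338) (nat_lit 5) (nat_lit 350) (nat_lit 5) (nat_lit 339) (nat_lit 5) (nat_lit 496) (nat_lit 461) (nat_lit 183)) (XT.nd (nat_lit 78) (nat_lit 0) (nat_lit 0) (XT.lf (nat_lit 0) (nat_lit 1793111868) (nat_lit 0) (nat_lit 1793111868) (nat_lit 1748) (nat_lit 6795624201) (nat_lit 412) (nat_lit 5) (nat_lit 412) (nat_lit 3) (nat_lit 435) (nat_lit 3) (nat_lit 462) (nat_lit 462) (nat_lit 216)) (XT.lf (nat_lit 0) (nat_lit 7436386924) (nat_lit 1748) (nat_lit 7292412476) (nat_lit 1824) (nat_lit 6238636385) (nat_lit 412) (nat_lit 5) (nat_lit 435) (nat_lit 3) (nat_lit 436) (nat_lit 5) (nat_lit 463) (nat_lit 462)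 (nat_lit 215))))))) (XT.nd (nat_lit 858) (nat_lit 1216) (nat_lit 0) (XT.nd (nat_lit 390) (nat_lit 0) (nat_lit 228) (XT.nd (nat_lit 156) (nat_lit 0) (nat_lit 76) (XT.nd (nat_lit 78) (nat_lit 0) (nat_lit 76) (XT.lf (nat_lit 76) (nat_lit 2801261400) (nat_lit 0) (nat_lit 4942328831) (nat_lit 1824) (nat_lit 13430901945) (nat_lit 413) (nat_lit 5) (nat_lit 412) (nat_lit 5) (nat_lit 436) (nat_lit 5) (nat_lit 464) (nat_lit 462) (nat_lit 214)) (XT.lf (nat_lit 0) (nat_lit 8135043352) (nat_lit 1748) (nat_lit 8224251435) (nat_lit 1824) (nat_lit 5024834149) (nat_lit 413) (nat_lit 5) (nat_lit 436) (nat_lit 5) (nat_lit 437) (nat_lit 5) (nat_lit 465) (nat_lit 462) (nat_lit 213))) (XT.nd (nat_lit 78) (nat_lit 0) (nat_lit 76) (XT.lf (nat_lit 76) (nat_lit 2120678628) (nat_lit 0) (nat_lit 6456345977) (nat_lit 1824) (nat_lit 13020081175) (nat_lit 414) (nat_lit 5) (nat_lit 413) (nat_lit 5) (nat_lit 437) (nat_lit 5) (nat_lit 466) (nat_lit 462)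 (nat_lit 212)) (XT.nd (nat_lit 78) (nat_lit 0) (nat_lit 0) (XT.lf (nat_lit 0) (nat_lit 9103334718) (nat_lit 1748) (nat_lit 9055462404) (nat_lit 1824) (nat_lit 3654036556) (nat_lit 414) (nat_lit 5) (nat_lit 437) (nat_lit 5) (nat_lit 438) (nat_lit 5) (nat_lit 467) (nat_lit 462) (nat_lit 211)) (XT.lf (nat_lit 76) (nat_lit 1549342959) (nat_lit 0) (nat_lit 8139988936) (nat_lit 1824) (nat_lit 12342562302) (nat_lit 415) (nat_lit 5) (nat_lit 414) (nat_lit 5) (nat_lit 438) (nat_lit 5) (nat_lit 468) (nat_lit 462) (nat_lit 210))))) (XT.nd (nat_lit 234) (nat_lit 0) (nat_lit 76) (XT.nd (nat_lit 78) (nat_lit 0) (nat_lit 0) (XT.lf (nat_lit 0) (nat_lit 10358129541) (nat_lit 1748) (nat_lit 9781238931) (nat_lit 1824) (nat_lit 2114547097) (nat_lit 415) (nat_lit 5) (nat_lit 438) (nat_lit 5) (nat_lit 439) (nat_lit 5) (nat_lit 469) (nat_lit 462) (nat_lit 209)) (XT.nd (nat_lit 78) (nat_lit 0) (nat_lit 76) (XT.lf (nat_lit 76) (nat_lit 1092352135)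 (nat_lit 0) (nat_lit 10005432509) (nat_lit 1824) (nat_lit 11381444321) (nat_lit 416) (nat_lit 5) (nat_lit 415) (nat_lit 5) (nat_lit 439) (nat_lit 5) (nat_lit 470) (nat_lit 462) (nat_lit 208)) (XT.lf (nat_lit 0) (nat_lit 11917000584) (nat_lit 1748) (nat_lit 10396549922) (nat_lit 1824) (nat_lit 394203974) (nat_lit 416) (nat_lit 5) (nat_lit 439) (nat_lit 5) (nat_lit 440) (nat_lit 5) (nat_lit 471) (nat_lit 462) (nat_lit 207)))) (XT.nd (nat_lit 78) (nat_lit 0) (nat_lit 0) (XT.lf (nat_lit 76) (nat_lit 755037195) (nat_lit 0) (nat_lit 12065340261) (nat_lit 1824) (nat_lit 10119118699) (nat_lit 417) (nat_lit 5) (nat_lit 416) (nat_lit 5) (nat_lit 440) (nat_lit 5) (nat_lit 472) (nat_lit 462) (nat_lit 206)) (XT.nd (nat_lit 78) (nat_lit 0) (nat_lit 76) (XT.lf (nat_lit 76) (nat_lit 12268410781) (nat_lit 0) (nat_lit 1539842971) (nat_lit 1824) (nat_lit 9366291431) (nat_lit 417) (nat_lit 5) (nat_lit 416) (nat_lit 5) (nat_lit 440) (nat_lit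 5) (nat_lit 473) (nat_lit 462) (nat_lit 205)) (XT.lf (nat_lit 76) (nat_lit 542965601) (nat_lit 0) (nat_lit 14332893201) (nat_lit 1824) (nat_lit 8537238099) (nat_lit 418) (nat_lit 5) (nat_lit 417) (nat_lit 5) (nat_lit 441) (nat_lit 5) (nat_lit 474) (nat_lit 462) (nat_lit 204)))))) (XT.nd (nat_lit 390) (nat_lit 1596) (nat_lit 0) (XT.nd (nat_lit 156) (nat_lit 0) (nat_lit 76) (XT.nd (nat_lit 78) (nat_lit 0) (nat_lit 76) (XT.lf (nat_lit 76) (nat_lit 12356359936) (nat_lit 0) (nat_lit 3688560537) (nat_lit 1824) (nat_lit 7609898203) (nat_lit 418) (nat_lit 5) (nat_lit 417) (nat_lit 5) (nat_lit 441) (nat_lit 5) (nat_lit 475) (nat_lit 462) (nat_lit 203)) (XT.lf (nat_lit 76) (nat_lit 461944396) (nat_lit 0) (nat_lit 16821819475) (nat_lit 1824) (nat_lit 6616684098) (nat_lit 419) (nat_lit 5) (nat_lit 418) (nat_lit 5) (nat_lit 442) (nat_lit 5) (nat_lit 476) (nat_lit 462) (nat_lit 202))) (XT.nd (nat_lit 78) (nat_lit 0) (nat_lit 76) (XT.lf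 (nat_lit 76) (nat_lit 12583753918) (nat_lit 0) (nat_lit 6060620538) (nat_lit 1824) (nat_lit 5504676654) (nat_lit 419) (nat_lit 5) (nat_lit 418) (nat_lit 5) (nat_lit 442) (nat_lit 5) (nat_lit 477) (nat_lit 462) (nat_lit 201)) (XT.nd (nat_lit 78) (nat_lit 0) (nat_lit 0) (XT.lf (nat_lit 76) (nat_lit 518023339) (nat_lit 0) (nat_lit 19546425150) (nat_lit 1824) (nat_lit 4337533848) (nat_lit 420) (nat_lit 5) (nat_lit 419) (nat_lit 5) (nat_lit 443) (nat_lit 5) (nat_lit 478) (nat_lit 462) (nat_lit 200)) (XT.lf (nat_lit 76) (nat_lit 12956898333) (nat_lit 0) (nat_lit 8670523663) (nat_lit 1824) (nat_lit 3030261263) (nat_lit 420) (nat_lit 5) (nat_lit 419) (nat_lit 5) (nat_lit 443) (nat_lit 5) (nat_lit 479) (nat_lit 462) (nat_lit 199))))) (XT.nd (nat_lit 234) (nat_lit 0) (nat_lit 76) (XT.nd (nat_lit 78) (nat_lit 1824) (nat_lit 0) (XT.lf (nat_lit 76) (nat_lit 717498017) (nat_lit 0) (nat_lit 22521626145) (nat_lit 1824) (nat_lit 1679025659)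 (nat_lit 421) (nat_lit 5) (nat_lit 420) (nat_lit 5) (nat_lit 444) (nat_lit 5) (nat_lit 480) (nat_lit 462) (nat_lit 198)) (XT.nd (nat_lit 78) (nat_lit 1824) (nat_lit 0) (XT.lf (nat_lit 76) (nat_lit 13482351078) (nat_lit 0) (nat_lit 11533393163) (nat_lit 1824) (nat_lit 165428785) (nat_lit 421) (nat_lit 5) (nat_lit 420) (nat_lit 5) (nat_lit 444) (nat_lit 5) (nat_lit 481) (nat_lit 462) (nat_lit 197)) (XT.lf (nat_lit 76) (nat_lit 1055726626) (nat_lit 0) (nat_lit 308648694) (nat_lit 1900) (nat_lit 24084823054) (nat_lit 397) (nat_lit 5) (nat_lit 396) (nat_lit 5) (nat_lit 421) (nat_lit 5) (nat_lit 482) (nat_lit 462) (nat_lit 196)))) (XT.nd (nat_lit 78) (nat_lit 0) (nat_lit 0) (XT.lf (nat_lit 0) (nat_lit 3071124368) (nat_lit 1824) (nat_lit 11573275321) (nat_lit 1900) (nat_lit 11075192324) (nat_lit 397) (nat_lit 5) (nat_lit 421) (nat_lit 5) (nat_lit 422) (nat_lit 5) (nat_lit 483) (nat_lit 462) (nat_lit 195)) (XT.nd (nat_lit 78)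 (nat_lit 0) (nat_lit 76) (XT.lf (nat_lit 76) (nat_lit 1518986690) (nat_lit 0) (nat_lit 3302187436) (nat_lit 1900) (nat_lit 21174036996) (nat_lit 398) (nat_lit 5) (nat_lit 397) (nat_lit 5) (nat_lit 422) (nat_lit 5) (nat_lit 484) (nat_lit 462) (nat_lit 194)) (XT.lf (nat_lit 0) (nat_lit 6735378086) (nat_lit 1824) (nat_lit 11301264620) (nat_lit 1900) (nat_lit 8237117737) (nat_lit 398) (nat_lit 5) (nat_lit 422) (nat_lit 5) (nat_lit 423) (nat_lit 5) (nat_lit 485) (nat_lit 462) (nat_lit 193))))))))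
noncomputable def xc248 : XT := (XT.nd (nat_lit 58422) (nat_lit 0) (nat_lit 0) (XT.nd (nat_lit 57564) (nat_lit 0) (nat_lit 4788) (XT.nd (nat_lit 390) (nat_lit 1748) (nat_lit 0) (XT.nd (nat_lit 156) (nat_lit 1976) (nat_lit 0) (XT.nd (nat_lit 78) (nat_lit 0) (nat_lit 76) (XT.lf (nat_lit 76) (nat_lit 2141192348) (nat_lit 0) (nat_lit 6579799626) (nat_lit 1900) (nat_lit 17836227138) (nat_lit 399) (nat_lit 5) (nat_lit 398) (nat_lit 5) (nat_lit 423) (nat_lit 5) (nat_lit 486) (nat_lit 462) (nat_lit 192)) (XT.lf (nat_lit 0) (nat_lit 10853205749) (nat_lit 1824) (nat_lit 10875051523) (nat_lit 76) (nat_lit 5115952791) (nat_lit 399) (nat_lit 5) (nat_lit 423) (nat_lit 5) (nat_lit 400) (nat_lit 5) (nat_lit 487) (nat_lit 462) (nat_lit 191))) (XT.nd (nat_lit 78) (nat_lit 912) (nat_lit 0) (XT.lf (nat_lit 0) (nat_lit 2929375478) (nat_lit 1140) (nat_lit 10158728905) (nat_lit 1216) (nat_lit 14047636481) (nat_lit 384) (nat_lit 5) (nat_lit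 399) (nat_lit 5) (nat_lit 400) (nat_lit 5) (nat_lit 488) (nat_lit 462) (nat_lit 190)) (XT.nd (nat_lit 78) (nat_lit 912) (nat_lit 0) (XT.lf (nat_lit 0) (nat_lit 15449307978) (nat_lit 1216) (nat_lit 10287733921) (nat_lit 76) (nat_lit 1694429069) (nat_lit 384) (nat_lit 5) (nat_lit 400) (nat_lit 5) (nat_lit 385) (nat_lit 5) (nat_lit 489) (nat_lit 462) (nat_lit 189)) (XT.lf (nat_lit 0) (nat_lit 3890815797) (nat_lit 912) (nat_lit 14056991472) (nat_lit 988) (nat_lit 9783507783) (nat_lit 372) (nat_lit 5) (nat_lit 384) (nat_lit 5) (nat_lit 385) (nat_lit 5) (nat_lit 490) (nat_lit 462) (nat_lit 188))))) (XT.nd (nat_lit 156) (nat_lit 912) (nat_lit 0) (XT.nd (nat_lit 78) (nat_lit 836) (nat_lit 0) (XT.lf (nat_lit 0) (nat_lit 18490197195) (nat_lit 912) (nat_lit 2072683107) (nat_lit 988) (nat_lit 7472944437) (nat_lit 372) (nat_lit 5) (nat_lit 384) (nat_lit 5) (nat_lit 385) (nat_lit 5) (nat_lit 491) (nat_lit 462) (nat_lit 187)) (XT.lf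 (nat_lit 0) (nat_lit 5033042541) (nat_lit 836) (nat_lit 18293416018) (nat_lit 912) (nat_lit 5018042762) (nat_lit 361) (nat_lit 5) (nat_lit 372) (nat_lit 5) (nat_lit 373) (nat_lit 5) (nat_lit 492) (nat_lit 462) (nat_lit 186))) (XT.nd (nat_lit 78) (nat_lit 912) (nat_lit 0) (XT.lf (nat_lit 0) (nat_lit 20016585924) (nat_lit 836) (nat_lit 6204064126) (nat_lit 912) (nat_lit 2437195316) (nat_lit 361) (nat_lit 5) (nat_lit 372) (nat_lit 5) (nat_lit 373) (nat_lit 5) (nat_lit 493) (nat_lit 462) (nat_lit 185)) (XT.nd (nat_lit 78) (nat_lit 0) (nat_lit 0) (XT.lf (nat_lit 0) (nat_lit 272025009) (nat_lit 912) (nat_lit 22613834922) (nat_lit 76) (nat_lit 6089985401) (nat_lit 349) (nat_lit 5) (nat_lit 361) (nat_lit 5) (nat_lit 350) (nat_lit 5) (nat_lit 494) (nat_lit 462) (nat_lit 184)) (XT.lf (nat_lit 0) (nat_lit 3099995964) (nat_lit 912) (nat_lit 7576382827) (nat_lit 76) (nat_lit 18621561023) (nat_lit 349) (nat_lit 5) (nat_lit 361) (nat_lit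 5) (nat_lit 350) (nat_lit 5) (nat_lit 495) (nat_lit 462) (nat_lit 183)))))) (XT.nd (nat_lit 390) (nat_lit 0) (nat_lit 152) (XT.nd (nat_lit 156) (nat_lit 0) (nat_lit 0) (XT.nd (nat_lit 78) (nat_lit 0) (nat_lit 0) (XT.lf (nat_lit 0) (nat_lit 1904069011) (nat_lit 0) (nat_lit 1904069011) (nat_lit 1748) (nat_lit 6778290671) (nat_lit 412) (nat_lit 5) (nat_lit 412) (nat_lit 3) (nat_lit 435) (nat_lit 3) (nat_lit 463) (nat_lit 463) (nat_lit 214)) (XT.lf (nat_lit 0) (nat_lit 7878648476) (nat_lit 1748) (nat_lit 7284067246) (nat_lit 1824) (nat_lit 6218095344) (nat_lit 412) (nat_lit 5) (nat_lit 435) (nat_lit 3) (nat_lit 436) (nat_lit 5) (nat_lit 464) (nat_lit 463) (nat_lit 213))) (XT.nd (nat_lit 78) (nat_lit 0) (nat_lit 76) (XT.lf (nat_lit 76) (nat_lit 3010465677) (nat_lit 0) (nat_lit 5176769148) (nat_lit 1824) (nat_lit 13404870996) (nat_lit 413) (nat_lit 5) (nat_lit 412) (nat_lit 5) (nat_lit 436) (nat_lit 5) (nat_lit 465) (nat_lit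 463) (nat_lit 212)) (XT.nd (nat_lit 78) (nat_lit 0) (nat_lit 0) (XT.lf (nat_lit 0) (nat_lit 8579991693) (nat_lit 1748) (nat_lit 8231936843) (nat_lit 1824) (nat_lit 4994139261) (nat_lit 413) (nat_lit 5) (nat_lit 436) (nat_lit 5) (nat_lit 437) (nat_lit 5) (nat_lit 466) (nat_lit 463) (nat_lit 211)) (XT.lf (nat_lit 76) (nat_lit 2318860245) (nat_lit 0) (nat_lit 6707429412) (nat_lit 1824) (nat_lit 12997106916) (nat_lit 414) (nat_lit 5) (nat_lit 413) (nat_lit 5) (nat_lit 437) (nat_lit 5) (nat_lit 467) (nat_lit 463) (nat_lit 210))))) (XT.nd (nat_lit 234) (nat_lit 0) (nat_lit 76) (XT.nd (nat_lit 78) (nat_lit 0) (nat_lit 0) (XT.lf (nat_lit 0) (nat_lit 9556904096) (nat_lit 1748) (nat_lit 9077541074) (nat_lit 1824) (nat_lit 3609120195) (nat_lit 414) (nat_lit 5) (nat_lit 437) (nat_lit 5) (nat_lit 438) (nat_lit 5) (nat_lit 468) (nat_lit 463) (nat_lit 209)) (XT.nd (nat_lit 78) (nat_lit 0) (nat_lit 76) (XT.lf (nat_lit 76) (nat_lit 1738314142)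 (nat_lit 0) (nat_lit 8412009230) (nat_lit 1824) (nat_lit 12316771539) (nat_lit 415) (nat_lit 5) (nat_lit 414) (nat_lit 5) (nat_lit 438) (nat_lit 5) (nat_lit 469) (nat_lit 463) (nat_lit 208)) (XT.lf (nat_lit 0) (nat_lit 10826562434) (nat_lit 1748) (nat_lit 9815951332) (nat_lit 1824) (nat_lit 2051163461) (nat_lit 415) (nat_lit 5) (nat_lit 438) (nat_lit 5) (nat_lit 439) (nat_lit 5) (nat_lit 470) (nat_lit 463) (nat_lit 207)))) (XT.nd (nat_lit 78) (nat_lit 0) (nat_lit 76) (XT.lf (nat_lit 76) (nat_lit 1274052922) (nat_lit 0) (nat_lit 10302872647) (nat_lit 1824) (nat_lit 11346654813) (nat_lit 416) (nat_lit 5) (nat_lit 415) (nat_lit 5) (nat_lit 439) (nat_lit 5) (nat_lit 471) (nat_lit 463) (nat_lit 206)) (XT.nd (nat_lit 78) (nat_lit 0) (nat_lit 0) (XT.lf (nat_lit 0) (nat_lit 12406863431) (nat_lit 1748) (nat_lit 10442011463) (nat_lit 1824) (nat_lit 307916517) (nat_lit 416) (nat_lit 5) (nat_lit 439) (nat_lit 5) (nat_lit 440) (nat_lit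 5) (nat_lit 472) (nat_lit 463) (nat_lit 205)) (XT.lf (nat_lit 76) (nat_lit 931538518) (nat_lit 0) (nat_lit 12392885421) (nat_lit 1824) (nat_lit 10068823376) (nat_lit 417) (nat_lit 5) (nat_lit 416) (nat_lit 5) (nat_lit 440) (nat_lit 5) (nat_lit 473) (nat_lit 463) (nat_lit 204))))))) (XT.nd (nat_lit 858) (nat_lit 3572) (nat_lit 0) (XT.nd (nat_lit 390) (nat_lit 1520) (nat_lit 0) (XT.nd (nat_lit 156) (nat_lit 0) (nat_lit 76) (XT.nd (nat_lit 78) (nat_lit 0) (nat_lit 76) (XT.lf (nat_lit 76) (nat_lit 12672014859) (nat_lit 0) (nat_lit 1655187236) (nat_lit 1824) (nat_lit 9305894027) (nat_lit 417) (nat_lit 5) (nat_lit 416) (nat_lit 5) (nat_lit 440) (nat_lit 5) (nat_lit 474) (nat_lit 463) (nat_lit 203)) (XT.lf (nat_lit 76) (nat_lit 716472540) (nat_lit 0) (nat_lit 14695444092) (nat_lit 1824) (nat_lit 8464588749) (nat_lit 418) (nat_lit 5) (nat_lit 417) (nat_lit 5) (nat_lit 441) (nat_lit 5) (nat_lit 475) (nat_lit 463) (nat_lit 202)))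 (XT.nd (nat_lit 78) (nat_lit 0) (nat_lit 76) (XT.lf (nat_lit 76) (nat_lit 12762945592) (nat_lit 0) (nat_lit 3836736677) (nat_lit 1824) (nat_lit 7523474489) (nat_lit 418) (nat_lit 5) (nat_lit 417) (nat_lit 5) (nat_lit 441) (nat_lit 5) (nat_lit 476) (nat_lit 463) (nat_lit 201)) (XT.nd (nat_lit 78) (nat_lit 0) (nat_lit 0) (XT.lf (nat_lit 76) (nat_lit 634799569) (nat_lit 0) (nat_lit 17224506101) (nat_lit 1824) (nat_lit 6514474492) (nat_lit 419) (nat_lit 5) (nat_lit 418) (nat_lit 5) (nat_lit 442) (nat_lit 5) (nat_lit 477) (nat_lit 463) (nat_lit 200)) (XT.lf (nat_lit 76) (nat_lit 12995837119) (nat_lit 0) (nat_lit 6246784161) (nat_lit 1824) (nat_lit 5384825787) (nat_lit 419) (nat_lit 5) (nat_lit 418) (nat_lit 5) (nat_lit 442) (nat_lit 5) (nat_lit 478) (nat_lit 463) (nat_lit 199))))) (XT.nd (nat_lit 234) (nat_lit 1748) (nat_lit 0) (XT.nd (nat_lit 78) (nat_lit 0) (nat_lit 0) (XT.lf (nat_lit 76) (nat_lit 692710444) (nat_lit 0)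 (nat_lit 19994621019) (nat_lit 1824) (nat_lit 4198182289) (nat_lit 420) (nat_lit 5) (nat_lit 419) (nat_lit 5) (nat_lit 443) (nat_lit 5) (nat_lit 479) (nat_lit 463) (nat_lit 198)) (XT.nd (nat_lit 78) (nat_lit 0) (nat_lit 76) (XT.lf (nat_lit 76) (nat_lit 13377140847) (nat_lit 0) (nat_lit 8900078613) (nat_lit 1824) (nat_lit 2869197629) (nat_lit 420) (nat_lit 5) (nat_lit 419) (nat_lit 5) (nat_lit 443) (nat_lit 5) (nat_lit 480) (nat_lit 463) (nat_lit 197)) (XT.lf (nat_lit 76) (nat_lit 896645512) (nat_lit 0) (nat_lit 23020962968) (nat_lit 1824) (nat_lit 1494556915) (nat_lit 421) (nat_lit 5) (nat_lit 420) (nat_lit 5) (nat_lit 444) (nat_lit 5) (nat_lit 481) (nat_lit 463) (nat_lit 196)))) (XT.nd (nat_lit 78) (nat_lit 0) (nat_lit 0) (XT.lf (nat_lit 0) (nat_lit 44445759) (nat_lit 1824) (nat_lit 11767262404) (nat_lit 1900) (nat_lit 13868820296) (nat_lit 396) (nat_lit 5) (nat_lit 420) (nat_lit 5) (nat_lit 421) (nat_lit 5) (nat_lit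 482) (nat_lit 463) (nat_lit 195)) (XT.nd (nat_lit 78) (nat_lit 0) (nat_lit 76) (XT.lf (nat_lit 76) (nat_lit 1240199743) (nat_lit 0) (nat_lit 359357148) (nat_lit 1900) (nat_lit 24354398416) (nat_lit 397) (nat_lit 5) (nat_lit 396) (nat_lit 5) (nat_lit 421) (nat_lit 5) (nat_lit 483) (nat_lit 463) (nat_lit 194)) (XT.lf (nat_lit 0) (nat_lit 3336081081) (nat_lit 1824) (nat_lit 11640157717) (nat_lit 1900) (nat_lit 11253606573) (nat_lit 397) (nat_lit 5) (nat_lit 421) (nat_lit 5) (nat_lit 422) (nat_lit 5) (nat_lit 484) (nat_lit 463) (nat_lit 193)))))) (XT.nd (nat_lit 390) (nat_lit 2660) (nat_lit 0) (XT.nd (nat_lit 156) (nat_lit 988) (nat_lit 0) (XT.nd (nat_lit 78) (nat_lit 0) (nat_lit 76) (XT.lf (nat_lit 76) (nat_lit 1712866751) (nat_lit 0) (nat_lit 3405335768) (nat_lit 1900) (nat_lit 21392834258) (nat_lit 398) (nat_lit 5) (nat_lit 397) (nat_lit 5) (nat_lit 422) (nat_lit 5) (nat_lit 485) (nat_lit 463) (nat_lit 192)) (XT.lf (nat_lit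 0) (nat_lit 7066520946) (nat_lit 1824) (nat_lit 11362760696) (nat_lit 1900) (nat_lit 8365960140) (nat_lit 398) (nat_lit 5) (nat_lit 422) (nat_lit 5) (nat_lit 423) (nat_lit 5) (nat_lit 486) (nat_lit 463) (nat_lit 191))) (XT.nd (nat_lit 78) (nat_lit 1064) (nat_lit 0) (XT.lf (nat_lit 76) (nat_lit 2347462983) (nat_lit 0) (nat_lit 6741593661) (nat_lit 1900) (nat_lit 17995370067) (nat_lit 399) (nat_lit 5) (nat_lit 398) (nat_lit 5) (nat_lit 423) (nat_lit 5) (nat_lit 487) (nat_lit 463) (nat_lit 190)) (XT.nd (nat_lit 78) (nat_lit 1140) (nat_lit 0) (XT.lf (nat_lit 0) (nat_lit 11259925515) (nat_lit 1824) (nat_lit 10928258791) (nat_lit 76) (nat_lit 5189054211) (nat_lit 399) (nat_lit 5) (nat_lit 423) (nat_lit 5) (nat_lit 400) (nat_lit 5) (nat_lit 488) (nat_lit 463) (nat_lit 189)) (XT.lf (nat_lit 0) (nat_lit 3151175870) (nat_lit 1140) (nat_lit 10385687200) (nat_lit 1216) (nat_lit 14137791273) (nat_lit 384) (nat_lit 5) (nat_lit 399)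 (nat_lit 5) (nat_lit 400) (nat_lit 5) (nat_lit 489) (nat_lit 463) (nat_lit 188))))) (XT.nd (nat_lit 234) (nat_lit 1748) (nat_lit 0) (XT.nd (nat_lit 78) (nat_lit 912) (nat_lit 0) (XT.lf (nat_lit 0) (nat_lit 15941472745) (nat_lit 1216) (nat_lit 10329597775) (nat_lit 76) (nat_lit 1705306092) (nat_lit 384) (nat_lit 5) (nat_lit 400) (nat_lit 5) (nat_lit 385) (nat_lit 5) (nat_lit 490) (nat_lit 463) (nat_lit 187)) (XT.nd (nat_lit 78) (nat_lit 0) (nat_lit 0) (XT.lf (nat_lit 0) (nat_lit 4131444708) (nat_lit 912) (nat_lit 14355962663) (nat_lit 988) (nat_lit 9794862080) (nat_lit 372) (nat_lit 5) (nat_lit 384) (nat_lit 5) (nat_lit 385) (nat_lit 5) (nat_lit 491) (nat_lit 463) (nat_lit 186)) (XT.lf (nat_lit 0) (nat_lit 19019621330) (nat_lit 912) (nat_lit 2131618496) (nat_lit 988) (nat_lit 7441701503) (nat_lit 372) (nat_lit 5) (nat_lit 384) (nat_lit 5) (nat_lit 385) (nat_lit 5) (nat_lit 492) (nat_lit 463) (nat_lit 185)))) (XT.nd (nat_lit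 78) (nat_lit 912) (nat_lit 0) (XT.lf (nat_lit 0) (nat_lit 5295962426) (nat_lit 836) (nat_lit 18671596852) (nat_lit 912) (nat_lit 4940283908) (nat_lit 361) (nat_lit 5) (nat_lit 372) (nat_lit 5) (nat_lit 373) (nat_lit 5) (nat_lit 493) (nat_lit 463) (nat_lit 184)) (XT.nd (nat_lit 78) (nat_lit 912) (nat_lit 0) (XT.lf (nat_lit 0) (nat_lit 20575995127) (nat_lit 836) (nat_lit 6340216501) (nat_lit 912) (nat_lit 2311312056) (nat_lit 361) (nat_lit 5) (nat_lit 372) (nat_lit 5) (nat_lit 373) (nat_lit 5) (nat_lit 494) (nat_lit 463) (nat_lit 183)) (XT.lf (nat_lit 0) (nat_lit 447401839) (nat_lit 912) (nat_lit 22902235313) (nat_lit 76) (nat_lit 6202272901) (nat_lit 349) (nat_lit 5) (nat_lit 361) (nat_lit 5) (nat_lit 350) (nat_lit 5) (nat_lit 495) (nat_lit 463) (nat_lit 182))))))))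
noncomputable def xc249 : XT := (XT.nd (nat_lit 1716) (nat_lit 2660) (nat_lit 0) (XT.nd (nat_lit 858) (nat_lit 1216) (nat_lit 0) (XT.nd (nat_lit 390) (nat_lit 0) (nat_lit 152) (XT.nd (nat_lit 156) (nat_lit 0) (nat_lit 0) (XT.nd (nat_lit 78) (nat_lit 0) (nat_lit 0) (XT.lf (nat_lit 0) (nat_lit 2014329270) (nat_lit 0) (nat_lit 2014329270) (nat_lit 1748) (nat_lit 6766561200) (nat_lit 412) (nat_lit 5) (nat_lit 412) (nat_lit 3) (nat_lit 435) (nat_lit 3) (nat_lit 464) (nat_lit 464) (nat_lit 212)) (XT.lf (nat_lit 0) (nat_lit 8318356984) (nat_lit 1748) (nat_lit 7281542632) (nat_lit 1824) (nat_lit 6202786193) (nat_lit 412) (nat_lit 5) (nat_lit 435) (nat_lit 3) (nat_lit 436) (nat_lit 5) (nat_lit 465) (nat_lit 464) (nat_lit 211))) (XT.nd (nat_lit 78) (nat_lit 0) (nat_lit 76) (XT.lf (nat_lit 76) (nat_lit 3217905910) (nat_lit 0) (nat_lit 5410633000) (nat_lit 1824) (nat_lit 13389761007) (nat_lit 413) (nat_lit 5) (nat_lit 412) (nat_lit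 5) (nat_lit 436) (nat_lit 5) (nat_lit 466) (nat_lit 464) (nat_lit 210)) (XT.nd (nat_lit 78) (nat_lit 0) (nat_lit 0) (XT.lf (nat_lit 0) (nat_lit 9022878988) (nat_lit 1748) (nat_lit 8245864680) (nat_lit 1824) (nat_lit 4967924802) (nat_lit 413) (nat_lit 5) (nat_lit 436) (nat_lit 5) (nat_lit 437) (nat_lit 5) (nat_lit 467) (nat_lit 464) (nat_lit 209)) (XT.lf (nat_lit 76) (nat_lit 2514956831) (nat_lit 0) (nat_lit 6958798795) (nat_lit 1824) (nat_lit 12984677002) (nat_lit 414) (nat_lit 5) (nat_lit 413) (nat_lit 5) (nat_lit 437) (nat_lit 5) (nat_lit 468) (nat_lit 464) (nat_lit 208))))) (XT.nd (nat_lit 234) (nat_lit 0) (nat_lit 76) (XT.nd (nat_lit 78) (nat_lit 0) (nat_lit 0) (XT.lf (nat_lit 0) (nat_lit 10009002081) (nat_lit 1748) (nat_lit 9106236668) (nat_lit 1824) (nat_lit 3567887478) (nat_lit 414) (nat_lit 5) (nat_lit 437) (nat_lit 5) (nat_lit 438) (nat_lit 5) (nat_lit 469) (nat_lit 464) (nat_lit 207)) (XT.nd (nat_lit 78) (nat_lit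 0) (nat_lit 76) (XT.lf (nat_lit 76) (nat_lit 1924930026) (nat_lit 0) (nat_lit 8685228765) (nat_lit 1824) (nat_lit 12301051982) (nat_lit 415) (nat_lit 5) (nat_lit 414) (nat_lit 5) (nat_lit 438) (nat_lit 5) (nat_lit 470) (nat_lit 464) (nat_lit 206)) (XT.lf (nat_lit 0) (nat_lit 11294218541) (nat_lit 1748) (nat_lit 9857606404) (nat_lit 1824) (nat_lit 1990615626) (nat_lit 415) (nat_lit 5) (nat_lit 438) (nat_lit 5) (nat_lit 439) (nat_lit 5) (nat_lit 471) (nat_lit 464) (nat_lit 205)))) (XT.nd (nat_lit 78) (nat_lit 0) (nat_lit 76) (XT.lf (nat_lit 76) (nat_lit 1453180408) (nat_lit 0) (nat_lit 10602482088) (nat_lit 1824) (nat_lit 11321359542) (nat_lit 416) (nat_lit 5) (nat_lit 415) (nat_lit 5) (nat_lit 439) (nat_lit 5) (nat_lit 472) (nat_lit 464) (nat_lit 204)) (XT.nd (nat_lit 78) (nat_lit 0) (nat_lit 0) (XT.lf (nat_lit 0) (nat_lit 12896756596) (nat_lit 1748) (nat_lit 10494691121) (nat_lit 1824) (nat_lit 223560105) (nat_lit 416)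 (nat_lit 5) (nat_lit 439) (nat_lit 5) (nat_lit 440) (nat_lit 5) (nat_lit 473) (nat_lit 464) (nat_lit 203)) (XT.lf (nat_lit 76) (nat_lit 1105302487) (nat_lit 0) (nat_lit 12723632743) (nat_lit 1824) (nat_lit 10027333930) (nat_lit 417) (nat_lit 5) (nat_lit 416) (nat_lit 5) (nat_lit 440) (nat_lit 5) (nat_lit 474) (nat_lit 464) (nat_lit 202)))))) (XT.nd (nat_lit 390) (nat_lit 1520) (nat_lit 0) (XT.nd (nat_lit 156) (nat_lit 0) (nat_lit 76) (XT.nd (nat_lit 78) (nat_lit 0) (nat_lit 76) (XT.lf (nat_lit 76) (nat_lit 13077546527) (nat_lit 0) (nat_lit 1769555308) (nat_lit 1824) (nat_lit 9253908071) (nat_lit 417) (nat_lit 5) (nat_lit 416) (nat_lit 5) (nat_lit 440) (nat_lit 5) (nat_lit 475) (nat_lit 464) (nat_lit 201)) (XT.lf (nat_lit 76) (nat_lit 887133813) (nat_lit 0) (nat_lit 15062298982) (nat_lit 1824) (nat_lit 8399937701) (nat_lit 418) (nat_lit 5) (nat_lit 417) (nat_lit 5) (nat_lit 441) (nat_lit 5) (nat_lit 476) (nat_lit 464)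 (nat_lit 200))) (XT.nd (nat_lit 78) (nat_lit 0) (nat_lit 76) (XT.lf (nat_lit 76) (nat_lit 13171470996) (nat_lit 0) (nat_lit 3984987105) (nat_lit 1824) (nat_lit 7444588270) (nat_lit 418) (nat_lit 5) (nat_lit 417) (nat_lit 5) (nat_lit 441) (nat_lit 5) (nat_lit 477) (nat_lit 464) (nat_lit 199)) (XT.nd (nat_lit 78) (nat_lit 0) (nat_lit 0) (XT.lf (nat_lit 76) (nat_lit 804758426) (nat_lit 0) (nat_lit 17632673882) (nat_lit 1824) (nat_lit 6419328295) (nat_lit 419) (nat_lit 5) (nat_lit 418) (nat_lit 5) (nat_lit 442) (nat_lit 5) (nat_lit 478) (nat_lit 464) (nat_lit 198)) (XT.lf (nat_lit 76) (nat_lit 13409933141) (nat_lit 0) (nat_lit 6434148921) (nat_lit 1824) (nat_lit 5271506924) (nat_lit 419) (nat_lit 5) (nat_lit 418) (nat_lit 5) (nat_lit 442) (nat_lit 5) (nat_lit 479) (nat_lit 464) (nat_lit 197))))) (XT.nd (nat_lit 234) (nat_lit 1748) (nat_lit 0) (XT.nd (nat_lit 78) (nat_lit 0) (nat_lit 0) (XT.lf (nat_lit 76) (nat_lit 864510288)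 (nat_lit 0) (nat_lit 20449557044) (nat_lit 1824) (nat_lit 4064823525) (nat_lit 420) (nat_lit 5) (nat_lit 419) (nat_lit 5) (nat_lit 443) (nat_lit 5) (nat_lit 480) (nat_lit 464) (nat_lit 196)) (XT.nd (nat_lit 78) (nat_lit 0) (nat_lit 76) (XT.lf (nat_lit 76) (nat_lit 13799532325) (nat_lit 0) (nat_lit 9132044503) (nat_lit 1824) (nat_lit 2713520395) (nat_lit 420) (nat_lit 5) (nat_lit 419) (nat_lit 5) (nat_lit 443) (nat_lit 5) (nat_lit 481) (nat_lit 464) (nat_lit 195)) (XT.lf (nat_lit 76) (nat_lit 1072976668) (nat_lit 0) (nat_lit 23528387513) (nat_lit 1824) (nat_lit 1314865914) (nat_lit 421) (nat_lit 5) (nat_lit 420) (nat_lit 5) (nat_lit 444) (nat_lit 5) (nat_lit 482) (nat_lit 464) (nat_lit 194)))) (XT.nd (nat_lit 78) (nat_lit 0) (nat_lit 0) (XT.lf (nat_lit 0) (nat_lit 248112549) (nat_lit 1824) (nat_lit 11844552645) (nat_lit 1900) (nat_lit 14097350480) (nat_lit 396) (nat_lit 5) (nat_lit 420) (nat_lit 5) (nat_lit 421) (nat_lit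 5) (nat_lit 483) (nat_lit 464) (nat_lit 193)) (XT.nd (nat_lit 78) (nat_lit 0) (nat_lit 76) (XT.lf (nat_lit 76) (nat_lit 1422018909) (nat_lit 0) (nat_lit 409350404) (nat_lit 1900) (nat_lit 24637602207) (nat_lit 397) (nat_lit 5) (nat_lit 396) (nat_lit 5) (nat_lit 421) (nat_lit 5) (nat_lit 484) (nat_lit 464) (nat_lit 192)) (XT.lf (nat_lit 0) (nat_lit 3598433446) (nat_lit 1824) (nat_lit 11714768723) (nat_lit 1900) (nat_lit 11437262329) (nat_lit 397) (nat_lit 5) (nat_lit 421) (nat_lit 5) (nat_lit 422) (nat_lit 5) (nat_lit 485) (nat_lit 464) (nat_lit 191))))))) (XT.nd (nat_lit 57876) (nat_lit 0) (nat_lit 3876) (XT.nd (nat_lit 390) (nat_lit 1748) (nat_lit 0) (XT.nd (nat_lit 156) (nat_lit 988) (nat_lit 0) (XT.nd (nat_lit 78) (nat_lit 0) (nat_lit 76) (XT.lf (nat_lit 76) (nat_lit 1904275497) (nat_lit 0) (nat_lit 3509106251) (nat_lit 1900) (nat_lit 21623955575) (nat_lit 398) (nat_lit 5) (nat_lit 397) (nat_lit 5) (nat_lit 422) (nat_lit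 5) (nat_lit 486) (nat_lit 464) (nat_lit 190)) (XT.lf (nat_lit 0) (nat_lit 7396658840) (nat_lit 1824) (nat_lit 11431875562) (nat_lit 1900) (nat_lit 8498773430) (nat_lit 398) (nat_lit 5) (nat_lit 422) (nat_lit 5) (nat_lit 423) (nat_lit 5) (nat_lit 487) (nat_lit 464) (nat_lit 189))) (XT.nd (nat_lit 78) (nat_lit 1064) (nat_lit 0) (XT.lf (nat_lit 76) (nat_lit 2551512193) (nat_lit 0) (nat_lit 6905450949) (nat_lit 1900) (nat_lit 18165368190) (nat_lit 399) (nat_lit 5) (nat_lit 398) (nat_lit 5) (nat_lit 423) (nat_lit 5) (nat_lit 488) (nat_lit 464) (nat_lit 188)) (XT.nd (nat_lit 78) (nat_lit 1140) (nat_lit 0) (XT.lf (nat_lit 0) (nat_lit 11667415116) (nat_lit 1824) (nat_lit 10988909931) (nat_lit 76) (nat_lit 5264752215) (nat_lit 399) (nat_lit 5) (nat_lit 423) (nat_lit 5) (nat_lit 400) (nat_lit 5) (nat_lit 489) (nat_lit 464) (nat_lit 187)) (XT.lf (nat_lit 0) (nat_lit 3371074515) (nat_lit 1140) (nat_lit 10616261110) (nat_lit 1216)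 (nat_lit 14237158077) (nat_lit 384) (nat_lit 5) (nat_lit 399) (nat_lit 5) (nat_lit 400) (nat_lit 5) (nat_lit 490) (nat_lit 464) (nat_lit 186))))) (XT.nd (nat_lit 234) (nat_lit 836) (nat_lit 0) (XT.nd (nat_lit 78) (nat_lit 912) (nat_lit 0) (XT.lf (nat_lit 0) (nat_lit 16436367759) (nat_lit 1216) (nat_lit 10378662987) (nat_lit 76) (nat_lit 1717294223) (nat_lit 384) (nat_lit 5) (nat_lit 400) (nat_lit 5) (nat_lit 385) (nat_lit 5) (nat_lit 491) (nat_lit 464) (nat_lit 185)) (XT.nd (nat_lit 78) (nat_lit 0) (nat_lit 0) (XT.lf (nat_lit 0) (nat_lit 4370563986) (nat_lit 912) (nat_lit 14660220865) (nat_lit 988) (nat_lit 9813600673) (nat_lit 372) (nat_lit 5) (nat_lit 384) (nat_lit 5) (nat_lit 385) (nat_lit 5) (nat_lit 492) (nat_lit 464) (nat_lit 184)) (XT.lf (nat_lit 0) (nat_lit 19553435701) (nat_lit 912) (nat_lit 2191053757) (nat_lit 988) (nat_lit 7416850583) (nat_lit 372) (nat_lit 5) (nat_lit 384) (nat_lit 5) (nat_lit 385) (nat_lit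 5) (nat_lit 493) (nat_lit 464) (nat_lit 183)))) (XT.nd (nat_lit 57096) (nat_lit 0) (nat_lit 3876) (XT.lf (nat_lit 0) (nat_lit 5557839993) (nat_lit 836) (nat_lit 19056863193) (nat_lit 912) (nat_lit 4867886482) (nat_lit 361) (nat_lit 5) (nat_lit 372) (nat_lit 5) (nat_lit 373) (nat_lit 5) (nat_lit 494) (nat_lit 464) (nat_lit 182)) (XT.nd (nat_lit 78) (nat_lit 0) (nat_lit 0) (XT.lf (nat_lit 0) (nat_lit 2123991940) (nat_lit 0) (nat_lit 2123991940) (nat_lit 1748) (nat_lit 6760316795) (nat_lit 412) (nat_lit 5) (nat_lit 412) (nat_lit 3) (nat_lit 435) (nat_lit 3) (nat_lit 465) (nat_lit 465) (nat_lit 210)) (XT.lf (nat_lit 0) (nat_lit 8755903994) (nat_lit 1748) (nat_lit 7284722544) (nat_lit 1824) (nat_lit 6192594456) (nat_lit 412) (nat_lit 5) (nat_lit 435) (nat_lit 3) (nat_lit 436) (nat_lit 5) (nat_lit 466) (nat_lit 465) (nat_lit 209)))))) (XT.nd (nat_lit 390) (nat_lit 0) (nat_lit 228) (XT.nd (nat_lit 156) (nat_lit 0) (nat_lit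 76) (XT.nd (nat_lit 78) (nat_lit 0) (nat_lit 76) (XT.lf (nat_lit 76) (nat_lit 3423777792) (nat_lit 0) (nat_lit 5644113316) (nat_lit 1824) (nat_lit 13385346107) (nat_lit 413) (nat_lit 5) (nat_lit 412) (nat_lit 5) (nat_lit 436) (nat_lit 5) (nat_lit 467) (nat_lit 465) (nat_lit 208)) (XT.lf (nat_lit 0) (nat_lit 9464089606) (nat_lit 1748) (nat_lit 8265923361) (nat_lit 1824) (nat_lit 4946082565) (nat_lit 413) (nat_lit 5) (nat_lit 436) (nat_lit 5) (nat_lit 437) (nat_lit 5) (nat_lit 468) (nat_lit 465) (nat_lit 207))) (XT.nd (nat_lit 78) (nat_lit 0) (nat_lit 76) (XT.lf (nat_lit 76) (nat_lit 2709161563) (nat_lit 0) (nat_lit 7210643740) (nat_lit 1824) (nat_lit 12982575029) (nat_lit 414) (nat_lit 5) (nat_lit 413) (nat_lit 5) (nat_lit 437) (nat_lit 5) (nat_lit 469) (nat_lit 465) (nat_lit 206)) (XT.nd (nat_lit 78) (nat_lit 0) (nat_lit 0) (XT.lf (nat_lit 0) (nat_lit 10460008635) (nat_lit 1748) (nat_lit 9141441729) (nat_lit 1824) (nat_lit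 3530234154) (nat_lit 414) (nat_lit 5) (nat_lit 437) (nat_lit 5) (nat_lit 438) (nat_lit 5) (nat_lit 470) (nat_lit 465) (nat_lit 205)) (XT.lf (nat_lit 76) (nat_lit 2109381722) (nat_lit 0) (nat_lit 8959836214) (nat_lit 1824) (nat_lit 12295193949) (nat_lit 415) (nat_lit 5) (nat_lit 414) (nat_lit 5) (nat_lit 438) (nat_lit 5) (nat_lit 471) (nat_lit 465) (nat_lit 204))))) (XT.nd (nat_lit 234) (nat_lit 0) (nat_lit 76) (XT.nd (nat_lit 78) (nat_lit 0) (nat_lit 0) (XT.lf (nat_lit 0) (nat_lit 11761476285) (nat_lit 1748) (nat_lit 9906100368) (nat_lit 1824) (nat_lit 1932800963) (nat_lit 415) (nat_lit 5) (nat_lit 438) (nat_lit 5) (nat_lit 439) (nat_lit 5) (nat_lit 472) (nat_lit 465) (nat_lit 203)) (XT.nd (nat_lit 78) (nat_lit 0) (nat_lit 76) (XT.lf (nat_lit 76) (nat_lit 1629924166) (nat_lit 0) (nat_lit 10904450980) (nat_lit 1824) (nat_lit 11305352699) (nat_lit 416) (nat_lit 5) (nat_lit 415) (nat_lit 5) (nat_lit 439) (nat_lit 5) (nat_lit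 473) (nat_lit 465) (nat_lit 202)) (XT.lf (nat_lit 0) (nat_lit 13387059948) (nat_lit 1748) (nat_lit 10554488278) (nat_lit 1824) (nat_lit 141031363) (nat_lit 416) (nat_lit 5) (nat_lit 439) (nat_lit 5) (nat_lit 440) (nat_lit 5) (nat_lit 474) (nat_lit 465) (nat_lit 201)))) (XT.nd (nat_lit 78) (nat_lit 0) (nat_lit 0) (XT.lf (nat_lit 76) (nat_lit 1276517724) (nat_lit 0) (nat_lit 13057776307) (nat_lit 1824) (nat_lit 9994445475) (nat_lit 417) (nat_lit 5) (nat_lit 416) (nat_lit 5) (nat_lit 440) (nat_lit 5) (nat_lit 475) (nat_lit 465) (nat_lit 200)) (XT.nd (nat_lit 78) (nat_lit 0) (nat_lit 76) (XT.lf (nat_lit 76) (nat_lit 13485282935) (nat_lit 0) (nat_lit 1883055149) (nat_lit 1824) (nat_lit 9210128258) (nat_lit 417) (nat_lit 5) (nat_lit 416) (nat_lit 5) (nat_lit 440) (nat_lit 5) (nat_lit 476) (nat_lit 465) (nat_lit 199)) (XT.lf (nat_lit 76) (nat_lit 1055137755) (nat_lit 0) (nat_lit 15433658387) (nat_lit 1824) (nat_lit 8343077918)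 (nat_lit 418) (nat_lit 5) (nat_lit 417) (nat_lit 5) (nat_lit 441) (nat_lit 5) (nat_lit 477) (nat_lit 465) (nat_lit 198))))))))
noncomputable def xc250 : XT := (XT.nd (nat_lit 58812) (nat_lit 0) (nat_lit 912) (XT.nd (nat_lit 858) (nat_lit 1824) (nat_lit 0) (XT.nd (nat_lit 390) (nat_lit 1596) (nat_lit 0) (XT.nd (nat_lit 156) (nat_lit 0) (nat_lit 76) (XT.nd (nat_lit 78) (nat_lit 0) (nat_lit 76) (XT.lf (nat_lit 76) (nat_lit 13582215383) (nat_lit 0) (nat_lit 4133425500) (nat_lit 1824) (nat_lit 7373030489) (nat_lit 418) (nat_lit 5) (nat_lit 417) (nat_lit 5) (nat_lit 441) (nat_lit 5) (nat_lit 478) (nat_lit 465) (nat_lit 197)) (XT.lf (nat_lit 76) (nat_lit 972009751) (nat_lit 0) (nat_lit 18046532337) (nat_lit 1824) (nat_lit 6331033118) (nat_lit 419) (nat_lit 5) (nat_lit 418) (nat_lit 5) (nat_lit 442) (nat_lit 5) (nat_lit 479) (nat_lit 465) (nat_lit 196))) (XT.nd (nat_lit 78) (nat_lit 0) (nat_lit 76) (XT.lf (nat_lit 76) (nat_lit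 13826324115) (nat_lit 0) (nat_lit 6622836780) (nat_lit 1824) (nat_lit 5164503981) (nat_lit 419) (nat_lit 5) (nat_lit 418) (nat_lit 5) (nat_lit 442) (nat_lit 5) (nat_lit 480) (nat_lit 465) (nat_lit 195)) (XT.nd (nat_lit 78) (nat_lit 0) (nat_lit 0) (XT.lf (nat_lit 76) (nat_lit 1033612907) (nat_lit 0) (nat_lit 20911454379) (nat_lit 1824) (nat_lit 3937236479) (nat_lit 420) (nat_lit 5) (nat_lit 419) (nat_lit 5) (nat_lit 443) (nat_lit 5) (nat_lit 481) (nat_lit 465) (nat_lit 194)) (XT.lf (nat_lit 76) (nat_lit 14224358670) (nat_lit 0) (nat_lit 9366554211) (nat_lit 1824) (nat_lit 2563003042) (nat_lit 420) (nat_lit 5) (nat_lit 419) (nat_lit 5) (nat_lit 443) (nat_lit 5) (nat_lit 482) (nat_lit 465) (nat_lit 193))))) (XT.nd (nat_lit 234) (nat_lit 0) (nat_lit 76) (XT.nd (nat_lit 78) (nat_lit 1824) (nat_lit 0) (XT.lf (nat_lit 76) (nat_lit 1246683650) (nat_lit 0) (nat_lit 24044135277) (nat_lit 1824) (nat_lit 1139719423) (nat_lit 421)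 (nat_lit 5) (nat_lit 420) (nat_lit 5) (nat_lit 444) (nat_lit 5) (nat_lit 483) (nat_lit 465) (nat_lit 192)) (XT.nd (nat_lit 78) (nat_lit 0) (nat_lit 0) (XT.lf (nat_lit 0) (nat_lit 447978562) (nat_lit 1824) (nat_lit 11929526160) (nat_lit 1900) (nat_lit 14332348025) (nat_lit 396) (nat_lit 5) (nat_lit 420) (nat_lit 5) (nat_lit 421) (nat_lit 5) (nat_lit 484) (nat_lit 465) (nat_lit 191)) (XT.lf (nat_lit 76) (nat_lit 1601377368) (nat_lit 0) (nat_lit 458681311) (nat_lit 1900) (nat_lit 24934387144) (nat_lit 397) (nat_lit 5) (nat_lit 396) (nat_lit 5) (nat_lit 421) (nat_lit 5) (nat_lit 485) (nat_lit 465) (nat_lit 190)))) (XT.nd (nat_lit 78) (nat_lit 0) (nat_lit 0) (XT.lf (nat_lit 0) (nat_lit 3858436278) (nat_lit 1824) (nat_lit 11797014744) (nat_lit 1900) (nat_lit 11626199448) (nat_lit 397) (nat_lit 5) (nat_lit 421) (nat_lit 5) (nat_lit 422) (nat_lit 5) (nat_lit 486) (nat_lit 465) (nat_lit 189)) (XT.nd (nat_lit 78) (nat_lit 0) (nat_lit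 76) (XT.lf (nat_lit 76) (nat_lit 2093410036) (nat_lit 0) (nat_lit 3613567276) (nat_lit 1900) (nat_lit 21867338791) (nat_lit 398) (nat_lit 5) (nat_lit 397) (nat_lit 5) (nat_lit 422) (nat_lit 5) (nat_lit 487) (nat_lit 465) (nat_lit 188)) (XT.lf (nat_lit 0) (nat_lit 7726067868) (nat_lit 1824) (nat_lit 11508513509) (nat_lit 1900) (nat_lit 8635582893) (nat_lit 398) (nat_lit 5) (nat_lit 422) (nat_lit 5) (nat_lit 423) (nat_lit 5) (nat_lit 488) (nat_lit 465) (nat_lit 187)))))) (XT.nd (nat_lit 390) (nat_lit 0) (nat_lit 0) (XT.nd (nat_lit 156) (nat_lit 1976) (nat_lit 0) (XT.nd (nat_lit 78) (nat_lit 0) (nat_lit 76) (XT.lf (nat_lit 76) (nat_lit 2753542004) (nat_lit 0) (nat_lit 7071458291) (nat_lit 1900) (nat_lit 18346140683) (nat_lit 399) (nat_lit 5) (nat_lit 398) (nat_lit 5) (nat_lit 423) (nat_lit 5) (nat_lit 489) (nat_lit 465) (nat_lit 186)) (XT.lf (nat_lit 0) (nat_lit 12075975925) (nat_lit 1824) (nat_lit 11056906088) (nat_lit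 76) (nat_lit 5343054680) (nat_lit 399) (nat_lit 5) (nat_lit 423) (nat_lit 5) (nat_lit 400) (nat_lit 5) (nat_lit 490) (nat_lit 465) (nat_lit 185))) (XT.nd (nat_lit 78) (nat_lit 912) (nat_lit 0) (XT.lf (nat_lit 0) (nat_lit 3589279480) (nat_lit 1140) (nat_lit 10850558810) (nat_lit 1216) (nat_lit 14345633436) (nat_lit 384) (nat_lit 5) (nat_lit 399) (nat_lit 5) (nat_lit 400) (nat_lit 5) (nat_lit 491) (nat_lit 465) (nat_lit 184)) (XT.nd (nat_lit 78) (nat_lit 912) (nat_lit 0) (XT.lf (nat_lit 0) (nat_lit 16934323833) (nat_lit 1216) (nat_lit 10434826458) (nat_lit 76) (nat_lit 1730380985) (nat_lit 384) (nat_lit 5) (nat_lit 400) (nat_lit 5) (nat_lit 385) (nat_lit 5) (nat_lit 492) (nat_lit 465) (nat_lit 183)) (XT.lf (nat_lit 0) (nat_lit 4608388937) (nat_lit 912) (nat_lit 14969898705) (nat_lit 988) (nat_lit 9839593323) (nat_lit 372) (nat_lit 5) (nat_lit 384) (nat_lit 5) (nat_lit 385) (nat_lit 5) (nat_lit 493) (nat_lit 465) (nat_lit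 182))))) (XT.nd (nat_lit 57330) (nat_lit 0) (nat_lit 3040) (XT.nd (nat_lit 57174) (nat_lit 0) (nat_lit 3040) (XT.lf (nat_lit 0) (nat_lit 20091968799) (nat_lit 912) (nat_lit 2251025246) (nat_lit 988) (nat_lit 7398247043) (nat_lit 372) (nat_lit 5) (nat_lit 384) (nat_lit 5) (nat_lit 385) (nat_lit 5) (nat_lit 494) (nat_lit 465) (nat_lit 181)) (XT.nd (nat_lit 78) (nat_lit 0) (nat_lit 0) (XT.lf (nat_lit 0) (nat_lit 2233153906) (nat_lit 0) (nat_lit 2233153906) (nat_lit 1748) (nat_lit 6759445056) (nat_lit 412) (nat_lit 5) (nat_lit 412) (nat_lit 3) (nat_lit 435) (nat_lit 3) (nat_lit 466) (nat_lit 466) (nat_lit 208)) (XT.lf (nat_lit 0) (nat_lit 9191671700) (nat_lit 1748) (nat_lit 7293497598) (nat_lit 1824) (nat_lit 6187411877) (nat_lit 412) (nat_lit 5) (nat_lit 435) (nat_lit 3) (nat_lit 436) (nat_lit 5) (nat_lit 467) (nat_lit 466) (nat_lit 207)))) (XT.nd (nat_lit 78) (nat_lit 0) (nat_lit 76) (XT.lf (nat_lit 76) (nat_lit 3628271959)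 (nat_lit 0) (nat_lit 5877398943) (nat_lit 1824) (nat_lit 13391413160) (nat_lit 413) (nat_lit 5) (nat_lit 412) (nat_lit 5) (nat_lit 436) (nat_lit 5) (nat_lit 468) (nat_lit 466) (nat_lit 206)) (XT.nd (nat_lit 78) (nat_lit 0) (nat_lit 0) (XT.lf (nat_lit 0) (nat_lit 9903999078) (nat_lit 1748) (nat_lit 8292008252) (nat_lit 1824) (nat_lit 4928509855) (nat_lit 413) (nat_lit 5) (nat_lit 436) (nat_lit 5) (nat_lit 437) (nat_lit 5) (nat_lit 469) (nat_lit 466) (nat_lit 205)) (XT.lf (nat_lit 76) (nat_lit 2901662359) (nat_lit 0) (nat_lit 7463150511) (nat_lit 1824) (nat_lit 12990596855) (nat_lit 414) (nat_lit 5) (nat_lit 413) (nat_lit 5) (nat_lit 437) (nat_lit 5) (nat_lit 470) (nat_lit 466) (nat_lit 204))))))) (XT.nd (nat_lit 858) (nat_lit 2280) (nat_lit 0) (XT.nd (nat_lit 390) (nat_lit 0) (nat_lit 152) (XT.nd (nat_lit 156) (nat_lit 0) (nat_lit 76) (XT.nd (nat_lit 78) (nat_lit 0) (nat_lit 0) (XT.lf (nat_lit 0) (nat_lit 10910295421)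 (nat_lit 1748) (nat_lit 9183055961) (nat_lit 1824) (nat_lit 3496060796) (nat_lit 414) (nat_lit 5) (nat_lit 437) (nat_lit 5) (nat_lit 438) (nat_lit 5) (nat_lit 471) (nat_lit 466) (nat_lit 203)) (XT.lf (nat_lit 76) (nat_lit 2291854916) (nat_lit 0) (nat_lit 9236017631) (nat_lit 1824) (nat_lit 12298999526) (nat_lit 415) (nat_lit 5) (nat_lit 414) (nat_lit 5) (nat_lit 438) (nat_lit 5) (nat_lit 472) (nat_lit 466) (nat_lit 202))) (XT.nd (nat_lit 78) (nat_lit 0) (nat_lit 0) (XT.lf (nat_lit 0) (nat_lit 12228706362) (nat_lit 1748) (nat_lit 9961336789) (nat_lit 1824) (nat_lit 1877620982) (nat_lit 415) (nat_lit 5) (nat_lit 438) (nat_lit 5) (nat_lit 439) (nat_lit 5) (nat_lit 473) (nat_lit 466) (nat_lit 201)) (XT.nd (nat_lit 78) (nat_lit 0) (nat_lit 76) (XT.lf (nat_lit 76) (nat_lit 1804468200) (nat_lit 0) (nat_lit 11208967575) (nat_lit 1824) (nat_lit 11298439729) (nat_lit 416) (nat_lit 5) (nat_lit 415) (nat_lit 5) (nat_lit 439) (nat_lit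 5) (nat_lit 474) (nat_lit 466) (nat_lit 200)) (XT.lf (nat_lit 0) (nat_lit 13878146226) (nat_lit 1748) (nat_lit 10621309815) (nat_lit 1824) (nat_lit 60230361) (nat_lit 416) (nat_lit 5) (nat_lit 439) (nat_lit 5) (nat_lit 440) (nat_lit 5) (nat_lit 475) (nat_lit 466) (nat_lit 199))))) (XT.nd (nat_lit 234) (nat_lit 0) (nat_lit 76) (XT.nd (nat_lit 78) (nat_lit 0) (nat_lit 0) (XT.lf (nat_lit 76) (nat_lit 1445367174) (nat_lit 0) (nat_lit 13395509023) (nat_lit 1824) (nat_lit 9969963821) (nat_lit 417) (nat_lit 5) (nat_lit 416) (nat_lit 5) (nat_lit 440) (nat_lit 5) (nat_lit 476) (nat_lit 466) (nat_lit 198)) (XT.nd (nat_lit 78) (nat_lit 0) (nat_lit 76) (XT.lf (nat_lit 76) (nat_lit 13895497511) (nat_lit 0) (nat_lit 1995791929) (nat_lit 1824) (nat_lit 9174359682) (nat_lit 417) (nat_lit 5) (nat_lit 416) (nat_lit 5) (nat_lit 440) (nat_lit 5) (nat_lit 477) (nat_lit 466) (nat_lit 197)) (XT.lf (nat_lit 76) (nat_lit 1220666949) (nat_lit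 0) (nat_lit 15809722391) (nat_lit 1824) (nat_lit 8293812470) (nat_lit 418) (nat_lit 5) (nat_lit 417) (nat_lit 5) (nat_lit 441) (nat_lit 5) (nat_lit 478) (nat_lit 466) (nat_lit 196)))) (XT.nd (nat_lit 78) (nat_lit 0) (nat_lit 76) (XT.lf (nat_lit 76) (nat_lit 13995454238) (nat_lit 0) (nat_lit 4282163457) (nat_lit 1824) (nat_lit 7308601877) (nat_lit 418) (nat_lit 5) (nat_lit 417) (nat_lit 5) (nat_lit 441) (nat_lit 5) (nat_lit 479) (nat_lit 466) (nat_lit 195)) (XT.nd (nat_lit 78) (nat_lit 0) (nat_lit 0) (XT.lf (nat_lit 76) (nat_lit 1136736525) (nat_lit 0) (nat_lit 18466291298) (nat_lit 1824) (nat_lit 6249386052) (nat_lit 419) (nat_lit 5) (nat_lit 418) (nat_lit 5) (nat_lit 442) (nat_lit 5) (nat_lit 480) (nat_lit 466) (nat_lit 194)) (XT.lf (nat_lit 76) (nat_lit 14245288419) (nat_lit 0) (nat_lit 6812968333) (nat_lit 1824) (nat_lit 5063610014) (nat_lit 419) (nat_lit 5) (nat_lit 418) (nat_lit 5) (nat_lit 442) (nat_lit 5) (nat_lit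 481) (nat_lit 466) (nat_lit 193)))))) (XT.nd (nat_lit 390) (nat_lit 912) (nat_lit 0) (XT.nd (nat_lit 156) (nat_lit 1748) (nat_lit 0) (XT.nd (nat_lit 78) (nat_lit 0) (nat_lit 0) (XT.lf (nat_lit 76) (nat_lit 1200202517) (nat_lit 0) (nat_lit 21380535249) (nat_lit 1824) (nat_lit 3815208894) (nat_lit 420) (nat_lit 5) (nat_lit 419) (nat_lit 5) (nat_lit 443) (nat_lit 5) (nat_lit 482) (nat_lit 466) (nat_lit 192)) (XT.lf (nat_lit 76) (nat_lit 14651902071) (nat_lit 0) (nat_lit 9603739983) (nat_lit 1824) (nat_lit 2417427501) (nat_lit 420) (nat_lit 5) (nat_lit 419) (nat_lit 5) (nat_lit 443) (nat_lit 5) (nat_lit 483) (nat_lit 466) (nat_lit 191))) (XT.nd (nat_lit 78) (nat_lit 1824) (nat_lit 0) (XT.lf (nat_lit 76) (nat_lit 1417952818) (nat_lit 0) (nat_lit 24568443601) (nat_lit 1824) (nat_lit 968892311) (nat_lit 421) (nat_lit 5) (nat_lit 420) (nat_lit 5) (nat_lit 444) (nat_lit 5) (nat_lit 484) (nat_lit 466) (nat_lit 190)) (XT.nd (nat_lit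 78) (nat_lit 0) (nat_lit 0) (XT.lf (nat_lit 0) (nat_lit 644273545) (nat_lit 1824) (nat_lit 12022098288) (nat_lit 1900) (nat_lit 14573868626) (nat_lit 396) (nat_lit 5) (nat_lit 420) (nat_lit 5) (nat_lit 421) (nat_lit 5) (nat_lit 485) (nat_lit 466) (nat_lit 189)) (XT.lf (nat_lit 76) (nat_lit 1778462663) (nat_lit 0) (nat_lit 507401169) (nat_lit 1900) (nat_lit 25244717421) (nat_lit 397) (nat_lit 5) (nat_lit 396) (nat_lit 5) (nat_lit 421) (nat_lit 5) (nat_lit 486) (nat_lit 466) (nat_lit 188))))) (XT.nd (nat_lit 234) (nat_lit 988) (nat_lit 0) (XT.nd (nat_lit 78) (nat_lit 0) (nat_lit 0) (XT.lf (nat_lit 0) (nat_lit 4116337571) (nat_lit 1824) (nat_lit 11886809946) (nat_lit 1900) (nat_lit 11820461108) (nat_lit 397) (nat_lit 5) (nat_lit 421) (nat_lit 5) (nat_lit 422) (nat_lit 5) (nat_lit 487) (nat_lit 466) (nat_lit 187)) (XT.nd (nat_lit 78) (nat_lit 0) (nat_lit 76) (XT.lf (nat_lit 76) (nat_lit 2280461848) (nat_lit 0) (nat_lit 3718786430)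 (nat_lit 1900) (nat_lit 22122932497) (nat_lit 398) (nat_lit 5) (nat_lit 397) (nat_lit 5) (nat_lit 422) (nat_lit 5) (nat_lit 488) (nat_lit 466) (nat_lit 186)) (XT.lf (nat_lit 0) (nat_lit 8055018148) (nat_lit 1824) (nat_lit 11592586543) (nat_lit 1900) (nat_lit 8776416422) (nat_lit 398) (nat_lit 5) (nat_lit 422) (nat_lit 5) (nat_lit 423) (nat_lit 5) (nat_lit 489) (nat_lit 466) (nat_lit 185)))) (XT.nd (nat_lit 78) (nat_lit 1064) (nat_lit 0) (XT.lf (nat_lit 76) (nat_lit 2953748914) (nat_lit 0) (nat_lit 7239702454) (nat_lit 1900) (nat_lit 18537616678) (nat_lit 399) (nat_lit 5) (nat_lit 398) (nat_lit 5) (nat_lit 423) (nat_lit 5) (nat_lit 490) (nat_lit 466) (nat_lit 184)) (XT.nd (nat_lit 78) (nat_lit 1140) (nat_lit 0) (XT.lf (nat_lit 0) (nat_lit 12485904234) (nat_lit 1824) (nat_lit 11132156051) (nat_lit 76) (nat_lit 5423971348) (nat_lit 399) (nat_lit 5) (nat_lit 423) (nat_lit 5) (nat_lit 400) (nat_lit 5) (nat_lit 491) (nat_lit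 466) (nat_lit 183)) (XT.lf (nat_lit 0) (nat_lit 3805993439) (nat_lit 1140) (nat_lit 11088689246) (nat_lit 1216) (nat_lit 14463122996) (nat_lit 384) (nat_lit 5) (nat_lit 399) (nat_lit 5) (nat_lit 400) (nat_lit 5) (nat_lit 492) (nat_lit 466) (nat_lit 182))))))))
noncomputable def xc251 : XT := (XT.nd (nat_lit 58968) (nat_lit 0) (nat_lit 988) (XT.nd (nat_lit 58110) (nat_lit 0) (nat_lit 912) (XT.nd (nat_lit 57642) (nat_lit 0) (nat_lit 2204) (XT.nd (nat_lit 57408) (nat_lit 0) (nat_lit 2128) (XT.nd (nat_lit 57330) (nat_lit 0) (nat_lit 2128) (XT.lf (nat_lit 0) (nat_lit 17435667671) (nat_lit 1216) (nat_lit 10497992625) (nat_lit 76) (nat_lit 1744555000) (nat_lit 384) (nat_lit 5) (nat_lit 400) (nat_lit 5) (nat_lit 385) (nat_lit 5) (nat_lit 493) (nat_lit 466) (nat_lit 181)) (XT.lf (nat_lit 0) (nat_lit 2341909763) (nat_lit 0) (nat_lit 2341909763) (nat_lit 1748) (nat_lit 6763839960) (nat_lit 412) (nat_lit 5) (nat_lit 412) (nat_lit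 3) (nat_lit 435) (nat_lit 3) (nat_lit 467) (nat_lit 467) (nat_lit 206))) (XT.nd (nat_lit 78) (nat_lit 0) (nat_lit 0) (XT.lf (nat_lit 0) (nat_lit 9626033417) (nat_lit 1748) (nat_lit 7307764900) (nat_lit 1824) (nat_lit 6187136211) (nat_lit 412) (nat_lit 5) (nat_lit 435) (nat_lit 3) (nat_lit 436) (nat_lit 5) (nat_lit 468) (nat_lit 467) (nat_lit 205)) (XT.nd (nat_lit 78) (nat_lit 0) (nat_lit 76) (XT.lf (nat_lit 76) (nat_lit 3831574242) (nat_lit 0) (nat_lit 6110674873) (nat_lit 1824) (nat_lit 13407761349) (nat_lit 413) (nat_lit 5) (nat_lit 412) (nat_lit 5) (nat_lit 436) (nat_lit 5) (nat_lit 469) (nat_lit 467) (nat_lit 204)) (XT.lf (nat_lit 0) (nat_lit 10342974561) (nat_lit 1748) (nat_lit 8324021451) (nat_lit 1824) (nat_lit 4915109308) (nat_lit 413) (nat_lit 5) (nat_lit 436) (nat_lit 5) (nat_lit 437) (nat_lit 5) (nat_lit 470) (nat_lit 467) (nat_lit 203))))) (XT.nd (nat_lit 234) (nat_lit 0) (nat_lit 152) (XT.nd (nat_lit 78)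 (nat_lit 0) (nat_lit 76) (XT.lf (nat_lit 76) (nat_lit 3092642132) (nat_lit 0) (nat_lit 7716502232) (nat_lit 1824) (nat_lit 13008550204) (nat_lit 414) (nat_lit 5) (nat_lit 413) (nat_lit 5) (nat_lit 437) (nat_lit 5) (nat_lit 471) (nat_lit 467) (nat_lit 202)) (XT.nd (nat_lit 78) (nat_lit 0) (nat_lit 0) (XT.lf (nat_lit 0) (nat_lit 11360226255) (nat_lit 1748) (nat_lit 9230986013) (nat_lit 1824) (nat_lit 3465272630) (nat_lit 414) (nat_lit 5) (nat_lit 437) (nat_lit 5) (nat_lit 438) (nat_lit 5) (nat_lit 472) (nat_lit 467) (nat_lit 201)) (XT.lf (nat_lit 76) (nat_lit 2472530114) (nat_lit 0) (nat_lit 9513956642) (nat_lit 1824) (nat_lit 12312282187) (nat_lit 415) (nat_lit 5) (nat_lit 414) (nat_lit 5) (nat_lit 438) (nat_lit 5) (nat_lit 473) (nat_lit 467) (nat_lit 200)))) (XT.nd (nat_lit 78) (nat_lit 0) (nat_lit 0) (XT.lf (nat_lit 0) (nat_lit 12696272177) (nat_lit 1748) (nat_lit 10023226359) (nat_lit 1824) (nat_lit 1824981167) (nat_lit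 415) (nat_lit 5) (nat_lit 438) (nat_lit 5) (nat_lit 439) (nat_lit 5) (nat_lit 474) (nat_lit 467) (nat_lit 199)) (XT.nd (nat_lit 78) (nat_lit 0) (nat_lit 0) (XT.lf (nat_lit 76) (nat_lit 1976991195) (nat_lit 0) (nat_lit 11516218415) (nat_lit 1824) (nat_lit 11300436951) (nat_lit 416) (nat_lit 5) (nat_lit 415) (nat_lit 5) (nat_lit 439) (nat_lit 5) (nat_lit 475) (nat_lit 467) (nat_lit 198)) (XT.lf (nat_lit 76) (nat_lit 14351314841) (nat_lit 0) (nat_lit 19191228) (nat_lit 1824) (nat_lit 10676003267) (nat_lit 416) (nat_lit 5) (nat_lit 415) (nat_lit 5) (nat_lit 439) (nat_lit 5) (nat_lit 476) (nat_lit 467) (nat_lit 197)))))) (XT.nd (nat_lit 390) (nat_lit 1520) (nat_lit 0) (XT.nd (nat_lit 156) (nat_lit 0) (nat_lit 76) (XT.nd (nat_lit 78) (nat_lit 0) (nat_lit 0) (XT.lf (nat_lit 76) (nat_lit 1612028358) (nat_lit 0) (nat_lit 13737022809) (nat_lit 1824) (nat_lit 9953705116) (nat_lit 417) (nat_lit 5) (nat_lit 416) (nat_lit 5) (nat_lit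 440) (nat_lit 5) (nat_lit 477) (nat_lit 467) (nat_lit 196)) (XT.lf (nat_lit 76) (nat_lit 14308460247) (nat_lit 0) (nat_lit 2107868165) (nat_lit 1824) (nat_lit 9146417483) (nat_lit 417) (nat_lit 5) (nat_lit 416) (nat_lit 5) (nat_lit 440) (nat_lit 5) (nat_lit 478) (nat_lit 467) (nat_lit 195))) (XT.nd (nat_lit 78) (nat_lit 0) (nat_lit 0) (XT.lf (nat_lit 76) (nat_lit 1383898471) (nat_lit 0) (nat_lit 16190690807) (nat_lit 1824) (nat_lit 8251954188) (nat_lit 418) (nat_lit 5) (nat_lit 417) (nat_lit 5) (nat_lit 441) (nat_lit 5) (nat_lit 479) (nat_lit 467) (nat_lit 194)) (XT.nd (nat_lit 78) (nat_lit 0) (nat_lit 76) (XT.lf (nat_lit 76) (nat_lit 14411459581) (nat_lit 0) (nat_lit 4431310616) (nat_lit 1824) (nat_lit 7251112609) (nat_lit 418) (nat_lit 5) (nat_lit 417) (nat_lit 5) (nat_lit 441) (nat_lit 5) (nat_lit 480) (nat_lit 467) (nat_lit 193)) (XT.lf (nat_lit 76) (nat_lit 1299116179) (nat_lit 0) (nat_lit 18892161063) (nat_lit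 1824) (nat_lit 6174193336) (nat_lit 419) (nat_lit 5) (nat_lit 418) (nat_lit 5) (nat_lit 442) (nat_lit 5) (nat_lit 481) (nat_lit 467) (nat_lit 192))))) (XT.nd (nat_lit 234) (nat_lit 1672) (nat_lit 0) (XT.nd (nat_lit 78) (nat_lit 0) (nat_lit 76) (XT.lf (nat_lit 76) (nat_lit 14667100976) (nat_lit 0) (nat_lit 7004662934) (nat_lit 1824) (nat_lit 4968626883) (nat_lit 419) (nat_lit 5) (nat_lit 418) (nat_lit 5) (nat_lit 442) (nat_lit 5) (nat_lit 482) (nat_lit 467) (nat_lit 191)) (XT.nd (nat_lit 78) (nat_lit 0) (nat_lit 0) (XT.lf (nat_lit 76) (nat_lit 1364457770) (nat_lit 0) (nat_lit 21857023099) (nat_lit 1824) (nat_lit 3698536991) (nat_lit 420) (nat_lit 5) (nat_lit 419) (nat_lit 5) (nat_lit 443) (nat_lit 5) (nat_lit 483) (nat_lit 467) (nat_lit 190)) (XT.lf (nat_lit 76) (nat_lit 15082441293) (nat_lit 0) (nat_lit 9843733553) (nat_lit 1824) (nat_lit 2276583814) (nat_lit 420) (nat_lit 5) (nat_lit 419) (nat_lit 5) (nat_lit 443) (nat_lit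 5) (nat_lit 484) (nat_lit 467) (nat_lit 189)))) (XT.nd (nat_lit 78) (nat_lit 1824) (nat_lit 0) (XT.lf (nat_lit 76) (nat_lit 1586964984) (nat_lit 0) (nat_lit 25101551821) (nat_lit 1824) (nat_lit 802167215) (nat_lit 421) (nat_lit 5) (nat_lit 420) (nat_lit 5) (nat_lit 444) (nat_lit 5) (nat_lit 485) (nat_lit 467) (nat_lit 188)) (XT.nd (nat_lit 78) (nat_lit 0) (nat_lit 0) (XT.lf (nat_lit 0) (nat_lit 837219965) (nat_lit 1824) (nat_lit 12122191931) (nat_lit 1900) (nat_lit 14821971950) (nat_lit 396) (nat_lit 5) (nat_lit 420) (nat_lit 5) (nat_lit 421) (nat_lit 5) (nat_lit 486) (nat_lit 467) (nat_lit 187)) (XT.lf (nat_lit 76) (nat_lit 1953456895) (nat_lit 0) (nat_lit 555559796) (nat_lit 1900) (nat_lit 25568568454) (nat_lit 397) (nat_lit 5) (nat_lit 396) (nat_lit 5) (nat_lit 421) (nat_lit 5) (nat_lit 487) (nat_lit 467) (nat_lit 186))))))) (XT.nd (nat_lit 58266) (nat_lit 0) (nat_lit 1292) (XT.nd (nat_lit 57798) (nat_lit 0) (nat_lit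 1140) (XT.nd (nat_lit 156) (nat_lit 0) (nat_lit 76) (XT.nd (nat_lit 78) (nat_lit 0) (nat_lit 0) (XT.lf (nat_lit 0) (nat_lit 4372378824) (nat_lit 1824) (nat_lit 11984076045) (nat_lit 1900) (nat_lit 12020093774) (nat_lit 397) (nat_lit 5) (nat_lit 421) (nat_lit 5) (nat_lit 422) (nat_lit 5) (nat_lit 488) (nat_lit 467) (nat_lit 185)) (XT.lf (nat_lit 76) (nat_lit 2465617040) (nat_lit 0) (nat_lit 3824830563) (nat_lit 1900) (nat_lit 22390695769) (nat_lit 398) (nat_lit 5) (nat_lit 397) (nat_lit 5) (nat_lit 422) (nat_lit 5) (nat_lit 489) (nat_lit 467) (nat_lit 184))) (XT.nd (nat_lit 78) (nat_lit 0) (nat_lit 0) (XT.lf (nat_lit 0) (nat_lit 8383774146) (nat_lit 1824) (nat_lit 11684014171) (nat_lit 1900) (nat_lit 8921304487) (nat_lit 398) (nat_lit 5) (nat_lit 422) (nat_lit 5) (nat_lit 423) (nat_lit 5) (nat_lit 490) (nat_lit 467) (nat_lit 183)) (XT.nd (nat_lit 78) (nat_lit 0) (nat_lit 76) (XT.lf (nat_lit 76) (nat_lit 3152324153) (nat_lit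 0) (nat_lit 7410270240) (nat_lit 1900) (nat_lit 18739735007) (nat_lit 399) (nat_lit 5) (nat_lit 398) (nat_lit 5) (nat_lit 423) (nat_lit 5) (nat_lit 491) (nat_lit 467) (nat_lit 182)) (XT.lf (nat_lit 0) (nat_lit 12897491590) (nat_lit 1824) (nat_lit 11214576027) (nat_lit 76) (nat_lit 5507513804) (nat_lit 399) (nat_lit 5) (nat_lit 423) (nat_lit 5) (nat_lit 400) (nat_lit 5) (nat_lit 492) (nat_lit 467) (nat_lit 181))))) (XT.nd (nat_lit 234) (nat_lit 0) (nat_lit 76) (XT.nd (nat_lit 78) (nat_lit 0) (nat_lit 0) (XT.lf (nat_lit 0) (nat_lit 2450351936) (nat_lit 0) (nat_lit 2450351936) (nat_lit 1748) (nat_lit 6773401652) (nat_lit 412) (nat_lit 5) (nat_lit 412) (nat_lit 3) (nat_lit 435) (nat_lit 3) (nat_lit 468) (nat_lit 468) (nat_lit 204)) (XT.nd (nat_lit 78) (nat_lit 0) (nat_lit 0) (XT.lf (nat_lit 0) (nat_lit 10059354051) (nat_lit 1748) (nat_lit 7327427839) (nat_lit 1824) (nat_lit 6191671032) (nat_lit 412) (nat_lit 5) (nat_lit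 435) (nat_lit 3) (nat_lit 436) (nat_lit 5) (nat_lit 469) (nat_lit 468) (nat_lit 203)) (XT.lf (nat_lit 76) (nat_lit 4033865899) (nat_lit 0) (nat_lit 6344122464) (nat_lit 1824) (nat_lit 13434201779) (nat_lit 413) (nat_lit 5) (nat_lit 412) (nat_lit 5) (nat_lit 436) (nat_lit 5) (nat_lit 470) (nat_lit 468) (nat_lit 202)))) (XT.nd (nat_lit 78) (nat_lit 0) (nat_lit 0) (XT.lf (nat_lit 0) (nat_lit 10781375289) (nat_lit 1748) (nat_lit 8361871577) (nat_lit 1824) (nat_lit 4905788712) (nat_lit 413) (nat_lit 5) (nat_lit 436) (nat_lit 5) (nat_lit 437) (nat_lit 5) (nat_lit 471) (nat_lit 468) (nat_lit 201)) (XT.nd (nat_lit 78) (nat_lit 0) (nat_lit 76) (XT.lf (nat_lit 76) (nat_lit 3282279025) (nat_lit 0) (nat_lit 7970879097) (nat_lit 1824) (nat_lit 13036254285) (nat_lit 414) (nat_lit 5) (nat_lit 413) (nat_lit 5) (nat_lit 437) (nat_lit 5) (nat_lit 472) (nat_lit 468) (nat_lit 200)) (XT.lf (nat_lit 0) (nat_lit 11810157545) (nat_lit 1748)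 (nat_lit 9285145268) (nat_lit 1824) (nat_lit 3437779369) (nat_lit 414) (nat_lit 5) (nat_lit 437) (nat_lit 5) (nat_lit 438) (nat_lit 5) (nat_lit 473) (nat_lit 468) (nat_lit 199)))))) (XT.nd (nat_lit 390) (nat_lit 0) (nat_lit 152) (XT.nd (nat_lit 156) (nat_lit 0) (nat_lit 76) (XT.nd (nat_lit 78) (nat_lit 0) (nat_lit 76) (XT.lf (nat_lit 76) (nat_lit 2651582889) (nat_lit 0) (nat_lit 9793834639) (nat_lit 1824) (nat_lit 12334866422) (nat_lit 415) (nat_lit 5) (nat_lit 414) (nat_lit 5) (nat_lit 438) (nat_lit 5) (nat_lit 474) (nat_lit 468) (nat_lit 198)) (XT.lf (nat_lit 0) (nat_lit 13164530269) (nat_lit 1748) (nat_lit 10091686691) (nat_lit 1824) (nat_lit 1774790830) (nat_lit 415) (nat_lit 5) (nat_lit 438) (nat_lit 5) (nat_lit 439) (nat_lit 5) (nat_lit 475) (nat_lit 468) (nat_lit 197))) (XT.nd (nat_lit 78) (nat_lit 0) (nat_lit 0) (XT.lf (nat_lit 76) (nat_lit 2147666766) (nat_lit 0) (nat_lit 11826388504) (nat_lit 1824) (nat_lit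 11311171206) (nat_lit 416) (nat_lit 5) (nat_lit 415) (nat_lit 5) (nat_lit 439) (nat_lit 5) (nat_lit 476) (nat_lit 468) (nat_lit 196)) (XT.nd (nat_lit 78) (nat_lit 0) (nat_lit 76) (XT.lf (nat_lit 76) (nat_lit 14766905596) (nat_lit 0) (nat_lit 97855171) (nat_lit 1824) (nat_lit 10678469917) (nat_lit 416) (nat_lit 5) (nat_lit 415) (nat_lit 5) (nat_lit 439) (nat_lit 5) (nat_lit 477) (nat_lit 468) (nat_lit 195)) (XT.lf (nat_lit 76) (nat_lit 1776673617) (nat_lit 0) (nat_lit 14082508752) (nat_lit 1824) (nat_lit 9945495500) (nat_lit 417) (nat_lit 5) (nat_lit 416) (nat_lit 5) (nat_lit 440) (nat_lit 5) (nat_lit 478) (nat_lit 468) (nat_lit 194))))) (XT.nd (nat_lit 234) (nat_lit 0) (nat_lit 152) (XT.nd (nat_lit 78) (nat_lit 0) (nat_lit 76) (XT.lf (nat_lit 76) (nat_lit 14724437972) (nat_lit 0) (nat_lit 2219383849) (nat_lit 1824) (nat_lit 9126126500) (nat_lit 417) (nat_lit 5) (nat_lit 416) (nat_lit 5) (nat_lit 440) (nat_lit 5) (nat_lit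 479) (nat_lit 468) (nat_lit 193)) (XT.nd (nat_lit 78) (nat_lit 0) (nat_lit 0) (XT.lf (nat_lit 76) (nat_lit 1545004145) (nat_lit 0) (nat_lit 16576763339) (nat_lit 1824) (nat_lit 8217325325) (nat_lit 418) (nat_lit 5) (nat_lit 417) (nat_lit 5) (nat_lit 441) (nat_lit 5) (nat_lit 480) (nat_lit 468) (nat_lit 192)) (XT.lf (nat_lit 76) (nat_lit 14830500248) (nat_lit 0) (nat_lit 4580974785) (nat_lit 1824) (nat_lit 7200381973) (nat_lit 418) (nat_lit 5) (nat_lit 417) (nat_lit 5) (nat_lit 441) (nat_lit 5) (nat_lit 481) (nat_lit 468) (nat_lit 191)))) (XT.nd (nat_lit 78) (nat_lit 0) (nat_lit 0) (XT.lf (nat_lit 76) (nat_lit 1459320844) (nat_lit 0) (nat_lit 19324352553) (nat_lit 1824) (nat_lit 6105270015) (nat_lit 419) (nat_lit 5) (nat_lit 418) (nat_lit 5) (nat_lit 442) (nat_lit 5) (nat_lit 482) (nat_lit 468) (nat_lit 190)) (XT.nd (nat_lit 78) (nat_lit 0) (nat_lit 76) (XT.lf (nat_lit 76) (nat_lit 15092033526) (nat_lit 0) (nat_lit 7198038809)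 (nat_lit 1824) (nat_lit 4879364923) (nat_lit 419) (nat_lit 5) (nat_lit 418) (nat_lit 5) (nat_lit 442) (nat_lit 5) (nat_lit 483) (nat_lit 468) (nat_lit 189)) (XT.lf (nat_lit 76) (nat_lit 1526552004) (nat_lit 0) (nat_lit 22341142748) (nat_lit 1824) (nat_lit 3587025146) (nat_lit 420) (nat_lit 5) (nat_lit 419) (nat_lit 5) (nat_lit 443) (nat_lit 5) (nat_lit 484) (nat_lit 468) (nat_lit 188))))))))
noncomputable def xc252 : XT := (XT.nd (nat_lit 59202) (nat_lit 0) (nat_lit 0) (XT.nd (nat_lit 58344) (nat_lit 0) (nat_lit 1292) (XT.nd (nat_lit 390) (nat_lit 0) (nat_lit 76) (XT.nd (nat_lit 156) (nat_lit 1748) (nat_lit 0) (XT.nd (nat_lit 78) (nat_lit 0) (nat_lit 76) (XT.lf (nat_lit 76) (nat_lit 15516251960) (nat_lit 0) (nat_lit 10086666250) (nat_lit 1824) (nat_lit 2140269819) (nat_lit 420) (nat_lit 5) (nat_lit 419) (nat_lit 5) (nat_lit 443) (nat_lit 5) (nat_lit 485) (nat_lit 468) (nat_lit 187)) (XT.lf (nat_lit 76) (nat_lit 1753895661)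 (nat_lit 0) (nat_lit 25643701417) (nat_lit 1824) (nat_lit 639334222) (nat_lit 421) (nat_lit 5) (nat_lit 420) (nat_lit 5) (nat_lit 444) (nat_lit 5) (nat_lit 486) (nat_lit 468) (nat_lit 186))) (XT.nd (nat_lit 78) (nat_lit 0) (nat_lit 0) (XT.lf (nat_lit 0) (nat_lit 1027033327) (nat_lit 1824) (nat_lit 12229737343) (nat_lit 1900) (nat_lit 15076721609) (nat_lit 396) (nat_lit 5) (nat_lit 420) (nat_lit 5) (nat_lit 421) (nat_lit 5) (nat_lit 487) (nat_lit 468) (nat_lit 185)) (XT.nd (nat_lit 78) (nat_lit 0) (nat_lit 76) (XT.lf (nat_lit 76) (nat_lit 2126536969) (nat_lit 0) (nat_lit 603205597) (nat_lit 1900) (nat_lit 25905926640) (nat_lit 397) (nat_lit 5) (nat_lit 396) (nat_lit 5) (nat_lit 421) (nat_lit 5) (nat_lit 488) (nat_lit 468) (nat_lit 184)) (XT.lf (nat_lit 0) (nat_lit 4626795357) (nat_lit 1824) (nat_lit 12088742090) (nat_lit 1900) (nat_lit 12225147172) (nat_lit 397) (nat_lit 5) (nat_lit 421) (nat_lit 5) (nat_lit 422) (nat_lit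 5) (nat_lit 489) (nat_lit 468) (nat_lit 183))))) (XT.nd (nat_lit 57720) (nat_lit 0) (nat_lit 1140) (XT.nd (nat_lit 78) (nat_lit 0) (nat_lit 76) (XT.lf (nat_lit 76) (nat_lit 2649056596) (nat_lit 0) (nat_lit 3931765857) (nat_lit 1900) (nat_lit 22670597942) (nat_lit 398) (nat_lit 5) (nat_lit 397) (nat_lit 5) (nat_lit 422) (nat_lit 5) (nat_lit 490) (nat_lit 468) (nat_lit 182)) (XT.nd (nat_lit 78) (nat_lit 0) (nat_lit 0) (XT.lf (nat_lit 0) (nat_lit 8712594991) (nat_lit 1824) (nat_lit 11782723191) (nat_lit 1900) (nat_lit 9070280113) (nat_lit 398) (nat_lit 5) (nat_lit 422) (nat_lit 5) (nat_lit 423) (nat_lit 5) (nat_lit 491) (nat_lit 468) (nat_lit 181)) (XT.lf (nat_lit 76) (nat_lit 3349453930) (nat_lit 0) (nat_lit 7583248558) (nat_lit 1900) (nat_lit 18952443966) (nat_lit 399) (nat_lit 5) (nat_lit 398) (nat_lit 5) (nat_lit 423) (nat_lit 5) (nat_lit 492) (nat_lit 468) (nat_lit 180)))) (XT.nd (nat_lit 78) (nat_lit 0) (nat_lit 0)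 (XT.lf (nat_lit 0) (nat_lit 2558570795) (nat_lit 0) (nat_lit 2558570795) (nat_lit 1748) (nat_lit 6788036249) (nat_lit 412) (nat_lit 5) (nat_lit 412) (nat_lit 3) (nat_lit 435) (nat_lit 3) (nat_lit 469) (nat_lit 469) (nat_lit 202)) (XT.nd (nat_lit 78) (nat_lit 0) (nat_lit 0) (XT.lf (nat_lit 0) (nat_lit 10491990540) (nat_lit 1748) (nat_lit 7352395889) (nat_lit 1824) (nat_lit 6200925538) (nat_lit 412) (nat_lit 5) (nat_lit 435) (nat_lit 3) (nat_lit 436) (nat_lit 5) (nat_lit 470) (nat_lit 469) (nat_lit 201)) (XT.lf (nat_lit 76) (nat_lit 4235323851) (nat_lit 0) (nat_lit 6577919652) (nat_lit 1824) (nat_lit 13470557098) (nat_lit 413) (nat_lit 5) (nat_lit 412) (nat_lit 5) (nat_lit 436) (nat_lit 5) (nat_lit 471) (nat_lit 469) (nat_lit 200)))))) (XT.nd (nat_lit 390) (nat_lit 0) (nat_lit 152) (XT.nd (nat_lit 156) (nat_lit 0) (nat_lit 76) (XT.nd (nat_lit 78) (nat_lit 0) (nat_lit 0) (XT.lf (nat_lit 0) (nat_lit 11219553002) (nat_lit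 1748) (nat_lit 8405473578) (nat_lit 1824) (nat_lit 4900460827) (nat_lit 413) (nat_lit 5) (nat_lit 436) (nat_lit 5) (nat_lit 437) (nat_lit 5) (nat_lit 472) (nat_lit 469) (nat_lit 199)) (XT.lf (nat_lit 76) (nat_lit 3470746646) (nat_lit 0) (nat_lit 8226458559) (nat_lit 1824) (nat_lit 13073539420) (nat_lit 414) (nat_lit 5) (nat_lit 413) (nat_lit 5) (nat_lit 437) (nat_lit 5) (nat_lit 473) (nat_lit 469) (nat_lit 198))) (XT.nd (nat_lit 78) (nat_lit 0) (nat_lit 0) (XT.lf (nat_lit 0) (nat_lit 12260438709) (nat_lit 1748) (nat_lit 9345453648) (nat_lit 1824) (nat_lit 3413495055) (nat_lit 414) (nat_lit 5) (nat_lit 437) (nat_lit 5) (nat_lit 438) (nat_lit 5) (nat_lit 474) (nat_lit 469) (nat_lit 197)) (XT.nd (nat_lit 78) (nat_lit 0) (nat_lit 76) (XT.lf (nat_lit 76) (nat_lit 2829184108) (nat_lit 0) (nat_lit 10075830964) (nat_lit 1824) (nat_lit 12366587387) (nat_lit 415) (nat_lit 5) (nat_lit 414) (nat_lit 5) (nat_lit 438) (nat_lit 5)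 (nat_lit 475) (nat_lit 469) (nat_lit 196)) (XT.lf (nat_lit 0) (nat_lit 13633830725) (nat_lit 1748) (nat_lit 10166642113) (nat_lit 1824) (nat_lit 1726962964) (nat_lit 415) (nat_lit 5) (nat_lit 438) (nat_lit 5) (nat_lit 439) (nat_lit 5) (nat_lit 476) (nat_lit 469) (nat_lit 195))))) (XT.nd (nat_lit 234) (nat_lit 0) (nat_lit 76) (XT.nd (nat_lit 78) (nat_lit 0) (nat_lit 0) (XT.lf (nat_lit 76) (nat_lit 2316663687) (nat_lit 0) (nat_lit 12139661488) (nat_lit 1824) (nat_lit 11330479517) (nat_lit 416) (nat_lit 5) (nat_lit 415) (nat_lit 5) (nat_lit 439) (nat_lit 5) (nat_lit 477) (nat_lit 469) (nat_lit 194)) (XT.nd (nat_lit 78) (nat_lit 0) (nat_lit 76) (XT.lf (nat_lit 76) (nat_lit 15185815851) (nat_lit 0) (nat_lit 175052680) (nat_lit 1824) (nat_lit 10689181362) (nat_lit 416) (nat_lit 5) (nat_lit 415) (nat_lit 5) (nat_lit 439) (nat_lit 5) (nat_lit 478) (nat_lit 469) (nat_lit 193)) (XT.lf (nat_lit 76) (nat_lit 1939470345) (nat_lit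 0) (nat_lit 14432157281) (nat_lit 1824) (nat_lit 9945170770) (nat_lit 417) (nat_lit 5) (nat_lit 416) (nat_lit 5) (nat_lit 440) (nat_lit 5) (nat_lit 479) (nat_lit 469) (nat_lit 192)))) (XT.nd (nat_lit 78) (nat_lit 0) (nat_lit 76) (XT.lf (nat_lit 76) (nat_lit 15143694629) (nat_lit 0) (nat_lit 2330436578) (nat_lit 1824) (nat_lit 9113320952) (nat_lit 417) (nat_lit 5) (nat_lit 416) (nat_lit 5) (nat_lit 440) (nat_lit 5) (nat_lit 480) (nat_lit 469) (nat_lit 191)) (XT.nd (nat_lit 78) (nat_lit 0) (nat_lit 0) (XT.lf (nat_lit 76) (nat_lit 1704150772) (nat_lit 0) (nat_lit 16968139739) (nat_lit 1824) (nat_lit 8189757235) (nat_lit 418) (nat_lit 5) (nat_lit 417) (nat_lit 5) (nat_lit 441) (nat_lit 5) (nat_lit 481) (nat_lit 469) (nat_lit 190)) (XT.lf (nat_lit 76) (nat_lit 15252842159) (nat_lit 0) (nat_lit 4731262059) (nat_lit 1824) (nat_lit 7156238047) (nat_lit 418) (nat_lit 5) (nat_lit 417) (nat_lit 5) (nat_lit 441) (nat_lit 5) (nat_lit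 482) (nat_lit 469) (nat_lit 189))))))) (XT.nd (nat_lit 58500) (nat_lit 0) (nat_lit 1216) (XT.nd (nat_lit 390) (nat_lit 1672) (nat_lit 0) (XT.nd (nat_lit 156) (nat_lit 0) (nat_lit 76) (XT.nd (nat_lit 78) (nat_lit 0) (nat_lit 0) (XT.lf (nat_lit 76) (nat_lit 1617517585) (nat_lit 0) (nat_lit 19763077463) (nat_lit 1824) (nat_lit 6042439634) (nat_lit 419) (nat_lit 5) (nat_lit 418) (nat_lit 5) (nat_lit 442) (nat_lit 5) (nat_lit 483) (nat_lit 469) (nat_lit 188)) (XT.lf (nat_lit 76) (nat_lit 15520354906) (nat_lit 0) (nat_lit 7393213173) (nat_lit 1824) (nat_lit 4795642631) (nat_lit 419) (nat_lit 5) (nat_lit 418) (nat_lit 5) (nat_lit 442) (nat_lit 5) (nat_lit 484) (nat_lit 469) (nat_lit 187))) (XT.nd (nat_lit 78) (nat_lit 0) (nat_lit 0) (XT.lf (nat_lit 76) (nat_lit 1686653477) (nat_lit 0) (nat_lit 22833120530) (nat_lit 1824) (nat_lit 3480485579) (nat_lit 420) (nat_lit 5) (nat_lit 419) (nat_lit 5) (nat_lit 443) (nat_lit 5) (nat_lit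 485) (nat_lit 469) (nat_lit 186)) (XT.nd (nat_lit 78) (nat_lit 0) (nat_lit 76) (XT.lf (nat_lit 76) (nat_lit 15953606835) (nat_lit 0) (nat_lit 10332669112) (nat_lit 1824) (nat_lit 2008290834) (nat_lit 420) (nat_lit 5) (nat_lit 419) (nat_lit 5) (nat_lit 443) (nat_lit 5) (nat_lit 486) (nat_lit 469) (nat_lit 185)) (XT.lf (nat_lit 76) (nat_lit 1918915305) (nat_lit 0) (nat_lit 26195136151) (nat_lit 1824) (nat_lit 480190555) (nat_lit 421) (nat_lit 5) (nat_lit 420) (nat_lit 5) (nat_lit 444) (nat_lit 5) (nat_lit 487) (nat_lit 469) (nat_lit 184))))) (XT.nd (nat_lit 234) (nat_lit 0) (nat_lit 76) (XT.nd (nat_lit 78) (nat_lit 0) (nat_lit 0) (XT.lf (nat_lit 0) (nat_lit 1213922478) (nat_lit 1824) (nat_lit 12344671934) (nat_lit 1900) (nat_lit 15338185125) (nat_lit 396) (nat_lit 5) (nat_lit 420) (nat_lit 5) (nat_lit 421) (nat_lit 5) (nat_lit 488) (nat_lit 469) (nat_lit 183)) (XT.nd (nat_lit 78) (nat_lit 0) (nat_lit 76) (XT.lf (nat_lit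 76) (nat_lit 2297874838) (nat_lit 0) (nat_lit 650385631) (nat_lit 1900) (nat_lit 26256789134) (nat_lit 397) (nat_lit 5) (nat_lit 396) (nat_lit 5) (nat_lit 421) (nat_lit 5) (nat_lit 489) (nat_lit 469) (nat_lit 182)) (XT.lf (nat_lit 0) (nat_lit 4879816612) (nat_lit 1824) (nat_lit 12200744273) (nat_lit 1900) (nat_lit 12435674262) (nat_lit 397) (nat_lit 5) (nat_lit 421) (nat_lit 5) (nat_lit 422) (nat_lit 5) (nat_lit 490) (nat_lit 469) (nat_lit 181)))) (XT.nd (nat_lit 57720) (nat_lit 0) (nat_lit 1140) (XT.lf (nat_lit 76) (nat_lit 2830956621) (nat_lit 0) (nat_lit 4039657885) (nat_lit 1900) (nat_lit 22962618375) (nat_lit 398) (nat_lit 5) (nat_lit 397) (nat_lit 5) (nat_lit 422) (nat_lit 5) (nat_lit 491) (nat_lit 469) (nat_lit 180)) (XT.nd (nat_lit 78) (nat_lit 0) (nat_lit 0) (XT.lf (nat_lit 0) (nat_lit 2666654764) (nat_lit 0) (nat_lit 2666654764) (nat_lit 1748) (nat_lit 6807655647) (nat_lit 412) (nat_lit 5) (nat_lit 412) (nat_lit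 3) (nat_lit 435) (nat_lit 3) (nat_lit 470) (nat_lit 470) (nat_lit 200)) (XT.lf (nat_lit 0) (nat_lit 10924292297) (nat_lit 1748) (nat_lit 7382584420) (nat_lit 1824) (nat_lit 6214814372) (nat_lit 412) (nat_lit 5) (nat_lit 435) (nat_lit 3) (nat_lit 436) (nat_lit 5) (nat_lit 471) (nat_lit 470) (nat_lit 199)))))) (XT.nd (nat_lit 390) (nat_lit 0) (nat_lit 228) (XT.nd (nat_lit 156) (nat_lit 0) (nat_lit 76) (XT.nd (nat_lit 78) (nat_lit 0) (nat_lit 76) (XT.lf (nat_lit 76) (nat_lit 4436120904) (nat_lit 0) (nat_lit 6812241154) (nat_lit 1824) (nat_lit 13516661131) (nat_lit 413) (nat_lit 5) (nat_lit 412) (nat_lit 5) (nat_lit 436) (nat_lit 5) (nat_lit 472) (nat_lit 470) (nat_lit 198)) (XT.lf (nat_lit 0) (nat_lit 11657852373) (nat_lit 1748) (nat_lit 8454748533) (nat_lit 1824) (nat_lit 4899043227) (nat_lit 413) (nat_lit 5) (nat_lit 436) (nat_lit 5) (nat_lit 437) (nat_lit 5) (nat_lit 473) (nat_lit 470) (nat_lit 197))) (XT.nd (nat_lit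 78) (nat_lit 0) (nat_lit 76) (XT.lf (nat_lit 76) (nat_lit 3658214289) (nat_lit 0) (nat_lit 8483415528) (nat_lit 1824) (nat_lit 13120246705) (nat_lit 414) (nat_lit 5) (nat_lit 413) (nat_lit 5) (nat_lit 437) (nat_lit 5) (nat_lit 474) (nat_lit 470) (nat_lit 196)) (XT.nd (nat_lit 78) (nat_lit 0) (nat_lit 0) (XT.lf (nat_lit 0) (nat_lit 12711412586) (nat_lit 1748) (nat_lit 9411837417) (nat_lit 1824) (nat_lit 3392337907) (nat_lit 414) (nat_lit 5) (nat_lit 437) (nat_lit 5) (nat_lit 438) (nat_lit 5) (nat_lit 475) (nat_lit 470) (nat_lit 195)) (XT.lf (nat_lit 76) (nat_lit 3005500164) (nat_lit 0) (nat_lit 10360123084) (nat_lit 1824) (nat_lit 12407290565) (nat_lit 415) (nat_lit 5) (nat_lit 414) (nat_lit 5) (nat_lit 438) (nat_lit 5) (nat_lit 476) (nat_lit 470) (nat_lit 194))))) (XT.nd (nat_lit 234) (nat_lit 0) (nat_lit 76) (XT.nd (nat_lit 78) (nat_lit 0) (nat_lit 0) (XT.lf (nat_lit 0) (nat_lit 14104517576) (nat_lit 1748) (nat_lit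 10248023483) (nat_lit 1824) (nat_lit 1681414100) (nat_lit 415) (nat_lit 5) (nat_lit 438) (nat_lit 5) (nat_lit 439) (nat_lit 5) (nat_lit 477) (nat_lit 470) (nat_lit 193)) (XT.nd (nat_lit 78) (nat_lit 0) (nat_lit 0) (XT.lf (nat_lit 76) (nat_lit 2484146121) (nat_lit 0) (nat_lit 12456219821) (nat_lit 1824) (nat_lit 11358208761) (nat_lit 416) (nat_lit 5) (nat_lit 415) (nat_lit 5) (nat_lit 439) (nat_lit 5) (nat_lit 478) (nat_lit 470) (nat_lit 192)) (XT.lf (nat_lit 76) (nat_lit 15608305855) (nat_lit 0) (nat_lit 250872463) (nat_lit 1824) (nat_lit 10707984257) (nat_lit 416) (nat_lit 5) (nat_lit 415) (nat_lit 5) (nat_lit 439) (nat_lit 5) (nat_lit 479) (nat_lit 470) (nat_lit 191)))) (XT.nd (nat_lit 78) (nat_lit 0) (nat_lit 0) (XT.lf (nat_lit 76) (nat_lit 2100581220) (nat_lit 0) (nat_lit 14786158321) (nat_lit 1824) (nat_lit 9952576070) (nat_lit 417) (nat_lit 5) (nat_lit 416) (nat_lit 5) (nat_lit 440) (nat_lit 5) (nat_lit 480) (nat_lit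 470) (nat_lit 190)) (XT.nd (nat_lit 78) (nat_lit 0) (nat_lit 76) (XT.lf (nat_lit 76) (nat_lit 15566491530) (nat_lit 0) (nat_lit 2441121677) (nat_lit 1824) (nat_lit 9107844121) (nat_lit 417) (nat_lit 5) (nat_lit 416) (nat_lit 5) (nat_lit 440) (nat_lit 5) (nat_lit 481) (nat_lit 470) (nat_lit 189)) (XT.lf (nat_lit 76) (nat_lit 1861500362) (nat_lit 0) (nat_lit 17365019964) (nat_lit 1824) (nat_lit 8169090061) (nat_lit 418) (nat_lit 5) (nat_lit 417) (nat_lit 5) (nat_lit 441) (nat_lit 5) (nat_lit 482) (nat_lit 470) (nat_lit 188))))))))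
noncomputable def xc253 : XT := (XT.nd (nat_lit 59436) (nat_lit 0) (nat_lit 0) (XT.nd (nat_lit 58578) (nat_lit 0) (nat_lit 1216) (XT.nd (nat_lit 390) (nat_lit 1596) (nat_lit 0) (XT.nd (nat_lit 156) (nat_lit 0) (nat_lit 76) (XT.nd (nat_lit 78) (nat_lit 0) (nat_lit 76) (XT.lf (nat_lit 76) (nat_lit 15678748585) (nat_lit 0) (nat_lit 4882276937) (nat_lit 1824) (nat_lit 7118517397) (nat_lit 418) (nat_lit 5) (nat_lit 417) (nat_lit 5) (nat_lit 441) (nat_lit 5) (nat_lit 483) (nat_lit 470) (nat_lit 187)) (XT.lf (nat_lit 76) (nat_lit 1773868632) (nat_lit 0) (nat_lit 20208548412) (nat_lit 1824) (nat_lit 5985533926) (nat_lit 419) (nat_lit 5) (nat_lit 418) (nat_lit 5) (nat_lit 442) (nat_lit 5) (nat_lit 484) (nat_lit 470) (nat_lit 186))) (XT.nd (nat_lit 78) (nat_lit 0) (nat_lit 76) (XT.lf (nat_lit 76) (nat_lit 15952331314) (nat_lit 0) (nat_lit 7590302338) (nat_lit 1824) (nat_lit 4717286366) (nat_lit 419) (nat_lit 5) (nat_lit 418) (nat_lit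 5) (nat_lit 442) (nat_lit 5) (nat_lit 485) (nat_lit 470) (nat_lit 185)) (XT.nd (nat_lit 78) (nat_lit 0) (nat_lit 0) (XT.lf (nat_lit 76) (nat_lit 1844925601) (nat_lit 0) (nat_lit 23333184447) (nat_lit 1824) (nat_lit 3378738054) (nat_lit 420) (nat_lit 5) (nat_lit 419) (nat_lit 5) (nat_lit 443) (nat_lit 5) (nat_lit 486) (nat_lit 470) (nat_lit 184)) (XT.lf (nat_lit 76) (nat_lit 16394776084) (nat_lit 0) (nat_lit 10581872990) (nat_lit 1824) (nat_lit 1880459359) (nat_lit 420) (nat_lit 5) (nat_lit 419) (nat_lit 5) (nat_lit 443) (nat_lit 5) (nat_lit 487) (nat_lit 470) (nat_lit 183))))) (XT.nd (nat_lit 234) (nat_lit 0) (nat_lit 76) (XT.nd (nat_lit 78) (nat_lit 1824) (nat_lit 0) (XT.lf (nat_lit 76) (nat_lit 2082189547) (nat_lit 0) (nat_lit 26756102222) (nat_lit 1824) (nat_lit 324540280) (nat_lit 421) (nat_lit 5) (nat_lit 420) (nat_lit 5) (nat_lit 444) (nat_lit 5) (nat_lit 488) (nat_lit 470) (nat_lit 182)) (XT.nd (nat_lit 78) (nat_lit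 0) (nat_lit 0) (XT.lf (nat_lit 0) (nat_lit 1398089897) (nat_lit 1824) (nat_lit 12466940078) (nat_lit 1900) (nat_lit 15606433914) (nat_lit 396) (nat_lit 5) (nat_lit 420) (nat_lit 5) (nat_lit 421) (nat_lit 5) (nat_lit 489) (nat_lit 470) (nat_lit 181)) (XT.lf (nat_lit 76) (nat_lit 2467637725) (nat_lit 0) (nat_lit 697145671) (nat_lit 1900) (nat_lit 26621163634) (nat_lit 397) (nat_lit 5) (nat_lit 396) (nat_lit 5) (nat_lit 421) (nat_lit 5) (nat_lit 490) (nat_lit 470) (nat_lit 180)))) (XT.nd (nat_lit 57798) (nat_lit 0) (nat_lit 1140) (XT.lf (nat_lit 0) (nat_lit 5131666450) (nat_lit 1824) (nat_lit 12320025729) (nat_lit 1900) (nat_lit 12651731218) (nat_lit 397) (nat_lit 5) (nat_lit 421) (nat_lit 5) (nat_lit 422) (nat_lit 5) (nat_lit 491) (nat_lit 470) (nat_lit 179)) (XT.nd (nat_lit 78) (nat_lit 0) (nat_lit 0) (XT.lf (nat_lit 0) (nat_lit 2774690429) (nat_lit 0) (nat_lit 2774690429) (nat_lit 1748) (nat_lit 6832177342) (nat_lit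 412) (nat_lit 5) (nat_lit 412) (nat_lit 3) (nat_lit 435) (nat_lit 3) (nat_lit 471) (nat_lit 471) (nat_lit 198)) (XT.lf (nat_lit 0) (nat_lit 11356601621) (nat_lit 1748) (nat_lit 7417914514) (nat_lit 1824) (nat_lit 6233257453) (nat_lit 412) (nat_lit 5) (nat_lit 435) (nat_lit 3) (nat_lit 436) (nat_lit 5) (nat_lit 472) (nat_lit 471) (nat_lit 197)))))) (XT.nd (nat_lit 390) (nat_lit 0) (nat_lit 228) (XT.nd (nat_lit 156) (nat_lit 0) (nat_lit 76) (XT.nd (nat_lit 78) (nat_lit 0) (nat_lit 76) (XT.lf (nat_lit 76) (nat_lit 4636425959) (nat_lit 0) (nat_lit 7047258669) (nat_lit 1824) (nat_lit 13572358532) (nat_lit 413) (nat_lit 5) (nat_lit 412) (nat_lit 5) (nat_lit 436) (nat_lit 5) (nat_lit 473) (nat_lit 471) (nat_lit 196)) (XT.lf (nat_lit 0) (nat_lit 12096611412) (nat_lit 1748) (nat_lit 8509623477) (nat_lit 1824) (nat_lit 4901458141) (nat_lit 413) (nat_lit 5) (nat_lit 436) (nat_lit 5) (nat_lit 437) (nat_lit 5) (nat_lit 474) (nat_lit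 471) (nat_lit 195))) (XT.nd (nat_lit 78) (nat_lit 0) (nat_lit 76) (XT.lf (nat_lit 76) (nat_lit 3844847155) (nat_lit 0) (nat_lit 8741922551) (nat_lit 1824) (nat_lit 13176227663) (nat_lit 414) (nat_lit 5) (nat_lit 413) (nat_lit 5) (nat_lit 437) (nat_lit 5) (nat_lit 475) (nat_lit 471) (nat_lit 194)) (XT.nd (nat_lit 78) (nat_lit 0) (nat_lit 0) (XT.lf (nat_lit 0) (nat_lit 13163415831) (nat_lit 1748) (nat_lit 9484229007) (nat_lit 1824) (nat_lit 3374230177) (nat_lit 414) (nat_lit 5) (nat_lit 437) (nat_lit 5) (nat_lit 438) (nat_lit 5) (nat_lit 476) (nat_lit 471) (nat_lit 193)) (XT.lf (nat_lit 76) (nat_lit 3180693188) (nat_lit 0) (nat_lit 10646886773) (nat_lit 1824) (nat_lit 12456831446) (nat_lit 415) (nat_lit 5) (nat_lit 414) (nat_lit 5) (nat_lit 438) (nat_lit 5) (nat_lit 477) (nat_lit 471) (nat_lit 192))))) (XT.nd (nat_lit 234) (nat_lit 0) (nat_lit 76) (XT.nd (nat_lit 78) (nat_lit 0) (nat_lit 0) (XT.lf (nat_lit 0) (nat_lit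 14576929186) (nat_lit 1748) (nat_lit 10335768005) (nat_lit 1824) (nat_lit 1638064178) (nat_lit 415) (nat_lit 5) (nat_lit 438) (nat_lit 5) (nat_lit 439) (nat_lit 5) (nat_lit 478) (nat_lit 471) (nat_lit 191)) (XT.nd (nat_lit 78) (nat_lit 0) (nat_lit 0) (XT.lf (nat_lit 76) (nat_lit 2650273834) (nat_lit 0) (nat_lit 12776244933) (nat_lit 1824) (nat_lit 11394215355) (nat_lit 416) (nat_lit 5) (nat_lit 415) (nat_lit 5) (nat_lit 439) (nat_lit 5) (nat_lit 479) (nat_lit 471) (nat_lit 190)) (XT.lf (nat_lit 76) (nat_lit 16034633531) (nat_lit 0) (nat_lit 325400417) (nat_lit 1824) (nat_lit 10734734549) (nat_lit 416) (nat_lit 5) (nat_lit 415) (nat_lit 5) (nat_lit 439) (nat_lit 5) (nat_lit 480) (nat_lit 471) (nat_lit 189)))) (XT.nd (nat_lit 78) (nat_lit 0) (nat_lit 0) (XT.lf (nat_lit 76) (nat_lit 2260164421) (nat_lit 0) (nat_lit 15144701456) (nat_lit 1824) (nat_lit 9967565581) (nat_lit 417) (nat_lit 5) (nat_lit 416) (nat_lit 5) (nat_lit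 440) (nat_lit 5) (nat_lit 481) (nat_lit 471) (nat_lit 188)) (XT.nd (nat_lit 78) (nat_lit 0) (nat_lit 76) (XT.lf (nat_lit 76) (nat_lit 15993087612) (nat_lit 0) (nat_lit 2551532315) (nat_lit 1824) (nat_lit 9109548052) (nat_lit 417) (nat_lit 5) (nat_lit 416) (nat_lit 5) (nat_lit 440) (nat_lit 5) (nat_lit 482) (nat_lit 471) (nat_lit 187)) (XT.lf (nat_lit 76) (nat_lit 2017210352) (nat_lit 0) (nat_lit 17767604321) (nat_lit 1824) (nat_lit 8155172440) (nat_lit 418) (nat_lit 5) (nat_lit 417) (nat_lit 5) (nat_lit 441) (nat_lit 5) (nat_lit 483) (nat_lit 471) (nat_lit 186))))))) (XT.nd (nat_lit 58734) (nat_lit 0) (nat_lit 1292) (XT.nd (nat_lit 390) (nat_lit 1596) (nat_lit 0) (XT.nd (nat_lit 156) (nat_lit 0) (nat_lit 76) (XT.nd (nat_lit 78) (nat_lit 0) (nat_lit 76) (XT.lf (nat_lit 76) (nat_lit 16108480402) (nat_lit 0) (nat_lit 5034122434) (nat_lit 1824) (nat_lit 7087064782) (nat_lit 418) (nat_lit 5) (nat_lit 417) (nat_lit 5) (nat_lit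 441) (nat_lit 5) (nat_lit 484) (nat_lit 471) (nat_lit 185)) (XT.lf (nat_lit 76) (nat_lit 1928531603) (nat_lit 0) (nat_lit 20660979088) (nat_lit 1824) (nat_lit 5934392529) (nat_lit 419) (nat_lit 5) (nat_lit 418) (nat_lit 5) (nat_lit 442) (nat_lit 5) (nat_lit 485) (nat_lit 471) (nat_lit 184))) (XT.nd (nat_lit 78) (nat_lit 0) (nat_lit 76) (XT.lf (nat_lit 76) (nat_lit 16388226566) (nat_lit 0) (nat_lit 7789421823) (nat_lit 1824) (nat_lit 4644130058) (nat_lit 419) (nat_lit 5) (nat_lit 418) (nat_lit 5) (nat_lit 442) (nat_lit 5) (nat_lit 486) (nat_lit 471) (nat_lit 183)) (XT.nd (nat_lit 78) (nat_lit 0) (nat_lit 0) (XT.lf (nat_lit 76) (nat_lit 2001527165) (nat_lit 0) (nat_lit 23841564309) (nat_lit 1824) (nat_lit 3281609588) (nat_lit 420) (nat_lit 5) (nat_lit 419) (nat_lit 5) (nat_lit 443) (nat_lit 5) (nat_lit 487) (nat_lit 471) (nat_lit 182)) (XT.lf (nat_lit 76) (nat_lit 16840027539) (nat_lit 0) (nat_lit 10834408659) (nat_lit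 1824) (nat_lit 1756594794) (nat_lit 420) (nat_lit 5) (nat_lit 419) (nat_lit 5) (nat_lit 443) (nat_lit 5) (nat_lit 488) (nat_lit 471) (nat_lit 181))))) (XT.nd (nat_lit 58110) (nat_lit 0) (nat_lit 1216) (XT.nd (nat_lit 78) (nat_lit 1824) (nat_lit 0) (XT.lf (nat_lit 76) (nat_lit 2243879412) (nat_lit 0) (nat_lit 27326848398) (nat_lit 1824) (nat_lit 172194016) (nat_lit 421) (nat_lit 5) (nat_lit 420) (nat_lit 5) (nat_lit 444) (nat_lit 5) (nat_lit 489) (nat_lit 471) (nat_lit 180)) (XT.nd (nat_lit 57954) (nat_lit 0) (nat_lit 1216) (XT.lf (nat_lit 0) (nat_lit 1579731982) (nat_lit 1824) (nat_lit 12596492938) (nat_lit 1900) (nat_lit 15881543260) (nat_lit 396) (nat_lit 5) (nat_lit 420) (nat_lit 5) (nat_lit 421) (nat_lit 5) (nat_lit 490) (nat_lit 471) (nat_lit 179)) (XT.lf (nat_lit 0) (nat_lit 2882762640) (nat_lit 0) (nat_lit 2882762640) (nat_lit 1748) (nat_lit 6861524256) (nat_lit 412) (nat_lit 5) (nat_lit 412) (nat_lit 3) (nat_lit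 435) (nat_lit 3) (nat_lit 472) (nat_lit 472) (nat_lit 196)))) (XT.nd (nat_lit 78) (nat_lit 0) (nat_lit 0) (XT.lf (nat_lit 0) (nat_lit 11789254104) (nat_lit 1748) (nat_lit 7458312794) (nat_lit 1824) (nat_lit 6256179804) (nat_lit 412) (nat_lit 5) (nat_lit 435) (nat_lit 3) (nat_lit 436) (nat_lit 5) (nat_lit 473) (nat_lit 472) (nat_lit 195)) (XT.nd (nat_lit 78) (nat_lit 0) (nat_lit 76) (XT.lf (nat_lit 76) (nat_lit 4836404225) (nat_lit 0) (nat_lit 7283141070) (nat_lit 1824) (nat_lit 13637504451) (nat_lit 413) (nat_lit 5) (nat_lit 412) (nat_lit 5) (nat_lit 436) (nat_lit 5) (nat_lit 474) (nat_lit 472) (nat_lit 194)) (XT.lf (nat_lit 0) (nat_lit 12536161856) (nat_lit 1748) (nat_lit 8570031222) (nat_lit 1824) (nat_lit 4907632295) (nat_lit 413) (nat_lit 5) (nat_lit 436) (nat_lit 5) (nat_lit 437) (nat_lit 5) (nat_lit 475) (nat_lit 472) (nat_lit 193)))))) (XT.nd (nat_lit 390) (nat_lit 0) (nat_lit 152) (XT.nd (nat_lit 156) (nat_lit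 0) (nat_lit 76) (XT.nd (nat_lit 78) (nat_lit 0) (nat_lit 76) (XT.lf (nat_lit 76) (nat_lit 4030806554) (nat_lit 0) (nat_lit 9002150000) (nat_lit 1824) (nat_lit 13241343935) (nat_lit 414) (nat_lit 5) (nat_lit 413) (nat_lit 5) (nat_lit 437) (nat_lit 5) (nat_lit 476) (nat_lit 472) (nat_lit 192)) (XT.lf (nat_lit 0) (nat_lit 13616779297) (nat_lit 1748) (nat_lit 9562566836) (nat_lit 1824) (nat_lit 3359098011) (nat_lit 414) (nat_lit 5) (nat_lit 437) (nat_lit 5) (nat_lit 438) (nat_lit 5) (nat_lit 477) (nat_lit 472) (nat_lit 191))) (XT.nd (nat_lit 78) (nat_lit 0) (nat_lit 76) (XT.lf (nat_lit 76) (nat_lit 3354921257) (nat_lit 0) (nat_lit 10936296277) (nat_lit 1824) (nat_lit 12515075216) (nat_lit 415) (nat_lit 5) (nat_lit 414) (nat_lit 5) (nat_lit 438) (nat_lit 5) (nat_lit 478) (nat_lit 472) (nat_lit 190)) (XT.nd (nat_lit 78) (nat_lit 0) (nat_lit 0) (XT.lf (nat_lit 0) (nat_lit 15051398621) (nat_lit 1748) (nat_lit 10429819055) (nat_lit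 1824) (nat_lit 1596836416) (nat_lit 415) (nat_lit 5) (nat_lit 438) (nat_lit 5) (nat_lit 439) (nat_lit 5) (nat_lit 479) (nat_lit 472) (nat_lit 189)) (XT.lf (nat_lit 76) (nat_lit 2815202408) (nat_lit 0) (nat_lit 13099917385) (nat_lit 1824) (nat_lit 11438364963) (nat_lit 416) (nat_lit 5) (nat_lit 415) (nat_lit 5) (nat_lit 439) (nat_lit 5) (nat_lit 480) (nat_lit 472) (nat_lit 188))))) (XT.nd (nat_lit 234) (nat_lit 0) (nat_lit 152) (XT.nd (nat_lit 78) (nat_lit 0) (nat_lit 76) (XT.lf (nat_lit 76) (nat_lit 16465054728) (nat_lit 0) (nat_lit 398719753) (nat_lit 1824) (nat_lit 10769297182) (nat_lit 416) (nat_lit 5) (nat_lit 415) (nat_lit 5) (nat_lit 439) (nat_lit 5) (nat_lit 481) (nat_lit 472) (nat_lit 187)) (XT.nd (nat_lit 78) (nat_lit 0) (nat_lit 0) (XT.lf (nat_lit 76) (nat_lit 2418373838) (nat_lit 0) (nat_lit 15507976077) (nat_lit 1824) (nat_lit 9990002235) (nat_lit 417) (nat_lit 5) (nat_lit 416) (nat_lit 5) (nat_lit 440) (nat_lit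 5) (nat_lit 482) (nat_lit 472) (nat_lit 186)) (XT.lf (nat_lit 76) (nat_lit 16423739687) (nat_lit 0) (nat_lit 2661759620) (nat_lit 1824) (nat_lit 9118293270) (nat_lit 417) (nat_lit 5) (nat_lit 416) (nat_lit 5) (nat_lit 440) (nat_lit 5) (nat_lit 483) (nat_lit 472) (nat_lit 185)))) (XT.nd (nat_lit 78) (nat_lit 0) (nat_lit 0) (XT.lf (nat_lit 76) (nat_lit 2171433821) (nat_lit 0) (nat_lit 18176093622) (nat_lit 1824) (nat_lit 8147861219) (nat_lit 418) (nat_lit 5) (nat_lit 417) (nat_lit 5) (nat_lit 441) (nat_lit 5) (nat_lit 484) (nat_lit 472) (nat_lit 184)) (XT.nd (nat_lit 78) (nat_lit 0) (nat_lit 76) (XT.lf (nat_lit 76) (nat_lit 16542296345) (nat_lit 0) (nat_lit 5186900191) (nat_lit 1824) (nat_lit 7061732872) (nat_lit 418) (nat_lit 5) (nat_lit 417) (nat_lit 5) (nat_lit 441) (nat_lit 5) (nat_lit 485) (nat_lit 472) (nat_lit 183)) (XT.lf (nat_lit 76) (nat_lit 2081659711) (nat_lit 0) (nat_lit 21120584394) (nat_lit 1824) (nat_lit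 5888862697) (nat_lit 419) (nat_lit 5) (nat_lit 418) (nat_lit 5) (nat_lit 442) (nat_lit 5) (nat_lit 486) (nat_lit 472) (nat_lit 182))))))))
noncomputable def xc254 : XT := (XT.nd (nat_lit 117858) (nat_lit 0) (nat_lit 0) (XT.nd (nat_lit 58890) (nat_lit 0) (nat_lit 0) (XT.nd (nat_lit 58422) (nat_lit 0) (nat_lit 0) (XT.nd (nat_lit 156) (nat_lit 456) (nat_lit 0) (XT.nd (nat_lit 78) (nat_lit 0) (nat_lit 76) (XT.lf (nat_lit 76) (nat_lit 16828302348) (nat_lit 0) (nat_lit 7990686460) (nat_lit 1824) (nat_lit 4576014932) (nat_lit 419) (nat_lit 5) (nat_lit 418) (nat_lit 5) (nat_lit 442) (nat_lit 5) (nat_lit 487) (nat_lit 472) (nat_lit 181)) (XT.lf (nat_lit 76) (nat_lit 2156612545) (nat_lit 0) (nat_lit 24358491878) (nat_lit 1824) (nat_lit 3188934179) (nat_lit 420) (nat_lit 5) (nat_lit 419) (nat_lit 5) (nat_lit 443) (nat_lit 5) (nat_lit 488) (nat_lit 472) (nat_lit 180))) (XT.nd (nat_lit 58110) (nat_lit 532) (nat_lit 0) (XT.lf (nat_lit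 76) (nat_lit 17289626949) (nat_lit 0) (nat_lit 11090406914) (nat_lit 1824) (nat_lit 1636523160) (nat_lit 420) (nat_lit 5) (nat_lit 419) (nat_lit 5) (nat_lit 443) (nat_lit 5) (nat_lit 489) (nat_lit 472) (nat_lit 179)) (XT.nd (nat_lit 78) (nat_lit 0) (nat_lit 0) (XT.lf (nat_lit 0) (nat_lit 2990954611) (nat_lit 0) (nat_lit 2990954611) (nat_lit 1748) (nat_lit 6895624567) (nat_lit 412) (nat_lit 5) (nat_lit 412) (nat_lit 3) (nat_lit 435) (nat_lit 3) (nat_lit 473) (nat_lit 473) (nat_lit 194)) (XT.lf (nat_lit 0) (nat_lit 12222579028) (nat_lit 1748) (nat_lit 7503711258) (nat_lit 1824) (nat_lit 6283511400) (nat_lit 412) (nat_lit 5) (nat_lit 435) (nat_lit 3) (nat_lit 436) (nat_lit 5) (nat_lit 474) (nat_lit 473) (nat_lit 193))))) (XT.nd (nat_lit 234) (nat_lit 0) (nat_lit 152) (XT.nd (nat_lit 78) (nat_lit 0) (nat_lit 76) (XT.lf (nat_lit 76) (nat_lit 5036217418) (nat_lit 0) (nat_lit 7520054591) (nat_lit 1824) (nat_lit 13711964218)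 (nat_lit 413) (nat_lit 5) (nat_lit 412) (nat_lit 5) (nat_lit 436) (nat_lit 5) (nat_lit 475) (nat_lit 473) (nat_lit 192)) (XT.nd (nat_lit 78) (nat_lit 0) (nat_lit 0) (XT.lf (nat_lit 0) (nat_lit 12976829552) (nat_lit 1748) (nat_lit 8635910197) (nat_lit 1824) (nat_lit 4917496773) (nat_lit 413) (nat_lit 5) (nat_lit 436) (nat_lit 5) (nat_lit 437) (nat_lit 5) (nat_lit 476) (nat_lit 473) (nat_lit 191)) (XT.lf (nat_lit 76) (nat_lit 4216250114) (nat_lit 0) (nat_lit 9264266239) (nat_lit 1824) (nat_lit 13315466968) (nat_lit 414) (nat_lit 5) (nat_lit 413) (nat_lit 5) (nat_lit 437) (nat_lit 5) (nat_lit 477) (nat_lit 473) (nat_lit 190)))) (XT.nd (nat_lit 78) (nat_lit 0) (nat_lit 0) (XT.lf (nat_lit 0) (nat_lit 14071828406) (nat_lit 1748) (nat_lit 9646795153) (nat_lit 1824) (nat_lit 3346871311) (nat_lit 414) (nat_lit 5) (nat_lit 437) (nat_lit 5) (nat_lit 438) (nat_lit 5) (nat_lit 478) (nat_lit 473) (nat_lit 189)) (XT.nd (nat_lit 78)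 (nat_lit 0) (nat_lit 76) (XT.lf (nat_lit 76) (nat_lit 3528338604) (nat_lit 0) (nat_lit 11228524478) (nat_lit 1824) (nat_lit 12581896464) (nat_lit 415) (nat_lit 5) (nat_lit 414) (nat_lit 5) (nat_lit 438) (nat_lit 5) (nat_lit 479) (nat_lit 473) (nat_lit 188)) (XT.lf (nat_lit 0) (nat_lit 15528254017) (nat_lit 1748) (nat_lit 10530126018) (nat_lit 1824) (nat_lit 1557657183) (nat_lit 415) (nat_lit 5) (nat_lit 438) (nat_lit 5) (nat_lit 439) (nat_lit 5) (nat_lit 480) (nat_lit 473) (nat_lit 187)))))) (XT.nd (nat_lit 390) (nat_lit 228) (nat_lit 0) (XT.nd (nat_lit 156) (nat_lit 0) (nat_lit 76) (XT.nd (nat_lit 78) (nat_lit 0) (nat_lit 0) (XT.lf (nat_lit 76) (nat_lit 2979083443) (nat_lit 0) (nat_lit 13427417034) (nat_lit 1824) (nat_lit 11490532206) (nat_lit 416) (nat_lit 5) (nat_lit 415) (nat_lit 5) (nat_lit 439) (nat_lit 5) (nat_lit 481) (nat_lit 473) (nat_lit 186)) (XT.lf (nat_lit 76) (nat_lit 16899823457) (nat_lit 0) (nat_lit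 470911110) (nat_lit 1824) (nat_lit 10811545815) (nat_lit 416) (nat_lit 5) (nat_lit 415) (nat_lit 5) (nat_lit 439) (nat_lit 5) (nat_lit 482) (nat_lit 473) (nat_lit 185))) (XT.nd (nat_lit 78) (nat_lit 0) (nat_lit 0) (XT.lf (nat_lit 76) (nat_lit 2575359278) (nat_lit 0) (nat_lit 15876171539) (nat_lit 1824) (nat_lit 10019757433) (nat_lit 417) (nat_lit 5) (nat_lit 416) (nat_lit 5) (nat_lit 440) (nat_lit 5) (nat_lit 483) (nat_lit 473) (nat_lit 184)) (XT.nd (nat_lit 78) (nat_lit 0) (nat_lit 76) (XT.lf (nat_lit 76) (nat_lit 16858702680) (nat_lit 0) (nat_lit 2771892793) (nat_lit 1824) (nat_lit 9133948502) (nat_lit 417) (nat_lit 5) (nat_lit 416) (nat_lit 5) (nat_lit 440) (nat_lit 5) (nat_lit 484) (nat_lit 473) (nat_lit 183)) (XT.lf (nat_lit 76) (nat_lit 2324319687) (nat_lit 0) (nat_lit 18590689326) (nat_lit 1824) (nat_lit 8147021183) (nat_lit 418) (nat_lit 5) (nat_lit 417) (nat_lit 5) (nat_lit 441) (nat_lit 5) (nat_lit 485) (nat_lit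 473) (nat_lit 182))))) (XT.nd (nat_lit 234) (nat_lit 380) (nat_lit 0) (XT.nd (nat_lit 78) (nat_lit 0) (nat_lit 76) (XT.lf (nat_lit 76) (nat_lit 16980453243) (nat_lit 0) (nat_lit 5340710579) (nat_lit 1824) (nat_lit 7042381980) (nat_lit 418) (nat_lit 5) (nat_lit 417) (nat_lit 5) (nat_lit 441) (nat_lit 5) (nat_lit 486) (nat_lit 473) (nat_lit 181)) (XT.nd (nat_lit 78) (nat_lit 0) (nat_lit 0) (XT.lf (nat_lit 76) (nat_lit 2233401975) (nat_lit 0) (nat_lit 21587580592) (nat_lit 1824) (nat_lit 5848799042) (nat_lit 419) (nat_lit 5) (nat_lit 418) (nat_lit 5) (nat_lit 442) (nat_lit 5) (nat_lit 487) (nat_lit 473) (nat_lit 180)) (XT.lf (nat_lit 76) (nat_lit 17272818463) (nat_lit 0) (nat_lit 8194210493) (nat_lit 1824) (nat_lit 4512789241) (nat_lit 419) (nat_lit 5) (nat_lit 418) (nat_lit 5) (nat_lit 442) (nat_lit 5) (nat_lit 488) (nat_lit 473) (nat_lit 179)))) (XT.nd (nat_lit 58188) (nat_lit 532) (nat_lit 0) (XT.lf (nat_lit 76) (nat_lit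 2310331912) (nat_lit 0) (nat_lit 24884201012) (nat_lit 1824) (nat_lit 3100552540) (nat_lit 420) (nat_lit 5) (nat_lit 419) (nat_lit 5) (nat_lit 443) (nat_lit 5) (nat_lit 489) (nat_lit 473) (nat_lit 178)) (XT.nd (nat_lit 78) (nat_lit 0) (nat_lit 0) (XT.lf (nat_lit 0) (nat_lit 3099348019) (nat_lit 0) (nat_lit 3099348019) (nat_lit 1748) (nat_lit 6934411554) (nat_lit 412) (nat_lit 5) (nat_lit 412) (nat_lit 3) (nat_lit 435) (nat_lit 3) (nat_lit 474) (nat_lit 474) (nat_lit 192)) (XT.lf (nat_lit 0) (nat_lit 12656899738) (nat_lit 1748) (nat_lit 7554047122) (nat_lit 1824) (nat_lit 6315187009) (nat_lit 412) (nat_lit 5) (nat_lit 435) (nat_lit 3) (nat_lit 436) (nat_lit 5) (nat_lit 475) (nat_lit 474) (nat_lit 191))))))) (XT.nd (nat_lit 858) (nat_lit 0) (nat_lit 0) (XT.nd (nat_lit 390) (nat_lit 0) (nat_lit 228) (XT.nd (nat_lit 156) (nat_lit 0) (nat_lit 76) (XT.nd (nat_lit 78) (nat_lit 0) (nat_lit 76) (XT.lf (nat_lit 76) (nat_lit 5236023955)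 (nat_lit 0) (nat_lit 7758163007) (nat_lit 1824) (nat_lit 13795613034) (nat_lit 413) (nat_lit 5) (nat_lit 412) (nat_lit 5) (nat_lit 436) (nat_lit 5) (nat_lit 476) (nat_lit 474) (nat_lit 190)) (XT.lf (nat_lit 0) (nat_lit 13418934827) (nat_lit 1748) (nat_lit 8707204285) (nat_lit 1824) (nat_lit 4930986879) (nat_lit 413) (nat_lit 5) (nat_lit 436) (nat_lit 5) (nat_lit 437) (nat_lit 5) (nat_lit 477) (nat_lit 474) (nat_lit 189))) (XT.nd (nat_lit 78) (nat_lit 0) (nat_lit 76) (XT.lf (nat_lit 76) (nat_lit 4401331967) (nat_lit 0) (nat_lit 9528437799) (nat_lit 1824) (nat_lit 13398477725) (nat_lit 414) (nat_lit 5) (nat_lit 413) (nat_lit 5) (nat_lit 437) (nat_lit 5) (nat_lit 478) (nat_lit 474) (nat_lit 188)) (XT.nd (nat_lit 78) (nat_lit 0) (nat_lit 0) (XT.lf (nat_lit 0) (nat_lit 14528883508) (nat_lit 1748) (nat_lit 9736863870) (nat_lit 1824) (nat_lit 3337483612) (nat_lit 414) (nat_lit 5) (nat_lit 437) (nat_lit 5) (nat_lit 438) (nat_lit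 5) (nat_lit 479) (nat_lit 474) (nat_lit 187)) (XT.lf (nat_lit 76) (nat_lit 3701095805) (nat_lit 0) (nat_lit 11523743061) (nat_lit 1824) (nat_lit 12657178899) (nat_lit 415) (nat_lit 5) (nat_lit 414) (nat_lit 5) (nat_lit 438) (nat_lit 5) (nat_lit 480) (nat_lit 474) (nat_lit 186))))) (XT.nd (nat_lit 234) (nat_lit 0) (nat_lit 76) (XT.nd (nat_lit 78) (nat_lit 0) (nat_lit 0) (XT.lf (nat_lit 0) (nat_lit 16007818928) (nat_lit 1748) (nat_lit 10636644131) (nat_lit 1824) (nat_lit 1520455885) (nat_lit 415) (nat_lit 5) (nat_lit 438) (nat_lit 5) (nat_lit 439) (nat_lit 5) (nat_lit 481) (nat_lit 474) (nat_lit 185)) (XT.nd (nat_lit 78) (nat_lit 0) (nat_lit 0) (XT.lf (nat_lit 76) (nat_lit 3142064753) (nat_lit 0) (nat_lit 13758923181) (nat_lit 1824) (nat_lit 11550600389) (nat_lit 416) (nat_lit 5) (nat_lit 415) (nat_lit 5) (nat_lit 439) (nat_lit 5) (nat_lit 482) (nat_lit 474) (nat_lit 184)) (XT.lf (nat_lit 76) (nat_lit 17339192124) (nat_lit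 0) (nat_lit 542052671) (nat_lit 1824) (nat_lit 10861362554) (nat_lit 416) (nat_lit 5) (nat_lit 415) (nat_lit 5) (nat_lit 439) (nat_lit 5) (nat_lit 483) (nat_lit 474) (nat_lit 183)))) (XT.nd (nat_lit 78) (nat_lit 0) (nat_lit 0) (XT.lf (nat_lit 76) (nat_lit 2731266659) (nat_lit 0) (nat_lit 16249477304) (nat_lit 1824) (nat_lit 10056710784) (nat_lit 417) (nat_lit 5) (nat_lit 416) (nat_lit 5) (nat_lit 440) (nat_lit 5) (nat_lit 484) (nat_lit 474) (nat_lit 182)) (XT.nd (nat_lit 78) (nat_lit 0) (nat_lit 76) (XT.lf (nat_lit 76) (nat_lit 17298229867) (nat_lit 0) (nat_lit 2882019212) (nat_lit 1824) (nat_lit 9156390415) (nat_lit 417) (nat_lit 5) (nat_lit 416) (nat_lit 5) (nat_lit 440) (nat_lit 5) (nat_lit 485) (nat_lit 474) (nat_lit 181)) (XT.lf (nat_lit 76) (nat_lit 2476012916) (nat_lit 0) (nat_lit 19011593685) (nat_lit 1824) (nat_lit 8152524794) (nat_lit 418) (nat_lit 5) (nat_lit 417) (nat_lit 5) (nat_lit 441) (nat_lit 5) (nat_lit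 486) (nat_lit 474) (nat_lit 180)))))) (XT.nd (nat_lit 58656) (nat_lit 0) (nat_lit 76) (XT.nd (nat_lit 58422) (nat_lit 380) (nat_lit 0) (XT.nd (nat_lit 78) (nat_lit 0) (nat_lit 76) (XT.lf (nat_lit 76) (nat_lit 17423206263) (nat_lit 0) (nat_lit 5495652803) (nat_lit 1824) (nat_lit 7028879803) (nat_lit 418) (nat_lit 5) (nat_lit 417) (nat_lit 5) (nat_lit 441) (nat_lit 5) (nat_lit 487) (nat_lit 474) (nat_lit 179)) (XT.lf (nat_lit 76) (nat_lit 2383903414) (nat_lit 0) (nat_lit 22062185442) (nat_lit 1824) (nat_lit 5814063269) (nat_lit 419) (nat_lit 5) (nat_lit 418) (nat_lit 5) (nat_lit 442) (nat_lit 5) (nat_lit 488) (nat_lit 474) (nat_lit 178))) (XT.nd (nat_lit 78) (nat_lit 0) (nat_lit 0) (XT.lf (nat_lit 0) (nat_lit 3208023096) (nat_lit 0) (nat_lit 3208023096) (nat_lit 1748) (nat_lit 6977823445) (nat_lit 412) (nat_lit 5) (nat_lit 412) (nat_lit 3) (nat_lit 435) (nat_lit 3) (nat_lit 475) (nat_lit 475) (nat_lit 190)) (XT.nd (nat_lit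 78) (nat_lit 0) (nat_lit 0) (XT.lf (nat_lit 0) (nat_lit 13092534012) (nat_lit 1748) (nat_lit 7609262664) (nat_lit 1824) (nat_lit 6351146057) (nat_lit 412) (nat_lit 5) (nat_lit 435) (nat_lit 3) (nat_lit 436) (nat_lit 5) (nat_lit 476) (nat_lit 475) (nat_lit 189)) (XT.lf (nat_lit 76) (nat_lit 5435979140) (nat_lit 0) (nat_lit 7997627809) (nat_lit 1824) (nat_lit 13888335688) (nat_lit 413) (nat_lit 5) (nat_lit 412) (nat_lit 5) (nat_lit 436) (nat_lit 5) (nat_lit 477) (nat_lit 475) (nat_lit 188))))) (XT.nd (nat_lit 234) (nat_lit 0) (nat_lit 76) (XT.nd (nat_lit 78) (nat_lit 0) (nat_lit 0) (XT.lf (nat_lit 0) (nat_lit 13862792844) (nat_lit 1748) (nat_lit 8783862677) (nat_lit 1824) (nat_lit 4948041997) (nat_lit 413) (nat_lit 5) (nat_lit 436) (nat_lit 5) (nat_lit 437) (nat_lit 5) (nat_lit 478) (nat_lit 475) (nat_lit 187)) (XT.nd (nat_lit 78) (nat_lit 0) (nat_lit 76) (XT.lf (nat_lit 76) (nat_lit 4586202947) (nat_lit 0) (nat_lit 9794829541)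 (nat_lit 1824) (nat_lit 13490266404) (nat_lit 414) (nat_lit 5) (nat_lit 413) (nat_lit 5) (nat_lit 437) (nat_lit 5) (nat_lit 479) (nat_lit 475) (nat_lit 186)) (XT.lf (nat_lit 0) (nat_lit 14988260230) (nat_lit 1748) (nat_lit 9832728419) (nat_lit 1824) (nat_lit 3330871956) (nat_lit 414) (nat_lit 5) (nat_lit 437) (nat_lit 5) (nat_lit 438) (nat_lit 5) (nat_lit 480) (nat_lit 475) (nat_lit 185)))) (XT.nd (nat_lit 78) (nat_lit 0) (nat_lit 76) (XT.lf (nat_lit 76) (nat_lit 3873339970) (nat_lit 0) (nat_lit 11822122664) (nat_lit 1824) (nat_lit 12740815082) (nat_lit 415) (nat_lit 5) (nat_lit 414) (nat_lit 5) (nat_lit 438) (nat_lit 5) (nat_lit 481) (nat_lit 475) (nat_lit 184)) (XT.nd (nat_lit 78) (nat_lit 0) (nat_lit 0) (XT.lf (nat_lit 0) (nat_lit 16490412668) (nat_lit 1748) (nat_lit 10749334331) (nat_lit 1824) (nat_lit 1485164847) (nat_lit 415) (nat_lit 5) (nat_lit 438) (nat_lit 5) (nat_lit 439) (nat_lit 5) (nat_lit 482) (nat_lit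 475) (nat_lit 183)) (XT.lf (nat_lit 76) (nat_lit 3304290556) (nat_lit 0) (nat_lit 14094614722) (nat_lit 1824) (nat_lit 11618461242) (nat_lit 416) (nat_lit 5) (nat_lit 415) (nat_lit 5) (nat_lit 439) (nat_lit 5) (nat_lit 483) (nat_lit 475) (nat_lit 182))))))))
noncomputable def xc255 : XT := (XT.nd (nat_lit 118638) (nat_lit 0) (nat_lit 0) (XT.nd (nat_lit 59280) (nat_lit 0) (nat_lit 0) (XT.nd (nat_lit 58812) (nat_lit 0) (nat_lit 0) (XT.nd (nat_lit 156) (nat_lit 228) (nat_lit 0) (XT.nd (nat_lit 78) (nat_lit 0) (nat_lit 76) (XT.lf (nat_lit 76) (nat_lit 17783411758) (nat_lit 0) (nat_lit 612220271) (nat_lit 1824) (nat_lit 10918637693) (nat_lit 416) (nat_lit 5) (nat_lit 415) (nat_lit 5) (nat_lit 439) (nat_lit 5) (nat_lit 484) (nat_lit 475) (nat_lit 181)) (XT.lf (nat_lit 76) (nat_lit 2886238201) (nat_lit 0) (nat_lit 16628083088) (nat_lit 1824) (nat_lit 10100749846) (nat_lit 417) (nat_lit 5) (nat_lit 416) (nat_lit 5) (nat_lit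 440) (nat_lit 5) (nat_lit 485) (nat_lit 475) (nat_lit 180))) (XT.nd (nat_lit 78) (nat_lit 304) (nat_lit 0) (XT.lf (nat_lit 76) (nat_lit 17742573100) (nat_lit 0) (nat_lit 2992224535) (nat_lit 1824) (nat_lit 9185503367) (nat_lit 417) (nat_lit 5) (nat_lit 416) (nat_lit 5) (nat_lit 440) (nat_lit 5) (nat_lit 486) (nat_lit 475) (nat_lit 179)) (XT.nd (nat_lit 58500) (nat_lit 380) (nat_lit 0) (XT.lf (nat_lit 76) (nat_lit 2626654699) (nat_lit 0) (nat_lit 19439009884) (nat_lit 1824) (nat_lit 8164251940) (nat_lit 418) (nat_lit 5) (nat_lit 417) (nat_lit 5) (nat_lit 441) (nat_lit 5) (nat_lit 487) (nat_lit 475) (nat_lit 178)) (XT.lf (nat_lit 0) (nat_lit 3317058718) (nat_lit 0) (nat_lit 3317058718) (nat_lit 1748) (nat_lit 7025803271) (nat_lit 412) (nat_lit 5) (nat_lit 412) (nat_lit 3) (nat_lit 435) (nat_lit 3) (nat_lit 476) (nat_lit 476) (nat_lit 188))))) (XT.nd (nat_lit 234) (nat_lit 0) (nat_lit 76) (XT.nd (nat_lit 78) (nat_lit 0)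 (nat_lit 0) (XT.lf (nat_lit 0) (nat_lit 13529794418) (nat_lit 1748) (nat_lit 7669305089) (nat_lit 1824) (nat_lit 6391332480) (nat_lit 412) (nat_lit 5) (nat_lit 435) (nat_lit 3) (nat_lit 436) (nat_lit 5) (nat_lit 477) (nat_lit 476) (nat_lit 187)) (XT.nd (nat_lit 78) (nat_lit 0) (nat_lit 76) (XT.lf (nat_lit 76) (nat_lit 5636235349) (nat_lit 0) (nat_lit 8238608375) (nat_lit 1824) (nat_lit 13990026270) (nat_lit 413) (nat_lit 5) (nat_lit 412) (nat_lit 5) (nat_lit 436) (nat_lit 5) (nat_lit 478) (nat_lit 476) (nat_lit 186)) (XT.lf (nat_lit 0) (nat_lit 14308713944) (nat_lit 1748) (nat_lit 8865839726) (nat_lit 1824) (nat_lit 4968605471) (nat_lit 413) (nat_lit 5) (nat_lit 436) (nat_lit 5) (nat_lit 437) (nat_lit 5) (nat_lit 479) (nat_lit 476) (nat_lit 185)))) (XT.nd (nat_lit 78) (nat_lit 0) (nat_lit 76) (XT.lf (nat_lit 76) (nat_lit 4771010762) (nat_lit 0) (nat_lit 10063604819) (nat_lit 1824) (nat_lit 13590732174) (nat_lit 414)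 (nat_lit 5) (nat_lit 413) (nat_lit 5) (nat_lit 437) (nat_lit 5) (nat_lit 480) (nat_lit 476) (nat_lit 184)) (XT.nd (nat_lit 78) (nat_lit 0) (nat_lit 0) (XT.lf (nat_lit 0) (nat_lit 15450269814) (nat_lit 1748) (nat_lit 9934349608) (nat_lit 1824) (nat_lit 3326976778) (nat_lit 414) (nat_lit 5) (nat_lit 437) (nat_lit 5) (nat_lit 438) (nat_lit 5) (nat_lit 481) (nat_lit 476) (nat_lit 183)) (XT.lf (nat_lit 76) (nat_lit 4045214929) (nat_lit 0) (nat_lit 12123833035) (nat_lit 1824) (nat_lit 12832706167) (nat_lit 415) (nat_lit 5) (nat_lit 414) (nat_lit 5) (nat_lit 438) (nat_lit 5) (nat_lit 482) (nat_lit 476) (nat_lit 182)))))) (XT.nd (nat_lit 58890) (nat_lit 228) (nat_lit 0) (XT.nd (nat_lit 156) (nat_lit 0) (nat_lit 0) (XT.nd (nat_lit 78) (nat_lit 0) (nat_lit 0) (XT.lf (nat_lit 0) (nat_lit 16976350641) (nat_lit 1748) (nat_lit 10868163114) (nat_lit 1824) (nat_lit 1451719205) (nat_lit 415) (nat_lit 5) (nat_lit 438) (nat_lit 5) (nat_lit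 439) (nat_lit 5) (nat_lit 483) (nat_lit 476) (nat_lit 181)) (XT.lf (nat_lit 76) (nat_lit 3465901653) (nat_lit 0) (nat_lit 14434670297) (nat_lit 1824) (nat_lit 11694014671) (nat_lit 416) (nat_lit 5) (nat_lit 415) (nat_lit 5) (nat_lit 439) (nat_lit 5) (nat_lit 484) (nat_lit 476) (nat_lit 180))) (XT.nd (nat_lit 78) (nat_lit 0) (nat_lit 76) (XT.lf (nat_lit 76) (nat_lit 18232732235) (nat_lit 0) (nat_lit 681487501) (nat_lit 1824) (nat_lit 10983269470) (nat_lit 416) (nat_lit 5) (nat_lit 415) (nat_lit 5) (nat_lit 439) (nat_lit 5) (nat_lit 485) (nat_lit 476) (nat_lit 179)) (XT.nd (nat_lit 78) (nat_lit 0) (nat_lit 0) (XT.lf (nat_lit 76) (nat_lit 3040412608) (nat_lit 0) (nat_lit 17012179003) (nat_lit 1824) (nat_lit 10151769886) (nat_lit 417) (nat_lit 5) (nat_lit 416) (nat_lit 5) (nat_lit 440) (nat_lit 5) (nat_lit 486) (nat_lit 476) (nat_lit 178)) (XT.lf (nat_lit 76) (nat_lit 18191983035) (nat_lit 0) (nat_lit 3102592804) (nat_lit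 1824) (nat_lit 9221179162) (nat_lit 417) (nat_lit 5) (nat_lit 416) (nat_lit 5) (nat_lit 440) (nat_lit 5) (nat_lit 487) (nat_lit 476) (nat_lit 177))))) (XT.nd (nat_lit 234) (nat_lit 0) (nat_lit 76) (XT.nd (nat_lit 78) (nat_lit 0) (nat_lit 0) (XT.lf (nat_lit 0) (nat_lit 3426532495) (nat_lit 0) (nat_lit 3426532495) (nat_lit 1748) (nat_lit 7078298725) (nat_lit 412) (nat_lit 5) (nat_lit 412) (nat_lit 3) (nat_lit 435) (nat_lit 3) (nat_lit 477) (nat_lit 477) (nat_lit 186)) (XT.nd (nat_lit 78) (nat_lit 0) (nat_lit 0) (XT.lf (nat_lit 0) (nat_lit 13968988660) (nat_lit 1748) (nat_lit 7734126379) (nat_lit 1824) (nat_lit 6435694598) (nat_lit 412) (nat_lit 5) (nat_lit 435) (nat_lit 3) (nat_lit 436) (nat_lit 5) (nat_lit 478) (nat_lit 477) (nat_lit 185)) (XT.lf (nat_lit 76) (nat_lit 5836942204) (nat_lit 0) (nat_lit 8481262136) (nat_lit 1824) (nat_lit 14100587914) (nat_lit 413) (nat_lit 5) (nat_lit 412) (nat_lit 5) (nat_lit 436) (nat_lit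 5) (nat_lit 479) (nat_lit 477) (nat_lit 184)))) (XT.nd (nat_lit 78) (nat_lit 0) (nat_lit 0) (XT.lf (nat_lit 0) (nat_lit 14757003990) (nat_lit 1748) (nat_lit 8953094808) (nat_lit 1824) (nat_lit 4992624480) (nat_lit 413) (nat_lit 5) (nat_lit 436) (nat_lit 5) (nat_lit 437) (nat_lit 5) (nat_lit 480) (nat_lit 477) (nat_lit 183)) (XT.nd (nat_lit 78) (nat_lit 0) (nat_lit 76) (XT.lf (nat_lit 76) (nat_lit 4955900178) (nat_lit 0) (nat_lit 10334925634) (nat_lit 1824) (nat_lit 13699782922) (nat_lit 414) (nat_lit 5) (nat_lit 413) (nat_lit 5) (nat_lit 437) (nat_lit 5) (nat_lit 481) (nat_lit 477) (nat_lit 182)) (XT.lf (nat_lit 0) (nat_lit 15915219443) (nat_lit 1748) (nat_lit 10041693483) (nat_lit 1824) (nat_lit 3325741786) (nat_lit 414) (nat_lit 5) (nat_lit 437) (nat_lit 5) (nat_lit 438) (nat_lit 5) (nat_lit 482) (nat_lit 477) (nat_lit 181))))))) (XT.nd (nat_lit 59514) (nat_lit 0) (nat_lit 0) (XT.nd (nat_lit 59046) (nat_lit 0) (nat_lit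 0) (XT.nd (nat_lit 156) (nat_lit 152) (nat_lit 0) (XT.nd (nat_lit 78) (nat_lit 0) (nat_lit 76) (XT.lf (nat_lit 76) (nat_lit 4216861404) (nat_lit 0) (nat_lit 12429043180) (nat_lit 1824) (nat_lit 12932761658) (nat_lit 415) (nat_lit 5) (nat_lit 414) (nat_lit 5) (nat_lit 438) (nat_lit 5) (nat_lit 483) (nat_lit 477) (nat_lit 180)) (XT.lf (nat_lit 0) (nat_lit 17465944667) (nat_lit 1748) (nat_lit 10993102401) (nat_lit 1824) (nat_lit 1420056801) (nat_lit 415) (nat_lit 5) (nat_lit 438) (nat_lit 5) (nat_lit 439) (nat_lit 5) (nat_lit 484) (nat_lit 477) (nat_lit 179))) (XT.nd (nat_lit 78) (nat_lit 228) (nat_lit 0) (XT.lf (nat_lit 76) (nat_lit 3627035609) (nat_lit 0) (nat_lit 14779268433) (nat_lit 1824) (nat_lit 11777168516) (nat_lit 416) (nat_lit 5) (nat_lit 415) (nat_lit 5) (nat_lit 439) (nat_lit 5) (nat_lit 485) (nat_lit 477) (nat_lit 178)) (XT.nd (nat_lit 58734) (nat_lit 228) (nat_lit 0) (XT.lf (nat_lit 76) (nat_lit 18687402490)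 (nat_lit 0) (nat_lit 749925810) (nat_lit 1824) (nat_lit 11055163832) (nat_lit 416) (nat_lit 5) (nat_lit 415) (nat_lit 5) (nat_lit 439) (nat_lit 5) (nat_lit 486) (nat_lit 477) (nat_lit 177)) (XT.lf (nat_lit 0) (nat_lit 3536520856) (nat_lit 0) (nat_lit 3536520856) (nat_lit 1748) (nat_lit 7135262037) (nat_lit 412) (nat_lit 5) (nat_lit 412) (nat_lit 3) (nat_lit 435) (nat_lit 3) (nat_lit 478) (nat_lit 478) (nat_lit 184))))) (XT.nd (nat_lit 234) (nat_lit 0) (nat_lit 76) (XT.nd (nat_lit 78) (nat_lit 0) (nat_lit 0) (XT.lf (nat_lit 0) (nat_lit 14410419906) (nat_lit 1748) (nat_lit 7803683176) (nat_lit 1824) (nat_lit 6484184989) (nat_lit 412) (nat_lit 5) (nat_lit 435) (nat_lit 3) (nat_lit 436) (nat_lit 5) (nat_lit 479) (nat_lit 478) (nat_lit 183)) (XT.nd (nat_lit 78) (nat_lit 0) (nat_lit 76) (XT.lf (nat_lit 76) (nat_lit 6038246742) (nat_lit 0) (nat_lit 8725744735) (nat_lit 1824) (nat_lit 14219932544) (nat_lit 413) (nat_lit 5) (nat_lit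 412) (nat_lit 5) (nat_lit 436) (nat_lit 5) (nat_lit 480) (nat_lit 478) (nat_lit 182)) (XT.lf (nat_lit 0) (nat_lit 15207964684) (nat_lit 1748) (nat_lit 9045592198) (nat_lit 1824) (nat_lit 5020049922) (nat_lit 413) (nat_lit 5) (nat_lit 436) (nat_lit 5) (nat_lit 437) (nat_lit 5) (nat_lit 481) (nat_lit 478) (nat_lit 181)))) (XT.nd (nat_lit 78) (nat_lit 0) (nat_lit 76) (XT.lf (nat_lit 76) (nat_lit 5141013185) (nat_lit 0) (nat_lit 10608952789) (nat_lit 1824) (nat_lit 13817335005) (nat_lit 414) (nat_lit 5) (nat_lit 413) (nat_lit 5) (nat_lit 437) (nat_lit 5) (nat_lit 482) (nat_lit 478) (nat_lit 180)) (XT.nd (nat_lit 78) (nat_lit 0) (nat_lit 0) (XT.lf (nat_lit 0) (nat_lit 16383412560) (nat_lit 1748) (nat_lit 10154731200) (nat_lit 1824) (nat_lit 3327113862) (nat_lit 414) (nat_lit 5) (nat_lit 437) (nat_lit 5) (nat_lit 438) (nat_lit 5) (nat_lit 483) (nat_lit 478) (nat_lit 179)) (XT.lf (nat_lit 76) (nat_lit 4388417178) (nat_lit 0)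 (nat_lit 12737921511) (nat_lit 1824) (nat_lit 13040899175) (nat_lit 415) (nat_lit 5) (nat_lit 414) (nat_lit 5) (nat_lit 438) (nat_lit 5) (nat_lit 484) (nat_lit 478) (nat_lit 178)))))) (XT.nd (nat_lit 59280) (nat_lit 0) (nat_lit 0) (XT.nd (nat_lit 59046) (nat_lit 0) (nat_lit 0) (XT.nd (nat_lit 58968) (nat_lit 228) (nat_lit 0) (XT.lf (nat_lit 0) (nat_lit 17959503289) (nat_lit 1748) (nat_lit 11124129410) (nat_lit 1824) (nat_lit 1390118079) (nat_lit 415) (nat_lit 5) (nat_lit 438) (nat_lit 5) (nat_lit 439) (nat_lit 5) (nat_lit 485) (nat_lit 478) (nat_lit 177)) (XT.lf (nat_lit 0) (nat_lit 14854387121) (nat_lit 1748) (nat_lit 7877936644) (nat_lit 1824) (nat_lit 6536760363) (nat_lit 412) (nat_lit 5) (nat_lit 435) (nat_lit 3) (nat_lit 436) (nat_lit 5) (nat_lit 480) (nat_lit 479) (nat_lit 181))) (XT.nd (nat_lit 78) (nat_lit 0) (nat_lit 76) (XT.lf (nat_lit 76) (nat_lit 6240293581) (nat_lit 0) (nat_lit 8972210184) (nat_lit 1824)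 (nat_lit 14347980629) (nat_lit 413) (nat_lit 5) (nat_lit 412) (nat_lit 5) (nat_lit 436) (nat_lit 5) (nat_lit 481) (nat_lit 479) (nat_lit 180)) (XT.nd (nat_lit 78) (nat_lit 0) (nat_lit 0) (XT.lf (nat_lit 0) (nat_lit 15661893888) (nat_lit 1748) (nat_lit 9143300942) (nat_lit 1824) (nat_lit 5050836304) (nat_lit 413) (nat_lit 5) (nat_lit 436) (nat_lit 5) (nat_lit 437) (nat_lit 5) (nat_lit 482) (nat_lit 479) (nat_lit 179)) (XT.lf (nat_lit 76) (nat_lit 5326489160) (nat_lit 0) (nat_lit 10885846033) (nat_lit 1824) (nat_lit 13943313024) (nat_lit 414) (nat_lit 5) (nat_lit 413) (nat_lit 5) (nat_lit 437) (nat_lit 5) (nat_lit 483) (nat_lit 479) (nat_lit 178))))) (XT.nd (nat_lit 59280) (nat_lit 0) (nat_lit 0) (XT.nd (nat_lit 59124) (nat_lit 152) (nat_lit 0) (XT.lf (nat_lit 0) (nat_lit 16855149177) (nat_lit 1748) (nat_lit 10273438903) (nat_lit 1824) (nat_lit 3331042953) (nat_lit 414) (nat_lit 5) (nat_lit 437) (nat_lit 5) (nat_lit 438)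 (nat_lit 5) (nat_lit 484) (nat_lit 479) (nat_lit 177)) (XT.nd (nat_lit 78) (nat_lit 0) (nat_lit 0) (XT.lf (nat_lit 0) (nat_lit 15301185376) (nat_lit 1748) (nat_lit 7956852359) (nat_lit 1824) (nat_lit 6593381455) (nat_lit 412) (nat_lit 5) (nat_lit 435) (nat_lit 3) (nat_lit 436) (nat_lit 5) (nat_lit 481) (nat_lit 480) (nat_lit 179)) (XT.lf (nat_lit 76) (nat_lit 6443225082) (nat_lit 0) (nat_lit 9220811014) (nat_lit 1824) (nat_lit 14484660958) (nat_lit 413) (nat_lit 5) (nat_lit 412) (nat_lit 5) (nat_lit 436) (nat_lit 5) (nat_lit 482) (nat_lit 480) (nat_lit 178)))) (XT.nd (nat_lit 59280) (nat_lit 76) (nat_lit 0) (XT.lf (nat_lit 0) (nat_lit 16119085927) (nat_lit 1748) (nat_lit 9246194737) (nat_lit 1824) (nat_lit 5084941633) (nat_lit 413) (nat_lit 5) (nat_lit 436) (nat_lit 5) (nat_lit 437) (nat_lit 5) (nat_lit 483) (nat_lit 480) (nat_lit 177)) (XT.nd (nat_lit 78) (nat_lit 0) (nat_lit 0) (XT.lf (nat_lit 0) (nat_lit 15751106154)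 (nat_lit 1748) (nat_lit 8040400193) (nat_lit 1824) (nat_lit 6654012911) (nat_lit 412) (nat_lit 5) (nat_lit 435) (nat_lit 3) (nat_lit 436) (nat_lit 5) (nat_lit 482) (nat_lit 481) (nat_lit 177)) (XT.lf (nat_lit 76) (nat_lit 6647181500) (nat_lit 0) (nat_lit 9471698424) (nat_lit 1824) (nat_lit 14629910422) (nat_lit 413) (nat_lit 5) (nat_lit 412) (nat_lit 5) (nat_lit 436) (nat_lit 5) (nat_lit 483) (nat_lit 481) (nat_lit 176))))))))

set_option maxRecDepth 10000000 in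
noncomputable def Tp : PT := (PT.nd (nat_lit 11707722) (PT.nd (nat_lit 10402158) (PT.nd (nat_lit 9157590) (PT.nd (nat_lit 8089848) (PT.nd (nat_lit 7259226) (PT.nd (nat_lit 6665958) pc0 pc1) (PT.nd (nat_lit 474396) pc2 pc3)) (PT.nd (nat_lit 593424) (PT.nd (nat_lit 355368) pc4 pc5) (PT.nd (nat_lit 295542) pc6 pc7))) (PT.nd (nat_lit 711360) (PT.nd (nat_lit 414180) (PT.nd (nat_lit 178386) pc8 pc9) (PT.nd (nat_lit 119886) pc10 pc11)) (PT.nd (nat_lit 238524) (PT.nd (nat_lit 119340) pc12 pc13) (PT.nd (nat_lit 176046) pc14 pc15)))) (PT.nd (nat_lit 770250) (PT.nd (nat_lit 415038) (PT.nd (nat_lit 179712) (PT.nd (nat_lit 118248) pc16 pc17) (PT.nd (nat_lit 117780) pc18 pc19)) (PT.nd (nat_lit 178074) (PT.nd (nat_lit 60996) pc20 pc21) (PT.nd (nat_lit 60762) pc22 pc23))) (PT.nd (nat_lit 296400) (PT.nd (nat_lit 120744) (PT.nd (nat_lit 60372) pc24 pc25) (PT.nd (nat_lit 60216) pc26 pc27)) (PT.nd (nat_lit 119652) (PT.nd (nat_lit 59826)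 pc28 pc29) (PT.nd (nat_lit 59670) pc30 pc31))))) (PT.nd (nat_lit 829218) (PT.nd (nat_lit 417924) (PT.nd (nat_lit 236808) (PT.nd (nat_lit 118638) (PT.nd (nat_lit 59358) pc32 pc33) (PT.nd (nat_lit 59124) pc34 pc35)) (PT.nd (nat_lit 117702) (PT.nd (nat_lit 58890) pc36 pc37) (PT.nd (nat_lit 58578) pc38 pc39))) (PT.nd (nat_lit 233220) (PT.nd (nat_lit 116922) (PT.nd (nat_lit 58500) pc40 pc41) (PT.nd (nat_lit 58188) pc42 pc43)) (PT.nd (nat_lit 62712) (PT.nd (nat_lit 4758) pc44 pc45) (PT.nd (nat_lit 57720) pc46 pc47)))) (PT.nd (nat_lit 413634) (PT.nd (nat_lit 176670) (PT.nd (nat_lit 62244) (PT.nd (nat_lit 4758) pc48 pc49) (PT.nd (nat_lit 57252) pc50 pc51)) (PT.nd (nat_lit 65364) (PT.nd (nat_lit 6084) pc52 pc53) (PT.nd (nat_lit 59748) pc54 pc55))) (PT.nd (nat_lit 363090) (PT.nd (nat_lit 177294) (PT.nd (nat_lit 65052) pc56 pc57) (PT.nd (nat_lit 67002) pc58 pc59)) (PT.nd (nat_lit 297180) (PT.nd (nat_lit 169416) pc60 pc61) (PT.nd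 (nat_lit 227604) pc62 pc63))))))

set_option maxRecDepth 10000000 in
noncomputable def Tx : XT := (XT.nd (nat_lit 18855954) (nat_lit 0) (nat_lit 988) XT.nil (XT.nd (nat_lit 9732996) (nat_lit 0) (nat_lit 0) (XT.nd (nat_lit 4504032) (nat_lit 0) (nat_lit 4636) (XT.nd (nat_lit 3080766) (nat_lit 0) (nat_lit 1976) (XT.nd (nat_lit 2134548) (nat_lit 0) (nat_lit 912) (XT.nd (nat_lit 1482000) (nat_lit 0) (nat_lit 380) (XT.nd (nat_lit 1008540) (nat_lit 0) (nat_lit 152) (XT.nd (nat_lit 710970) (nat_lit 0) (nat_lit 0) (XT.nd (nat_lit 474162) (nat_lit 0) (nat_lit 0) (XT.nd (nat_lit 296634) (nat_lit 0) (nat_lit 0) xc0 xc1) (XT.nd (nat_lit 118716) (nat_lit 0) (nat_lit 0) xc2 xc3)) (XT.nd (nat_lit 177606) (nat_lit 0) (nat_lit 152) (XT.nd (nat_lit 60450) (nat_lit 0) (nat_lit 152) xc4 xc5) (XT.nd (nat_lit 60060) (nat_lit 0) (nat_lit 0) xc6 xc7))) (XT.nd (nat_lit 237978) (nat_lit 0) (nat_lit 76) (XT.nd (nat_lit 119262) (nat_lit 0) (nat_lit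 0) (XT.nd (nat_lit 59670) (nat_lit 0) (nat_lit 0) xc8 xc9) (XT.nd (nat_lit 59436) (nat_lit 0) (nat_lit 76) xc10 xc11)) (XT.nd (nat_lit 118014) (nat_lit 0) (nat_lit 0) (XT.nd (nat_lit 59046) (nat_lit 0) (nat_lit 0) xc12 xc13) (XT.nd (nat_lit 58812) (nat_lit 0) (nat_lit 0) xc14 xc15)))) (XT.nd (nat_lit 355680) (nat_lit 0) (nat_lit 152) (XT.nd (nat_lit 178464) (nat_lit 0) (nat_lit 152) (XT.nd (nat_lit 116766) (nat_lit 0) (nat_lit 152) (XT.nd (nat_lit 58422) (nat_lit 0) (nat_lit 76) xc16 xc17) (XT.nd (nat_lit 3432) (nat_lit 760) (nat_lit 0) xc18 xc19)) (XT.nd (nat_lit 115986) (nat_lit 0) (nat_lit 0) (XT.nd (nat_lit 58032) (nat_lit 0) (nat_lit 0) xc20 xc21) (XT.nd (nat_lit 3432) (nat_lit 1520) (nat_lit 0) xc22 xc23))) (XT.nd (nat_lit 175812) (nat_lit 0) (nat_lit 228) (XT.nd (nat_lit 60996) (nat_lit 0) (nat_lit 152) (XT.nd (nat_lit 57564) (nat_lit 0) (nat_lit 1520) xc24 xc25) (XT.nd (nat_lit 57486) (nat_lit 0) (nat_lit 0)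 xc26 xc27)) (XT.nd (nat_lit 60606) (nat_lit 0) (nat_lit 152) (XT.nd (nat_lit 3432) (nat_lit 2204) (nat_lit 0) xc28 xc29) (XT.nd (nat_lit 3432) (nat_lit 152) (nat_lit 0) xc30 xc31))))) (XT.nd (nat_lit 530088) (nat_lit 0) (nat_lit 532) (XT.nd (nat_lit 292890) (nat_lit 0) (nat_lit 152) (XT.nd (nat_lit 120354) (nat_lit 0) (nat_lit 0) (XT.nd (nat_lit 60216) (nat_lit 0) (nat_lit 0) (XT.nd (nat_lit 56784) (nat_lit 0) (nat_lit 2736) xc32 xc33) (XT.nd (nat_lit 56706) (nat_lit 0) (nat_lit 1368) xc34 xc35)) (XT.nd (nat_lit 59904) (nat_lit 0) (nat_lit 152) (XT.nd (nat_lit 56472) (nat_lit 0) (nat_lit 532) xc36 xc37) (XT.nd (nat_lit 56394) (nat_lit 0) (nat_lit 0) xc38 xc39))) (XT.nd (nat_lit 118872) (nat_lit 0) (nat_lit 380) (XT.nd (nat_lit 59436) (nat_lit 0) (nat_lit 228) (XT.nd (nat_lit 3354) (nat_lit 6536) (nat_lit 0) xc40 xc41) (XT.nd (nat_lit 3432) (nat_lit 5928) (nat_lit 0) xc42 xc43)) (XT.nd (nat_lit 59202) (nat_lit 0) (nat_lit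 0) (XT.nd (nat_lit 3354) (nat_lit 5776) (nat_lit 0) xc44 xc45) (XT.nd (nat_lit 3432) (nat_lit 6156) (nat_lit 0) xc46 xc47)))) (XT.nd (nat_lit 183144) (nat_lit 0) (nat_lit 228) (XT.nd (nat_lit 65754) (nat_lit 0) (nat_lit 152) (XT.nd (nat_lit 58890) (nat_lit 0) (nat_lit 380) (XT.nd (nat_lit 3354) (nat_lit 7296) (nat_lit 0) xc48 xc49) (XT.nd (nat_lit 3432) (nat_lit 8208) (nat_lit 0) xc50 xc51)) (XT.nd (nat_lit 58734) (nat_lit 0) (nat_lit 0) (XT.nd (nat_lit 55302) (nat_lit 0) (nat_lit 1292) xc52 xc53) (XT.nd (nat_lit 55224) (nat_lit 0) (nat_lit 2584) xc54 xc55))) (XT.nd (nat_lit 116766) (nat_lit 0) (nat_lit 152) (XT.nd (nat_lit 58422) (nat_lit 0) (nat_lit 152) (XT.nd (nat_lit 54990) (nat_lit 0) (nat_lit 4864) xc56 xc57) (XT.nd (nat_lit 54912) (nat_lit 0) (nat_lit 8132) xc58 xc59)) (XT.nd (nat_lit 58188) (nat_lit 0) (nat_lit 0) (XT.nd (nat_lit 54756) (nat_lit 0) (nat_lit 12996) xc60 xc61) (XT.nd (nat_lit 3432) (nat_lit 2052)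 (nat_lit 0) xc62 xc63)))))) (XT.nd (nat_lit 711984) (nat_lit 0) (nat_lit 1140) (XT.nd (nat_lit 358488) (nat_lit 0) (nat_lit 684) (XT.nd (nat_lit 179868) (nat_lit 0) (nat_lit 304) (XT.nd (nat_lit 64662) (nat_lit 0) (nat_lit 0) (XT.nd (nat_lit 57798) (nat_lit 0) (nat_lit 1140) (XT.nd (nat_lit 3354) (nat_lit 5244) (nat_lit 0) xc64 xc65) (XT.nd (nat_lit 3432) (nat_lit 9576) (nat_lit 0) xc66 xc67)) (XT.nd (nat_lit 57642) (nat_lit 0) (nat_lit 76) (XT.nd (nat_lit 54210) (nat_lit 0) (nat_lit 4940) xc68 xc69) (XT.nd (nat_lit 54132) (nat_lit 0) (nat_lit 11096) xc70 xc71))) (XT.nd (nat_lit 114660) (nat_lit 0) (nat_lit 152) (XT.nd (nat_lit 57330) (nat_lit 0) (nat_lit 152) (XT.nd (nat_lit 3354) (nat_lit 1064) (nat_lit 0) xc72 xc73) (XT.nd (nat_lit 3432) (nat_lit 5852) (nat_lit 0) xc74 xc75)) (XT.nd (nat_lit 6786) (nat_lit 2508) (nat_lit 0) (XT.nd (nat_lit 3354) (nat_lit 12160) (nat_lit 0) xc76 xc77) (XT.nd (nat_lit 53742) (nat_lit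 0) (nat_lit 9272) xc78 xc79)))) (XT.nd (nat_lit 177294) (nat_lit 0) (nat_lit 228) (XT.nd (nat_lit 113802) (nat_lit 0) (nat_lit 76) (XT.nd (nat_lit 56940) (nat_lit 0) (nat_lit 76) (XT.nd (nat_lit 3354) (nat_lit 228) (nat_lit 0) xc80 xc81) (XT.nd (nat_lit 3432) (nat_lit 5548) (nat_lit 0) xc82 xc83)) (XT.nd (nat_lit 6786) (nat_lit 3116) (nat_lit 0) (XT.nd (nat_lit 3354) (nat_lit 13300) (nat_lit 0) xc84 xc85) (XT.nd (nat_lit 53274) (nat_lit 0) (nat_lit 12616) xc86 xc87))) (XT.nd (nat_lit 63336) (nat_lit 0) (nat_lit 0) (XT.nd (nat_lit 56472) (nat_lit 0) (nat_lit 684) (XT.nd (nat_lit 3354) (nat_lit 1748) (nat_lit 0) xc88 xc89) (XT.nd (nat_lit 3432) (nat_lit 9576) (nat_lit 0) xc90 xc91)) (XT.nd (nat_lit 56394) (nat_lit 0) (nat_lit 228) (XT.nd (nat_lit 52962) (nat_lit 0) (nat_lit 8740) xc92 xc93) (XT.nd (nat_lit 53040) (nat_lit 0) (nat_lit 23788) xc94 xc95))))) (XT.nd (nat_lit 354042) (nat_lit 0) (nat_lit 760) (XT.nd (nat_lit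 176592) (nat_lit 0) (nat_lit 228) (XT.nd (nat_lit 63336) (nat_lit 0) (nat_lit 228) (XT.nd (nat_lit 56472) (nat_lit 0) (nat_lit 5168) (XT.nd (nat_lit 3354) (nat_lit 6840) (nat_lit 0) xc96 xc97) (XT.nd (nat_lit 3432) (nat_lit 15124) (nat_lit 0) xc98 xc99)) (XT.nd (nat_lit 56550) (nat_lit 0) (nat_lit 0) (XT.nd (nat_lit 53118) (nat_lit 0) (nat_lit 16340) xc100 xc101) (XT.nd (nat_lit 3432) (nat_lit 3192) (nat_lit 0) xc102 xc103))) (XT.nd (nat_lit 63570) (nat_lit 0) (nat_lit 228) (XT.nd (nat_lit 6786) (nat_lit 1900) (nat_lit 0) (XT.nd (nat_lit 3354) (nat_lit 11248) (nat_lit 0) xc104 xc105) (XT.nd (nat_lit 53352) (nat_lit 0) (nat_lit 9728) xc106 xc107)) (XT.nd (nat_lit 56862) (nat_lit 0) (nat_lit 304) (XT.nd (nat_lit 53430) (nat_lit 0) (nat_lit 23180) xc108 xc109) (XT.nd (nat_lit 3432) (nat_lit 6004) (nat_lit 0) xc110 xc111)))) (XT.nd (nat_lit 178230) (nat_lit 0) (nat_lit 456) (XT.nd (nat_lit 63882) (nat_lit 0) (nat_lit 228)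 (XT.nd (nat_lit 6786) (nat_lit 3268) (nat_lit 0) (XT.nd (nat_lit 3354) (nat_lit 13224) (nat_lit 0) xc112 xc113) (XT.nd (nat_lit 53664) (nat_lit 0) (nat_lit 10792) xc114 xc115)) (XT.nd (nat_lit 57096) (nat_lit 0) (nat_lit 0) (XT.nd (nat_lit 3354) (nat_lit 532) (nat_lit 0) xc116 xc117) (XT.nd (nat_lit 3432) (nat_lit 6612) (nat_lit 0) xc118 xc119))) (XT.nd (nat_lit 64116) (nat_lit 0) (nat_lit 0) (XT.nd (nat_lit 6786) (nat_lit 2812) (nat_lit 0) (XT.nd (nat_lit 3354) (nat_lit 13224) (nat_lit 0) xc120 xc121) (XT.nd (nat_lit 53898) (nat_lit 0) (nat_lit 9728) xc122 xc123)) (XT.nd (nat_lit 57408) (nat_lit 0) (nat_lit 304) (XT.nd (nat_lit 53976) (nat_lit 0) (nat_lit 19760) xc124 xc125) (XT.nd (nat_lit 3432) (nat_lit 4408) (nat_lit 0) xc126 xc127))))))) (XT.nd (nat_lit 1667796) (nat_lit 0) (nat_lit 5168) (XT.nd (nat_lit 774462) (nat_lit 0) (nat_lit 2128) (XT.nd (nat_lit 359970) (nat_lit 0) (nat_lit 836) (XT.nd (nat_lit 179634)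 (nat_lit 0) (nat_lit 532) (XT.nd (nat_lit 64350) (nat_lit 0) (nat_lit 228) (XT.nd (nat_lit 6786) (nat_lit 608) (nat_lit 0) (XT.nd (nat_lit 3354) (nat_lit 11172) (nat_lit 0) xc128 xc129) (XT.nd (nat_lit 54132) (nat_lit 0) (nat_lit 5624) xc130 xc131)) (XT.nd (nat_lit 57564) (nat_lit 0) (nat_lit 0) (XT.nd (nat_lit 54132) (nat_lit 0) (nat_lit 12768) xc132 xc133) (XT.nd (nat_lit 3432) (nat_lit 988) (nat_lit 0) xc134 xc135))) (XT.nd (nat_lit 64584) (nat_lit 0) (nat_lit 76) (XT.nd (nat_lit 57720) (nat_lit 0) (nat_lit 684) (XT.nd (nat_lit 3354) (nat_lit 5548) (nat_lit 0) xc136 xc137) (XT.nd (nat_lit 3432) (nat_lit 11704) (nat_lit 0) xc138 xc139)) (XT.nd (nat_lit 57798) (nat_lit 0) (nat_lit 228) (XT.nd (nat_lit 54366) (nat_lit 0) (nat_lit 5016) xc140 xc141) (XT.nd (nat_lit 54522) (nat_lit 0) (nat_lit 10260) xc142 xc143)))) (XT.nd (nat_lit 181038) (nat_lit 0) (nat_lit 684) (XT.nd (nat_lit 116064) (nat_lit 0) (nat_lit 304) (XT.nd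 (nat_lit 57954) (nat_lit 0) (nat_lit 304) (XT.nd (nat_lit 54522) (nat_lit 0) (nat_lit 17784) xc144 xc145) (XT.nd (nat_lit 3432) (nat_lit 2888) (nat_lit 0) xc146 xc147)) (XT.nd (nat_lit 58110) (nat_lit 0) (nat_lit 988) (XT.nd (nat_lit 3354) (nat_lit 7752) (nat_lit 0) xc148 xc149) (XT.nd (nat_lit 3432) (nat_lit 12160) (nat_lit 0) xc150 xc151))) (XT.nd (nat_lit 116532) (nat_lit 0) (nat_lit 304) (XT.nd (nat_lit 58188) (nat_lit 0) (nat_lit 0) (XT.nd (nat_lit 54756) (nat_lit 0) (nat_lit 4104) xc152 xc153) (XT.nd (nat_lit 54912) (nat_lit 0) (nat_lit 7904) xc154 xc155)) (XT.nd (nat_lit 58422) (nat_lit 0) (nat_lit 0) (XT.nd (nat_lit 54990) (nat_lit 0) (nat_lit 11704) xc156 xc157) (XT.nd (nat_lit 55068) (nat_lit 0) (nat_lit 16720) xc158 xc159))))) (XT.nd (nat_lit 418236) (nat_lit 0) (nat_lit 1140) (XT.nd (nat_lit 234624) (nat_lit 0) (nat_lit 684) (XT.nd (nat_lit 117156) (nat_lit 0) (nat_lit 380) (XT.nd (nat_lit 58500) (nat_lit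 0) (nat_lit 0) (XT.nd (nat_lit 3354) (nat_lit 2280) (nat_lit 0) xc160 xc161) (XT.nd (nat_lit 3432) (nat_lit 4788) (nat_lit 0) xc162 xc163)) (XT.nd (nat_lit 58656) (nat_lit 0) (nat_lit 0) (XT.nd (nat_lit 3354) (nat_lit 7448) (nat_lit 0) xc164 xc165) (XT.nd (nat_lit 3432) (nat_lit 10412) (nat_lit 0) xc166 xc167))) (XT.nd (nat_lit 65676) (nat_lit 0) (nat_lit 0) (XT.nd (nat_lit 6786) (nat_lit 760) (nat_lit 0) (XT.nd (nat_lit 3354) (nat_lit 12692) (nat_lit 0) xc168 xc169) (XT.nd (nat_lit 55458) (nat_lit 0) (nat_lit 2356) xc170 xc171)) (XT.nd (nat_lit 58890) (nat_lit 0) (nat_lit 380) (XT.nd (nat_lit 55458) (nat_lit 0) (nat_lit 3724) xc172 xc173) (XT.nd (nat_lit 55614) (nat_lit 0) (nat_lit 4712) xc174 xc175)))) (XT.nd (nat_lit 236808) (nat_lit 0) (nat_lit 684) (XT.nd (nat_lit 118248) (nat_lit 0) (nat_lit 304) (XT.nd (nat_lit 59046) (nat_lit 0) (nat_lit 304) (XT.nd (nat_lit 55614) (nat_lit 0) (nat_lit 6156) xc176 xc177) (XT.nd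 (nat_lit 55770) (nat_lit 0) (nat_lit 6916) xc178 xc179)) (XT.nd (nat_lit 59202) (nat_lit 0) (nat_lit 380) (XT.nd (nat_lit 55770) (nat_lit 0) (nat_lit 7524) xc180 xc181) (XT.nd (nat_lit 55926) (nat_lit 0) (nat_lit 7752) xc182 xc183))) (XT.nd (nat_lit 118872) (nat_lit 0) (nat_lit 836) (XT.nd (nat_lit 59358) (nat_lit 0) (nat_lit 456) (XT.nd (nat_lit 55926) (nat_lit 0) (nat_lit 7752) xc184 xc185) (XT.nd (nat_lit 56082) (nat_lit 0) (nat_lit 7296) xc186 xc187)) (XT.nd (nat_lit 59670) (nat_lit 0) (nat_lit 0) (XT.nd (nat_lit 56238) (nat_lit 0) (nat_lit 5700) xc188 xc189) (XT.nd (nat_lit 56316) (nat_lit 0) (nat_lit 4560) xc190 xc191)))))) (XT.nd (nat_lit 1183962) (nat_lit 0) (nat_lit 5320) (XT.nd (nat_lit 534066) (nat_lit 0) (nat_lit 2204) (XT.nd (nat_lit 292890) (nat_lit 0) (nat_lit 836) (XT.nd (nat_lit 119652) (nat_lit 0) (nat_lit 456) (XT.nd (nat_lit 59748) (nat_lit 0) (nat_lit 0) (XT.nd (nat_lit 56316) (nat_lit 0) (nat_lit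 2736) xc192 xc193) (XT.nd (nat_lit 56472) (nat_lit 0) (nat_lit 1292) xc194 xc195)) (XT.nd (nat_lit 113100) (nat_lit 0) (nat_lit 380) (XT.nd (nat_lit 56472) (nat_lit 0) (nat_lit 0) xc196 xc197) (XT.nd (nat_lit 3432) (nat_lit 9500) (nat_lit 0) xc198 xc199))) (XT.nd (nat_lit 120432) (nat_lit 0) (nat_lit 532) (XT.nd (nat_lit 60138) (nat_lit 0) (nat_lit 456) (XT.nd (nat_lit 3354) (nat_lit 6840) (nat_lit 0) xc200 xc201) (XT.nd (nat_lit 3432) (nat_lit 3496) (nat_lit 0) xc202 xc203)) (XT.nd (nat_lit 60294) (nat_lit 0) (nat_lit 380) (XT.nd (nat_lit 3354) (nat_lit 380) (nat_lit 0) xc204 xc205) (XT.nd (nat_lit 57018) (nat_lit 0) (nat_lit 5320) xc206 xc207)))) (XT.nd (nat_lit 296556) (nat_lit 0) (nat_lit 1444) (XT.nd (nat_lit 175032) (nat_lit 0) (nat_lit 456) (XT.nd (nat_lit 60528) (nat_lit 0) (nat_lit 0) (XT.nd (nat_lit 57096) (nat_lit 0) (nat_lit 988) xc208 xc209) (XT.nd (nat_lit 57252) (nat_lit 456) (nat_lit 0) xc210 xc211))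 (XT.nd (nat_lit 60684) (nat_lit 0) (nat_lit 0) (XT.nd (nat_lit 3354) (nat_lit 4408) (nat_lit 0) xc212 xc213) (XT.nd (nat_lit 57408) (nat_lit 0) (nat_lit 7676) xc214 xc215))) (XT.nd (nat_lit 176280) (nat_lit 0) (nat_lit 532) (XT.nd (nat_lit 115128) (nat_lit 0) (nat_lit 0) (XT.nd (nat_lit 57486) (nat_lit 0) (nat_lit 0) xc216 xc217) (XT.nd (nat_lit 3432) (nat_lit 8208) (nat_lit 0) xc218 xc219)) (XT.nd (nat_lit 61230) (nat_lit 0) (nat_lit 0) (XT.nd (nat_lit 57798) (nat_lit 0) (nat_lit 6840) xc220 xc221) (XT.nd (nat_lit 57876) (nat_lit 0) (nat_lit 608) xc222 xc223))))) (XT.nd (nat_lit 716274) (nat_lit 0) (nat_lit 5016) (XT.nd (nat_lit 356382) (nat_lit 0) (nat_lit 2356) (XT.nd (nat_lit 177840) (nat_lit 0) (nat_lit 1140) (XT.nd (nat_lit 61464) (nat_lit 0) (nat_lit 0) (XT.nd (nat_lit 3354) (nat_lit 4332) (nat_lit 0) xc224 xc225) (XT.nd (nat_lit 58188) (nat_lit 0) (nat_lit 532) xc226 xc227)) (XT.nd (nat_lit 61620) (nat_lit 0)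 (nat_lit 608) (XT.nd (nat_lit 3354) (nat_lit 5396) (nat_lit 0) xc228 xc229) (XT.nd (nat_lit 58422) (nat_lit 0) (nat_lit 0) xc230 xc231))) (XT.nd (nat_lit 179478) (nat_lit 0) (nat_lit 1292) (XT.nd (nat_lit 61932) (nat_lit 0) (nat_lit 608) (XT.nd (nat_lit 3354) (nat_lit 3344) (nat_lit 0) xc232 xc233) (XT.nd (nat_lit 58734) (nat_lit 0) (nat_lit 0) xc234 xc235)) (XT.nd (nat_lit 117858) (nat_lit 0) (nat_lit 684) (XT.nd (nat_lit 58890) (nat_lit 0) (nat_lit 76) xc236 xc237) (XT.nd (nat_lit 59124) (nat_lit 0) (nat_lit 1368) xc238 xc239)))) (XT.nd (nat_lit 533286) (nat_lit 0) (nat_lit 5396) (XT.nd (nat_lit 293670) (nat_lit 0) (nat_lit 2964) (XT.nd (nat_lit 118482) (nat_lit 0) (nat_lit 1444) (XT.nd (nat_lit 59124) (nat_lit 0) (nat_lit 684) xc240 xc241) (XT.nd (nat_lit 59436) (nat_lit 0) (nat_lit 0) xc242 xc243)) (XT.nd (nat_lit 119574) (nat_lit 0) (nat_lit 760) (XT.nd (nat_lit 59670) (nat_lit 0) (nat_lit 760) xc244 xc245) (XT.nd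 (nat_lit 59982) (nat_lit 0) (nat_lit 836) xc246 xc247))) (XT.nd (nat_lit 356070) (nat_lit 0) (nat_lit 3572) (XT.nd (nat_lit 177450) (nat_lit 0) (nat_lit 1748) (XT.nd (nat_lit 117000) (nat_lit 0) (nat_lit 912) xc248 xc249) (XT.nd (nat_lit 60528) (nat_lit 0) (nat_lit 912) xc250 xc251)) (XT.nd (nat_lit 237588) (nat_lit 0) (nat_lit 1216) (XT.nd (nat_lit 118560) (nat_lit 0) (nat_lit 0) xc252 xc253) (XT.nd (nat_lit 177840) (nat_lit 0) (nat_lit 0) xc254 xc255)))))))) XT.nil))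

set_option maxRecDepth 10000000 in
noncomputable def Te : XT := XT.nil

set_option maxRecDepth 10000000 in
noncomputable def Tz : ZL := (ZL.cons (nat_lit 76) (nat_lit 6) (nat_lit 267542146585537258900) (ZL.cons (nat_lit 152) (nat_lit 3) (nat_lit 132489480147554474846) (ZL.cons (nat_lit 684) (nat_lit 3) (nat_lit 96442060408037726015) (ZL.cons (nat_lit 836) (nat_lit 6) (nat_lit 191164025573111207700) (ZL.cons (nat_lit 912) (nat_lit 6) (nat_lit 189482200709032242608) (ZL.cons (nat_lit 988) (nat_lit 3) (nat_lit 94723112165470437114) (ZL.cons (nat_lit 1140) (nat_lit 6) (nat_lit 187766739347671698212) (ZL.cons (nat_lit 1216) (nat_lit 6) (nat_lit 186124912001741613306) (ZL.cons (nat_lit 1292) (nat_lit 3) (nat_lit 93044820521414253527) (ZL.cons (nat_lit 1368) (nat_lit 6) (nat_lit 184520098439289470460) (ZL.cons (nat_lit 1444) (nat_lit 6) (nat_lit 184450248108892926704) (ZL.cons (nat_lit 1520) (nat_lit 6) (nat_lit 182847917646675178504)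 (ZL.cons (nat_lit 1596) (nat_lit 3) (nat_lit 91406669137595870500) (ZL.cons (nat_lit 1672) (nat_lit 6) (nat_lit 181282021291288118240) (ZL.cons (nat_lit 1748) (nat_lit 6) (nat_lit 181213540575213075340) (ZL.cons (nat_lit 1900) (nat_lit 6) (nat_lit 179650227637309879264) (ZL.cons (nat_lit 1976) (nat_lit 3) (nat_lit 89808163146359136934) (ZL.cons (nat_lit 2052) (nat_lit 6) (nat_lit 178122786397584935832) (ZL.cons (nat_lit 2128) (nat_lit 6) (nat_lit 178055648440648619266) (ZL.cons (nat_lit 2204) (nat_lit 6) (nat_lit 176630617859473647030) (ZL.cons (nat_lit 2280) (nat_lit 6) (nat_lit 176530894988473888138) (ZL.cons (nat_lit 2356) (nat_lit 3) (nat_lit 88248829188064588484) (ZL.cons (nat_lit 2432) (nat_lit 6) (nat_lit 175041467993663815886) (ZL.cons (nat_lit 2508) (nat_lit 6) (nat_lit 174975646467255662390) (ZL.cons (nat_lit 2584) (nat_lit 6) (nat_lit 173586783367200829932) (ZL.cons (nat_lit 2660) (nat_lit 6) (nat_lit 173489015846612831018)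 (ZL.cons (nat_lit 2736) (nat_lit 3) (nat_lit 86728215466274694346) (ZL.cons (nat_lit 2812) (nat_lit 6) (nat_lit 172037183521800430762) (ZL.cons (nat_lit 2888) (nat_lit 6) (nat_lit 171972652613557143018) (ZL.cons (nat_lit 2964) (nat_lit 6) (nat_lit 170619580146808731264) (ZL.cons (nat_lit 3040) (nat_lit 6) (nat_lit 170523729636428340172) (ZL.cons (nat_lit 3116) (nat_lit 3) (nat_lit 85245891821124247377) (ZL.cons (nat_lit 3268) (nat_lit 6) (nat_lit 169109093796073910036) (ZL.cons (nat_lit 3344) (nat_lit 6) (nat_lit 169045828199756961270) (ZL.cons (nat_lit 3420) (nat_lit 6) (nat_lit 167728190333340772442) (ZL.cons (nat_lit 3496) (nat_lit 6) (nat_lit 167634219244732545880) (ZL.cons (nat_lit 3572) (nat_lit 3) (nat_lit 83801449821297721266) (ZL.cons (nat_lit 3648) (nat_lit 6) (nat_lit 166380477717459228120) (ZL.cons (nat_lit 3724) (nat_lit 6) (nat_lit 166256403205036023330) (ZL.cons (nat_lit 3800) (nat_lit 6) (nat_lit 166194378110607642186)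 (ZL.cons (nat_lit 3876) (nat_lit 6) (nat_lit 164911839760651826350) (ZL.cons (nat_lit 3952) (nat_lit 6) (nat_lit 164819711242408466978) (ZL.cons (nat_lit 4028) (nat_lit 3) (nat_lit 82394502875058594591) (ZL.cons (nat_lit 4104) (nat_lit 6) (nat_lit 163600001631797843492) (ZL.cons (nat_lit 4180) (nat_lit 6) (nat_lit 163478359952951564286) (ZL.cons (nat_lit 4256) (nat_lit 6) (nat_lit 163417551036845308262) (ZL.cons (nat_lit 4332) (nat_lit 6) (nat_lit 162169798222123421606) (ZL.cons (nat_lit 4408) (nat_lit 6) (nat_lit 162079476145414245748) (ZL.cons (nat_lit 4484) (nat_lit 3) (nat_lit 81024686360799633760) (ZL.cons (nat_lit 4560) (nat_lit 6) (nat_lit 160893512888460969072) (ZL.cons (nat_lit 4636) (nat_lit 6) (nat_lit 160774256340572460046) (ZL.cons (nat_lit 4712) (nat_lit 6) (nat_lit 160714639756154561984) (ZL.cons (nat_lit 4788) (nat_lit 6) (nat_lit 159649003447911790042) (ZL.cons (nat_lit 4864) (nat_lit 6) (nat_lit 159501379771416091632)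 (ZL.cons (nat_lit 4940) (nat_lit 6) (nat_lit 159412828715818860402) (ZL.cons (nat_lit 5016) (nat_lit 3) (nat_lit 79691657777607970284) (ZL.cons (nat_lit 5092) (nat_lit 6) (nat_lit 158260347270663118404) (ZL.cons (nat_lit 5168) (nat_lit 6) (nat_lit 158143429086458697790) (ZL.cons (nat_lit 5244) (nat_lit 6) (nat_lit 158084981454676444788) (ZL.cons (nat_lit 5320) (nat_lit 6) (nat_lit 157050672158901480366) (ZL.cons (nat_lit 5396) (nat_lit 6) (nat_lit 156905943064297854478) (ZL.cons (nat_lit 5472) (nat_lit 6) (nat_lit 156819128303908412092) (ZL.cons (nat_lit 5548) (nat_lit 3) (nat_lit 78395096916364539462) (ZL.cons (nat_lit 5624) (nat_lit 6) (nat_lit 155699885360700188954) (ZL.cons (nat_lit 5700) (nat_lit 6) (nat_lit 155585259689911541294) (ZL.cons (nat_lit 5776) (nat_lit 6) (nat_lit 155527958090125018742) (ZL.cons (nat_lit 5852) (nat_lit 6) (nat_lit 154524783011860368808) (ZL.cons (nat_lit 5928) (nat_lit 6) (nat_lit 154382891742641127738)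 (ZL.cons (nat_lit 6004) (nat_lit 6) (nat_lit 154297779232455399912) (ZL.cons (nat_lit 6080) (nat_lit 3) (nat_lit 77134706051924105264) (ZL.cons (nat_lit 6156) (nat_lit 6) (nat_lit 153380175193327868614) (ZL.cons (nat_lit 6232) (nat_lit 6) (nat_lit 153211552945255104596) (ZL.cons (nat_lit 6308) (nat_lit 6) (nat_lit 153099174836638783360) (ZL.cons (nat_lit 6384) (nat_lit 6) (nat_lit 153042996797632388702) (ZL.cons (nat_lit 6460) (nat_lit 6) (nat_lit 152070783949205477348) (ZL.cons (nat_lit 6536) (nat_lit 6) (nat_lit 151931674861735633164) (ZL.cons (nat_lit 6612) (nat_lit 6) (nat_lit 151848231224298645096) (ZL.cons (nat_lit 6688) (nat_lit 3) (nat_lit 75910210156949719911) (ZL.cons (nat_lit 6764) (nat_lit 6) (nat_lit 150960137394101638298) (ZL.cons (nat_lit 6840) (nat_lit 6) (nat_lit 150794821464618536320) (ZL.cons (nat_lit 6916) (nat_lit 6) (nat_lit 150684646848328025304) (ZL.cons (nat_lit 6992) (nat_lit 6) (nat_lit 150629570339498226620)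 (ZL.cons (nat_lit 7144) (nat_lit 6) (nat_lit 149688168820425878282) (ZL.cons (nat_lit 7220) (nat_lit 6) (nat_lit 149551787362122109472) (ZL.cons (nat_lit 7296) (nat_lit 6) (nat_lit 149469979874438787840) (ZL.cons (nat_lit 7372) (nat_lit 3) (nat_lit 74721357138004097215) (ZL.cons (nat_lit 7448) (nat_lit 6) (nat_lit 148611282947728563890) (ZL.cons (nat_lit 7524) (nat_lit 6) (nat_lit 148449208507058856068) (ZL.cons (nat_lit 7600) (nat_lit 6) (nat_lit 148341194177362276642) (ZL.cons (nat_lit 7676) (nat_lit 6) (nat_lit 148287197600078160284) (ZL.cons (nat_lit 7752) (nat_lit 6) (nat_lit 147563741538341221648) (ZL.cons (nat_lit 7828) (nat_lit 6) (nat_lit 147376477899273534400) (ZL.cons (nat_lit 7904) (nat_lit 6) (nat_lit 147242770587211015962) (ZL.cons (nat_lit 7980) (nat_lit 6) (nat_lit 147162567167913641810) (ZL.cons (nat_lit 8056) (nat_lit 3) (nat_lit 73567918094530059431) (ZL.cons (nat_lit 8132) (nat_lit 6) (nat_lit 146333174860096424738)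 (ZL.cons (nat_lit 8208) (nat_lit 6) (nat_lit 146174278349635926874) (ZL.cons (nat_lit 8284) (nat_lit 6) (nat_lit 146068381947972613710) (ZL.cons (nat_lit 8360) (nat_lit 6) (nat_lit 146015444127105832968) (ZL.cons (nat_lit 8436) (nat_lit 6) (nat_lit 145318890251080790956) (ZL.cons (nat_lit 8512) (nat_lit 6) (nat_lit 145135298448073254442) (ZL.cons (nat_lit 8588) (nat_lit 6) (nat_lit 145004212848011961852) (ZL.cons (nat_lit 8664) (nat_lit 6) (nat_lit 144925582044779242098) (ZL.cons (nat_lit 8740) (nat_lit 3) (nat_lit 72449687601382992152) (ZL.cons (nat_lit 8816) (nat_lit 6) (nat_lit 144333226313556430850) (ZL.cons (nat_lit 8892) (nat_lit 6) (nat_lit 144125423439424346636) (ZL.cons (nat_lit 8968) (nat_lit 6) (nat_lit 143969642546816015396) (ZL.cons (nat_lit 9044) (nat_lit 6) (nat_lit 143865822545185316216) (ZL.cons (nat_lit 9120) (nat_lit 6) (nat_lit 143813922720806119410) (ZL.cons (nat_lit 9196) (nat_lit 6) (nat_lit 143144257294274047028)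 (ZL.cons (nat_lit 9272) (nat_lit 6) (nat_lit 142964265330541168088) (ZL.cons (nat_lit 9348) (nat_lit 6) (nat_lit 142835750036363430258) (ZL.cons (nat_lit 9424) (nat_lit 6) (nat_lit 142758661013586254026) (ZL.cons (nat_lit 9500) (nat_lit 3) (nat_lit 71366484015610157507) (ZL.cons (nat_lit 9576) (nat_lit 6) (nat_lit 142191415241585041764) (ZL.cons (nat_lit 9652) (nat_lit 6) (nat_lit 141987686933612410182) (ZL.cons (nat_lit 9728) (nat_lit 6) (nat_lit 141834960568310124652) (ZL.cons (nat_lit 9804) (nat_lit 6) (nat_lit 141733176252985909770) (ZL.cons (nat_lit 9880) (nat_lit 6) (nat_lit 141682294072221991332) (ZL.cons (nat_lit 10032) (nat_lit 6) (nat_lit 141039524384109377460) (ZL.cons (nat_lit 10108) (nat_lit 6) (nat_lit 140863061674567339288) (ZL.cons (nat_lit 10184) (nat_lit 6) (nat_lit 140737066288118576706) (ZL.cons (nat_lit 10260) (nat_lit 6) (nat_lit 140661488814807619618) (ZL.cons (nat_lit 10336) (nat_lit 3) (nat_lit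 70318149808204820096) (ZL.cons (nat_lit 10412) (nat_lit 6) (nat_lit 140119405853581284420) (ZL.cons (nat_lit 10488) (nat_lit 6) (nat_lit 139919672218313998556) (ZL.cons (nat_lit 10564) (nat_lit 6) (nat_lit 139769940487625483332) (ZL.cons (nat_lit 10640) (nat_lit 6) (nat_lit 139670151943189978544) (ZL.cons (nat_lit 10716) (nat_lit 6) (nat_lit 139620267452244960468) (ZL.cons (nat_lit 10792) (nat_lit 6) (nat_lit 139226970511231845532) (ZL.cons (nat_lit 10868) (nat_lit 6) (nat_lit 139004422242900591344) (ZL.cons (nat_lit 10944) (nat_lit 6) (nat_lit 138831419586486828428) (ZL.cons (nat_lit 11020) (nat_lit 6) (nat_lit 138707894697811570998) (ZL.cons (nat_lit 11096) (nat_lit 6) (nat_lit 138633799135742005222) (ZL.cons (nat_lit 11172) (nat_lit 3) (nat_lit 69304551921597483286) (ZL.cons (nat_lit 11248) (nat_lit 6) (nat_lit 138116952826768132004) (ZL.cons (nat_lit 11324) (nat_lit 6) (nat_lit 137921135537290400764) (ZL.cons (nat_lit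 11400) (nat_lit 6) (nat_lit 137774339722889895642) (ZL.cons (nat_lit 11476) (nat_lit 6) (nat_lit 137676507816580577224) (ZL.cons (nat_lit 11552) (nat_lit 6) (nat_lit 137627601452908990874) (ZL.cons (nat_lit 11628) (nat_lit 6) (nat_lit 137256915942694607806) (ZL.cons (nat_lit 11704) (nat_lit 6) (nat_lit 137038731365899260562) (ZL.cons (nat_lit 11780) (nat_lit 6) (nat_lit 136869120918434787116) (ZL.cons (nat_lit 11856) (nat_lit 6) (nat_lit 136748018086400221006) (ZL.cons (nat_lit 11932) (nat_lit 6) (nat_lit 136675375378488882014) (ZL.cons (nat_lit 12008) (nat_lit 3) (nat_lit 68325582153682167157) (ZL.cons (nat_lit 12084) (nat_lit 6) (nat_lit 136423974321313715408) (ZL.cons (nat_lit 12160) (nat_lit 6) (nat_lit 136183861031461881884) (ZL.cons (nat_lit 12236) (nat_lit 6) (nat_lit 135991883296679792434) (ZL.cons (nat_lit 12312) (nat_lit 6) (nat_lit 135847965831581258000) (ZL.cons (nat_lit 12388) (nat_lit 6) (nat_lit 135752052197944671316)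 (ZL.cons (nat_lit 12464) (nat_lit 6) (nat_lit 135704104782580370974) (ZL.cons (nat_lit 12540) (nat_lit 6) (nat_lit 135356189290709857916) (ZL.cons (nat_lit 12616) (nat_lit 6) (nat_lit 135142282842871282186) (ZL.cons (nat_lit 12692) (nat_lit 6) (nat_lit 134975998090455131748) (ZL.cons (nat_lit 12768) (nat_lit 6) (nat_lit 134857269823754576740) (ZL.cons (nat_lit 12844) (nat_lit 6) (nat_lit 134786051482665028706) (ZL.cons (nat_lit 12920) (nat_lit 3) (nat_lit 67381157569212638032) (ZL.cons (nat_lit 12996) (nat_lit 6) (nat_lit 134555391566489952570) (ZL.cons (nat_lit 13072) (nat_lit 6) (nat_lit 134319986380360704018) (ZL.cons (nat_lit 13148) (nat_lit 6) (nat_lit 134131772914888067300) (ZL.cons (nat_lit 13224) (nat_lit 6) (nat_lit 133990677360869896288) (ZL.cons (nat_lit 13300) (nat_lit 6) (nat_lit 133896644386716379930) (ZL.cons (nat_lit 13376) (nat_lit 6) (nat_lit 133849637116751379596) (ZL.cons (nat_lit 13452) (nat_lit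 6) (nat_lit 133781153820478942352) (ZL.cons (nat_lit 13528) (nat_lit 6) (nat_lit 133524671439947073388) (ZL.cons (nat_lit 13604) (nat_lit 6) (nat_lit 133314959236183763848) (ZL.cons (nat_lit 13680) (nat_lit 6) (nat_lit 133151934969109106556) (ZL.cons (nat_lit 13756) (nat_lit 6) (nat_lit 133035534707637974194) (ZL.cons (nat_lit 13832) (nat_lit 6) (nat_lit 132965712804609005536) (ZL.cons (nat_lit 13908) (nat_lit 3) (nat_lit 66471220939441878922) (ZL.cons (nat_lit 13984) (nat_lit 6) (nat_lit 132756026133418463378) (ZL.cons (nat_lit 14060) (nat_lit 6) (nat_lit 132525236735252533426) (ZL.cons (nat_lit 14136) (nat_lit 6) (nat_lit 132340713729887203312) (ZL.cons (nat_lit 14212) (nat_lit 6) (nat_lit 132202384755359584670) (ZL.cons (nat_lit 14288) (nat_lit 6) (nat_lit 132110195565013000008) (ZL.cons (nat_lit 14364) (nat_lit 6) (nat_lit 132064110006223783992) (ZL.cons (nat_lit 14440) (nat_lit 6) (nat_lit 132013749031242901990)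 (ZL.cons (nat_lit 14516) (nat_lit 6) (nat_lit 131762295716995971630) (ZL.cons (nat_lit 14592) (nat_lit 6) (nat_lit 131556695517228021104) (ZL.cons (nat_lit 14668) (nat_lit 6) (nat_lit 131396867804409729640) (ZL.cons (nat_lit 14744) (nat_lit 6) (nat_lit 131282749901006658698) (ZL.cons (nat_lit 14820) (nat_lit 6) (nat_lit 131214297054899826678) (ZL.cons (nat_lit 14896) (nat_lit 3) (nat_lit 65595741210917929177) (ZL.cons (nat_lit 14972) (nat_lit 6) (nat_lit 131297549044360712532) (ZL.cons (nat_lit 15048) (nat_lit 6) (nat_lit 131025836988857899422) (ZL.cons (nat_lit 15124) (nat_lit 6) (nat_lit 130799572873008948488) (ZL.cons (nat_lit 15200) (nat_lit 6) (nat_lit 130618667965788036612) (ZL.cons (nat_lit 15276) (nat_lit 6) (nat_lit 130483051324094292848) (ZL.cons (nat_lit 15352) (nat_lit 6) (nat_lit 130392669764930974548) (ZL.cons (nat_lit 15428) (nat_lit 6) (nat_lit 130347487844549390220) (ZL.cons (nat_lit 15580) (nat_lit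 6) (nat_lit 130315571743493948924) (ZL.cons (nat_lit 15656) (nat_lit 6) (nat_lit 130069048886389115240) (ZL.cons (nat_lit 15732) (nat_lit 6) (nat_lit 129867480063087202956) (ZL.cons (nat_lit 15808) (nat_lit 6) (nat_lit 129710786226990838780) (ZL.cons (nat_lit 15884) (nat_lit 6) (nat_lit 129598905929536847658) (ZL.cons (nat_lit 15960) (nat_lit 6) (nat_lit 129531795296098777050) (ZL.cons (nat_lit 16036) (nat_lit 3) (nat_lit 64754714004390580523) (ZL.cons (nat_lit 16112) (nat_lit 6) (nat_lit 129631221445513781334) (ZL.cons (nat_lit 16188) (nat_lit 6) (nat_lit 129364837077373768482) (ZL.cons (nat_lit 16264) (nat_lit 6) (nat_lit 129143009512815973448) (ZL.cons (nat_lit 16340) (nat_lit 6) (nat_lit 128965651760638608864) (ZL.cons (nat_lit 16416) (nat_lit 6) (nat_lit 128832694268781997330) (ZL.cons (nat_lit 16492) (nat_lit 6) (nat_lit 128744084897053253900) (ZL.cons (nat_lit 16568) (nat_lit 6) (nat_lit 128699788896679151616)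 (ZL.cons (nat_lit 16644) (nat_lit 6) (nat_lit 128972517722251522078) (ZL.cons (nat_lit 16720) (nat_lit 6) (nat_lit 128686661284469176710) (ZL.cons (nat_lit 16796) (nat_lit 6) (nat_lit 128444972208876202508) (ZL.cons (nat_lit 16872) (nat_lit 6) (nat_lit 128247355715442955174) (ZL.cons (nat_lit 16948) (nat_lit 6) (nat_lit 128093734307505343232) (ZL.cons (nat_lit 17024) (nat_lit 6) (nat_lit 127984047741373979390) (ZL.cons (nat_lit 17100) (nat_lit 6) (nat_lit 127918253002709204284) (ZL.cons (nat_lit 17176) (nat_lit 3) (nat_lit 63948162144826359002) (ZL.cons (nat_lit 17252) (nat_lit 6) (nat_lit 128339202258521578110) (ZL.cons (nat_lit 17328) (nat_lit 6) (nat_lit 128034255556384004784) (ZL.cons (nat_lit 17404) (nat_lit 6) (nat_lit 127773094411148698066) (ZL.cons (nat_lit 17480) (nat_lit 6) (nat_lit 127555616406680271564) (ZL.cons (nat_lit 17556) (nat_lit 6) (nat_lit 127381736257486776872) (ZL.cons (nat_lit 17632) (nat_lit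 6) (nat_lit 127251385775274412622) (ZL.cons (nat_lit 17708) (nat_lit 6) (nat_lit 127164513842207017104) (ZL.cons (nat_lit 17784) (nat_lit 6) (nat_lit 127121086390859858002) (ZL.cons (nat_lit 17860) (nat_lit 6) (nat_lit 127407364047734689896) (ZL.cons (nat_lit 17936) (nat_lit 6) (nat_lit 127127112638144155220) (ZL.cons (nat_lit 18012) (nat_lit 6) (nat_lit 126890162564033396202) (ZL.cons (nat_lit 18088) (nat_lit 6) (nat_lit 126696420903804722342) (ZL.cons (nat_lit 18164) (nat_lit 6) (nat_lit 126545811680336475342) (ZL.cons (nat_lit 18240) (nat_lit 6) (nat_lit 126438275831188079416) (ZL.cons (nat_lit 18316) (nat_lit 6) (nat_lit 126373771185438299902) (ZL.cons (nat_lit 18392) (nat_lit 3) (nat_lit 63176136223573813540) (ZL.cons (nat_lit 18468) (nat_lit 6) (nat_lit 126805740918713918588) (ZL.cons (nat_lit 18544) (nat_lit 6) (nat_lit 126506773563677081992) (ZL.cons (nat_lit 18620) (nat_lit 6) (nat_lit 126250733225211095016)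 (ZL.cons (nat_lit 18696) (nat_lit 6) (nat_lit 126037519495340088640) (ZL.cons (nat_lit 18772) (nat_lit 6) (nat_lit 125867048760836662472) (ZL.cons (nat_lit 18848) (nat_lit 6) (nat_lit 125739254170432383796) (ZL.cons (nat_lit 18924) (nat_lit 6) (nat_lit 125654085608601603874) (ZL.cons (nat_lit 19000) (nat_lit 6) (nat_lit 125611509675908310640) (ZL.cons (nat_lit 19076) (nat_lit 6) (nat_lit 126229150238682859186) (ZL.cons (nat_lit 19152) (nat_lit 6) (nat_lit 125911833917522197178) (ZL.cons (nat_lit 19228) (nat_lit 6) (nat_lit 125637077633609908282) (ZL.cons (nat_lit 19304) (nat_lit 6) (nat_lit 125404773639383673948) (ZL.cons (nat_lit 19380) (nat_lit 6) (nat_lit 125214830835237915264) (ZL.cons (nat_lit 19456) (nat_lit 6) (nat_lit 125067174733798457420) (ZL.cons (nat_lit 19532) (nat_lit 6) (nat_lit 124961747430711794748) (ZL.cons (nat_lit 19608) (nat_lit 6) (nat_lit 124898507581937501106) (ZL.cons (nat_lit 19684) (nat_lit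 3) (nat_lit 62438715193767440347) (ZL.cons (nat_lit 19760) (nat_lit 6) (nat_lit 125677365893649342644) (ZL.cons (nat_lit 19836) (nat_lit 6) (nat_lit 125342060390014341998) (ZL.cons (nat_lit 19912) (nat_lit 6) (nat_lit 125048955139978227690) (ZL.cons (nat_lit 19988) (nat_lit 6) (nat_lit 124797935200305691436) (ZL.cons (nat_lit 20064) (nat_lit 6) (nat_lit 124588902131804704794) (ZL.cons (nat_lit 20140) (nat_lit 6) (nat_lit 124421773960722914434) (ZL.cons (nat_lit 20216) (nat_lit 6) (nat_lit 124296485146601072594) (ZL.cons (nat_lit 20292) (nat_lit 6) (nat_lit 124212986556570896202) (ZL.cons (nat_lit 20368) (nat_lit 6) (nat_lit 124171245446087275382) (ZL.cons (nat_lit 20444) (nat_lit 6) (nat_lit 124797229540554493764) (ZL.cons (nat_lit 20520) (nat_lit 6) (nat_lit 124486135108044040818) (ZL.cons (nat_lit 20596) (nat_lit 6) (nat_lit 124216766202247679152) (ZL.cons (nat_lit 20672) (nat_lit 6) (nat_lit 123989017188300390590)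 (ZL.cons (nat_lit 20748) (nat_lit 6) (nat_lit 123802798752863372272) (ZL.cons (nat_lit 20824) (nat_lit 6) (nat_lit 123658037869099197916) (ZL.cons (nat_lit 20900) (nat_lit 6) (nat_lit 123554677768033842356) (ZL.cons (nat_lit 20976) (nat_lit 6) (nat_lit 123492677916294338786) (ZL.cons (nat_lit 21052) (nat_lit 3) (nat_lit 61736007000106669189) (ZL.cons (nat_lit 21128) (nat_lit 6) (nat_lit 124277127709986001556) (ZL.cons (nat_lit 21204) (nat_lit 6) (nat_lit 123948396824069334258) (ZL.cons (nat_lit 21280) (nat_lit 6) (nat_lit 123661038735798633954) (ZL.cons (nat_lit 21356) (nat_lit 6) (nat_lit 123414940755727519980) (ZL.cons (nat_lit 21432) (nat_lit 6) (nat_lit 123210006374844199742) (ZL.cons (nat_lit 21508) (nat_lit 6) (nat_lit 123046155226724797428) (ZL.cons (nat_lit 21584) (nat_lit 6) (nat_lit 122923323056017109352) (ZL.cons (nat_lit 21660) (nat_lit 6) (nat_lit 122841461693242426614) (ZL.cons (nat_lit 21736) (nat_lit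 6) (nat_lit 122800539035905543456) (ZL.cons (nat_lit 21812) (nat_lit 6) (nat_lit 123781550936806681652) (ZL.cons (nat_lit 21888) (nat_lit 6) (nat_lit 123435529410295686558) (ZL.cons (nat_lit 21964) (nat_lit 6) (nat_lit 123130534868618771902) (ZL.cons (nat_lit 22040) (nat_lit 6) (nat_lit 122866447706073319290) (ZL.cons (nat_lit 22116) (nat_lit 6) (nat_lit 122643164359066173640) (ZL.cons (nat_lit 22192) (nat_lit 6) (nat_lit 122460597265500469406) (ZL.cons (nat_lit 22268) (nat_lit 6) (nat_lit 122318674830437553372) (ZL.cons (nat_lit 22344) (nat_lit 6) (nat_lit 122217341398020538118) (ZL.cons (nat_lit 22420) (nat_lit 6) (nat_lit 122156557229648475792) (ZL.cons (nat_lit 22496) (nat_lit 3) (nat_lit 61068149244196296521) (ZL.cons (nat_lit 22572) (nat_lit 6) (nat_lit 123310304877183914710) (ZL.cons (nat_lit 22648) (nat_lit 6) (nat_lit 122947331742247108052) (ZL.cons (nat_lit 22724) (nat_lit 6) (nat_lit 122625046559975865600)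 (ZL.cons (nat_lit 22800) (nat_lit 6) (nat_lit 122343322944024198636) (ZL.cons (nat_lit 22876) (nat_lit 6) (nat_lit 122102050414542714348) (ZL.cons (nat_lit 22952) (nat_lit 6) (nat_lit 121901134354853184702) (ZL.cons (nat_lit 23028) (nat_lit 6) (nat_lit 121740495974343966748) (ZL.cons (nat_lit 23104) (nat_lit 6) (nat_lit 121620072277571723536) (ZL.cons (nat_lit 23180) (nat_lit 6) (nat_lit 121539816039557328694) (ZL.cons (nat_lit 23256) (nat_lit 6) (nat_lit 121499695787266266776) (ZL.cons (nat_lit 23332) (nat_lit 6) (nat_lit 122483612369857697334) (ZL.cons (nat_lit 23408) (nat_lit 6) (nat_lit 122144375579160643318) (ZL.cons (nat_lit 23484) (nat_lit 6) (nat_lit 121845361322614648558) (ZL.cons (nat_lit 23560) (nat_lit 6) (nat_lit 121586452339726949918) (ZL.cons (nat_lit 23636) (nat_lit 6) (nat_lit 121367547097563081634) (ZL.cons (nat_lit 23712) (nat_lit 6) (nat_lit 121188559750930038268) (ZL.cons (nat_lit 23788) (nat_lit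 6) (nat_lit 121049420108711493136) (ZL.cons (nat_lit 23864) (nat_lit 6) (nat_lit 120950073606341870336) (ZL.cons (nat_lit 23940) (nat_lit 6) (nat_lit 120890481284408475902) (ZL.cons (nat_lit 24016) (nat_lit 3) (nat_lit 60435309886686648367) (ZL.cons (nat_lit 24092) (nat_lit 6) (nat_lit 122044189442393184048) (ZL.cons (nat_lit 24168) (nat_lit 6) (nat_lit 121688333427749255950) (ZL.cons (nat_lit 24244) (nat_lit 6) (nat_lit 121372367562777449626) (ZL.cons (nat_lit 24320) (nat_lit 6) (nat_lit 121096167939295423190) (ZL.cons (nat_lit 24396) (nat_lit 6) (nat_lit 120859626243725340554) (ZL.cons (nat_lit 24472) (nat_lit 6) (nat_lit 120662649714617958550) (ZL.cons (nat_lit 24548) (nat_lit 6) (nat_lit 120505161106275588006) (ZL.cons (nat_lit 24624) (nat_lit 6) (nat_lit 120387098658459663286) (ZL.cons (nat_lit 24700) (nat_lit 6) (nat_lit 120308416072171040894) (ZL.cons (nat_lit 24776) (nat_lit 6) (nat_lit 120269082491493529210)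 (ZL.cons (nat_lit 24852) (nat_lit 6) (nat_lit 121628890637136915446) (ZL.cons (nat_lit 24928) (nat_lit 6) (nat_lit 121256741265682326482) (ZL.cons (nat_lit 25004) (nat_lit 6) (nat_lit 120924156176763646076) (ZL.cons (nat_lit 25080) (nat_lit 6) (nat_lit 120631004944855808076) (ZL.cons (nat_lit 25156) (nat_lit 6) (nat_lit 120377172608691397644) (ZL.cons (nat_lit 25232) (nat_lit 6) (nat_lit 120162559626177801288) (ZL.cons (nat_lit 25308) (nat_lit 6) (nat_lit 119987081835361092106) (ZL.cons (nat_lit 25384) (nat_lit 6) (nat_lit 119850670421421341974) (ZL.cons (nat_lit 25460) (nat_lit 6) (nat_lit 119753271889686417662) (ZL.cons (nat_lit 25536) (nat_lit 6) (nat_lit 119694848044653678020) (ZL.cons (nat_lit 25612) (nat_lit 3) (nat_lit 59837687987505672752) (ZL.cons (nat_lit 25688) (nat_lit 6) (nat_lit 121237553091812320442) (ZL.cons (nat_lit 25764) (nat_lit 6) (nat_lit 120849429841131593374) (ZL.cons (nat_lit 25840) (nat_lit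 6) (nat_lit 120500551395402252102) (ZL.cons (nat_lit 25916) (nat_lit 6) (nat_lit 120190780939547540020) (ZL.cons (nat_lit 25992) (nat_lit 6) (nat_lit 119919996994957318024) (ZL.cons (nat_lit 26068) (nat_lit 6) (nat_lit 119688093371849393872) (ZL.cons (nat_lit 26144) (nat_lit 6) (nat_lit 119494979127626470338) (ZL.cons (nat_lit 26220) (nat_lit 6) (nat_lit 119340578531212381568) (ZL.cons (nat_lit 26296) (nat_lit 6) (nat_lit 119224831033353631844) (ZL.cons (nat_lit 26372) (nat_lit 6) (nat_lit 119147691242874590282) (ZL.cons (nat_lit 26448) (nat_lit 6) (nat_lit 119109128908877029808) (ZL.cons (nat_lit 26524) (nat_lit 6) (nat_lit 120870023340715350172) (ZL.cons (nat_lit 26600) (nat_lit 6) (nat_lit 120466239424126644572) (ZL.cons (nat_lit 26676) (nat_lit 6) (nat_lit 120101387099171165196) (ZL.cons (nat_lit 26752) (nat_lit 6) (nat_lit 119775323286505792248) (ZL.cons (nat_lit 26828) (nat_lit 6) (nat_lit 119487920117968696170)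 (ZL.cons (nat_lit 26904) (nat_lit 6) (nat_lit 119239064886434960454) (ZL.cons (nat_lit 26980) (nat_lit 6) (nat_lit 119028660001617709124) (ZL.cons (nat_lit 27056) (nat_lit 6) (nat_lit 118856622951797406002) (ZL.cons (nat_lit 27132) (nat_lit 6) (nat_lit 118722886271464317640) (ZL.cons (nat_lit 27208) (nat_lit 6) (nat_lit 118627397514861450666) (ZL.cons (nat_lit 27284) (nat_lit 6) (nat_lit 118570119235417588272) (ZL.cons (nat_lit 27360) (nat_lit 3) (nat_lit 59275514485531180157) (ZL.cons (nat_lit 27436) (nat_lit 6) (nat_lit 120107019743915713430) (ZL.cons (nat_lit 27512) (nat_lit 6) (nat_lit 119726506753052255522) (ZL.cons (nat_lit 27588) (nat_lit 6) (nat_lit 119384469061160744470) (ZL.cons (nat_lit 27664) (nat_lit 6) (nat_lit 119080772535812987526) (ZL.cons (nat_lit 27740) (nat_lit 6) (nat_lit 118815298080332377728) (ZL.cons (nat_lit 27816) (nat_lit 6) (nat_lit 118587941587089314834) (ZL.cons (nat_lit 27892) (nat_lit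 6) (nat_lit 118398613896674683916) (ZL.cons (nat_lit 27968) (nat_lit 6) (nat_lit 118247240762935381202) (ZL.cons (nat_lit 28044) (nat_lit 6) (nat_lit 118133762823858175590) (ZL.cons (nat_lit 28120) (nat_lit 6) (nat_lit 118058135578290487784) (ZL.cons (nat_lit 28196) (nat_lit 6) (nat_lit 118020329368488957906) (ZL.cons (nat_lit 28272) (nat_lit 6) (nat_lit 119771629930035972130) (ZL.cons (nat_lit 28348) (nat_lit 6) (nat_lit 119375763345145084288) (ZL.cons (nat_lit 28424) (nat_lit 6) (nat_lit 119018064987345594704) (ZL.cons (nat_lit 28500) (nat_lit 6) (nat_lit 118698394582771699656) (ZL.cons (nat_lit 28576) (nat_lit 6) (nat_lit 118416626770480428992) (ZL.cons (nat_lit 28652) (nat_lit 6) (nat_lit 118172651053290492016) (ZL.cons (nat_lit 28728) (nat_lit 6) (nat_lit 117966371754450049534) (ZL.cons (nat_lit 28804) (nat_lit 6) (nat_lit 117797707980116419024) (ZL.cons (nat_lit 28880) (nat_lit 6) (nat_lit 117666593587632999060)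 (ZL.cons (nat_lit 28956) (nat_lit 6) (nat_lit 117572977159590972616) (ZL.cons (nat_lit 29032) (nat_lit 6) (nat_lit 117516821983665617326) (ZL.cons (nat_lit 29108) (nat_lit 3) (nat_lit 58749053019109657703) (ZL.cons (nat_lit 29184) (nat_lit 6) (nat_lit 119459938457070212934) (ZL.cons (nat_lit 29260) (nat_lit 6) (nat_lit 119049019329015178098) (ZL.cons (nat_lit 29336) (nat_lit 6) (nat_lit 118675967377188258580) (ZL.cons (nat_lit 29412) (nat_lit 6) (nat_lit 118340636306706385000) (ZL.cons (nat_lit 29488) (nat_lit 6) (nat_lit 118042894615188976232) (ZL.cons (nat_lit 29564) (nat_lit 6) (nat_lit 117782625541188378390) (ZL.cons (nat_lit 29640) (nat_lit 6) (nat_lit 117559727018401061826) (ZL.cons (nat_lit 29716) (nat_lit 6) (nat_lit 117374111635641619752) (ZL.cons (nat_lit 29792) (nat_lit 6) (nat_lit 117225706602563871992) (ZL.cons (nat_lit 29868) (nat_lit 6) (nat_lit 117114453721115631196) (ZL.cons (nat_lit 29944) (nat_lit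 6) (nat_lit 117040309362715937268) (ZL.cons (nat_lit 30020) (nat_lit 6) (nat_lit 117003244451145809936) (ZL.cons (nat_lit 30096) (nat_lit 6) (nat_lit 118447849756095178660) (ZL.cons (nat_lit 30172) (nat_lit 6) (nat_lit 118665877947511237428) (ZL.cons (nat_lit 30248) (nat_lit 6) (nat_lit 118907170851612837224) (ZL.cons (nat_lit 30324) (nat_lit 6) (nat_lit 119171823093068253190) (ZL.cons (nat_lit 30400) (nat_lit 6) (nat_lit 118746146569754250712) (ZL.cons (nat_lit 30476) (nat_lit 6) (nat_lit 118358042074763184200) (ZL.cons (nat_lit 30552) (nat_lit 6) (nat_lit 118007357410253880686) (ZL.cons (nat_lit 30628) (nat_lit 6) (nat_lit 117693955052828493386) (ZL.cons (nat_lit 30704) (nat_lit 6) (nat_lit 117417712099601757440) (ZL.cons (nat_lit 30780) (nat_lit 6) (nat_lit 117178520220003780010) (ZL.cons (nat_lit 30856) (nat_lit 6) (nat_lit 116976285613297463854) (ZL.cons (nat_lit 30932) (nat_lit 6) (nat_lit 116810928971793904530)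 (ZL.cons (nat_lit 31008) (nat_lit 6) (nat_lit 116682385449751335938) (ZL.cons (nat_lit 31084) (nat_lit 6) (nat_lit 116590604637945427658) (ZL.cons (nat_lit 31160) (nat_lit 6) (nat_lit 116535550543900961688) (ZL.cons (nat_lit 31236) (nat_lit 3) (nat_lit 58258600788888568138) (ZL.cons (nat_lit 31312) (nat_lit 6) (nat_lit 116939646840957458466) (ZL.cons (nat_lit 31388) (nat_lit 6) (nat_lit 116962690892929159732) (ZL.cons (nat_lit 31464) (nat_lit 6) (nat_lit 117008788033755688422) (ZL.cons (nat_lit 31540) (nat_lit 6) (nat_lit 117077956340747172590) (ZL.cons (nat_lit 31616) (nat_lit 6) (nat_lit 117170222938729883404) (ZL.cons (nat_lit 31692) (nat_lit 6) (nat_lit 117285624010683421922) (ZL.cons (nat_lit 31768) (nat_lit 6) (nat_lit 117424204811930122872) (ZL.cons (nat_lit 31844) (nat_lit 6) (nat_lit 117586019687882239860) (ZL.cons (nat_lit 31920) (nat_lit 6) (nat_lit 117771132095353871754) (ZL.cons (nat_lit 31996) (nat_lit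 6) (nat_lit 117979614627445987822) (ZL.cons (nat_lit 32072) (nat_lit 6) (nat_lit 118211549042014310464) (ZL.cons (nat_lit 32148) (nat_lit 6) (nat_lit 118467026293731219414) (ZL.cons (nat_lit 32224) (nat_lit 6) (nat_lit 118064164403481185260) (ZL.cons (nat_lit 32300) (nat_lit 6) (nat_lit 117698427195807734752) (ZL.cons (nat_lit 32376) (nat_lit 6) (nat_lit 117369671244354917518) (ZL.cons (nat_lit 32452) (nat_lit 6) (nat_lit 117077767625220203040) (ZL.cons (nat_lit 32528) (nat_lit 6) (nat_lit 116822601866396087506) (ZL.cons (nat_lit 32604) (nat_lit 6) (nat_lit 116604073902879110484) (ZL.cons (nat_lit 32680) (nat_lit 6) (nat_lit 116422098037428677078) (ZL.cons (nat_lit 32756) (nat_lit 6) (nat_lit 116276602906960296922) (ZL.cons (nat_lit 32832) (nat_lit 6) (nat_lit 116167531454560060846) (ZL.cons (nat_lit 32908) (nat_lit 6) (nat_lit 116094840907109380524) (ZL.cons (nat_lit 32984) (nat_lit 6) (nat_lit 116058502758511216474)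 (ZL.cons (nat_lit 33060) (nat_lit 3) (nat_lit 58190360230155948012) (ZL.cons (nat_lit 33136) (nat_lit 6) (nat_lit 116392356565762953098) (ZL.cons (nat_lit 33212) (nat_lit 6) (nat_lit 116427269445294732582) (ZL.cons (nat_lit 33288) (nat_lit 6) (nat_lit 116485472790232541054) (ZL.cons (nat_lit 33364) (nat_lit 6) (nat_lit 116566989425417530600) (ZL.cons (nat_lit 33440) (nat_lit 6) (nat_lit 116671851318157616896) (ZL.cons (nat_lit 33516) (nat_lit 6) (nat_lit 116800099590763678410) (ZL.cons (nat_lit 33592) (nat_lit 6) (nat_lit 116951784536675952814) (ZL.cons (nat_lit 33668) (nat_lit 6) (nat_lit 117126965640186954724) (ZL.cons (nat_lit 33744) (nat_lit 6) (nat_lit 117325711599768649240) (ZL.cons (nat_lit 33820) (nat_lit 6) (nat_lit 117548100355013029182) (ZL.cons (nat_lit 33896) (nat_lit 6) (nat_lit 117794219117196660978) (ZL.cons (nat_lit 33972) (nat_lit 6) (nat_lit 117413724514264242828) (ZL.cons (nat_lit 34048) (nat_lit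 6) (nat_lit 117069916019647278600) (ZL.cons (nat_lit 34124) (nat_lit 6) (nat_lit 116762658806485134188) (ZL.cons (nat_lit 34200) (nat_lit 6) (nat_lit 116491832381753040122) (ZL.cons (nat_lit 34276) (nat_lit 6) (nat_lit 116257330539009924996) (ZL.cons (nat_lit 34352) (nat_lit 6) (nat_lit 116059061316748830724) (ZL.cons (nat_lit 34428) (nat_lit 6) (nat_lit 115896946962333576486) (ZL.cons (nat_lit 34504) (nat_lit 6) (nat_lit 115770923901507528846) (ZL.cons (nat_lit 34580) (nat_lit 6) (nat_lit 115680942713462520728) (ZL.cons (nat_lit 34656) (nat_lit 6) (nat_lit 115626968111458142326) (ZL.cons (nat_lit 34732) (nat_lit 3) (nat_lit 57804489464491901844) (ZL.cons (nat_lit 34808) (nat_lit 6) (nat_lit 115855797472435006660) (ZL.cons (nat_lit 34884) (nat_lit 6) (nat_lit 115879302405446141952) (ZL.cons (nat_lit 34960) (nat_lit 6) (nat_lit 115926321489089201218) (ZL.cons (nat_lit 35036) (nat_lit 6) (nat_lit 115996873162220515068)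 (ZL.cons (nat_lit 35112) (nat_lit 6) (nat_lit 116090985092162880096) (ZL.cons (nat_lit 35188) (nat_lit 6) (nat_lit 116208694185555489388) (ZL.cons (nat_lit 35264) (nat_lit 6) (nat_lit 116350046602827124356) (ZL.cons (nat_lit 35340) (nat_lit 6) (nat_lit 116515097776298283682) (ZL.cons (nat_lit 35416) (nat_lit 6) (nat_lit 116703912431919348214) (ZL.cons (nat_lit 35492) (nat_lit 6) (nat_lit 116916564614653306604) (ZL.cons (nat_lit 35568) (nat_lit 6) (nat_lit 117153137717512995700) (ZL.cons (nat_lit 35644) (nat_lit 6) (nat_lit 116794571827637063830) (ZL.cons (nat_lit 35720) (nat_lit 6) (nat_lit 116472262071310772424) (ZL.cons (nat_lit 35796) (nat_lit 6) (nat_lit 116186082052551248424) (ZL.cons (nat_lit 35872) (nat_lit 6) (nat_lit 115935919543900154766) (ZL.cons (nat_lit 35948) (nat_lit 6) (nat_lit 115721676442412922390) (ZL.cons (nat_lit 36024) (nat_lit 6) (nat_lit 115543268731187007286) (ZL.cons (nat_lit 36100) (nat_lit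 6) (nat_lit 115400626446414085564) (ZL.cons (nat_lit 36176) (nat_lit 6) (nat_lit 115293693649943265882) (ZL.cons (nat_lit 36252) (nat_lit 6) (nat_lit 115222428407344559684) (ZL.cons (nat_lit 36328) (nat_lit 6) (nat_lit 115186802771464006694) (ZL.cons (nat_lit 36404) (nat_lit 3) (nat_lit 57676401598807301788) (ZL.cons (nat_lit 36480) (nat_lit 6) (nat_lit 115364672025174681794) (ZL.cons (nat_lit 36556) (nat_lit 6) (nat_lit 115400283162297096868) (ZL.cons (nat_lit 36632) (nat_lit 6) (nat_lit 115459650574133661512) (ZL.cons (nat_lit 36708) (nat_lit 6) (nat_lit 115542797542022350844) (ZL.cons (nat_lit 36784) (nat_lit 6) (nat_lit 115649756672617238868) (ZL.cons (nat_lit 36860) (nat_lit 6) (nat_lit 115780569910675421614) (ZL.cons (nat_lit 36936) (nat_lit 6) (nat_lit 115935288555505941504) (ZL.cons (nat_lit 37012) (nat_lit 6) (nat_lit 116113973281087163452) (ZL.cons (nat_lit 37088) (nat_lit 6) (nat_lit 116316694159860491858)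 (ZL.cons (nat_lit 37164) (nat_lit 6) (nat_lit 116543530690209759402) (ZL.cons (nat_lit 37240) (nat_lit 6) (nat_lit 116206463538624500354) (ZL.cons (nat_lit 37316) (nat_lit 6) (nat_lit 115905230976700829360) (ZL.cons (nat_lit 37392) (nat_lit 6) (nat_lit 115639714874022305768) (ZL.cons (nat_lit 37468) (nat_lit 6) (nat_lit 115409811106627094860) (ZL.cons (nat_lit 37544) (nat_lit 6) (nat_lit 115215429516175041652) (ZL.cons (nat_lit 37620) (nat_lit 6) (nat_lit 115056493874591459064) (ZL.cons (nat_lit 37696) (nat_lit 6) (nat_lit 114932941854173765300) (ZL.cons (nat_lit 37772) (nat_lit 6) (nat_lit 114844725003149247538) (ZL.cons (nat_lit 37848) (nat_lit 6) (nat_lit 114791808726674366752) (ZL.cons (nat_lit 37924) (nat_lit 3) (nat_lit 57387086136634076200) (ZL.cons (nat_lit 38000) (nat_lit 6) (nat_lit 114883176488644951532) (ZL.cons (nat_lit 38076) (nat_lit 6) (nat_lit 114907151520316309532) (ZL.cons (nat_lit 38152) (nat_lit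 6) (nat_lit 114955110985632229984) (ZL.cons (nat_lit 38228) (nat_lit 6) (nat_lit 115027073692226170110) (ZL.cons (nat_lit 38304) (nat_lit 6) (nat_lit 115123067860767382438) (ZL.cons (nat_lit 38380) (nat_lit 6) (nat_lit 115243131136027843916) (ZL.cons (nat_lit 38456) (nat_lit 6) (nat_lit 115387310601644911584) (ZL.cons (nat_lit 38532) (nat_lit 6) (nat_lit 115555662798585494096) (ZL.cons (nat_lit 38608) (nat_lit 6) (nat_lit 115748253747318979918) (ZL.cons (nat_lit 38684) (nat_lit 6) (nat_lit 115965158973707617478) (ZL.cons (nat_lit 38760) (nat_lit 6) (nat_lit 115649169016524978842) (ZL.cons (nat_lit 38836) (nat_lit 6) (nat_lit 115368600370682308256) (ZL.cons (nat_lit 38912) (nat_lit 6) (nat_lit 115123343009259667414) (ZL.cons (nat_lit 38988) (nat_lit 6) (nat_lit 114913300752899635674) (ZL.cons (nat_lit 39064) (nat_lit 6) (nat_lit 114738391232089914982) (ZL.cons (nat_lit 39140) (nat_lit 6) (nat_lit 114598545854861560352)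 (ZL.cons (nat_lit 39216) (nat_lit 6) (nat_lit 114493709779890168508) (ZL.cons (nat_lit 39292) (nat_lit 6) (nat_lit 114423841894989476158) (ZL.cons (nat_lit 39368) (nat_lit 6) (nat_lit 114388914800988934010) (ZL.cons (nat_lit 39444) (nat_lit 3) (nat_lit 57217313487038959950) (ZL.cons (nat_lit 39520) (nat_lit 6) (nat_lit 114446733178189199682) (ZL.cons (nat_lit 39596) (nat_lit 6) (nat_lit 114483056538054063060) (ZL.cons (nat_lit 39672) (nat_lit 6) (nat_lit 114543611298127358994) (ZL.cons (nat_lit 39748) (nat_lit 6) (nat_lit 114628421205373822116) (ZL.cons (nat_lit 39824) (nat_lit 6) (nat_lit 114737519518580607898) (ZL.cons (nat_lit 39900) (nat_lit 6) (nat_lit 114870949021399954298) (ZL.cons (nat_lit 39976) (nat_lit 6) (nat_lit 115028762039127084588) (ZL.cons (nat_lit 40052) (nat_lit 6) (nat_lit 115211020459219930974) (ZL.cons (nat_lit 40128) (nat_lit 6) (nat_lit 115417795755568725950) (ZL.cons (nat_lit 40204) (nat_lit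 6) (nat_lit 115122469714467087722) (ZL.cons (nat_lit 40280) (nat_lit 6) (nat_lit 114862159809880299886) (ZL.cons (nat_lit 40356) (nat_lit 6) (nat_lit 114636763959492838212) (ZL.cons (nat_lit 40432) (nat_lit 6) (nat_lit 114446193772775138988) (ZL.cons (nat_lit 40508) (nat_lit 6) (nat_lit 114290374516320646254) (ZL.cons (nat_lit 40584) (nat_lit 6) (nat_lit 114169245084538593544) (ZL.cons (nat_lit 40660) (nat_lit 6) (nat_lit 114082757975691027112) (ZL.cons (nat_lit 40736) (nat_lit 6) (nat_lit 114030879273264673400) (ZL.cons (nat_lit 40812) (nat_lit 3) (nat_lit 57006794316335172802) (ZL.cons (nat_lit 40888) (nat_lit 6) (nat_lit 114018847579703168458) (ZL.cons (nat_lit 40964) (nat_lit 6) (nat_lit 114043302112007953618) (ZL.cons (nat_lit 41040) (nat_lit 6) (nat_lit 114092220766630192478) (ZL.cons (nat_lit 41116) (nat_lit 6) (nat_lit 114165622727356011408) (ZL.cons (nat_lit 41192) (nat_lit 6) (nat_lit 114263536779268047984)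 (ZL.cons (nat_lit 41268) (nat_lit 6) (nat_lit 114386001320033718688) (ZL.cons (nat_lit 41344) (nat_lit 6) (nat_lit 114533064374963127710) (ZL.cons (nat_lit 41420) (nat_lit 6) (nat_lit 114704783615842521874) (ZL.cons (nat_lit 41496) (nat_lit 6) (nat_lit 114901226383550677414) (ZL.cons (nat_lit 41572) (nat_lit 6) (nat_lit 114626159083704921936) (ZL.cons (nat_lit 41648) (nat_lit 6) (nat_lit 114385710690153313268) (ZL.cons (nat_lit 41724) (nat_lit 6) (nat_lit 114179786909408184110) (ZL.cons (nat_lit 41800) (nat_lit 6) (nat_lit 114008306987045712844) (ZL.cons (nat_lit 41876) (nat_lit 6) (nat_lit 113871203676037522030) (ZL.cons (nat_lit 41952) (nat_lit 6) (nat_lit 113768423210379294732) (ZL.cons (nat_lit 42028) (nat_lit 6) (nat_lit 113699925284006066938) (ZL.cons (nat_lit 42104) (nat_lit 6) (nat_lit 113665683034985927578) (ZL.cons (nat_lit 42180) (nat_lit 3) (nat_lit 56811663463292149883) (ZL.cons (nat_lit 42256) (nat_lit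 6) (nat_lit 113635675254777805144) (ZL.cons (nat_lit 42332) (nat_lit 6) (nat_lit 113672725081839965786) (ZL.cons (nat_lit 42408) (nat_lit 6) (nat_lit 113734490937114727642) (ZL.cons (nat_lit 42484) (nat_lit 6) (nat_lit 113820997042506120026) (ZL.cons (nat_lit 42560) (nat_lit 6) (nat_lit 113932277321977041524) (ZL.cons (nat_lit 42636) (nat_lit 6) (nat_lit 114068375414852774850) (ZL.cons (nat_lit 42712) (nat_lit 6) (nat_lit 114229344692934447746) (ZL.cons (nat_lit 42788) (nat_lit 6) (nat_lit 114415248281429151064) (ZL.cons (nat_lit 42864) (nat_lit 6) (nat_lit 114160042492618574754) (ZL.cons (nat_lit 42940) (nat_lit 6) (nat_lit 113939066168709298602) (ZL.cons (nat_lit 43016) (nat_lit 6) (nat_lit 113752232652319397402) (ZL.cons (nat_lit 43092) (nat_lit 6) (nat_lit 113599468675403228056) (ZL.cons (nat_lit 43168) (nat_lit 6) (nat_lit 113480714330518862654) (ZL.cons (nat_lit 43244) (nat_lit 6) (nat_lit 113395923047334973994)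 (ZL.cons (nat_lit 43320) (nat_lit 6) (nat_lit 113345061574367960552) (ZL.cons (nat_lit 43396) (nat_lit 3) (nat_lit 56664054982971074494) (ZL.cons (nat_lit 43472) (nat_lit 6) (nat_lit 113260016112694115620) (ZL.cons (nat_lit 43548) (nat_lit 6) (nat_lit 113284959735644996480) (ZL.cons (nat_lit 43624) (nat_lit 6) (nat_lit 113334856763359680118) (ZL.cons (nat_lit 43700) (nat_lit 6) (nat_lit 113409726763300015428) (ZL.cons (nat_lit 43776) (nat_lit 6) (nat_lit 113509599096250292734) (ZL.cons (nat_lit 43852) (nat_lit 6) (nat_lit 113634512927831276854) (ZL.cons (nat_lit 43928) (nat_lit 6) (nat_lit 113784517243859274054) (ZL.cons (nat_lit 44004) (nat_lit 6) (nat_lit 113959670869556256104) (ZL.cons (nat_lit 44080) (nat_lit 6) (nat_lit 113723937150388012310) (ZL.cons (nat_lit 44156) (nat_lit 6) (nat_lit 113522051090833964116) (ZL.cons (nat_lit 44232) (nat_lit 6) (nat_lit 113353933519890364836) (ZL.cons (nat_lit 44308) (nat_lit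 6) (nat_lit 113219518509098020902) (ZL.cons (nat_lit 44384) (nat_lit 6) (nat_lit 113118753346687994138) (ZL.cons (nat_lit 44460) (nat_lit 6) (nat_lit 113051598516910319830) (ZL.cons (nat_lit 44536) (nat_lit 6) (nat_lit 113018027684537634184) (ZL.cons (nat_lit 44612) (nat_lit 3) (nat_lit 56458088684223131995) (ZL.cons (nat_lit 44688) (nat_lit 6) (nat_lit 112928772663203639472) (ZL.cons (nat_lit 44764) (nat_lit 6) (nat_lit 112966563486807043328) (ZL.cons (nat_lit 44840) (nat_lit 6) (nat_lit 113029564659187300420) (ZL.cons (nat_lit 44916) (nat_lit 6) (nat_lit 113117800886686520652) (ZL.cons (nat_lit 44992) (nat_lit 6) (nat_lit 113231306771746860580) (ZL.cons (nat_lit 45068) (nat_lit 6) (nat_lit 113370126826480108574) (ZL.cons (nat_lit 45144) (nat_lit 6) (nat_lit 113534315490123414928) (ZL.cons (nat_lit 45220) (nat_lit 6) (nat_lit 113317672035310399092) (ZL.cons (nat_lit 45296) (nat_lit 6) (nat_lit 113134501921202652818)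 (ZL.cons (nat_lit 45372) (nat_lit 6) (nat_lit 112984733316382878950) (ZL.cons (nat_lit 45448) (nat_lit 6) (nat_lit 112868307488064873654) (ZL.cons (nat_lit 45524) (nat_lit 6) (nat_lit 112785178779061061242) (ZL.cons (nat_lit 45600) (nat_lit 6) (nat_lit 112735314589877714730) (ZL.cons (nat_lit 45676) (nat_lit 3) (nat_lit 56359347682965420324) (ZL.cons (nat_lit 45752) (nat_lit 6) (nat_lit 112604024183311015800) (ZL.cons (nat_lit 45828) (nat_lit 6) (nat_lit 112629466678720914278) (ZL.cons (nat_lit 45904) (nat_lit 6) (nat_lit 112680361646989891588) (ZL.cons (nat_lit 45980) (nat_lit 6) (nat_lit 112756729046929033602) (ZL.cons (nat_lit 46056) (nat_lit 6) (nat_lit 112858598826538316456) (ZL.cons (nat_lit 46132) (nat_lit 6) (nat_lit 112986010934750920258) (ZL.cons (nat_lit 46208) (nat_lit 6) (nat_lit 113139015337099477406) (ZL.cons (nat_lit 46284) (nat_lit 6) (nat_lit 112941087827732763490) (ZL.cons (nat_lit 46360) (nat_lit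 6) (nat_lit 112776266679748842628) (ZL.cons (nat_lit 46436) (nat_lit 6) (nat_lit 112644487257403407398) (ZL.cons (nat_lit 46512) (nat_lit 6) (nat_lit 112545697882491616454) (ZL.cons (nat_lit 46588) (nat_lit 6) (nat_lit 112479859814082131838) (ZL.cons (nat_lit 46664) (nat_lit 6) (nat_lit 112446947233324596890) (ZL.cons (nat_lit 46740) (nat_lit 3) (nat_lit 56155293471811034765) (ZL.cons (nat_lit 46816) (nat_lit 6) (nat_lit 112323434144274592526) (ZL.cons (nat_lit 46892) (nat_lit 6) (nat_lit 112361980784350064458) (ZL.cons (nat_lit 46968) (nat_lit 6) (nat_lit 112426241980177926690) (ZL.cons (nat_lit 47044) (nat_lit 6) (nat_lit 112516242932227131326) (ZL.cons (nat_lit 47120) (nat_lit 6) (nat_lit 112632018934988678054) (ZL.cons (nat_lit 47196) (nat_lit 6) (nat_lit 112773615390816591010) (ZL.cons (nat_lit 47272) (nat_lit 6) (nat_lit 112594036847573702506) (ZL.cons (nat_lit 47348) (nat_lit 6) (nat_lit 112447204882064120282)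 (ZL.cons (nat_lit 47424) (nat_lit 6) (nat_lit 112333061913124899404) (ZL.cons (nat_lit 47500) (nat_lit 6) (nat_lit 112251563178807436256) (ZL.cons (nat_lit 47576) (nat_lit 6) (nat_lit 112202676718823763204) (ZL.cons (nat_lit 47652) (nat_lit 3) (nat_lit 56093191681006551169) (ZL.cons (nat_lit 47728) (nat_lit 6) (nat_lit 112048345870709471668) (ZL.cons (nat_lit 47804) (nat_lit 6) (nat_lit 112074297216027568118) (ZL.cons (nat_lit 47880) (nat_lit 6) (nat_lit 112126210083661924972) (ZL.cons (nat_lit 47956) (nat_lit 6) (nat_lit 112204104831599849826) (ZL.cons (nat_lit 48032) (nat_lit 6) (nat_lit 112308012006801318336) (ZL.cons (nat_lit 48108) (nat_lit 6) (nat_lit 112437972357178174218) (ZL.cons (nat_lit 48184) (nat_lit 6) (nat_lit 112276382996409624352) (ZL.cons (nat_lit 48260) (nat_lit 6) (nat_lit 112147187484306256480) (ZL.cons (nat_lit 48336) (nat_lit 6) (nat_lit 112050335155961363398) (ZL.cons (nat_lit 48412) (nat_lit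 6) (nat_lit 111985788030069711814) (ZL.cons (nat_lit 48488) (nat_lit 6) (nat_lit 111953520794032912844) (ZL.cons (nat_lit 48564) (nat_lit 3) (nat_lit 55902046990135606222) (ZL.cons (nat_lit 48640) (nat_lit 6) (nat_lit 111817198124936785898) (ZL.cons (nat_lit 48716) (nat_lit 6) (nat_lit 111856515697813767270) (ZL.cons (nat_lit 48792) (nat_lit 6) (nat_lit 111922062117558186746) (ZL.cons (nat_lit 48868) (nat_lit 6) (nat_lit 112013863088648375474) (ZL.cons (nat_lit 48944) (nat_lit 6) (nat_lit 112131954611465153138) (ZL.cons (nat_lit 49020) (nat_lit 6) (nat_lit 111988001704102817624) (ZL.cons (nat_lit 49096) (nat_lit 6) (nat_lit 111876096832593777548) (ZL.cons (nat_lit 49172) (nat_lit 6) (nat_lit 111796196112674696030) (ZL.cons (nat_lit 49248) (nat_lit 6) (nat_lit 111748268210729918528) (ZL.cons (nat_lit 49324) (nat_lit 3) (nat_lit 55866147165751890212) (ZL.cons (nat_lit 49400) (nat_lit 6) (nat_lit 111590582687904741026)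 (ZL.cons (nat_lit 49476) (nat_lit 6) (nat_lit 111617053060129199402) (ZL.cons (nat_lit 49552) (nat_lit 6) (nat_lit 111670004185116243396) (ZL.cons (nat_lit 49628) (nat_lit 6) (nat_lit 111749456828012926746) (ZL.cons (nat_lit 49704) (nat_lit 6) (nat_lit 111855442146718424628) (ZL.cons (nat_lit 49780) (nat_lit 6) (nat_lit 111728779879950416910) (ZL.cons (nat_lit 49856) (nat_lit 6) (nat_lit 111633826616867188398) (ZL.cons (nat_lit 49932) (nat_lit 6) (nat_lit 111570545120894980962) (ZL.cons (nat_lit 50008) (nat_lit 6) (nat_lit 111538910575760864326) (ZL.cons (nat_lit 50084) (nat_lit 3) (nat_lit 55697181018066298702) (ZL.cons (nat_lit 50160) (nat_lit 6) (nat_lit 111407728263691482326) (ZL.cons (nat_lit 50236) (nat_lit 6) (nat_lit 111447832188026003324) (ZL.cons (nat_lit 50312) (nat_lit 6) (nat_lit 111514689536165311192) (ZL.cons (nat_lit 50388) (nat_lit 6) (nat_lit 111608326526677303696) (ZL.cons (nat_lit 50464) (nat_lit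 6) (nat_lit 111498615868335107542) (ZL.cons (nat_lit 50540) (nat_lit 6) (nat_lit 111420281829198753112) (ZL.cons (nat_lit 50616) (nat_lit 6) (nat_lit 111373293690037206542) (ZL.cons (nat_lit 50692) (nat_lit 3) (nat_lit 55678816512064614005) (ZL.cons (nat_lit 50768) (nat_lit 6) (nat_lit 111228459220345150268) (ZL.cons (nat_lit 50844) (nat_lit 6) (nat_lit 111255459000014097812) (ZL.cons (nat_lit 50920) (nat_lit 6) (nat_lit 111309469147500882684) (ZL.cons (nat_lit 50996) (nat_lit 6) (nat_lit 111390510843255499706) (ZL.cons (nat_lit 51072) (nat_lit 6) (nat_lit 111297419408860177634) (ZL.cons (nat_lit 51148) (nat_lit 6) (nat_lit 111235378726534484070) (ZL.cons (nat_lit 51224) (nat_lit 6) (nat_lit 111204364466599075604) (ZL.cons (nat_lit 51300) (nat_lit 3) (nat_lit 55539587814252288607) (ZL.cons (nat_lit 51376) (nat_lit 6) (nat_lit 111092809180614639836) (ZL.cons (nat_lit 51452) (nat_lit 6) (nat_lit 111133715183435851254)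 (ZL.cons (nat_lit 51528) (nat_lit 6) (nat_lit 111201909678537945280) (ZL.cons (nat_lit 51604) (nat_lit 6) (nat_lit 111125111600953284074) (ZL.cons (nat_lit 51680) (nat_lit 6) (nat_lit 111079044797853728614) (ZL.cons (nat_lit 51756) (nat_lit 3) (nat_lit 55531845601913149340) (ZL.cons (nat_lit 51832) (nat_lit 6) (nat_lit 110959818945584727648) (ZL.cons (nat_lit 51908) (nat_lit 6) (nat_lit 110987358720847054144) (ZL.cons (nat_lit 51984) (nat_lit 6) (nat_lit 111042449071283574716) (ZL.cons (nat_lit 52060) (nat_lit 6) (nat_lit 110981624872925051614) (ZL.cons (nat_lit 52136) (nat_lit 6) (nat_lit 110951218735733474686) (ZL.cons (nat_lit 52212) (nat_lit 3) (nat_lit 55428218070945508093) (ZL.cons (nat_lit 52288) (nat_lit 6) (nat_lit 110870342365043280060) (ZL.cons (nat_lit 52364) (nat_lit 6) (nat_lit 110912066487920915710) (ZL.cons (nat_lit 52440) (nat_lit 6) (nat_lit 110866902955470371140) (ZL.cons (nat_lit 52516) (nat_lit 3)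 (nat_lit 55425925206153112073) (ZL.cons (nat_lit 52592) (nat_lit 6) (nat_lit 110782620227257547130) (ZL.cons (nat_lit 52668) (nat_lit 6) (nat_lit 110810710798025120158) (ZL.cons (nat_lit 52744) (nat_lit 6) (nat_lit 110780900859602005522) (ZL.cons (nat_lit 52820) (nat_lit 3) (nat_lit 55362078953325754004) (ZL.cons (nat_lit 52896) (nat_lit 6) (nat_lit 110738342254266817162) (ZL.cons (nat_lit 52972) (nat_lit 3) (nat_lit 55361792429503924760) (ZL.cons (nat_lit 53048) (nat_lit 6) (nat_lit 110694932476824925034) (ZL.cons (nat_lit 53124) (nat_lit 1) (nat_lit 18446744073709551617) ZL.nil))))))))))))))))))))))))))))))))))))))))))))))))))))))))))))))))))))))))))))))))))))))))))))))))))))))))))))))))))))))))))))))))))))))))))))))))))))))))))))))))))))))))))))))))))))))))))))))))))))))))))))))))))))))))))))))))))))))))))))))))))))))))))))))))))))))))))))))))))))))))))))))))))))))))))))))))))))))))))))))))))))))))))))))))))))))))))))))))))))))))))))))))))))))))))))))))))))))))))))))))))))))))))))))))))))))))))))))))))))))))))))))))))))))))))))))))))))))))))))))))))))))))))))))))))))))))))))))))))))))))))))))))))))))))))))))))))))))))))))))))))))))))))))))))))))))))))))))))))))))))))))))))))))))))))))))))))))))))))))))))))))))))))))))))))))))))))))))))))))))))))))))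

noncomputable def vl : XL := ⟨(nat_lit 0), (nat_lit 76), (nat_lit 26821577), (nat_lit 152), (nat_lit 394334851), (nat_lit 76), (nat_lit 26821577), (nat_lit 1), (nat_lit 5), (nat_lit 2), (nat_lit 4), (nat_lit 1), (nat_lit 4), (nat_lit 0), (nat_lit 0), (nat_lit 0)⟩

noncomputable def cp0 : Nat := (nat_lit 45839136843420240785869642444874581275800217805786624513849696307863662947084890003596578701930205463099841833883985149098577212812572670027119500338434479533691987664116058866925175714000806499078171958251836682913488063646032543262217454702904499171189372285942224879576170791836076616030089683576329930259473009037585931491284199004124010373137887316417995924636671146098626462977623824641795621831959035231597732799561361647232065208515642436110239758913902265072810885243428915405769304681772958103542982948740097012417252217830915237261150907675011356178869658194591986901670690877915811194377806527798145290791715513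737367230761935552811270940937605766054421547948519918695305681906746088267648984940696869224998098175878543427188278050624862132999443807298591412566126348441174486912331448482722392692652134013836749487096754180117004602142301437013872365919281858742338550855953898669348471409781779138501717905651768485947752605900300005566590362841731056401792181644493318775367772042344766188055362436034641276003826409099811157712844836469309256078051170658874363103456657455905387625049012388143382121801525225251385114253836596755890034246467462009994369621179729912796431042852912292297212898075174861207834665485246541409654114543207288651294503505593465794677398519494087216581450761194612476801259414542255252443600216568770246248263890910433582451010287192210665188917637454598312016330364906621181745214441362592116494794108391952411737170444692785730455051186429706324610210986459471188872180057038756509744931240643661124967014547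667209501897692664311510000975687315638094603704366233125811785619652897479924447546592086486534403644434698093234274720238624970750932706854343382174559607138911919607098406704531605805820896575384409025672656972708698071011005660350387668704427814802652359318063989914052321529556809277649255911862266173149873236179983252168744938072731959079029217463774060076169511127181186595098496989680033760370182521540740182225197223406080320568148816577838345500185085386456554214274210013466879853695874778123802097506584442585312624721033384023797918933232726609687324191164528013460200148730176024550230481306619523678718614559615199267891838480363850778308613754581438635064279438055681948939728082588414892467379507476689914354490490337872534911785694849688285042714072472868417908609843592167312115208902547223741847762490385737109031185768217040440553587469670984080390285480891223176953581142903676074483095330981994939335067347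206290503791768371483755310622679851386168525900778964032125139800112430420917486195205419018998106316389461772682077032376202405507734140140166060065167497873510437387601964934959506486519156065244585636711369860402472521912970368700694026109170160436958056802997695368647131847189073382560323607554930165808284695473685549592007478346640984494751708997207012396592247128782927003487013419406450497535762355640597315637627735513805752790309117495417742415293491754233623913748838717001071845656314983779050950077151748260024281685374387879036759069800841002133996636946282616093862864495307368721200378432403526562683138427328109762818760580307107416139944119308312742725523300247444485289922593013972238440638195260549137043476665973960387355777715199445962386210945354924544056158361525829856952128986762219432951181866253165774450728725790376905495267111727878233876071629461490274192860823807465441736653828820426313280532362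336448641346662978592687649151198521442090543772352958443360356218174622048408105670260051071783285422654139340049736872206134196684181789961195226763217035606323972748820332899044066430005207990615466908903663979342178679575522151738701488689484043960060597571632463910250031973896223415407597728436851811290442297414072648754743918861654730241447609198478611198175482969362452360131651628995959212423140852461364059780005461761257599577746658927504075411363258771913805101037600376542138024362861742556772641212256969540194168456034947359508844989580489596199478769055599629865972775615310813408785692634399054997201907652675071900369491826070119523188152725109398537955470657240864178044503762019637405475331650373978004432967898346089755549972445652352227468686918785018062311463846578236102074161588226144304698968648495792532026004707808253382102216942011923582004819698801018142491200550399969566930261902204330967057377555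314766331198471981288295356204915301129465094206430452676124518057864669525008881970359595974530352784240524467960259528071596665865753428190761378647339463321256111919099864641526628299316383025049600181132279935168471198505501781742864552015736036351063973160425144610835328267793899690150816766385708691880961297033509881755632550747571105217337562253117433380490246230319260189072156262116397825088528905853389173296237695700593680813727994483058011319115486903581353294911714909711854148850461522428275233396600372359205420128937262801856047262187446834270467194983500028471902307074504670547394350874928125691260128940296371927422378221877487776433012222325364139022959880098681707179302491958853378351131204081982703222613210353493633956579294648345236681777360117659960046523727392833397714667000730666846823225422453429457697040519551370978168808959366030224566973605408749861729089079889949922141328921074099432095658596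874879569725439880823741404899829868307986431001709777349731706394177338425964190207728554102054873689984879736288420899245404401646388363220759538621124917428601870301099622729067105548050265759120408296921816337696508757226490720992892208917891478253149721378029242462135179801277285769413685809262211459189237554306165329550873767019070628603717455796183952034231773643074650943537705039244582592721856851252097222790664475031400331470846615853375187407214886019626528813996617056049336670936144567987238799322377801836562802673813715160038559312943383240802752963957496972788442013312778465210291584584201433563162849687078526371720010150985527587426115125997548302345583315399056139091916396874887533708287358630755978594933811760804849601488461391976639134977588746767825278001443298387204864495942889407350813098087170136524016464378873756673317540257242589603229703426377425852826657673641102972242258979693405023088955151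064985362825124753919280097109126914041317135579421258081987309158056188636666980268813684494868968517477485696867463368131017549586259919715362168435998093119616621896060803437715054223079747039698005987948154897511848494230050033050157225996215053989082363975261707064854406655998488872064823230102376438111664149050482759349221313747614409852605164602695148389508084447795934550580496910486958003355363380528746779225442741652589279010830901411277096820618672496270425110081391137796104202457550048533047565420104947714442670058213333781182073578487341011202801633495682520613394716304693837904160964005954891590065199355968242587557859735317239303755518193730823554933192083156454964276729404226902506944514829757695986403375631480589465426127550578226479586329448801509587909733672633276005079777711733676422457340398229126652819413371890282443558316254464638378410437713152836478484141459677675727803067029734193618313755142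992461364887676195089215106825473728735604590058150740776951759693326440892697692702491218073973407608693513723993295502457489642751544237377488774662746746912843976779971773080079849437273141583105867230942963291620708865581073135710740165571252074784225886570724058605700978027942780235316279386142380944581355310041337620539926111829630554221831150068405225890918663175726724062337905298093683276475095732381962925337001059599261243075476223030308498545328799801469780430734047784029683538252576287098465685629938782680835116754198853556045108604724060036794363153376239160302480367739627658677479801993342099343969442341485834235355880015579838190001204846905389466573649832112011458348579899490093026962055126582856218883551244863716869814686292246711249982266030659387570346707668449539735117582250185087920069465836811593514070843419307616581887937771087452616793049973443349398866204576556741522630180626451110969629415046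423406155405729413039805405217851428618906097077409561558086582566173757139360487918946383698387519656070363789526368342922452195777108629584964490590617026989386249278262968891698887280351098219544572742695805455781052275608321750368643419216277568555509936489793613787120169038823464928084363977090976137812543818312593750096702645501119251063675886570898560164483903473519938638940374620305199602012708707972426107135862839741334231700944255512388025405734862993322166120406929405731103688827164504689631216868213422311730288458271592671457267783311324874425343508890466012744760435131521399426380646089599702578658647567867639023481905374227312164563698582929917284955909158529946534252658716135161648355296875126614534610689464019838039171967409810326083005907876890133242077071557598091104373367154603827643377221208473127749666932961355618764655106622329965233515783254995237722439017447504825423999190207731386869863283868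053624241674443321562175452029148539171210282900444158875773632116263289723758269235957914949006596013825297782588182811152279697040283864856319362280011137584468107510649132013681749769738364934726158554825519828843472321384716754754959725583014028671956839646408003164583230112057918215564869535671446944547499437536906093500918830810053857273996774115603381347791542897120188848709315531686830162483754457796721264416453500447979880633957250608006847225435411004720949158641243689146790287994101804170418392816942052550433659613365404007032792718326237295808776839463895139407576375100829706381259012646446944544053939648434024196856725005732194257149707848667747946352737423026496258284525439202595223257128335266732807375674677926149561431089901243259744997033798677712886540099923799332779772205029774973289500920604506959170921542032673893845031336428916372161204064467669687591275261552722287235660244254942482515499427726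339516774255729212763510785689160603211361153405075977801974831132820458050929472595567758217554551951543049041306452258667865463471764180994589293948310796884036600445461815169174376470132207459688837105810477900672074361637840323871744028602597952447978908636651422851764708052005949458633231696767874126205812914523123766856400391612704282688072400036325314535196460417820062195442049735629952049553941658683308028836969850165289109876487015327411645856832372976216338435329107145495162201598110964385051393662816022220498221743552735139821463862135412826359441483177022521274839438422631140975721237504732887363476385497024725665250245267667168207562625270264580502817086471807240307174483469561805664584653230735441715259779423789707074161286562309744317603645282775135138313754542527447999646440363505702752900438516934639504893294699737178075950492189570146235912742872010976223133507014338022976692760928942467537904738110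975982702773936889399153015911003837925685525103044969856554394855055713542429309368915577178357941580721385401076405582463475709845401858077465702343446750526314073564324482305289691167751303242656704443206042022666561875043149579688899954839755931778834328498338107597501156584643008692511475330918215453746375521021672468316287365010802412482791509475265148798686368329888455309955306126481752632930994365845482787870574920918432943601652946755253258513724958119021280053020084808315676154626100851284540562578542633599290842643599648036168507154688941033940181043515014689252870096352228248858153219166662635796395821768861396825527967457425158846695555457875617425912614815584828083711083007923536163686877689516315616704890738043211257287951625617579824889674128080503191799095066573731792623624287608813327304903471933589252025465346826060254545364577845595846298061659635423409343726345600949657891068955035152855637616759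770862574194574476160501649655471726999854426389167630463219216270320311967898102552279004265587518557585762833399913624136383468253086638773598293082795330906311018945296548671665022686065296259068495428890907146695560796250588132875048563238341817538006843834330226009924509415289676127868461540637972115844198308084604504319263029839080976899024441599157443514284353229795497003760287368450012924171266855999330249309885949372063961868321451333191274966032308090755607804369443722294783878619989265825353202058409782915787913046142056066767941828943069020974655513262459412644313985478030227520537097843196811186677276800985810964403086361752146183262074802619851365056517226786440041450086318547432648416325500942348656191662656600604581453384906033121309196592715824009116481399042055745525854945945277695630608532505774245447635162233632703579129542798861424100902456530145441027314746658503076126862538292393662978839758797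608569808032581344178166458794170556205770459627938187359621969786505797867993135231517242433918151487056009683701997634971596829432308199388704375385141003560016090630623144565661513457906953858615860560395772870222779155579971824446477549471296929728672950614204342707016089172193662967130259179232726666355372005931093991214184552516165517732916439178138287718664122072133493574552720202218216716147438794467286035451512843348716284462865535705919203093103988941396397842667722013477914961274727961597859885651284903006044841822172529537174355027559314254767251866333040099252712787197531254607871561291033598380903703417736839397464408741368723329100264412881515111523960067000921982607337872817740610617693234828750881694667419427773253337819265641649470705677954296317782816809889928298066714139311797571112732169617812933507899912671855323696024608444246583491698112496427674913431526603498488559734567654496190417889647974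071277828106792431552259112180973214237416779403013652109472638149924096393378369433757636563485733515099369761057353696087716720180349090117024432576456690884735595304894153741277645201003877449856466368734199092822524087376265936643802328142814147430268432284622521326453817917551464607103348527364066063590035307176466795080156574588935268861374998440800763927520604730978967204636463116615660638091074321792075206853582665925517815514860917339628342885834873023566501019478116761456831095848762788212637926168477528915193641873976177072439899730556471989425967647569690625748815772301195947811432704493114838569609438464659474480667043713966196322251132278275563953467092674309651810112857150403238909644590805552936592685525944642228415437590265540454514315654590667347141836781535785295706439300340875430307935636767076841670424359431857747480775091888802871178029933295997023959856614836554905748720831450208678312587789518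407286226745354635421232849696268018373014567828647935379261465828371485408868877594501854738264666158314961953180316179710512563501804516104633819772845770051830171971219462704183764127607882876814711518981775131533705340261811515541405499725191635451431388991656430402497001699854328067528478222589604872411156684488331207591058709175109605379359760963429021251165571553143420527207977893153340737071789003109524307958276729802912330025798860321117972946502906975220646584855015628634283056713557560693061173021809946351774660698767569178520110097487250786180097260481174226097010082265516903780502397896721873468259726360813825759958242059073152358258234624712045349149594833534852896407285896705016760059628389900924909265702654790369243292508074029534811342659519035975931807876340835478558891222046173003735504238089612530665023817866358608759032092517909272351139763482231411545085481392989563861018914748009493619408997280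3203274819631373438440980556567779588158265121011795195059906984465156136795528543192630336840690366263722067218092460074211011751218325010894162425531235338523865712011779495648830695353370785436575460340205187644960433290655977866034629670195730046181806857712755702462102640842417632056780675140407591565616170883664279449058174244077576063878422224860701685507330165981262666313263494685716925048225293154722885559245655334890532964005507269124126588729016453130021089028586599316941305127705450211442688)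

noncomputable def cp1 : Nat := (nat_lit 464914943034244799474811043646124245596081212608623308619662404779162856168944885956352494192825910340091602528487541168739849477682982501800005600703236460532162741274161913135876031410533239031144256519541956266293350271686763368411765628121808342882751182878764161949294741179137473811123246665518187352946714626621374392474265484918244762123967803941622051314000441624115574045018523252071802009403785540828553097171755502796006774304178444012020408399390132937653933717662782768704584794094548126148004158524150069932654423050802411258216282777598890338977763915460770343186579410100860931095351587535027604061867283904297863931405691268240892251789914348976417660449942585121081130881154362695052715432482661667800547743758151285611518689811951058008824816730691571616574025440012538941051760900539853451198750472451129898321970278606007778648509347430122614756076445844776861329976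803377325815347089911158213317403505850312233922500993410077763529836605370417800628200519881411582030852380061217756319209249141255287124830910011326279375268439890309578060570051702638875684218321690808439307368686800098674368719309215551522245917404510996612021559409056582156135770578025721162155484415441780718059509001908108506572526256715828631405369374871793911678642662351804626718486980155578843725533582866043459709287806834472987808541194364897712094546600437460734124488070000044838152325687452727144965125243723986674434732787457551141381587322526698648656576411298952609791908809197379047165344631442740113934133421676026940933845913202032790425184640563270618752061332533627272499072790183063834882259427925660822875529497489795033799189220932960434610109142871298038910959306960459888673502285226031780178460856959839958763427996640741178645970770374616066586053195539094031455286903609568076156357612884100310169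813942194429935776941984200202703303267855682146583970733927393269562412483479397138702791591287380199426230864169823479803368217459171123587793341935468269143068827875625428643928778995653935080715018762121544811173362570101450875663640297754926755463013376090849163733081780459357684323355641978267025460041487621726978154159909208599408298728608753901665471716643176048040551926794896253711731559660577298981603816269868395742296981372339886922378174614069793398469822437328676265954864420612677668697983650395712031868119713900242604776982261124887824379238356744476926649941220048455432623540195488422216235400114969881179090314774340875681293702691728891948680876378609887832441423852727832427732108348259886525665893800929182977900198283884862821155754305083284277452159282327935012007092418538967262415213325973501387751472533338983668771981981533291905612412966650224797866218052466637449540216803057553862202233568264793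488131982024620636147079241622137117843833424180011991643893778229485222097464880271109545784985215514404953408859777893406029766140041244828127725862664853083753954683994775513408673232539529557900652368051170980874347058163459243995956415536337659932382959156075532671343196920074468635445164037493471137613164985756452427281912113162355942720238851350303458729613953357829098606429694248733310996745125119457989904205485994940749085880814191030127748775212436063254756579189709555039392997508701422018145820733820411654771004789671341149300536056063920361064754550922820983040105015510419758559503423514839326987575836954157320475356741834856796129096407142704873411664515252840122629997799843350863501797160411343809211828345121936481897300548325964719483088590294160955757598671690890559282528946886685107589465047784506019768848021989614000097813399070525299367030430954483138130625135633969385337910613882241128112214358659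634451306233161836942357149800256167858287235763004427995001484795445897331982388081972065895308583352758300640267109917655207774004616833252738263286976615324340634226195464789177632106069548008200949409669074952612524222649252051618325227879570256808198135971738789096182758074676894814248048066443387423260155772326889503217868854795144145015559504106734534435809910580518527199353160719131008573793047554128405108431962932379352604247490648100946412110763440352063405439671583075683647001706715602378370579271863966393733775587601724177843348694388873413004681257104062213569689659457294331305730981520595287856398774984866451733393664985619021337132254095525344623520381281812269371439481649334453108876099785078460265973875576030969631827006858670752382324803690521363663621928047398967318052680439323427290033942386378183342716517810580593633661691476269483438464476569384596941290272816795878393673732751796084866763493871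686525280285924033474202195158455456910890452062779834797441145710226396556748330378696147601335142887942974824072628913505551107124130670982864013961862830379935567241013263184465779821200012699569252479776211075550858637322084425152327787919100197213560294782467241505591300940986827620223736645551504976253983071790944406344948680996258486517252306459863071093584118335838012723362590537701308201020817772552418198178809393456460039910996210237139943662558143491159014316384140020625117516365498713766717682845665781856720840894015229406565686738575036376313157047084899353186883554728517779344402497574103311884136198139095460465777851206204370503993835617162253322141443622411906500620011662201058366641666166613591910843665073197973618614240860469422772552032628046624269870333619773162107040993488560864008361358989955788739103408110037714660534813091492352094311070486888665716480527787680167792687172433446365517852178657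464118416720226078030467071608047013289703502601155606991576230529968318270221598438373087416474522179898915788182341817623848081306818708237074779512073314607437719452759592914076608706325405745351283922941112102210099161185821447385055920882332502287000597988179388536736083609217568332785370504480257725825586280868374041970781956316200054447489971671310237893428286006984309196170996331429429254008273392106149444264235667705974909041899347148716332371219033579573447131244164205900668806001765775310920852122126566435955948313247620281502506048445384053238023330695701700471317666438442615757848381253734815728857503945800025542774204049845485923458707657848111021033295788550332402199794367302946131278515060664231200581368794394999642273229008745966270768391005964389685828979890954823431687947362754783353634401177944542109223460827401423732314810711702132268660841467516226966163242899143061591138673010038673139454887306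067619494574848231573286348345606966000247317684151095740756321731166045651297844432569495189644876312157882910482154746228164369277275663249551535924357219897345504062671809986598590639276499269998904998562006658331203299045980707311645005922660085093227264253355039395070411703352436974656604054226568371674438930366139015907367126148042993062910880793366567371143297974684822218535927748472089831139612114819328004627089943109113268209750758935655489704860804551334976510322378823647518974097098027847805548964513119957717667235244191060573098968051070087210038338225251282196696369088037823871363109143147212057948117228251437601320528492270874580198671533583943732831695979357059901536374800079281365770762152493951551460042793852801871244539809077524804973560636914894770244840833160744001103843791742636832965792922956074634185515912617317568517321877463080049653159289999982839323546594377203333086342579111164825441231186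930880038290723024816332061580923365521962290413978468143444217629987650675391344426145766709778039342217864082786436463799992570610777283395339636873307360703256390320594362855014060162906873282424386477428322831884632888438459506030417454560937083903899194013239149154219671336043133909861528388885161676059213233566705874331438991078562000417688774187872578027294731079229885598501659331378611731598848939087983322289561717004176390804748691969395787713761278948716577950955076311868278990375687969502226693158694644156850486973467573922447002463956807231309139713526273224098017705383895410972800713601657922872328488882899853638306519369110090688642562428669357976473440897461546729200422207293320375369231276993813996846312014979053847577180833445289293666944864991523149862982626672435181238821658088043041396136198761055607379251071479927999437593089929566399985273539518693219244620287226284507090685989591950467547274024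909219597880229737292187650520578624308079520112112179810784490142952720035878902636998377262274917787526004479854824731812310416804641520075244471751765028981675031952774036481405060892897831448341731396006909965494280088737259512278436133858227440528005914092775763719929868872309894181095975316693484827083047890152128289358041594514925701698657777312720509305695708043709495755133691899180764771227616123150360524081575630650822633626403342672673626562110936314455381031885651884282884585446650794891787652443305092069336498799262374126914537138008816737353695874839404129709759562571926398576975188042633478677518155606115194205366629290039426127417345572349083781959517442853754994208417626400983956784192395825799382365405523592459915341020973125432638647713010445056972808230339263572823080205482304907572144456304281760256825383982796364031590881899691273342824422003867417416990596772934943785548693125685419123786223414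010673271280130976792439212016929653241860208795335749644448041670351306706094499509825423164052947247869584493227855040708962914354412866691420499206781272653386379527695986393218187170725679866225051642364746147196761713646519212444232849352374291876926306895134947827805708325882061842920003911879761790329069445578902253248671052751467993870477147896304420210281629121417782627192786175067506750055263331100654944417778700796248214432804143300642115431746589983532977251250566153212601160572639026772150348388419795658583131021315157922067844410318114082412525204574992059801779646838345256752320190705627475359100364717785746098856101462175921847984698819785071166855308820270395718059538096727006033026407903522597601914591160087922201881010014426297055306167401576368034423073059680583514626302732484016215168195076520362478964175508496732019873329799790793793394372204496966456995346801697048701078300330803157089096480450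750270899280768373803709601093213653684706176149380188119089427344253861481856135286406132168404793185487727400766536830342133728516304384729147116370638791973205267634876698351292817274483498297095303380780605261946454142505761083542338028446151859127894676845423446998310485936715693616525467159342003058690822726776976561042109248071777136623291440493943119647023940059025604623146537957546369267180787946904011273874375512447114075683068172983191618740468442441280079093817272760926590894820770841502074037238956421525876737990640890872628324083029464415250682736675856574785694563652862801568535624994405828964451023505642247303356893738161391795062680845007082223953369048511679572361059331555860737380879184758921011897180342784803977566365478859263639044174083578720958373833382266348668425908777744185461269559726759118057769214610966406003163158621059381388635867205846416821914125718261466030320624322193819138716213109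155493258785802933733348765966396897094892685618644246339142800265196800447748741421143515941899989207865043269262131349548036723110159060614199390232875310387584589187607491749416257801650589651082787812045987583330336974633059230326019536857134409437891316238033972343109818117825028145976542322527612003594351103322200943437370580218581872326347639831953833210301163459410365526346901394607884250124235686519150023013078526521891522958095140201775524795587135980110756709538226649259920403798512974940487980685905816274375484038866308673224731442932807397696258489133819794082807534928127549301135061393895645261377208858195698855689123175153355277086736312577474469335455909069062393915011313829327878013278099319166089578522080678845592564706328467958889658223002610273989110793158686149799243701308951290313711126472278724970243698049546644656915631089526390024653860122880996207295950325869009302317933363590951278369376093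033263782448446005366380722493703081800596917433982192089025775201562621870593362221728966354242951279763730109138658435640558775050718240206201722663848852568705289032946526944211821456052362071883143514224539727807406588822836502261686089072470311218572525220688439781811903984131623316610198055795305532720590638818207744801875975955436372022327113229835406925199353140763450432917894240814750628152432592482414733493792578942862798002871732349768802972302516512464550408516389873866290396354674927287590872115804318009898222410837358437589685800292459184209067829849596477091915870316032943992038399988654177651603460956977533771924207036060666140006390739854941694710722429446082866433240958512622130417696432844357006418972883535607778019852118988796425862570168219144870195646966548202029122623320897224865820883082467592067952092322874229689811101791371308806490300754286451095984300859979886415397687472728576441089876385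171371115722008419175745512791861252059447218670485528260621418725168430423713240248086367393915855007605453374407203000533044478106798729541562793983601282300786884375904824993385704694458635536949827765135377866298398993287187952547775127344134626760345864588620977207811841569097420616076712873669703037636347768910023501033418450575576647128497387434728484298400370312701513649889686734484537898698839655870574491740697467175553466130894670676829940622516462485347543857751347455062755715345419258231872246562110851684171082258195694640105573114410662863911748476446071180497517373551465328134139850126132748730594377124350169452638464335038864407106521082713657790697002225030184127898752367350586794047051033119862002952711049907451648101218652242739559635229163039586332905928035508062095162803498892570531130395460553635851498249228986504406905140078940067845276486163191850917003728092409381817957253168028988522443987193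046338539708263808470803509151157243941610362299570433024358544050205463747602831924130421443404065810895502434373695977126132416509246852047760556410849203912397277610654083407330842587364167887469944200069700667778278819448792736604933850590464888068997666137191366038901036972340979946598387731638004270391012588212350375440996718097488570430135910123721907329023928506266875837822272976583140102072010530094114598525112563048441840093727510704179422064606825650912813459083094137280208157829950302822839829677405884744831727928412087931300917410055845332836930986738226318664480643349319180044629606530288536889731182664945385772406300034673821977833649902664456709896850231411128952292135293604902309830905621983439712895047416938178207882959504930584496245908775807082170823203068608131389182542072836230255098452584615035505383626640479539329359177014720314551441050325344184211877648364486839667437611694577811574116124890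952328013984999304076495268545280785877435080196445022155665988286234163345587555529516633202078716586458146529874880271564032363722843360185889819615000193984710876013590811556134663837896823937523143859487277944717233842690321357106126892367375371538077643191780960215755764365118234288202538523528888090618543617192793657377850343837234785660668057768988396157028225733297660478222681096400152080737152416184664488916454113386395498432157523701996557193551385518540148103083404093969672774904358423443656643820870359228128087860085558395568319034602057157365826264875607847648516174978773782766602307456042250591525604321943537435043355328263333887191173484138826719645460419030969456357104164710132284845126415538396948885861961973228606240188952259839932692721342045665503210007798363923107286875614048287615075590920217508884121452965626177391997501722071140748874545517680831821055513286035531090780272405290879620347469270716047569873122100635084553021242675885614843885270647443939834970736339167889888667238722990767924406704423156085590647329518102253932909803637905215619754030828127527324940502530111152545366399921530561509449396602748177857893323531047927808)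

noncomputable def rc0 : Nat := (nat_lit 434439493973691729242844844396906228213040903981253666685726580214508424845858748556525834543040097305544405847666375251283260005851633470716930049395105154786466696788022211094339517589973772634416339103305985228456086916869745786055870743339952454539934849127927890320051344550499016182013413925691860120531448540566449644557192931980354216848224287358912897025706470752716870087619996998664952855505814114752527535655922062074190513817793976593594796519599838892016810217422486248302026102273677375737519869151523832884911214407438434754740640396309754019010355484292787439487512727182445653507298614138602039550084278720082355798964176981489322610448143444186056863048178750505929144901233930679405883504850488654232261180826481666889192175149491221663499906445616813563021498489001751489493825705090301433944563662827229964182874101176153876400897387493639460731418371925857924956794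354638010718582408040656764823155300864137449592258231195733414676792424494402808425167141412541338305887601008263695343080695759555695969256929402853719106537154731609594579314128291592353270382536179560598705430344790131540890637464918961006781352987271714079192917622366516081598706793898706456952904874094540707920975940578694952067312398192815201541341766991100762383652603138562788879352944641529370059693297537048418145883936241238181153514900644271739871280719198627891140757229815699930197430006954868330649119426424691450411206981687295791176461305129605294799072849061849432146626891671917493222819659915765212753139140680469114336242149252973962754528979993878469719846730428200937900128111475643573813970301979950805891103125061681773541382537767947048916935037797541178728555579764294042008878828494437020217972437411881884117019328390926951994231970901386575957577696568719605692826954176718910276402943167199595874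526045752607343642958411471133463452591825515227974493678184380548922401553482506127841305779960800286853842382289684802873337406205298902692963732144896616413791280504991510078211503768742421367416863399402168459264175756669863856933444098532722716948090621555046843157153955743250808519978814648162103153899404955289593427744693580844456321714569561140169516804463601369095364039988555634141584213826416633196569495982441238234767207226665992356231862872598439164010927314032167750865387435190350564449564683075017108496487593734915395467979814583216215819356715059776350623153464326828977847252075606306713876509890911003987833393923405373065898613697986299125582374837465198312542696980786187443811216879852119521644062558672705176026048812615651036761182851291361100904208236290989790739126691878917852197940523977731934336577328735734383710383179475458824879402067160856888069232151688574416840370943472693117634488442755337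678918607930522527754718198236800191804464854158403650374660462266354553885119389376844099655517351937765048414794829746443091248675555776680482758700832670566332415139638922731098562747049763472298935954308472071956623689058832216131506167112114031827935896678204266015946240208401089889313708474265147489195169785969767952636363180510753282455053845983712231520248744728885446855705276952070047632811251255212772458164749447278236361462064231243731099141058380799240124510380018368518648977911555934708270161167085309578121188517390785411229923762578650876506312151248680582411737438559671252031215994906564856558974966259668190406367383997715352950923716408086633138788707263847779568040467712767723325039667431382482268919149533875914789021289083091209235577259015846378787995972854612594909446016487738549600461861675710009625753774661881361017464018449646390200068741629996249006535145803928989992564104441037721967601686728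280769004058709425656354348750192697381093139616660058703935955167007754329687782104282837015395562454232170232697354221207870894807132001885720724889673747087118885746925772739899859560258103763165382166669416517611949358175433272047162108463304993766767599393399206135605954293566092726791846894267511854190282928702168114849236260222706378756409659833698451550695849130034448225325570420182299117740579757455913620318757101608222714965211775723217264016372675742494653417261141849211782314318291961884911628639662266293467701584331400409567906798601624236964722313716494172303952885848619056303956430518855527706898187228676634312014741162143297792353826027543832673203674140929220244124930742735997318382074184319753790497595624766322535155834613542364230132558751992475222535359061302881588392816941459897683903975031655420745864241536793448257140519331542324860086553865878228342229075206262437763926655894961214408788092582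702918263937574919929626431023862404339206230055910096999775754835521105278267409153075519322795573694636627997944048731016818245058267138319993877701909089827548571474239531921244224654082746105069679424959790654501609298679843044121112118953424509303189664936618317440893975788187448771453435156577885831501051649477185058233280740255551399163903561379470969241740062900027850748222190114718333238442925153881107300046993823054039260847044756802375552021507268584668794899138851033378310876146933641893176525482942570925490278166436484497478392676574662236637635479228684647841589242311312037139182176700404609387341256345767729850687269238107077759575896328370357884415365384390517757034928531424066360872404978984062570891228355813053553342569120663538495473151041561910066456518700242107952410438456855254782363577917211387306872405472205140488402898152591340830004621891846327375350354357093409716320940930279486154131061387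098210892930409301043188793900755843449147947731988254165883064640819577649909431694397800770043064742953310768624656210531892845889688152936069816383090839579739095584684720834989693908290501613438219050978737507511790437845425099457139000069005455411099964369418908101858073752352086584646062803745667639063606394214941096133133154323111597564145025037444333297232042119435367281031886001222394148958016533456629465748808077902585111653213686615112571942380970593381843595140231560296420077517035627306163122581083674657771728160890271963843984357619287034879222097347621800404317795875727419033686281999301443540927630110179263804890190603260595201779212979005031447559051299426361890940885957156807923628629660026381843136662484514680649640407114472150063475339433693814239102550364334637598834755146929371240896487809915822889068978115175971380019913187108596502454196030484627059558787544855085878541635075098962470745987362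746999761629296031144356647323607320116676936681757842096400270904479513584036781025327063051848989823846479147960143033705852258902494231421011767424125543936242708532662968612127783347610773435601161060377327570025319022015567307638933763823333275553277537736887833399352461019955772170267132591542450040615383552021606885868357302896283927593941110337084419554405405312239944732701997692200559332238098658724073167850650494766149863916694710534267861738474088889165963313882880127723082676360146424437068001659954595819866754110190637896080548049873606999618088362692614194756859227063829069019806627356135462291225887559013827619570817054769561951049325221905049509817360287262090207017468436174349508628281422060309606636721311211162889671400907561147253987986208680536582787228473821013662792918317191866249760579256448875134036368058552768218337197340333217778376426520579137800111986616542276708144643616637714455896985170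282518641996459633587645447961795349201231968381677859858307032598812570645232435176871027680235253932245510731122968419437541204860197669537648856209125306074457758542533784679327363142559489078223740204936722749106303306375496084177969638820942805582330747847794296151764725432855475373071326393197090717531944686035948124853391594550169019206494267067700863093004047543334341956202415715993934151686538896599761397700240860750914670831245777619734964752656105263019998569781707286659776336871150168801632313269655536620662130512946418534421798910992201630740276710314719325553334925164997164797573891663771692204725470505730823756140667827867615216025355232096895449310970303037521918711224777925885975413006653263974741806840120940463906544650385897526159645544139898154402950354795375981415716975084881776035083634613593585039389349413500265163845482976897944910895216000674762984722620191850238404744783330728427962510289486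723757523931821519116831208281525392246339422560707301871526456548532285745252110602702939148176759753268677536612675313578612684273312255880525933057716784374233076559703072344253001013965056378844930004603762649271641047381050704641018205643632094002505444749404275379246968923465629150698006404652465574847164431212775158005609127654347039687822032653400972149461068550546203112023388447084403126754147007373307346467317472577457743468558031088312022480353232093106611681045486478612475547492209392435663503093805573381660304800525610408661186344428062547515183192992634709838449291014885134123564873676055455907768498074322902869528912647068570865474577850396386038364667115029889669260025794130095541836827557929890939441606931025548961167139831684855042128881054750698319523944608430682172108687364715581037076184218244518271127161474893557826243007039705906426951881676178546990174138694946330020177043223013833847995027192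862145355597164067426048739146169224983298865092150587363301115577261462203059355035335440211497416456700590842387686785075158873019267188731922570009059795407969234734455179038470804143985085841417866236067132507740576519388181547266932692215018459590163663142169305632043953720805654503547732137162031065874909606725736372384125741439802573852477084249862171143299398917047633453994248810773395809311945603231330525588298312516113362614255547621557764036132069152801387285706791524545006294087010760316834420089360454505459155201650105563273474205638980790720160033702202093592522842585038375475789450316196552806093171175253411060784083422629577042952421674610348666847623259402328145816159120492951126293076801957957192305680674759625559372547180624745195689383812979555801430933702145369511687524339446092866156308258392665986675331974584994578627241236658768038088801059119717058746631199089156265935595024068008273537273345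580252821332254642972063173814845135471907698593571344511428089020649017043839277535035900664288759222936934549961290602185708938278459980706273288248836259594248777322260334271037481969210116830966955680117003772620746482597428289448703134969134624925865850154356173227498429450605480799792744560314636359385285149714446418486186159059213805173116514295082466599552433963529615730282593469839929322250280394835901308267509297021660980670840105675508090708723708321794411663219120043513514792699399943986881688206893538178282723824324122024978980672488143232405911909120735735518737353747865730259442028859708794888271539834577284714144195667192962412937708010250166562560437296311245594689477421857551159631934867693425743996276530262558069850420104744791207493167593535361591695306757637417553637624501192760472639782441050514177194116490224577965732630206712921230224856732339546860404964053939753362940189959339057348338813810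605743213164843350651254733160048477095603333711272737795415417173194327059622001086092151625054852542276118215879381963890397837557813305956961459115395106464533502330430138077493367560745490924593154276171837100066353312508126043661237699953515165146602723619256777561727038957848845275358734270284988015113600266751805797186200803983764220543713657251737690284918372170933798403671619021525555967288874818667026123357966842507155441323522939638910288604740793005598283862022842757140550288618448455991750159427132020842459771699525336202162169989954429309966145958478534248591304007448567878503122698967383769761737471026529027208277028357451346172101642181729557897232233468561064999834753083487624983370716158447258420062970054648331145376666865010320828798452717774021103256744273690179859525543616764134952844435130408119601242187211201448335286887115448162012476569749122971381379456147571682734425070830116798088385832270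066432393045849273791988322512446793302754995199286910287383536923609119562760990851952651730762107981143055598408019373267282262778211637704935152009418272152835335714276779985587252073963102093659801685360111124746700552333742160905132948593354646788473467778759466200357186027967260360768477165557102904115771998958822082835686189107202302389434266582906976653506486520324303885894059532835297960541361752745642120777766953456911053433442353228243285357507893827405818559494023783665107243155244090364272556772433487673985153146951378791916650837321494301007176426948265786010439769233198316150403951913597274925564795602560205097039965969348135813734266850493343454293624528563884350065766995043595364937863843617520635633583693772451358251372292063588801800935923033871232331912894686679969147063504643484958236863666030241825260276771836153833313443850733248788580687621787478845469061682693006105562107956844769235701207286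750625294517829413523061940978687717325657613564402848226305056348357530555227440374197341172537053904537346152145207993126931093453970887541774482649037663463320710354184289433804057637240175591064828214339067127200210015462666386295072369690948528622050290680049118782704941572746761429347017631164060576345246627970833314482117663586939759443883606899959390022472920754185854695353746225428668889756678739777026280104291636558530821262284302405765453140376828156199274619067358473520561843878499294253722477226080801764513513080920426419332028034998124260731770336602594365762319431740227583548109717699380854502726048445160113445867988627045220188451853363241987030569479841102574716616245841969833714961897465048085884277126088293558434397238175495043849334187938075558109338383216976297883179229187464015531060412914646780266589930157524817559177838216045252951174155492969823198785730126724689516807053559778576289518580517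990368669434384968863184892808463792924599166066362500608011955110296914413062881708628709025502613672118107923752149071653755203737091724628390746023171173603016762598526187092949558517628913637680849476343042291346190724985896826557262818690963367093057831666313739930934885054787815467655056240880805088931492659577841622352877450708696745854944716150397078858617875554820566480360824383038814148389095209325865803057353015407781717741256269729493642439737338576575521174869034562095401429763906307190468818500934898337663196532848436629803483846933331376880012350481772232414343204694252414822347977402402424954536675256834200689716683895015645248949515617180072178171704245966077066480820665169565197561793050526593559647354165223669116620553800710903397093081483644194230695462891168353198940337493272933171898433444435390531219792775714156319464092880661119051978149738290137605522766496533053083059693713344875454585293435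876663558022582160162498985880599409580745588359317048552011646367992762272157372090824494570299533807202128286972963027413778924130636116926266582148651160221560042699374257141148545907958903509722263156805006371715398184626162080174626176968159597375871286179409711021169713786023095090163385030514297685090614858746317002805787118526293313050986793073345328808000240975779341776806652913869469728764141332121363988460180405731813984097612838297796227754757820431281972648001060000510933463198787060035046185866623022248133964028912087284339720504079029935412725425666110899708229515214374439862880912078952487078572118254824092789914852327918137485265220515609384086167094978256898498364384310092203017601278270828292625777906545238667943069323001085087791271156613061963191895044001446267979105818603043767839916945827061432286457296144340229910110945404257109772112859011084680601248072850323359273907223316151840656649119975222745756932336692282666847559975058934693412080962701769797925786067515533194292730740108780311977467646227658129137342128843059966828748231962959013049003778898934074513640400103580283150449532224872702208514195178281922696586662275979411456)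

noncomputable def rc1 : Nat := (nat_lit 437025685817453799024623091805595296599953663846781602407708494164445314455003593024454085198587774974171783031354148729116463515085765727377386746086337659186424930117333822687056241452420186263193946014048177063834670019509247222940466651134930243668635257845512599395976140733739718318765691043295787319257477523782771401917178171720433796115596777134520971714415118698333496929745336701541860101984159237180720721743867872722254834881674911037613859093266930645353101773699493646330801374100395393460248538314947941365136160521742225974518192486087435390870525455439677413061313401872924502588395107758104543557875611374431029945264062127564771051183507420947265121369966474811358942871395367614244530141963134102130384745852799651748994039093116854388301175399660895983098848268707491719108319674248684545024688538206655387828782996489088804135544525428408728793756664038732944924023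431223566501046177505722756195537922240738592115571128247495052230703715613691673488844938933488982223791795749157694438157589668418036246555266248684305761226797751793158396559576918479465166098838798322042705787283888386549488768420569588155320319339912262611390011271109488208646833312797153210707024938890551791870907526821304222345248391411692941578362527370407128073823331951797629582769618639198595509279966314287325376101148708188835440699045221118170757077878355078912832367161166389128414186199314744285906733729965717875051574247048710591443856517367839027015436373179133945345811551764638124958207632174767078736047857357386466830249281032335365317861334432353787414857071667182033743523181872140329314951521078143115088257941111723533203678963127295795326435673323913578992550025133637752073592016986869304429665636865269358133937106490922517892042122477756431897226611130493578827674001599404169832348177797550966751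683835333785090690939753125488122396724039038765437337623158544781175258543188816750192411098299112533767670576218598592532413489322899142231577770141017678489261474975251625062307670897085789982528423190696725282761374700303202107197040275344456082019486467198815369567714635280489898305966055226670372019153203283917624551452411399393260979424210882978571940071521018113400132325879733573429462538051140244829716016649425727931398530085456865758274521868893131972460530253865880134281405135868419993162910532333365754840086270365896109714919510199684413205666719075978649347358219563792878868080848724017784033638549542911369089950816494224638259230162576943687708388507464658448332158927729657958598683010743822547128112598995738847846453603329455891759414223446957595253650342515075525197461965916617739989529175093759884497168099318867190107596086126113482297430927411015749078561976394509958429362436748478133446924461646588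043423419991110861584507437654354421929169647998895889604259164957244457540780137646046398941009364446652643217508633796134639391883556918411704889477650701018938917975648877174956167604607785710303130015279097790403664934478671844288568607883095052570228333376294808468416282427979615972745129352789323387623428129697170918158416139404739702147265773798563414646791347864551324885747394082149208657063203916808981278753826457513997317812995027418963457050309717424929087593037158163229011479851149884680957657187748574687186851045886385471034052473132366073938983017417707900955135041964720872971803043442530701746984258894348079926674232379446821175469614753246501966466518391405143802153623607805978574423276829305403963307718563189898900638403063804955889373767755236057992212808480611459535957201629781787874458872708242018589375203109492673589374156449515722938067163798099938457032199997925244493732119661515150620855773965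247796371749053513433808513521591303159480154670607604513835878463599328248671715282820829680663058756798713973034053387993457104255824700812615856489260568956710835077578019519210145623285997077302038911550775210224466368405811458566296932271280093232081471469113766234693893896480494197611197964856963089873391794309641418325328443593712480778233531500952843643070599887788900388866580154775299447278613649004608330722769424291737602608701756327306970577288552200971785529126057948817860911566155572453496162608069748709355986850736265168569423482080677547356389973264017229542629077173644677518548365713804754739170797432122684883498771692071635278411861678113759471174389466067219028368526799024036313240503906328920840907421830914835998389218248079123816177784759081040521833755626377146082803680157892881163113918605056726105377407659419458069622911191382450431738780394455496922807758152925687359396854615093121627295350717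594841474761451937487958363442827100585945305462974303374855536245983863328891193379032017739960517918635667477980087577952571549024568204509612477558000163000645487781596604270194466798781812827322936645021862438948008300666903050549779035583562679016131675895653653976089425231759883887156203278658630927046098512555904109636955945647019483096249467127539218395519293029555808535406240325913763636671242501284062640211385876388667650200243831924325202959367859700484707005685381179146811359975894599030272400020921451982313292747616006511169348659264553223689610428368895882355642350244368359679166122225156843724078298740346137057496488284661521397928283964757610961767713581983827362835281418893807006358642439879002769282087710559506440175983302979567906385252962259902964399763245238695460494860636440358522278043456285445782642991045357427609385734920892439852376871815600661892438469928230482455141979624616523454799598457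899821557024513943839042538008007934797687186459669684170900441024852618439777830663948702529460175383966377256213401511539452941598691180270337331712332438136716491506312252099193867877437017642591866852160153874654959431543878020312483869879078027709024794788865739067616534486148966062106822184043745658787606457564123887038859494810312749133433736943994488047091840652442203313465057727750101177209108127102592150658182813803626670371298981156662361439228207711060425565199490209506894708395721922941869360381443652875880188008387020823976314093354753067981124925900240465884754081046705928132674781490110418849756441957950526838654287178584465821425343190537292754288024995462491678906479595266224076702470771459958059169320249417576241587067966946960941062490298181465311073232692688336914180474978925366907640909124928302750342574699720343149341507945132285014295290056238219507949490035254351455791929489642258844788329284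701547375388331018367797819049268186588911438656711157809839292948501123738933727056080958534131562042444672337937515943517920628506404595378485739577345087053113508335810199965458849859111007918109438384397336738735866375998134833681678360126664303454723678056339752411319091113604473728445198089447642237612025116108575532437558067752682231516999009610164300339643533305422359186337634675302137718888842739449784067647475030900156783918151326913420259795896843551913454131012711310874272654664649441989517098959473699161062494789674515468201533766261941814106678513550478517695828308328472258995268637999117161966697828905475124750572112956761454263697386874483644793035423150112102973845145436332553469175619609642852752513268130611283448884982298286136160675121453226664453769546279099508001116145871310974854351531388160517409851234437789404529675111103699787606121889085162634653189625623706226861185895827566436364605766726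891330138197519418819814067132260657635270165358118508337226041820564493957694118409330840531071655643015879640346966021836267949485614821048038991577940810531918760851985807832838081832942573459539637465524286390449491403797835458747522138583717462449795687836416095945422505083152148128484898990134611261019114180360829020902809593991007805581129221002524550823823580947303566864508323925154372919522483570737051883750437593172149710898473795706281129001905681026431192297211152052271058152172733108021397673917993128017722240743186916453603020963687733651902131374582593221116694126855988305906580781220136733665266240722998917045416103162331422984503081174692263245971390067751403955643069712916779084781877155304593455303440166818235204244673234512865968828073563126507518317472099604584152857321455760604867846966722150447766554837984030354403723817701946363308063566761551327187104403144397928866705724285644567122706712764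860604566811770723664376211515728402804983475273179248879309944590168210960772578370177057521392569081233586383183373920002504135406841699567253314226318122882392522431703787826203984834722727381097029553026029751863673173762632051029258066890394888362662689034962013236758536006162353138242433386502837850433477952245809988226189319792339518260142835014752369018977611703440343052714627882594676647689880169147427167188957026482209225779425444717984710220253054146094817024740680679511678156866902986226848161010735472468172957475535786709104201191828766344084804561948002712933031684872300363337168940056810983708843911306321286766512425381912387712906040174080701943740532590828276154955149833447948883794681074819714958452069212279899561153179587556364039024643095953735879610341745447107738027994201964657141287601043690683695773134085601907364312916867085607371415692218456154648824011214786148292853731224433476028642088440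034858203273851111746787384261410172947351773715643406558004507536185635559433884484936249199680480373522078334570387051974209187466142317121978112028392376877867521214007253518234632730040422677923763301093104123930243430693976932754037444211694339830125631037920607764115437785988040692831853055504423881991488822159159824125375662663491064848438599201475540387938678994652815905721519168426046596848428871700678567521291022091555513467035203814516416948730546627265058873348542221469965995400118530355480435328024530148410414982270230561256552973067564677641745047179494965280495326609415378690448321372459579818783345254935352765788247973917488839939217507948241173750539473035715006787359284324651273951470397054683062596262106602194104802438199258919065873051881129810168339727798001295803598939774333336623466954542140835453948083680958977009060770911192897342024156666223219179271034895353699925191958563930888290592771181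619727969258806832612162233128321405081097788225524116356044305956881144072377736660858499947845157790374924196483564367015050618255590975161255472966406981057475239585651319375490115967893713337319601888836070719699171550823442741050270718386691024892890206669977684215987780142694807529782467645576936318219656481322420170063289401316656089340741845655573352158820449600643939879579831678609835776104072963084565214516003307622721506616772997526123394343819533942433715314454278380672166132947816273661888164151883699371162634149970734985413793616585648208431110191274252521152520909488686282398460925189373312719740679919974276557246019408182495684112053829595161322268133616907871438728314384854768386142869681513378179059193141904721438270198520418663192989506446624364755711773122719302432767021184733427578158872696772311091328115962382482823138020734773623707597026211724224598268131270530892205826529597934770060366786000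297424396504487533001786047197257358346024023930119987495012399202518198566022464306116115599784041708404572482150338467283335568578492947828883148202924018992330486481682598960887783510511855028485493531168190649028407893504528683626194943934172404549232614721755682403038404468607761445683958791811076813113052271252910003444486147457938356756352495939889594487690527419471632260895165686653586159148234719134304330953225355631031471472777526111559488501598746421024685607637561374203309895091723457501359295759699286756862249142398218578119221478074510973549928629519427230365050166051599173789581849377947242195342002900321795325497088038753941295557247118385553959179063543755744946035132712639244183225733955371103450510518498620201574706671852684452536612266814765492610447101890179647724613301062178409530495579061684684069297615420339190036777090849306811079330429362721928014136400424152097275642499151555864437457729131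164129074665986458631034806095155169735159818375794112182878862905666683530067637863400280071098206397613109006631942552299969536925172121341322064354770782475428846198656386176190712280862892370768898736741122978095780290310629862052086502747173543774956454677581975017881304480075288625839815868103523764928148069607150799102323843422755458287276308288861068868938683909964674735343808136582325299607533378192657686942800824071688886469183131183285469034675625810273232258556553327407182956158626208039001111810100046881017261674825164214347033039880922805874596057356398770218194420211909288373449360950288106798100152271164472325369825567254873382238454053858317540234089517290210338054306798162942108105877115060530932373571485572997573726758423881153207096080557233693995380790131091460084042320961228372736087658700535331304323481177604026779858932339005719636465493662832467418888984346224493674312735689752937235875112987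310234047476996240629809273479242447144361791936064490772295918975915055611618048590379364087104043854155311914397645238527411637416671371372879872107069585404181288203066757551928607568746195647833682348825421412044392395786527341699233240703442249965184689271951059301854728855983483641799944762852253331625342317414926284104554771325004956223826324531621999704781617292686809555983050641204104545757139839094880603041055981880456434160856387456817274614197109228143191271793363948212794651949157642637600415202664398977219960087596968874875597615629941732489205299820556569531924283909982777707879574175952258182603147985024241260512848404240219914510151316829452745644413272506529802795050070717162224800924837662801442499886139316618716472890640721629445634557741916869037571040533993107038167299612818016882820636703231556148654656395002749939265982376172572657763688696682853562592002299902070139284547459125068908968443582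092623540600128891197260573492870490537600985733603293222433790800879144638783717349235211870689177212044995527977037301704227796577876150175563259860654616405401985287900406636826997059514235838767330598015507515880871725082765473913233567353539449226132776095798051822252265514400292955346094039279927914320864517783467327631055242274897152546494344391039533775591132126071464936859632841765052234091331225729066011355820620908532908879401163085652040826829436762581448568468460210134296583937589027896867126484928236542750886054772984049338373037998728898401928105043687202194845960888159768719685360979258206510278197152268650425117450139719219545351657155673486775726573119489326751321202412677482234102404851335038102990427688282113614038836065600478609912156605431069976255380290870518607350877417069365515020368993935694718503680252910029479035816932925087471177694845855600129265669306197899042858420176369053269563655558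779352814085238727219318538883510496076194459384236376146513732745729380047046636257343394235515947613223262188528156901490379149554341698701567181591508797797763059448336993283130165899843383808727088586268391324897139984333608424732046945448939595319603925914429919148734029509490319285362389726708534413441192645478675236826385322654584810903507392532037196183999801053316355069144549160700090741341567963741358575653908128191180974732991261509121355961352418493522525110329767124034209284753057526716770181154018129120243112376793140355386787349419865054509757856548908666478022011304630750995992449811020109857632699396712389825777196900398782470344763283164078615728723377590848501422989117410163003117839752460123013803372485309416941253924603564170153358494678323698767753654449621482896898626152028661106463151998402972271427650731678060350209282982263879486745098025433173711068410327247016634407643847736682917756360954181586511390487386385883434858672693234512698625781033799984838007472535966276488201349752929768429415736730565805331139184615536956994759016681080736120902462299850540323037291502150991113078946256868288426504565591651030555564916020879556608)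

noncomputable def rc2 : Nat := (nat_lit 439585912453300889034058637261197924957812980458764649970510977224630938409834582274835284914611558471660494042395106478007456943220916622081993687638715821700202305165451991843331421975505726636768756074977145796251050948578812935200029701167499892833736800878195475307228931356667833711400061925433195883996558872539500249615643756360464588743129264217090612175835746511926857811869169976501636402111903902362588508392885250245016392150360254479475969469159379308994041911145259110339439136679612005523694645836538910878087100958341044690788334104551698737621326999795739922225561788837638444117173864999344733906600695500698455183808858010125193018685368564042054660024564879248333508558128925461560122181758789989156727607195179667792797875230676648083607841936128925162888718267912000181894933092198200941899418706577121436837910275997761911207915876488932767451320997903425651216434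676932287025926423254236066501167571224059868318731402331055444172575678572998281871838114241748554281151032048699441901643930133572713977843889022800391461265659590910510915855456814279509054680514310559985602589954039331770156491430355823713184793348925527334157670853789519351050590628411686121482263554272032619058379375225208174015824252470141881051755202543854621721439081975922520424195852857815771980965767428565193138810659857772563056229018700068622252093037208954738616673401576508281134655501068244658544819414293036621007138072134064634263311586676516890697095211348616775510157344189181065372208155848288800689953235639727425556389356913075487441565110365960342653885729537275795014742776956075015720175135223964570581945224573667356077634490336664477690194620408798672340322858037146515545187060453330766533519357870521686869688237346803923429756815236608935760026435559385009731668125758701489577496684727794307953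972783905905946583628804696083837821650853764645790575264304876576110276400094429794542773566130163497717625933312077295762320249803834370538392036139304602714928723198124049252916549099705861133395869338888196674720957459079314791974155649525101622107389466744195669477299543287148825880646007965966200346939776522378406186826398030049044191973595080458675106575070849356799605345851913197312559908602139120628465070360468924651645689698154915620428590587740068666028521137641212655075760427417127320967342078735285173484800336954808675928638038428840803127972092897729476470630719374171811611014986762622619172410324504501986528625286857601874600363858872555096809243384372506866748304443901847231784277596950581595417080862559724071856706917816324510434342848189730434364131571557799954664816389654345981717303245592994054385423771952115998593141117375006539493780147914685149283985415983352480860029867964223890654490909707569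248141120592975377243662967022848858122507679028158342526364968109152001382126087685336384984416356419688386545144986232141248505876605635103341848572485627489253543094068147486791298167753907166745084893865562874508086712741439235432811850319354690168750484172181374720689763745471580373492633745338671644230810425954974683420236615471843865859291628738065986346979869322267417300976700523873081498884058099199291807007446969259034242306887954996475977968658500539809109837758725360602505836565157649590785783559148617587354395171297919528153727006084567322696158109248345806948557725576489716501721704595901558306819707108025959626621486439088934296473305100645727031991565076857776953258712341462718366541523030400092492520997178315091957225537916178181494708600304232279102647545563748683187286073327516645792760029799523526528310946340485945513413846511072504270955753270533419836335522029613736878116958180969404139498933218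325601838336504428732899289650407259458911573980243019350692292196543982080183797118560440733359970979483292935197306415099612065934029246909883433895254448938455499909276192396625196541371082701866515776802874753409653188608971482229980356803847191414181474640326235202477612399314740792771717659191214824231537163546304465781351717488948546035194309340437484569093565460084377055837205838405307201967811998152205941458644389989059107867981323889694108480546318299887802001436272081488618913241781266856729022746698684466298430826544499875046430576348034203593930898307756614811282061335854266798059407639742767134558955212416853241088269171601569228461226525482505587244794078023237179073888676702323604948480103179778929399741544571826401736678077072167263762672722324410136662267348807194558642158458464579675160586945596778316750232061795138608725156088127107557032701674024102386229832247562373385699160788332038182490122928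175263385921523641593895896480786665950989740895634745940717910065697965954662383575811004982037878542450844560184932645404037084174777675077976948066989191969726539662914084744358935683683402454496604353437072037870316215869200304391682193130815832580323941585260701770403525352792171071588559024020048361811271812418948065599705645418338747848395673431066208419609705850517648512355923491135663356748327440470132294146765710396978792399233481589972844227628662595152354847082719086569055904438839190741676853322821755460550710254209027826763834202782611014970946159436019829259087349721075843552958955669625811564982430128252930317024968611105497659915365036248496476334376650775845958949207111407338174838107390408346301411405487937878573790291471463244476552153513001516051206392885579044029424945069350660491226903382206327533530409045207610003455965930643747522736272895402860483337546498794327935858746733239968448813025364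635505782597613885966212213382717153863269454954252234905926949519278148487232820557501127544240610366187238500475950866317774674481310531990716877796420922619019651527281245283689834536908633930549080142309349230309021758806563576333619454808522547284507979324487266162268184235191262878979900080597607182283308650068110138741777117076767694208751218367917474791144193577069323098613554722473303891285940355547026620079781334027973735344069368589520631784793568813266303692898761742151505967752646775173341566344630133318973245214311864505810702405346044015663803733677806260906928240016951684167161115465502991259946407098692179491104462670901831125191188142877989174395685688155450531361659136950733019922896032003733281921125784293359117124101271230337294809349185666863998417412455451628481768712399045928112006894450906445501104268928828484517448976947599676829124153308926646477852002067146979985766065942167967298405008134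797639262680903429569031776661649827906430408247946310987723506713596492056896038873820232979240341622858528757352972866671306027755800550682541072469960037576881726933382780227144380692656875964960216425546365707452649087120293096938500372971450677129452873649187354307823897928282860112397993367353087032388325221420599137695139053075329519760306542161423705455922694728451567628583602939884802977532439381557329899307113664559081126957407810800555988259782446037558893519320137847468294622933515834027941549082964273593020455777537908809990430855683155434387497346544415806144855809512887026850244639789542365773951400298564619119360298431379330416076756111793290348844908510775553396300439806247480085935852432334005582538284490024379683642182172536772477187202468239967086802426407195864366037271441362178306392329615853014839984662723569948413579368092503127664156855187077653813849299033930531135061736962967685359526791318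019416478778962736345775868161406932290924056222379300976843919699620449971075124325613730482090317960920199124861860094811093184973968099585505118212218087011727840368895064218535941585060384074310273650914612967314538186549797373077513162204392950760948771572949262545465425662145557277392214005075664315403841330093646520450304501207932827085592657820200742333870582830370675094446157738640054979750951400045900858355896628089495574611211544739776980668534872375563217211100298557745205762574359320685552268892823272200186528349372601394122142568199538574287634626727196210262746776568730405603308824410658394383608053250738617019508891253270078360448086933237568169739289226660752833203253591592192299440816907629790366517033320079466579409272673441359923494054960003027103525472936357244234560064335007675190887120034605013481681861611878570745938487338309778476033009194355729022550460591672217672713791717405743224494023034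149651316836907660425183703281689666270452222452313786863471502689312322761813630574341569082081389447030711847442783200602150183644633613248270942958730054204423418454298717001714666367287540531969920616684736640529874468662777831899091480281522618837773403745486348248886800708847183816711439375199409167031694879856599123186476630984291503474182273339963570214443013871205605191799048966349697577342971837684666851225638604167152244087114334715310620447918768976563798565646522907537837324710548264397142130024462361397595658350552961430473650512117881194412179268423283555223999076776920336316723319044048975525058866000247861270585632204667533320233581384825237219939967420076252768636939798776730088765349457532134051291987790714222552553972634807025502739045799042786474139856106511650648984047616342474653083005562505782574102697161287367714793074463235250892438843734291844687419524203815794434114058611120203781511805105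124489855203475462342868345670542524180270621975567510592242368183149554962421457462990784149714579076640570723454006061804903810474996620090709378245889035788688645650157709768818478956064059406688035440036200520442254305293829299744225719187823828037541264678193123112177511089147802731432544127810862447439484150446961828949195459968600045215007944713652564276929087189594893804066227269985814801405719345894524548467033941147134990536281279948058968234663844014313296736275721706103808637691614855297611886267584647443582032713983187668055982634534780228349872396663345476895975088738457828068157533977278427954845323263425451038315021113903861297188659521285288350114195765233423776564586618508023060735086913568016309327941218720002103848690013608115222826785736456255685526316792378083528766401717118400066311197703630880404098748211834817856501857073237916102739423244317181842562494266154580354023331799061653954656252661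648873481445544208035700719223074142758966172885643040377776746238820633204790221941975729306645748394747134455181477803339116259341159959054534190160877221799499920068019074601287303781035567635793276974856520250920604774015489920084816860854663125095702573104702356762695243460186481035135034975272474263438089862648899628607897897666611268557272064529852248931281220654279588097199777416596713896129888743120003365366633346628105086047782799814389231436884499140022580556183443599539004132020546538597752099825824963632830803765223764999040160524949995907156132102966452191200021431550461316553073103114871110965399587506065216436406234984772578892106114752192732383818424158840811377364229284140991882763152311320395568465366514785177628131112909163822002245803496756403182257409100969754161509138804889304234250870357380207664207718123990313758672762533073072529724447547076801758976600199270257535410208124704725949877816097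834130552451992835826011837982691422046350432949344931467523236653249054956846295230260557924146987018125745936481608008435585794759380284745920059708810961982067147425697799329372969492670302593346631436072889632566426297979361057443310264003869402792715247801454074719653908370479484903149059955778393406634918714347853744040797988661771440349434607124760108162502393535933524351277447257654836438387191626626108209546293636268981196988724264510707462642882336312285565148663922423773701173295997353825370976747228713498372264740565758219920136195543849054604017029689340301368114153484005920378056949650416225141289740022407472162267000389151220713311724395230646464234545325704691973104504897531514250384317397954977905014000462777483514776554393614499920293723355246893011943432517016101367311358312128641359291168576499470242280848777248644149782347670786175058625715584234956283249691561214698848353600214697531629923359832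416281875318110080754799304482862516522385527768970740611279806795130608243739659079638443207931235204734263388985222668374163359228430108641753345902874792193583648845058302581633357683264768475184980803830127769774607534879603792681572123968999656893024125935439570792827343975114794972775775435525814151894484469306089565095678585368264883865674056583393560441249767352924638751829456229384742904101848956426185614277688102650642862075276442010244543016206704118799955620624748991508076683225170106228931975306712794132076440803451310732724643323089847401335444994144076790041978605370878185904032213271497985507496739794910872425943085540391390885530572204223552952821867037227771625812831523963850390949496570607820708572687961707912940283277468207407936952390770700048817083838896257215993226405617764208902041882267499157968851696497347850643954605225420546963309073594092115662989795719483580412894359675062686632353338168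445833486677110591751525856835559800477701834425241088212056113288435156305253556201502277447313080226281135945550754430324444634341939205106216475919330003104779630235608478705985409813474045045606252997266110556450017035336439019089265585854854062949466306816380826601569799399421611210690680290552406183116909232073108936527507575252407491624488527823262979822028159139923998479807805154822308364914846137672586904743307568918257276033828808687087021940762440487099756823442852795912276554973563014858722819250522677468936272073981131147258169594381715400715099548725416620641203972906156336093359030095408189025929903709539303363917790181425290923963950019233146085726818642785714030583490739376518239617300134005705272182978185693009692437359633081372804271148634731723577459352575482643857061240632259144020098763108213768430009931429110400179210665014644895342245387246487707117972682039922697351279235827521648632722221652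673990637801394883041921415551571088421032081368237262333071190221462514399884927585524073914207508769070601857624260141849099616604019729418873027372137763153052612659170819620126472889249625422729172251311486550559332251259050129468240729285827724710959295051480967612569243938050115895358221557723765141895408268201995797820428244256027717694577029781266178235239525652127598980482019618343671720198366035050744909772862255032081772103256060741432108936808483344746184802460381331320066366676745670638955593507870865364886074085020115092867608678872145835786976948498239827083065466319129252683352415056506071079418523637255784503541726951186362056433112668885578345399304955270916222925786781900690978517570515817243354281103101785314890671743645114478748904419926075021132276975120264617261301709743967318665054717363666713958056830741743804213741036363551687780300964952761724378450197745912127304946673285988067633550265254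759743497512965656453780142435227190395217972914012990854171639918815173422915614378500056695099979225872681718742795907367383549801537415364438960359173000957502216800304766850172396726206629040120347397933875830856962437093134835601494616472044301893447120897106753737941652774262788394292966874701462355798300632289937097707565177111162273350838248232751925369184424953182872523719380305056072967914339625721594854800158880086138803266270518123871212227577349000408430660201869877935267816791309669743116868983154918065332706295382250816895093090481740921140729967532638869855556681704907146340906544766266779813933334315430969389286245604542090937621025944980467439189823935914155636744358688649929526497017171458273925648921863976441678216877976449305696820572279874926775606502846476987201874047118519736859613313093208753130585534063853305961316197230260524544081441352486347027256692097354401012790339891606731063807545255156403911044577832693410845995887937888074977762235571945049547129945921289821363552401472431288676415977623381630290969990600398892888614201424059782673661551636820947262433110079887748019136221375842513750642088348493054057687356251016527872)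

noncomputable def rc3 : Nat := (nat_lit 442101968048862626285053327593994803351259570135025372318325983860772421475593180035805051615983128706625232771490402344561534351465893423448549646204341194627354556351786222400873338897118594506041968866376848957773388844058287127194321540191425468490010465990792629928691021286802362325461689068692674462435685291400592013755816996226512302553887051754588783383285952486498872784683168634519787943504157194886405354346377747985060894185398613247166395760912405623348111179032376928535625634395886082507997837759507989072767936187863047462661804239417367325042442946532078592381150132694098551407519889683429641761163847914826694199138774195962841622699121791487189887032443246264335192533137294815480999662869809114033530054170266595720503282297928477261175840649997949922402172030732516705411090956182702223168435794182814447539594633999533402362377695244916164933202577063329135809355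206776463914928054016375143166544592557560360469363884899860501089796006882930980375889269321216405375833730344544609549166339782907437952214656009472529856086638657245612080169942375795870358695070970548538431017702841532709565199104020439622113492257042723017960466465872569420899292924713619985701709633245701050762879120575522355812278175286049959630436710275036009371798686157795727930148583361582079199208845300695329562266789438963797353086896903987439709242822263368470306018716700174098010983382525375699738719836777597108310121899735906000868839698225869141220189749529438832673540473024690782609882786305577374932541464588276452372695462870208512314272325999338210106447392209164391219231196004689738124706193838006014701141403056208197647289109988269197516201162167821789210863789791869023457714268752365907053275849103807032475401622313223303393863067929073271235570152453564787077658098850942884244467714165165235262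962271015252325539124615703307339113790815320234086858103835348226598722415539683863030572380721953059971736501206897533492713762248652822913692889237705302038404883451258887196215891954241758340179827462167500653771475282251191377531949498777807741194206446111041881590218460718682312301509152926284090098175014912694162425270601168920434169951037441545348405471125235159536698406365030009691364498549234904127063372563865872406384150993250502781614958405651216128721104976830888685271819186766573148572952642431031422587620196939632481248935205068985080538121601109384512135476018298999421975433726499095081346542637459483895097181296479360492133229970375895967581084025732771208780742999281800036225357363086651665507443683017542739500788921061699628684206725019165873188225621538120892599879915694129332257977177390208669099394827486634083468557465914831028460979500111051905856354975073963937203767332185360622227977818945478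935614871093156506571843222241648569599479752109593985140206903351399148664823842584976423843206914701199056577265639096230866864194378478008824299607672227180641598507138148332269538176101712990888824221316714294548691491516380743270501061295561226047539880046888896974710334816679771228244590872556934509048637341653092951288188765607173872378061288463882727609573374245687895314494593850616872694290915538494652131930692942265312472808984539397168225899989944203536272371139440784201203593351164900327982569356930750519910793413452889851721624365646080254102925398268637347140189145260028919256373630156535980358115468583367795394254394066391163937623867771901754056316367917727730328390439305669935232146403556498884078509434332349471364759346973233233593534092735584536014651128425737105171171452943581782413883156758008039527174589776941799354176395294406507846959595898580007223591971946139655959403525335417636580151826825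283652568868126261226920251902835676733134190184024559809376070401916336007364035853590419940090374737941018868164864077157074197109736684404786977211137012744616533711336638419096597487101229412147579978733610969066689449544011925455013452098681639759652405768172325369145486412769992195390873863447104360492470855422329827313148166849132257780105602189670749259637976176759535735201168042345662435846199416983195922230029829439768482168181122763249747672936739621042283841746330426155682260755107211826487098154366884333458849170201679311552559217439430898904309960040252329325863444954047681781349435707258975487935600383839291571735671143070246993535543493621612505615947037475299262835363957839100263593206647954957572074866882888613027499631790615275376882238993060926324314410670912460471441155894010904282022162350691836824169561281564185176984484019962117736034036485675296216885466919028190642408738184105697417625079315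999766199051560483961015571039777126070642756444096406806661776654396550326049248831319953947024785684310439946593027236363408544437757798898302652879678002221073921737248778089807601495931054674726356709728316920636341006685526485286328883213691960111936003792324789964566892135153385001777449691716246251259986255352095059199069697837976379525370443044034171426885938426070863891695256652076802663626758122122417908489950264459443039597664136638862113444995394246717000547847313858116085386621982462438202415888923961965774629679098710796396277383905649367806908321723106072225907740275448669216076640310493670460233362229093046034882686334656183829092958629885983750390626178988928319739354812445265344519423999671691394404860707282307278672343083407095646874559534044127696744989504269686634123069908357928419564883745931392507490794517432896730898408494275093242344389266086508315407315977418859077078039604883988945170641146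047522499479382087562960594811677880053727035600229319973347017643106498816277039712995032783914831598113238580145798025940571188973286261879812227382060662797980205418089204317706211060145775936876548695478735517906919183187668015716059030968666229510646319358074266595159346433580129979643541465589273693716508456557636477591636689005714664040066112228127013666208729712812331521816736808725382201364062939894165864176008220883944876690602360439248106228499401965229837317127566208329985504545028813027200589436351709190579217217258970749578059498486907411305687002814100499062409360624889447741579371946995018468711318771815137920766844122499081839467248550692917499767931450791529962821132457281188545883992049132688949486552161729584284151129594877417780678922509718163131274554566082122926509562855965468629062631135581895879463788699239122139030394716832875591916000484708439964950968410121515906536383888899073007433060837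214122596163068239667620736687852415601944436322522085640022140915243379848747531446066790663366479178851850230156708761847096238276859201807199811972248117652966707905800565728947298821931673142304986269962355668804234080620122863185552722197086431386119268850776372317344987769844675760954011003583035237696188714349175902834626449145890156637882567919990162452259710024805226095315880605423095991784683049044372801201201264269770389222145121316830344958483712310767948831665747709401394291438093956691776107857671345109450053247785638017422377130749758858582536101392935701494483510283149698438402048083320192158058139292524332233132691719053725798507510138365164525966939279194552519218229770143196120822390915306800072908500127850679644801551360745139989363542271751866514850774453480811360348674957605840729597587253135290958737637810355819416584585432312377149266553906693020323958447058699673536376094611156369931604205027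654262465105184195135457719196038565859500522765204722043118789153344421718297568991270722329257199941763235020441795570015469620644844510586318225255859351294283231582985457572632462327856907411638570444303250486130567903029234126764587945131610000853863223084360716789967619727182052137251989339314417444066268058371832422119500813496790749379717341231311121241133437182178130858280528688037016710439062404362688778245594201688033910481895757894151722067089442006155256112312478703207591599322128695585407251363392076118241120542648301579442762184166319759338905411316812189216716858105372408519553635896136847926217786954051925072584434945562720386956931813954704709394712739012111794505010277096935119375349264919928105208168301981755522831440898896274263488331680927608185427087042416431867253028210302820840886439510156508468697938701875881771938434919749392839257215803121416723390234358715729967558672302926604449416710592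658252515744766749396610823088519224784728850468875481963845479647906722552878220950767405190794316213932961288917808814644432851470824662474134428931002150906943248507912610770853748322391542455234960575227093861849409073721970342605031488861757244180325901452137866271181875554140907490487063965462874411887069168682992997861562277271747199830780937152840564765960889243084727480486738570402094577757488226630585272456532321273361919172646918269730342732580381176905790044754515194186092060249822239077226212764304951176522633361047011450052865002976178685990083725678695479759767015098688902043510518034854882009442512879015724380808055463125625429331516863943246039826407700607213568579418783917628886315436840331225612329057187106053764639524658187912474286254895552422925809398895784897466452755138683511438868104442650134385246597409602866837402114132216220756422564257939579772491853710486035117075284726850393327285189788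251546247136311678748598651005853424319107987446226854605933686620270930154462336962379606169322205060100056240148814671282807581951460473311879140330319932387631351305544080857540771085979051299775223917343912248488397954899698519877880361660704076907688995667355638140799708899382365674297853398723344941500013212376394579771997295363619319776935011146645401321027151855599935303052104640641762376316270329249077761455008355852787180478606616267440315685055495666316714299478601804787496090495665505981723384888790944000864534392143410713873100270395888409422043639919224660362056042611447173247361936033231216688989836944609635123296932827999208507131290999985217952189840296029937439864703106773850373561366993500530764069225619442770181366225955794697566677697978725455383225408794188281826386826700609962158666273449324602757418430551364154952353773951069095744128778150519188380936492668842640553321346241536213095492192027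661324270745117836629471986371879985335049637275818596195671057458939997101141874559801110983151738065322043713338456836125198434133558795080364561511317057194618790023550541396845344123649022045131245296157629671058294298300989405867125824649514704389832912588018399851973890927763898179865182019190229958147421695253393854427979619252459409206706883509388624211122080898975761640152972909703839229532503905400946468612114973257167451617069010264349963138025592615060153321465717936456451026465060515070964147859333739904135759343884470272196178018960672146457250850644457551313763925646116285780113201962758043474934230153487546989942308794431443067123734276325383192261760385188118120713097313879503846725586004141739191132306199034723391717396362734184794016528538808949459993194566679806759900235581865702805142997148729533882740828583040767095400318721166742306677708802539732594003274452200999138404806151189649055186595406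211065580345246419896230420844556095252374118070775885133537843532610928073327103098227410448040241523492601419059039103667997738715444742746466154785049991667194656274147125637907224701394708841765095139548749521552097207339639529572771160899223751207931454848530726536953493966800820039699169168452563169131496068980949641926076173797841877823463015812272843462435556445540087663900691476872814144276219719524209973155364037091038091700899382538485030057955327028470306667044897562136577771422397042640770026242889089814869701277225877113229582514443164962364579043911403348113917849256366121811216630359168063438000266601505459143612569705171930994983593228022873099211651758188585446333444070577549202228759857451762861717971045062534758391936468322308407114338105831106771215471757225322840340994435541090075875182133230220439156991767211948649899263592229405461718660258211807375337258377620547713034872721243192201733889431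598927264743107083024532649353234436384966556993644985089114763943561475207256058551188059231170371902109961139907766352118745204396870152600896830430861112173842882299828774457563047719588911460336504000391696179417552350116262278575357749709523655428889057564403843078556674613087463967384067064133386585263201440630967291345421604932176402331809533612673028760033133499404536225973725739766536304449724850840348502390561032589118889276607882564097110413198212069347541446676279924796577657630313708186249298413925794518101624003434748103057574946362319917759348301881366409329521519322868823345365123052477966726905813073431723412048644071170194942574145364356982831283760683061886434913119551941165990454591573167338459500964825385705491674511478983174759261124790880870815759109312523204734726836055340601253547744209528569951045236918506103117369156217358825496703247202718955075791278051897113463500049629879434741087814138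000756834989082518869486805294559249217769709517157345250201042626915829932140668304959348560088164258696276365350235397176133485554455429637297886034849928001568569164465743782948763676480831168612885771395495136149208971456144973120446897828755680380193837740372775404044664802899139807231756945079293023105445654299880734326140740408561492750407577950471556113112394912985236753255520913148893086719015282885664025130937286837244047964570895684455773709279078180817215636153351944467746679690341460975534866574542640093683689955818843392102293276013549403245875790728683135750469062499070137887420903259822613207298089288952636289992677336333435384621020941744224009161368120414855350546540749071780447881984968772403326660582104337858838856794809129737649449018705328810402761379146131268179207944427793906613518610695512832198508015411169341918596649108746165713367714427937467811532428692778160970766409696895826870959711321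600935212908856656923626806954937767746452175466736299557538534205573578382273022995166202789788992374003292798913358310180612694057869284157383264332036308836066974275647403698404390337214349085300666096514447854929338056298397121700288659954395194813912620473798058443195765026740935288789167019633734072907841318445492226362989723340860423131062690989081996249197204943544077701866361173807919858314262867373929204195562825487497612738312073029103688073048575572039067052750521052074641002763746657055094897215857536976059969608999059144253851923220138088800059065603239240403111297957087150928406928082459507960202633113742211014326755476757888704663417587681991446582908168409052811831701593292497152205202536914833701421439179500797315356260130358170386733589774878279652575464081004783051407437307413944506087096426679161690765852678198575173455729655209268210283126691789464818304666993980992160102843036811597950945359044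163805768601742763760682413569339697424168921705053968310972085339259648722097279610888242908829403610743973560607351993144280191884593865870443903242331193258349770013803018986992130977941829217215290618580269123248273479381706516831140794509973829961218278584438281985039674055959551482620819495726584522360980592744489562017009275662325864908306269271168431668588762797192258009048038631703913785417803713920426527862783236410633412507488251176041877169789289581737287908426037895657448209568409333790774038114568467669839098897912985627070432903781785020266003776503262828770614512983677064501848326639365996912905134375158403307008798628140407789440152644585025360650218109702553852978710688448419031049823613651777205762342323370560397873767085989967112694306549907304201589730597945227171780810703190916396652734064602747759332815348724543977597834847255596380816446680415998962407484970013570155694202496187016592058702206066941968626649638909349021329766970538465665544371408821199827390846236573998367564470088599397275843759439873488567943291632219186147649141865291345633711472719594931190082021324630276010372871187564835642556455558113408195331324047265890304)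

noncomputable def rc4 : Nat := (nat_lit 444576423089387094317459483791371431048513555684596772811634350068445468960015662781824365103117908971719889757764169781435496745797030165545031259540706154951733137567513237191337547284826505240372491920994275055887538390664269746608053693278086916713235599077051150510300851243844037436184698639676103145808696876312845952737474795128376765058241634923202842808156570630301390474161034161963212887400191674378576866218722426400418239874584444596596186413452043584084518013309909911029196032599493954174780892511907657097227082144982572787203222156445809210218430563410991466001168701820945248958889927949034652241479667853197499290163426391752997135195838348597120800852128295922762173168876749868423523634758331453091800825915036391830502277928395264327609566601738028664343376665938909843195151312702567596337753340989680130071254820909736928181070995603652131941838285547351311798535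236998058522407250349260835651344581943078825806384165068786096801513282123968668372407305336630443608028168807473042108851229098480711008868884379135025453522912763678582942465257817546493097510675072096898027985487444271341558077308708929180680766440057706927906054258781655290233122061026218272886585203601387207480564526190521854246492650413907414262786287920041888163316050735932363080073364049700320235417451899768483753639779812577044764484488348872853605467914157528927691975486840357342445821215266385193741410631715535126707314416495134791172584608410766653203411423431655044772058584429716850627802780295509696370171884973639083933349882177305524120182580177876919061574961567254781552514764284613927685704848483560200984211740073819426321002021091415388230464695202236655752459566349409486609027579599304440164903764686925936371228503237615785947641895978925087301237276078751794347709265552558243745878407478621257291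244981699769246069091884944724491666443427758550492765110885080396933803790093693587384568080656787708302201736659746676415111268223185336333705117774574491015380686398425572011127567966545798620148970173582106720884381695349648808700194364470918061424105504478920978475702902249522951526316041698168220528170434045486992170903660158002226915094561670441540972367612204316373290118115486438710889038689979789712389650973707093580318202566666274237641095071087331288494042356977084868039205689201462574493104746761043936096138249636671725491194759934339669969239127810436594835773551161928789916860631128308190705751303608562032276199756154844057733047024126991096713435953944529306935033477382394294454152606859249215193950996692903446231868951761797194662107113885393846095693242192626247822618776457925012845060822072907240337183852653285642448934891529790417738296903616107808689778879345892502513884509344505912522329530170153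594937076985779349275171173778628176008234771820101811202310521565048735988663735513739953526508910040495156386233939778370183349795490113895623652176630518314007078035655791321073071465902089108976365349142404120103784525095387094536879441835809029831113331755349989176619873109487112402140428363291556232458894179976750828262727360599635299543841150424732524720808278610084888558697362723158035799300682373089711023563361831078373349118069154869255446966464531217921463579442097847457374633948080287070455672932638742407574449998041985344819604548547305877150352737335593851727838551972342982739900035277703758819099809551973537322202367011352371936188713427372739811682341421379936085795109386062654146561291158538237183004578577449284406353895812536049236439123707888211982670416707224113359368303907442118478208673535179270971726099260978890146520721036128817491766435094112749570531201106926893329410173112831194089348336743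218187786534237940920113989314456804525666953449322941687773898698660714564660486621837727786330995695518120486629373390623388929767706153414174721252417082104173182885033475488832583577035833997629871373862321093582023514312244754959244494809813925611112490694800776469901492722801323288230187924940012508280633204984155485748088821205470187284615564532375729231972608297409323567815354475770976092949319864881873777336607739739651405925187562470206707362582584638534843742830379736253856117113034552486993473120669121520036568398110904426585093830298809801632415880963761504996343675828728322216258728836244492260926122717121790757919349569157553564092713899054171506895310425460063685835765261718796672135697570717389760891125513217206868208640971443847212056398188839176401606768878576491527974952900727029608985086769031987845830094477412955153930579800699170008111617799652541988313936731582347608218310693304896726665158079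109007108879686377364964488023211864539677850665379941552539602117038508883212272460427755010799395940456059514549591910810315630185598759815974606519871432051533448573080142861012686443834624817041245029226141156480066750803212512923202891410265876564875790243399101995327530188870703289956815308768032824775785238384613765049172707819060078914050866542513131061788047312139963535897694910217518899171144261510842932943413050069992073606963950831573449126629764628623778608033056435522949972207872903404209809027049787497293684098625190213521846051069798921629647302056951953109564618704888823415518097530515366685264132127895190684442409306430803202208541814301378869678565873690916765889612487056200828863263730715339818471803840886681205217273090070158262132644620290280408547649042256803394756750704591056899858066413284321313895602908737902280786848829138149630981345878580722735444030387067740954711374085408687786760431948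600807246839347225001851493157886317763394910383726991116531788161373489923002776715756100599411803143896600742478189377993273269534107589609861253580122895724659461661740338687401809424126797365005088882788179894577991355419924481339732370861785109919845436288275469390545788223407237626627568558562414182421559558612422733329223980568397891305988094688161371447333946287063691395943374654161007958638878465275672351969755770318484788686148485729618558384722361821266027590144598064694813759741585902413081645617151265142787776058621726184989612519250864591323146866429201388044067965029564896336053321631207338191735894305350902134076754395066942996712995140029809793499300635795097177017553755202039792971332866384152946819507218772006000850352350276919771249906747108636991111240740960887031482905790548790014863025363446404089261610645924182924744178162172378639574530608236402997338810253415914416513954437222475263624073747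831511221597042514647459639622349866808490536539678967175930981469131003697801335682555891772871716969443195040927025450469358941477138134740226470374843489698041100671007127278050286469575288331695467673456497345909463917032558996733199193090178298025804379441487074098635309616786057099448951857667311993049909276832174464950201897558825895243112223892078370908194028172124484374287037309542210509684917686144046509645160297964588871478349468066638384046616001612789399250974493697495605772884331520588914482305872021469441665998124575131168238054735080855234767373082349005615084774463174674386030022065137303950988482674481601856562184321090156240336765912096524612153893465113852299165540057032490251017205778283910232443625549117752815726121897650286024048414935802378306029234623092931557384325362535940435969945628005756275219301044729856353588015873033532404360731369703379090230336580670360648331420992573001830521231935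013887804752817429091423376999935231411515169803179214324677067329807592123163388061783681984322811672496186476568822464242655176766864015768383805414734861002029321177991817647060082031536640012660722045534620169826319862839010330769797862328644407915005301402902565163792947562726027323093791725593651092540444799664297524021009007082339388688309841493884171260534361363509364342133866683475506863603602613812683690267727010556293415172235896254469561726404695777442015890694329410018304470812198549091683463187734318913360934514113554304484020548191670649890760563715833528605428916092742350466325632751324074161813720883283382678887068429950619061900887314836876896421305017682458530265477059478890553572542096513182722090871708494637069092487572014793606051593680643128816455868474155749245446807496925608081033896031666388887953487034278501489187049779650093318012572483124621042759352836199747289449125975549412788745650110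650536564706609862848823862739203516684226544310689981218628859683504486820740589416205183539171369072677440687807592351658178690319790372127737308670563109397315830910365131569371976311865570328500777837710900808847056377675225696277866859145759525239440787630202940546293059109379874918290476781848183590881396495560555815665997346977643978736055771406545196964414580066234423258398964638398478335707026786912810209143612943495041584944304183973193644943943103104421148123611911634823611484065146913740342720929706478029909122753739980722179689422374033878315134140523267766732863172389948999811465404711755011257451579428356163342649864487919855638184238803576970874801098337623272277778434387828053956877225591473108728478917313570199867492330637135251487031370493950069361661483229689633969041095606326776078689312704011699354516599989162678855685663594324057334961426210580144483238551099490161477921311249580334425344289307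079619013514271080724361649052466697887051979713520381079389004182128834771920477092578397557261695320434968391709709811773376548162811239941988785096124174753236759133478478742536375035606199669702860247297875511361093334154053812340779915944500911009916109049058325432530637851880116916632647141179454791243783019322003921888773481351254059623480892288445255267224873732758711127330633477574929876035772266416328010696632091942160910452634506492441401468778492682157787973497386765796297813715229537162496308329394022502375671375835693559976612102306236800922003582431255276963936966357497847413223110091107161714448216459095979664288893791391988664082972266461621143348389844328840362455020203981353643095385719148173451772402836045396754410599540262785593660926822631535838333293145874967879137637737923830344974308233948279142462483686409091534293725384697278615432865999208654928808252688138552564812340387224957962301852214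525058959540442264872117848034704554378674200022518797147411313845954297392108026389532363847598664417797252746050022919888378423393858424154640318092203466410301066126127201343341120130012628341892491657544505207895545449672857988391257826046765619371657902667172419183272770290428861519015719113176107180697539082368360202548388565561247207664169812763528250535765126317144350063725869339038496502607944551196047647182244945859451075747855720196135760297996052849707217590073184735807705697390287605340025413133073058246853554134392125940347168605475195391931006597470292650025788002263856982011397375065324341335021661780754611570622711334142964252671357078953320393921320846941203186489212440752033734965386721967128953671755717750935535401980335948546788805739269989379640589417642087427750197446489292392922077267122999464609486680321411171385709726881894855484644234781530685615533583551250975405182928445841835629401007855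038894154712382755735815737503258477063754978772232393919896822341125268363829569877336851431845904751973122423977887229391401114731025388852484902835219312070175777021915825750232377070464082437365328047283975001666174336923689939700239711023729605091018002901446522352017083170062212051656237032972293805601641060965984532152661742906038470614392302588448234163961200745342297163238921214911434599655348613972801967806626484775160976128052898757897135729531116469530223692063502783394316016149361238934338364845974880604405020306143817290389129324059363961937157074881415297635508421824896743616269123025826312540244170786288897021380036234042629595675702886108562464608427844898600857259598987168856526578005459529788507856409960605888654707239579102153467358723908382259716404360035287547993030796731614754069892166110043464821363609123809248035975049640403236867892866688296669243095767927203687328074589526225808122887874872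676171067405918977406229217994796933460923622259820408191767931777309163991668433391341551902393733059132586233260489924709636969771137908918273848959343555347654601421070206045550483659929473995956063693018100899886323153387096000298761129335876186131278493791672841470026512237648368655855576470970598747554386536814618436243909606382265477721028498602605285422893682878498633857302967706964215892967691882480912989146111940632411191458315036026457963393083052101082391519394394588287754914139808979113272565416943876331258002255827543146868865992280777861935014883490001856232976147650127046995850971628490929570400043847499856909368449927609832276624822548091520398043736842814856809604414385898904443182034857998344764392910398946997140330515764694833049451995020803060126085007384253697282053601607601019002820672679791676287705259289301215935197942527542138375130784760444144352994688267188034231712887364011394674865931820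379574488499715097919775353680790614303857530379558566330330888088955421406606573853277573920710092097152609780075129154900563193263698193533875112326647390562599182824608009254402801509471279147774590108215138127491421385372191577048042263779171767267647749473442496014169764992030742983625055067547642426685811762704741846289430979627644745122362968650044044420734709278744444759596666006508055683587234642523238379340237567682654089445848106184403518026270773396250363115872028100540668103181399610626353774500854688288158960718640151076371327435836300597296445313438303028963411419106805687241068041529820123227479020722295052999373664578684828721341841226648685672258891585508934764423499388701368590699571624859088642585756925370850559893166934641932303915771481478933473125182516392238927066736195105585333808011675102462350152303618520349473577998708844014659654102005541586728127848213304944313999635601151391383534758682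549662090312555949265446998295586442486065362763242777571617028399458478792681875654823683055161945569159989514479111716056766835850729064679885588820449102987558709046463845231566827227924893215031350994129829509130118524243804335770169402118036141197716412509349184656699091032869140596529939651553599958130469116733025357283595153156613339889261900318540902885288678772968350757664230197214697008930655351255437246213456754919980160711380855170876881743355950014958025701849961362196524219141516979053186830293554422021216780808520671516887246301356807772516931792827103655173999587676427199510153470863614090305176906088010957904421428084903951747487712356500220542956675716062627474640085462945179606814129926946430396714409706510775058642278833497816907038943993246347743075108159681696830939515538201821612061432429823026512712684748478729053988798762334607674774220375735327312030303062698825349490076114649622028192620608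100500455656232546859055782632554105906068826731480209152323747836212175892961547729619957744716473316425829527710940952519365559121702526168454597308866324120007462612506668192657539040322690369961988376881562561083378964049453345029631783695368149080032293744422233579214453185585079041689204987868659557668691882596173026328042870896249804641033457627362787594985579880109974633604869939374172810701785681751951258808032226085830077962350991411309237956592859645943380894469283763220892473484057800797886481123495717065980208320455298075499438054656079375405910806498482292286804347567892856405157608792368159190976856219422443242720768506608386789020980533953610524950094275660210467840262047222248036870815002151628964930346047171580052883791294608555701747637089137412167454681581888908383049609506396262054017130307142657517963300621169565161879550435289724871330248989893249610560140201664294285682472336133762354244040766548494776161615360792177661457415029269549843438388676349618489771047100110999053583061826872420615863822683831058195201447382738482459304776153232407564994854361114833430566402674803642642686760633494437478329896457486842555398128496384409600)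

noncomputable def rc5 : Nat := (nat_lit 447009198119669539258717365952523816643279338918146721976348697587604707395172475980886865265531550584958541628243692912353393820498922282960789000871565984631640599372620008677494918596638929289226798504717121952040245558135465838701628479987731876148515087335836467940166432174514099576551060604069528995436782914744380262072765385293444342842792781942187622673325356425224735489734905986706693951334177267181910486132133828956451283454806868262908282714881292869733469321106327208981046001286787931908946789109477259608656702687063685979033374002338641926728449374132983318073562787274872535306326646803252960245953648192127809559985632911576427637554866917598508603465547501966200605561908682446630290749906711906724934481758094950959330829418035702717148850689927781551933413844767932492527199718815435686071380358702613553714843685334383554652628290893450812038551221254579181575171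377792224895215309531822154898530836508383605338327844899604943933926510598232023384750114514013389717926397716521829668652545299143754337814079814914736824220770427328904526424475382559546357206204950214672067536846085230059232850016086729120862234629040054686826051953823756035417631279103217985432282668906551523408680731772126352871613616497454055879777368091962147042498758429866435051725088811017456051094527345162841204032322805071777343703883883260452667663735928708082037348127410575473694132893492092462438982908864432566889570602857856008684329399789432716695333086411389593148904354866399786634968267180957477768991464773718283037524242707661860481280480481155172312507981042828300171644411413197261110697487839083176536406927213444341110204799458763083280381354324831701341813436402778322800840033432156617605820770781039858670255610732567133986382192306913054695382559339264909420273037597213417053187387660961854120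166502179104898493286033411539745526491906536507935121358120154203369670250602994235131902854759643593350379365021299043085299080099936197400370383594939204521173538369558879553141726199860109959520316662889266522179897074713896328472434625279400360818153115552732419559441452111001349011196340880971589277040988380143002932532464201873431905012253229241329780000873620718344826297181428684164914921338442771255069165141171613970094576656493284903513405175324076606533908964669759556786894168760158126501702437645013403978613205079356298714031851409530928648798858555666143442165822043472641246504956761221613200707514430602416149478912420728286117711978945539285597358268060455443456465055138171317734035407515451627041919345370106815032165172289997181679617178265198474515245458244846973370337319102076255311961691442080604132601544315414494904233624565551764052029664963670144771411459852578485656815555629769524796144319988880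438047687323171480420823192778540910478619030397157725145776218824613744295201746891272545999207887147184819099149820418999147101988776047518207940156000427116581176873880868951663619138835807178207418160523161931304388278011590669878888486127035158425733962967673923102216739978101953959136573268272654294623341557277826021649400014647769571802968567398002536367187687165251320040418871655631973439519146501119281273437527399798701443864521429074212404921357031346555881729895135942878928386745761428113954727182374890483321956435142528974536199173074812058717852035958569445862066012762858901912559838203019455816783222631698162149895321812263959900560999143371162720926730233569538449266600053584139062902561633650178768506088794605519517384801587599949669995891374830511270207768589593008617400188426384846796905392806510052786326581264664603689505079909225558088484799073947358858553227503822015007716535239591022000341221471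417663194697524756883689304805335955719874173328446833782668208402656296087808881900166835221111935616892102924284319804896473285913011224883880014421041980387702213641187882024433635127553740143101883763526428649237427470361548103540243304687009093617104919813243629885111340954105131855665580659916382474852805811196044864330866292522980512343211589451424449537840278589502677229419973862866412460860717464795913684482784657885265444540860798266632291955286146992475776099647936652747133613100796434879217252597240778460272347634422465830611082492747310933771463324575761896299093210514587378370689225611038795830989730160312452759828864971328801823538597577914560964937478659950932906760158694675607953936614518857091256529271326656060671070069137395894495584311316397441202645501495546602241522979230885011391115247052413715484653049155409862640655322090842490534255644291710033960190866470844380225388525091775190002647593380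628196867842637126831654718530158262698740383945456855928275499323924414938201196152315715371119931017151909229085960782211439291576575332601988723479507011405908595711695268413206439429876027644807775656193034491589876763171718394814508358909297406124021908007063319913300587401301466791156591237467294752112950593144771065843857533137527556010965778466402140596388928974208113963701996469746813339298150606832223219275289545945745990925360858173504023173215091481422680530456725147221004142233799824648677456866527664927869690716495951433383730258675720180215292462288375800207393994442886770587606346531080728614791959911182909141299368827728559688407467354842207706807563632256940312251680562003522728614017637342602348363548151290097502689460380776413162143737866780030541561280073658498149854659905275024106777608013196247089231576729939152034951116390689072997577790777843574556234416905264650809033148992688740527418445914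116983610973335531454288482833919805174982744784387837655376752609776955844119156951308554567792687764627312866459924746417434571112590313632600578912646287434911275505517054450929443582117443124048768384820170362917000511584212400401408876290836164108696686120478005487931655429974247371031825899996134424840164354427953944142214551679632392608301109681898754581402801148780462362911432240448880567454197080833032138206839561354150803943580642861280498060385871104671858104697452977056533499324332969511906233005867712389665305423463323018853477793260920098894816135513055975085600926998670894578353662983400337654592424352428153878279740421680442213858903849091605802534590506222857269655327493915381085854175243951225935462345015166126874364351816715190057455362563666280319812076320539034012232324543978004976662565121414104747025193638593774329804551854147052830696285755388570568250859982643193438060529927717090133089874064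995394508892332559359494960584797940391595465356006612757843913056388870693243732987791483082914000734026281124080441091789103973789972353008730442402491315707874790165993511559945075127375457432771959241616668322903071717202380318611427257399103733774261879702069143000337648865034538956888024504340932903208191652003233748911750593336123310239943670490252484801441243332789068268971206309232466362929289486836692525341148934351448062499845609912821021389369911318924083244784559938689662698149077429986905413284951332308715495453237944916943073875771025499509895337826151355944652971783101180485568249492157127144401866372352543215654548433186715781957125799424281741748074947574245926848653878118936501979892121800633004406724168842677291304973638352932628824509364185376443144157973705455428998554636565008989836347433137684949309631624671653051682771807954381131115126795152642214999109821338242414205691923773210095518408679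705532132961479746673992323057751805362806944732550395222492894917155330723661526606288627794617253756914368378248141886462489428781443587994337354264280326053428882873450633378626548369042184411218686774665345674372056470701058493042101934505704410041753198303402530494180146829805293164848107349006869038687412658611935234551916126081301409000634016131133798305618381166259817290492590628041725179903462021920083830881587947463051069220089320465913784300093112883616777644104692648623378650505931786575866773161143641550101754970732109062401938946468065039070099232868437795837018419381108089308655631837137231541674039633215565006483201028882433572962137270435642899557464471690893818271644460517592524010899023799521438155372795206515013406428825642962580851824309722760171740855826151837894044206851188208736355098650922049426333446580503297345811431680421835977294950784980801932889090589428990773036471629489206849832599149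776382649648790939279782573599749392705712214362951648686104182207977438792584888090613757551947747250903366059664049486194319512967777759767799054790278993579783691410378034634675041890411406352717458739205396471602943588239451827779783126663192881233984895711740804593289906382400714321721924761351414817671267931101667279904294975616730895450959218081477563173377409195304673969406538270237538019842686093111551397816257654557962024828817425771768679097737474848446114803217630829694813736327980738164664243268991229850194292303232302931872150123718484048847794792470613410249466843076301362363430805577512651301916787872155811521343595141936312293006045617325884632864390472563760076156829000150037743084148163663921293178531901823269443170471098819809038563801364251593837024524770308005973991477196307566916354030392660873639444166160158595729172388510194019374142563169897129128814193948602704192610183768570416169394810776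230020761939098719863202480268827469958342106088904436087134527513646530206817740784522797046881008772566714372001850235617114831421090298552196433465542939579689315939505061363144146906560334091572489926456827810635803999772715520323938382950627478602035857465975229054624841292958238869738578932903272721872206134470765242488699954764782945005500189607079136587979292704807137789480371599431403129608560511325699486012372727964726502909208723464108320766663483732799879942691243884524690662963204097350621675289493386680928120094120698901404153315970122616009419861627475199612774495515693476219165034452158351716124754436597929182996821614294927126445434733860122611094534083998893824101650791442015726914772991422839379113293058942342067542125061077973144002941325505430870297486932600311598041124990197276864861151290009920077811124017936929906201802759820198463536879507152301211360388379626235892327828032034244754306024049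974733599786361728249299878076339415695626400088855517112286499371638875925307237277367268007077552879745465997531579227015169405421015172134190797188763967922231775760261327733322879016438369316235758169978276502883304881396299040057064664005190540433275881628332660672779848886976086392051873447826715749832507613966661804968499609421470348913826716059726670422415753293549351651905795125204193374631915933329460160264720425920834333587158078631411400286724427418364746957113633262405655466382512361695218241155487623807034921453239154615244623278764957593308809500066379992903216563567367673194810235576562441163537294706271840979331299508655664943431464431719066435293408890106419628982704217235486878945105856972258945961681182291630166887189016686355334116286287727635683335202792942042355033009941532747907301883698798679876207347854552115806990413158356917262671230737109402553554754011933875677335453391326161792512515486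178662936799667046275124481454544452028237838050365453215373721453932828420997308761233307144078868824630729668756358953955806089792601817313465200685797550621605439137256492196065370447516409858672986511354617842851815632035857777912840909534964656797063114899471285184619260136467353941292503327990862648526798783493401643685976406029565748198468661847010170371086914449706325921756355201747192991725083809783595807942966337322860556995309896949536940777412320002932076063575370167985381978846225945591542628682351432577111927761753809852884723812806921378912636196821280153828606858715586742372156033619867776011031389571117534409104189302072900815335121267863568604479640707349243698589853310784551835597238180446261518806427734752150524738655000771642239530167349222545325201970227595616997022979463628707171521407922795934323474064783812426721721298045832878900261252670417671164628527579420162580803611472681805401356738157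019682973102140737831263453294732998116558102654174634964663925402999529742263382964547291757222823469266372188370760624743804204637669683166079932438175990825164806126217080443598338290200536168471814367942218171854132943257592509583364550693221995106797041487536968841546241451653622549237089776564291594971180724473005522962548289170164064248926409875466662131718883682775596989548924210352326239469263299205065641717628501189328165904384368586212543122569805735310083678113785815084199400697845294334167302173290761111336410668679678705925938071875404317214009410433720905553834382020308860270060753428146204510069708001431565905494588209216740919913485666049966587470376239947540692981488553798132917905681833802523450305756576757373454289122087213740603076011597079845804346269949036113860552936850755605561715850183702115537826195071640766470038985551686991852742479719772210860516953421351066377240487909032419563467102888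284728226927660142346293037465226500817579660096053455536960001383732200846095607741816566990609824098582989936846315462364332648426481737573541928428091811266796398659460607026498797798918993184706711581664077570847879444048746580618100530721001066365861249543556414140658802628458225530519546771224031467620692458101349449462968829400925544931669972970957142766162580075248393115283512092704719025941962177466752310092269007178244700281268316636316618081447495487568088374089770057773290183359905702325964533090910971947427517724497921879561356211715449686942962536288178326633806834213226120623486094130608833491048939769270412030394455076333215603386763866401490364332337945437807174326402707608819919970015129937243288212766466422033880621440816519028664235433212046999865927854550287678122856623087471823428440596857063561345365651354951995793239154764702017182090621912367040817103084477217449434814425613227094999249246982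703900326502553979968617735402434374293731924653757791817415249106968790014597795664249716835961068552568662414687646649471164654438584455957833476448986868616602028851404872866034391340382860005624202811688046472668253915759295687215572793983940145663683455350243280111681393091049011878992674924914620807732203524521731828494605040704051934995488484358434478734375068876563743076161590639037830452436464541203959548491563110977532692531439689893566900325120758298661165394061544123785461781657540672488726391269461580291427354406689580706838378587204838914508612836676592221156000619958598220245593100331916574989048890595570417976926310480078139159555321343591768778736092454532173377629583705450616861608374316538975462804582158967997014271638249778290854862404745126394642481778749791448218782704063354225024871849291758799765300023625513531234784967265342391475837524017633320144886623627008589181266176565491773500766945263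565173264589348647722492174868913505826938907892494497859451495449775706364584912979552735786176813125255890569544362758249132663822218735335881536573438471566879994760677405713110522639429636809678621924505707754725665173414459486196115519982658872710403369213848824870608255949586801887499887640688585878370266292800385355298176083539793779469833211200647956080968052047932900004673658903605706629139606367756235686761699374605370577312237002925918590932254929200586588450668956018065632288267942067515267582038928903189718148542870515741408184227185474689945426410038382314279406720133277385465771552820838700994965393924413939006007366209468985595970749808216910724355678447704396334565268932479701812648355655111794509986355879274235144505666418712444370936482640783619859512261887727984604494604821617991000679669104910931136438078088798673713059643997225399090735131229578039271254965886443090604436345798277705254186254636549449238061814281348624413232195491315428272126681913391480829159145747135127934856578746431560736467795688185444127765712425358227050288021790920728025689987133775622195790269902843896775373506472195841215007052409433299143179931244648464384)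

noncomputable def rc6 : Nat := (nat_lit 449399602678954849656582217954364101147705248729795737192072555259901275407378790369022532664037609476712197565465992217661949825179573686395101125692312299446193701032119630050732819368406850313747715792752009559780546089338980460053198953445257079258237972690198994376535592632750881734699493250398678050866235715075913325160212109757420734820881658352242707064684234572600045566125251887809479379874518960243500976757332838859026888816401903929197046853197642128283940408644909268101990855784051645320865593167563868582068543472104768181539841301473590971665020244011854973752781800977485987556638569116432550679000548454055187243227710961326390876593719125933449987443952826767522099121439277884204495654681675547606035918115485902453894302188235223913828974684796069548336813327165956787181511657322109146352039071793593207302541709349437191674327910139369272305169400647573163824510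994104131933941497746151240352286222247084976484865178033412977041171995619144392988651961321953025303981580173722728581347935039171357932046133562623133482572881560947294268041630275184646351681764416021911169590109284761419257264877175809372763961746525438852555053349800375095281591745168237030425803385062393202366220940489520031747125828567584199483059867965449266762725172251662337518280634501346376961769232403506787710134677290042159493226450592970821797195548894594115542645825624959733589976022458592600639586274895393586843447491388131017333800312468823518257804717961785790975251027808351404980991949115274549992865765587684156091124461905750571805248209036221208844004394845660673347505067921239324469874925299177452444925727412300132234304620771928836272735503797473069682936983174740349551082035307453957874169336700583879034959038830379151919454639227877746987241462109009482073465817624756170449644226409193692394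477310983558202156861978877586042005697915254420913404347989208727351057907862617815363987047192094628832779118456497622054972981823257105543028044083587849308951891053989218020457055871845594138550262398484144168542914328458208971724732574208075169891885041884165891029598499057237630726257898419306022906318929747644442697839129653753167131111053152186467997238967643425342288255430015816157921028338638970683223038440660368045258085373348293929164607427443710737663040308299442467358177930703799411585111033092443794143540692718077148623126098348273086236023287858988500311589622214803515483175207334168378370764013490243773948261573122848192772111891182600646018900839955000710389440238040135508279599102810669770542579012726302878470734297793052440426503610931017867254575489373080693987056561360229107690171469728694879349957659707823530110095458198908419018875318926093235195292199701423740901450894066369029370165029123349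477460240552073575713647783122213551772222352680053359180868878455948865101677719220522611191704130775855407660560398781925276507695131140503280327451119894199993779416508072322393334512051254999068060763829322721170280839453115038040652451608944793017560989426630528226125584920481435786352877386467418701890458073901592575910103556884600923924853998337765545794617491235732197507072345733411218640517809576728276721955982950487629111402074909463344125394030420755336866436115961526113992293722628389767141556751392911394052599172373602355847659186354991120236289539195131110335053051289708851919802713244717453987897909088266418280485355453653772983935945737932153489594096751124136375607217068887101773065421594537717981946221274041123654060097848788338051646145770366232701060189829728087758757056578484774050090047159188107297217019224099631684897826852212770504735774362972281070589289493174056023615919829468374335111052835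741786257309854558132454166706871121479999053659667622839186693978709832053746089171271101442381006590543384018660572817160476562088085493091324343404406653096754302605061032651925978030060678808414946454359946221575323653617002456347552097414804648728703937051572013898188463028319184932039558579763401334439284386058217974400397048318576666399441755097248899648166557170978943204258498436718942247878194812624289333154497778624516371032212900584881893378221166753500968322880895143738581662614668301270811358413308485693403589091203350675338961541415669231230751651479795090531396287921418945800072711288319128137789651041948589132075488273065596152818117857492843633016424027457939310858768429644769907426082002608613194047778644663526013652894084549201255818267242679573117610996079048121766051382849648755906573021927840390647689057003004944025019990486552437470473407772718676338114279873224714354787345088326849451044378183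694705893735339300905412533800786673300143142755077389361968803257587931966308258235631078568918821964390549102808360013671744429138360049768097315161298499403013427139335665825457212623365842516203851641630054511056282654880813427602673861982505972970076780984799834305271483456484092946739541883949718073530915136710107551900756161440013537730943264553883207462147140725955695244406288442253127661842701120233537529217426349258672530049068917050033262942280244246204101511859985628060719522410246127724244379110205916325070229245523648477128615497383258981322748206341822908678542463125460743992992663629295258994821420544591249676837509664201573232415620306142297195782280084058342515741554848128738235528643015645134233862358584937290276686598964357632222389368952353708653021892577946648589399888338896261408849194779708297065737226453402506618468368893878720692154781502065176857301430747014798255017852892330143682235961291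817866869935734200488556637274208806039330343646672088821538010931087536249274336271512233036025792569395526976433971538961818940710509578031769425922507402056538021643096812223147633382047301926313585307974183010180973091391613436864463640324125970618757176902797847338632451305843196483357827504067909713186208081178773566455519454435285675623967061516300358873190946275438699985910521042228791222599040577937974531924801576016267166780444695053413672242713178667633866534245933880564912064495132409375378712559644359691643225955376074232688361330106605942888522157969202161796540734169840332823632635061084173321419398356228205233567141181283699910363479363366494810679109631402462067008462717552597465518095896969871277136859089297284893876648376686048953262865055974950647182971806787193228940907622701391626476987133115398776308841445871748182942259374280431040654421211683080829775419773645258939862696101397383922188557668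088185331630011806803395484224715338051887471261205581410724252535920733559487641025799895012410906020162971905466301448523871876039413977317094331407613987635773805369765814995872909834789901265198343934547940704195163679532861232516934365081823913108957611323069443075330792302561077501364785237795099121775960048955844100085805240809698008111629473992744209378986984702167116310323137722295294619230842010832996606358993599637500312798624674210654192310092012533185913391812182995929323339527017582856631488588997329619267623498449912969246207384673548310363454543560849365459422092899494588587586503061349063005463768870997943767620035279036698500949815097933694979013021884845627074542834055853846611517014839697252317182125570323196895421870530683429951535868154328371962657435960431702683711345007041113410596024088358414406689849304407077281968221426228161542331625274914575994922605490193175007802320704992795842944549636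374027425072246229669793988187230532855431628378343555958295278967478929588317728286356265677599546155836773306881278220274788972583526679822852784497540806861108714359398099482335695092393239087284146304924942960748424652959991898425929613562006813052210699766900820423787763116593230293657057693150759099724448259916384816745983906670551115748791068328091253144039692210109287464256679440032456027508600117741737796710728055200367845705261097186385663964187930702752762719962478236967714665637605674420563768625398805164663895579565079116651980513922516184362339339859664783724827273031296074169584339557036919603242992689590187235757074523438527439360871637093872007020810742385290444172413650090327634729206838178593889541503335644923057886015087726691954018397962108286871688568600080918805484674202627959656186523412336817362215482342891005021724898452169286897783826121353753133998544738170362779706359322740858211772681257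772956073658781484561677411987116692940265990437439147457956035116607802164718610981628498445120848162708132795018555862395600144032699049792641348552654569712020282222853032362396262072412386336353369958246549525674845072697405724654250897266911909235712700321764328262731102005519092382175573434550922444469537980687608778866000149720972016844180876873547239302264452194533785396539624649800135379166623774656465463699053289792517850320077767714331260380966486247461315692408140698299611441755629028641780737744417277254261317440940523924875383387039668753620807016636440625546100148836623342929150644560816386253360400782750274029850520980815508463284929254641317786356084926748323929380018495643496303065809555266725670741425065176661846759573042276082650279347799499610853283987220880615140207897487228991512776237806059166524960559149112967673883702558558126065603082279165753470352735660986863807259871034298448232679738456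048802154692743380654925731049625763297968707803504834792588405373234011212782465756464998804818321741843371728447329166715548025104748883582386220127385408643743830991291785094495350679257689982964981512197152972451912625985318994693464919385775188629007123614785738769876437532628546935916911579942382217681836090453851251351109441146016947505567706873914999510103895954253776455215374689449306862799009813021800861625110274427078585211546814645500901995274275983550480955862685585460201876889170607845996446394242344645881739364350579315884253143475192884142278926770975935764021407479872240288463693502867159058380459693505282365052162110690413476210481967058249673850212592820863414574262015525179758942769510490667392765203688880556797449010008315747913918610758836816964276088323560592094858812604557536873888194092106280318979322808965919417876524517519889868272385956815350447034869385915328805791728821428291209772714680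954929132089704639561302425744007920370897833798869757491856656822469524624078290954428576119334302901817513465138968513715041646876849349531978038193403782006110422108608893659595328578894650329619308896863523644464581278648513598394315907746237371778125040804393987265036544725494887230928930981241102780555296472541399336217078928836553202212487236816202910523318553395622129750368834439914872957868888839444998051371192292176330553313042921686948659593735502979823678879622121888626781017098759109123772249312253980989389527326769279361845317578940064660840983993784255671955699655284457334323662948712754137877267132341630024110215664907334906865061156910912811857978378433353255611877883448588087210520718113641648688386526674813553405738368260622448592384868001156013583420286565549149599378402815682969477000024283115371573126761025684862363200104701462592734792531387352396900478535649490409871202187067797690719717502223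598246373976499479887299732629283937184554260471622881984189346906858431346766273046231069551665326129487528865710826909665189049194811204503029817369204915748118187637639150925795799770783419482350963414662206178558043975606207183658462540117039392289402076535141527661957960903259006412966563855496941350527365270875729745528766658711969122707902800433438687404622462514057005739690247762251938585924854345997517296864427143739916392687061306023778965952002069034060401692016891397724220747346187997015342187688785274209145347238694984836843032074549564387695626994323046267872675033511028079148367763991229999794695915080401140471635621524369202859379777523093372764688596275083547212224852088171796839953576866148459341124374370488541413771164522485976009221709035448162135266991015375476606130599721598532696932646241857637967597606106327603495473875382865046326595161789246843130994445285371795546822278691631670609690206473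771690990662526810567520535898335435021420516471397722056357905829100527082949753259608065764979557891363730532733363399154476084467598903303634366112008459788638206733881968989030153977470543889911920139982524305801331957045995488137251538455245698858012172127396456640813657603168822221572464886003417190885383710299224477048484611599395610730439864949476039630401761790366404640581328767729693206126928573107639746533114955640493084447206832624055154643266919724558219108932487590861127051073946091072000813618925043995829217699327065602292757006778290882999910187978432859521263116440236853377630445762931918096929641382269809233148106605596120711291295450772563346394498209189518870071841563620712931069395826812405689247874423638391996068548646104101763540906304236099320627346634682106021985748740109818874194561592250422346141707289006249055973388995545144167012556328800802243564880266370417205939370144780011201293688388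238019892387019573423295707205694451111208581426869580634077210205894265482918953194547758143120179874910360041831175395717216769643086561494106006600783989536046842499271198600174658727271572620660687069454924766123225129102770818401202814211020867596160717017804216709066597026460410416909458257044395085343314713708649684649943346902679673028206812441570200027367863737795275424100739102089636379739301716436674726474460898305640737316969568438184349914587834287801456939423794846261826348359873838653644886649732035397337010932204500725072923865429286474735918722443274192518232657172630622170885898264157828297790182708401186938034858842994868539157788895473521026832434584367485056130995008683733873197763660802258252176584256587862858701540922064252497321178556941404561538857077535032403150170243958540431593339536725727701640357907992703096988294849234196730705005738645837405635484423260530425814659062890301366926009121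167261810160536174382956978626670305369347731632364624513387409531627678874902870040559683218868694760717391036158829542315125382865142942000945712160683589877268495743229259542099411974895775903067219462925735766427934457367084969914524180032655091084875119085743167097024475092317749312043330535851251000073400965121812897571687960071796163075322978294743064488764792489887765688294271451775939264914424998814569435357055914932611847145222248962974030998778046487988082134112780629392204888665144588087056868968861082790430350867777371546261105182582624945978184594075590610612774506708566934809169402512626183594012913993630975627894780832641904721211882254328309678405622547522936781807940741659028989279508918119180225351021883562426705166158039441040093732871155593584521358247464044892602250275061242298389359421015032657991667970871032576234141847314555783954052796527304947322525638430462782219594482232789915716102054353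295372112312047314663081745767021116962265556521503026703514593236751191604001415718951947559410380233273612582673852904159893298867885951152964132798379591783743024344601260079974710472539685035810342189713776835466775455906221054664893043288215535956186700911174574044076475740919337136642217204194158485494767927514682113113787797184615739834521322901008217694756551875314559184277455238768919587274864607765710004003650002622343833491521395603358215012571218901439440342568706748039837598760297055718970503356644045038305486345367055847843893685635365871564675785631510452010663100713292653482240707599250185239530784794339966195449892899017851996647647419307820458128550445382478983426009149352878221915081980303386519373463559769958969079929570796016018806366376530159210917987066678071722478322890034631726795871689557539249247584038743668266847144488092550155340633441158541604156678577051732343698728889748985745485152975705589394155771578106497351109574040041375208164504577585980187847045375333739047467910478469750841834897312899981357253671134006103462001316494602355159979434630531873985583612857086267798068331497881186069340081329574206182235259489876967424)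

noncomputable def rc7 : Nat := (nat_lit 451747129728099560672681480269091499785433893926434726458806168480959328091358693246567795668502813407407701977683291397796527171994827389347625122059467402598701196306043545547080039597610873866244444442242136687820485795427579873404484419963826961645452121523207799682401883746836679403488986978125123882173087732889450605823758700044454792053338640697497803949727447147378942237776151295631241366585520047021164753673295854866016184164137512447196907459984242423924884232675426065420221576070730130556203996462560076385404224091883378560996733936740532462659237986780852741693530219250306627231812697292002948158681868698148523945092520908475721505852630921039387725878966155514963847837305755732327381707642223623089398492460174083469687223736680837472988611289823676864318668735994743546082456766319484910911917549158105922733653404277537153369469070993606881883424993596719196958227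698353728721082321145741529535158491934052019647420030890416222213921592630115507026197299555052098306520627430912966984135254566039472027474885485213502260681191526431328636127924961872595659624914414928610352235952959588914619297322710234859393102008699681653493911667115085481039340370832412452344284287322634591656497773590938981746127883214774390751831198127631514706123119791543252410573078856938083274223041767973406607878081286702914413291503242880897834597019902009980149446099967179755954859989571386434652926841074743018120647615079811950925686343694634064332350014239348329198076496881095785324586907644717521066796093897857085051558321127636746794475909631124226484000240825941511543839509647265838075952626570794754990842543199898381916957105584896557982855971846324158003883422815490285424064561587053251255626123848627654794164373089464279003104570819581745511321586014539997111802641437089454956208920046582723604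808771522492647061194943202158298879129335713116351710772691591083683374564839424285450167817090527791646338895380504954052997812263001760451686615370426423356782528134499063359106494866454438872600697737083919967163917570073309351385291430292697545033794007635316813982316296528285096108938384598261221273121283348211616244368340189090648167208813455121497556899229539696025487726203748413941899498315725224831477428593603393940782838184519362438789828428400335388603995172566240941437213699303268704953454880994143203719260237111096511735172916994111356681402100103946007896842222447069496165350765805255558374230483971324747721985329031998099789347309497557291108342241190451479955347959186207338268747585060320673456797235407219703383128753290006640449434303796338627795938796547614598978477500581083688205050397632566037990314525534700071566941391155072782315104120871131260697525834444572180185696787441658648033241233552622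514373009468531276147632358669116517127632334023740664464924476337731916562367002955854204319932575759150908164231763318526334877693137367119340360778186130004986764716140925645062495876751685950843458916841420162655886203751361439093873525781643720977358972949197920779757994504009158312710827768271313947461378758776247235239381720447508112494118959806257367135159044125453209031064067737580202269184794586944876412844758814191275100220546127247986723683494072710857065248473264659912968225798753603703360897099474666192123268359827538548733701241962102148726214487469916452071101228391308200149664699328590912920806950178039629295865096626335494535666313700331881239050329224194288069225811417865830183026832177735551811197483464520363202054331225836168099508495711693028084417987311828305062016170865347222693363707869080131211667473281252819123220483170109021656787411743352315590916992458692707424351848908955842828913140757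503302787996488525889023008459614761115024973891880595031879567115373244634327806854462514585925286120293043458043247666745276182840512314578566584918854821310801445280210776562963607461172045845920488104429506245794511407286030578778053157543360899470139036378375327454216102271388943908345031721038943127352568643362503005747709973405677234507517688863267010851556600159777695654748433525645037463064116759461737508263812749736601246614143024079625892526512707755090899553094417194472055489259847424693323537041936460964411310612769808829321516820198979386595899298772955273657257273068967346131983491396791797603440278913289594835423591771753684925308666475361692064919500035307341060750905527763590679096440900794229721307333313664724361160631037483940935463356862220025435892735499028439870042206889771653907846022084426707582310265511360515432445804963795613740431474531517571866342511872180870337954553204258258606524621594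126845248858677098799040455287592348551757489673893227249035050852128642123475165058777942831454404404033991058766834135521666165724557891786385269119088041471413158826103337619003253096510432234361711160494163803390096313928665078407473725268268069227919578421620712882931206092888361813778105403854677685358962612670762337209840651870294517731129330100747493210962535426877264753029480719711285275677059753245136556325385046144692647004766922093885215461576117079092663827145919090806927287882068568414370055562683920701690126150039608581447486316070153261809467620965730411266032998867254761599408041031752287184431636668133411466876928665434641438290249344747386079080086662900047420881146937679039093986478025711686797870743272291571001307423929513802439917067296702624361853645011186976940536967566948982910512580656050779939957039479695315820204386234074620825657405350112022700898698315169290102608909779968873389883236024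759517565156033872373715854399342930858284357342345272446872065764173730426506502734727042150979791568575470663096941304147378272058249882474376328329400358345498174752480287127393503209056702043552872154070330494872810073329500179711461482942940512189936013203871260841627338467971451783410947797795026027446297540697535344938452317849582953804781275627113757236921904694562386911633674991375802890449272343540315554748158111503791843090171152423666313025790580638884084775022329861711239190513509067091048156937572779831135313397952151809499573846216807552477919406130772819304154643632178901657564851096599365002071914390106085414975425754564726241020210144616941998198963618417297392795177930976495520962101777058280532737400326201497886154815742543558023450465772850394664821341147429469385930696734448802791604691512140251446501098239540887000070099561581627186901956730878448283250314585904653347541900420423205897358528205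317498693288648896623903275414353962419266258956049270502736775465342275558619329955824915185150938292086549742128040567199644958475213633185282671561554180969072147748415209518861480453278029791312809708412638430103734574710203180336455189595901405989654988585062653212582299041606114873278196421649373024366982774500610178793563421036100696410306964235171292175266929787335889536924428433636561955476285078132017187765061900198989679957486322334272218978709218190820536575620571661506336223961418874393579211881905287618168771401648644499695400432356718789976777962290948409116863892532849319106052434519776984868534098564916070772397260816528292453956884329770026361672442911154828078533957999434484988461178092531863297141025227303646001486251269955892461750756012335423631553353350956191245079564171992431861872418680806392008753181993730270180454865784136760953677012196946902307855054059653505896293614886139564277261246005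355419864853019760698150554274422040328160690765520067065882872259056481867825685545316985038616007285992895797310689133034856483929280845138864375474757170151791653414403344368655064359031156359341658108266723533614460771826938092292656494304251554570674491837619849828365449020027953402629560981866483034796341302829074355449718972651262640092529071486555325697421343693997423280786094291713182883860296120846895244049026702680877427329212824925024762338632702213204438556779363793419409364579678610942479101122275468024853493646809401021742664285896722552483544057249985582132321190030467572540315960150558614882360900582274494000627001868977025386635774957032658705425953119114766304022355900129600250373777097266151383754612340898783125275834052733233805680350191625622760675096397987700507640232435687447670448372441738041579275666082629647346566171656539600593209888654939362587981179128845019085845498799708372544266263876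224316316126599654208753315249358464928439564370266920395496822155618330606481375096369675030434782291831557568905403867635565016945675964270918406441140089196690570782901000671933810597005062161266135591418446423459609386798919450991016116789313395351343412360460830557363144249881989593168631069037408608638957328527287099559128582284931474009883182851822742360803869933659682831334669471091918116393889008431776016518382200627933489627613593469088229571521986551129230238201652167315123828530033284087563752439090715448897074406287972172505005133638502032976958799784027350405475487386802541176500872590535124098074358185876407573184252040593167765961258981951973284218568371774919415336916540009083647206913296017258552608146120496331601803075753477749761242193494970692922745588594222516662906749143730581914628890901027023905898220545906270560863625662203300378108433500363566237676354801306439723288121493803911827568403022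510010148031488379467532710278457571064287397089707918647691427589866440673948936812895399821366413761167403551966715165443032881602961499217383614616086894863077572174676913979472635106743943009373897694416180732357128178469292053238975255183993740737006848603015853235911068901282170914763827823654150372842498191679324628230475895961941816572880641891482775889160819700101700820094833263730995119178519468472647204252917961580055704782159795925645049757170160589298428032772138475761366987642007704221739979373430956196539121337231158107645784859525895800897405185307577025514066245453648684708527278641548268316153872311622631316561179876215839487667551768251141975234611147681907363919996935851402508942394799820853101342538208550606849901141449031722030411101681007067871053981564180885214304464221020254255186112542984831028148841996855086809855344753969426428886836549312188599452444989184439606214827701409673645872738160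951930071811096606587403594320352431523110447042293338428941389470637466688233711145535237374450631499793273672624315798848422357098323202471235270978857644263141017202457008335411621603799339253669267273739771252420659416105045688888013273876299903195458827843953142852544047632073043261671591023684649071215268658123950933083668946372836730791089556123847760551999788835989493167787462302393548366818976161139713469206961468460892115729920948731960429118386512097380471457001976887749919730099771960175422962863172681006145500202222752844081542413250055445345585238450308683215633101229411523316047397231273890999749319426592283070725087355599361058507952378058242576767721011313024919331732093497031297445269617495896102021607039951929449340558059251359358545395500682815098391855571223704915540843201181279748565504975058810151991483131491617041110730806949424253847457551035918922246962372843038708491453538153384400581269139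997363105809031829169913566819205329585998007327361906359192755473305853635293393616702013258735327607721631434540358901047689407700182868863736072157849312334201521636076216568652433375121922172763246543090846438800843012626344625355416302222412824782054767024721221630129878256115362627755415144084327085090616563578206747925838642803751599234130923953373682054719598941238001971986772672883810190260757971321162633102668502542461253076826411277907528493115069613372017491202599904088309513222635945354137558622377929038016361637739554310633301401244186773931896940217276118126685808480970721182710430351038776686941649446635346178485413885149557937363308623136984947932319998569219519821328577771099414024321999629052985564873397667210958151580062642416390528950909013933516836805033255771547638322866412146709169706046671160250369662900550316356765601659065885804055418561302458337329046380218127289552122388812348556275762037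158803008198861684849366169697702388919628006221398357922337409523271521902570192325636929324156982459833838819011046050523798817308564169865628931298466781565864719056623220775083665771659662455733332260110650854037937915137362153440072491472259162863311684257152118950268576637267903567991631488601869778958604605064043691766368516129821844120750833747571925567123661625799306392529646315107759160650298914738075657559948281088678559478487255687373872701292039189601090640700517364417727442763364300159824643639227535374898921812100404481692902725979663858515750668881060696681762897617346087022761390539793917452841447171115713258090798980376611524641252525170699256385357263006011571155757661230270481280406515020535611403621480088517529709517516432816186242131625401270172676346269153639156419244577470797034020296732372203691954108738260353801013504573451002853792568329065026173026179383159642730440849360503300366858246260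887230206689454471956899139635849876054044347181076060489867858869207493875601272787574529342450051042503983884674070522176558829720215418076490103530068938166872789020534482486396407080839015865944127987029744256196663242655269281770394793834787076415228759039163740979606109981172040626865805305349447042947911725570335494111596755418720624057898201670918583517303326908834053036851093152154029930764730464710661159151571303388273868404931642848175906582601569243393070165640979055937134201158776809134767033367524230765175898347605689821485374525814886251740819213572429270079635238131687802910386390477247429045574640971682778978073777877536304546328695334218144528807087661397047930036357290233484034416714913696069454780243671131304961154317446347308738710216157252839470096135652223689813898708581970839397351132460407203759755759436822807238181418100734985823029961259492205531638998444810598795909326563743448293733562295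215125607265253669750661074689407189211192710194602314014081935900439134227226327157559170598038536671389580461142730224972898973711869640803790577740363515390457964108239989680399975421357781133845312209072066508155273725968906386079639580511554915156094873613335814517892413131398325631671761837840026979564416260333389901881843364391735197033788923019791457384227144876744909324113211243340246505164388801491955933456243733276971735537071565030109917957791446670611927024751387851871846737201649209770269281004413202682625361301143715050829913430842392808264696259497084934539902158719144546820100560431415580239965626726869854610862791374804948264971900175787515340623858888999477481421780657236381469532515564550302589393712099599371110821660961113449782167956496270556161708162757409933561420053877486755278731686566687282138734931039014193145084795028123817347100318509665478787426396946263332462161184225157008155356387584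929754744659219164716064359458834703617980308384048868818525540989854164520429981304913255186090137233890768190992061588585620553983202320204426852744637634884727869712128109945635402739220527114793324045310591383903852648902576180432620671188942323572082786289282850529820377973082906188451526521125001527169127593309940571281712077456920182458072564737561047454400552532914553927259994943782720346549797209080404102252882762298024244270770367214401310996154772782424454840204586699684066153462846490305185292709088431539663781968721906767646434040578213001842681226346564914838637468984302198209780148679840068143596859742410215058446277112952118520865289257243920310485980975319133061027536983631947808410754388096428698907996085869148152477196269208042445242059085370300712177184555577778856282395985388817101540417468184061229712557083926973231233700825871039603849560396780885418673103184659243996267657022854772504136291224292906985934077948789271413594972465405032438079875884912676482051802172461729609795473670182016390071089912492408026837028681010968683992719633018584491299025041082946686998201297722801011758235862003112632766033429358490360231923983293874176)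

noncomputable def rc8 : Nat := (nat_lit 454051365315268783825050946874561545294563011648706342731411479981582075557428356701310634918166013143008956278540759620060673516121320640714671138493266765484816619588196058647813544128468403512689786091274160293601552489696426312688820448129843043821860087702333759848451357109804839030454342180856949601071318668116401179654159925988041405811627533363838815807822429297215243299162674944071375317078647465934743201230965002924990682960406718683413443479878497546238225686911606430761442986390893988154326682533399311326166168713536997399004109356497816109573576859153282740881855358899331153855317182562342208241950729362748511233668016755935767338781114916651602042491658856206544386790374427403300814365681080815762843667208900120963372641281991315247146134791869501373195015348985990003887804663177264896186715793455844212965593360577114735911712130624357836345381728790689229275094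006928092205830214450338763625144661291545876046595201938187580487912769769757208887540642481465547668575058926523303495068865673275144661525201734925366795170218477136787098420979681844828838403656142018035015992359484925762607910002625605028913699486569433553487890548841571808474391010396041876215148777506727876595917893425260405628593506084502191227371297515978198435541405928028289010785475123515970748570076133443900196331761547012504886469472534245514836663995256437103489328217219426417290505788954159431485754621858235722275505139409134552992182248136619104364524928116564870371012518811765586651483477361756827189192058175815005501182850035245796611135222789380254134898012354366729432354952512064524464024348549694522700647885029184729969668308265820360368295590586443300692801006483449369335756724761267207560450691681489950030245320447429269656155947124900771305243454455857388949348423525403144615601763591200652954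058650903805917641170869325522379987654832281158142306353715131353438735774059717693053378694901175121404823381668968567003426596543109039286992070031170402686086436013223888139389669661512699789714899613537351541782529989210949205432517434512297186406090139156036907539171088792950695111035896089399736180552995825309028651791205730722914169676559220141458306209908656790653199797559291841586893295962139574781601097690233412444507289139806082125499184435731332429238705012820980732193004340023211839330182692553658579135277807104959146303625101715400172207877637755144385864542383666186231314538990727835269650524582022651383222203249081659463155583787974735095326351805975912366660487812502302325753880861708054107872248788414355527810232109622889493213017657459728337984007793322544268032800611328447453848286598056697929020282935825549938694930649030659260459569438478095435930072322649827263284774702244214052977472165696663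316745165406168929237418502991341576935372213953027928972988715070744929372775461116936275739861050214460444508804110278312028566227366207732368474961663983733490153038533823177418706548494875693957180628393975888499762905095902843756817911097883077986706331956035704633571482552336144415959089161084605279109069234250100651887848339822745365574203033868645853194764360010943871428783508449157648212030230529375650487071205282201312506569732457787821481968752620779016160221575440564028989335563151316046941935754509193620869645947594619317325719604549314578372959400584101121117751397167536873285078954485869608148757888013492858200493568994304671706587481253653369191724729397391344239987830762584224945906017822313599078243887588725680941145579722754373091231606968059108617867406196544117857470709225304628712860428457350722794659331266761953829975122323194859033418662132562608763395337933196199094009582143901475740507620225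708675910615694688634478525795325372576647178007282696356508880813233150403871034503986433760568693956440816337036428408060882110558712869151291232083574583137429045508399620649545432751898536325727484607601960336028644969858179088966526793791394452445648640868931831577325957978033007826642157990187791215890688180290819637576696194549390296153947839435407645089952196775684716484820819693738958276931912059615871672981025914922305938560226948225462734343118425722997416672643636943303337811732482874328330258629252685206410824632488668697795926428548035694319005125770699687484860395826778093633082259829990856057701022805265213340036276284614430861166571838764150510390256785150070678455892224679418166170234271056240098180940354960194939127793155518031617735226586630786692119817135274472547006742076728084144973132550008013511348911043608091836313835437332117396027510234747698587905288512289055120350071135433976634880496289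071572461503532709193215527336588058570631872318021027481969809527923141635245045602287092672820031866566739264756805852541926274899606315684699269352859815228768451863830495321296220708206928117353104756347990555879346723105236252576323722899193324293838725696324062531932324103603949150470498436458273651856027073233086837793433177588091008932261399480217584705520801281790352258869518759344862793718164598922613309533508619731182486677368639182433147370424518697695581484243257191977734131113147348155377979249806460723307421816826126480164059709966157997349109333001216190547327087485305798097791336595602218542458622217594132407438184766322185995944020391420013659809593767955483204991472207664150067386920950771044680117349441441056752618010514698717147705005415962196434368147646398520795787021811708079014633491491321067492326407925850428551269252417120911654441698828851773710435070094077913608325761053011357631131053556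503653983537141857002351567008730143714078626164718186709190404800099640874930487529213288251511625537969180552673339467358780732161469599272508443820659822432738302789472831453266254879224291321409194489571296241208680091538233132495605388586559729626442936667174431975004338598669367343478178943345147638271600044156989962855119939889335946055125720574405954594647887090335235253641128506774484385122269843947880778503689869706206197511969040678950422562616227497337390686684189387717637366556725157274029953930210951507960424142322134060594893590119904101553615233018516365565487093781585274199663043919982218105704913467605751376935604388083361035637310488736040488962485463509718245198108989872106306128246481854924348176223048065385131792796991027362070986308561380130952072934948273665679652527457245197359660572047822573165857640228862339092993736804314542049162385886050243494887376639288649906978470148151682974767891002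464189692118460627357659065575769345204930689071534355360946361730460213159865438931485503055712520725440599819284154897864262163049415845857187401386436949716131538328659556741000870604539981816583924677713527420318132253489435957062044494940768933122194053518671602967522941515644993181085473593564140926404226025357642178782626021605921211403272156921881551456748029607507627758364962892318113361501346060394212067919844898088570431987338096368201785658612721684068246743711824149724147340723807409047684079186898548444174891610882259402382765768543513704409759026555742307834084936691348571538096097401536469284305358583415493845225629707551673524390551616579740790148443255785526160342701572211407688707073614260552827101918719904002957528927964318896735230125435585853357973518398620443718990502952413076985098497586212525928414908789479838443564660325888828029136927719318490808484746254105121288368088681321693707976097798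033964109459017104357096196849358604870959104197437068240876621360827304630802692451489355430008190202936716675698602793591156237818353193926886360649455246319670122580229723818734047308486441451721117814486552756605697540812468134118057056915605224539337198709763128144119691637532232704282243376406220449539575891503085789746989467950851010793132968075438116197863265932907510406199141556020364870840661932311210411775035872960263035305424215232725751766045120837551020257143784996011304189751601023457571485105544976224564884796400239433804875943142959071280733863503893943900725678094201566624879262401988407761163738430963021262026491457951873351354574690969671884999867852890087892694205726343662955323708561570225073147633184775649187668702730229393700764268369434434341890565213228888683757103072465655242327611164938624679518257365383399678662875434278585213923709970628282990965159410127047439310183429103790661038713469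478079079909621042673762341076097258053484508282217706561867413643463173973696597556608991368728454317317769731247785976005257380272527200432722741357252290695632516221522238074169450707616280397109560566108371644270353835325759865236399293207711107019959781560128943557192290115297688120405885067245280845440835000646626146461058478899455534931861887795664963163573785699600669069073721243893832123229231401491179402548854334116966255869295296814895755441032742620111769324894530421105040052040458989451806392248624944319464157751077375282069953151685560303892156998426722333166801965900902397530624423949353119563150342455396694275709945915820964077881223671420965345301880527954386915438799609654023710798790684345041115450330880548768332729576938202507488293968858664867979695090851406188609856076800770214159821600107624457781707223575109202768698439001026593667609633672328591114264237453232761052800226320026711288340538995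110642068436570617052716304337242939461670023045571596110834998132244063021609371489937212308449971011735322049706580936041083200680406090453707705940423454221055168348960086267575761106855819652200913591515169372250563722483926856900893839275163037433875696323452914728486823904428752731670769068999561987020122088473699876433576255625750539147926554158705437958019595290977857756473640745682542927097639508329395863059371016321314497186812284698808224359359833587357533761477456004655405351750346701992259596165312211401844009375392872170757237075755643063575576484528425917372980807575857264835387461153795874627452378374614936020283709400368523258640479580521603572284127120826505910001177799513628048220716288927243645845755907042209867426920199263856600447318548796061387429724816291795997314360874199789524996152948539942140033648191516394481077080735728349156032269574699155315986304031726567631924698525566347642832740246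807848429846241892336879653747582741843177652576021359570609296450826713809827031018494633637177795130919022500883879629835923583441867788720698298458842001605680212131922076700673630580446313553055903369263787620917379740359617269098905890162120530209219546568008238888589820412394371123229978477156357189819774995810564327699618725128675362617351885458539781786682638861511027692783519099439690337418891675597843045443724732348107666103936432647436865167221151928750993350977999781814023946499450544620480021259550110504212670383704994576202441250127234519983623824001847595659993310505384452002720825276228878087514718995047233634291872272886709707891749098123326694574461683190568287852853915964447605074960194393816816482010361276479179430953127120186223220571214985334856925954678302839626073904384834754835965914854414576371200290457327560619879534915226805431125655124874746497576032487894325209805207545921173554345758450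465714822635547695300961221707548280788023235119811643017579025015880806800107632168736334926126786028854668858473531255316139129684298748328436294645239018642339550568364514204900368440719734250101982549906782999069782084656455162834115638514005952952726897004909419558520170648472352473148531176222958840653483220307302705347535889581956836170499523964130442012271829659050221417044635851443950848385346407436335667018108627497781752994991072329875692560560559065759240467160470318056755454967072280544694578572341618731779557391253576280825710550208890381321003480330739151054206383475565777866089775400360923980497081808295886501681540467736340045001751649749664836308882142446784443855163659602585013451392498534914969918829447323573742365381198799574053341671645534824276421874370517985007946362291828055112412777024835984831275683079032130205636816035241800287807192778308494903730798488567253294678355776851338766330615342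659992018750017410056960949853367959199965343962268602453326089528410256578431288051982431827584639032949211303868326799401880966385663521682981702407044082573572613892305028260732472098041369771856429895136462623429270982997379309582627070735430410003226056659919166419715286590149048822441355044830068742968958942661035105688593073265388573897163088131160019216602286571646904938114283013359008104292843881924935308915866048360827117441285949181867986448459262476375165575754874697349322583868357559224675496323071879574228548963620349302056795303942622268638326392577089445047444683192601819863234574518243970921788428031470127519636563805048456179036983823011474518629655711200243707124369713924943398849915400279716981682091409964919913097711648512149942162382754881026983614479665836665810224115439557317591718399829686579384801678002490199733863615754947229558114625866628775307447206553823363085980358441306144287135347947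067908391803640904170699597344326762459313032367556129006750766917874772789715623605508441367368232550267644184890365108715953426231885557036838167933105566884393940742848484313858371515279763715049474718809358940474193799862164578273364645857693223203727559273061191831330878419579090944454164760287285477810586421148090536017211217852526061612757031855528919278162482655404380092867453779505177562094029783009769284711845348051960955394561555028896932526937200780025182618654432266030026364310057222768765347417365773461586186375506959768397972805206226331773353454258386002595373023567476523816289903340953150174301787876883887277977862046440232031593650768324182561254433407656015053559013836383858380186512585990138810430710828258289667310930683234518007278036002320137036400897344910250353661309923212807506771479398968970984172190768026024125094029871628864885968812483630874231498227865057825873673571893468564143093889427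081552781426448291438272118277788088420477346363177450640840106062629790077851279316116657704069451831979917759614973848223385093860320636694290186206081708155713098041525027219541202037672416456168628711319249207857862865136298768181864626378394010529652441079150407552761519799571325017557634222699232574015073968043452275878939759137512622453445221646780359739756314530609162626002989432950036722358902166855036571446913834467030567823499500364623804995314904191054525309549777809817121123111964591337574763274379387806923935627858127809895942229068239614907343844080734397291197197779403970657381205517471230040512173901435396280200330473870725227134685206652975539354280408498906369068392052457923734302774315499094565865789518424366654186681284003121086624133571419745417715518954397531238947265972206828841960489274199223647375838940409361084774091862569476567850629275848920683599960098465552728092451008150719904681931441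163866668471831761734775872225010528308631744865682083136569845892413057370756382378421592371368104326191948720114651597780148370174997770056095936140111609178097806886169563126063988200122208316022564649631902706247895647231637921215058990699401547905443984324421398731731019026097420742168403352932289784638353091535169299893344603567308247517348776972121397472676346366971737294852150713784974804170131860980001300728479556827577304812770639854849939367270010250192387151995059839767238417213653825208688928076328478518628070640126399817325535954375913906340243770951811167904646002639811412760529207397457952292898945284305551632716152156995709476724845142906204748114642014317629883559216386622754357858821765703044635202904321907869161840150359019283468972482576867573052560739404914979261254766320464862456683365185927506243251280328920890212754598689852657205454106884742546931441490514695858207500210610093995945982898437894385005890172525806800127801393214381519500488087110665944216697488000465281348749960681891484853384120925942331468758987122367449778053838718428947700398041668667402356106645326577408473152843735293154909302101391616724061394239508434649088)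

noncomputable def rc9 : Nat := (nat_lit 456311974239299329277364992687592605690321623080145073012536990309781697822975847635526438817383027102770931052110619730107881005046082484917969768031570731955064272704075548994390351216200330054409081410522266532373894279262566717899444127274773551178433834178819732720917310730940322973224148557525220780534468689000101931476031097044867088805357718319467633696955023625364673229897366291399672892647696352069809276533004037438069529315058043317725957894199998288225281485744953500894749266840219994250969775799478541166298077711209504005039993087580053986286456501036751491029510040419348523927151904591780318396221548820988493862632674729202851363043173100291324185411560379163523375303891549945700989591928643637792727719361948479851205114143598398504247812164920553473444632463950192876427088394745742028415410254221952910335400531453335022615562747356141074568881979167674339327858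617667475029842748159193749124740174881763714442976397490227252757998235438145383479702152678058802453405244079632123098219359168405073576314426483393410394329054827290800705164305359128837959109266357005053655846188077626904023296053925323375533340079675147366565124866055633873742720838205977797604672241536568695441646420560401158763204167881418720200412131201935636675482470897708309037601173022507988977255808841610105798629771965388946394598790228207695604645326046845803634323612853870183519767988337043912130039347225884398002624758776867857321885480970018474164639769744773800729699363992778877105855344887121836804614617371605455089516676040785060950877247626390613814364632736939847384331763480816977658889295902012640884238868182590411921294184100153708478565248367898501916782339797297843671749929551034373159482712184874295939772365308588271898553478206606376650976511652138732971266197900600173883425234559366410604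835152592028133394099908288410901128480473935980981859509031597090423674330231776229095354008906450394413123628976648655414679488659004469957998782567159712178953912010321620607440161445538024722639056975099643770909265130054113537861173666627579431957473795134148188862925373907126085396332955515173902373556959290247464254566384725362102379295320930705994837397872128238416274133363503926706623501101525506351237157490300755050693627230521679547530766303355839642123494806102196087304683635427987448840306508932932844717474975920822125678416104310400798550763022208390675372522940621846962040612952442446658114312104177214924729650020339562655076578994258979823589396699328055062666048446685222844996634739299357456909764500904227656927061516522093224828468796688869664937826266748981681179391873602662573201457037785306627040628814841773120809629424135330606778519100322943031389075014007975244226508371557469546053188629067816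214140750667025761473394716020297394318814613919750403454606739477633534156054076667567902867241512097977099715921176146143750438908315351960634994226518455185945192356520899603059163782843411922015582503260390921115910321162164298317580153542226238107865974276654026587343580199338981579596806154872074012276991455434365790397944389241949350242611350668421115489705574335116724068984083509473506672127877659254385290900815119553169417260725469694226759351719945110899994892927115429475499998552108921109218467598214088286368422350018924221625639785902361620246089013107986240711320844568879832923077792646712580295728261795599855514962980673306394155332491913227317118557283246348404759660294888491112005088238731891030803870718261169837076012805596813560544469591375526000480230954387003678288397275154864816833379570633290226532959569665664035324584601360163754154464007744335095486746074746995410632936344635501077269327932144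338265766161929641434844584611534201185819482439088791104646779205131602642570372384269606023485437799024476137687763646765189665736338931314897035906207345995050814001740187497344109675919550772517483787720232833063929910503072271804724662098843341463436129982159908298648328904103543970597860881929626235486444943070122195088077763295254770849200906690782451838082925975276096748781544758269188491159182923438109274411076240488207818701361470104952323110621779236442954873151810804926064187454374914532778553759836224812988541599480091310025534983488010837107663243785220005274669200578101459205587710699978745181041969789910781052328889062201878431732759506796791827008297970959272401349864175607561961751496448837062608569213771577605882117703202670707106422888624839171627290628885486559281479136452495364685104636363229076492912760918185064169147667175555574498243573286732185775151896287636087897570706300346115643617167054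991321339369810359562709370254785992019646095455145132969265303056110127820641366627338685760240886936687652200055169417012794551877937791046781625398745353341696641494292495750508570640510527958063937463952572862380438069041798713923164758079321132701102737803174457942965351735570118159366548085185178399998087483055002561590533952134764292029053057768466067646211201693382740566705808631037702039244365883217429031684396844775652402520884715264537896028846573237924387217327523173682531428061475321030699884549939292295276002934783936957338642443633086670885878008265139299133117897294388168973038471877925298536572803059081176517766751624605472041626549380035085829161821390691076011873673393051900498494933924764696646296848819307827482168311551091079568244301222477417233145410914677828357928058481167814959680544013839943459951230068650584829848323192205632760325079240918701968431156066967247268192326151535928174965279521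445243410488544870217608977278857945105493770873996455542845491115559507270572892857446981375638706327197585655864351463666346256652870596468476933902363630398811547855779260911760519295877267371359919273367108197711959064017747980950313683468222322911112662112134540682105974314856909659159065792906479392140695896419401336276794648802807829679861433876274491708049113520932793203611749215836060957600643228566588534721618157704326776844356159588515686340200988691866060434247022174069803670066945910580642835375730738008050042358302094119621521695745229454150298819039293014354293593373693040975342207033190802647953496474711288310735158652614838800152901786102770446714052332303603061948728227057299350030714333630927775289442881436711535539260144654821228089240169558745426039834090056643136038338584648100840436789413183410973764611152635019583203106822033435173789730073907208120826211113370050138632206158060546441353781673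598261208565777382244604097570756049773042157948800677165698690317172710484656584003597022327520128095827298965055743505101009041455369729536199747508053638006738058486572420599259328022676978402160600331613624166527448208277111333770330278006408135655390057830706301905056728612615918008342399910106393115118509669454402278885657851191361452042862728974691215014603347521029985959190679657768361391203619108324534729085579847160768823201359503596096866178770779350369287217376801534187724777065424875904571324568170656281305171733184469024756488331366380443846090498680684553576920897010027600625651080656379842388087176981040247853498209654807420894349005519548669726586094255601132724293901938727612036862255049065986528917184619706039083667665005686819638107677047246168123818081468400695035392841119857750329959447410404335503428052346983430095359869121117675102859100617449008364523858948047309301925336764061640410858390743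352230326845260042092771944835085295094393939889390570237975179329927547837864837087193746040896048573362288681550556407684979733496048987045554847663991904071906240546541614890124981764656484126701922358143274037660448867973309830181412904160877635509337358708637050306369571286124714885669320500201652886306267237220297380869511280646630612334673131525922406010171892495731792480511410009259483228936222214300978463488983941001648496127401127466205879540118338196949438246841759226099147554157758810233961682824883822500033098607436326139712023399548438854705570859842967945974495723759646546581875583905725756488382154744919715460040665613625154345799716325088155765056352952645474770172634542267426304527407756620755833045202063815142393467420667742348102058131379746156951914631047047646444952896871781098970167666318992113798465649940278806711256682078602184073841280080731078394924910886300428089969506750084045005926333279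940072481634309369370477894991405281109314981205092944104783619593295480305470391289831114694319108955691520438521322189036941657194233655406337462356514791619851845464192756592314684902820152263960066614804986301835219756283923447249170278806884898651264868722257722271633557090709567829097817110507016411636715976982133356260452049641934023873982969165436954038802280895152735483785624992820031206907699828417586921336196206167005191728049312303089089464157130017927170290722561294629821093889347142691225422676316028826698058152996932694664351600892699214612360671868765025848653741171446236955053582681624506464396016745603857476058205076864842624485931044941253184070818632632410295445733961509382222770509020358032875228119674351541762215047785714481237313855129155624081598971071820401654380341026168355815738998323527550243964876266094063514370871649159124919146825005727522469043783802040576149060009761283029317766702576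742446649903221715856001345081506421924358066072171807436148146690936214728075273093947899428756804477060316620644821549693040272618390778790060223963623023101669552671083080753031128719235202578098154892256186404019283314012254911705924117298322494454749432489131722540468655545359682633970965536819769063178788843501669235612025719215789370572152809457927120059879124187052205759328468003247912516163000289696545916646834224797741264597579556258857314328239946674792460017693519591069855604690075853072550922004854685571393720401889499001688661473211768897191475706055065774335724378375576386630654292734625181228142908255543656857689972061770293161713070875469747757771939942153660801752691471449964540511650187203048678330177777468719238742344284855688723770845872846392225929169449964303627520544466881178226435220321857649826937781548392723644589681681430190267309749858789704832970305925907654541658221021049477906310042234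541960775194241032112372332725091362986094355055243120419837864871809551943485930035339004261845905633979600652380235986202021494471121031340060170677014366670456820972304709620471027844352462579223449689068971022890956455175870805460028266641146106109841336576024833531927808243578942691272756619232097962316977510605309897789609873888424524687385039885774436652072803901583606511283878520999891861712869372548134646119013266122121908840696166792450072672675936409856696050769652663036772334315571325029038112709281997151218561971691989141947435137639808065534361381420998888650062145494511193365780408651128991265584617634720656437723222792299343628784491646466900885867919698298569872298832319350028469342309008669207317533010322630440683773449843174261324528533786766584925046224877856172668286133287210401982234531635952962754422537662444911043856849858430967121554125122925723354384253418084770418914984698303300108087865315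202695478833016810168924632987265460527487477785863545087214659174102401283414719065679891299664798172498993167728897655419326333542051336804362031856336502806240884717688625052059348849582117091166471624333918668607494059756324041134879484738598364222472771611375514993189893134643988212044138809224138843556006843597389404437334878723678533157485492942244727311654292966771344982995709067183912264511874865346779503798486947110279995929773163046214008809447766619672615505300119958979727685610914170766320234593286832837598537574461308905407458778861747776088324951027488931847830094100699915627428176066002966969291072831205411539477945024379195173318038197338623337831117462134017197889743085279932551608217886583398497182409117439942092049902591820399378691535668684940946033816151592763205691972740038610105249525382388777732155892484112077868839899492173973542787137564890354288336386498890684803778106563176702349330465915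198593303774302299743281074790167884768484804114389690602246270572541762424230904061302210213557988961233484191223005411051254794482074524314482058921933355688198745648249796681122563587926294845674562422154902742918415445789201676258813693527956775263763947680983157512325934734623972605596658725269179934176291617020971083025453410414746807406726502279236725071311643867580503091496191373621190493292406831530781234923023031354028686336539038155863396113874203786362364042863909200311923241112356162753983614831531217076545925342035367610765187558148659071217485476583420732587542846045292345736390504760506129483643392215179242443118001203812668919414314098249783886228118328346445052163220547561887327581112475477521909592216687019686027746126915740592938867211198750618948515769789758926858830950625379418904371618152097754871876544550821436990222557042643025395039258851081927497715928479579230408702061391852501031776406701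013677969851743786763854264716399620218259300610860816921243835320835462320717008911331465691003417862064370295242030779097116442159925351231877391029087916125699040827049412677174639462582949805629057686201953506965306419137561777330422888816185396632071479029578025316698925308981162825483601569988566906256953881833766191561090666195910977272150896419972482650946323019296125964762241561978789466662894014821398521619062248755806983172841996012799721318123831003868780170347998333415497829422041777378344244229363624498876269869414018527322543998224984892175179781014281045422743045374051214446595347278570987020509990409402886596078879605063562341549355694777356698156621709552813257148929964421767761569654712903445778941709656216786339340858595822736502375914622066918175531144501303599574737800741345329289386261647714429064386654389440367402610836419342825360745521939568686970298234611420178380672289290665703236444293353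332884154229803979289308202539568677444695639486437225915877351406263303783865348832524762942515016595842392043026831525708570578543128096673769656472722810154771046070306816493678997670531093729182072622084827028037818775646637064842186642519764321783177272100222514975149186014486606481705604906802440834032940483593017432865720134771884135712765963461957643921617827432363905965957687760401322888805656946416840431383938499674432450645024370012399212543935998197384124832824543606912971528654262355161926723308556217121869574850695175474975317059669065078681569175280331042170970096564714852473520933958146821625037174258992800196470209095114044846802355457980322110496902146172253773445000190800513730183518931995400704497710596670118264638566717935022930001581149689621746746312759760945075771669634849773626497737869152366602720004156269848815093886418668637073497473517595933479526619673350148647007541322823677097898941748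790947124331235901099589884783092564523942519108785833440908342783869022117684139239809013393474002836129272825116896882068824037439656415184573901590271176912030819023982547664445404686227399474529896146717487090197219841663112497648271756082250100884452507483819250589170930986376075336283391645874540961812363403204553266994991816581137350313345165818864439613406610065342403040744163670285891474131419953663312888009249302348367121172579507365685012002302150439639953763237082461589585936005944202191283342102213240890393270745577068501931105738345299466943434483809919915447335211367246725931948216518518623057963412664110994402842825457463087674710783352680485811051160763075446918722001024739692742567406066484183634716252188309314822623485111761017612528061235016421435652426764888490454370959842195635626603374859242034381216532249784957286027696044847989052127167996528489886861177767096966334267217784709770369467248126002882301082296301839114177991115066617397739879700894492325766270928929771109854608466147670595356134578319599342235522295281236757377257322706790684403875509618913631691257780705391023268747895352990730094765799021597620902972101052719955968)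

noncomputable def rc10 : Nat := (nat_lit 45852869320610488422174158463848092225828140497967179157263615465769878759582125332590043131116405798166265777695217058286728974406790027118505756598043737301108952441075493706476070042686735096323128532146574856566980501792607684564418494707093255778678232042006960937072764851957895313329288461009345431293354299026620948655579713666026935507051150397173768157434098679341554456228918361667943654069254356319413899268595920116218396567404746397478091350989015431886639471133383157708603077694029285858008806320143037761181682823040092357755615070991147360155486775699661487660053671843414224232579672582521017926945841032283328278863448721002376077311405007522989657763226293408108124594271230239407810348513464105431033626156818626410223335896442850247039399140933455355331089960927025817582135855397083379031628028001212247435990033125957407189006594160783963492225176327456395723030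343874253630969606581704474280261116508914486490423661076921185635801349216259989255470772618129929553626081221186802451851422134417414457293917429945152241155891006562089116397623025558123888558951948001454707628975674764830347938308518964276005875873068786403132125453822431058560324814907975653887528658875855706864860460957712765385874746711236715620849435248274029995214237171852100755869606881910075493094098556887374954340765742670831386467557005522401549746471643474562375361185975933114228926765457159668252715931208853119792387893685311206710387921730051468656924749575218977594429441446207251209837618383134436239453195878330796331943548475103017732323199088737030002850082457442158470533879835439431311814474086379560913045057189937697444603487013742279977392450206291154108664468442773216684010873634060772621745136663246962216241679354483543015522826807845894970767864279980584845595470005277200270341953225440780799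887815551725785107888112929388962836697338360900690431848995852303644573548896293129935888507824323230603625173870717031284682911691497386749022981592139058260977010428815984005490937368352288085306526871066966344957594616023216122726035710773798572347476486975182097500624914358224096572713362514387393413316388241464607584851123548374412808936956179844093605992268840659163789264249086520910200259370567752712751868301347426702681790357623074974191432868289140646008047401799672271810576100157605215966703470483003549396924803878112824715545256834297816845746250458859772268617476178719908893657861578459461156320138935711735782733460911253296857149106724243047157597273123403428099985113033590445045029418698580786764769506748208896683069543366866735042395982432356051545079831199667932435274694995103336994839799401987717644479810413588764130853575931989980817551047765970579117556169429293545268530113899084363492167053743194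018452153413827268920735256047145610840894326871567404688725115244614676307658414163759673443541164215695162064273309064861160322533234154322570335103504858876952231567133762974886357094293704094304257963363763091900856510490278789999294703462913655350473275427763585810968176699718298118598328548805214571008004206037951674662770675418159853243155417979628769704647816885675656431844308138006121256522897771722657609961937737758348852929714833895002011281499791166718991014455477354908629005234369131289804216753092711421629254003688879141992629263562514203035610464841521431919367772573895188101299942632906045808429202551203924753106703845381085334484254657536856427526609650004936999479603872115613113403062854131891151645418173546687504447341229187103454562021573969136398023195540811534333272214102237775211851364630369664751823530125761593351096579795353207992173439948682588109626466681229713748961996142239288763399948816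855321517490744888075729645226715935724852783118314426065497798698363889323089779162165986447835662211423246941350922431944144072643157481916468225557663081766949248000772708528856275623330730387758624403420847091782789316207198293432875591099703118628732326993604905330625797001145215029971077461303760437480766180172866791634875978305682730134080573159196013466005386378445864503385742147890479320377736706933145819261796165448982807280427106793270774726257377577737278113153378871544758944701216888867630535577702174782607387275353943578317942885382572628042428945898690201699120706311325043164188879068190321490487197000757716863605799866910359383804838401659522041568521310972848625691138994167011613246248069298637362377514672759056490619397860022035775298191867141186691859463715563638798986651120908129736214873105670055594717121405278450980109600127478920048443995915114135194303510419064359053697486260080481870600964959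978869694762963729798893599237758779891967505761416514684495555397090535423237406514130235405856092646964145755251849236153033506423041053550782443688352999018913491523135833984006244063768804011742449825081759773773814656012197114676498189266489068522003929632730901589535031508341729491544744030672798891256987400168590467983253913004534587829656558219032244641160234966047188410477192494857690553610482306710651226317476114697468125474608481438422213808890622227942087157284084264564046717967942015239303701115356037167271338568903071988763058390812120840700983590730456864432424334060659626759881012475343680322440475638021253576200395916585526445409102388077127930532668271015928302946652977078180467119973662203974220376466423384556781764662188704906689265708816863308292933290227756784215736032138946836019489406522332542557833756567019656641631666657070261103877099012535585776934023531537872930204823050701595395560852746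220214158069791854152839202752141448770146684889506083004763322035315140199890912713790182749510558179367636461612228010229339475770414643181807512409243046097318071649079156456466404605541727408905996221171946722810010459653840133437707557353305387398601329494656804224867487545254611739283184868380022529169573886188416908080400990612109285536973408842458505648093714864022069166306286963352614113838695954988597352623558551785442283540875089790069757833119649532316907149686137401909423886739868101020528082979020825021252590527275257158601577268585109647640267718866432007477801564216850376608057077404377752708560661270519721942268232703121373067549534248474862848859438984416555400717803908455901251142818020477607045415336397734327950859248415288748024585607862390824900968176525907209072075949656023661107668998202760698851519238563655274019907210069168234469864554707734115072742912307755286174266273294882302956366131159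524547695386258364409871753481266160165247690944402133073977817036922417985924360250901994362421824463351983850309151633381181376416336558702486851780133478390246704908067390940203451104697404844957052852321198547693125329829031912570731006052826588466487973464671332693099468709693067197671626681404203917845208157329593324394623151550912170599629872960369592263025419340429096201888263300140242218044935545410537269307603869927815612730779617027471238423895771966932065656987598502773929942509306947105527743348269004640846769362345689711514579511014314255946276010458579548296124586955379986758150250261769592161319590084719110865217248399440306519510186246979489305363262121466480309167562891536397295598585308247031298094042289186827459769763420849709542191753535569218942037622074962353981583908733539311226762394740004350428857893274683487598618717427656827090722322646186453915623925555506100014925067479011380898489937296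729324585591786518194070353071254918403560382276835059503376929579022352685140211468433913527971607698346520942292063473704964438271089878537535814047015227460210571748267198977129360216180071494703331784662309127136587976209645094251933696740314010519911433327680329041329135362777704758788470776589964679591294529387580205826081292604226142139458376843724936820965479129799499643603760499164421063963047792288101770068373427970976904742895123902670750994255142124458067724497448709063264273466525433766868926161320106622479089988577250613046949737840866104129210614629414303643110511344023820730446509682248947702118044385956567775286729472521190443564678324054554281580895886652250932482579170883992635761155030629076193751376002008481437518377808154806252034711740119321158665463464275162452816255050052785570849562926089423628742904072204089440665662377555005309530909254065001802396149774518247775283131680533433734275090830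228690010604520034154072804258572838654601479399054694975660468762623759972404180568382324106556206972766863576446607947226874505383971793996073206489974054736055963775839713891412549354790973264378824751420371030992667773696670879272077814304348526460912504156430349970031651668318600845028728706109966650256396205721146565589672457360638771802427323051691798592588156980120309882347194435819765786126482011180746730278472111020753496550216184318505622825239087741312850335163232221293515752808275995691458601432981171148291137488417508478704701520100002754697917257187595418934423127789138191076144046706051418807412785724335216758274419975951256288778638492750255485309191962818010167822186246185197321763755354616226857464911001482637777121146629888056686458102874374745677314996928696187432213513900268351775236613624552567667880324115867384297352234496179026183364318535800551478108431505088395292563970962864820572578637526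157045872499852307563721656570644600700126374920140530786093033307141876322559767911384333078908250147827235504038099000820941879686339194121400166847957508388299501464505472769800607201584462091516851843197470192007547379915382869667382812438925045314216505083098482475715894596097438630581669729855377942581271708952727412782208559972610845236308202789854898486337735743810776168966645954808780145143019284559040700882145639264419477992787560850837421831019021485464147269456607508124104591089303295398280969242032352671311707220034237527603857807128272896664660224542759577974708441538461868539734936109221919825113746212411687685903158675630090968124467674684742414130687584578975788428547781236257355547061172675456560604828003994757001617819681876587663982101288952951663032652234095473008045864351719431511667151983650513004700279705078651580387033727108160109726490916236641235554367465807614580864049461860773177708250968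617509905975444412829003249285598200059450775378507857552796725499157147724412329847235461751227817468630476007022822147974482815034561995628406436634547304392606460265261925811555980413126794550299668633431998589666630960304505314672053433996964147375470775070967185854027565199306339461499594164651123379427190014052849007767334942380660708154759347373157820230119945497529748716702241361179858689065687065078769609315076998537014537681296203925218538708316368353849502277969917028987581777653463278537557780306991098099496329089386603469173405375906381517506288918697690214370623220992314432493854550713448707605936899187065993572000799349478645902418301777333552711415360471046449403847864542454753606417373032832638061287429071123920138041512613235191035280012966117382542739855201167466759605509332643612326586262640122744119291010036630182789410816023789082272860013396760589201231270108894011166113906105830172989762512058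954131959515051116411672306988745699652060607954367466210087490063581267893784243553393363154129077198142656093374716578216171494281071240489265826942517048929336914996420127386936317885872062799052455794419879240602409758412342147450673798748589268213282759460320309907273005962930875314947742809695541413366585120103049291261643537973277862180601463147476184058540066510883096527195975903214113045818074532209209604817421113345104166576185649511321622383002985897827703426066765505542691837121704833968604791126202965785185600528366190495616121969627046037297163699393700819996347629863825401238764382036942817986057375208394218886257021484110643111361490506073345016375213402869741805198681825829555683677337350481749204772119725580967998726375416185368692121306344414938004156276560307237458808763855583510310717250084622633334503792942285468003974822892174425168975986567890464295838288299379313315978507245172067193161501770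352201356253159244002476658636341227895911476532542544373483507658941445416502918830208321434848631524679985789699527116632225273101377859833180284020203090210342004538611796624912559246662183677159775311145400784426133588407654386935014983817779654769963277661100718651711009643728200224086263960627297607957285121110163433600356528897661451203029914226663931142001774913530466193784574053954260956005252825064747219314661139124176668318410205917507826645295617052992198611436875460159027365007893566544765017573728302017275775510757897264331228784981811060852834934343152684235479132325026545835061829755339503443723606089249116732640083295870210120911043418750264813605954013006779781693107180995632147059765500809931338992182501081564481933781748909348790079363927101769732931544713402009892438091911950564327380002781596894384287076254937822560897051972347298701235633015030366260529974284876007321711137440788913469641916520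970073577719175506289397607318044274540488704787823189432515909264348116093550979700933468997073850724501724371012012627573047065566981426250819662561551504054213570902844934758725710743488330108725985256492686338620450194862611193639236323323662017439401399107700544613314428352648259168046180301004848850175722657869637709470831664251962719415525060142458868767167134100588088061135559722301033311579476524499995762211358002466055890779059974536613318731985807180459839856579693507856185508739459177288297830164416114418346294788006598159548402297611495285234195514413835665416670285049812943836431321388427626922757287525700150400085878998885953740442525362302795970447173109957309121522414805186735866244893612407691520769123434773707672860667773939691848681843628656593726574120785361565619965750161747011770465601002748848396126381027406480118021517383980840908164628193848170537062730876165567970243586508426085672160445901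358481715615442370675733723246952593259401249882053384293576575942080840608380963075298587825102702456016680056661234133256062954748863576920032824013847903654925783638084224757820717288118116785157374642417884792806718687166575204294435403639171201637618495326491706012411429881232255118547587496800599340384192845217921545592108827668378110432734274239124868004785478744150948829742283452433806865764036497401229992713590054269716452536532619533079453968816608892778241443913277366752271031386815062304355879112596089455665129592565246208908133536307014857270455947925486588187545868433755172497444208452469940970960688547868206106883539235412608961585287568321782223654355654927771632194742942625853384412205364312460358330246161187167190817002991573503765508449583128665356871114614091640449567854129894969959598172929082798845331728356652396031342792825374928264924602462436507460727538955105746573075229786581386780117827358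6358834992668793623568566916574978758132815419018603391097547979914272089672674054237678110260120431551646633231689765268205240167050145602151281829073810852060020961819154248470534640689381096120122593426374414015167768497821717831700601148716191564817999379346066549536614349793493087390715568841385136306384402877793099661655341341989887102619957383412140458173756200738524244727975956984581957196466024086766992246045972794096222835841563061591098043457665434135436148376657080979413303569665351595664652847496127259668336474148698590508840489886138627411534741680980755181957557204340702313892502625572290901353884623783096092057675521369523634425185262070101419066856811435068262125169109272072557535340960975787859115089049081893390799382876147557534462423541478519663704849654227000389859217330595253199006205435735403331650996418495457688339720429544851957618104015376069141499885922973380707773044509575401743767310427419017374507584615457700408384377812206975541303369063862054568077928167666636856669799777008743681710397680085432698775560494064203949114081374558345370635064056529466127032843921730628497933659646652336660398046482538512261392729401933449658368)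

noncomputable def rc11 : Nat := (nat_lit 46070141432531344747518714743174820419326992638258152219553755467676340745639356622429073482679511278692023847589837722952127240411663459331714734223449042386374759446735926956249847235704704584422042226353123775378225152993394702282580789400275943106110733258612525751105860427021772154829376690220111459241948643799796166428309246557009483915699466306715581538753479360074469858253175784281416210072647238942811516972178032485024265124947441651980689099857524780152922789094037587673137979966797170722505790122369644231581196403735799409304931756271240950481070924576858653512536793039864979459249847367710673768721548986759098370855186705121221205056209763831395000967108978727694223615525724203011112390997209056980265417675932756868264562373275648805302482358608546778335238869438139433895342203853664302936082753424925228828328736673704772783676231469438674597407479201389810047863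435663746308688287149894297824781847536459102880702360805763143041133262994382698812041579034907771221767465182231590671479708125560827338030473241095061874071867870144715652047301153891118716155467940804093098288008754150821468794270965651916500131491913045994515048379010282006741018158848094289524299087740783607516002592575875595575841841220478525118604348195691383291047475782108844280140282734180436690519009732808150753853813074809660393350144597012208559288060032306228010528106892178615959069447374502517773567542126388626621847703432718468748642006571416566328467335052564633094944013145720045903003376128517411715144571436007049247441238264269867917628643255867094310003208249712598965428333304461428971300642082893338801271048277588760851394387415890372396857361960662922993530971072470471984407031918828917112353234258775466695147793029337045151744644106044114672667833170350734921483002936913185052321229361318066238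345156168343698635517260956876653947620205024200117012439331987250086034251217154969039678322455391472457256893892555589745468088210000531365308055734766750828883467013227934403386581841697983225854443426497281606247120638741438717812452851245794627280192707758334926720172141886345151954528561190062882638540826012223955903716708269816835485670165350025276156408139033686712142025185727486102296838064277016595815785674246742338970438328947929364546363583828845591481515564332661744437834037946030553269518489362153323535219353160770385779148922278002727838206919169367929599471011163284120123390417284697276129371643474519223182878362524690297979704890293334509998190080984601020337579068713971044255004919869545490355271667901841519891457581502467406239465785071022198363865671993518055750192228839522172438718520431010936525095469777617602756293572574410552795290087119521664264720334546458849340975316433227129182897940151197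031832862996155959866683651504989486567195002120783633307711268723026946433993163085468075447202868181179732736854851889580992927815488487971135252595585174692139828135713987384815914168880962389070750939939606226405124346714839589712117672835902640520330471048665745014929733730774090172476757115509599188411412285972652853935497585800305488049188059998196254727627421677892705703907808349097131829303817383371492544117291924921494423658515141448790691723279994000696294934692432044625108540765206980525371814029213138586375438271013445174737089055245379477915917201915706267869744324951881614317039170165580982659292764060928513411540626591698571837322661530867723263949201458753104931276439978934509049867912012446314186239060323445175217379047787780002833816906321815281648729164665146082454708939994483348849485932151872546949004555250253761455666277336639694128175948783234779723221146470393141501528313556855341791475987498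224721871745227165955115469833025809879029384901696246953590633830946616166150107480225201430207690489640962918140772577332023720227425640993660117055326872132951418497904027004635280071805808163329706428992843754082932633919349998886032527101651389815363635190455637668335169883361560705725182448124691050712786661978574877747266723381242387984789807711254003010289316637595965614585046791963446004745531072665798018540638323931314738766912921181138189570514877249205696408999176799674642783806560281898856547122108831644185966244638082950776676465193029521959043190217677665524877536581008436505950665338131826385862569187659675033321060862937862177809449452531780932363613284893644442951994955901908832337746776864945767920097552750505096464393513503332515556155874627907463511236406627993390346775770002000584861274547924163149118220053625920454882955098335484132189029862389148005021552768417786221630784129257055693977915815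863466077120214061461161211851978955003642849136686288810336148693168968545718262643274287628409197988502457378242155988509360896531478323775304915378054482382690588000628526100612023053769379375794130232900403638650067094827668934938519826984888083732632739185015379513060292793339473728212083455212816695189065310660471656912182633733750858179135051718776618025140208969778530838926739384821896865509961842116246545050009140316091794954909420865825046393623326631210271062699430578420472677431215748345959197228318507262528384697381277566490706493202177067132734692965771462012921561730216147918807118457811839738074821712935975786915622424735162920067372344681912082398097673579078770080942212648905951885319593804129916629163729718245210110428570753631873424280329524234152534808827464667760347842257612170718951016755898476876931529215643535220638477953690527795997610440074277517549044727619562781170874246661973835136759960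380576694731574438367107893526324692828997525965957462883321760924428836879721208287918243726118990253919209289931734394801855503573792330665383607004449506684244308663383071085711455796521173306063261258108573685498510639131524901271740075316251299164207858803516693073626147446504826308516631410001212776998238470967769611456062810422915015792689121273489343265902378045723328187357695991573652971615598375977509516921169423588775031837962587976564609039984364732795836421529207819944906555631842841926310280765448472975092288049105255986219077712732236596114118183549090798585436862385493200553817783318408120329306270722374721002071886223920177882929553292054180176146001824115871548677192267550590403543874508168803589938794001391486640307601907738974797006650389332501404356593525976802511693413457058656101114794284528726078069749920677418058065608309872064923742347818349234536946289599605938703913858572897769522313997293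811969584622788324500395465219655783522000984976315671805929522891813093300886607532859219409968000502357942211335040865723714698279474898397698449857783424384397966854632139654118608104679663913032440794547728344897243912074264928851972497903867727149271168897953537102403614882246473997253303157669936085986204159083813117992601908977556762917511018390758924396124232444943601663291884656284699392234721704042765671873383318233915707044504793109438840294603921183542131962508064743323111615820727672456711349285762764129448939127108465880114177110119836141916796947450525099437269592508680570947449982555856054332012358987506790378821652481466537275770479091464175415976535958207671360804918754133679929843510177322297340763591894922826106960894530463735760480980473367280992013971382617486468146750131139641062737268483950233910086742698324407246220966922975913912357955434809164282640298542408416949694068892323031841449817705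906891019880532872114972365708051690979229695874190038107566023904890620714239898443548830296741143562860040750250747280100246287056710153260135507810939628760322423163472276815779571342093267872014651990609296328095163545851915975239635652577078499771069781742216186960224416210392217500484644855692174612605158225891236656916417127328656322120702671444333359654415363349125374833172048812498463568965462110402442466943927482168234982053909757613536291300283274486076311963074612941984366151911418258033373481409761062970632096146654504261672016045702501266065494675472443396692644696383045011179409779195620121664338980439664715954632486322174045296394426120418109545852986445934393989734328738008570760365311395377276063137699158797024704780337953786358479934290580510526317369021278026283429993177670398362585872970809539324521868543045156554399251713185962664814325078344802997909076051005703926439967531995082846503267439666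380085395134029674340988380678133558031691221030721546295448098696079129987093602394988285221079692531186718724317005268726406706719310574384937301030448715094765642798186712240589187224409488635930490686237874825304295939851769325097339730004386967190769284007775887473911836348350249289716777728894683253783047340298134377259364968724616804401259092244042274049151001386142827462137614403447415270626506583502921275708245783395691472159794556936586204531161993766559814934537946872044503292216667617774986080567482213102417485785240989729704279322174739475418282814050391513475247765854430634451487285020008341501110945890896174232033696585432625833859493768736190352662162708893430600204344234876617897935988128355642387611881755227096689770276273558599934695243567752826902527155038057360950737960316655876715390134574215845578535703298949705728820178246558515456023414413886875097508249224255439952487761572557942757836455396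321872407322257530142292515326942945466837753055983396221100638312603395403581656012825029903684326407771233149462232355477342871977725074803077821736779591956416564057135810167350354552382500201246181750594136410048680170725937465640406356048163141274171605184394654700201010609347851914503315203732601342865058740842548780985510166112261135745145707238747152740647849349737405660762824862079200505591748676254455840871508516282155904855649140934513886188679722515186349677996652206445897926586314136034217073017963055398346700345032265067999252755291058853827417769885889229168726634918513536698779423651504217475600264469745293418603063887796893948494796876282955985780235993999237496336164875538152319169854129680321341963761465848422884600642040825957505173939768454601202869452190320951803267026937295545141704753010184753565210012188773739413985572181468093234194173121970047567537434005703440307004263157819542683882605620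442966090146446931197074829464859553681920675122689317291151692901008897702395422878188054578541989772896717151550160001384387963156768244308708193040683572928039100488114909728194380375834347764451207326808160887678287455021355176220458948124693100388439851964661133965511576518396167280389172255050829210172699086946722530511692157031667009364817519064770411773404133282321707460437372820842027941750079764349535288399143517122211711148388033582539226382903082244494220096780035170537630978840699402759679778918411102694830657791987912353080319342083943265016552866557298394180741301584550151893148227992288544695923582240960806317535512093782565631773102560585215175353434093992581646344481694901021269730492888519067858946376810930472571800979067693771742512996106246394080475402068335939667567374418395038219175074571340272468276052505524097355067596911438478399410364076783799111296503505771830761984665540158322768462902845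806944345129344464199709362353762669121982276025247277925980208534337932667396226539251455375983705871880840776881385950311763347954681148422904597573244617740995697536323317076938537889926450599526119826218612328352705131912926690533817900682989896492245347584950512740987985120987305405792704088238674828239303679002775603998772515545461523205577031496126839767400001458836356275062524862469081995169889153744867991927070244676928360052058487876213585739722556015264164727384473426993690441426238523876983697032784323695123565111921830352425080496473651754335717071444058164228790138576602183119496408946219501301040262885980597899077367852938864518525245933238500744044298567132996538995710889039144460264154303722615739678158828625568205116616741754911802046682277367912407867683382918269441305459834095880641148240013718753553751027907757567921803657961924244917856145750223409545366229559714601621901635632568623873744504514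295616138503809899506985559243364010466203002465436397176962907115073081811074125099264208376470184163019347740561905074890218791593757233072701834475606917758893957995914249713876385741233984436007674107315635071498164652008275212847592094496897270796448557894169555563758428109088896762586720594647248941021347772673264716870516133189299179859787279144154517656692487397589803207420392945331498325060035264644158896847488062603649138100169363644776323390580686797533039938233198728824852076414678490316901914433978436172226813194032971975979198105903505529412187617572864372652319657806664145095844305160328344585717598669830865501824366556583227316231686714790386733300255944993111064772044190337266844245669535789008543430518392185874752908320040591966975763680707707601872296234573982646505788556081633521810551179768867133479339001214487145189077726889569938395529034554370389175494428836425650026878524412708261025013075042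774171419985812704647158671735572995952289698609164531442474428581114453114206257357714652512999889053945559289099569853195943909203125441103840881710388314706370361708913015309977648075449467912737034184002404499171011455895368048976731241812912468806398236185724170211239812298717130174375175078337024160539241557079332824783325190455861027160758418048152898267720635035779661560587714600721481153722713912909560631666466506128237272133276624794996654102371178218825907746547511671801308843991420988066711772375788822423368293338805573665998463453125240129816198114812732068946250795601774637818941065625542835384809459674323366132310198912771509395370819856195962699346386191305178267467153282950251709511797426703022328845098174468240470383098838756549689834283798005025790512749173651084540770131980111744874635395690745896509840176521759822780792253013327839507885857008599700930659466798175722008523041708810013474347149473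481552078543727112524783769331489422380770034434282751165319559950883033671076680628346616654264634828994369014696887769721837194549840521973788945120846790529675147109750334003077185678450631234806354501739546116189550641550106136796050616316250925835195948295335986061679425502360744989468783682503334753090793056523770387123207303404374729818989893321583656490740787256608210077532111635999659544387856961022607814850644483100611431398463811828321083775941486285978472582854518189830924541667349334871876097704823538097994055474529350500684471657991140917314820513259275136644616280572853432268064657745078335925698560516641090132904285513492864312805068530496844257948695874124668071246769349780755422836047710633467911144298107593700369742014136013576175673770111921154967287495723424951864590026682393278882472337622370182014874779880283046710154087137214464443858113701144270814088141022072840286312247772272997965993061672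6038333084844122767882688281222382866357044273489658378872683032001992529183108320674385975235161310320444746437841882807000930117767150820646739143479341112616676875423080236313887055663277938728855687180534024382402810856376465999702594697330224845596155926882831809942452161784144640475210295467157930947424367790380493494041733174454786812495695943976703646669406022996622969312807121849859596302866514898314722280296944388630564992443229326771846652716596315596159285960176972588527273985163418246983476250684150368087163041992110043548788270036366762099978453765991950602571604066018818356952420196521001013373916624193445976398541285350320139690971589259127433516913367054513789235332359301794576263162047935382905440346590301999025435809156741924285675252877046350489976125785271404114375364454124559111534527080216253331294995985169664473457136512006674607205599612389285114435770230828724128388295614658148252958018491548715081309483179031558428322646814890183036399408879761498084116921796426301832821791759237626168482284312727723116990438538615263393024617242392201233757331244833913149860363682098114303011065500706218097698756864765362255180558379621181030400)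

noncomputable def rc12 : Nat := (nat_lit 46283015232799958330172117830495240593444902011117463129879158349435972169095233815311414456991009228993303405395934063411793085580872505663372896071234076512868957940587129294626084783761706774283028675287477745327219171766410878188447303671043827442071607808229306213848112221012988630896255591563138087753567480033716177815999680188817822932657811404621592750875553295592811409115914042626303502447486060506998690938912696444612212597523789781891560970580995391125485303760120537624080428033748753027320658636699669886333413541495223323262291294864235720766609747917671785180145421414706925002883343978606898795994875186909903830933901478581992974956810784501439799491888920147904143897568256888273736970442624352536765445519768367831129938742188400681136483857175086920599844844105675609758814611318251702542200036528762366534071683501248565064280415843086598437648460915438438326438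322948255193781402440929044915487310338870255268701332278755335997068339958589479181638387224624044881792514012224970988522441567114306011800414364195352807255689934861028967834548942190958528640612491528575110508615649157158077341673428045407028180456546626913914554272787229010605757938646251804232538767486452707577184713953203340231306784277603857387085715495099397523547459804513858213555147040385869612358575777040951578511381039046985066518890579616485896519980316126889700065606275750068401949057314973389168354292713253406598802626831843502315553704109904732374285983903554529294123220991012857416229321549495810155014691243903513052485534749806926864389565957132790695632433418963190694892597590241075559938722172729973417299524377483244584842177196211525831711631157382648557379265734563450305600597436481111002377889157346650874907543814464525275553969006216547947247746019408631498498848083390082337789213452249392134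498131602713200675076545758085839740014744047377776299277499107896634601369278505033194919626743230219843104123970992142666034256508898640904283992112885967552955156836932792834313380603717881323942539438911479550430837813521201308075510175066150271050657719562377005231679158286589377747416481981655646946609193445679709846881014498930321235001572013897680297819772958466289030625600905642675456937212642319126367456548977374620281741208387191155801876385551106289809564569408222278147167523929451316559086194806135622789575468901740506128798161994290034887580199946550675051341907483650406956485683779841686745749424585543807434205803703790186735960445071379921367756317581764553751390421328612000446354665410922959607959518009097647137262551760313243382242552778613164580256988108676884810527656804548146425162250309195476929142513176747640706141380181779819332617557272816035990583367536913993400470032459876928202285245417153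021951788563880867656417118891350470445605930601995716381286700978318198065109364437625328877465531290226719133361511214307542900472110425814127408341161384169109124353807269576161177508875567007079305566615114314979424125606198374010588441614156117008820755213748760266366090599256731708139875552355110472921902458541540168867662642372033680855543624599146946363948931740852299856761247880827748991205308600458177012581456988398503251735587956409873651376338196606117385733167030333481226513158403835953461537645953544126668706082560896154345261294521137724108829890508460039087994115959334037913579859389140600399127050920204945505461962662640684212701114014208790475357599805389418322830684339200329810674923871919007969518178195816614218650854244350369460538960047821826682125371131639148589798057701108332962947342041074631988902378249297656107384408102987286966940978174902842753733539644729611454948393541999967449582792699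810373154427259651849668027554859276409368301905182774848306385332975988344428468972090150263934752165446621883781601548326252984784916123890846207050453465473895718586103520346484818038979694011491466482332636235596714499917767057192175651346525007402995303645442170122491777207832877875245236485549849278476967863914862295387975575636211439385787813648188545141973642554916775292817637045973537899271633910713339971732317297436634646869500843134534032562642383828620293758027785785808515931361391269194252164293028461879561332127750777211181031604197601702791743271983114436738805479199241974938483169904094608651678407575867015104648966460672828747193670503554965045461363354597884244651530742397986833358830136939347308246655056237275470407329071939537905036714561161989095336670014252556973744827420433582009570046681321187523677695340013656558048416650441649816069111416249525365900997407544019931804292410027828431931278389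655694700645856841991165150468750634824878809105969620108685695354469808767413564660212258992100649101960260147683114159769356537018741224575490349648813398443331809896173652097032880055665101202448499213824975345154824622443410092073091684244721366896446900948347668382373382149404410204499595571877859681648415823412491157653310956042136523184137382686755116313884865180216477052001929979462204781039535468639247323987686818344574079065198593841533860797635075259958778773732610488322639729846360001283559939842564409094570815838335162559100488734653795242088214058542423428678823875530247389861180388069183261466128399011330456691958924602589141036233163721574398523305426390036172041080679411929017999405289210335430940260770455096099397025196504662937741517168146469996061310465890018031612624713062947012954206208776048377424586960300893455436871030997065242633320124181272250686313249152030177651676227691151750100056002467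654056966705319806427455791429285655376581535220835388326247843744366428619573300796326829424616293208928647474170183009536733448533506860552174592657622144071325421886012758766821914218903829385830986175342496404965238245300855932499006861349357626034924349874063728318708656508506794693566214205369962409875819762901297792566551340792484345894456213933141797420111166285588371379618003648123065834899110645404429926103076014224683984200089426196609964450340531704931023986108586534981355752064514594284853472209773721903696449396766999255316719828990194645469740922791183403933331662390633231776002173874757316843488091635866547919202776886092927553926460146180597884842964880451548452653123279313982834879616536156233784380630010351042263314163057565307840193733665406361191991302566786277983365964765125383384948698885644203331925342899773832454216509817242458247650543654482410375911596820898798623303908179448347832505743884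875436227619345997641756556397455259849236619867578136128349438038946240049212966504686270376691103844623394297584054094724058861121739162134324800038758119975940107182837901279880941281478092462492224443912634936780029474817364051006650335128094026260497772496151622909631918148965012080718891552510245946832201223445707466084848894171586567626218539385863160384223560811372166121625655358603320696813526407016825656296651486772835455763976094781838975337610382885393584382531566638192773369844102845435011931555501755075363588684442690020933031500416547343551367886753027391201280386745422761207187080610007304456403028422652738532116645263728370777935983264128610034791584865046776015103091950003642540546202754036652879627903442089975223971030884667926195203880092724711374421443492737500564388102586721190697469022073291623814210847089069881026394253707235886516777474117785758052574572267781145500301876387127846546991134877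916569512845824943895031945819227293873977920003362523737660734972350591273547741243851183148756528784345112106088267238490046615170311423525392064379504140346015026173153183364078556296200977341131929300791363946650834296264641297770119501238122171796680045980838305525601642058479555988764388033162251486521557724009119104124211033933422623882392095795028563227508277430765614416592431692931881331774920719680840417308976274200577007021792211690346094482182594953324072418761982371359321959547842818397851302228918564065182741881280098665692072991407108440080118779697309293653284196720145152810014065360416598092561023664167886804125979126892099528583803739561866238017130263928328410264911485565432342688016962094765204817676020799743654174520830829984964010794859855751525922400187366571043077411983008751188250209951374480716468875806649623806143734169102956411721747959917658419912471204496828405913573439509406910017138683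092065729935582663965912380941306053635962422677858289882188375412063070952823413473143873530935137303063981593898309901559390860007065978533140057328602845546691176150212694570541675747541942321566160681970399510165019220978427226545414198386922589173528492099308343053336989380048145330020403775880511013904801289121643444048397886192608188683722587529393919158948826856717450423242294341208265892341540125996287859846907446583157293443366076656805598671322417859378917303963764756093124435434329766377876425214976474010120739992555027062830798377794862303773268632213577801512150580949523395356587783527936829850068523100881792395643879846760178356702458098452196205122850618660735480376782125448606569151131377744353046111458115064391721392070081322045914632377092527712349911337263487661642352553937205751044901843137971447251140760588129021100417560140675003066295485516326773359084459337101531517409507192103079273412191536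069155887654322632416161388217515115885361442892537027300509313211446637914822487558418094500727633529764333695455580809673979928358020587863983386588747240299354106413168471336405095480004567282338080529739551442797443990895942152293915976268397946562398493024420242125546664466208749054617851611386873811565667109262655743281614965597073006536410875765025075716692181332356909937182311690434486363762228593394001318616549449015323433800831930181855771326139372681661442294006089709076341215114558277439117107632062239334875547786593391231936408500814968332886956224381380621434301294412105588469103889965566820474712727024923001874464556861557456829187782465145570647434805897279737096570942675844036981505641433558162972968044001304563603023537561608127621840590772214975320370072779521477208029174203796290702849582251436078852427318842876486073503331620877139178749596252837111874388135052750204898857115302177771217876580949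930575844966991650569566246682394522810643928896936274134377011934605230845651661858158461571906230042573546003517593054504009838769447094415992764984547328600858159819364485657147669600014495967998195976987991250320986082186035575738195275915312109258178485848992397906821429294472480758682765514482234806910854709846346210298341701275432050627335184827351383144473724167275034525319875939797676655787480004731943610726739177532313250620666772507023835192912984300114784092144164521772787118133527377743164163875263704617041501701527026894030123846821574487731090197637021129186692972395809553718093061877243408674712623680582585220835572372746576479856387969275175770895358598494156673921728726851808186379879540463302048931466215766627947089696712435327269516737808414929980943346121354327897881917462583610078630604389133133546356464387146205719879674708094835342668600503781469239339550708333329436154106766259519621748996416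614826639404686717988298092212809374201965967277590525947999655781065917580718803366887918383756402859150003181460709090261377835396249327074050659854939960277629688412772118779941774947908213654329637328347768930101017629463425861900041142395211987857942109381993590887533190462617107051593130365302588986597007630150077707122381697751601897619936841438547682044685781384406521636621969283961917843702014605924979370013239542667361014712498840642320790139570366556744355772460772380458953443025119515000603154639313511522368863552532324685556069061586222088763977488551699711356091779573165399227383979399293648557527604059563899348936996582140716072902951694608411798312842671157323968550339559849948496706847486748610508356106384605514626241190125046097892704127218582854413535502844928874229258410937345714225950544573513013232195151999217110836761241533040990111517489879458845431480837666312543854605194595095857741888830164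747163787984637431725461609370853403515715788973047290959607823489768401181898979007959958402533527175660832178301718973051781499145900852400384734928738751824136661524052697908693195979320101867406522530475964332246204344505199794665010254290135236059323424622893846168941107426279928037978811704681459397822147396757628140743243282852204573095289007190747134333676832930724870195853000423140401071280367245098636983295314642176661808674179749134781914940141778521372655984015160885699060921437454744966487158540542432967498581143173173659301755114612802062572678622941631626371944647776029313699945528005057949962379218878808589690377884900030187046548996411889908611709841651616456117570589761662468302839003498941196273753569932079943470036256680110240325708922567995261311060684893046189272899691496435811070403695264626009442523478243909135965087907074044561837468895606671680954364439000329107071221179415136430700469558431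977758891626117900555064013570834456427127000371663956947393150501529798980917750294978590533009001331383053221303941740860330267364777339918693843129683738728354506516985511987748855665771533821420070865031756458777268406104243724641815780338394588525656989900698313302651535138382772565985004510478870665149889395191200654570229643775024222331370963616861211990601296009657824386899552469480636925116956870498673900614742966795484714622999838390148813919120197091033919275045055214413376925239080527557847460017926728234551065939819400139371880543039295185110850151869818564005614813863928217771787229021096227536017823615855569194433893149124968980608247477964040278408502946489509629723748363249582653227146353266570244094047450689709787418185287145530766501749741454970133941547006834125575869910280318427365021307875449869067044047765858212678518417094095861122894630670073866832747184825461375288371637368290158644070150053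183025337088474390318533008619815742053248837084266102470477193086272694324757475398937987772518159774006320533338362228033414095938985590836204772394030119510867385284286971682760241141314493796067233616213699111725940962882901232779815917862659373489602368287059534488452373930965875232385321054610672544084483094606269113986137074235947848091536641836599023225115401186384922282462762915500583540778677488508658792690919845415760636085654497978697740593512970094973218356824726844834254271909579190926695239530384031844735297632994158218053834003813181989566438547347929539418038479008430573307403535307707562367848065377930279886540343425780656271037531008514405438071485273372184972850241622785897762079241113696651227053715357396655407061223548527124058599677635875594495173201252136233143756685212875000634133815941154820948506731856898391543278456462330931866920254127583496641389873664049392874010913526690793323270130337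3132754564326982438372992383669841794945252273379632112059087376533457234266208377060488755357142887815105088044749211723214806713152791069563896299003123529362117044830592229915258246975332726471300831631218179761331086934106045336712529695213500203470433043588612151131322660796984391629763489260691691653272783682717137316160162628174790520132846498346387241917636451948260409036070132496114952843796613718630573890144684666759927158279424852165568701435343415608548763460146647396702876463080088214077894851379527815999245053687537700805419640387681868963511653596663458615464120276648959146412363869544115330059361855251562683001197324257176370021606817835682430625354066790948813684709344532791500869786433930844054938647240913093439958496249788495458851101999934187295368488776711202342336422398665492259085463348837820755013088188628225022240845060167162271491268075386748254573175781427173820807726881217388846582375494643155647949240303463351218477932488307921775024366856174766111859073633229511541559476677414805195560302661593659038998507760701100761168273648447412051216549790001934681821781307432305307443273878700005083062984321569233805095054731414171811840)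

noncomputable def rc13 : Nat := (nat_lit 46491494303424479947481104364612424559608121260862330861966240477916285616894488595635249419282591034009160252848754116873984947768298250180000560070323646053216274127416191313587603141053323903114425651954195626629335027168676336841176562812180834288275118287876416194929474117913747381112324666551818735294671462662137439247426548491824476212396780394162205131400044162411557404501852325207180200940378554082855309717175550279600677430417844401202040839939013293765393371766278276870458479409454812614800415852415006993265442305080241125821628277759889033897776391546077034318657941010086093109535158753502760406186728390429786393140569126824089225178991434897641766044994258512108113088115436269505271543248266166780054774375815128561151868981195105800882481673069157161657402544001253894105176090053985345119875047245112989832197027860600777864850934743012261475607644584477686132997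680337732581534708991115821331740350585031223392250099341007776352983660537041780062820051988141158203085238006121775631920924914125528712483091001132627937526843989030957806057005170263887568421832169080843930736868680009867436871930921555152224591740451099661202155940905658215613577057802572116215548441544178071805950900190810850657252625671582863140536937487179391167864266235180462671848698015557884372553358286604345970928780683447298780854119436489771209454660043746073412448807000004483815232568745272714496512524372398667443473278745755114138158732252669864865657641129895260979190880919737904716534463144274011393413342167602694093384591320203279042518464056327061875206133253362727249907279018306383488225942792566082287552949748979503379918922093296043461010914287129803891095930696045988867350228522603178017846085695983995876342799664074117864597077037461606658605319553909403145528690360956807615635761288410031016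981394219442993577694198420020270330326785568214658397073392739326956241248347939713870279159128738019942623086416982347980336821745917112358779334193546826914306882787562542864392877899565393508071501876212154481117336257010145087566364029775492675546301337609084916373308178045935768432335564197826702546004148762172697815415990920859940829872860875390166547171664317604804055192679489625371173155966057729898160381626986839574229698137233988692237817461406979339846982243732867626595486442061267766869798365039571203186811971390024260477698226112488782437923835674447692664994122004845543262354019548842221623540011496988117909031477434087568129370269172889194868087637860988783244142385272783242773210834825988652566589380092918297790019828388486282115575430508328427745215928232793501200709241853896726241521332597350138775147253333898366877198198153329190561241296665022479786621805246663744954021680305755386220223356826479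348813198202462063614707924162213711784383342418001199164389377822948522209746488027110954578498521551440495340885977789340602976614004124482812772586266485308375395468399477551340867323253952955790065236805117098087434705816345924399595641553633765993238295915607553267134319692007446863544516403749347113761316498575645242728191211316235594272023885135030345872961395335782909860642969424873331099674512511945798990420548599494074908588081419103012774877521243606325475657918970955503939299750870142201814582073382041165477100478967134114930053605606392036106475455092282098304010501551041975855950342351483932698757583695415732047535674183485679612909640714270487341166451525284012262999779984335086350179716041134380921182834512193648189730054832596471948308859029416095575759867169089055928252894688668510758946504778450601976884802198961400009781339907052529936703043095448313813062513563396938533791061388224112811221435865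963445130623316183694235714980025616785828723576300442799500148479544589733198238808197206589530858335275830064026710991765520777400461683325273826328697661532434063422619546478917763210606954800820094940966907495261252422264925205161832522787957025680819813597173878909618275807467689481424804806644338742326015577232688950321786885479514414501555950410673453443580991058051852719935316071913100857379304755412840510843196293237935260424749064810094641211076344035206340543967158307568364700170671560237837057927186396639373377558760172417784334869438887341300468125710406221356968965945729433130573098152059528785639877498486645173339366498561902133713225409552534462352038128181226937143948164933445310887609978507846026597387557603096963182700685867075238232480369052136366362192804739896731805268043932342729003394238637818334271651781058059363366169147626948343846447656938459694129027281679587839367373275179608486676349387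168652528028592403347420219515845545691089045206277983479744114571022639655674833037869614760133514288794297482407262891350555110712413067098286401396186283037993556724101326318446577982120001269956925247977621107555085863732208442515232778791910019721356029478246724150559130094098682762022373664555150497625398307179094440634494868099625848651725230645986307109358411833583801272336259053770130820102081777255241819817880939345646003991099621023713994366255814349115901431638414002062511751636549871376671768284566578185672084089401522940656568673857503637631315704708489935318688355472851777934440249757410331188413619813909546046577785120620437050399383561716225332214144362241190650062001166220105836664166616661359191084366507319797361861424086046942277255203262804662426987033361977316210704099348856086400836135898995578873910340811003771466053481309149235209431107048688866571648052778768016779268717243344636551785217865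746411841672022607803046707160804701328970350260115560699157623052996831827022159843837308741647452217989891578818234181762384808130681870823707477951207331460743771945275959291407660870632540574535128392294111210221009916118582144738505592088233250228700059798817938853673608360921756833278537050448025772582558628086837404197078195631620005444748997167131023789342828600698430919617099633142942925400827339210614944426423566770597490904189934714871633237121903357957344713124416420590066880600176577531092085212212656643595594831324762028150250604844538405323802333069570170047131766643844261575784838125373481572885750394580002554277420404984548592345870765784811102103329578855033240219979436730294613127851506066423120058136879439499964227322900874596627076839100596438968582897989095482343168794736275478335363440117794454210922346082740142373231481071170213226866084146751622696616324289914306159113867301003867313945488730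606761949457484823157328634834560696600024731768415109574075632173116604565129784443256949518964487631215788291048215474622816436927727566324955153592435721989734550406267180998659859063927649926999890499856200665833120329904598070731164500592266008509322726425335503939507041170335243697465660405422656837167443893036613901590736712614804299306291088079336656737114329797468482221853592774847208983113961211481932800462708994310911326820975075893565548970486080455133497651032237882364751897409709802784780554896451311995771766723524419106057309896805107008721003833822525128219669636908803782387136310914314721205794811722825143760132052849227087458019867153358394373283169597935705990153637480007928136577076215249395155146004279385280187124453980907752480497356063691489477024484083316074400110384379174263683296579292295607463418551591261731756851732187746308004965315928999998283932354659437720333308634257911116482544123118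693088003829072302481633206158092336552196229041397846814344421762998765067539134442614576670977803934221786408278643646379999257061077728339533963687330736070325639032059436285501406016290687328242438647742832283188463288843845950603041745456093708390389919401323914915421967133604313390986152838888516167605921323356670587433143899107856200041768877418787257802729473107922988559850165933137861173159884893908798332228956171700417639080474869196939578771376127894871657795095507631186827899037568796950222669315869464415685048697346757392244700246395680723130913971352627322409801770538389541097280071360165792287232848888289985363830651936911009068864256242866935797647344089746154672920042220729332037536923127699381399684631201497905384757718083344528929366694486499152314986298262667243518123882165808804304139613619876105560737925107147992799943759308992956639998527353951869321924462028722628450709068598959195046754727402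490921959788022973729218765052057862430807952011211217981078449014295272003587890263699837726227491778752600447985482473181231041680464152007524447175176502898167503195277403648140506089289783144834173139600690996549428008873725951227843613385822744052800591409277576371992986887230989418109597531669348482708304789015212828935804159451492570169865777731272050930569570804370949575513369189918076477122761612315036052408157563065082263362640334267267362656211093631445538103188565188428288458544665079489178765244330509206933649879926237412691453713800881673735369587483940412970975956257192639857697518804263347867751815560611519420536662929003942612741734557234908378195951744285375499420841762640098395678419239582579938236540552359245991534102097312543263864771301044505697280823033926357282308020548230490757214445630428176025682538398279636403159088189969127334282442200386741741699059677293494378554869312568541912378622341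401067327128013097679243921201692965324186020879533574964444804167035130670609449950982542316405294724786958449322785504070896291435441286669142049920678127265338637952769598639321818717072567986622505164236474614719676171364651921244423284935237429187692630689513494782780570832588206184292000391187976179032906944557890225324867105275146799387047714789630442021028162912141778262719278617506750675005526333110065494441777870079624821443280414330064211543174658998353297725125056615321260116057263902677215034838841979565858313102131515792206784441031811408241252520457499205980177964683834525675232019070562747535910036471778574609885610146217592184798469881978507116685530882027039571805953809672700603302640790352259760191459116008792220188101001442629705530616740157636803442307305968058351462630273248401621516819507652036247896417550849673201987332979979079379339437220449696645699534680169704870107830033080315708909648045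075027089928076837380370960109321365368470617614938018811908942734425386148185613528640613216840479318548772740076653683034213372851630438472914711637063879197320526763487669835129281727448349829709530338078060526194645414250576108354233802844615185912789467684542344699831048593671569361652546715934200305869082272677697656104210924807177713662329144049394311964702394005902560462314653795754636926718078794690401127387437551244711407568306817298319161874046844244128007909381727276092659089482077084150207403723895642152587673799064089087262832408302946441525068273667585657478569456365286280156853562499440582896445102350564224730335689373816139179506268084500708222395336904851167957236105933155586073738087918475892101189718034278480397756636547885926363904417408357872095837383338226634866842590877774418546126955972675911805776921461096640600316315862105938138863586720584641682191412571826146603032062432219381913871621310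915549325878580293373334876596639689709489268561864424633914280026519680044774874142114351594189998920786504326926213134954803672311015906061419939023287531038758458918760749174941625780165058965108278781204598758333033697463305923032601953685713440943789131623803397234310981811782502814597654232252761200359435110332220094343737058021858187232634763983195383321030116345941036552634690139460788425012423568651915002301307852652189152295809514020177552479558713598011075670953822664925992040379851297494048798068590581627437548403886630867322473144293280739769625848913381979408280753492812754930113506139389564526137720885819569885568912317515335527708673631257747446933545590906906239391501131382932787801327809931916608957852208067884559256470632846795888965822300261027398911079315868614979924370130895129031371112647227872497024369804954664465691563108952639002465386012288099620729595032586900930231793336359095127836937609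303326378244844600536638072249370308180059691743398219208902577520156262187059336222172896635424295127976373010913865843564055877505071824020620172266384885256870528903294652694421182145605236207188314351422453972780740658882283650226168608907247031121857252522068843978181190398413162331661019805579530553272059063881820774480187597595543637202232711322983540692519935314076345043291789424081475062815243259248241473349379257894286279800287173234976880297230251651246455040851638987386629039635467492728759087211580431800989822241083735843758968580029245918420906782984959647709191587031603294399203839998865417765160346095697753377192420703606066614000639073985494169471072242944608286643324095851262213041769643284435700641897288353560777801985211898879642586257016821914487019564696654820202912262332089722486582088308246759206795209232287422968981110179137130880649030075428645109598430085997988641539768747272857644108987638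517137111572200841917574551279186125205944721867048552826062141872516843042371324024808636739391585500760545337440720300053304447810679872954156279398360128230078688437590482499338570469445863553694982776513537786629839899328718795254777512734413462676034586458862097720781184156909742061607671287366970303763634776891002350103341845057557664712849738743472848429840037031270151364988968673448453789869883965587057449174069746717555346613089467067682994062251646248534754385775134745506275571534541925823187224656211085168417108225819569464010557311441066286391174847644607118049751737355146532813413985012613274873059437712435016945263846433503886440710652108271365779069700222503018412789875236735058679404705103311986200295271104990745164810121865224273955963522916303958633290592803550806209516280349889257053113039546055363585149824922898650440690514007894006784527648616319185091700372809240938181795725316802898852244398719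304633853970826380847080350915115724394161036229957043302435854405020546374760283192413042144340406581089550243437369597712613241650924685204776055641084920391239727761065408340733084258736416788746994420006970066777827881944879273660493385059046488806899766613719136603890103697234097994659838773163800427039101258821235037544099671809748857043013591012372190732902392850626687583782227297658314010207201053009411459852511256304844184009372751070417942206460682565091281345908309413728020815782995030282283982967740588474483172792841208793130091741005584533283693098673822631866448064334931918004462960653028853688973118266494538577240630003467382197783364990266445670989685023141112895229213529360490230983090562198343971289504741693817820788295950493058449624590877580708217082320306860813138918254207283623025509845258461503550538362664047953932935917701472031455144105032534418421187764836448683966743761169457781157411612489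0952328013984999304076495268545280785877435080196445022155665988286234163345587555529516633202078716586458146529874880271564032363722843360185889819615000193984710876013590811556134663837896823937523143859487277944717233842690321357106126892367375371538077643191780960215755764365118234288202538523528888090618543617192793657377850343837234785660668057768988396157028225733297660478222681096400152080737152416184664488916454113386395498432157523701996557193551385518540148103083404093969672774904358423443656643820870359228128087860085558395568319034602057157365826264875607847648516174978773782766602307456042250591525604321943537435043355328263333887191173484138826719645460419030969456357104164710132284845126415538396948885861961973228606240188952259839932692721342045665503210007798363923107286875614048287615075590920217508884121452965626177391997501722071140748874545517680831821055513286035531090780272405290879620347469270716047569873122100635084553021242675885614843885270647443939834970736339167889888667238722990767924406704423156085590647329518102253932909803637905215619754030828127527324940502530111152545366399921530561509449396602748177857893323531047927808)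

end Vale.Agent.Lib.P154.PChain.BH.S8
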